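import Crest.Agent.R288.VI_684

/-!
# R288: the epoch recursion of #4352 ("from above"), pointwise form

Post 288-552 (#4609).  Functions of (macro height `i`, node `j`, ends `u v : ℤ`), conventions of
`VI_684` (`dz`, `Coer`, `Lip`, `stair f n j m = ∑ t < 2^n, f (2^n j + t) (m t) (m (t+1))`).

* `psi F u v = (v-u)²/F`, `phi = psi + 2F` (potential), `phi_lip` (5-Lipschitz), `phi_le : phi ≤ 3F`.
* `En` : energy of a staircase, `En_eq : En = ∑ F_t (d_t/F_t - θ)²`, `En_nonneg`.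
* `phi_step` : `∑ phi(pieces) - phi ≥ En + drift⁺ - 2ψ` for EVERY staircase (`F ≤ ∑ F + ψ`).
* `reg_le` : a regret `κ F`, `+ k₁ (F + ∑ F)` if the staircase is bad, is at most
  `κ F + λ (∑ phi - phi) + 3 λ ψ`, `λ = 3 k₁ / τ`.
* `Ep` : the hypotheses on one epoch at single states (retired / far / continue at a rounded,
  re-labelled state with a rounded staircase).
* `mass sel f` : mass of `f` over the antichains of the exact tree (`sel` = optimal staircases).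
* `Ep.main` : `X x ≤ (1 + 6δ + iκ₂) dist(x, x*) + (1 + 6δ) G(x*) + (2/C_D + iκ₂) mass f (x*)` for all
  `x`, `x*` of a node;  `Ep.mass_next` : one number per epoch;  `epochs` : iteration.
-/

set_option autoImplicit false

namespace Crest.Agent.R288.AbovG552

open Finset Crest.Agent.R288.VI684

/-! ## The potential -/

/-- `(v-u)²/F` -/
noncomputable def psi (F : ℤ → ℤ → ℝ) (u v : ℤ) : ℝ := ((v : ℝ) - u) ^ 2 / F u v

/-- the potential -/
noncomputable def phi (F : ℤ → ℤ → ℝ) (u v : ℤ) : ℝ := psi F u v + 2 * F u v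

/-- tangent inequality of the perspective function -/
theorem persp {a F t : ℝ} (hF : 0 ≤ F) (ha : |a| ≤ F) : 2 * t * a - t ^ 2 * F ≤ a ^ 2 / F := by
  rcases hF.eq_or_lt with h0 | h0
  · rw [← h0] at ha ⊢
    have : a = 0 := abs_eq_zero.1 (le_antisymm ha (abs_nonneg _))
    simp [this]
  · rw [le_div_iff₀ h0]
    nlinarith [sq_nonneg (a - t * F)]

theorem persp_eq {a F : ℝ} (hF : 0 ≤ F) (ha : |a| ≤ F) :
    a ^ 2 / F = 2 * (a / F) * a - (a / F) ^ 2 * F := by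
  rcases hF.eq_or_lt with h0 | h0
  · rw [← h0] at ha ⊢
    have : a = 0 := abs_eq_zero.1 (le_antisymm ha (abs_nonneg _))
    simp [this]
  · field_simp
    ring

theorem abs_div_le_one {a F : ℝ} (hF : 0 ≤ F) (ha : |a| ≤ F) : |a / F| ≤ 1 := by
  rw [abs_div, abs_of_nonneg hF]
  exact div_le_one_of_le₀ ha hF

theorem sq_div_le {a F : ℝ} (hF : 0 ≤ F) (ha : |a| ≤ F) : a ^ 2 / F ≤ F := by
  rcases hF.eq_or_lt with h0 | h0
  · rw [← h0]; simp
  · rw [div_le_iff₀ h0, ← sq, ← sq_abs]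
    exact pow_le_pow_left₀ (abs_nonneg _) ha 2

theorem persp_lip {a F a' F' : ℝ} (hF : 0 ≤ F) (ha : |a| ≤ F) (hF' : 0 ≤ F') (ha' : |a'| ≤ F') :
    a ^ 2 / F ≤ a' ^ 2 / F' + (2 * |a - a'| + |F - F'|) := by
  have h1 := persp_eq hF ha
  have h2 := persp (t := a / F) hF' ha'
  have h3 := abs_div_le_one hF ha
  set t := a / F with ht
  have h4 : t * (a - a') ≤ |a - a'| := by
    calc t * (a - a') ≤ |t * (a - a')| := le_abs_self _
      _ = |t| * |a - a'| := abs_mul _ _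
      _ ≤ 1 * |a - a'| := mul_le_mul_of_nonneg_right h3 (abs_nonneg _)
      _ = _ := one_mul _
  have h5 : t ^ 2 ≤ 1 := by
    rw [← sq_abs]
    exact pow_le_one₀ (abs_nonneg _) h3
  have h6 : -(t ^ 2 * (F - F')) ≤ |F - F'| := by
    calc -(t ^ 2 * (F - F')) ≤ |t ^ 2 * (F - F')| := neg_le_abs _
      _ = t ^ 2 * |F - F'| := by rw [abs_mul, abs_of_nonneg (sq_nonneg t)]
      _ ≤ 1 * |F - F'| := mul_le_mul_of_nonneg_right h5 (abs_nonneg _)
      _ = _ := one_mul _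
  nlinarith [h1, h2, h4, h6]

section
variable {F : ℤ → ℤ → ℝ}

theorem coer_abs (hc : Coer F) (u v : ℤ) : |(v : ℝ) - u| ≤ F u v := by
  have := hc u v
  rwa [dz, abs_sub_comm] at this

theorem psi_nonneg (hc : Coer F) (u v : ℤ) : 0 ≤ psi F u v :=
  div_nonneg (sq_nonneg _) (hc.nonneg u v)

theorem psi_le (hc : Coer F) (u v : ℤ) : psi F u v ≤ F u v :=
  sq_div_le (hc.nonneg u v) (coer_abs hc u v)

theorem phi_nonneg (hc : Coer F) (u v : ℤ) : 0 ≤ phi F u v := by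
  have := psi_nonneg hc u v
  have := hc.nonneg u v
  unfold phi
  linarith

theorem phi_le (hc : Coer F) (u v : ℤ) : phi F u v ≤ 3 * F u v := by
  have := psi_le hc u v
  unfold phi
  linarith

theorem phi_lip (hc : Coer F) (hl : Lip F) (u v u' v' : ℤ) :
    phi F u v ≤ phi F u' v' + 5 * (dz u u' + dz v v') := by
  have h1 := persp_lip (hc.nonneg u v) (coer_abs hc u v) (hc.nonneg u' v') (coer_abs hc u' v')
  have h2 := hl u v u' v'
  have h3 := hl u' v' u v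
  rw [dz_comm u' u, dz_comm v' v] at h3
  have h4 : |F u v - F u' v'| ≤ dz u u' + dz v v' := by
    rw [abs_le]
    constructor <;> linarith
  have h5 : |((v : ℝ) - u) - ((v' : ℝ) - u')| ≤ dz u u' + dz v v' := by
    have : ((v : ℝ) - u) - ((v' : ℝ) - u') = ((v : ℝ) - v') - ((u : ℝ) - u') := by ring
    rw [this]
    calc |((v : ℝ) - v') - ((u : ℝ) - u')| ≤ |(v : ℝ) - v'| + |(u : ℝ) - u'| := abs_sub _ _
      _ = dz u u' + dz v v' := by unfold dz; ring
  unfold phi psi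
  linarith

end

/-! ## One window -/

section window
variable (n : ℕ) (F : ℕ → ℤ → ℤ → ℝ) (Fx : ℤ → ℤ → ℝ) (j : ℕ) (m : ℕ → ℤ)

/-- slope of the window start (ends `m 0`, `m (2^n)`) -/
noncomputable def theta : ℝ := ((m (2 ^ n) : ℝ) - m 0) / Fx (m 0) (m (2 ^ n))

/-- growth of `F` along the staircase -/
noncomputable def drift : ℝ := stair F n j m - Fx (m 0) (m (2 ^ n))

/-- energy of the staircase -/
noncomputable def En : ℝ :=
  stair (fun t => psi (F t)) n j m - psi Fx (m 0) (m (2 ^ n))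
    + theta n Fx m ^ 2 * drift n F Fx j m

theorem stair_sub (m : ℕ → ℤ) (N : ℕ) :
    ∑ t ∈ range N, ((m (t + 1) : ℝ) - m t) = (m N : ℝ) - m 0 :=
  Finset.sum_range_sub (fun t => (m t : ℝ)) N

variable {n F Fx j m}

theorem En_eq (hc : ∀ t, Coer (F t)) (hx : Coer Fx) :
    En n F Fx j m = ∑ t ∈ range (2 ^ n), F (2 ^ n * j + t) (m t) (m (t + 1)) *
      (((m (t + 1) : ℝ) - m t) / F (2 ^ n * j + t) (m t) (m (t + 1)) - theta n Fx m) ^ 2 := by
  set θ := theta n Fx m with hθ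
  have key : ∀ t ∈ range (2 ^ n), F (2 ^ n * j + t) (m t) (m (t + 1)) *
      (((m (t + 1) : ℝ) - m t) / F (2 ^ n * j + t) (m t) (m (t + 1)) - θ) ^ 2
      = psi (F (2 ^ n * j + t)) (m t) (m (t + 1)) - 2 * θ * ((m (t + 1) : ℝ) - m t)
        + θ ^ 2 * F (2 ^ n * j + t) (m t) (m (t + 1)) := by
    intro t _
    have h0 := (hc (2 ^ n * j + t)).nonneg (m t) (m (t + 1))
    have h1 := coer_abs (hc (2 ^ n * j + t)) (m t) (m (t + 1))
    unfold psi
    generalize F (2 ^ n * j + t) (m t) (m (t + 1)) = Ft at h0 h1 ⊢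
    generalize (m (t + 1) : ℝ) - m t = d at h1 ⊢
    rcases h0.eq_or_lt with h | h
    · rw [← h] at h1 ⊢
      have : d = 0 := abs_eq_zero.1 (le_antisymm h1 (abs_nonneg _))
      simp [this]
    · field_simp
      ring
  rw [sum_congr rfl key, sum_add_distrib, sum_sub_distrib, ← mul_sum, ← mul_sum, stair_sub]
  have h2 : ((m (2 ^ n) : ℝ) - m 0) = θ * Fx (m 0) (m (2 ^ n)) := by
    rw [hθ, theta]
    have h0 := hx.nonneg (m 0) (m (2 ^ n))
    have h1 := coer_abs hx (m 0) (m (2 ^ n))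
    rcases h0.eq_or_lt with h | h
    · rw [← h] at h1 ⊢
      have : ((m (2 ^ n) : ℝ) - m 0) = 0 := abs_eq_zero.1 (le_antisymm h1 (abs_nonneg _))
      simp [this]
    · rw [div_mul_cancel₀ _ h.ne']
  have h3 : psi Fx (m 0) (m (2 ^ n)) = θ ^ 2 * Fx (m 0) (m (2 ^ n)) := by
    unfold psi
    rw [h2]
    have h0 := hx.nonneg (m 0) (m (2 ^ n))
    rcases h0.eq_or_lt with h | h
    · rw [← h]; simp
    · field_simp
  rw [h2]
  unfold En drift
  rw [h3]
  unfold stair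
  ring

theorem En_nonneg (hc : ∀ t, Coer (F t)) (hx : Coer Fx) : 0 ≤ En n F Fx j m := by
  rw [En_eq hc hx]
  exact sum_nonneg fun t _ => mul_nonneg ((hc _).nonneg _ _) (sq_nonneg _)

/-- **one-window inequality of the potential** -/
theorem phi_step (hx : Coer Fx) {ψ : ℝ} (hψ : 0 ≤ ψ)
    (hsub : Fx (m 0) (m (2 ^ n)) ≤ stair F n j m + ψ) :
    En n F Fx j m + max (drift n F Fx j m) 0 - 2 * ψ
      ≤ stair (fun t => phi (F t)) n j m - phi Fx (m 0) (m (2 ^ n)) := by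
  have h1 : stair (fun t => phi (F t)) n j m
      = stair (fun t => psi (F t)) n j m + 2 * stair F n j m := by
    unfold stair phi
    rw [sum_add_distrib, mul_sum]
  have h2 : stair (fun t => phi (F t)) n j m - phi Fx (m 0) (m (2 ^ n))
      = En n F Fx j m + (2 - theta n Fx m ^ 2) * drift n F Fx j m := by
    rw [h1]
    unfold En phi drift
    ring
  have h3 : theta n Fx m ^ 2 ≤ 1 := by
    rw [← sq_abs]
    exact pow_le_one₀ (abs_nonneg _)
      (abs_div_le_one (hx.nonneg _ _) (coer_abs hx _ _))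
  have h4 : -ψ ≤ drift n F Fx j m := by
    unfold drift
    linarith
  rw [h2]
  rcases le_total 0 (drift n F Fx j m) with h | h
  · rw [max_eq_left h]
    nlinarith
  · rw [max_eq_right h]
    nlinarith [sq_nonneg (theta n Fx m)]

/-- a staircase is good: small energy, small drift, small defect -/
def Good (n : ℕ) (F : ℕ → ℤ → ℤ → ℝ) (Fx : ℤ → ℤ → ℝ) (j : ℕ) (m : ℕ → ℤ) (τ ψ : ℝ) : Prop :=
  En n F Fx j m ≤ τ * Fx (m 0) (m (2 ^ n)) ∧ drift n F Fx j m ≤ τ * Fx (m 0) (m (2 ^ n)) ∧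
    ψ ≤ τ * Fx (m 0) (m (2 ^ n))

/-- **the regret of a window is paid by the potential** -/
theorem reg_le (hc : ∀ t, Coer (F t)) (hx : Coer Fx) {ψ τ κ k₁ r : ℝ} (hψ : 0 ≤ ψ)
    (hτ : 0 < τ) (hτ1 : τ ≤ 1) (hk : 0 ≤ k₁)
    (hsub : Fx (m 0) (m (2 ^ n)) ≤ stair F n j m + ψ)
    (hgood : Good n F Fx j m τ ψ → r ≤ κ * Fx (m 0) (m (2 ^ n)))
    (hbad : r ≤ κ * Fx (m 0) (m (2 ^ n)) + k₁ * (Fx (m 0) (m (2 ^ n)) + stair F n j m)) :
    r ≤ κ * Fx (m 0) (m (2 ^ n)) + 3 * k₁ / τ *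
      (stair (fun t => phi (F t)) n j m - phi Fx (m 0) (m (2 ^ n)))
      + 3 * (3 * k₁ / τ) * ψ := by
  have hE := En_nonneg (n := n) (j := j) (m := m) hc hx
  have hP := phi_step (n := n) (F := F) (j := j) (m := m) hx hψ hsub
  have hF := hx.nonneg (m 0) (m (2 ^ n))
  have hlam : 0 ≤ 3 * k₁ / τ := by positivity
  set D := drift n F Fx j m with hD
  set E := En n F Fx j m with hEd
  have hm0 : 0 ≤ max D 0 := le_max_right _ _
  have hmD : D ≤ max D 0 := le_max_left _ _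
  set S := E + max D 0 + ψ with hS
  have hS0 : 0 ≤ S := by positivity
  have h1 : 3 * k₁ / τ * S ≤ 3 * k₁ / τ *
      (stair (fun t => phi (F t)) n j m - phi Fx (m 0) (m (2 ^ n))) + 3 * (3 * k₁ / τ) * ψ := by
    have := mul_le_mul_of_nonneg_left hP hlam
    nlinarith
  by_cases hg : Good n F Fx j m τ ψ
  · have h2 := hgood hg
    have h3 : 0 ≤ 3 * k₁ / τ * S := mul_nonneg hlam hS0
    linarith
  · have h2 : τ * Fx (m 0) (m (2 ^ n)) ≤ S := by
      by_contra hcon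
      push Not at hcon
      refine hg ⟨?_, ?_, ?_⟩ <;> rw [← hEd] at * <;> linarith
    have h3 : Fx (m 0) (m (2 ^ n)) ≤ S / τ := by
      rw [le_div_iff₀ hτ]
      linarith
    have h4 : stair F n j m = Fx (m 0) (m (2 ^ n)) + D := by
      rw [hD, drift]; ring
    have h5 : S ≤ S / τ := by
      rw [le_div_iff₀ hτ]
      nlinarith
    have h6 : Fx (m 0) (m (2 ^ n)) + stair F n j m ≤ 3 * (S / τ) := by
      rw [h4]
      linarith
    have h7 : k₁ * (Fx (m 0) (m (2 ^ n)) + stair F n j m) ≤ 3 * k₁ / τ * S := by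
      calc _ ≤ k₁ * (3 * (S / τ)) := mul_le_mul_of_nonneg_left h6 hk
        _ = _ := by ring
    linarith

end window

/-! ## Staircases -/

/-- changing a staircase: only the distances of the cuts count -/
theorem stair_le_of_dz {n : ℕ} {g h : ℕ → ℤ → ℤ → ℝ} {j : ℕ} {a s : ℝ} (ha : 0 ≤ a) (hs : 0 ≤ s)
    {m m' : ℕ → ℤ}
    (hgh : ∀ t < 2 ^ n, g (2 ^ n * j + t) (m t) (m (t + 1)) ≤ a * (dz (m t) (m' t)
      + dz (m (t + 1)) (m' (t + 1))) + h (2 ^ n * j + t) (m' t) (m' (t + 1)))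
    (hd : ∀ t, 0 < t → t < 2 ^ n → dz (m t) (m' t) ≤ s) :
    stair g n j m ≤ a * (dz (m 0) (m' 0) + dz (m (2 ^ n)) (m' (2 ^ n)) + 2 * 2 ^ n * s)
      + stair h n j m' := by
  have h1 : stair g n j m ≤ ∑ t ∈ range (2 ^ n), (a * (dz (m t) (m' t)
      + dz (m (t + 1)) (m' (t + 1))) + h (2 ^ n * j + t) (m' t) (m' (t + 1))) :=
    sum_le_sum fun t ht => hgh t (mem_range.1 ht)
  rw [sum_add_distrib, ← mul_sum, sum_add_distrib] at h1
  have hN : 0 < 2 ^ n := Nat.two_pow_pos n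
  obtain ⟨N, hNN⟩ : ∃ N, 2 ^ n = N + 1 := ⟨2 ^ n - 1, by omega⟩
  have h2 : ∑ t ∈ range (2 ^ n), dz (m t) (m' t) ≤ dz (m 0) (m' 0) + N * s := by
    rw [hNN, sum_range_succ']
    have : ∑ t ∈ range N, dz (m (t + 1)) (m' (t + 1)) ≤ ∑ _t ∈ range N, s :=
      sum_le_sum fun t ht => hd _ (by omega) (by have := mem_range.1 ht; omega)
    rw [sum_const, card_range, nsmul_eq_mul] at this
    linarith
  have h3 : ∑ t ∈ range (2 ^ n), dz (m (t + 1)) (m' (t + 1))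
      ≤ dz (m (2 ^ n)) (m' (2 ^ n)) + N * s := by
    rw [hNN, sum_range_succ]
    have : ∑ t ∈ range N, dz (m (t + 1)) (m' (t + 1)) ≤ ∑ _t ∈ range N, s :=
      sum_le_sum fun t ht => hd _ (by omega) (by have := mem_range.1 ht; omega)
    rw [sum_const, card_range, nsmul_eq_mul] at this
    linarith
  have h4 : (N : ℝ) ≤ 2 ^ n := by
    have : (N : ℝ) + 1 = 2 ^ n := by exact_mod_cast hNN.symm
    linarith
  have h5 : (N : ℝ) * s ≤ 2 ^ n * s := mul_le_mul_of_nonneg_right h4 hs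
  have h6 : a * (∑ t ∈ range (2 ^ n), dz (m t) (m' t)
      + ∑ t ∈ range (2 ^ n), dz (m (t + 1)) (m' (t + 1)))
      ≤ a * (dz (m 0) (m' 0) + dz (m (2 ^ n)) (m' (2 ^ n)) + 2 * 2 ^ n * s) :=
    mul_le_mul_of_nonneg_left (by linarith) ha
  unfold stair at h1 ⊢
  linarith

/-- moving the two ends of a staircase -/
def ends (n : ℕ) (m : ℕ → ℤ) (u v : ℤ) : ℕ → ℤ := fun t => if t = 0 then u else
  if t = 2 ^ n then v else m t

theorem ends_zero (n : ℕ) (m : ℕ → ℤ) (u v : ℤ) : ends n m u v 0 = u := by simp [ends]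

theorem ends_last (n : ℕ) (m : ℕ → ℤ) (u v : ℤ) : ends n m u v (2 ^ n) = v := by
  have : (2 : ℕ) ^ n ≠ 0 := by positivity
  simp [ends]

theorem ends_mid {n : ℕ} (m : ℕ → ℤ) (u v : ℤ) {t : ℕ} (h0 : 0 < t) (h1 : t < 2 ^ n) :
    ends n m u v t = m t := by
  simp [ends, h0.ne', h1.ne]

theorem stair_ends {n : ℕ} {g : ℕ → ℤ → ℤ → ℝ} (hg : ∀ t, Lip (g t)) (j : ℕ) (m : ℕ → ℤ)
    (u v : ℤ) : stair g n j (ends n m u v)
      ≤ stair g n j m + (dz u (m 0) + dz v (m (2 ^ n))) := by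
  have h := stair_le_of_dz (n := n) (g := g) (h := g) (j := j) (a := 1) (s := 0) zero_le_one le_rfl
    (m := ends n m u v) (m' := m)
    (fun t _ => by
      have := hg (2 ^ n * j + t) (ends n m u v t) (ends n m u v (t + 1)) (m t) (m (t + 1))
      linarith)
    (fun t h0 h1 => by rw [ends_mid m u v h0 h1, dz_self])
  rw [ends_zero, ends_last] at h
  linarith

/-! ## Mass over the antichains of the exact tree -/

/-- `sel i j u v` = staircase chosen at the state `(i + 1, j, u, v)` -/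
def mass (n : ℕ) (sel : ℕ → ℕ → ℤ → ℤ → ℕ → ℤ) (f : ℕ → ℕ → ℤ → ℤ → ℝ) :
    ℕ → ℕ → ℤ → ℤ → ℝ
  | 0, j, u, v => f 0 j u v
  | i + 1, j, u, v => max (f (i + 1) j u v)
      (∑ t ∈ range (2 ^ n), mass n sel f i (2 ^ n * j + t) (sel i j u v t) (sel i j u v (t + 1)))

theorem le_mass (n : ℕ) (sel : ℕ → ℕ → ℤ → ℤ → ℕ → ℤ) (f : ℕ → ℕ → ℤ → ℤ → ℝ)
    (i j : ℕ) (u v : ℤ) : f i j u v ≤ mass n sel f i j u v := by
  cases i with
  | zero => exact le_rfl
  | succ i => exact le_max_left _ _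

theorem stair_mass (n : ℕ) (sel : ℕ → ℕ → ℤ → ℤ → ℕ → ℤ) (f : ℕ → ℕ → ℤ → ℤ → ℝ)
    (i j : ℕ) (u v : ℤ) :
    stair (mass n sel f i) n j (sel i j u v) ≤ mass n sel f (i + 1) j u v := le_max_right _ _

/-- optimal staircases of the exact values `G` -/
structure Sel (n : ℕ) (G : ℕ → ℕ → ℤ → ℤ → ℝ) (sel : ℕ → ℕ → ℤ → ℤ → ℕ → ℤ) : Prop where
  zero : ∀ i j u v, sel i j u v 0 = u
  last : ∀ i j u v, sel i j u v (2 ^ n) = v
  opt : ∀ i j u v, stair (G i) n j (sel i j u v) ≤ G (i + 1) j u v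

/-! ## One epoch -/

/-- the numerical parameters of an epoch -/
structure Par where
  b : ℝ
  δ : ℝ
  CD : ℝ
  κ : ℝ
  k₁ : ℝ
  τ : ℝ
  η : ℝ
  J : ℝ

namespace Par
variable (p : Par)

/-- `λ = 3 k₁ / τ` -/
noncomputable def lam : ℝ := 3 * p.k₁ / p.τ

/-- `κ₂ = κ + 3 λ / J + 3 η` -/
noncomputable def κ₂ : ℝ := p.κ + 3 * p.lam / p.J + 3 * p.η

/-- admissible parameters -/
structure Ok : Prop where
  b0 : 0 ≤ p.b
  δ0 : 0 ≤ p.δ
  CD2 : 2 ≤ p.CD
  κ0 : 0 ≤ p.κ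
  k0 : 0 ≤ p.k₁
  τ0 : 0 < p.τ
  τ1 : p.τ ≤ 1
  η0 : 0 ≤ p.η
  J0 : 0 < p.J
  small : 5 * p.lam + p.κ + 3 * p.lam / p.J ≤ 1
  b1 : 1 + p.b + 3 * p.lam ≤ 2
  bδ : (1 + p.b + 3 * p.lam) * (1 + 5 * p.δ) ≤ 1 + 6 * p.δ

variable {p}

theorem Ok.lam0 (h : p.Ok) : 0 ≤ p.lam := by
  have := h.k0
  have := h.τ0
  unfold lam
  positivity

theorem Ok.κ₂0 (h : p.Ok) : 0 ≤ p.κ₂ := by
  have := h.lam0
  have := h.κ0
  have := h.η0
  have := h.J0
  unfold κ₂
  positivity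

end Par

/-- a state at which the player retires for free, up to `1 + 5δ` -/
def R1 (p : Par) (G F X : ℤ → ℤ → ℝ) (u v : ℤ) : Prop :=
  X u v ≤ (1 + p.b) * F u v ∧ F u v ≤ (1 + 5 * p.δ) * G u v

/-- a state at which `F` jumps up at the next window -/
def R2 (p : Par) (n : ℕ) (F : ℕ → ℤ → ℤ → ℝ) (Fx X : ℤ → ℤ → ℝ) (j : ℕ) (u v : ℤ) : Prop :=
  X u v ≤ (1 + p.b) * Fx u v ∧
    ∀ m : ℕ → ℤ, m 0 = u → m (2 ^ n) = v → p.CD * Fx u v ≤ stair F n j m

/-- a continuing state: for all cuts `m` there are a rounded state and a rounded staircase `m'`,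
close to `m`, such that the cost is at most the cost of `m'` plus a regret -/
def Ct (p : Par) (n : ℕ) (F X : ℕ → ℤ → ℤ → ℝ) (fx Fx Xx : ℤ → ℤ → ℝ) (j : ℕ) (u v : ℤ) : Prop :=
  ∀ m : ℕ → ℤ, ∃ (m' : ℕ → ℤ) (r s : ℝ), dz u (m' 0) + dz v (m' (2 ^ n)) ≤ s ∧
    (∀ t, 0 < t → t < 2 ^ n → dz (m' t) (m t) ≤ s) ∧
    (2 * 2 ^ n + 2) * s ≤ p.η * Fx u v ∧
    Xx u v ≤ dz u (m' 0) + dz v (m' (2 ^ n)) + stair X n j m' + r + p.η * Fx u v ∧
    (Good n F Fx j m' p.τ (fx (m' 0) (m' (2 ^ n)) / p.J) →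
      r ≤ p.κ * Fx (m' 0) (m' (2 ^ n))) ∧
    r ≤ p.κ * Fx (m' 0) (m' (2 ^ n)) + p.k₁ * (Fx (m' 0) (m' (2 ^ n)) + stair F n j m')

/-- hypotheses on one epoch, heights `≤ H` -/
structure Ep (p : Par) (n H : ℕ) (G f F X : ℕ → ℕ → ℤ → ℤ → ℝ) : Prop where
  coer : ∀ i j, Coer (G i j)
  lipG : ∀ i j, Lip (G i j)
  lipF : ∀ i j, Lip (F i j)
  lipf : ∀ i j, Lip (f i j)
  GF : ∀ i j u v, G i j u v ≤ F i j u v
  Ff : ∀ i j u v, F i j u v ≤ f i j u v
  sub : ∀ i, i < H → ∀ (j : ℕ) (m : ℕ → ℤ), F (i + 1) j (m 0) (m (2 ^ n)) ≤ stair (F i) n j m +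
    f (i + 1) j (m 0) (m (2 ^ n)) / p.J
  leaf : ∀ j u v, R1 p (G 0 j) (F 0 j) (X 0 j) u v
  step : ∀ i, i < H → ∀ j u v, R1 p (G (i + 1) j) (F (i + 1) j) (X (i + 1) j) u v ∨
    R2 p n (F i) (F (i + 1) j) (X (i + 1) j) j u v ∨
    Ct p n (F i) (X i) (f (i + 1) j) (F (i + 1) j) (X (i + 1) j) j u v

namespace Ep
variable {p : Par} {n H : ℕ} {G f F X : ℕ → ℕ → ℤ → ℤ → ℝ} (h : Ep p n H G f F X)
include h

theorem coerF (i j : ℕ) : Coer (F i j) := fun u v => (h.coer i j u v).trans (h.GF i j u v)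

theorem f0 (i j : ℕ) (u v : ℤ) : 0 ≤ f i j u v :=
  ((h.coerF i j).nonneg u v).trans (h.Ff i j u v)

/-- retired states -/
theorem r1 (hp : p.Ok) {i j : ℕ} {u v : ℤ} (h1 : R1 p (G i j) (F i j) (X i j) u v) (u' v' : ℤ) :
    X i j u v + p.lam * phi (F i j) u v
      ≤ (1 + 6 * p.δ) * (dz u u' + dz v v') + (1 + 6 * p.δ) * G i j u' v' := by
  have hl := hp.lam0
  have h2 := phi_le (h.coerF i j) u v
  have h3 := h.lipG i j u v u' v'
  have h4 := h.coerF i j |>.nonneg u v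
  have h5 := (h.coer i j).nonneg u v
  have h6 : X i j u v + p.lam * phi (F i j) u v ≤ (1 + p.b + 3 * p.lam) * F i j u v := by
    have := h1.1
    nlinarith
  have h7 : (1 + p.b + 3 * p.lam) * F i j u v
      ≤ (1 + p.b + 3 * p.lam) * ((1 + 5 * p.δ) * G i j u v) :=
    mul_le_mul_of_nonneg_left h1.2 (by have := hp.b0; linarith)
  have h8 : (1 + p.b + 3 * p.lam) * ((1 + 5 * p.δ) * G i j u v) ≤ (1 + 6 * p.δ) * G i j u v := by
    rw [← mul_assoc]
    exact mul_le_mul_of_nonneg_right hp.bδ h5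
  have h9 : (1 + 6 * p.δ) * G i j u v ≤ (1 + 6 * p.δ) * (G i j u' v' + (dz u u' + dz v v')) :=
    mul_le_mul_of_nonneg_left h3 (by have := hp.δ0; linarith)
  linarith

theorem mass_nonneg (sel : ℕ → ℕ → ℤ → ℤ → ℕ → ℤ) (i j : ℕ) (u v : ℤ) :
    0 ≤ mass n sel f i j u v := (h.f0 i j u v).trans (le_mass n sel f i j u v)

/-- far states -/
theorem r2 (hp : p.Ok) {sel : ℕ → ℕ → ℤ → ℤ → ℕ → ℤ} (hs : Sel n G sel) {i j : ℕ} {u v : ℤ}
    (h1 : R2 p n (F i) (F (i + 1) j) (X (i + 1) j) j u v) (u' v' : ℤ) :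
    X (i + 1) j u v + p.lam * phi (F (i + 1) j) u v
      ≤ (dz u u' + dz v v') + 2 / p.CD * mass n sel f (i + 1) j u' v' := by
  have hl := hp.lam0
  have hCD := hp.CD2
  have h2 := phi_le (h.coerF (i + 1) j) u v
  have h4 := h.coerF (i + 1) j |>.nonneg u v
  set m := sel i j u' v' with hm
  have h5 := h1.2 (ends n m u v) (ends_zero n m u v) (ends_last n m u v)
  have h6 := stair_ends (n := n) (g := F i) (h.lipF i) j m u v
  rw [hm, hs.zero, hs.last, ← hm] at h6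
  have h7 : stair (F i) n j m ≤ stair (mass n sel f i) n j m :=
    sum_le_sum fun t _ => (h.Ff _ _ _ _).trans (le_mass _ _ _ _ _ _ _)
  have h8 := stair_mass n sel f i j u' v'
  rw [← hm] at h8
  have h9 : F (i + 1) j u v ≤ (mass n sel f (i + 1) j u' v' + (dz u u' + dz v v')) / p.CD := by
    rw [le_div_iff₀ (by linarith)]
    linarith
  have h10 : X (i + 1) j u v + p.lam * phi (F (i + 1) j) u v ≤ 2 * F (i + 1) j u v := by
    have := h1.1
    have := hp.b1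
    nlinarith
  have h11 : 2 * ((mass n sel f (i + 1) j u' v' + (dz u u' + dz v v')) / p.CD)
      ≤ (dz u u' + dz v v') + 2 / p.CD * mass n sel f (i + 1) j u' v' := by
    have hD : 0 ≤ dz u u' + dz v v' := add_nonneg (dz_nonneg _ _) (dz_nonneg _ _)
    have h12 : 2 / p.CD ≤ 1 := by
      rw [div_le_one (by linarith)]
      exact hCD
    have h13 : 2 / p.CD * (dz u u' + dz v v') ≤ 1 * (dz u u' + dz v v') :=
      mul_le_mul_of_nonneg_right h12 hD
    have h14 : 2 * ((mass n sel f (i + 1) j u' v' + (dz u u' + dz v v')) / p.CD)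
        = 2 / p.CD * mass n sel f (i + 1) j u' v' + 2 / p.CD * (dz u u' + dz v v') := by ring
    linarith
  linarith

/-- continuing states: one step of the induction -/
theorem ct (hp : p.Ok) {sel : ℕ → ℕ → ℤ → ℤ → ℕ → ℤ} (hs : Sel n G sel) {i j : ℕ} {u v : ℤ}
    (hi : i < H)
    (h1 : Ct p n (F i) (X i) (f (i + 1) j) (F (i + 1) j) (X (i + 1) j) j u v) (u' v' : ℤ)
    {a c : ℝ} (ha1 : 1 ≤ a) (ha2 : a ≤ 2) (hc : 0 ≤ c)
    (ih : ∀ j u v u' v', X i j u v + p.lam * phi (F i j) u v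
      ≤ a * (dz u u' + dz v v') + (1 + 6 * p.δ) * G i j u' v' + c * mass n sel f i j u' v') :
    X (i + 1) j u v + p.lam * phi (F (i + 1) j) u v
      ≤ (a + p.κ₂) * (dz u u' + dz v v') + (1 + 6 * p.δ) * G (i + 1) j u' v'
        + (c + p.κ₂) * mass n sel f (i + 1) j u' v' := by
  have hl := hp.lam0
  have hk2 := hp.κ₂0
  set m := sel i j u' v' with hm
  obtain ⟨m', r, s, hs1, hs2, hs3, hX, hgood, hbad⟩ := h1 m
  have hx := h.coerF (i + 1) j
  have hs0 : 0 ≤ s := (add_nonneg (dz_nonneg _ _) (dz_nonneg _ _)).trans hs1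
  have hψ : 0 ≤ f (i + 1) j (m' 0) (m' (2 ^ n)) / p.J := div_nonneg (h.f0 _ _ _ _) hp.J0.le
  have hreg : r ≤ p.κ * F (i + 1) j (m' 0) (m' (2 ^ n)) + p.lam *
      (stair (fun t => phi (F i t)) n j m' - phi (F (i + 1) j) (m' 0) (m' (2 ^ n)))
      + 3 * p.lam * (f (i + 1) j (m' 0) (m' (2 ^ n)) / p.J) :=
    reg_le (n := n) (F := F i) (Fx := F (i + 1) j) (j := j) (m := m') (h.coerF i) hx hψ
      hp.τ0 hp.τ1 hp.k0 (h.sub i hi j m') hgood hbad
  -- the potential at `x` against the one at the rounded state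
  have hphi := phi_lip hx (h.lipF (i + 1) j) u v (m' 0) (m' (2 ^ n))
  have hphi' : p.lam * phi (F (i + 1) j) u v
      ≤ p.lam * (phi (F (i + 1) j) (m' 0) (m' (2 ^ n)) + 5 * s) :=
    mul_le_mul_of_nonneg_left (hphi.trans (by linarith)) hl
  -- the pieces
  have hst : stair (fun t u v => X i t u v + p.lam * phi (F i t) u v) n j m'
      ≤ a * (dz (m' 0) (m 0) + dz (m' (2 ^ n)) (m (2 ^ n)) + 2 * 2 ^ n * s)
        + stair (fun t u v => (1 + 6 * p.δ) * G i t u v + c * mass n sel f i t u v) n j m := by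
    refine stair_le_of_dz (by linarith) hs0 (fun t _ => ?_) hs2
    have := ih (2 ^ n * j + t) (m' t) (m' (t + 1)) (m t) (m (t + 1))
    linarith
  have hst1 : stair (fun t u v => X i t u v + p.lam * phi (F i t) u v) n j m'
      = stair (X i) n j m' + p.lam * stair (fun t => phi (F i t)) n j m' := by
    unfold stair
    rw [sum_add_distrib, mul_sum]
  have hst2 : stair (fun t u v => (1 + 6 * p.δ) * G i t u v + c * mass n sel f i t u v) n j m
      = (1 + 6 * p.δ) * stair (G i) n j m + c * stair (mass n sel f i) n j m := by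
    unfold stair
    rw [sum_add_distrib, mul_sum, mul_sum]
  have hG : (1 + 6 * p.δ) * stair (G i) n j m ≤ (1 + 6 * p.δ) * G (i + 1) j u' v' :=
    mul_le_mul_of_nonneg_left (hs.opt i j u' v') (by have := hp.δ0; linarith)
  have hM : c * stair (mass n sel f i) n j m ≤ c * mass n sel f (i + 1) j u' v' :=
    mul_le_mul_of_nonneg_left (stair_mass n sel f i j u' v') hc
  have hm0 : m 0 = u' := hs.zero i j u' v'
  have hmN : m (2 ^ n) = v' := hs.last i j u' v'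
  rw [hst1, hst2, hm0, hmN] at hst
  -- distances
  have hd : dz (m' 0) u' + dz (m' (2 ^ n)) v' ≤ (dz u u' + dz v v') + s := by
    have e1 := dz_tri (m' 0) u u'
    have e2 := dz_tri (m' (2 ^ n)) v v'
    rw [dz_comm (m' 0) u] at e1
    rw [dz_comm (m' (2 ^ n)) v] at e2
    linarith
  have hd' : a * (dz (m' 0) u' + dz (m' (2 ^ n)) v' + 2 * 2 ^ n * s)
      ≤ a * (dz u u' + dz v v') + 2 * ((2 * 2 ^ n + 1) * s) := by
    have hpow : (0 : ℝ) ≤ 2 ^ n := by positivity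
    have e1 : a * (dz (m' 0) u' + dz (m' (2 ^ n)) v' + 2 * 2 ^ n * s)
        ≤ a * ((dz u u' + dz v v') + s + 2 * 2 ^ n * s) :=
      mul_le_mul_of_nonneg_left (by linarith) (by linarith)
    have e2 : 0 ≤ (2 * 2 ^ n + 1) * s := by positivity
    have e3 : a * ((2 * 2 ^ n + 1) * s) ≤ 2 * ((2 * 2 ^ n + 1) * s) :=
      mul_le_mul_of_nonneg_right ha2 e2
    nlinarith
  -- the sizes of `F` and `f`
  have hFx : F (i + 1) j u v ≤ f (i + 1) j u v := h.Ff _ _ _ _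
  have hf1 := h.lipf (i + 1) j (m' 0) (m' (2 ^ n)) u v
  rw [dz_comm (m' 0) u, dz_comm (m' (2 ^ n)) v] at hf1
  have hf2 := h.lipf (i + 1) j u v u' v'
  have hFt : F (i + 1) j (m' 0) (m' (2 ^ n)) ≤ f (i + 1) j u v + s :=
    (h.Ff _ _ _ _).trans (by linarith)
  have hft : f (i + 1) j (m' 0) (m' (2 ^ n)) ≤ f (i + 1) j u v + s := by linarith
  have hfx0 := h.f0 (i + 1) j u v
  have e1 : p.κ * F (i + 1) j (m' 0) (m' (2 ^ n)) ≤ p.κ * (f (i + 1) j u v + s) :=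
    mul_le_mul_of_nonneg_left hFt hp.κ0
  have hlJ : 0 ≤ 3 * p.lam / p.J := by
    have := hp.J0
    positivity
  have e2 : 3 * p.lam * (f (i + 1) j (m' 0) (m' (2 ^ n)) / p.J)
      ≤ 3 * p.lam / p.J * (f (i + 1) j u v + s) := by
    have : 3 * p.lam * (f (i + 1) j (m' 0) (m' (2 ^ n)) / p.J)
        = 3 * p.lam / p.J * f (i + 1) j (m' 0) (m' (2 ^ n)) := by ring
    rw [this]
    exact mul_le_mul_of_nonneg_left hft hlJ
  have e3 : p.η * F (i + 1) j u v ≤ p.η * f (i + 1) j u v :=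
    mul_le_mul_of_nonneg_left hFx hp.η0
  have e4 : (5 * p.lam + p.κ + 3 * p.lam / p.J) * s ≤ 1 * s :=
    mul_le_mul_of_nonneg_right hp.small hs0
  have e5 : (2 * 2 ^ n + 2) * s ≤ p.η * f (i + 1) j u v := hs3.trans e3
  have e6 : p.κ₂ * f (i + 1) j u v ≤ p.κ₂ * (mass n sel f (i + 1) j u' v'
      + (dz u u' + dz v v')) :=
    mul_le_mul_of_nonneg_left (hf2.trans (by have := le_mass n sel f (i + 1) j u' v'; linarith)) hk2
  have e7 : p.κ₂ * f (i + 1) j u v = p.κ * f (i + 1) j u v + 3 * p.lam / p.J * f (i + 1) j u v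
      + 3 * (p.η * f (i + 1) j u v) := by
    unfold Par.κ₂
    ring
  have key : X (i + 1) j u v + p.lam * phi (F (i + 1) j) u v
      ≤ s + (stair (X i) n j m' + p.lam * stair (fun t => phi (F i t)) n j m')
        + p.κ * (f (i + 1) j u v + s) + 3 * p.lam / p.J * (f (i + 1) j u v + s)
        + p.η * f (i + 1) j u v + 5 * p.lam * s := by
    have : p.lam * (stair (fun t => phi (F i t)) n j m'
        - phi (F (i + 1) j) (m' 0) (m' (2 ^ n)))
        = p.lam * stair (fun t => phi (F i t)) n j m'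
          - p.lam * phi (F (i + 1) j) (m' 0) (m' (2 ^ n)) := by ring
    linarith
  have k1 : X (i + 1) j u v + p.lam * phi (F (i + 1) j) u v
      ≤ (a * (dz u u' + dz v v') + 2 * ((2 * 2 ^ n + 1) * s) + (1 + 6 * p.δ) * G (i + 1) j u' v'
          + c * mass n sel f (i + 1) j u' v')
        + (p.κ * f (i + 1) j u v + 3 * p.lam / p.J * f (i + 1) j u v + p.η * f (i + 1) j u v)
        + s + (5 * p.lam + p.κ + 3 * p.lam / p.J) * s := by
    have : (5 * p.lam + p.κ + 3 * p.lam / p.J) * s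
        = 5 * p.lam * s + p.κ * s + 3 * p.lam / p.J * s := by ring
    rw [mul_add, mul_add] at key
    linarith
  have k2 : 2 * ((2 * 2 ^ n + 1) * s) + s + (5 * p.lam + p.κ + 3 * p.lam / p.J) * s
      ≤ 2 * (p.η * f (i + 1) j u v) := by
    have : 2 * ((2 * 2 ^ n + 1) * s) + s + 1 * s = 2 * ((2 * 2 ^ n + 2) * s) := by ring
    linarith
  have k3 : (a + p.κ₂) * (dz u u' + dz v v') + (1 + 6 * p.δ) * G (i + 1) j u' v'
        + (c + p.κ₂) * mass n sel f (i + 1) j u' v'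
      = a * (dz u u' + dz v v') + (1 + 6 * p.δ) * G (i + 1) j u' v'
        + c * mass n sel f (i + 1) j u' v'
        + p.κ₂ * (mass n sel f (i + 1) j u' v' + (dz u u' + dz v v')) := by ring
  rw [k3]
  linarith

/-- **MAIN**: all states of a node against the exact state of the node -/
theorem main (hp : p.Ok) {sel : ℕ → ℕ → ℤ → ℤ → ℕ → ℤ} (hs : Sel n G sel)
    (hH : 6 * p.δ + H * p.κ₂ ≤ 1) (i : ℕ) (hi : i ≤ H) (j : ℕ) (u v u' v' : ℤ) :
    X i j u v + p.lam * phi (F i j) u v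
      ≤ (1 + 6 * p.δ + i * p.κ₂) * (dz u u' + dz v v') + (1 + 6 * p.δ) * G i j u' v'
        + (2 / p.CD + i * p.κ₂) * mass n sel f i j u' v' := by
  have hk2 := hp.κ₂0
  have hCD := hp.CD2
  have hδ := hp.δ0
  have hc0 : 0 ≤ 2 / p.CD := by positivity
  induction i generalizing j u v u' v' with
  | zero =>
    have h1 := h.r1 hp (h.leaf j u v) u' v'
    have h2 := h.mass_nonneg sel 0 j u' v'
    have h3 : 0 ≤ 2 / p.CD * mass n sel f 0 j u' v' := mul_nonneg hc0 h2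
    push_cast
    simp only [zero_mul, add_zero]
    linarith
  | succ i ih =>
    have hi' : i < H := hi
    have hD : 0 ≤ dz u u' + dz v v' := add_nonneg (dz_nonneg _ _) (dz_nonneg _ _)
    have hM := h.mass_nonneg sel (i + 1) j u' v'
    have hG := (h.coer (i + 1) j).nonneg u' v'
    have hik : (0 : ℝ) ≤ i * p.κ₂ := by positivity
    have hiH : (i : ℝ) * p.κ₂ ≤ H * p.κ₂ :=
      mul_le_mul_of_nonneg_right (by exact_mod_cast hi'.le) hk2
    have hcast : ((i + 1 : ℕ) : ℝ) * p.κ₂ = i * p.κ₂ + p.κ₂ := by push_cast; ring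
    rw [hcast]
    rcases h.step i hi' j u v with h1 | h1 | h1
    · have h2 := h.r1 hp h1 u' v'
      have h3 : 0 ≤ (i * p.κ₂ + p.κ₂) * (dz u u' + dz v v') := by positivity
      have h4 : 0 ≤ (2 / p.CD + (i * p.κ₂ + p.κ₂)) * mass n sel f (i + 1) j u' v' := by
        positivity
      linarith
    · have h2 := h.r2 hp hs h1 u' v'
      have h3 : 0 ≤ (6 * p.δ + (i * p.κ₂ + p.κ₂)) * (dz u u' + dz v v') := by positivity
      have h4 : 0 ≤ (i * p.κ₂ + p.κ₂) * mass n sel f (i + 1) j u' v' := by positivity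
      have h5 : 0 ≤ (1 + 6 * p.δ) * G (i + 1) j u' v' := by positivity
      linarith
    · have h2 := h.ct hp hs hi' h1 u' v' (a := 1 + 6 * p.δ + i * p.κ₂) (c := 2 / p.CD + i * p.κ₂)
        (by linarith) (by linarith) (by linarith) (fun j u v u' v' => ih hi'.le j u v u' v')
      linarith

/-- the averaged cost at the exact states -/
theorem X_le (hp : p.Ok) (hp0 : 0 ≤ p.lam) {sel : ℕ → ℕ → ℤ → ℤ → ℕ → ℤ} (hs : Sel n G sel)
    (hH : 6 * p.δ + H * p.κ₂ ≤ 1) {i : ℕ} (hi : i ≤ H) (j : ℕ) (u v : ℤ) :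
    X i j u v ≤ (1 + 6 * p.δ) * G i j u v + (2 / p.CD + H * p.κ₂) * mass n sel f i j u v := by
  have h1 := h.main hp hs hH i hi j u v u v
  have h2 := mul_nonneg hp0 (phi_nonneg (h.coerF i j) u v)
  have h3 : (i : ℝ) * p.κ₂ * mass n sel f i j u v ≤ H * p.κ₂ * mass n sel f i j u v :=
    mul_le_mul_of_nonneg_right (mul_le_mul_of_nonneg_right (by exact_mod_cast hi) hp.κ₂0)
      (h.mass_nonneg sel i j u v)
  rw [dz_self, dz_self] at h1
  linarith

end Ep

/-- the mass of the next function -/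
theorem mass_le {n H : ℕ} {G f f' : ℕ → ℕ → ℤ → ℤ → ℝ} {sel : ℕ → ℕ → ℤ → ℤ → ℕ → ℤ}
    (hs : Sel n G sel) {a c : ℝ} (ha : 0 ≤ a) (hc : 0 ≤ c)
    (hf : ∀ i, i ≤ H → ∀ j u v, f' i j u v ≤ a * G i j u v + c * mass n sel f i j u v)
    (i : ℕ) (hi : i ≤ H) (j : ℕ) (u v : ℤ) :
    mass n sel f' i j u v ≤ a * G i j u v + c * mass n sel f i j u v := by
  induction i generalizing j u v with
  | zero => exact hf 0 hi j u v
  | succ i ih =>
    refine max_le (hf _ hi j u v) ?_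
    calc ∑ t ∈ range (2 ^ n), mass n sel f' i (2 ^ n * j + t) (sel i j u v t) (sel i j u v (t + 1))
        ≤ ∑ t ∈ range (2 ^ n), (a * G i (2 ^ n * j + t) (sel i j u v t) (sel i j u v (t + 1))
          + c * mass n sel f i (2 ^ n * j + t) (sel i j u v t) (sel i j u v (t + 1))) :=
          sum_le_sum fun t _ => ih (by omega) _ _ _
      _ = a * stair (G i) n j (sel i j u v) + c * stair (mass n sel f i) n j (sel i j u v) := by
          rw [sum_add_distrib, ← mul_sum, ← mul_sum]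
          rfl
      _ ≤ _ := add_le_add (mul_le_mul_of_nonneg_left (hs.opt i j u v) ha)
          (mul_le_mul_of_nonneg_left (stair_mass n sel f i j u v) hc)

/-- **one number per epoch** -/
theorem Ep.mass_next {p : Par} {n H : ℕ} {G f F X f' : ℕ → ℕ → ℤ → ℤ → ℝ}
    (h : Ep p n H G f F X) (hp : p.Ok) {sel : ℕ → ℕ → ℤ → ℤ → ℕ → ℤ} (hs : Sel n G sel)
    (hH : 6 * p.δ + H * p.κ₂ ≤ 1) (hf : ∀ i, i ≤ H → ∀ j u v, f' i j u v ≤ X i j u v)
    (i : ℕ) (hi : i ≤ H) (j : ℕ) (u v : ℤ) :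
    mass n sel f' i j u v
      ≤ (1 + 6 * p.δ) * G i j u v + (2 / p.CD + H * p.κ₂) * mass n sel f i j u v := by
  have h1 := hp.δ0
  have h2 := hp.κ₂0
  have h3 := hp.CD2
  exact mass_le hs (by linarith) (by positivity)
    (fun i hi j u v => (hf i hi j u v).trans (h.X_le hp hp.lam0 hs hH hi j u v)) i hi j u v

/-- mass of a function that is at most `B G` -/
theorem mass_le_mul {n H : ℕ} {G f : ℕ → ℕ → ℤ → ℤ → ℝ} {sel : ℕ → ℕ → ℤ → ℤ → ℕ → ℤ}
    (hs : Sel n G sel) {B : ℝ} (hB : 0 ≤ B)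
    (hf : ∀ i, i ≤ H → ∀ j u v, f i j u v ≤ B * G i j u v) (i : ℕ) (hi : i ≤ H) (j : ℕ)
    (u v : ℤ) : mass n sel f i j u v ≤ B * G i j u v := by
  have := mass_le (f := f) (f' := f) hs (a := B) (c := 0) hB le_rfl
    (fun i hi j u v => by rw [zero_mul, add_zero]; exact hf i hi j u v) i hi j u v
  linarith

/-- **ITERATION OF THE EPOCHS**: `f e` = input of epoch `e`, `X e` its averaged cost,
`f (e + 1) ≤ X e`; start `f 0 ≤ B₀ G`; `q` = contraction -/
theorem epochs {p : Par} {n H : ℕ} {G : ℕ → ℕ → ℤ → ℤ → ℝ}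
    {f F X : ℕ → ℕ → ℕ → ℤ → ℤ → ℝ} {E : ℕ} (h : ∀ e < E, Ep p n H G (f e) (F e) (X e))
    (hp : p.Ok) {sel : ℕ → ℕ → ℤ → ℤ → ℕ → ℤ} (hs : Sel n G sel)
    (hH : 6 * p.δ + H * p.κ₂ ≤ 1) (hf : ∀ e < E, ∀ i, i ≤ H → ∀ j u v, f (e + 1) i j u v ≤ X e i j u v)
    {B₀ q : ℝ} (hB : 0 ≤ B₀) (h0 : ∀ i, i ≤ H → ∀ j u v, f 0 i j u v ≤ B₀ * G i j u v)
    (hG : ∀ i j u v, 0 ≤ G i j u v)
    (hq : 2 / p.CD + H * p.κ₂ ≤ q) (hq1 : q < 1) (e : ℕ) (he : e ≤ E) (i : ℕ) (hi : i ≤ H) (j : ℕ)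
    (u v : ℤ) :
    mass n sel (f e) i j u v ≤ ((1 + 6 * p.δ) / (1 - q) + q ^ e * B₀) * G i j u v := by
  have h1 := hp.δ0
  have h2 := hp.κ₂0
  have h3 := hp.CD2
  have hq0 : 0 ≤ q := le_trans (by positivity) hq
  induction e with
  | zero =>
    have h4 := mass_le_mul hs hB h0 i hi j u v
    have h5 : 0 ≤ (1 + 6 * p.δ) / (1 - q) := div_nonneg (by linarith) (by linarith)
    have h6 := mul_nonneg h5 (hG i j u v)
    rw [pow_zero, one_mul, add_mul]
    linarith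
  | succ e ih =>
    have ih' := ih (by omega)
    have h4 := (h e (by omega)).mass_next hp hs hH (hf e (by omega)) i hi j u v
    have h5 := (h e (by omega)).mass_nonneg sel i j u v
    have h6 : (2 / p.CD + H * p.κ₂) * mass n sel (f e) i j u v
        ≤ q * (((1 + 6 * p.δ) / (1 - q) + q ^ e * B₀) * G i j u v) :=
      mul_le_mul hq ih' h5 hq0
    have h7 : (1 + 6 * p.δ) * G i j u v + q * (((1 + 6 * p.δ) / (1 - q) + q ^ e * B₀) * G i j u v)
        = ((1 + 6 * p.δ) / (1 - q) + q ^ (e + 1) * B₀) * G i j u v := by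
      have : 1 - q ≠ 0 := by linarith
      field_simp
      ring
    linarith

end Crest.Agent.R288.AbovG552
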