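import Crest.Agent.R288.AbovG_552

/-!
# R288: the epoch recursion, pointwise form, inside a box, without lookahead

Version 2 of `AbovG_552` (request of helper616, STM-A).  Same conventions.

* `Pc n B j m`      : all pieces of the staircase `m` below the node `j` satisfy `B`
* `Box n Bd`        : `mix` (ends of a staircase may be moved inside the box), `up` (the union of the
  pieces is in the box); `Box.of_cut` for a box given by a predicate on the cuts
* `SelB`            : optimal staircases of the exact values, inside the box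
* `R0`              : stopped state `X ≤ (1 + 6δ) G` (height 0, exact small leaves, retired states)
* `R2B`, `CtB`      : as `R2`, `Ct`, only for staircases in the box
* `EpB`             : hypotheses on one epoch, all at single states of the box; `G, F, f` are
  `Coer`/`Lip` on all of `ℤ × ℤ`; `F ≤ f` and the defect `f / J` in the box
* `EpB.main`        : `X + λφ ≤ (1+6δ+3λ+iκ₂) dist(x,x*) + (1+6δ) G(x*) + (2/C_D+3λ+iκ₂) mass f (x*)`
* `EpB.mass_next`, `epochs2` : `f` of epoch `e + 1` is `F e`; contraction every two epochs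
-/

set_option autoImplicit false

namespace Crest.Agent.R288.AbovH552

open Finset Crest.Agent.R288.VI684 Crest.Agent.R288.AbovG552

/-! ## The box -/

/-- all pieces of `m` below the node `j` satisfy `B` -/
def Pc (n : ℕ) (B : ℕ → ℤ → ℤ → Prop) (j : ℕ) (m : ℕ → ℤ) : Prop :=
  ∀ t, t < 2 ^ n → B (2 ^ n * j + t) (m t) (m (t + 1))

/-- a box of states -/
structure Box (n : ℕ) (Bd : ℕ → ℕ → ℤ → ℤ → Prop) : Prop where
  mix : ∀ (i j : ℕ) (u v : ℤ) (m : ℕ → ℤ), Bd (i + 1) j u v → Pc n (Bd i) j m →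
    Pc n (Bd i) j (ends n m u v)
  up : ∀ (i j : ℕ) (m : ℕ → ℤ), Pc n (Bd i) j m → Bd (i + 1) j (m 0) (m (2 ^ n))

/-- a box given by a predicate `C i q u` on the cuts (`q` = number of the block boundary at height
`i`) -/
theorem Box.of_cut {n : ℕ} {C : ℕ → ℕ → ℤ → Prop}
    (hC : ∀ i q u, C (i + 1) q u ↔ C i (2 ^ n * q) u) :
    Box n (fun i j u v => C i j u ∧ C i (j + 1) v) where
  mix := by
    intro i j u v m ⟨hu, hv⟩ hm t ht
    have hN : (2 : ℕ) ^ n ≠ 0 := by positivity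
    have h := hm t ht
    constructor
    · rcases Nat.eq_zero_or_pos t with h0 | h0
      · subst h0
        rw [ends_zero, Nat.add_zero]
        exact (hC i j u).1 hu
      · rw [ends_mid m u v h0 ht]
        exact h.1
    · rcases Nat.lt_or_ge (t + 1) (2 ^ n) with h1 | h1
      · rw [ends_mid m u v (Nat.succ_pos t) h1]
        exact h.2
      · have h2 : t + 1 = 2 ^ n := le_antisymm ht h1
        rw [h2, ends_last]
        have h3 := (hC i (j + 1) v).1 hv
        have h4 : 2 ^ n * (j + 1) = 2 ^ n * j + t + 1 := by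
          rw [Nat.mul_add, Nat.mul_one]
          omega
        rwa [h4] at h3
  up := by
    intro i j m hm
    have hN : 0 < 2 ^ n := Nat.two_pow_pos n
    refine ⟨(hC i j _).2 ?_, (hC i (j + 1) _).2 ?_⟩
    · have := (hm 0 hN).1
      simpa using this
    · have h1 := (hm (2 ^ n - 1) (by omega)).2
      have h2 : 2 ^ n * j + (2 ^ n - 1) + 1 = 2 ^ n * (j + 1) := by
        rw [Nat.mul_add, Nat.mul_one]
        omega
      have h3 : 2 ^ n - 1 + 1 = 2 ^ n := by omega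
      rwa [h2, h3] at h1

/-- optimal staircases of the exact values `G`, inside the box -/
structure SelB (n H : ℕ) (Bd : ℕ → ℕ → ℤ → ℤ → Prop) (G : ℕ → ℕ → ℤ → ℤ → ℝ)
    (sel : ℕ → ℕ → ℤ → ℤ → ℕ → ℤ) : Prop where
  zero : ∀ i j u v, sel i j u v 0 = u
  last : ∀ i j u v, sel i j u v (2 ^ n) = v
  opt : ∀ i, i < H → ∀ j u v, Bd (i + 1) j u v →
    stair (G i) n j (sel i j u v) ≤ G (i + 1) j u v
  box : ∀ i, i < H → ∀ j u v, Bd (i + 1) j u v → Pc n (Bd i) j (sel i j u v)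

/-! ## One epoch -/

/-- a stopped state -/
def R0 (p : Par) (G X : ℤ → ℤ → ℝ) (u v : ℤ) : Prop := X u v ≤ (1 + 6 * p.δ) * G u v

theorem R0.of_R1 {p : Par} {G F X : ℤ → ℤ → ℝ} {u v : ℤ} (hp : p.Ok) (hc : Coer G)
    (h : R1 p G F X u v) : R0 p G X u v := by
  have h1 := hc.nonneg u v
  have h2 : (1 + p.b) * F u v ≤ (1 + p.b) * ((1 + 5 * p.δ) * G u v) :=
    mul_le_mul_of_nonneg_left h.2 (by have := hp.b0; linarith)
  have h3 : (1 + p.b) * (1 + 5 * p.δ) ≤ 1 + 6 * p.δ := by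
    refine le_trans (mul_le_mul_of_nonneg_right ?_ ?_) hp.bδ
    · have := hp.lam0
      linarith
    · have := hp.δ0
      linarith
  have h4 : (1 + p.b) * ((1 + 5 * p.δ) * G u v) ≤ (1 + 6 * p.δ) * G u v := by
    rw [← mul_assoc]
    exact mul_le_mul_of_nonneg_right h3 h1
  exact h.1.trans (h2.trans h4)

/-- far states, staircases in the box -/
def R2B (p : Par) (n : ℕ) (B : ℕ → ℤ → ℤ → Prop) (F : ℕ → ℤ → ℤ → ℝ) (Fx X : ℤ → ℤ → ℝ) (j : ℕ)
    (u v : ℤ) : Prop :=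
  X u v ≤ (1 + p.b) * Fx u v ∧
    ∀ m : ℕ → ℤ, m 0 = u → m (2 ^ n) = v → Pc n B j m → p.CD * Fx u v ≤ stair F n j m

/-- a continuing state: for all staircases `m` in the box there are a rounded state and a rounded
staircase `m'` in the box, close to `m`, such that the cost is at most the cost of `m'` plus a
regret -/
def CtB (p : Par) (n : ℕ) (B : ℕ → ℤ → ℤ → Prop) (F X : ℕ → ℤ → ℤ → ℝ) (fx Fx Xx : ℤ → ℤ → ℝ)
    (j : ℕ) (u v : ℤ) : Prop :=
  ∀ m : ℕ → ℤ, Pc n B j m → ∃ (m' : ℕ → ℤ) (r s : ℝ), Pc n B j m' ∧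
    dz u (m' 0) + dz v (m' (2 ^ n)) ≤ s ∧
    (∀ t, 0 < t → t < 2 ^ n → dz (m' t) (m t) ≤ s) ∧
    (2 * 2 ^ n + 2) * s ≤ p.η * Fx u v ∧
    Xx u v ≤ dz u (m' 0) + dz v (m' (2 ^ n)) + stair X n j m' + r + p.η * Fx u v ∧
    (Good n F Fx j m' p.τ (fx (m' 0) (m' (2 ^ n)) / p.J) →
      r ≤ p.κ * Fx (m' 0) (m' (2 ^ n))) ∧
    r ≤ p.κ * Fx (m' 0) (m' (2 ^ n)) + p.k₁ * (Fx (m' 0) (m' (2 ^ n)) + stair F n j m')

/-- hypotheses on one epoch, heights `≤ H`, states of the box `Bd` -/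
structure EpB (p : Par) (n H : ℕ) (Bd : ℕ → ℕ → ℤ → ℤ → Prop)
    (G f F X : ℕ → ℕ → ℤ → ℤ → ℝ) : Prop where
  coerG : ∀ i j, Coer (G i j)
  coerF : ∀ i j, Coer (F i j)
  lipG : ∀ i j, Lip (G i j)
  lipF : ∀ i j, Lip (F i j)
  lipf : ∀ i j, Lip (f i j)
  Ff : ∀ i, i ≤ H → ∀ j u v, Bd i j u v → F i j u v ≤ f i j u v
  sub : ∀ i, i < H → ∀ (j : ℕ) (m : ℕ → ℤ), Pc n (Bd i) j m →
    F (i + 1) j (m 0) (m (2 ^ n)) ≤ stair (F i) n j m + f (i + 1) j (m 0) (m (2 ^ n)) / p.J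
  leaf : ∀ j u v, Bd 0 j u v → R0 p (G 0 j) (X 0 j) u v
  step : ∀ i, i < H → ∀ j u v, Bd (i + 1) j u v → R0 p (G (i + 1) j) (X (i + 1) j) u v ∨
    R2B p n (Bd i) (F i) (F (i + 1) j) (X (i + 1) j) j u v ∨
    CtB p n (Bd i) (F i) (X i) (f (i + 1) j) (F (i + 1) j) (X (i + 1) j) j u v

namespace EpB
variable {p : Par} {n H : ℕ} {Bd : ℕ → ℕ → ℤ → ℤ → Prop} {G f F X : ℕ → ℕ → ℤ → ℤ → ℝ}
  (h : EpB p n H Bd G f F X)
include h

theorem f0 {i j : ℕ} (hi : i ≤ H) {u v : ℤ} (hB : Bd i j u v) : 0 ≤ f i j u v :=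
  ((h.coerF i j).nonneg u v).trans (h.Ff i hi j u v hB)

theorem mass_nonneg (sel : ℕ → ℕ → ℤ → ℤ → ℕ → ℤ) {i j : ℕ} (hi : i ≤ H) {u v : ℤ}
    (hB : Bd i j u v) : 0 ≤ mass n sel f i j u v :=
  (h.f0 hi hB).trans (le_mass n sel f i j u v)

/-- stopped states -/
theorem r0 (hp : p.Ok) (sel : ℕ → ℕ → ℤ → ℤ → ℕ → ℤ) {i j : ℕ} (hi : i ≤ H) {u v : ℤ}
    (hB : Bd i j u v) (h1 : R0 p (G i j) (X i j) u v) (u' v' : ℤ) :
    X i j u v + p.lam * phi (F i j) u v
      ≤ (1 + 6 * p.δ + 3 * p.lam) * (dz u u' + dz v v') + (1 + 6 * p.δ) * G i j u' v'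
        + 3 * p.lam * mass n sel f i j u' v' := by
  have hl := hp.lam0
  have h2 := phi_le (h.coerF i j) u v
  have h3 := h.lipG i j u v u' v'
  have h4 := h.Ff i hi j u v hB
  have h5 := h.lipf i j u v u' v'
  have h6 := le_mass n sel f i j u' v'
  have h7 : p.lam * phi (F i j) u v
      ≤ p.lam * (3 * (mass n sel f i j u' v' + (dz u u' + dz v v'))) :=
    mul_le_mul_of_nonneg_left (h2.trans (by linarith)) hl
  have h9 : (1 + 6 * p.δ) * G i j u v ≤ (1 + 6 * p.δ) * (G i j u' v' + (dz u u' + dz v v')) :=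
    mul_le_mul_of_nonneg_left h3 (by have := hp.δ0; linarith)
  have h10 : X i j u v ≤ (1 + 6 * p.δ) * G i j u v := h1
  linarith

/-- far states -/
theorem r2 (hp : p.Ok) (hbox : Box n Bd) {sel : ℕ → ℕ → ℤ → ℤ → ℕ → ℤ} (hs : SelB n H Bd G sel)
    {i j : ℕ} (hi : i < H) {u v u' v' : ℤ} (hB : Bd (i + 1) j u v) (hB' : Bd (i + 1) j u' v')
    (h1 : R2B p n (Bd i) (F i) (F (i + 1) j) (X (i + 1) j) j u v) :
    X (i + 1) j u v + p.lam * phi (F (i + 1) j) u v
      ≤ (dz u u' + dz v v') + 2 / p.CD * mass n sel f (i + 1) j u' v' := by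
  have hl := hp.lam0
  have hCD := hp.CD2
  have h2 := phi_le (h.coerF (i + 1) j) u v
  have h4 := h.coerF (i + 1) j |>.nonneg u v
  set m := sel i j u' v' with hm
  have hPm : Pc n (Bd i) j m := hs.box i hi j u' v' hB'
  have h5 := h1.2 (ends n m u v) (ends_zero n m u v) (ends_last n m u v)
    (hbox.mix i j u v m hB hPm)
  have h6 := stair_ends (n := n) (g := F i) (h.lipF i) j m u v
  rw [hm, hs.zero, hs.last, ← hm] at h6
  have h7 : stair (F i) n j m ≤ stair (mass n sel f i) n j m :=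
    sum_le_sum fun t ht => (h.Ff i hi.le _ _ _ (hPm t (mem_range.1 ht))).trans
      (le_mass _ _ _ _ _ _ _)
  have h8 := stair_mass n sel f i j u' v'
  rw [← hm] at h8
  have h9 : F (i + 1) j u v ≤ (mass n sel f (i + 1) j u' v' + (dz u u' + dz v v')) / p.CD := by
    rw [le_div_iff₀ (by linarith)]
    linarith
  have h10 : X (i + 1) j u v + p.lam * phi (F (i + 1) j) u v ≤ 2 * F (i + 1) j u v := by
    have := h1.1
    have := hp.b1
    nlinarith
  have h11 : 2 * ((mass n sel f (i + 1) j u' v' + (dz u u' + dz v v')) / p.CD)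
      ≤ (dz u u' + dz v v') + 2 / p.CD * mass n sel f (i + 1) j u' v' := by
    have hD : 0 ≤ dz u u' + dz v v' := add_nonneg (dz_nonneg _ _) (dz_nonneg _ _)
    have h12 : 2 / p.CD ≤ 1 := by
      rw [div_le_one (by linarith)]
      exact hCD
    have h13 : 2 / p.CD * (dz u u' + dz v v') ≤ 1 * (dz u u' + dz v v') :=
      mul_le_mul_of_nonneg_right h12 hD
    have h14 : 2 * ((mass n sel f (i + 1) j u' v' + (dz u u' + dz v v')) / p.CD)
        = 2 / p.CD * mass n sel f (i + 1) j u' v' + 2 / p.CD * (dz u u' + dz v v') := by ring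
    linarith
  linarith

/-- continuing states: one step of the induction -/
theorem ct (hp : p.Ok) (hbox : Box n Bd) {sel : ℕ → ℕ → ℤ → ℤ → ℕ → ℤ}
    (hs : SelB n H Bd G sel) {i j : ℕ} {u v u' v' : ℤ} (hi : i < H) (hB' : Bd (i + 1) j u' v')
    (h1 : CtB p n (Bd i) (F i) (X i) (f (i + 1) j) (F (i + 1) j) (X (i + 1) j) j u v)
    (hB : Bd (i + 1) j u v) {a c : ℝ} (ha1 : 1 ≤ a) (ha2 : a ≤ 2) (hc : 0 ≤ c)
    (ih : ∀ j u v u' v', Bd i j u v → Bd i j u' v' → X i j u v + p.lam * phi (F i j) u v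
      ≤ a * (dz u u' + dz v v') + (1 + 6 * p.δ) * G i j u' v' + c * mass n sel f i j u' v') :
    X (i + 1) j u v + p.lam * phi (F (i + 1) j) u v
      ≤ (a + p.κ₂) * (dz u u' + dz v v') + (1 + 6 * p.δ) * G (i + 1) j u' v'
        + (c + p.κ₂) * mass n sel f (i + 1) j u' v' := by
  have hl := hp.lam0
  have hk2 := hp.κ₂0
  set m := sel i j u' v' with hm
  have hPm : Pc n (Bd i) j m := hs.box i hi j u' v' hB'
  obtain ⟨m', r, s, hPm', hs1, hs2, hs3, hX, hgood, hbad⟩ := h1 m hPm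
  have hBt : Bd (i + 1) j (m' 0) (m' (2 ^ n)) := hbox.up i j m' hPm'
  have hx := h.coerF (i + 1) j
  have hs0 : 0 ≤ s := (add_nonneg (dz_nonneg _ _) (dz_nonneg _ _)).trans hs1
  have hψ : 0 ≤ f (i + 1) j (m' 0) (m' (2 ^ n)) / p.J := div_nonneg (h.f0 hi hBt) hp.J0.le
  have hreg : r ≤ p.κ * F (i + 1) j (m' 0) (m' (2 ^ n)) + p.lam *
      (stair (fun t => phi (F i t)) n j m' - phi (F (i + 1) j) (m' 0) (m' (2 ^ n)))
      + 3 * p.lam * (f (i + 1) j (m' 0) (m' (2 ^ n)) / p.J) :=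
    reg_le (n := n) (F := F i) (Fx := F (i + 1) j) (j := j) (m := m') (h.coerF i) hx hψ
      hp.τ0 hp.τ1 hp.k0 (h.sub i hi j m' hPm') hgood hbad
  -- the potential at `x` against the one at the rounded state
  have hphi := phi_lip hx (h.lipF (i + 1) j) u v (m' 0) (m' (2 ^ n))
  have hphi' : p.lam * phi (F (i + 1) j) u v
      ≤ p.lam * (phi (F (i + 1) j) (m' 0) (m' (2 ^ n)) + 5 * s) :=
    mul_le_mul_of_nonneg_left (hphi.trans (by linarith)) hl
  -- the pieces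
  have hst : stair (fun t u v => X i t u v + p.lam * phi (F i t) u v) n j m'
      ≤ a * (dz (m' 0) (m 0) + dz (m' (2 ^ n)) (m (2 ^ n)) + 2 * 2 ^ n * s)
        + stair (fun t u v => (1 + 6 * p.δ) * G i t u v + c * mass n sel f i t u v) n j m := by
    refine stair_le_of_dz (by linarith) hs0 (fun t ht => ?_) hs2
    have := ih (2 ^ n * j + t) (m' t) (m' (t + 1)) (m t) (m (t + 1)) (hPm' t ht) (hPm t ht)
    linarith
  have hst1 : stair (fun t u v => X i t u v + p.lam * phi (F i t) u v) n j m'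
      = stair (X i) n j m' + p.lam * stair (fun t => phi (F i t)) n j m' := by
    unfold stair
    rw [sum_add_distrib, mul_sum]
  have hst2 : stair (fun t u v => (1 + 6 * p.δ) * G i t u v + c * mass n sel f i t u v) n j m
      = (1 + 6 * p.δ) * stair (G i) n j m + c * stair (mass n sel f i) n j m := by
    unfold stair
    rw [sum_add_distrib, mul_sum, mul_sum]
  have hG : (1 + 6 * p.δ) * stair (G i) n j m ≤ (1 + 6 * p.δ) * G (i + 1) j u' v' :=
    mul_le_mul_of_nonneg_left (hs.opt i hi j u' v' hB') (by have := hp.δ0; linarith)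
  have hM : c * stair (mass n sel f i) n j m ≤ c * mass n sel f (i + 1) j u' v' :=
    mul_le_mul_of_nonneg_left (stair_mass n sel f i j u' v') hc
  have hm0 : m 0 = u' := hs.zero i j u' v'
  have hmN : m (2 ^ n) = v' := hs.last i j u' v'
  rw [hst1, hst2, hm0, hmN] at hst
  -- distances
  have hd : dz (m' 0) u' + dz (m' (2 ^ n)) v' ≤ (dz u u' + dz v v') + s := by
    have e1 := dz_tri (m' 0) u u'
    have e2 := dz_tri (m' (2 ^ n)) v v'
    rw [dz_comm (m' 0) u] at e1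
    rw [dz_comm (m' (2 ^ n)) v] at e2
    linarith
  have hd' : a * (dz (m' 0) u' + dz (m' (2 ^ n)) v' + 2 * 2 ^ n * s)
      ≤ a * (dz u u' + dz v v') + 2 * ((2 * 2 ^ n + 1) * s) := by
    have hpow : (0 : ℝ) ≤ 2 ^ n := by positivity
    have e1 : a * (dz (m' 0) u' + dz (m' (2 ^ n)) v' + 2 * 2 ^ n * s)
        ≤ a * ((dz u u' + dz v v') + s + 2 * 2 ^ n * s) :=
      mul_le_mul_of_nonneg_left (by linarith) (by linarith)
    have e2 : 0 ≤ (2 * 2 ^ n + 1) * s := by positivity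
    have e3 : a * ((2 * 2 ^ n + 1) * s) ≤ 2 * ((2 * 2 ^ n + 1) * s) :=
      mul_le_mul_of_nonneg_right ha2 e2
    nlinarith
  -- the sizes of `F` and `f`
  have hFx : F (i + 1) j u v ≤ f (i + 1) j u v := h.Ff _ hi _ _ _ hB
  have hf1 := h.lipf (i + 1) j (m' 0) (m' (2 ^ n)) u v
  rw [dz_comm (m' 0) u, dz_comm (m' (2 ^ n)) v] at hf1
  have hf2 := h.lipf (i + 1) j u v u' v'
  have hFt : F (i + 1) j (m' 0) (m' (2 ^ n)) ≤ f (i + 1) j u v + s :=
    (h.Ff _ hi _ _ _ hBt).trans (by linarith)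
  have hft : f (i + 1) j (m' 0) (m' (2 ^ n)) ≤ f (i + 1) j u v + s := by linarith
  have hfx0 := h.f0 hi hB
  have e1 : p.κ * F (i + 1) j (m' 0) (m' (2 ^ n)) ≤ p.κ * (f (i + 1) j u v + s) :=
    mul_le_mul_of_nonneg_left hFt hp.κ0
  have hlJ : 0 ≤ 3 * p.lam / p.J := by
    have := hp.J0
    positivity
  have e2 : 3 * p.lam * (f (i + 1) j (m' 0) (m' (2 ^ n)) / p.J)
      ≤ 3 * p.lam / p.J * (f (i + 1) j u v + s) := by
    have : 3 * p.lam * (f (i + 1) j (m' 0) (m' (2 ^ n)) / p.J)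
        = 3 * p.lam / p.J * f (i + 1) j (m' 0) (m' (2 ^ n)) := by ring
    rw [this]
    exact mul_le_mul_of_nonneg_left hft hlJ
  have e3 : p.η * F (i + 1) j u v ≤ p.η * f (i + 1) j u v :=
    mul_le_mul_of_nonneg_left hFx hp.η0
  have e4 : (5 * p.lam + p.κ + 3 * p.lam / p.J) * s ≤ 1 * s :=
    mul_le_mul_of_nonneg_right hp.small hs0
  have e5 : (2 * 2 ^ n + 2) * s ≤ p.η * f (i + 1) j u v := hs3.trans e3
  have e6 : p.κ₂ * f (i + 1) j u v ≤ p.κ₂ * (mass n sel f (i + 1) j u' v'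
      + (dz u u' + dz v v')) :=
    mul_le_mul_of_nonneg_left (hf2.trans (by have := le_mass n sel f (i + 1) j u' v'; linarith)) hk2
  have e7 : p.κ₂ * f (i + 1) j u v = p.κ * f (i + 1) j u v + 3 * p.lam / p.J * f (i + 1) j u v
      + 3 * (p.η * f (i + 1) j u v) := by
    unfold Par.κ₂
    ring
  have key : X (i + 1) j u v + p.lam * phi (F (i + 1) j) u v
      ≤ s + (stair (X i) n j m' + p.lam * stair (fun t => phi (F i t)) n j m')
        + p.κ * (f (i + 1) j u v + s) + 3 * p.lam / p.J * (f (i + 1) j u v + s)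
        + p.η * f (i + 1) j u v + 5 * p.lam * s := by
    have : p.lam * (stair (fun t => phi (F i t)) n j m'
        - phi (F (i + 1) j) (m' 0) (m' (2 ^ n)))
        = p.lam * stair (fun t => phi (F i t)) n j m'
          - p.lam * phi (F (i + 1) j) (m' 0) (m' (2 ^ n)) := by ring
    linarith
  have k1 : X (i + 1) j u v + p.lam * phi (F (i + 1) j) u v
      ≤ (a * (dz u u' + dz v v') + 2 * ((2 * 2 ^ n + 1) * s) + (1 + 6 * p.δ) * G (i + 1) j u' v'
          + c * mass n sel f (i + 1) j u' v')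
        + (p.κ * f (i + 1) j u v + 3 * p.lam / p.J * f (i + 1) j u v + p.η * f (i + 1) j u v)
        + s + (5 * p.lam + p.κ + 3 * p.lam / p.J) * s := by
    have : (5 * p.lam + p.κ + 3 * p.lam / p.J) * s
        = 5 * p.lam * s + p.κ * s + 3 * p.lam / p.J * s := by ring
    rw [mul_add, mul_add] at key
    linarith
  have k2 : 2 * ((2 * 2 ^ n + 1) * s) + s + (5 * p.lam + p.κ + 3 * p.lam / p.J) * s
      ≤ 2 * (p.η * f (i + 1) j u v) := by
    have : 2 * ((2 * 2 ^ n + 1) * s) + s + 1 * s = 2 * ((2 * 2 ^ n + 2) * s) := by ring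
    linarith
  have k3 : (a + p.κ₂) * (dz u u' + dz v v') + (1 + 6 * p.δ) * G (i + 1) j u' v'
        + (c + p.κ₂) * mass n sel f (i + 1) j u' v'
      = a * (dz u u' + dz v v') + (1 + 6 * p.δ) * G (i + 1) j u' v'
        + c * mass n sel f (i + 1) j u' v'
        + p.κ₂ * (mass n sel f (i + 1) j u' v' + (dz u u' + dz v v')) := by ring
  rw [k3]
  linarith

/-- **MAIN**: all states of a node (in the box) against the exact state of the node -/
theorem main (hp : p.Ok) (hbox : Box n Bd) {sel : ℕ → ℕ → ℤ → ℤ → ℕ → ℤ}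
    (hs : SelB n H Bd G sel) (hH : 6 * p.δ + 3 * p.lam + H * p.κ₂ ≤ 1) (i : ℕ) (hi : i ≤ H)
    (j : ℕ) (u v u' v' : ℤ) (hB : Bd i j u v) (hB' : Bd i j u' v') :
    X i j u v + p.lam * phi (F i j) u v
      ≤ (1 + 6 * p.δ + 3 * p.lam + i * p.κ₂) * (dz u u' + dz v v') + (1 + 6 * p.δ) * G i j u' v'
        + (2 / p.CD + 3 * p.lam + i * p.κ₂) * mass n sel f i j u' v' := by
  have hk2 := hp.κ₂0
  have hCD := hp.CD2
  have hδ := hp.δ0
  have hl := hp.lam0
  have hc0 : 0 ≤ 2 / p.CD := by positivity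
  induction i generalizing j u v u' v' with
  | zero =>
    have h1 := h.r0 hp sel hi hB (h.leaf j u v hB) u' v'
    have h2 := h.mass_nonneg sel hi hB'
    have h3 : 0 ≤ 2 / p.CD * mass n sel f 0 j u' v' := mul_nonneg hc0 h2
    push_cast
    simp only [zero_mul, add_zero]
    linarith
  | succ i ih =>
    have hi' : i < H := hi
    have hD : 0 ≤ dz u u' + dz v v' := add_nonneg (dz_nonneg _ _) (dz_nonneg _ _)
    have hM := h.mass_nonneg sel hi hB'
    have hG := (h.coerG (i + 1) j).nonneg u' v'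
    have hik : (0 : ℝ) ≤ i * p.κ₂ := by positivity
    have hiH : (i : ℝ) * p.κ₂ ≤ H * p.κ₂ :=
      mul_le_mul_of_nonneg_right (by exact_mod_cast hi'.le) hk2
    have hcast : ((i + 1 : ℕ) : ℝ) * p.κ₂ = i * p.κ₂ + p.κ₂ := by push_cast; ring
    rw [hcast]
    rcases h.step i hi' j u v hB with h1 | h1 | h1
    · have h2 := h.r0 hp sel hi hB h1 u' v'
      have h3 : 0 ≤ (i * p.κ₂ + p.κ₂) * (dz u u' + dz v v') := by positivity
      have h4 : 0 ≤ (2 / p.CD + (i * p.κ₂ + p.κ₂)) * mass n sel f (i + 1) j u' v' := by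
        positivity
      linarith
    · have h2 := h.r2 hp hbox hs hi' hB hB' h1
      have h3 : 0 ≤ (6 * p.δ + 3 * p.lam + (i * p.κ₂ + p.κ₂)) * (dz u u' + dz v v') := by
        positivity
      have h4 : 0 ≤ (3 * p.lam + (i * p.κ₂ + p.κ₂)) * mass n sel f (i + 1) j u' v' := by
        positivity
      have h5 : 0 ≤ (1 + 6 * p.δ) * G (i + 1) j u' v' := by positivity
      linarith
    · have h2 := h.ct hp hbox hs hi' hB' h1 hB (a := 1 + 6 * p.δ + 3 * p.lam + i * p.κ₂)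
        (c := 2 / p.CD + 3 * p.lam + i * p.κ₂)
        (by linarith) (by linarith) (by linarith)
        (fun j u v u' v' hB hB' => ih hi'.le j u v u' v' hB hB')
      linarith

/-- contraction factor of an epoch -/
theorem X_le (hp : p.Ok) (hbox : Box n Bd) {sel : ℕ → ℕ → ℤ → ℤ → ℕ → ℤ}
    (hs : SelB n H Bd G sel) (hH : 6 * p.δ + 3 * p.lam + H * p.κ₂ ≤ 1) {i : ℕ} (hi : i ≤ H)
    {j : ℕ} {u v : ℤ} (hB : Bd i j u v) :
    X i j u v ≤ (1 + 6 * p.δ) * G i j u v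
      + (2 / p.CD + 3 * p.lam + H * p.κ₂) * mass n sel f i j u v := by
  have h1 := h.main hp hbox hs hH i hi j u v u v hB hB
  have h2 := mul_nonneg hp.lam0 (phi_nonneg (h.coerF i j) u v)
  have h3 : (i : ℝ) * p.κ₂ * mass n sel f i j u v ≤ H * p.κ₂ * mass n sel f i j u v :=
    mul_le_mul_of_nonneg_right (mul_le_mul_of_nonneg_right (by exact_mod_cast hi) hp.κ₂0)
      (h.mass_nonneg sel hi hB)
  rw [dz_self, dz_self] at h1
  linarith

end EpB

/-- the mass of the next function -/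
theorem mass_le {n H : ℕ} {Bd : ℕ → ℕ → ℤ → ℤ → Prop} {G f f' : ℕ → ℕ → ℤ → ℤ → ℝ}
    {sel : ℕ → ℕ → ℤ → ℤ → ℕ → ℤ}
    (hs : SelB n H Bd G sel) {a c : ℝ} (ha : 0 ≤ a) (hc : 0 ≤ c)
    (hf : ∀ i, i ≤ H → ∀ j u v, Bd i j u v →
      f' i j u v ≤ a * G i j u v + c * mass n sel f i j u v)
    (i : ℕ) (hi : i ≤ H) (j : ℕ) (u v : ℤ) (hB : Bd i j u v) :
    mass n sel f' i j u v ≤ a * G i j u v + c * mass n sel f i j u v := by
  induction i generalizing j u v with
  | zero => exact hf 0 hi j u v hB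
  | succ i ih =>
    refine max_le (hf _ hi j u v hB) ?_
    calc ∑ t ∈ range (2 ^ n), mass n sel f' i (2 ^ n * j + t) (sel i j u v t) (sel i j u v (t + 1))
        ≤ ∑ t ∈ range (2 ^ n), (a * G i (2 ^ n * j + t) (sel i j u v t) (sel i j u v (t + 1))
          + c * mass n sel f i (2 ^ n * j + t) (sel i j u v t) (sel i j u v (t + 1))) :=
          sum_le_sum fun t ht => ih (by omega) _ _ _ (hs.box i hi j u v hB t (mem_range.1 ht))
      _ = a * stair (G i) n j (sel i j u v) + c * stair (mass n sel f i) n j (sel i j u v) := by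
          rw [sum_add_distrib, ← mul_sum, ← mul_sum]
          rfl
      _ ≤ _ := add_le_add (mul_le_mul_of_nonneg_left (hs.opt i hi j u v hB) ha)
          (mul_le_mul_of_nonneg_left (stair_mass n sel f i j u v) hc)

/-- **one number per epoch** -/
theorem EpB.mass_next {p : Par} {n H : ℕ} {Bd : ℕ → ℕ → ℤ → ℤ → Prop}
    {G f F X f' : ℕ → ℕ → ℤ → ℤ → ℝ} (h : EpB p n H Bd G f F X) (hp : p.Ok) (hbox : Box n Bd)
    {sel : ℕ → ℕ → ℤ → ℤ → ℕ → ℤ} (hs : SelB n H Bd G sel)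
    (hH : 6 * p.δ + 3 * p.lam + H * p.κ₂ ≤ 1)
    (hf : ∀ i, i ≤ H → ∀ j u v, Bd i j u v → f' i j u v ≤ X i j u v)
    (i : ℕ) (hi : i ≤ H) (j : ℕ) (u v : ℤ) (hB : Bd i j u v) :
    mass n sel f' i j u v ≤ (1 + 6 * p.δ) * G i j u v
      + (2 / p.CD + 3 * p.lam + H * p.κ₂) * mass n sel f i j u v := by
  have h1 := hp.δ0
  have h2 := hp.κ₂0
  have h3 := hp.CD2
  have h4 := hp.lam0
  exact mass_le hs (by linarith) (by positivity)
    (fun i hi j u v hB => (hf i hi j u v hB).trans (h.X_le hp hbox hs hH hi hB)) i hi j u v hB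

/-- **ITERATION OF THE EPOCHS, NO LOOKAHEAD**: `F e` = unit of epoch `e`; the defect of `F (e + 1)` is
measured in `F e`; `F (e + 2) ≤ X (e + 1)`, `F (e + 1) ≤ F e`; start `F 0 ≤ B₀ G` -/
theorem epochs2 {p : Par} {n H : ℕ} {Bd : ℕ → ℕ → ℤ → ℤ → Prop} {G : ℕ → ℕ → ℤ → ℤ → ℝ}
    {F X : ℕ → ℕ → ℕ → ℤ → ℤ → ℝ} {E : ℕ}
    (h : ∀ e, e + 1 < E → EpB p n H Bd G (F e) (F (e + 1)) (X (e + 1)))
    (hp : p.Ok) (hbox : Box n Bd) {sel : ℕ → ℕ → ℤ → ℤ → ℕ → ℤ} (hs : SelB n H Bd G sel)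
    (hH : 6 * p.δ + 3 * p.lam + H * p.κ₂ ≤ 1)
    (hf : ∀ e, e + 1 < E → ∀ i, i ≤ H → ∀ j u v, Bd i j u v →
      F (e + 2) i j u v ≤ X (e + 1) i j u v)
    (hanti : ∀ i, i ≤ H → ∀ j u v, Bd i j u v → F 1 i j u v ≤ F 0 i j u v)
    {B₀ q : ℝ} (hB : 0 ≤ B₀)
    (h0 : ∀ i, i ≤ H → ∀ j u v, Bd i j u v → F 0 i j u v ≤ B₀ * G i j u v)
    (hG : ∀ i j, Coer (G i j))
    (hq : 2 / p.CD + 3 * p.lam + H * p.κ₂ ≤ q) (hq1 : q < 1) (e : ℕ) (he : e ≤ E) (i : ℕ)
    (hi : i ≤ H) (j : ℕ) (u v : ℤ) (hBd : Bd i j u v) :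
    mass n sel (F e) i j u v ≤ ((1 + 6 * p.δ) / (1 - q) + q ^ (e / 2) * B₀) * G i j u v := by
  have h1 := hp.δ0
  have h2 := hp.κ₂0
  have h3 := hp.CD2
  have h4 := hp.lam0
  have hq0 : 0 ≤ q := le_trans (by positivity) hq
  have hG0 := (hG i j).nonneg u v
  have hbase : B₀ * G i j u v ≤ ((1 + 6 * p.δ) / (1 - q) + q ^ 0 * B₀) * G i j u v := by
    have h5 : 0 ≤ (1 + 6 * p.δ) / (1 - q) := div_nonneg (by linarith) (by linarith)
    have h6 := mul_nonneg h5 hG0
    rw [pow_zero, one_mul, add_mul]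
    linarith
  have hmass : ∀ f : ℕ → ℕ → ℤ → ℤ → ℝ,
      (∀ i, i ≤ H → ∀ j u v, Bd i j u v → f i j u v ≤ B₀ * G i j u v) →
      mass n sel f i j u v ≤ B₀ * G i j u v := by
    intro f hf0
    have := mass_le (f := f) (f' := f) hs (a := B₀) (c := 0) hB le_rfl
      (fun i hi j u v hB => by rw [zero_mul, add_zero]; exact hf0 i hi j u v hB) i hi j u v hBd
    linarith
  induction e using Nat.twoStepInduction with
  | zero => exact (hmass _ h0).trans hbase
  | one =>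
    exact (hmass _ fun i hi j u v hB => (hanti i hi j u v hB).trans (h0 i hi j u v hB)).trans hbase
  | more e ih _ =>
    have ih' := ih (by omega)
    have hE := h e (by omega)
    have h5 := hE.mass_next hp hbox hs hH (hf e (by omega)) i hi j u v hBd
    have h6 := hE.mass_nonneg sel hi hBd
    have h7 : (2 / p.CD + 3 * p.lam + H * p.κ₂) * mass n sel (F e) i j u v
        ≤ q * (((1 + 6 * p.δ) / (1 - q) + q ^ (e / 2) * B₀) * G i j u v) :=
      mul_le_mul hq ih' h6 hq0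
    have h8 : (e + 2) / 2 = e / 2 + 1 := by omega
    have h9 : (1 + 6 * p.δ) * G i j u v
        + q * (((1 + 6 * p.δ) / (1 - q) + q ^ (e / 2) * B₀) * G i j u v)
        = ((1 + 6 * p.δ) / (1 - q) + q ^ ((e + 2) / 2) * B₀) * G i j u v := by
      rw [h8, pow_succ]
      have : 1 - q ≠ 0 := by linarith
      field_simp
      ring
    linarith

end Crest.Agent.R288.AbovH552
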