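import Mathlib

/-!
# R288: one epoch from above, pointwise (post 4429 = 4352 with the potential of 4288, helper372)

* `En s F d θ = ∑ F_j (d_j / F_j - θ)^2`, `En_eq`: the exact identity
  `En = ∑ d_j^2/F_j - d0^2/F0 + θ^2 (∑ F_j - F0)`, `θ = d0 / F0`.
* `phi_step`: with `Φ = d^2/F + 2 F`: `∑ Φ_j ≥ Φ_0 + En + drift⁺ - 2 η` if `drift ≥ -η`.
* `epoch`: abstract macro tree, exact values `G`, `|d| ≤ G ≤ F ≤ U ≤ B G`,
  `F x ≤ ∑ F(pieces) + U x / J` (lookahead), costs `Cb` with `Cb ≤ (1+b) F` and the two local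
  regret inequalities (`k1` always, `k0` at good windows) ⟹ `Cb ≤ (A + h β) G` pointwise.
-/

set_option autoImplicit false

namespace Crest.Agent.R288.AbovePt372

open Finset

universe u v w

section Pot

variable {ι : Type w} (s : Finset ι) (F d : ι → ℝ)

/-- energy of the slopes `d j / F j` around `θ`, weights `F j` -/
noncomputable def En (θ : ℝ) : ℝ := ∑ j ∈ s, F j * (d j / F j - θ) ^ 2

variable {s F d}

theorem En_nonneg (hF : ∀ j ∈ s, 0 ≤ F j) (θ : ℝ) : 0 ≤ En s F d θ :=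
  sum_nonneg fun j hj => mul_nonneg (hF j hj) (sq_nonneg _)

theorem En_eq {F0 d0 : ℝ} (hF0 : F0 ≠ 0) (hd : ∑ j ∈ s, d j = d0)
    (hFd : ∀ j ∈ s, F j = 0 → d j = 0) :
    En s F d (d0 / F0) = ∑ j ∈ s, d j ^ 2 / F j - d0 ^ 2 / F0
      + (d0 / F0) ^ 2 * (∑ j ∈ s, F j - F0) := by
  have h1 : En s F d (d0 / F0)
      = ∑ j ∈ s, (d j ^ 2 / F j - 2 * (d0 / F0) * d j + (d0 / F0) ^ 2 * F j) := by
    refine sum_congr rfl fun j hj => ?_
    by_cases h0 : F j = 0
    · rw [h0, hFd j hj h0]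
      simp
    · field_simp
      ring
  rw [h1, sum_add_distrib, sum_sub_distrib, ← mul_sum, ← mul_sum, hd]
  field_simp
  ring

/-- the potential -/
noncomputable def Phi (F d : ℝ) : ℝ := d ^ 2 / F + 2 * F

theorem Phi_nonneg {F d : ℝ} (hF : 0 ≤ F) : 0 ≤ Phi F d := by
  unfold Phi
  positivity

theorem Phi_le {F d : ℝ} (hF : |d| ≤ F) : Phi F d ≤ 3 * F := by
  unfold Phi
  have h0 : 0 ≤ F := (abs_nonneg d).trans hF
  have h1 : d ^ 2 / F ≤ F := by
    rcases h0.eq_or_lt with h | h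
    · have hd : d = 0 := by
        rw [← h] at hF
        exact abs_eq_zero.1 (le_antisymm hF (abs_nonneg d))
      rw [hd, ← h]
      simp
    · rw [div_le_iff₀ h, ← sq_abs d]
      nlinarith [abs_nonneg d]
  linarith

theorem phi_step {F0 d0 η : ℝ} (hF0 : 0 < F0) (hd0 : |d0| ≤ F0) (hd : ∑ j ∈ s, d j = d0)
    (hFd : ∀ j ∈ s, |d j| ≤ F j) (hη : F0 ≤ ∑ j ∈ s, F j + η) (hη0 : 0 ≤ η) :
    Phi F0 d0 + En s F d (d0 / F0) + max (∑ j ∈ s, F j - F0) 0 - 2 * η
      ≤ ∑ j ∈ s, Phi (F j) (d j) := by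
  have h1 := En_eq (s := s) (F := F) (d := d) hF0.ne' hd fun j hj h0 => by
    have := hFd j hj
    rw [h0] at this
    exact abs_eq_zero.1 (le_antisymm this (abs_nonneg _))
  have h2 : ∑ j ∈ s, Phi (F j) (d j) = ∑ j ∈ s, d j ^ 2 / F j + 2 * ∑ j ∈ s, F j := by
    unfold Phi
    rw [sum_add_distrib, mul_sum]
  have h3 : (d0 / F0) ^ 2 ≤ 1 := by
    rw [div_pow, div_le_one (by positivity), ← sq_abs d0]
    exact pow_le_pow_left₀ (abs_nonneg _) hd0 2
  have h4 : 0 ≤ (d0 / F0) ^ 2 := sq_nonneg _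
  rw [h2]
  unfold Phi
  rcases le_total 0 (∑ j ∈ s, F j - F0) with h | h
  · rw [max_eq_left h]
    nlinarith
  · rw [max_eq_right h]
    nlinarith

end Pot

section Epoch

variable {S : ℕ → Type u} {M : ∀ h, S (h + 1) → Type v} {ι : Type w}
  (s : ∀ h (x : S (h + 1)), M h x → Finset ι) (y : ∀ h (x : S (h + 1)), M h x → ι → S h)
  (G F U d Cb : ∀ h, S h → ℝ)

/-- the constants of one epoch -/
structure Const where
  b : ℝ
  del : ℝ
  Th : ℝ
  sg : ℝ
  k0 : ℝ
  k1 : ℝ
  J : ℝ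
  B : ℝ
  b0 : 0 ≤ b
  del0 : 0 ≤ del
  del1 : 4 * del < 1
  Th0 : 0 < Th
  sg0 : 0 < sg
  sg1 : sg ≤ 1
  k00 : 0 ≤ k0
  k10 : 0 ≤ k1
  J0 : 0 < J
  B0 : 1 ≤ B

namespace Const

variable (c : Const)

/-- weight of the potential -/
noncomputable def lam : ℝ := c.k1 / c.sg ^ 2

/-- the factor at the stops -/
noncomputable def A : ℝ := (1 + c.b + 3 * c.lam) * max (1 / (1 - 4 * c.del)) (c.B / c.Th)

/-- loss per window -/
noncomputable def beta : ℝ := c.B * (c.k0 + (2 * c.lam + c.k1 / c.sg) / c.J)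

theorem lam_nonneg : 0 ≤ c.lam := div_nonneg c.k10 (sq_nonneg _)

theorem one_le_A : 1 + 3 * c.lam ≤ c.A := by
  have h1 := c.lam_nonneg
  have h2 : 1 ≤ max (1 / (1 - 4 * c.del)) (c.B / c.Th) := by
    refine le_max_of_le_left ?_
    rw [le_div_iff₀ (by linarith [c.del1])]
    linarith [c.del0]
  have h3 := c.b0
  unfold A
  nlinarith

theorem A_nonneg : 0 ≤ c.A := by
  have := c.one_le_A
  have := c.lam_nonneg
  linarith

theorem beta_nonneg : 0 ≤ c.beta := by
  have h1 := c.lam_nonneg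
  have h2 := c.B0
  have h3 := c.k00
  have h4 : 0 ≤ c.k1 / c.sg := div_nonneg c.k10 c.sg0.le
  have h5 : 0 ≤ (2 * c.lam + c.k1 / c.sg) / c.J := div_nonneg (by linarith) c.J0.le
  unfold beta
  exact mul_nonneg (by linarith) (by linarith)

end Const

/-- **hypotheses of one epoch** -/
structure Epoch (c : Const) : Prop where
  /-- displacement is additive -/
  dadd : ∀ h x (m : M h x), ∑ j ∈ s h x m, d h (y h x m j) = d (h + 1) x
  dG : ∀ h x, |d h x| ≤ G h x
  GF : ∀ h x, G h x ≤ F h x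
  FU : ∀ h x, F h x ≤ U h x
  UG : ∀ h x, U h x ≤ c.B * G h x
  /-- lookahead -/
  LA : ∀ h x (m : M h x), F (h + 1) x ≤ ∑ j ∈ s h x m, F h (y h x m j) + U (h + 1) x / c.J
  /-- the optimum -/
  opt : ∀ h x, ∃ m : M h x, ∑ j ∈ s h x m, G h (y h x m j) ≤ G (h + 1) x
  leafF : ∀ x, F 0 x ≤ G 0 x
  leafC : ∀ x, Cb 0 x ≤ G 0 x
  /-- costs are at most `(1+b) F` -/
  CF : ∀ h x, Cb (h + 1) x ≤ (1 + c.b) * F (h + 1) x
  /-- wild windows -/
  wild : ∀ h x (m : M h x), |d (h + 1) x| < (1 - 4 * c.del) * F (h + 1) x →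
    ∑ j ∈ s h x m, F h (y h x m j) ≤ c.Th * F (h + 1) x →
    Cb (h + 1) x ≤ ∑ j ∈ s h x m, Cb h (y h x m j) + c.k1 * F (h + 1) x
  /-- good windows -/
  good : ∀ h x (m : M h x), |d (h + 1) x| < (1 - 4 * c.del) * F (h + 1) x →
    ∑ j ∈ s h x m, F h (y h x m j) ≤ (1 + c.sg) * F (h + 1) x →
    ∑ j ∈ s h x m, F h (y h x m j) ≤ c.Th * F (h + 1) x →
    En (s h x m) (fun j => F h (y h x m j)) (fun j => d h (y h x m j))
      (d (h + 1) x / F (h + 1) x) ≤ c.sg ^ 2 * F (h + 1) x →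
    U (h + 1) x / c.J ≤ c.sg * F (h + 1) x →
    Cb (h + 1) x ≤ ∑ j ∈ s h x m, Cb h (y h x m j) + c.k0 * F (h + 1) x

variable {s y G F U d Cb}

theorem Epoch.G0 {c : Const} (E : Epoch s y G F U d Cb c) (h : ℕ) (x : S h) : 0 ≤ G h x :=
  (abs_nonneg _).trans (E.dG h x)

/-- **one epoch, pointwise** -/
theorem epochX {c : Const} (E : Epoch s y G F U d Cb c) (h : ℕ) (x : S h) :
    Cb h x + c.lam * Phi (F h x) (d h x) ≤ (c.A + h * c.beta) * G h x := by
  induction h with
  | zero =>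
    have h1 := E.leafC x
    have h2 := E.leafF x
    have h3 : |d 0 x| ≤ F 0 x := (E.dG 0 x).trans (E.GF 0 x)
    have h4 := Phi_le h3
    have h5 := c.lam_nonneg
    have h6 := c.one_le_A
    have h7 := E.G0 0 x
    have h8 : c.lam * Phi (F 0 x) (d 0 x) ≤ c.lam * (3 * G 0 x) :=
      mul_le_mul_of_nonneg_left (h4.trans (by linarith)) h5
    have h9 : (1 + 3 * c.lam) * G 0 x ≤ c.A * G 0 x := mul_le_mul_of_nonneg_right h6 h7
    simp only [Nat.cast_zero, zero_mul, add_zero]
    nlinarith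
  | succ h ih =>
    have hdF : |d (h + 1) x| ≤ F (h + 1) x := (E.dG _ x).trans (E.GF _ x)
    have hPhi := Phi_le hdF
    have hlam := c.lam_nonneg
    have hG0 := E.G0 (h + 1) x
    have hF0 : 0 ≤ F (h + 1) x := hG0.trans (E.GF _ x)
    have hCF := E.CF h x
    have hb := c.b0
    have hbeta := c.beta_nonneg
    have hX : Cb (h + 1) x + c.lam * Phi (F (h + 1) x) (d (h + 1) x)
        ≤ (1 + c.b + 3 * c.lam) * F (h + 1) x := by
      have := mul_le_mul_of_nonneg_left hPhi hlam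
      nlinarith
    have hk : (0 : ℝ) ≤ (h + 1 : ℕ) * c.beta * G (h + 1) x :=
      mul_nonneg (mul_nonneg (Nat.cast_nonneg _) hbeta) hG0
    have hc1 : 0 ≤ 1 + c.b + 3 * c.lam := by linarith
    -- retired
    by_cases hR1 : (1 - 4 * c.del) * F (h + 1) x ≤ |d (h + 1) x|
    · have h1 : 0 < 1 - 4 * c.del := by linarith [c.del1]
      have h2 : F (h + 1) x ≤ 1 / (1 - 4 * c.del) * G (h + 1) x := by
        rw [div_mul_eq_mul_div, le_div_iff₀ h1]
        nlinarith [E.dG (h + 1) x]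
      have h3 : F (h + 1) x ≤ max (1 / (1 - 4 * c.del)) (c.B / c.Th) * G (h + 1) x :=
        h2.trans (mul_le_mul_of_nonneg_right (le_max_left _ _) hG0)
      have h4 := mul_le_mul_of_nonneg_left h3 hc1
      have h5 : (1 + c.b + 3 * c.lam) * (max (1 / (1 - 4 * c.del)) (c.B / c.Th) * G (h + 1) x)
          = c.A * G (h + 1) x := by
        unfold Const.A
        ring
      rw [h5] at h4
      have h6 : (c.A + (h + 1 : ℕ) * c.beta) * G (h + 1) x
          = c.A * G (h + 1) x + (h + 1 : ℕ) * c.beta * G (h + 1) x := by ring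
      rw [h6]
      linarith
    push Not at hR1
    obtain ⟨m, hm⟩ := E.opt h x
    by_cases hR2 : ∑ j ∈ s h x m, F h (y h x m j) ≤ c.Th * F (h + 1) x
    swap
    · push Not at hR2
      have h1 : ∑ j ∈ s h x m, F h (y h x m j) ≤ c.B * G (h + 1) x := by
        refine le_trans ?_ (mul_le_mul_of_nonneg_left hm (by linarith [c.B0]))
        rw [mul_sum]
        exact sum_le_sum fun j _ => (E.FU _ _).trans (E.UG _ _)
      have h2 : F (h + 1) x ≤ c.B / c.Th * G (h + 1) x := by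
        rw [div_mul_eq_mul_div, le_div_iff₀ c.Th0]
        linarith
      have h3 : F (h + 1) x ≤ max (1 / (1 - 4 * c.del)) (c.B / c.Th) * G (h + 1) x :=
        h2.trans (mul_le_mul_of_nonneg_right (le_max_right _ _) hG0)
      have h4 := mul_le_mul_of_nonneg_left h3 hc1
      have h5 : (1 + c.b + 3 * c.lam) * (max (1 / (1 - 4 * c.del)) (c.B / c.Th) * G (h + 1) x)
          = c.A * G (h + 1) x := by
        unfold Const.A
        ring
      rw [h5] at h4
      have h6 : (c.A + (h + 1 : ℕ) * c.beta) * G (h + 1) x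
          = c.A * G (h + 1) x + (h + 1 : ℕ) * c.beta * G (h + 1) x := by ring
      rw [h6]
      linarith
    -- interior
    have hFpos : 0 < F (h + 1) x := by
      rcases hF0.eq_or_lt with h0 | h0
      · rw [← h0, mul_zero] at hR1
        exact absurd (abs_nonneg (d (h + 1) x)) (not_le.2 hR1)
      · exact h0
    have hU0 : 0 ≤ U (h + 1) x := hF0.trans (E.FU _ x)
    have hUJ : 0 ≤ U (h + 1) x / c.J := div_nonneg hU0 c.J0.le
    have hstep := phi_step (s := s h x m) (F := fun j => F h (y h x m j))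
      (d := fun j => d h (y h x m j)) hFpos hdF (E.dadd h x m)
      (fun j _ => (E.dG _ _).trans (E.GF _ _)) (E.LA h x m) hUJ
    have hEn := En_nonneg (s := s h x m) (F := fun j => F h (y h x m j))
      (d := fun j => d h (y h x m j))
      (fun j _ => (E.G0 _ _).trans (E.GF _ _)) (d (h + 1) x / F (h + 1) x)
    have hdr := le_max_right (∑ j ∈ s h x m, F h (y h x m j) - F (h + 1) x) 0
    set En0 := En (s h x m) (fun j => F h (y h x m j)) (fun j => d h (y h x m j))
      (d (h + 1) x / F (h + 1) x) with hEn0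
    set dr := max (∑ j ∈ s h x m, F h (y h x m j) - F (h + 1) x) 0 with hdrd
    set UJ := U (h + 1) x / c.J with hUJd
    have hks : 0 ≤ c.k1 / c.sg := div_nonneg c.k10 c.sg0.le
    -- the local inequality
    have hloc : Cb (h + 1) x ≤ ∑ j ∈ s h x m, Cb h (y h x m j) + c.k0 * F (h + 1) x
        + c.lam * (En0 + dr) + c.k1 / c.sg * UJ := by
      have hlm : 0 ≤ c.lam * (En0 + dr) := mul_nonneg hlam (by linarith)
      have hku : 0 ≤ c.k1 / c.sg * UJ := mul_nonneg hks hUJ
      have hk0 : 0 ≤ c.k0 * F (h + 1) x := mul_nonneg c.k00 hF0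
      have hlk : c.lam * (c.sg ^ 2 * F (h + 1) x) = c.k1 * F (h + 1) x := by
        have := c.sg0.ne'
        unfold Const.lam
        field_simp
      by_cases g1 : En0 ≤ c.sg ^ 2 * F (h + 1) x
      · by_cases g2 : ∑ j ∈ s h x m, F h (y h x m j) ≤ (1 + c.sg) * F (h + 1) x
        · by_cases g3 : UJ ≤ c.sg * F (h + 1) x
          · have := E.good h x m hR1 g2 hR2 g1 g3
            linarith
          · push Not at g3
            have h1 := E.wild h x m hR1 hR2
            have h2 : c.k1 * F (h + 1) x ≤ c.k1 / c.sg * UJ := by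
              rw [div_mul_eq_mul_div, le_div_iff₀ c.sg0]
              nlinarith [c.k10]
            linarith
        · push Not at g2
          have h1 := E.wild h x m hR1 hR2
          have h2 : c.sg * F (h + 1) x ≤ dr := by
            refine le_trans ?_ (le_max_left _ _)
            linarith
          have h3 : c.sg ^ 2 * F (h + 1) x ≤ En0 + dr := by
            have : c.sg ^ 2 ≤ c.sg := by nlinarith [c.sg0, c.sg1]
            nlinarith
          have h4 := mul_le_mul_of_nonneg_left h3 hlam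
          linarith
      · push Not at g1
        have h1 := E.wild h x m hR1 hR2
        have h3 : c.sg ^ 2 * F (h + 1) x ≤ En0 + dr := by linarith
        have h4 := mul_le_mul_of_nonneg_left h3 hlam
        linarith
    have hind : ∑ j ∈ s h x m, (Cb h (y h x m j) + c.lam * Phi (F h (y h x m j)) (d h (y h x m j)))
        ≤ (c.A + h * c.beta) * G (h + 1) x := by
      refine le_trans (sum_le_sum fun j _ => ih (y h x m j)) ?_
      rw [← mul_sum]
      exact mul_le_mul_of_nonneg_left hm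
        (add_nonneg c.A_nonneg (mul_nonneg (Nat.cast_nonneg _) hbeta))
    rw [sum_add_distrib, ← mul_sum] at hind
    have hst := mul_le_mul_of_nonneg_left hstep hlam
    have hF_G : F (h + 1) x ≤ c.B * G (h + 1) x := (E.FU _ x).trans (E.UG _ x)
    have hU_G : UJ ≤ c.B * G (h + 1) x / c.J := by
      rw [hUJd]
      exact div_le_div_of_nonneg_right (E.UG _ x) c.J0.le
    have hb1 : c.k0 * F (h + 1) x ≤ c.k0 * (c.B * G (h + 1) x) :=
      mul_le_mul_of_nonneg_left hF_G c.k00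
    have hb2 : (2 * c.lam + c.k1 / c.sg) * UJ
        ≤ (2 * c.lam + c.k1 / c.sg) * (c.B * G (h + 1) x / c.J) :=
      mul_le_mul_of_nonneg_left hU_G (by linarith)
    have hbe : c.beta * G (h + 1) x = c.k0 * (c.B * G (h + 1) x)
        + (2 * c.lam + c.k1 / c.sg) * (c.B * G (h + 1) x / c.J) := by
      unfold Const.beta
      ring
    have hfin : (c.A + (h + 1 : ℕ) * c.beta) * G (h + 1) x
        = (c.A + h * c.beta) * G (h + 1) x + c.beta * G (h + 1) x := by
      push_cast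
      ring
    rw [hfin, hbe]
    nlinarith

/-- **one epoch, pointwise** -/
theorem epoch {c : Const} (E : Epoch s y G F U d Cb c) (h : ℕ) (x : S h) :
    Cb h x ≤ (c.A + h * c.beta) * G h x := by
  have h1 := epochX E h x
  have h2 := mul_nonneg c.lam_nonneg
    (Phi_nonneg (F := F h x) (d := d h x) ((E.G0 h x).trans (E.GF h x)))
  linarith

end Epoch

section Chain

/-- the factor after one epoch -/
theorem Const.factor_le (c : Const) (H : ℕ) {e kap : ℝ}
    (h1 : (1 + c.b + 3 * c.lam) / (1 - 4 * c.del) ≤ 1 + e)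
    (h2 : (1 + c.b + 3 * c.lam) / c.Th + H * (c.k0 + (2 * c.lam + c.k1 / c.sg) / c.J) ≤ kap) :
    c.A + H * c.beta ≤ 1 + e + kap * c.B := by
  have h0 : 0 ≤ 1 + c.b + 3 * c.lam := by
    have := c.b0
    have := c.lam_nonneg
    linarith
  have hd : 0 < 1 - 4 * c.del := by linarith [c.del1]
  have hA : c.A ≤ (1 + c.b + 3 * c.lam) / (1 - 4 * c.del)
      + (1 + c.b + 3 * c.lam) / c.Th * c.B := by
    unfold Const.A
    have e1 : (1 + c.b + 3 * c.lam) / (1 - 4 * c.del)
        = (1 + c.b + 3 * c.lam) * (1 / (1 - 4 * c.del)) := by ring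
    have e2 : (1 + c.b + 3 * c.lam) / c.Th * c.B = (1 + c.b + 3 * c.lam) * (c.B / c.Th) := by ring
    rw [e1, e2, ← mul_add]
    refine mul_le_mul_of_nonneg_left (max_le ?_ ?_) h0
    · have : 0 ≤ c.B / c.Th := div_nonneg (by linarith [c.B0]) c.Th0.le
      linarith
    · have : 0 ≤ 1 / (1 - 4 * c.del) := by positivity
      linarith
  have hB : (H : ℝ) * c.beta = H * (c.k0 + (2 * c.lam + c.k1 / c.sg) / c.J) * c.B := by
    unfold Const.beta
    ring
  have h3 := mul_le_mul_of_nonneg_right h2 (by linarith [c.B0] : 0 ≤ c.B)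
  rw [add_mul] at h3
  linarith

/-- iteration of `B' = a + κ B` -/
theorem chain_le {a kap B0 : ℝ} (hk0 : 0 ≤ kap) (hk1 : kap < 1) (B : ℕ → ℝ) (hB0 : B 0 ≤ B0)
    (ha : 0 ≤ a) (hB : ∀ e, B (e + 1) ≤ a + kap * B e) (e : ℕ) :
    B e ≤ a / (1 - kap) + kap ^ e * B0 := by
  have h1 : 0 < 1 - kap := by linarith
  induction e with
  | zero =>
    have := div_nonneg ha h1.le
    simp only [pow_zero, one_mul]
    linarith
  | succ e ih =>
    refine (hB e).trans ?_
    have h2 := mul_le_mul_of_nonneg_left ih hk0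
    have h3 : a + kap * (a / (1 - kap)) = a / (1 - kap) := by
      field_simp
      ring
    rw [pow_succ]
    nlinarith

end Chain

end Crest.Agent.R288.AbovePt372
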