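import Mathlib

/-!
# Row 288: the mass recursion "from above" (LEMMA 288-232, posts #4352, #4406)

Everything lives on one fixed finite tree (the optimal tree of the root): a node is a pair
`(h, j)` (macro height, index), its `N` children are `(h-1, N j + t)`, `t < N`; `lf h j` says that
`(h, j)` is a leaf (all nodes of height `0` are leaves).

* `SA f h j`: sum of `f` over the internal nodes of the subtree of `(h,j)`;
* `SL f h j`: sum of `f` over the leaves;
* `MS f h j`: mass of `f` = supremum over the antichains (cuts) of the subtree of the sum of `f`;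
* `bad_mass`: the `F`-mass of the bad nodes (energy in `F`-mass, no martingale, no lower bound);
* `mass_step`: one group of ranks, `mass Rbar <= (1+a) G + kappa * mass Rprev`;
* `mass_iter`: all groups.
-/

namespace Crest.Agent.R288.Above232

open Finset

variable (N : ℕ) (lf : ℕ → ℕ → Prop) [∀ h j, Decidable (lf h j)]

/-- sum of `f` over the children of `(h, j)` (`0` for `h = 0`). -/
def ch (f : ℕ → ℕ → ℝ) : ℕ → ℕ → ℝ
  | 0, _ => 0
  | h + 1, j => ∑ t ∈ range N, f h (N * j + t)

/-- sum of `f` over the internal nodes. -/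
def SA (f : ℕ → ℕ → ℝ) : ℕ → ℕ → ℝ
  | 0, _ => 0
  | h + 1, j => if lf (h + 1) j then 0 else f (h + 1) j + ∑ t ∈ range N, SA f h (N * j + t)

/-- sum of `f` over the leaves. -/
def SL (f : ℕ → ℕ → ℝ) : ℕ → ℕ → ℝ
  | 0, j => f 0 j
  | h + 1, j => if lf (h + 1) j then f (h + 1) j else ∑ t ∈ range N, SL f h (N * j + t)

/-- mass: supremum over antichains. -/
noncomputable def MS (f : ℕ → ℕ → ℝ) : ℕ → ℕ → ℝ
  | 0, j => f 0 j
  | h + 1, j => if lf (h + 1) j then f (h + 1) j
      else max (f (h + 1) j) (∑ t ∈ range N, MS f h (N * j + t))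

/-- `P` holds at every node of the subtree. -/
def AllN (P : ℕ → ℕ → Prop) : ℕ → ℕ → Prop
  | 0, j => P 0 j
  | h + 1, j => P (h + 1) j ∧ (¬ lf (h + 1) j → ∀ t < N, AllN P h (N * j + t))

set_option linter.unusedSectionVars false

variable {N lf}

lemma SA_add (f g : ℕ → ℕ → ℝ) (h j : ℕ) :
    SA N lf (fun h j => f h j + g h j) h j = SA N lf f h j + SA N lf g h j := by
  induction h generalizing j with
  | zero => simp [SA]
  | succ h ih =>
    by_cases hl : lf (h + 1) j
    · simp [SA, hl]
    · simp only [SA, hl, if_false, ih, Finset.sum_add_distrib]; ring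

lemma SA_smul (c : ℝ) (f : ℕ → ℕ → ℝ) (h j : ℕ) :
    SA N lf (fun h j => c * f h j) h j = c * SA N lf f h j := by
  induction h generalizing j with
  | zero => simp [SA]
  | succ h ih =>
    by_cases hl : lf (h + 1) j
    · simp [SA, hl]
    · simp only [SA, hl, if_false, ih, ← Finset.mul_sum]; ring

/-- internal nodes of the subtree satisfy `P`. -/
def AllI (N : ℕ) (lf : ℕ → ℕ → Prop) [∀ h j, Decidable (lf h j)] (P : ℕ → ℕ → Prop) :
    ℕ → ℕ → Prop
  | 0, _ => True
  | h + 1, j => ¬ lf (h + 1) j → (P (h + 1) j ∧ ∀ t < N, AllI N lf P h (N * j + t))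

lemma SA_mono {f g : ℕ → ℕ → ℝ} {h j : ℕ} (H : AllI N lf (fun h j => f h j ≤ g h j) h j) :
    SA N lf f h j ≤ SA N lf g h j := by
  induction h generalizing j with
  | zero => simp [SA]
  | succ h ih =>
    by_cases hl : lf (h + 1) j
    · simp [SA, hl]
    · simp only [SA, hl, if_false]
      exact add_le_add (H hl).1 (Finset.sum_le_sum fun t ht => ih ((H hl).2 t (mem_range.1 ht)))

lemma AllI_imp {P Q : ℕ → ℕ → Prop} (hPQ : ∀ h j, P h j → Q h j) {h j : ℕ}
    (H : AllI N lf P h j) : AllI N lf Q h j := by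
  induction h generalizing j with
  | zero => trivial
  | succ h ih =>
    intro hl
    exact ⟨hPQ _ _ (H hl).1, fun t ht => ih ((H hl).2 t ht)⟩

lemma AllN_I {P : ℕ → ℕ → Prop} {h j : ℕ} (H : AllN N lf P h j) : AllI N lf P h j := by
  induction h generalizing j with
  | zero => trivial
  | succ h ih =>
    intro hl
    exact ⟨H.1, fun t ht => ih (H.2 hl t ht)⟩

lemma AllN_imp {P Q : ℕ → ℕ → Prop} (hPQ : ∀ h j, P h j → Q h j) {h j : ℕ}
    (H : AllN N lf P h j) : AllN N lf Q h j := by
  induction h generalizing j with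
  | zero => exact hPQ _ _ H
  | succ h ih =>
    exact ⟨hPQ _ _ H.1, fun hl t ht => ih (H.2 hl t ht)⟩

lemma AllN_of {P : ℕ → ℕ → Prop} (hP : ∀ h j, P h j) (h j : ℕ) : AllN N lf P h j := by
  induction h generalizing j with
  | zero => exact hP _ _
  | succ h ih => exact ⟨hP _ _, fun _ t _ => ih _⟩

lemma SA_nonneg {f : ℕ → ℕ → ℝ} {h j : ℕ} (H : AllI N lf (fun h j => 0 ≤ f h j) h j) :
    0 ≤ SA N lf f h j := by
  induction h generalizing j with
  | zero => simp [SA]
  | succ h ih =>
    by_cases hl : lf (h + 1) j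
    · simp [SA, hl]
    · simp only [SA, hl, if_false]
      exact add_nonneg (H hl).1 (Finset.sum_nonneg fun t ht => ih ((H hl).2 t (mem_range.1 ht)))

/-- telescoping: `sum over internal nodes of (children - node) = leaves - root`. -/
lemma SA_tele (f : ℕ → ℕ → ℝ) (h j : ℕ) :
    SA N lf (fun h j => ch N f h j - f h j) h j = SL N lf f h j - f h j := by
  induction h generalizing j with
  | zero => simp [SA, SL]
  | succ h ih =>
    by_cases hl : lf (h + 1) j
    · simp [SA, SL, hl]
    · have h1 : SA N lf (fun h j => ch N f h j - f h j) (h + 1) j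
          = (ch N f (h + 1) j - f (h + 1) j)
            + ∑ t ∈ range N, SA N lf (fun h j => ch N f h j - f h j) h (N * j + t) := by
        simp only [SA, hl, if_false]
      have h2 : SL N lf f (h + 1) j = ∑ t ∈ range N, SL N lf f h (N * j + t) := by
        simp only [SL, hl, if_false]
      rw [h1, h2, Finset.sum_congr rfl fun t _ => ih (N * j + t), Finset.sum_sub_distrib]
      simp only [ch]; ring

lemma SL_mono {f g : ℕ → ℕ → ℝ} {h j : ℕ} (H : AllN N lf (fun h j => f h j ≤ g h j) h j) :
    SL N lf f h j ≤ SL N lf g h j := by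
  induction h generalizing j with
  | zero => exact H
  | succ h ih =>
    by_cases hl : lf (h + 1) j
    · simpa [SL, hl] using H.1
    · simp only [SL, hl, if_false]
      exact Finset.sum_le_sum fun t ht => ih (H.2 hl t (mem_range.1 ht))

/-- `(h,j)` is a leaf. -/
def IsLf (lf : ℕ → ℕ → Prop) (h j : ℕ) : Prop := h = 0 ∨ lf h j

lemma SL_mono' {f g : ℕ → ℕ → ℝ} {h j : ℕ}
    (H : AllN N lf (fun h j => IsLf lf h j → f h j ≤ g h j) h j) :
    SL N lf f h j ≤ SL N lf g h j := by
  induction h generalizing j with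
  | zero => exact H (Or.inl rfl)
  | succ h ih =>
    by_cases hl : lf (h + 1) j
    · simpa [SL, hl] using H.1 (Or.inr hl)
    · simp only [SL, hl, if_false]
      exact Finset.sum_le_sum fun t ht => ih (H.2 hl t (mem_range.1 ht))

lemma SL_smul (c : ℝ) (f : ℕ → ℕ → ℝ) (h j : ℕ) :
    SL N lf (fun h j => c * f h j) h j = c * SL N lf f h j := by
  induction h generalizing j with
  | zero => simp [SL]
  | succ h ih =>
    by_cases hl : lf (h + 1) j
    · simp [SL, hl]
    · simp only [SL, hl, if_false, ih, ← Finset.mul_sum]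

/-- additive functions: `G = sum of the children` at internal nodes. -/
lemma SL_eq {G : ℕ → ℕ → ℝ} {h j : ℕ} (H : AllI N lf (fun h j => G h j = ch N G h j) h j) :
    SL N lf G h j = G h j := by
  induction h generalizing j with
  | zero => rfl
  | succ h ih =>
    by_cases hl : lf (h + 1) j
    · simp [SL, hl]
    · have h1 : G (h + 1) j = ch N G (h + 1) j := (H hl).1
      simp only [SL, hl, if_false, h1, ch]
      exact Finset.sum_congr rfl fun t ht => ih ((H hl).2 t (mem_range.1 ht))

lemma le_MS {f : ℕ → ℕ → ℝ} (h j : ℕ) : f h j ≤ MS N lf f h j := by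
  cases h with
  | zero => exact le_refl _
  | succ h =>
    by_cases hl : lf (h + 1) j
    · simp [MS, hl]
    · simp only [MS, hl, if_false]; exact le_max_left _ _

lemma MS_mono {f g : ℕ → ℕ → ℝ} {h j : ℕ} (H : AllN N lf (fun h j => f h j ≤ g h j) h j) :
    MS N lf f h j ≤ MS N lf g h j := by
  induction h generalizing j with
  | zero => exact H
  | succ h ih =>
    by_cases hl : lf (h + 1) j
    · simpa [MS, hl] using H.1
    · simp only [MS, hl, if_false]
      exact max_le_max H.1 (Finset.sum_le_sum fun t ht => ih (H.2 hl t (mem_range.1 ht)))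

/-- all nodes of the subtree have nonnegative mass if `f >= 0`. -/
lemma MS_nonneg {f : ℕ → ℕ → ℝ} {h j : ℕ} (H : AllN N lf (fun h j => 0 ≤ f h j) h j) :
    0 ≤ MS N lf f h j := by
  refine le_trans ?_ (le_MS (N := N) (lf := lf) h j)
  cases h with
  | zero => exact H
  | succ h => exact H.1

/-- the sum over all internal nodes is at most (height) * mass. -/
lemma SA_le_MS {f : ℕ → ℕ → ℝ} {h j : ℕ} (H : AllN N lf (fun h j => 0 ≤ f h j) h j) :
    SA N lf f h j ≤ h * MS N lf f h j := by
  induction h generalizing j with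
  | zero => simp [SA]
  | succ h ih =>
    by_cases hl : lf (h + 1) j
    · have := MS_nonneg H
      simp only [SA, hl, if_true]
      positivity
    · have h1 : SA N lf f (h + 1) j = f (h + 1) j + ∑ t ∈ range N, SA N lf f h (N * j + t) := by
        simp [SA, hl]
      have h2 : MS N lf f (h + 1) j
          = max (f (h + 1) j) (∑ t ∈ range N, MS N lf f h (N * j + t)) := by simp [MS, hl]
      have h3 : ∑ t ∈ range N, SA N lf f h (N * j + t)
          ≤ h * ∑ t ∈ range N, MS N lf f h (N * j + t) := by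
        rw [Finset.mul_sum]
        exact Finset.sum_le_sum fun t ht => ih (H.2 hl t (mem_range.1 ht))
      have h4 : ∑ t ∈ range N, MS N lf f h (N * j + t) ≤ MS N lf f (h + 1) j := by
        rw [h2]; exact le_max_right _ _
      have h5 : f (h + 1) j ≤ MS N lf f (h + 1) j := by rw [h2]; exact le_max_left _ _
      have h6 : (h : ℝ) * ∑ t ∈ range N, MS N lf f h (N * j + t) ≤ h * MS N lf f (h + 1) j :=
        mul_le_mul_of_nonneg_left h4 (Nat.cast_nonneg h)
      rw [h1]; push_cast; nlinarith

/-! ## the recursion of one group of ranks -/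

/-- (4) of the lemma: follow the optimal tree down to leaves and retired nodes. -/
theorem mass_le {R F G r : ℕ → ℕ → ℝ} {a c : ℝ} (ha : 0 ≤ a) (hc : 0 ≤ c)
    {h j : ℕ}
    (hG0 : AllN N lf (fun h j => 0 ≤ G h j) h j)
    (hF0 : AllN N lf (fun h j => 0 ≤ F h j) h j)
    (hr0 : AllI N lf (fun h j => 0 ≤ r h j) h j)
    (hG : AllI N lf (fun h j => G h j = ch N G h j) h j)
    (hleaf : AllN N lf (fun h j => IsLf lf h j → R h j ≤ (1 + a) * G h j) h j)
    (hint : AllI N lf (fun h j => R h j ≤ (1 + a) * G h j ∨ R h j ≤ c * ch N F h j ∨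
      R h j ≤ ch N R h j + r h j) h j) :
    MS N lf R h j ≤ (1 + a) * G h j + c * MS N lf F h j + SA N lf r h j := by
  induction h generalizing j with
  | zero =>
    have h1 := hleaf (Or.inl rfl)
    have h2 : (0:ℝ) ≤ F 0 j := hF0
    simp only [MS, SA]
    nlinarith [mul_nonneg hc h2]
  | succ h ih =>
    have hF1 := MS_nonneg hF0
    by_cases hl : lf (h + 1) j
    · have h1 := hleaf.1 (Or.inr hl)
      simp only [MS, SA, hl, if_true] at hF1 ⊢
      nlinarith [mul_nonneg hc hF1]
    · have hch : ∑ t ∈ range N, MS N lf R h (N * j + t)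
          ≤ ∑ t ∈ range N, ((1 + a) * G h (N * j + t) + c * MS N lf F h (N * j + t)
            + SA N lf r h (N * j + t)) :=
        Finset.sum_le_sum fun t ht => by
          have ht' := mem_range.1 ht
          exact ih (hG0.2 hl t ht') (hF0.2 hl t ht') ((hr0 hl).2 t ht') ((hG hl).2 t ht')
            (hleaf.2 hl t ht') ((hint hl).2 t ht')
      simp only [Finset.sum_add_distrib, ← Finset.mul_sum] at hch
      have hGe : G (h + 1) j = ∑ t ∈ range N, G h (N * j + t) := by simpa [ch] using (hG hl).1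
      have hSA : SA N lf r (h + 1) j = r (h + 1) j + ∑ t ∈ range N, SA N lf r h (N * j + t) := by
        simp [SA, hl]
      have hMF : MS N lf F (h + 1) j
          = max (F (h + 1) j) (∑ t ∈ range N, MS N lf F h (N * j + t)) := by simp [MS, hl]
      have hMF2 : ∑ t ∈ range N, MS N lf F h (N * j + t) ≤ MS N lf F (h + 1) j := by
        rw [hMF]; exact le_max_right _ _
      have hMR : MS N lf R (h + 1) j
          = max (R (h + 1) j) (∑ t ∈ range N, MS N lf R h (N * j + t)) := by simp [MS, hl]
      have hr1 : 0 ≤ r (h + 1) j := (hr0 hl).1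
      have hr2 : 0 ≤ ∑ t ∈ range N, SA N lf r h (N * j + t) :=
        Finset.sum_nonneg fun t ht => SA_nonneg ((hr0 hl).2 t (mem_range.1 ht))
      have hb : c * ∑ t ∈ range N, MS N lf F h (N * j + t) ≤ c * MS N lf F (h + 1) j :=
        mul_le_mul_of_nonneg_left hMF2 hc
      have hB : ∑ t ∈ range N, MS N lf R h (N * j + t)
          ≤ (1 + a) * G (h + 1) j + c * MS N lf F (h + 1) j
            + ∑ t ∈ range N, SA N lf r h (N * j + t) := by
        rw [hGe]; linarith
      rw [hMR, hSA]
      refine max_le ?_ (by linarith)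
      have hg1 : 0 ≤ G (h + 1) j := hG0.1
      rcases (hint hl).1 with h1 | h1 | h1
      · have : 0 ≤ c * MS N lf F (h + 1) j := mul_nonneg hc hF1
        linarith
      · have h2 : ch N F (h + 1) j ≤ ∑ t ∈ range N, MS N lf F h (N * j + t) :=
          Finset.sum_le_sum fun t _ => le_MS _ _
        have h3 : c * ch N F (h + 1) j ≤ c * MS N lf F (h + 1) j :=
          mul_le_mul_of_nonneg_left (h2.trans hMF2) hc
        have : 0 ≤ (1 + a) * G (h + 1) j := by positivity
        linarith
      · have h2 : ch N R (h + 1) j ≤ ∑ t ∈ range N, MS N lf R h (N * j + t) :=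
          Finset.sum_le_sum fun t _ => le_MS _ _
        linarith

/-! ## energy in `F`-mass and the mass of the bad nodes -/

/-- `w^2 / F`. -/
noncomputable def Qf (F w : ℕ → ℕ → ℝ) (h j : ℕ) : ℝ := w h j ^ 2 / F h j

/-- energy of a node: `sum_t F_t (a_t - theta)^2`, `a = w / F` (children), `theta = w / F` (node). -/
noncomputable def En (N : ℕ) (F w : ℕ → ℕ → ℝ) : ℕ → ℕ → ℝ
  | 0, _ => 0
  | h + 1, j => ∑ t ∈ range N, F h (N * j + t) *
      (w h (N * j + t) / F h (N * j + t) - w (h + 1) j / F (h + 1) j) ^ 2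

lemma En_nonneg {F w : ℕ → ℕ → ℝ} {h j : ℕ} (hF : ∀ t < N, 0 ≤ F h (N * j + t)) :
    0 ≤ En N F w (h + 1) j :=
  Finset.sum_nonneg fun t ht => mul_nonneg (hF t (mem_range.1 ht)) (sq_nonneg _)

lemma En_eq {F w : ℕ → ℕ → ℝ} {h j : ℕ} (hF : ∀ t < N, |w h (N * j + t)| ≤ F h (N * j + t))
    (hF1 : |w (h + 1) j| ≤ F (h + 1) j) (hw : w (h + 1) j = ch N w (h + 1) j) :
    En N F w (h + 1) j = (ch N (Qf F w) (h + 1) j - Qf F w (h + 1) j)
      + (w (h + 1) j / F (h + 1) j) ^ 2 * (ch N F (h + 1) j - F (h + 1) j) := by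
  set θ := w (h + 1) j / F (h + 1) j with hθ
  have key : ∀ t ∈ range N, F h (N * j + t) * (w h (N * j + t) / F h (N * j + t) - θ) ^ 2
      = Qf F w h (N * j + t) - 2 * θ * w h (N * j + t) + θ ^ 2 * F h (N * j + t) := by
    intro t ht
    have h1 := hF t (mem_range.1 ht)
    by_cases h0 : F h (N * j + t) = 0
    · have h2 : w h (N * j + t) = 0 := by
        rw [h0] at h1; exact abs_eq_zero.1 (le_antisymm h1 (abs_nonneg _))
      simp [Qf, h0, h2]
    · simp only [Qf]; field_simp; ring
  have hsum : En N F w (h + 1) j = ch N (Qf F w) (h + 1) j - 2 * θ * ch N w (h + 1) j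
      + θ ^ 2 * ch N F (h + 1) j := by
    have : En N F w (h + 1) j = ∑ t ∈ range N, (Qf F w h (N * j + t)
        - 2 * θ * w h (N * j + t) + θ ^ 2 * F h (N * j + t)) :=
      Finset.sum_congr rfl key
    rw [this, Finset.sum_add_distrib, Finset.sum_sub_distrib, ← Finset.mul_sum, ← Finset.mul_sum]
    rfl
  rw [hsum, ← hw]
  by_cases h0 : F (h + 1) j = 0
  · have h2 : w (h + 1) j = 0 := by
      rw [h0] at hF1; exact abs_eq_zero.1 (le_antisymm hF1 (abs_nonneg _))
    simp [hθ, Qf, h0, h2]
  · have h3 : Qf F w (h + 1) j = θ * w (h + 1) j := by simp only [Qf, hθ]; ring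
    have h4 : θ * w (h + 1) j = θ ^ 2 * F (h + 1) j := by
      rw [hθ]; field_simp
    rw [h3]; linarith

/-- all the energy, up to the errors of near-subadditivity. -/
lemma SA_En_le {F w s : ℕ → ℕ → ℝ} {h j : ℕ}
    (hwF : AllN N lf (fun h j => |w h j| ≤ F h j) h j)
    (hw : AllI N lf (fun h j => w h j = ch N w h j) h j)
    (hs0 : AllI N lf (fun h j => 0 ≤ s h j) h j)
    (hs : AllI N lf (fun h j => F h j ≤ ch N F h j + s h j) h j) :
    SA N lf (En N F w) h j ≤ SA N lf (fun h j => ((ch N (Qf F w) h j - Qf F w h j)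
      + (ch N F h j - F h j)) + s h j) h j := by
  induction h generalizing j with
  | zero => simp [SA]
  | succ h ih =>
    by_cases hl : lf (h + 1) j
    · simp [SA, hl]
    · simp only [SA, hl, if_false]
      refine add_le_add ?_ (Finset.sum_le_sum fun t ht => ?_)
      · have h1 : ∀ t < N, |w h (N * j + t)| ≤ F h (N * j + t) := fun t ht => by
          have := hwF.2 hl t ht
          cases h with
          | zero => exact this
          | succ h => exact this.1
        rw [En_eq h1 hwF.1 (hw hl).1]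
        have hF0 : 0 ≤ F (h + 1) j := (abs_nonneg _).trans hwF.1
        have hθ : (w (h + 1) j / F (h + 1) j) ^ 2 ≤ 1 := by
          rw [sq_le_one_iff_abs_le_one, abs_div, abs_of_nonneg hF0]
          exact div_le_one_of_le₀ hwF.1 hF0
        have hθ0 : 0 ≤ (w (h + 1) j / F (h + 1) j) ^ 2 := sq_nonneg _
        have h5 := (hs hl).1
        have h6 := (hs0 hl).1
        rcases le_total 0 (ch N F (h + 1) j - F (h + 1) j) with h7 | h7
        · nlinarith
        · nlinarith
      · have ht' := mem_range.1 ht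
        exact ih (hwF.2 hl t ht') ((hw hl).2 t ht') ((hs0 hl).2 t ht') ((hs hl).2 t ht')

lemma SL_le_MS {f : ℕ → ℕ → ℝ} (h j : ℕ) : SL N lf f h j ≤ MS N lf f h j := by
  induction h generalizing j with
  | zero => exact le_refl _
  | succ h ih =>
    by_cases hl : lf (h + 1) j
    · simp [SL, MS, hl]
    · simp only [SL, MS, hl, if_false]
      exact (Finset.sum_le_sum fun t _ => ih _).trans (le_max_right _ _)

/-- a good node. -/
def Good (N : ℕ) (F w s : ℕ → ℕ → ℝ) (sg : ℝ) (h j : ℕ) : Prop :=
  En N F w h j ≤ sg ^ 2 * F h j ∧ ch N F h j - F h j ≤ sg * F h j ∧ s h j ≤ sg * F h j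

open Classical in
/-- `F` on the bad nodes. -/
noncomputable def FB (N : ℕ) (F w s : ℕ → ℕ → ℝ) (sg : ℝ) (h j : ℕ) : ℝ :=
  if Good N F w s sg h j then 0 else F h j

lemma SA_sub_eq (f : ℕ → ℕ → ℝ) (h j : ℕ) :
    SA N lf (fun h j => ch N f h j - f h j) h j = SL N lf f h j - f h j := SA_tele f h j

/-- **the `F`-mass of the bad nodes.** -/
theorem bad_mass {F w s : ℕ → ℕ → ℝ} {sg : ℝ} (hsg : 0 < sg) (hsg1 : sg ≤ 1) {h j : ℕ}
    (hwF : AllN N lf (fun h j => |w h j| ≤ F h j) h j)
    (hw : AllI N lf (fun h j => w h j = ch N w h j) h j)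
    (hs0 : AllI N lf (fun h j => 0 ≤ s h j) h j)
    (hs : AllI N lf (fun h j => F h j ≤ ch N F h j + s h j) h j) :
    SA N lf (FB N F w s sg) h j
      ≤ (3 * SL N lf F h j + 3 * SA N lf s h j) / sg ^ 2 := by
  have hsg2 : 0 < sg ^ 2 := by positivity
  have hF0N : AllN N lf (fun h j => 0 ≤ F h j) h j :=
    AllN_imp (fun _ _ h => (abs_nonneg _).trans h) hwF
  have hF0 : 0 ≤ F h j := by
    cases h with
    | zero => exact hF0N
    | succ h => exact hF0N.1
  have hQ0 : 0 ≤ Qf F w h j := div_nonneg (sq_nonneg _) hF0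
  -- pointwise bound
  have h1 : SA N lf (FB N F w s sg) h j ≤ SA N lf (fun h j => (1 / sg ^ 2) *
      (En N F w h j + (ch N F h j - F h j) + 2 * s h j)) h j := by
    clear hQ0 hF0
    induction h generalizing j with
    | zero => simp [SA]
    | succ h ih =>
      by_cases hl : lf (h + 1) j
      · simp [SA, hl]
      · simp only [SA, hl, if_false]
        refine add_le_add ?_ (Finset.sum_le_sum fun t ht => ?_)
        · have hch0 : ∀ t < N, 0 ≤ F h (N * j + t) := fun t ht => by
            have := hF0N.2 hl t ht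
            cases h with
            | zero => exact this
            | succ h => exact this.1
          have hE := En_nonneg (w := w) hch0
          have h5 := (hs hl).1
          have h6 := (hs0 hl).1
          have hF1 : 0 ≤ F (h + 1) j := hF0N.1
          have hsum : 0 ≤ En N F w (h + 1) j + (ch N F (h + 1) j - F (h + 1) j)
              + 2 * s (h + 1) j := by linarith
          unfold FB
          split_ifs with hg
          · positivity
          · have hg' : sg ^ 2 * F (h + 1) j ≤ En N F w (h + 1) j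
                + (ch N F (h + 1) j - F (h + 1) j) + 2 * s (h + 1) j := by
              have hsF : sg ^ 2 * F (h + 1) j ≤ sg * F (h + 1) j := by
                apply mul_le_mul_of_nonneg_right _ hF1
                nlinarith
              by_cases g1 : En N F w (h + 1) j ≤ sg ^ 2 * F (h + 1) j
              · by_cases g2 : ch N F (h + 1) j - F (h + 1) j ≤ sg * F (h + 1) j
                · have g3 : sg * F (h + 1) j < s (h + 1) j := by
                    by_contra h7; exact hg ⟨g1, g2, not_lt.1 h7⟩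
                  linarith
                · rw [not_le] at g2; linarith
              · rw [not_le] at g1; linarith
            rw [one_div, inv_mul_eq_div, le_div_iff₀ hsg2]
            linarith
        · have ht' := mem_range.1 ht
          exact ih (hwF.2 hl t ht') ((hw hl).2 t ht') ((hs0 hl).2 t ht') ((hs hl).2 t ht')
            (hF0N.2 hl t ht')
  have h2 := SA_En_le hwF hw hs0 hs
  rw [SA_add (fun h j => (ch N (Qf F w) h j - Qf F w h j) + (ch N F h j - F h j)) s,
    SA_add (fun h j => ch N (Qf F w) h j - Qf F w h j) (fun h j => ch N F h j - F h j),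
    SA_tele, SA_tele] at h2
  have h3 : SL N lf (Qf F w) h j ≤ SL N lf F h j := by
    refine SL_mono (AllN_imp (fun h j hh => ?_) hwF)
    have h0 : 0 ≤ F h j := (abs_nonneg _).trans hh
    unfold Qf
    rcases h0.eq_or_lt with h1 | h1
    · rw [← h1]; simp
    · rw [div_le_iff₀ h1, ← sq_abs]
      nlinarith [abs_nonneg (w h j)]
  have h4 : SA N lf (fun h j => (1 / sg ^ 2) *
      (En N F w h j + (ch N F h j - F h j) + 2 * s h j)) h j
      = (1 / sg ^ 2) * (SA N lf (En N F w) h j + (SL N lf F h j - F h j)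
        + 2 * SA N lf s h j) := by
    rw [SA_smul (1 / sg ^ 2) (fun h j => En N F w h j + (ch N F h j - F h j) + 2 * s h j),
      SA_add (fun h j => En N F w h j + (ch N F h j - F h j)) (fun h j => 2 * s h j),
      SA_add (En N F w) (fun h j => ch N F h j - F h j), SA_smul 2 s, SA_tele]
  rw [h4] at h1
  refine h1.trans ?_
  rw [one_div, inv_mul_eq_div]
  apply div_le_div_of_nonneg_right _ hsg2.le
  linarith

/-- **one group of ranks**: `mass R <= (1+a) G + (c + alpha h + 3 beta (1 + h/K)/sg^2) M'`. -/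
theorem mass_step {R F S G w : ℕ → ℕ → ℝ} {a c α β sg K M' : ℝ}
    (ha : 0 ≤ a) (hc : 0 ≤ c) (hα : 0 ≤ α) (hβ : 0 ≤ β) (hsg : 0 < sg) (hsg1 : sg ≤ 1)
    (hK : 0 < K) {h j : ℕ}
    (hG0 : AllN N lf (fun h j => 0 ≤ G h j) h j)
    (hG : AllI N lf (fun h j => G h j = ch N G h j) h j)
    (hS0 : AllN N lf (fun h j => 0 ≤ S h j) h j)
    (hwF : AllN N lf (fun h j => |w h j| ≤ F h j) h j)
    (hw : AllI N lf (fun h j => w h j = ch N w h j) h j)
    (hF : AllI N lf (fun h j => F h j ≤ ch N F h j + S h j / K) h j)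
    (hFM : MS N lf F h j ≤ M') (hSM : MS N lf S h j ≤ M')
    (hleaf : AllN N lf (fun h j => IsLf lf h j → R h j ≤ (1 + a) * G h j) h j)
    (hint : AllI N lf (fun h j => R h j ≤ (1 + a) * G h j ∨ R h j ≤ c * ch N F h j ∨
      R h j ≤ ch N R h j + (α * F h j + β * FB N F w (fun h j => S h j / K) sg h j)) h j) :
    MS N lf R h j ≤ (1 + a) * G h j
      + (c + α * h + 3 * β * (1 + h / K) / sg ^ 2) * M' := by
  have hF0 : AllN N lf (fun h j => 0 ≤ F h j) h j :=
    AllN_imp (fun _ _ h => (abs_nonneg _).trans h) hwF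
  have hsg2 : 0 < sg ^ 2 := by positivity
  have hFB0 : AllN N lf (fun h j => 0 ≤ FB N F w (fun h j => S h j / K) sg h j) h j :=
    AllN_imp (fun h j hh => by unfold FB; split_ifs <;> [exact le_refl _; exact hh]) hF0
  have hr0 : AllI N lf (fun h j =>
      0 ≤ α * F h j + β * FB N F w (fun h j => S h j / K) sg h j) h j := by
    have := AllN_I hF0
    clear hint hleaf hFM hSM hF hw hwF hS0 hG hG0
    induction h generalizing j with
    | zero => trivial
    | succ h ih =>
      intro hl
      refine ⟨?_, fun t ht => ih (hF0.2 hl t ht) (hFB0.2 hl t ht) ((this hl).2 t ht)⟩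
      exact add_nonneg (mul_nonneg hα hF0.1) (mul_nonneg hβ hFB0.1)
  have h1 := mass_le ha hc hG0 hF0 hr0 hG hleaf hint
  have h2 : SA N lf (fun h j => α * F h j + β * FB N F w (fun h j => S h j / K) sg h j) h j
      = α * SA N lf F h j + β * SA N lf (FB N F w (fun h j => S h j / K) sg) h j := by
    rw [SA_add (fun h j => α * F h j) (fun h j => β * FB N F w (fun h j => S h j / K) sg h j),
      SA_smul α F, SA_smul β]
  have h3 := SA_le_MS hF0
  have hs0 : AllI N lf (fun h j => 0 ≤ S h j / K) h j :=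
    AllI_imp (fun _ _ hh => div_nonneg hh hK.le) (AllN_I hS0)
  have h4 := bad_mass hsg hsg1 hwF hw hs0 hF
  have h5 : SA N lf (fun h j => S h j / K) h j ≤ h / K * M' := by
    have e : SA N lf (fun h j => S h j / K) h j = (1 / K) * SA N lf S h j := by
      rw [← SA_smul (1 / K) S]
      congr 1
      funext h j; ring
    rw [e]
    have := SA_le_MS hS0
    have h6 : (h : ℝ) * MS N lf S h j ≤ h * M' := mul_le_mul_of_nonneg_left hSM (Nat.cast_nonneg h)
    have h7 : (1 / K) * SA N lf S h j ≤ (1 / K) * (h * M') :=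
      mul_le_mul_of_nonneg_left (this.trans h6) (by positivity)
    calc _ ≤ (1 / K) * (h * M') := h7
      _ = h / K * M' := by ring
  have h6 : SL N lf F h j ≤ M' := (SL_le_MS h j).trans hFM
  have h7 : SA N lf (FB N F w (fun h j => S h j / K) sg) h j
      ≤ 3 * (1 + h / K) * M' / sg ^ 2 := by
    refine h4.trans (div_le_div_of_nonneg_right ?_ hsg2.le)
    nlinarith
  have h8 : α * SA N lf F h j ≤ α * (h * M') :=
    mul_le_mul_of_nonneg_left (h3.trans (mul_le_mul_of_nonneg_left hFM (Nat.cast_nonneg h))) hα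
  have h9 := mul_le_mul_of_nonneg_left h7 hβ
  have h10 := mul_le_mul_of_nonneg_left hFM hc
  rw [h2] at h1
  have h11 : (c + α * h + 3 * β * (1 + h / K) / sg ^ 2) * M'
      = c * M' + α * (h * M') + β * (3 * (1 + h / K) * M' / sg ^ 2) := by ring
  rw [h11]; linarith

/-- all groups. -/
theorem mass_iter {M : ℕ → ℝ} {G κ a : ℝ} (hG : 0 ≤ G) (ha : 0 ≤ a) (hκ0 : 0 ≤ κ) (hκ : κ ≤ 1 / 2)
    (hM : ∀ e, M (e + 1) ≤ (1 + a) * G + κ * M e) (e : ℕ) :
    M e ≤ (1 + a) * (1 + 2 * κ) * G + κ ^ e * M 0 := by
  induction e with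
  | zero => simp; positivity
  | succ e ih =>
    have h1 := mul_le_mul_of_nonneg_left ih hκ0
    have h2 := hM e
    have h3 : κ * ((1 + a) * (1 + 2 * κ) * G) ≤ 2 * κ * ((1 + a) * G) := by
      have : (1 + a) * G * (κ * (1 + 2 * κ)) ≤ (1 + a) * G * (2 * κ) := by
        apply mul_le_mul_of_nonneg_left _ (by positivity)
        nlinarith
      linarith
    calc M (e + 1) ≤ (1 + a) * G + κ * M e := h2
      _ ≤ (1 + a) * G + κ * ((1 + a) * (1 + 2 * κ) * G + κ ^ e * M 0) := by linarith
      _ ≤ (1 + a) * (1 + 2 * κ) * G + κ ^ (e + 1) * M 0 := by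
        rw [mul_add, pow_succ]; nlinarith

end Crest.Agent.R288.Above232
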