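/-
# Row 288, [ALG] part A (helper45), ALG-U FORM: the DETERMINISTIC part, function level

ALG v2 = #4352 FROM ABOVE + 288-T (tapes, residues) + 288-U (#4672, #4684, #4693) + decisions #4719, #4726, #4813,
#4819 (no pads).  Choices left to 45: GUARD `cls F z ∈ {κ-1, κ, κ+1}`, cells of half width `8` (`|v-u| ≤ 8 * 2^κ`),
radius `r ≥ 20`; DOMAIN by clamping every diagonal to `[-Dm, Dm]`; arrival (`numSt`, `spw`) never looks at `leaf`.
v2.1: `acells` = cells that meet the domain (105, 147).  v2.2: `pos` starts at `wlo` (860).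
No flags, no lookahead, all values natural numbers, all roundings of values UP (the means inside the robust mean
are rounded down as in `Med559.momRT`, the shift is `⌈2^κ/2^nb⌉ + 1`), weights exact products.

`F : St → ℕ` (unit, plan function, retire price of the epoch) and `X : ℕ → ℕ → St → ℕ` (`X i κ z` = the number of
rank `i` of this epoch at the pair `(κ, z)`) are ARBITRARY functions here.

* `St`, `Par`, `dist`, `cls`, `adm`, `clp`, `gst`, `rd`, `rdn` : states, parameters, class, guard, grid
* `minR`, `maxR`, `argR`, `sumR`, `lmin`, `cdiv`, `rngC` : min, max, first argmin, sum over `a < n`, ..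
* `menu`, `hull`, `numSt`                       : menu of a class, closure of pair numbers, number of a state
* `D`, `minSt`, `wlo`, `whi`, `pos`, `cut`, `piece`, `Vst` : staircases over the window grid of a state
* `fac`, `wts`, `hv`, `VV`                      : linear weights (exact products), hedge, in-window DP
* `tgt`, `tpiece`, `unt`, `rad`, `near`, `npiece`, `nlet`, `regular` : prefix plan
* `Wm`, `wild`, `calm`, `modal`, `bodyNum`      : the value after the jump
* `botNum`                                      : macro height 0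
* `arrNum`                                      : the jump
* `Xbar`, `FNext`                               : next unit function
-/
import Mathlib

set_option autoImplicit false

namespace Crest.Agent.R288.Alg45

/-- state: macro height, number of the block, the two diagonals -/
structure St where
  i : ℕ
  j : ℕ
  u : ℤ
  v : ℤ
deriving DecidableEq, Inhabited

/-- all parameters -/
structure Par where
  /-- binary levels of a window, `N = 2^n` pieces -/
  n : ℕ
  /-- `2^pb` grid points per `2^κ` (step `max 1 (2^κ / 2^pb)`) -/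
  pb : ℕ
  /-- radius of windows and cells in units `2^κ` -/
  r : ℕ
  /-- domain: all diagonals in `[-Dm, Dm]` (a power of two, divisible by all steps) -/
  Dm : ℕ
  /-- `1/g` = share of the wild value -/
  g : ℕ
  /-- rate of the near letters (unit `unt`) -/
  γ : ℕ
  /-- rate of the root decision `1/um` (unit `F+1`); prior of calm against wild is `pm : 1` -/
  um : ℕ
  pm : ℕ
  /-- near letters: `|m - m'| ≤ F / 2^sb` -/
  sb : ℕ
  /-- regularity: `Σ_q max F(near pieces q) ≤ Creg F` -/
  Creg : ℕ
  /-- R1 states: `|v-u| ≥ (1 - 4/δi) F`, i.e. `(δi - 4) F ≤ δi |v-u|` -/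
  δi : ℕ
  /-- classes of the targets of a jump: `κ - a1 ≤ κ' ≤ κ + a2` -/
  a1 : ℕ
  a2 : ℕ
  /-- classes of the targets of the hull: `κ - al ≤ κ' ≤ κ + a2` -/
  al : ℕ
  /-- jump threshold `2^κ / 2^bb` -/
  bb : ℕ
  /-- spawned classes: `κ - dl ≤ κ' ≤ κ + du`; number of copies `2^(c0+κ'-κ)` -/
  dl : ℕ
  du : ℕ
  c0 : ℕ
  /-- copies for the jump: `gJ` groups of `mJ` -/
  gJ : ℕ
  mJ : ℕ
  /-- copies for a number: `gX` groups of `mX`; shift `⌈2^κ / 2^nb⌉ + 1` -/
  gX : ℕ
  mX : ℕ
  nb : ℕ
  /-- ranks of an epoch, number of epochs -/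
  K : ℕ
  E : ℕ
deriving DecidableEq, Inhabited

variable (P : Par)

def Par.N : ℕ := 2 ^ P.n

/-! ## Elementary -/

def minR (n : ℕ) (f : ℕ → ℕ) : ℕ := (List.range n).foldl (fun m a => min m (f a)) (f 0)
def maxR (n : ℕ) (f : ℕ → ℕ) : ℕ := (List.range n).foldl (fun m a => max m (f a)) 0
def argR (n : ℕ) (f : ℕ → ℕ) : ℕ := (List.range n).foldl (fun m a => if f a < f m then a else m) 0
def sumR (n : ℕ) (f : ℕ → ℕ) : ℕ := ((List.range n).map f).sum
/-- minimum of a list and a start value -/
def lmin (a : ℕ) (l : List ℕ) : ℕ := l.foldl min a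
/-- ceiling division -/
def cdiv (a b : ℕ) : ℕ := (a + (b - 1)) / b
/-- `[lo, .., hi]` -/
def rngC (lo hi : ℕ) : List ℕ := (List.range (hi + 1 - lo)).map fun t => lo + t

/-- distance of two states of one block -/
def dist (y z : St) : ℕ := (y.u - z.u).natAbs + (y.v - z.v).natAbs
/-- class of a state -/
def cls (F : St → ℕ) (y : St) : ℕ := Nat.log 2 (F y)
/-- clamp to the domain -/
def clp (u : ℤ) : ℤ := max (-(P.Dm : ℤ)) (min (P.Dm : ℤ) u)
/-- states of the domain -/
def inD (y : St) : Prop := y.u.natAbs ≤ P.Dm ∧ y.v.natAbs ≤ P.Dm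
/-- grid step of class `κ` -/
def gst (κ : ℕ) : ℕ := 2 ^ (κ - P.pb)
/-- grid points per `2^κ` -/
def gpt (κ : ℕ) : ℕ := 2 ^ (min κ P.pb)
/-- rounding of a diagonal to the grid of class `κ` -/
def rd (κ : ℕ) (u : ℤ) : ℤ := u / (gst P κ : ℤ) * (gst P κ : ℤ)
/-- rounding of a state -/
def rdn (κ : ℕ) (y : St) : St := { y with u := rd P κ y.u, v := rd P κ y.v }

/-- the pair `(κ, y)` is admissible: `y` is a grid state of class `κ`, it lies in its cell, and its class is
`κ-1`, `κ` or `κ+1` -/
def adm (F : St → ℕ) (κ : ℕ) (y : St) : Bool :=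
  decide (rdn P κ y = y) && decide ((y.v - y.u).natAbs ≤ 8 * 2 ^ κ) &&
    decide (κ ≤ cls F y + 1) && decide (cls F y ≤ κ + 1)

/-! ## Menus, hull, the number of a state -/

/-- grid states of class `κ'` around `y` (both diagonals within `ρ`), clamped to the domain -/
def menu (κ' ρ : ℕ) (y : St) : List St :=
  (List.range (2 * (ρ / gst P κ') + 3)).flatMap fun a =>
    (List.range (2 * (ρ / gst P κ') + 3)).map fun b =>
      { y with
        u := clp P (rd P κ' y.u + ((a : ℤ) - (ρ / gst P κ' + 1 : ℕ)) * (gst P κ' : ℤ))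
        v := clp P (rd P κ' y.v + ((b : ℤ) - (ρ / gst P κ' + 1 : ℕ)) * (gst P κ' : ℤ)) }

/-- `hull F f y = min (F y) (min over the pairs (κ', z) of the menu of dist y z + f κ' z)` -/
def hull (F : St → ℕ) (f : ℕ → St → ℕ) (y : St) : ℕ :=
  lmin (F y) ((rngC (cls F y - P.al) (cls F y + P.a2)).flatMap fun κ' =>
    (menu P κ' (2 * F y) y).map fun z => dist y z + f κ' z)

/-- the number of an end piece `y`, seen from a window of class `κ`: round to the grid of the class of `y`;
outside the spawned classes the number `F y` -/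
def numSt (F : St → ℕ) (κ : ℕ) (f : ℕ → St → ℕ) (y : St) : ℕ :=
  if cls F y + P.dl < κ ∨ κ + P.du < cls F y then F y
  else dist y (rdn P (cls F y) y) + f (cls F y) (rdn P (cls F y) y)

/-! ## Staircases in index form: `T q a b`, cuts `0 .. N`, `A` letters at every cut -/

/-- `D j b`: best staircase up to cut `j` with letter `b` there (the letters of cut 0 are all the same point) -/
def D (A : ℕ) (T : ℕ → ℕ → ℕ → ℕ) : ℕ → ℕ → ℕ
  | 0, _ => 0
  | j + 1, b => minR A fun a => D A T j a + T j a b

def minSt (N A : ℕ) (T : ℕ → ℕ → ℕ → ℕ) : ℕ := D A T N 0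

/-! ## The window grid of a state `x` at scale `κ` -/

/-- number of letters -/
def WA (κ : ℕ) : ℕ := 2 * P.r * gpt P κ + 1
/-- ends of the window of `x` (cut with the domain) -/
def wlo (κ : ℕ) (x : St) : ℤ := max (-(P.Dm : ℤ)) (rd P κ x.u - P.r * 2 ^ κ)
def whi (κ : ℕ) (x : St) : ℤ := min (P.Dm : ℤ) (rd P κ x.u + P.r * 2 ^ κ)
/-- position of letter `a`: affine from `wlo` up to `whi`, then constant -/
def pos (κ : ℕ) (x : St) (a : ℕ) : ℤ := min (whi P κ x) (wlo P κ x + a * (gst P κ : ℤ))
/-- position of letter `a` at cut `q`: the outer cuts are fixed -/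
def cut (κ : ℕ) (x : St) (q a : ℕ) : ℤ :=
  if q = 0 then x.u else if q = P.N then x.v else pos P κ x a
/-- piece `q` between the letters `a` and `b` -/
def piece (κ : ℕ) (x : St) (q a b : ℕ) : St :=
  ⟨x.i - 1, P.N * x.j + q, cut P κ x q a, cut P κ x (q + 1) b⟩
/-- minimum over all grid staircases of `x` of the sum of `f` -/
def Vst (κ : ℕ) (x : St) (f : St → ℕ) : ℕ :=
  minSt P.N (WA P κ) fun q a b => f (piece P κ x q a b)

/-! ## Linear weights, hedge over the ranks -/

/-- factor of a letter with excess `x` over the minimum (unit `U`, rate `gn/gd`): `2 gd U (1 - gn x / (gd U))`,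
clipped at one half -/
def fac (gn gd U x : ℕ) : ℕ := 2 * gd * U - min (gd * U) (2 * gn * x)

/-- weights of rank `i`: `us i' z` = loss of letter `z` for rank `i'` -/
def wts (gn gd B U : ℕ) (w0 : ℕ → ℕ) (us : ℕ → ℕ → ℕ) : ℕ → ℕ → ℕ
  | 0, z => w0 z
  | i + 1, z => wts gn gd B U w0 us i z * fac gn gd U (us i z - minR B (us i))

/-- value of rank `i`, rounded up -/
def hv (gn gd B U : ℕ) (w0 : ℕ → ℕ) (us : ℕ → ℕ → ℕ) (i : ℕ) : ℕ :=
  cdiv (sumR B fun z => wts gn gd B U w0 us i z * us i z) (sumR B (wts gn gd B U w0 us i))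

/-- in-window DP: value of rank `i` at the inner node `(t,p)` between the letters `a`, `b` (`B` letters at every
cut); `U t p` = unit, `E i q a b` = end table of rank `i` over the menus -/
def VV (γ B : ℕ) (U : ℕ → ℕ → ℕ) (E : ℕ → ℕ → ℕ → ℕ → ℕ) : ℕ → ℕ → ℕ → ℕ → ℕ → ℕ
  | 0, i, p, a, b => E i p a b
  | t + 1, i, p, a, b =>
    hv γ 1 B (U (t + 1) p) (fun _ => 1)
      (fun i' z => VV γ B U E t i' (2 * p) a z + VV γ B U E t i' (2 * p + 1) z b) i

/-! ## The prefix plan of `x` at scale `κ` (plan function `F`) -/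

/-- target letter of cut `j`: `m' = u + θ D_j(m')`, `θ = (v-u)/F(x)` -/
def tgt (F : St → ℕ) (κ : ℕ) (x : St) (j : ℕ) : ℕ :=
  argR (WA P κ) fun a =>
    ((pos P κ x a - x.u) * F x
      - (x.v - x.u) * (D (WA P κ) (fun q a b => F (piece P κ x q a b)) j a : ℤ)).natAbs

/-- the target piece `q` -/
def tpiece (F : St → ℕ) (κ : ℕ) (x : St) (q : ℕ) : St :=
  piece P κ x q (tgt P F κ x q) (tgt P F κ x (q + 1))

/-- unit of the inner node `(t,p)` -/
def unt (F : St → ℕ) (κ : ℕ) (x : St) (t p : ℕ) : ℕ :=
  sumR (2 ^ t) (fun i => F (tpiece P F κ x (p * 2 ^ t + i))) + F x / P.N + 1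

/-- near radius in grid steps -/
def rad (F : St → ℕ) (κ : ℕ) (x : St) : ℕ := F x / 2 ^ P.sb / gst P κ
/-- letter `z` of the near menu of cut `p` -/
def near (F : St → ℕ) (κ : ℕ) (x : St) (p z : ℕ) : ℕ :=
  min (WA P κ - 1) (tgt P F κ x p + z - rad P F κ x)
/-- the near piece `q` between the letters `a`, `b` of the near menus -/
def npiece (F : St → ℕ) (κ : ℕ) (x : St) (q a b : ℕ) : St :=
  piece P κ x q (near P F κ x q a) (near P F κ x (q + 1) b)

/-- number of near letters -/
def nlet (F : St → ℕ) (κ : ℕ) (x : St) : ℕ := 2 * rad P F κ x + 1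

/-- regular states: the sum over the ends of the largest `F` of a near piece is `≤ Creg F` -/
def regular (F : St → ℕ) (κ : ℕ) (x : St) : Prop :=
  sumR P.N (fun q => maxR (nlet P F κ x) fun a => maxR (nlet P F κ x) fun b => F (npiece P F κ x q a b))
    ≤ P.Creg * F x

instance (F : St → ℕ) (κ : ℕ) (x : St) : Decidable (regular P F κ x) := by
  unfold regular; infer_instance

/-! ## The value after the jump -/

/-- lagged running minimum: `W_0 = F`, `W_(i+1) = min W_i V_i` -/
def Wm (F : ℕ) (V : ℕ → ℕ) : ℕ → ℕ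
  | 0 => F
  | i + 1 => min (Wm F V i) (V i)

/-- `W_i(x)`: the exact optima of the lower ranks over all grid staircases, end tables `hull` -/
def wild (F : St → ℕ) (X : ℕ → ℕ → St → ℕ) (κ : ℕ) (x : St) (i : ℕ) : ℕ :=
  Wm (F x) (fun i' => Vst P κ x (hull P F (X i'))) i

/-- calm value of rank `i ≤ k`: near letters, kernels from the ranks below; ends: the pair numbers `X i` of the
ranks `i < k`, the spawned pair numbers `S q κ' z` (end `q`) for rank `k` -/
def calm (F : St → ℕ) (X : ℕ → ℕ → St → ℕ) (k : ℕ) (S : ℕ → ℕ → St → ℕ) (κ : ℕ) (x : St) (i : ℕ) : ℕ :=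
  VV P.γ (nlet P F κ x) (unt P F κ x)
    (fun i q a b => numSt P F κ (if i < k then X i else S q) (npiece P F κ x q a b))
    P.n i 0 0 0

/-- `H_k`: the root decision, options calm (`0`) and wild (`1`) -/
def modal (F : St → ℕ) (X : ℕ → ℕ → St → ℕ) (k : ℕ) (S : ℕ → ℕ → St → ℕ) (κ : ℕ) (x : St) : ℕ :=
  hv 1 P.um 2 (F x + 1) (fun z => if z = 0 then P.pm else 1)
    (fun i z => if z = 0 then calm P F X k S κ x i else wild P F X κ x i) k

/-- R1 states -/
def R1 (F : St → ℕ) (x : St) : Prop := (P.δi - 4) * F x ≤ P.δi * (x.v - x.u).natAbs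

instance (F : St → ℕ) (x : St) : Decidable (R1 P F x) := by
  unfold R1; infer_instance

/-- P8: value of the state `x` at the declared scale `κ` after the jump (macro height `> 0`);
`leaf` = exact values of the cheap states -/
def bodyNum (leaf : St → Option ℕ) (F : St → ℕ) (X : ℕ → ℕ → St → ℕ) (k : ℕ) (S : ℕ → ℕ → St → ℕ) (κ : ℕ)
    (x : St) : ℕ :=
  if adm P F κ x = false then F x
  else
    match leaf x with
    | some c => c
    | none =>
      if R1 P F x ∨ ¬ regular P F κ x then wild P F X κ x k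
      else cdiv ((P.g - 1) * modal P F X k S κ x + wild P F X κ x k) P.g

/-- value at macro height `0` (one symbol) -/
def botNum (leaf : St → Option ℕ) (F : St → ℕ) (κ : ℕ) (x : St) : ℕ :=
  if adm P F κ x = false then F x else (leaf x).getD (1 + (x.v - x.u).natAbs)

/-! ## The jump -/

/-- price of the candidate `i`, with its estimate -/
def jpr (F : ℕ) (y : St) (cands : List (St × ℕ × ℕ)) (i : ℕ) : ℕ :=
  match cands[i]? with
  | some (z, e, _) => if dist y z ≤ 2 * F then dist y z + e else 3 * F + 1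
  | none => 3 * F + 1

/-- P7: `y` at scale `κ`; candidates `(z, estimate, fresh value)`; `sE`, `sV` = estimate and fresh value of staying -/
def arrNum (F : St → ℕ) (κ : ℕ) (y : St) (sE sV : ℕ) (cands : List (St × ℕ × ℕ)) : ℕ :=
  if adm P F κ y = false then F y
  else
    let i := argR cands.length (jpr (F y) y cands)
    let b := jpr (F y) y cands i
    if sE < min (F y) b + 2 ^ κ / 2 ^ P.bb then sV
    else if F y ≤ b then F y
    else
      match cands[i]? with
      | some (z, _, w) => dist y z + w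
      | none => sV

/-! ## Robust mean -/

/-- insertion sort, upper median, median of means (rounded down) -/
def ins (a : ℕ) : List ℕ → List ℕ
  | [] => [a]
  | b :: l => if a ≤ b then a :: b :: l else b :: ins a l
def isort (l : List ℕ) : List ℕ := l.foldr ins []
def med (l : List ℕ) : ℕ := (isort l).getD (l.length / 2) 0
/-- median of `G` means of `M` values, `x a b` = value `b` of group `a` -/
def medMean (G M : ℕ) (x : ℕ → ℕ → ℕ) : ℕ := med ((List.range G).map fun a => sumR M (x a) / M)

/-! ## The next unit function -/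

/-- mean of the ranks at a pair, rounded up -/
def Xbar (X : ℕ → ℕ → St → ℕ) (κ : ℕ) (z : St) : ℕ := cdiv (sumR P.K fun i => X i κ z) P.K

/-- `F_{e+1}` -/
def FNext (F : St → ℕ) (X : ℕ → ℕ → St → ℕ) (y : St) : ℕ := hull P F (Xbar P X) y

end Crest.Agent.R288.Alg45
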