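/-
# Row 288 (helper944): the pair of a state is admissible (ALG v2)

`FOk`: what a good history gives for the unit function on the domain `Dm`: leaf values are `≤ F + 1`,
active states have `Λ ≤ F`, `|v-u| ≤ F` and a crude Lipschitz line.
* `adm_rdn` : `adm P F (cls F y) (rdn P (cls F y) y)` for every state of the domain.
* `lt_of_adm`, `ge_of_adm` : size of `F` at an admissible pair.
-/
import Crest.Agent.R288.AlgA_45

set_option autoImplicit false

namespace Crest.Agent.R288.AdmR944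

open Crest.Agent.R288.Alg45

/-- what the lane law needs from the unit function (good history), on the domain `Dm` -/
structure FOk (leaf : St → Option ℕ) (F : St → ℕ) (Dm : St → Prop) (Λ : ℕ) : Prop where
  leaf_le : ∀ y, Dm y → ∀ c, leaf y = some c → c ≤ F y + 1
  act : ∀ y, Dm y → leaf y = none → Λ ≤ F y
  coer : ∀ y, Dm y → (y.v - y.u).natAbs ≤ F y
  lip : ∀ y y', Dm y → Dm y' → y'.i = y.i → y'.j = y.j →
    7 * F y ≤ 8 * (F y' + Alg45.dist y y')

/-- rounding at the class of a number -/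
theorem cls_near {a b d κ : ℕ} (hκ : κ = Nat.log 2 a) (h10 : 2 ^ 10 ≤ 2 ^ κ) (hd : 8 * d ≤ 2 ^ κ)
    (h1 : 7 * a ≤ 8 * (b + d)) (h2 : 7 * b ≤ 8 * (a + d)) :
    κ ≤ Nat.log 2 b + 1 ∧ Nat.log 2 b ≤ κ + 1 := by
  have ha : a < 2 ^ (κ + 1) := by rw [hκ]; exact Nat.lt_pow_succ_log_self (by norm_num) a
  have e1 : 2 ^ (κ + 1) = 2 * 2 ^ κ := by rw [pow_add]; ring
  have hκ0 : κ ≠ 0 := by rintro rfl; norm_num at h10
  have h0 : a ≠ 0 := by
    rintro rfl
    apply hκ0; rw [hκ]; simp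
  have h3 : 2 ^ κ ≤ a := by rw [hκ]; exact Nat.pow_log_le_self 2 h0
  constructor
  · have h4 : 2 ^ κ = 2 * 2 ^ (κ - 1) := by
      rw [← pow_succ']; congr 1; omega
    have h5 : 2 ^ (κ - 1) ≤ b := by omega
    have h6 : κ - 1 ≤ Nat.log 2 b := Nat.le_log_of_pow_le (by norm_num) h5
    omega
  · have h3 : b < 2 ^ (κ + 2) := by
      have : 2 ^ (κ + 2) = 4 * 2 ^ κ := by rw [pow_add]; ring
      omega
    have h4 : Nat.log 2 b < κ + 2 := Nat.log_lt_of_lt_pow' (by omega) h3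
    omega

variable {P : Par} {leaf : St → Option ℕ} {F : St → ℕ} {Dm : St → Prop} {Λ : ℕ}

theorem gst_eq_one {κ : ℕ} (h : κ ≤ P.pb) : gst P κ = 1 := by
  unfold gst; rw [Nat.sub_eq_zero_of_le h]; rfl

theorem gst_pos (P : Par) (κ : ℕ) : 0 < gst P κ := Nat.two_pow_pos _

theorem rd_of_le {κ : ℕ} (h : κ ≤ P.pb) (u : ℤ) : rd P κ u = u := by
  unfold rd; rw [gst_eq_one h]; simp

theorem rdn_of_le {κ : ℕ} (h : κ ≤ P.pb) (y : St) : rdn P κ y = y := by
  unfold rdn; rw [rd_of_le h, rd_of_le h]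

theorem rd_rd (P : Par) (κ : ℕ) (u : ℤ) : rd P κ (rd P κ u) = rd P κ u := by
  have h : (gst P κ : ℤ) ≠ 0 := by exact_mod_cast (gst_pos P κ).ne'
  unfold rd
  rw [Int.mul_ediv_cancel _ h]

theorem rdn_rdn (P : Par) (κ : ℕ) (y : St) : rdn P κ (rdn P κ y) = rdn P κ y := by
  unfold rdn
  simp only [rd_rd]

theorem natAbs_sub_rd (P : Par) (κ : ℕ) (u : ℤ) : (u - rd P κ u).natAbs < gst P κ := by
  have h : (0 : ℤ) < (gst P κ : ℤ) := by exact_mod_cast gst_pos P κ
  have h1 := Int.emod_nonneg u h.ne'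
  have h2 := Int.emod_lt_of_pos u h
  have h3 : u - rd P κ u = u % (gst P κ : ℤ) := by
    unfold rd
    rw [Int.emod_def, mul_comm]
  rw [h3]
  omega

theorem dist_rdn (P : Par) (κ : ℕ) (y : St) : Alg45.dist y (rdn P κ y) < 2 * gst P κ := by
  have h1 := natAbs_sub_rd P κ y.u
  have h2 := natAbs_sub_rd P κ y.v
  show (y.u - rd P κ y.u).natAbs + (y.v - rd P κ y.v).natAbs < _
  omega

theorem dist_comm' (y z : St) : Alg45.dist y z = Alg45.dist z y := by
  unfold Alg45.dist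
  rw [← Int.natAbs_neg (y.u - z.u), ← Int.natAbs_neg (y.v - z.v), neg_sub, neg_sub]

theorem adm_iff {κ : ℕ} {y : St} : adm P F κ y = true ↔
    rdn P κ y = y ∧ (y.v - y.u).natAbs ≤ 8 * 2 ^ κ ∧ κ ≤ cls F y + 1 ∧ cls F y ≤ κ + 1 := by
  unfold adm
  simp only [Bool.and_eq_true, decide_eq_true_eq, and_assoc]

/-- the pair of a state is admissible -/
theorem adm_rdn (h : FOk leaf F Dm Λ) (hpb : 10 ≤ P.pb) {y : St} (hy : Dm y)
    (hz : Dm (rdn P (cls F y) y)) : adm P F (cls F y) (rdn P (cls F y) y) = true := by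
  rw [adm_iff]
  refine ⟨rdn_rdn _ _ _, ?_⟩
  rcases le_or_gt (cls F y) P.pb with hk | hk
  · rw [rdn_of_le hk]
    refine ⟨(h.coer y hy).trans ?_, by omega, by omega⟩
    have : F y < 2 ^ (cls F y + 1) := Nat.lt_pow_succ_log_self (by norm_num) _
    have h2 : 2 ^ (cls F y + 1) = 2 * 2 ^ cls F y := by rw [pow_add]; ring
    omega
  · set κ := cls F y with hκ
    have hg : 1024 * gst P κ ≤ 2 ^ κ := by
      unfold gst
      rw [show (1024 : ℕ) = 2 ^ 10 by norm_num, ← pow_add]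
      exact Nat.pow_le_pow_right (by norm_num) (by omega)
    have h10 : 2 ^ 10 ≤ 2 ^ κ := Nat.pow_le_pow_right (by norm_num) (by omega)
    have hd := dist_rdn P κ y
    have l1 := h.lip y (rdn P κ y) hy hz rfl rfl
    have l2 := h.lip (rdn P κ y) y hz hy rfl rfl
    rw [dist_comm'] at l2
    have hF : F y < 2 ^ (κ + 1) := Nat.lt_pow_succ_log_self (by norm_num) _
    have h2 : 2 ^ (κ + 1) = 2 * 2 ^ κ := by rw [pow_add]; ring
    have h3 := cls_near (a := F y) (b := F (rdn P κ y)) hκ h10 (by omega) l1 l2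
    refine ⟨(h.coer _ hz).trans ?_, h3.1, h3.2⟩
    omega

theorem lt_of_adm {κ : ℕ} {y : St} (h : adm P F κ y = true) : F y < 4 * 2 ^ κ := by
  have h1 := (adm_iff.1 h).2.2.2
  have h2 : F y < 2 ^ (cls F y + 1) := Nat.lt_pow_succ_log_self (by norm_num) _
  have h3 : 2 ^ (cls F y + 1) ≤ 2 ^ (κ + 2) := Nat.pow_le_pow_right (by norm_num) (by omega)
  have h4 : 2 ^ (κ + 2) = 4 * 2 ^ κ := by rw [pow_add]; ring
  omega

theorem ge_of_adm {κ : ℕ} {y : St} (h : adm P F κ y = true) (h0 : F y ≠ 0) : 2 ^ κ ≤ 2 * F y := by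
  have h1 := (adm_iff.1 h).2.2.1
  have h2 : 2 ^ cls F y ≤ F y := Nat.pow_log_le_self 2 h0
  have h3 : 2 ^ κ ≤ 2 ^ (cls F y + 1) := Nat.pow_le_pow_right (by norm_num) h1
  have h4 : 2 ^ (cls F y + 1) = 2 * 2 ^ cls F y := by rw [pow_add]; ring
  omega

/-- tiny classes: every admissible pair is a leaf -/
theorem leaf_of_tiny (h : FOk leaf F Dm Λ) {κ : ℕ} (hκ : 4 * 2 ^ κ ≤ Λ) {y : St} (hy : Dm y)
    (ha : adm P F κ y = true) : ∃ c, leaf y = some c ∧ c ≤ F y + 1 := by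
  rcases hl : leaf y with _ | c
  · have := h.act y hy hl
    have := lt_of_adm ha
    omega
  · exact ⟨c, rfl, h.leaf_le y hy c hl⟩

end Crest.Agent.R288.AdmR944
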