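import Crest.Agent.R288.AlgApi_299

/-!
# R288 [ALG v2]: API, part B (helper299)

* `adm_iff`, `mem_menu`, `of_mem_menu`, `hull_le`, `le_hull`, `numSt`
* `Wm`, `wild`
* `fac`, `wts`, `hv`, `VV`        : bounds, product form, real mean, locality
* `regular`                       : sum over near pieces
* `med_eq`                        : the median of `Med_559`
* `jpr`, `arrNum`                 : the three alternatives
-/

set_option autoImplicit false

namespace Crest.Agent.R288.AlgApi299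

open Crest.Agent.R288.Alg45 Finset

variable {P : Par} {F : St → ℕ}

/-! ### admissible pairs -/

theorem adm_iff {κ : ℕ} {y : St} : adm P F κ y = true ↔
    rdn P κ y = y ∧ (y.v - y.u).natAbs ≤ 8 * 2 ^ κ ∧ κ ≤ cls F y + 1 ∧ cls F y ≤ κ + 1 := by
  unfold adm
  simp only [Bool.and_eq_true, decide_eq_true_eq, and_assoc]

/-- own class, own grid: admissible (if `|v-u| ≤ F`, `1 ≤ F`) -/
theorem adm_own {y : St} (h1 : rdn P (cls F y) y = y) (h2 : (y.v - y.u).natAbs ≤ 8 * F y)
    (h3 : F y < 2 ^ cls F y * 1 ∨ (y.v - y.u).natAbs ≤ F y) : adm P F (cls F y) y = true := by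
  rw [adm_iff]
  refine ⟨h1, ?_, by omega, by omega⟩
  have h4 := lt_cls F y
  rw [pow_succ] at h4
  rcases h3 with h3 | h3 <;> omega

/-! ### menus -/

theorem of_mem_menu {κ' ρ : ℕ} {y z : St} (h : z ∈ menu P κ' ρ y) :
    z.i = y.i ∧ z.j = y.j ∧ inD P z ∧
      ∃ s t : ℤ, z.u = clp P (rd P κ' y.u + s * gst P κ') ∧ z.v = clp P (rd P κ' y.v + t * gst P κ') ∧
        s.natAbs ≤ ρ / gst P κ' + 1 ∧ t.natAbs ≤ ρ / gst P κ' + 1 := by
  unfold menu at h
  simp only [List.mem_flatMap, List.mem_range, List.mem_map, List.bind_eq_flatMap, List.pure_def,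
    List.mem_singleton] at h
  obtain ⟨a, ⟨a', ha, rfl⟩, b, ⟨b', hb, rfl⟩, rfl⟩ := h
  refine ⟨rfl, rfl, ⟨natAbs_clp_le _, natAbs_clp_le _⟩, _, _, rfl, rfl, ?_, ?_⟩ <;> omega

/-- every grid state of the domain within `ρ` is in the menu -/
theorem mem_menu {κ' ρ : ℕ} {y z : St} (hi : z.i = y.i) (hj : z.j = y.j) (hz : rdn P κ' z = z)
    (hD : inD P z) (hu : (z.u - y.u).natAbs ≤ ρ) (hv : (z.v - y.v).natAbs ≤ ρ) :
    z ∈ menu P κ' ρ y := by
  have key : ∀ m w : ℤ, rd P κ' m = m → m.natAbs ≤ P.Dm → (m - w).natAbs ≤ ρ →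
      ∃ a < 2 * (ρ / gst P κ') + 3,
        clp P (rd P κ' w + ((a : ℤ) - (ρ / gst P κ' + 1 : ℕ)) * (gst P κ' : ℤ)) = m := by
    intro m w hm hmD hmw
    have hg : (0 : ℤ) < gst P κ' := by exact_mod_cast gst_pos P κ'
    obtain ⟨c, hc⟩ : (gst P κ' : ℤ) ∣ m - rd P κ' w := dvd_sub (hm ▸ dvd_rd P κ' m) (dvd_rd P κ' w)
    have h1 := rd_le P κ' w
    have h2 := lt_rd P κ' w
    have h3 : (ρ : ℤ) < (gst P κ') * ((ρ / gst P κ' : ℕ) + 1) := by
      have := Nat.lt_div_mul_add (a := ρ) (gst_pos P κ')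
      have h4 : (ρ : ℤ) < (ρ / gst P κ' : ℕ) * gst P κ' + gst P κ' := by exact_mod_cast this
      linarith
    have h5 : c < (ρ / gst P κ' : ℕ) + 2 := by
      by_contra hcon
      push Not at hcon
      have : (gst P κ' : ℤ) * ((ρ / gst P κ' : ℕ) + 2) ≤ gst P κ' * c :=
        mul_le_mul_of_nonneg_left hcon hg.le
      have h6 : (gst P κ' : ℤ) * ((ρ / gst P κ' : ℕ) + 2) =
        gst P κ' * ((ρ / gst P κ' : ℕ) + 1) + gst P κ' := by ring
      omega
    have h7 : -((ρ / gst P κ' : ℕ) + 1 : ℤ) ≤ c := by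
      by_contra hcon
      push Not at hcon
      have : (gst P κ' : ℤ) * c ≤ gst P κ' * (-((ρ / gst P κ' : ℕ) + 1 : ℤ)) :=
        mul_le_mul_of_nonneg_left hcon.le hg.le
      have h6 : (gst P κ' : ℤ) * (-((ρ / gst P κ' : ℕ) + 1 : ℤ)) =
        -(gst P κ' * ((ρ / gst P κ' : ℕ) + 1)) := by ring
      omega
    refine ⟨(c + ((ρ / gst P κ' : ℕ) + 1)).toNat, by omega, ?_⟩
    have h8 : (((c + ((ρ / gst P κ' : ℕ) + 1)).toNat : ℕ) : ℤ) - (ρ / gst P κ' + 1 : ℕ) = c := by
      rw [Int.toNat_of_nonneg (by omega)]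
      push_cast
      ring
    rw [h8, mul_comm c, ← hc]
    have h9 : rd P κ' w + (m - rd P κ' w) = m := by ring
    rw [h9, clp_of_mem hmD]
  have hzu : rd P κ' z.u = z.u := congrArg St.u hz
  have hzv : rd P κ' z.v = z.v := congrArg St.v hz
  obtain ⟨a, ha, ha'⟩ := key z.u y.u hzu hD.1 hu
  obtain ⟨b, hb, hb'⟩ := key z.v y.v hzv hD.2 hv
  unfold menu
  simp only [List.mem_flatMap, List.mem_range, List.mem_map, List.bind_eq_flatMap, List.pure_def,
    List.mem_singleton]
  refine ⟨a, ⟨a, ha, rfl⟩, b, ⟨b, hb, rfl⟩, ?_⟩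
  rw [ha', hb', ← hi, ← hj]

theorem rdn_of_mem_menu {κ' ρ : ℕ} {y z : St} (hD : (gst P κ' : ℤ) ∣ (P.Dm : ℤ))
    (h : z ∈ menu P κ' ρ y) : rdn P κ' z = z := by
  obtain ⟨-, -, -, s, t, hs, ht, -, -⟩ := of_mem_menu h
  refine dist_rdn_of_dvd P ?_ ?_
  · rw [hs]
    exact dvd_clp hD (dvd_add (dvd_rd P κ' _) (Dvd.intro_left _ rfl))
  · rw [ht]
    exact dvd_clp hD (dvd_add (dvd_rd P κ' _) (Dvd.intro_left _ rfl))

theorem dist_le_of_mem_menu {κ' ρ : ℕ} {y z : St} (hy : inD P y) (h : z ∈ menu P κ' ρ y) :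
    (z.u - y.u).natAbs ≤ ρ + 2 * gst P κ' ∧ (z.v - y.v).natAbs ≤ ρ + 2 * gst P κ' := by
  obtain ⟨-, -, -, s, t, hs, ht, hs', ht'⟩ := of_mem_menu h
  have key : ∀ (w : ℤ) (c : ℤ), w.natAbs ≤ P.Dm → c.natAbs ≤ ρ / gst P κ' + 1 →
      (clp P (rd P κ' w + c * gst P κ') - w).natAbs ≤ ρ + 2 * gst P κ' := by
    intro w c hw hc
    refine (clp_lip' hw).trans ?_
    have h1 := rd_le P κ' w
    have h2 := lt_rd P κ' w
    have h3 : (c * (gst P κ' : ℤ)).natAbs ≤ (ρ / gst P κ' + 1) * gst P κ' := by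
      rw [Int.natAbs_mul, Int.natAbs_natCast]
      exact Nat.mul_le_mul_right _ hc
    have h4 : (ρ / gst P κ' + 1) * gst P κ' ≤ ρ + gst P κ' := by
      rw [add_mul, one_mul]
      exact Nat.add_le_add_right (Nat.div_mul_le_self _ _) _
    omega
  exact ⟨hs ▸ key _ _ hy.1 hs', ht ▸ key _ _ hy.2 ht'⟩

/-! ### hull, numSt -/

theorem hull_le_self (f : ℕ → St → ℕ) (y : St) : hull P F f y ≤ F y := lmin_le_start _ _

theorem hull_le {f : ℕ → St → ℕ} {y z : St} {κ' : ℕ} (h1 : cls F y ≤ κ' + P.al)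
    (h2 : κ' ≤ cls F y + P.a2) (hz : z ∈ menu P κ' (2 * F y) y) :
    hull P F f y ≤ Alg45.dist y z + f κ' z := by
  refine lmin_le ?_
  simp only [List.mem_flatMap, List.mem_map]
  exact ⟨κ', mem_rngC.2 ⟨by omega, h2⟩, z, hz, rfl⟩

theorem hull_cases (f : ℕ → St → ℕ) (y : St) : hull P F f y = F y ∨
    ∃ κ' z, cls F y ≤ κ' + P.al ∧ κ' ≤ cls F y + P.a2 ∧ z ∈ menu P κ' (2 * F y) y ∧
      hull P F f y = Alg45.dist y z + f κ' z := by
  rcases lmin_mem (F y) ((rngC (cls F y - P.al) (cls F y + P.a2)).flatMap fun κ' =>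
    (menu P κ' (2 * F y) y).map fun z => Alg45.dist y z + f κ' z) with h | h
  · exact Or.inl h
  · right
    simp only [List.mem_flatMap, List.mem_map] at h
    obtain ⟨κ', h1, z, h2, h3⟩ := h
    obtain ⟨h4, h5⟩ := mem_rngC.1 h1
    exact ⟨κ', z, by omega, h5, h2, h3.symm⟩

theorem le_hull {f : ℕ → St → ℕ} {y : St} {c : ℕ} (h0 : c ≤ F y)
    (h : ∀ κ' z, cls F y ≤ κ' + P.al → κ' ≤ cls F y + P.a2 → z ∈ menu P κ' (2 * F y) y →
      c ≤ Alg45.dist y z + f κ' z) : c ≤ hull P F f y := by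
  rcases hull_cases (P := P) (F := F) f y with h' | ⟨κ', z, h1, h2, h3, h4⟩
  · rw [h']; exact h0
  · rw [h4]; exact h κ' z h1 h2 h3

theorem hull_mono {f g : ℕ → St → ℕ} {y : St} (h : ∀ κ' z, f κ' z ≤ g κ' z) :
    hull P F f y ≤ hull P F g y :=
  le_hull (hull_le_self f y) fun κ' z h1 h2 h3 =>
    (hull_le h1 h2 h3).trans (Nat.add_le_add_left (h κ' z) _)

theorem numSt_of_in {κ : ℕ} {f : ℕ → St → ℕ} {y : St} (h1 : κ ≤ cls F y + P.dl)
    (h2 : cls F y ≤ κ + P.du) : numSt P F κ f y =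
      Alg45.dist y (rdn P (cls F y) y) + f (cls F y) (rdn P (cls F y) y) := by
  unfold numSt
  rw [if_neg (by omega)]

theorem numSt_of_out {κ : ℕ} {f : ℕ → St → ℕ} {y : St} (h : cls F y + P.dl < κ ∨ κ + P.du < cls F y) :
    numSt P F κ f y = F y := if_pos h

/-! ### running minimum -/

theorem Wm_le_start (F : ℕ) (V : ℕ → ℕ) (i : ℕ) : Wm F V i ≤ F := by
  induction i with
  | zero => exact le_rfl
  | succ i ih => exact (min_le_left _ _).trans ih

theorem Wm_anti (F : ℕ) (V : ℕ → ℕ) {i j : ℕ} (h : i ≤ j) : Wm F V j ≤ Wm F V i := by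
  induction j with
  | zero => rw [Nat.le_zero.1 h]
  | succ j ih =>
    rcases Nat.lt_or_eq_of_le h with h' | rfl
    · exact (min_le_left _ _).trans (ih (by omega))
    · exact le_rfl

theorem Wm_le (F : ℕ) (V : ℕ → ℕ) {i j : ℕ} (h : i < j) : Wm F V j ≤ V i :=
  (Wm_anti F V (show i + 1 ≤ j by omega)).trans (min_le_right _ _)

theorem Wm_cases (F : ℕ) (V : ℕ → ℕ) (j : ℕ) : Wm F V j = F ∨ ∃ i < j, Wm F V j = V i := by
  induction j with
  | zero => exact Or.inl rfl
  | succ j ih =>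
    change min (Wm F V j) (V j) = F ∨ ∃ i < j + 1, min (Wm F V j) (V j) = V i
    rcases min_choice (Wm F V j) (V j) with h | h
    · rw [h]
      rcases ih with h' | ⟨i, hi, h'⟩
      · exact Or.inl h'
      · exact Or.inr ⟨i, by omega, h'⟩
    · exact Or.inr ⟨j, by omega, h⟩

theorem le_Wm {F c : ℕ} {V : ℕ → ℕ} {j : ℕ} (h0 : c ≤ F) (h : ∀ i < j, c ≤ V i) : c ≤ Wm F V j := by
  rcases Wm_cases F V j with h' | ⟨i, hi, h'⟩
  · rw [h']; exact h0
  · rw [h']; exact h i hi

theorem Wm_congr {F : ℕ} {V V' : ℕ → ℕ} {j : ℕ} (h : ∀ i < j, V i = V' i) :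
    Wm F V j = Wm F V' j := by
  induction j with
  | zero => rfl
  | succ j ih =>
    change min (Wm F V j) (V j) = min (Wm F V' j) (V' j)
    rw [ih fun i hi => h i (by omega), h j (by omega)]

/-! ### weights -/

theorem fac_le (gn gd U x : ℕ) : fac gn gd U x ≤ 2 * gd * U := Nat.sub_le _ _

theorem le_fac (gn gd U x : ℕ) : gd * U ≤ fac gn gd U x := by
  unfold fac
  have h1 : min (gd * U) (2 * gn * x) ≤ gd * U := min_le_left _ _
  have h2 : 2 * gd * U = gd * U + gd * U := by ring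
  omega

theorem fac_pos {gn gd U x : ℕ} (hd : 0 < gd) (hU : 0 < U) : 0 < fac gn gd U x :=
  lt_of_lt_of_le (Nat.mul_pos hd hU) (le_fac gn gd U x)

/-- no clipping: the exact linear factor -/
theorem fac_eq {gn gd U x : ℕ} (h : 2 * gn * x ≤ gd * U) : fac gn gd U x + 2 * gn * x = 2 * gd * U := by
  unfold fac
  rw [min_eq_right h]
  have h2 : 2 * gd * U = gd * U + gd * U := by ring
  omega

theorem fac_anti {gn gd U x x' : ℕ} (h : x ≤ x') : fac gn gd U x' ≤ fac gn gd U x := by
  unfold fac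
  have : min (gd * U) (2 * gn * x) ≤ min (gd * U) (2 * gn * x') :=
    min_le_min le_rfl (Nat.mul_le_mul_left _ h)
  omega

section weights

variable {gn gd B U : ℕ} {w0 : ℕ → ℕ} {us us' : ℕ → ℕ → ℕ}

theorem wts_zero (z : ℕ) : wts gn gd B U w0 us 0 z = w0 z := rfl

theorem wts_succ (i z : ℕ) : wts gn gd B U w0 us (i + 1) z =
    wts gn gd B U w0 us i z * fac gn gd U (us i z - minR B (us i)) := rfl

theorem wts_eq_prod (i z : ℕ) : wts gn gd B U w0 us i z =
    w0 z * ∏ i' ∈ range i, fac gn gd U (us i' z - minR B (us i')) := by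
  induction i with
  | zero => simp [wts_zero]
  | succ i ih => rw [wts_succ, ih, prod_range_succ, mul_assoc]

theorem wts_pos (hd : 0 < gd) (hU : 0 < U) (i : ℕ) {z : ℕ} (hz : 0 < w0 z) :
    0 < wts gn gd B U w0 us i z := by
  rw [wts_eq_prod]
  exact Nat.mul_pos hz (prod_pos fun i' _ => fac_pos hd hU)

/-- the weights of rank `i` depend on the losses of the lower ranks only -/
theorem wts_congr (hB : 0 < B) {i : ℕ} (h : ∀ i' < i, ∀ z < B, us i' z = us' i' z) :
    ∀ z < B, wts gn gd B U w0 us i z = wts gn gd B U w0 us' i z := by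
  intro z hz
  rw [wts_eq_prod, wts_eq_prod]
  congr 1
  refine prod_congr rfl fun i' hi' => ?_
  have hi := mem_range.1 hi'
  rw [h i' hi z hz, minR_congr hB (h i' hi)]

theorem sumR_congr {n : ℕ} {f g : ℕ → ℕ} (h : ∀ a < n, f a = g a) : sumR n f = sumR n g := by
  rw [sumR_eq, sumR_eq]
  exact sum_congr rfl fun a ha => h a (mem_range.1 ha)

theorem sumR_le_sumR {n : ℕ} {f g : ℕ → ℕ} (h : ∀ a < n, f a ≤ g a) : sumR n f ≤ sumR n g := by
  rw [sumR_eq, sumR_eq]
  exact sum_le_sum fun a ha => h a (mem_range.1 ha)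

theorem hv_congr (hB : 0 < B) {i : ℕ} (h : ∀ i' ≤ i, ∀ z < B, us i' z = us' i' z) :
    hv gn gd B U w0 us i = hv gn gd B U w0 us' i := by
  have hw := wts_congr (gn := gn) (gd := gd) (U := U) (w0 := w0) hB (i := i)
    fun i' hi' z hz => h i' hi'.le z hz
  unfold hv
  rw [sumR_congr fun z hz => by rw [hw z hz, h i le_rfl z hz], sumR_congr (f := wts gn gd B U w0 us i) hw]

/-- total weight -/
theorem wsum_pos (hd : 0 < gd) (hU : 0 < U) (i : ℕ) {z : ℕ} (hz : z < B) (h0 : 0 < w0 z) :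
    0 < sumR B (wts gn gd B U w0 us i) := by
  rw [sumR_eq]
  exact lt_of_lt_of_le (wts_pos hd hU i h0)
    (single_le_sum (f := wts gn gd B U w0 us i) (fun _ _ => Nat.zero_le _) (mem_range.2 hz))

theorem hv_le (i : ℕ) (hw : 0 < sumR B (wts gn gd B U w0 us i)) {c : ℕ} (h : ∀ z < B, us i z ≤ c) :
    hv gn gd B U w0 us i ≤ c := by
  unfold hv
  rw [cdiv_le_iff hw, sumR_eq, sumR_eq, mul_sum]
  refine sum_le_sum fun z hz => ?_
  rw [mul_comm c]
  exact Nat.mul_le_mul_left _ (h z (mem_range.1 hz))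

theorem le_hv (i : ℕ) (hw : 0 < sumR B (wts gn gd B U w0 us i)) {c : ℕ} (h : ∀ z < B, c ≤ us i z) :
    c ≤ hv gn gd B U w0 us i := by
  unfold hv
  by_contra hcon
  push Not at hcon
  have h1 := (cdiv_le_iff hw).1 (Nat.le_pred_of_lt hcon)
  have h2 : c * sumR B (wts gn gd B U w0 us i) ≤
      sumR B (fun z => wts gn gd B U w0 us i z * us i z) := by
    rw [sumR_eq, sumR_eq, mul_sum]
    refine sum_le_sum fun z hz => ?_
    rw [mul_comm c]
    exact Nat.mul_le_mul_left _ (h z (mem_range.1 hz))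
  have h3 : (c - 1) * sumR B (wts gn gd B U w0 us i) < c * sumR B (wts gn gd B U w0 us i) :=
    Nat.mul_lt_mul_of_pos_right (by omega) hw
  exact absurd (h2.trans h1) (not_le.2 h3)

/-- the real mean of the losses of rank `i` under its weights -/
noncomputable def hmean (gn gd B U : ℕ) (w0 : ℕ → ℕ) (us : ℕ → ℕ → ℕ) (i : ℕ) : ℝ :=
  (∑ z ∈ range B, (wts gn gd B U w0 us i z : ℝ) * us i z) / ∑ z ∈ range B, (wts gn gd B U w0 us i z : ℝ)

theorem hmean_le_hv (i : ℕ) : hmean gn gd B U w0 us i ≤ hv gn gd B U w0 us i := by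
  have := div_le_cdiv (sumR B fun z => wts gn gd B U w0 us i z * us i z)
    (sumR B (wts gn gd B U w0 us i))
  rw [sumR_eq, sumR_eq] at this
  unfold hmean hv
  rw [sumR_eq, sumR_eq]
  push_cast at this
  exact this

theorem hv_lt_hmean (i : ℕ) (hw : 0 < sumR B (wts gn gd B U w0 us i)) :
    (hv gn gd B U w0 us i : ℝ) < hmean gn gd B U w0 us i + 1 := by
  have := cdiv_lt_div (a := sumR B fun z => wts gn gd B U w0 us i z * us i z) hw
  rw [sumR_eq, sumR_eq] at this
  unfold hmean hv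
  rw [sumR_eq, sumR_eq]
  push_cast at this
  exact this

/-- monotone in the losses of rank `i` itself (the weights do not see them) -/
theorem hv_mono (hB : 0 < B) {i : ℕ} (h : ∀ i' < i, ∀ z < B, us i' z = us' i' z)
    (hi : ∀ z < B, us i z ≤ us' i z) : hv gn gd B U w0 us i ≤ hv gn gd B U w0 us' i := by
  have hw := wts_congr (gn := gn) (gd := gd) (U := U) (w0 := w0) hB (i := i) h
  unfold hv
  rw [sumR_congr (f := wts gn gd B U w0 us i) hw]
  refine cdiv_mono _ (sumR_le_sumR fun z hz => ?_)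
  rw [hw z hz]
  exact Nat.mul_le_mul_left _ (hi z hz)

end weights

/-! ### in-window DP -/

section VV

variable {γ B : ℕ} {U : ℕ → ℕ → ℕ} {E E' : ℕ → ℕ → ℕ → ℕ → ℕ}

theorem VV_succ (t i p a b : ℕ) : VV γ B U E (t + 1) i p a b =
    hv γ 1 B (U (t + 1) p) (fun _ => 1)
      (fun i' z => VV γ B U E t i' (2 * p) a z + VV γ B U E t i' (2 * p + 1) z b) i := rfl

/-- locality: the value of rank `i` at `(t,p)` sees the tables of the ranks `≤ i` at the ends of `(t,p)`,
with the outer letters `a`, `b` and inner letters `< B` -/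
theorem VV_congr (hB : 0 < B) : ∀ (t i p a b : ℕ),
    (∀ i' ≤ i, ∀ q, p * 2 ^ t ≤ q → q < (p + 1) * 2 ^ t → ∀ a' b', (a' < B ∨ q = p * 2 ^ t ∧ a' = a) →
      (b' < B ∨ q + 1 = (p + 1) * 2 ^ t ∧ b' = b) → E i' q a' b' = E' i' q a' b') →
    VV γ B U E t i p a b = VV γ B U E' t i p a b
  | 0, i, p, a, b, h => h i le_rfl p (by simp) (by simp) a b (Or.inr (by simp)) (Or.inr (by simp))
  | t + 1, i, p, a, b, h => by
    rw [VV_succ, VV_succ]
    refine hv_congr hB fun i' hi' z hz => ?_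
    have e1 : (2 * p) * 2 ^ t = p * 2 ^ (t + 1) := by rw [pow_succ]; ring
    have e2 : (2 * p + 1 + 1) * 2 ^ t = (p + 1) * 2 ^ (t + 1) := by rw [pow_succ]; ring
    have e3 : (2 * p + 1) * 2 ^ t = p * 2 ^ (t + 1) + 2 ^ t := by rw [pow_succ]; ring
    have e4 : (p + 1) * 2 ^ (t + 1) = p * 2 ^ (t + 1) + 2 ^ t + 2 ^ t := by rw [pow_succ]; ring
    have hp := Nat.two_pow_pos t
    congr 1
    · refine VV_congr hB t i' (2 * p) a z fun i'' hi'' q h1 h2 a' b' ha hb =>
        h i'' (hi''.trans hi') q (by omega) (by omega) a' b' ?_ ?_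
      · rcases ha with ha | ⟨ha, ha'⟩
        · exact Or.inl ha
        · exact Or.inr ⟨by omega, ha'⟩
      · rcases hb with hb | ⟨hb, rfl⟩
        · exact Or.inl hb
        · exact Or.inl hz
    · refine VV_congr hB t i' (2 * p + 1) z b fun i'' hi'' q h1 h2 a' b' ha hb =>
        h i'' (hi''.trans hi') q (by omega) (by omega) a' b' ?_ ?_
      · rcases ha with ha | ⟨ha, rfl⟩
        · exact Or.inl ha
        · exact Or.inl hz
      · rcases hb with hb | ⟨hb, hb'⟩
        · exact Or.inl hb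
        · exact Or.inr ⟨by omega, hb'⟩

theorem wVV_pos (hB : 0 < B) {u : ℕ} (hU : 0 < u) (us : ℕ → ℕ → ℕ) (i : ℕ) :
    0 < sumR B (wts γ 1 B u (fun _ => 1) us i) :=
  wsum_pos (by norm_num) hU i hB (by norm_num)

/-- upper bound by the sum of the suprema of the end tables -/
theorem VV_le (hB : 0 < B) (hU : ∀ t p, 0 < U t p) {C : ℕ → ℕ} {i : ℕ} : ∀ (t p a b : ℕ),
    (∀ q, p * 2 ^ t ≤ q → q < (p + 1) * 2 ^ t → ∀ a' b', (a' < B ∨ q = p * 2 ^ t ∧ a' = a) →
      (b' < B ∨ q + 1 = (p + 1) * 2 ^ t ∧ b' = b) → E i q a' b' ≤ C q) →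
    VV γ B U E t i p a b ≤ ∑ q ∈ Finset.Ico (p * 2 ^ t) ((p + 1) * 2 ^ t), C q
  | 0, p, a, b, h => by
    have e : Finset.Ico (p * 2 ^ 0) ((p + 1) * 2 ^ 0) = {p} := by simp
    rw [e, sum_singleton]
    exact h p (by simp) (by simp) a b (Or.inr (by simp)) (Or.inr (by simp))
  | t + 1, p, a, b, h => by
    rw [VV_succ]
    refine hv_le i (wVV_pos hB (hU _ _) _ _) fun z hz => ?_
    have e1 : (2 * p) * 2 ^ t = p * 2 ^ (t + 1) := by rw [pow_succ]; ring
    have e2 : (2 * p + 1 + 1) * 2 ^ t = (p + 1) * 2 ^ (t + 1) := by rw [pow_succ]; ring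
    have e3 : (2 * p + 1) * 2 ^ t = p * 2 ^ (t + 1) + 2 ^ t := by rw [pow_succ]; ring
    have e4 : (p + 1) * 2 ^ (t + 1) = p * 2 ^ (t + 1) + 2 ^ t + 2 ^ t := by rw [pow_succ]; ring
    have hp := Nat.two_pow_pos t
    have h1 := VV_le hB hU (C := C) (i := i) t (2 * p) a z fun q h1 h2 a' b' ha hb =>
      h q (by omega) (by omega) a' b'
        (by rcases ha with ha | ⟨ha, ha'⟩
            · exact Or.inl ha
            · exact Or.inr ⟨by omega, ha'⟩)
        (by rcases hb with hb | ⟨hb, rfl⟩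
            · exact Or.inl hb
            · exact Or.inl hz)
    have h2 := VV_le hB hU (C := C) (i := i) t (2 * p + 1) z b fun q h1 h2 a' b' ha hb =>
      h q (by omega) (by omega) a' b'
        (by rcases ha with ha | ⟨ha, rfl⟩
            · exact Or.inl ha
            · exact Or.inl hz)
        (by rcases hb with hb | ⟨hb, hb'⟩
            · exact Or.inl hb
            · exact Or.inr ⟨by omega, hb'⟩)
    rw [← sum_Ico_consecutive C (show p * 2 ^ (t + 1) ≤ (2 * p + 1) * 2 ^ t by omega)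
      (show (2 * p + 1) * 2 ^ t ≤ (p + 1) * 2 ^ (t + 1) by omega)]
    rw [e1] at h1
    rw [e2] at h2
    exact Nat.add_le_add h1 h2

/-- lower bound by the sum of the infima of the end tables -/
theorem le_VV (hB : 0 < B) (hU : ∀ t p, 0 < U t p) {C : ℕ → ℕ} {i : ℕ} : ∀ (t p a b : ℕ),
    (∀ q, p * 2 ^ t ≤ q → q < (p + 1) * 2 ^ t → ∀ a' b', (a' < B ∨ q = p * 2 ^ t ∧ a' = a) →
      (b' < B ∨ q + 1 = (p + 1) * 2 ^ t ∧ b' = b) → C q ≤ E i q a' b') →
    ∑ q ∈ Finset.Ico (p * 2 ^ t) ((p + 1) * 2 ^ t), C q ≤ VV γ B U E t i p a b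
  | 0, p, a, b, h => by
    have e : Finset.Ico (p * 2 ^ 0) ((p + 1) * 2 ^ 0) = {p} := by simp
    rw [e, sum_singleton]
    exact h p (by simp) (by simp) a b (Or.inr (by simp)) (Or.inr (by simp))
  | t + 1, p, a, b, h => by
    rw [VV_succ]
    refine le_hv i (wVV_pos hB (hU _ _) _ _) fun z hz => ?_
    have e1 : (2 * p) * 2 ^ t = p * 2 ^ (t + 1) := by rw [pow_succ]; ring
    have e2 : (2 * p + 1 + 1) * 2 ^ t = (p + 1) * 2 ^ (t + 1) := by rw [pow_succ]; ring
    have e3 : (2 * p + 1) * 2 ^ t = p * 2 ^ (t + 1) + 2 ^ t := by rw [pow_succ]; ring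
    have e4 : (p + 1) * 2 ^ (t + 1) = p * 2 ^ (t + 1) + 2 ^ t + 2 ^ t := by rw [pow_succ]; ring
    have hp := Nat.two_pow_pos t
    have h1 := le_VV hB hU (C := C) (i := i) t (2 * p) a z fun q h1 h2 a' b' ha hb =>
      h q (by omega) (by omega) a' b'
        (by rcases ha with ha | ⟨ha, ha'⟩
            · exact Or.inl ha
            · exact Or.inr ⟨by omega, ha'⟩)
        (by rcases hb with hb | ⟨hb, rfl⟩
            · exact Or.inl hb
            · exact Or.inl hz)
    have h2 := le_VV hB hU (C := C) (i := i) t (2 * p + 1) z b fun q h1 h2 a' b' ha hb =>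
      h q (by omega) (by omega) a' b'
        (by rcases ha with ha | ⟨ha, rfl⟩
            · exact Or.inl ha
            · exact Or.inl hz)
        (by rcases hb with hb | ⟨hb, hb'⟩
            · exact Or.inl hb
            · exact Or.inr ⟨by omega, hb'⟩)
    rw [← sum_Ico_consecutive C (show p * 2 ^ (t + 1) ≤ (2 * p + 1) * 2 ^ t by omega)
      (show (2 * p + 1) * 2 ^ t ≤ (p + 1) * 2 ^ (t + 1) by omega)]
    rw [e1] at h1
    rw [e2] at h2
    exact Nat.add_le_add h1 h2

end VV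

/-! ### near pieces, regular states -/

theorem nlet_pos (κ : ℕ) (x : St) : 0 < nlet P F κ x := Nat.succ_pos _

theorem near_lt (κ : ℕ) (x : St) (p z : ℕ) : near P F κ x p z < WA P κ := by
  unfold near
  have := WA_pos P κ
  omega

theorem tgt_lt (κ : ℕ) (x : St) (j : ℕ) : tgt P F κ x j < WA P κ := argR_lt _ (WA_pos P κ)

/-- every letter within `rad` of the target is a near letter -/
theorem exists_near {κ : ℕ} {x : St} {p a : ℕ} (ha : a < WA P κ)
    (h1 : a ≤ tgt P F κ x p + rad P F κ x) (h2 : tgt P F κ x p ≤ a + rad P F κ x) :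
    ∃ z < nlet P F κ x, near P F κ x p z = a := by
  refine ⟨a + rad P F κ x - tgt P F κ x p, by unfold nlet; omega, ?_⟩
  unfold near
  omega

theorem near_le (κ : ℕ) (x : St) (p : ℕ) {z : ℕ} (hz : z < nlet P F κ x) :
    near P F κ x p z ≤ tgt P F κ x p + rad P F κ x := by
  unfold near
  unfold nlet at hz
  omega

theorem le_near (κ : ℕ) (x : St) (p z : ℕ) :
    tgt P F κ x p ≤ near P F κ x p z + rad P F κ x := by
  unfold near
  have := tgt_lt (P := P) (F := F) κ x p
  omega

/-- the diagonals of two near letters of one cut -/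
theorem near_dist {κ : ℕ} {x : St} {p z z' : ℕ} (hz : z < nlet P F κ x) (hz' : z' < nlet P F κ x) :
    (pos P κ x (near P F κ x p z) - pos P κ x (near P F κ x p z')).natAbs ≤
      2 * rad P F κ x * gst P κ := by
  refine pos_sub_le κ x ?_ ?_
  · have h1 := near_le (P := P) (F := F) κ x p hz
    have h2 := le_near (P := P) (F := F) κ x p z'
    omega
  · have h1 := near_le (P := P) (F := F) κ x p hz'
    have h2 := le_near (P := P) (F := F) κ x p z
    omega

theorem rad_mul_gst_le (κ : ℕ) (x : St) : rad P F κ x * gst P κ ≤ F x / 2 ^ P.sb :=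
  Nat.div_mul_le_self _ _

/-- all staircases of near letters of a regular state -/
theorem sum_near_le {κ : ℕ} {x : St} (h : regular P F κ x) (c d : ℕ → ℕ)
    (hc : ∀ q < P.N, c q < nlet P F κ x) (hd : ∀ q < P.N, d q < nlet P F κ x) :
    ∑ q ∈ range P.N, F (npiece P F κ x q (c q) (d q)) ≤ P.Creg * F x := by
  unfold regular at h
  rw [sumR_eq] at h
  refine (sum_le_sum fun q hq => ?_).trans h
  have hq' := mem_range.1 hq
  exact (le_maxR (fun b => F (npiece P F κ x q (c q) b)) (hd q hq')).trans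
    (le_maxR (fun a => maxR (nlet P F κ x) fun b => F (npiece P F κ x q a b)) (hc q hq'))

/-! ### the median -/

theorem ins_perm (a : ℕ) (l : List ℕ) : (ins a l).Perm (a :: l) := by
  induction l with
  | nil => exact List.Perm.refl _
  | cons b l ih =>
    unfold ins
    split_ifs
    · exact List.Perm.refl _
    · exact (List.Perm.cons b ih).trans (List.Perm.swap a b l)

theorem isort_perm (l : List ℕ) : (isort l).Perm l := by
  induction l with
  | nil => exact List.Perm.refl _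
  | cons a l ih => exact (ins_perm a _).trans (List.Perm.cons a ih)

theorem ins_sorted (a : ℕ) {l : List ℕ} (h : l.Pairwise (· ≤ ·)) : (ins a l).Pairwise (· ≤ ·) := by
  induction l with
  | nil => simp [ins]
  | cons b l ih =>
    unfold ins
    rw [List.pairwise_cons] at h
    split_ifs with hab
    · rw [List.pairwise_cons, List.pairwise_cons]
      refine ⟨?_, h⟩
      intro c hc
      rcases List.mem_cons.1 hc with rfl | hc
      · exact hab
      · exact hab.trans (h.1 c hc)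
    · rw [List.pairwise_cons]
      refine ⟨?_, ih h.2⟩
      intro c hc
      rcases List.mem_cons.1 ((ins_perm a l).subset hc) with rfl | hc
      · omega
      · exact h.1 c hc

theorem isort_sorted (l : List ℕ) : (isort l).Pairwise (· ≤ ·) := by
  induction l with
  | nil => simp [isort]
  | cons a l ih => exact ins_sorted a ih

theorem isort_length (l : List ℕ) : (isort l).length = l.length := (isort_perm l).length_eq

/-- in a sorted list, `> t` entries are `≤ v` iff entry `t` is `≤ v` -/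
theorem countP_sorted {l : List ℕ} (h : l.Pairwise (· ≤ ·)) {t v : ℕ} (ht : t < l.length) :
    t < l.countP (fun x => decide (x ≤ v)) ↔ l.getD t 0 ≤ v := by
  induction l generalizing t with
  | nil => simp at ht
  | cons a l ih =>
    rw [List.pairwise_cons] at h
    by_cases ha : a ≤ v
    · rw [List.countP_cons_of_pos (by simpa using ha)]
      cases t with
      | zero => simpa using ha
      | succ t =>
        simp only [List.length_cons, Nat.add_lt_add_iff_right] at ht
        rw [Nat.add_lt_add_iff_right, ih h.2 ht, List.getD_cons_succ]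
    · rw [List.countP_cons_of_neg (by simpa using ha)]
      have h0 : l.countP (fun x => decide (x ≤ v)) = 0 := by
        rw [List.countP_eq_zero]
        intro x hx
        have := h.1 x hx
        simp
        omega
      rw [h0]
      constructor
      · intro h'; omega
      · intro h'
        exfalso
        cases t with
        | zero => exact ha (by simpa using h')
        | succ t =>
          simp only [List.length_cons, Nat.add_lt_add_iff_right] at ht
          rw [List.getD_cons_succ, List.getD_eq_getElem _ _ ht] at h'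
          have := h.1 _ (List.getElem_mem ht)
          omega

/-- the median of `AlgA_45` is the median of `Med_559` -/
theorem med_eq {l : List ℕ} (hl : l ≠ []) : Alg45.med l = Med559.med l := by
  have hlen : 0 < l.length := List.length_pos_of_ne_nil hl
  have ht : l.length / 2 < (isort l).length := by rw [isort_length]; omega
  have hcnt : ∀ v, Med559.cle l v = (isort l).countP (fun x => decide (x ≤ v)) := fun v =>
    ((isort_perm l).countP_eq _).symm
  have key : ∀ v, l.length < 2 * Med559.cle l v ↔ Alg45.med l ≤ v := by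
    intro v
    unfold Alg45.med
    rw [← countP_sorted (isort_sorted l) ht, hcnt]
    omega
  refine (Med559.med_eq ((key _).2 le_rfl) ?_).symm
  intro v hv
  by_contra hcon
  exact absurd ((key v).1 (not_le.1 hcon)) (not_le.2 hv)

/-! ### the value after the jump, the jump -/

theorem bodyNum_of_not_adm {leaf : St → Option ℕ} {X : ℕ → ℕ → St → ℕ} {k : ℕ} {S : ℕ → ℕ → St → ℕ}
    {κ : ℕ} {x : St} (h : adm P F κ x = false) : bodyNum P leaf F X k S κ x = F x := by
  unfold bodyNum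
  rw [if_pos h]

theorem bodyNum_leaf {leaf : St → Option ℕ} {X : ℕ → ℕ → St → ℕ} {k : ℕ} {S : ℕ → ℕ → St → ℕ}
    {κ c : ℕ} {x : St} (h : adm P F κ x = true) (hl : leaf x = some c) :
    bodyNum P leaf F X k S κ x = c := by
  unfold bodyNum
  rw [if_neg (by simp [h]), hl]

theorem bodyNum_wild {leaf : St → Option ℕ} {X : ℕ → ℕ → St → ℕ} {k : ℕ} {S : ℕ → ℕ → St → ℕ}
    {κ : ℕ} {x : St} (h : adm P F κ x = true) (hl : leaf x = none)
    (hR : R1 P F x ∨ ¬ regular P F κ x) :
    bodyNum P leaf F X k S κ x = wild P F X κ x k := by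
  unfold bodyNum
  rw [if_neg (by simp [h]), hl]
  exact if_pos hR

theorem bodyNum_mix {leaf : St → Option ℕ} {X : ℕ → ℕ → St → ℕ} {k : ℕ} {S : ℕ → ℕ → St → ℕ}
    {κ : ℕ} {x : St} (h : adm P F κ x = true) (hl : leaf x = none) (hR : ¬ R1 P F x)
    (hreg : regular P F κ x) : bodyNum P leaf F X k S κ x =
      cdiv ((P.g - 1) * modal P F X k S κ x + wild P F X κ x k) P.g := by
  unfold bodyNum
  rw [if_neg (by simp [h]), hl]
  exact if_neg (by simp [hR, hreg])

theorem wild_le (X : ℕ → ℕ → St → ℕ) (κ : ℕ) (x : St) (i : ℕ) : wild P F X κ x i ≤ F x :=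
  Wm_le_start _ _ _

theorem wild_le_Vst (X : ℕ → ℕ → St → ℕ) (κ : ℕ) (x : St) {i j : ℕ} (h : i < j) :
    wild P F X κ x j ≤ Vst P κ x (hull P F (X i)) :=
  Wm_le (F x) (fun i' => Vst P κ x (hull P F (X i'))) h

/-- candidates within `2 F` -/
theorem jpr_le {f : ℕ} {y : St} {cands : List (St × ℕ × ℕ)} {i : ℕ} (hi : i < cands.length)
    (hd : Alg45.dist y cands[i].1 ≤ 2 * f) : jpr f y cands i = Alg45.dist y cands[i].1 + cands[i].2.1 := by
  unfold jpr
  rw [List.getElem?_eq_getElem hi]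
  exact if_pos hd

theorem jpr_of_ge {f : ℕ} {y : St} {cands : List (St × ℕ × ℕ)} {i : ℕ} (hi : cands.length ≤ i) :
    jpr f y cands i = 3 * f + 1 := by
  unfold jpr
  rw [List.getElem?_eq_none hi]

theorem jpr_of_far {f : ℕ} {y : St} {cands : List (St × ℕ × ℕ)} {i : ℕ} (hi : i < cands.length)
    (hd : ¬ Alg45.dist y cands[i].1 ≤ 2 * f) : jpr f y cands i = 3 * f + 1 := by
  unfold jpr
  rw [List.getElem?_eq_getElem hi]
  exact if_neg hd

/-- the price is at least the price of the best candidate -/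
theorem jpr_argR_le {f : ℕ} {y : St} {cands : List (St × ℕ × ℕ)} {i : ℕ} (hi : i < cands.length) :
    jpr f y cands (argR cands.length (jpr f y cands)) ≤ jpr f y cands i := argR_min _ hi

/-- the three alternatives of the jump -/
theorem arrNum_cases {κ : ℕ} {y : St} {sE sV : ℕ} {cands : List (St × ℕ × ℕ)}
    (h : adm P F κ y = true) :
    let b := jpr (F y) y cands (argR cands.length (jpr (F y) y cands))
    (sE < min (F y) b + 2 ^ κ / 2 ^ P.bb ∧ arrNum P F κ y sE sV cands = sV) ∨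
    (F y ≤ b ∧ F y + 2 ^ κ / 2 ^ P.bb ≤ sE ∧ arrNum P F κ y sE sV cands = F y) ∨
    (b < F y ∧ b + 2 ^ κ / 2 ^ P.bb ≤ sE ∧ ∃ i, ∃ hi : i < cands.length,
      Alg45.dist y cands[i].1 ≤ 2 * F y ∧ b = Alg45.dist y cands[i].1 + cands[i].2.1 ∧
      arrNum P F κ y sE sV cands = Alg45.dist y cands[i].1 + cands[i].2.2) := by
  intro b
  unfold arrNum
  rw [if_neg (by simp [h])]
  by_cases h1 : sE < min (F y) b + 2 ^ κ / 2 ^ P.bb
  · exact Or.inl ⟨h1, if_pos h1⟩
  · right
    have h1' := not_lt.1 h1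
    by_cases h2 : F y ≤ b
    · left
      rw [min_eq_left h2] at h1'
      refine ⟨h2, h1', ?_⟩
      change (if sE < min (F y) b + 2 ^ κ / 2 ^ P.bb then sV else if F y ≤ b then F y else _) = F y
      rw [if_neg h1, if_pos h2]
    · right
      have h2' := not_le.1 h2
      rw [min_eq_right h2'.le] at h1'
      refine ⟨h2', h1', argR cands.length (jpr (F y) y cands), ?_⟩
      have hi : argR cands.length (jpr (F y) y cands) < cands.length := by
        by_contra hcon
        have : b = 3 * F y + 1 := jpr_of_ge (not_lt.1 hcon)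
        omega
      refine ⟨hi, ?_⟩
      have hd : Alg45.dist y cands[argR cands.length (jpr (F y) y cands)].1 ≤ 2 * F y := by
        by_contra hcon
        have : b = 3 * F y + 1 := jpr_of_far hi hcon
        omega
      refine ⟨hd, jpr_le hi hd, ?_⟩
      have e : (match cands[argR cands.length (jpr (F y) y cands)]? with
          | some (z, _, w) => Alg45.dist y z + w
          | none => sV) = Alg45.dist y cands[argR cands.length (jpr (F y) y cands)].1 +
            cands[argR cands.length (jpr (F y) y cands)].2.2 := by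
        rw [List.getElem?_eq_getElem hi]
      change (if sE < min (F y) b + 2 ^ κ / 2 ^ P.bb then sV else if F y ≤ b then F y else
        (match cands[argR cands.length (jpr (F y) y cands)]? with
          | some (z, _, w) => Alg45.dist y z + w
          | none => sV)) = _
      rw [if_neg h1, if_neg h2, e]

end Crest.Agent.R288.AlgApi299
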