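import Crest.Agent.R288.AlgB_45
import Crest.Agent.R288.Med_559

/-!
# R288 [ALG]: API of the elementary functions of `AlgA_45`, `AlgB_45` (helper299)

* `minR`, `argR`, `sumR`, `lmin`      : minimum, first argmin, sum, minimum of a list
* `gst`, `gpt`, `rd`, `rdn`, `dist`   : grids, rounding, distance; `cls`
* `D`, `minSt`, `Vst`                 : minimum over the index staircases
* `piece`                             : ends, telescoping
* `menu`, `cellsIn`, `cst`, `cidx`    : membership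
* `isort`, `med`                      : the median of `Med_559`
-/

set_option autoImplicit false

namespace Crest.Agent.R288.AlgApi299

open Crest.Agent.R288.Alg45 Finset

/-! ### minimum, argmin, sum -/

@[simp] theorem minR_zero (f : ℕ → ℕ) : minR 0 f = f 0 := rfl

theorem minR_succ (n : ℕ) (f : ℕ → ℕ) : minR (n + 1) f = min (minR n f) (f n) := by
  simp [minR, List.range_succ]

theorem minR_le_zero (n : ℕ) (f : ℕ → ℕ) : minR n f ≤ f 0 := by
  induction n with
  | zero => simp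
  | succ n ih => rw [minR_succ]; exact (min_le_left _ _).trans ih

theorem minR_le {n a : ℕ} (f : ℕ → ℕ) (h : a < n) : minR n f ≤ f a := by
  induction n with
  | zero => omega
  | succ n ih =>
    rw [minR_succ]
    rcases Nat.lt_succ_iff_lt_or_eq.1 h with h | rfl
    · exact (min_le_left _ _).trans (ih h)
    · exact min_le_right _ _

theorem exists_minR' (n : ℕ) (f : ℕ → ℕ) : ∃ a, (a < n ∨ a = 0) ∧ minR n f = f a := by
  induction n with
  | zero => exact ⟨0, Or.inr rfl, rfl⟩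
  | succ n ih =>
    rw [minR_succ]
    rcases le_total (minR n f) (f n) with h | h
    · obtain ⟨a, ha, h'⟩ := ih
      exact ⟨a, by omega, by rw [min_eq_left h, h']⟩
    · exact ⟨n, by omega, min_eq_right h⟩

theorem exists_minR {n : ℕ} (f : ℕ → ℕ) (h : 0 < n) : ∃ a < n, minR n f = f a := by
  obtain ⟨a, ha, h'⟩ := exists_minR' n f
  exact ⟨a, by omega, h'⟩

theorem le_minR {n c : ℕ} {f : ℕ → ℕ} (hn : 0 < n) (h : ∀ a < n, c ≤ f a) : c ≤ minR n f := by
  obtain ⟨a, ha, h'⟩ := exists_minR f hn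
  rw [h']
  exact h a ha

theorem minR_mono {n : ℕ} {f g : ℕ → ℕ} (hn : 0 < n) (h : ∀ a < n, f a ≤ g a) :
    minR n f ≤ minR n g := le_minR hn fun a ha => (minR_le f ha).trans (h a ha)

theorem minR_congr {n : ℕ} {f g : ℕ → ℕ} (hn : 0 < n) (h : ∀ a < n, f a = g a) :
    minR n f = minR n g :=
  le_antisymm (minR_mono hn fun a ha => (h a ha).le) (minR_mono hn fun a ha => (h a ha).ge)

theorem minR_const {n : ℕ} (c : ℕ) : minR n (fun _ => c) = c := by
  obtain ⟨a, _, h⟩ := exists_minR' n (fun _ => c)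
  exact h

@[simp] theorem argR_zero (f : ℕ → ℕ) : argR 0 f = 0 := rfl

theorem argR_succ (n : ℕ) (f : ℕ → ℕ) :
    argR (n + 1) f = if f n < f (argR n f) then n else argR n f := by
  unfold argR
  rw [List.range_succ, List.foldl_append]
  rfl

theorem apply_argR (n : ℕ) (f : ℕ → ℕ) : f (argR n f) = minR n f := by
  induction n with
  | zero => rfl
  | succ n ih =>
    rw [argR_succ, minR_succ, ← ih]
    split_ifs with h
    · exact (min_eq_right h.le).symm
    · exact (min_eq_left (not_lt.1 h)).symm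

theorem argR_lt' (n : ℕ) (f : ℕ → ℕ) : argR n f < n ∨ argR n f = 0 := by
  induction n with
  | zero => exact Or.inr rfl
  | succ n ih =>
    rw [argR_succ]
    split_ifs <;> omega

theorem argR_lt {n : ℕ} (f : ℕ → ℕ) (hn : 0 < n) : argR n f < n := by
  rcases argR_lt' n f with h | h <;> omega

theorem argR_min {n a : ℕ} (f : ℕ → ℕ) (h : a < n) : f (argR n f) ≤ f a :=
  (apply_argR n f).le.trans (minR_le f h)

theorem sumR_eq (n : ℕ) (f : ℕ → ℕ) : sumR n f = ∑ a ∈ range n, f a := by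
  unfold sumR
  induction n with
  | zero => simp
  | succ n ih => simp [List.range_succ, sum_range_succ, ih]

theorem lmin_le_start (a : ℕ) (l : List ℕ) : lmin a l ≤ a := by
  unfold lmin
  induction l generalizing a with
  | nil => exact le_rfl
  | cons b l ih => exact (ih (min a b)).trans (min_le_left _ _)

theorem lmin_le {a b : ℕ} {l : List ℕ} (h : b ∈ l) : lmin a l ≤ b := by
  unfold lmin
  induction l generalizing a with
  | nil => cases h
  | cons c l ih =>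
    rw [List.foldl_cons]
    rcases List.mem_cons.1 h with rfl | h
    · exact (lmin_le_start (min a b) l).trans (min_le_right _ _)
    · exact ih h

theorem lmin_mem (a : ℕ) (l : List ℕ) : lmin a l = a ∨ lmin a l ∈ l := by
  unfold lmin
  induction l generalizing a with
  | nil => exact Or.inl rfl
  | cons c l ih =>
    rw [List.foldl_cons]
    rcases ih (min a c) with h | h
    · rw [h]
      rcases le_total a c with h' | h'
      · exact Or.inl (min_eq_left h')
      · rw [min_eq_right h']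
        exact Or.inr (List.mem_cons_self)
    · exact Or.inr (List.mem_cons_of_mem _ h)

theorem le_lmin {a c : ℕ} {l : List ℕ} (ha : c ≤ a) (h : ∀ b ∈ l, c ≤ b) : c ≤ lmin a l := by
  rcases lmin_mem a l with h' | h'
  · rw [h']; exact ha
  · exact h _ h'

theorem le_maxR {n a : ℕ} (f : ℕ → ℕ) (h : a < n) : f a ≤ maxR n f := by
  unfold maxR
  induction n with
  | zero => omega
  | succ n ih =>
    rw [List.range_succ, List.foldl_append]
    simp only [List.foldl_cons, List.foldl_nil]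
    rcases Nat.lt_succ_iff_lt_or_eq.1 h with h | rfl
    · exact (ih h).trans (le_max_left _ _)
    · exact le_max_right _ _

theorem maxR_le {n c : ℕ} {f : ℕ → ℕ} (h : ∀ a < n, f a ≤ c) : maxR n f ≤ c := by
  unfold maxR
  induction n with
  | zero => simp
  | succ n ih =>
    rw [List.range_succ, List.foldl_append]
    simp only [List.foldl_cons, List.foldl_nil]
    exact max_le (ih fun a ha => h a (by omega)) (h n (by omega))

theorem cdiv_le_iff {a b c : ℕ} (hb : 0 < b) : cdiv a b ≤ c ↔ a ≤ c * b := by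
  unfold cdiv
  rw [← Nat.lt_succ_iff, Nat.div_lt_iff_lt_mul hb, Nat.succ_mul]
  omega

theorem le_cdiv_mul (a : ℕ) {b : ℕ} (hb : 0 < b) : a ≤ cdiv a b * b := (cdiv_le_iff hb).1 le_rfl

theorem lt_cdiv_iff {a b c : ℕ} (hb : 0 < b) : c < cdiv a b ↔ c * b < a := by
  rw [← not_le, cdiv_le_iff hb, not_le]

/-- `cdiv a b * b < a + b` -/
theorem cdiv_mul_lt (a : ℕ) {b : ℕ} (hb : 0 < b) : cdiv a b * b < a + b := by
  unfold cdiv
  have := Nat.div_mul_le_self (a + (b - 1)) b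
  omega

theorem cdiv_mono {a a' : ℕ} (b : ℕ) (h : a ≤ a') : cdiv a b ≤ cdiv a' b :=
  Nat.div_le_div_right (by omega)

theorem cdiv_mul_self {b : ℕ} (c : ℕ) (hb : 0 < b) : cdiv (c * b) b = c :=
  le_antisymm ((cdiv_le_iff hb).2 le_rfl) (by
    by_contra h
    have := (cdiv_le_iff (a := c * b) (c := c - 1) hb).1 (by omega)
    have h2 : (c - 1) * b < c * b := Nat.mul_lt_mul_of_pos_right (by omega) hb
    omega)

theorem div_le_cdiv (a b : ℕ) : (a : ℝ) / b ≤ cdiv a b := by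
  rcases Nat.eq_zero_or_pos b with rfl | hb
  · simp
  · rw [div_le_iff₀ (by exact_mod_cast hb)]
    exact_mod_cast le_cdiv_mul a hb

theorem cdiv_lt_div {a b : ℕ} (hb : 0 < b) : (cdiv a b : ℝ) < a / b + 1 := by
  have h1 : (0 : ℝ) < b := by exact_mod_cast hb
  have h2 : ((cdiv a b * b : ℕ) : ℝ) < ((a + b : ℕ) : ℝ) := by exact_mod_cast cdiv_mul_lt a hb
  push_cast at h2
  rw [← sub_lt_iff_lt_add, lt_div_iff₀ h1]
  linarith

theorem mem_rngC {lo hi t : ℕ} : t ∈ rngC lo hi ↔ lo ≤ t ∧ t ≤ hi := by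
  unfold rngC
  simp only [List.mem_map, List.mem_range]
  constructor
  · rintro ⟨a, h, rfl⟩
    omega
  · rintro ⟨h1, h2⟩
    exact ⟨t - lo, by omega, by omega⟩

theorem length_rngC (lo hi : ℕ) : (rngC lo hi).length = hi + 1 - lo := by
  unfold rngC
  simp

theorem nodup_rngC (lo hi : ℕ) : (rngC lo hi).Nodup := by
  unfold rngC
  exact List.nodup_range.map fun a b h => by simpa using h

/-! ### staircases in index form -/

section stair

variable {A : ℕ} {T T' : ℕ → ℕ → ℕ → ℕ}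

@[simp] theorem D_zero (b : ℕ) : D A T 0 b = 0 := rfl

theorem D_succ (j b : ℕ) : D A T (j + 1) b = minR A fun a => D A T j a + T j a b := rfl

theorem D_le (c : ℕ → ℕ) : ∀ j, (∀ q < j, c q < A) →
    D A T j (c j) ≤ ∑ q ∈ range j, T q (c q) (c (q + 1))
  | 0, _ => by simp
  | j + 1, h => by
    rw [D_succ, sum_range_succ]
    refine (minR_le _ (h j (Nat.lt_succ_self j))).trans ?_
    exact Nat.add_le_add_right (D_le c j fun q hq => h q (by omega)) _

theorem exists_D (hA : 0 < A) : ∀ j b, ∃ c : ℕ → ℕ, (∀ q < j, c q < A) ∧ c j = b ∧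
    D A T j b = ∑ q ∈ range j, T q (c q) (c (q + 1))
  | 0, b => ⟨fun _ => b, by simp, rfl, by simp⟩
  | j + 1, b => by
    obtain ⟨a, ha, h1⟩ := exists_minR (fun a => D A T j a + T j a b) hA
    obtain ⟨c, hc, hcj, h2⟩ := exists_D hA j a
    refine ⟨fun q => if q = j + 1 then b else c q, ?_, by simp, ?_⟩
    · intro q hq
      dsimp only
      rw [if_neg (by omega)]
      rcases Nat.lt_succ_iff_lt_or_eq.1 hq with h | rfl
      · exact hc q h
      · rw [hcj]; exact ha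
    · rw [D_succ, h1, h2, sum_range_succ]
      congr 1
      · refine sum_congr rfl fun q hq => ?_
        have := mem_range.1 hq
        dsimp only
        rw [if_neg (by omega), if_neg (by omega)]
      · simp [hcj]

theorem D_mono (hA : 0 < A) (h : ∀ q a b, T q a b ≤ T' q a b) (j b : ℕ) :
    D A T j b ≤ D A T' j b := by
  obtain ⟨c, hc, rfl, h2⟩ := exists_D (T := T') hA j b
  rw [h2]
  exact (D_le c j hc).trans (sum_le_sum fun q _ => h _ _ _)

theorem D_congr (hA : 0 < A) : ∀ (j b : ℕ), (∀ q < j, ∀ a b, T q a b = T' q a b) →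
    D A T j b = D A T' j b
  | 0, _, _ => rfl
  | j + 1, b, h => by
    rw [D_succ, D_succ]
    refine minR_congr hA fun a _ => ?_
    rw [D_congr hA j a fun q hq => h q (by omega), h j (by omega)]

/-- the staircase may have any last letter if the last piece does not depend on it -/
theorem minSt_le {N : ℕ} (c : ℕ → ℕ) (h : ∀ q < N, c q < A)
    (hN : ∀ q, q + 1 = N → ∀ a b b', T q a b = T q a b') :
    minSt N A T ≤ ∑ q ∈ range N, T q (c q) (c (q + 1)) := by
  have h1 := D_le (A := A) (T := T) (fun q => if q = N then 0 else c q) N (fun q hq => by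
    rw [if_neg (by omega)]
    exact h q hq)
  simp only [if_true] at h1
  refine h1.trans (le_of_eq (sum_congr rfl fun q hq => ?_))
  have hq' := mem_range.1 hq
  rw [if_neg (by omega : ¬ q = N)]
  by_cases h' : q + 1 = N
  · exact hN q h' _ _ _
  · rw [if_neg h']

theorem exists_minSt {N : ℕ} (hA : 0 < A) : ∃ c : ℕ → ℕ, (∀ q < N, c q < A) ∧ c N = 0 ∧
    minSt N A T = ∑ q ∈ range N, T q (c q) (c (q + 1)) := exists_D hA N 0

end stair

/-! ### grids -/

section grid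

variable (P : Par)

theorem gst_pos (κ : ℕ) : 0 < gst P κ := Nat.two_pow_pos _

theorem gpt_pos (κ : ℕ) : 0 < gpt P κ := Nat.two_pow_pos _

theorem gst_mul_gpt (κ : ℕ) : gst P κ * gpt P κ = 2 ^ κ := by
  unfold gst gpt
  rw [← pow_add]
  congr 1
  omega

theorem gpt_mul_gst (κ : ℕ) : gpt P κ * gst P κ = 2 ^ κ := by rw [mul_comm, gst_mul_gpt]

theorem gst_dvd (κ : ℕ) : gst P κ ∣ 2 ^ κ := ⟨_, (gst_mul_gpt P κ).symm⟩

theorem gst_le (κ : ℕ) : gst P κ ≤ 2 ^ κ := Nat.le_of_dvd (Nat.two_pow_pos _) (gst_dvd P κ)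

theorem gst_dvd_gst {κ κ' : ℕ} (h : κ ≤ κ') : gst P κ ∣ gst P κ' :=
  pow_dvd_pow _ (Nat.sub_le_sub_right h _)

/-- `gst κ ≤ max 1 (2 ^ κ / 2 ^ pb)` -/
theorem gst_mul_le {κ : ℕ} (h : P.pb ≤ κ) : gst P κ * 2 ^ P.pb = 2 ^ κ := by
  unfold gst
  rw [← pow_add]
  congr 1
  omega

theorem gst_one {κ : ℕ} (h : κ ≤ P.pb) : gst P κ = 1 := by
  unfold gst
  rw [Nat.sub_eq_zero_of_le h, pow_zero]

theorem rd_le (κ : ℕ) (u : ℤ) : rd P κ u ≤ u := by
  unfold rd
  exact Int.ediv_mul_le _ (by exact_mod_cast (gst_pos P κ).ne')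

theorem lt_rd (κ : ℕ) (u : ℤ) : u < rd P κ u + gst P κ := by
  unfold rd
  have := Int.lt_ediv_add_one_mul_self u (b := (gst P κ : ℤ)) (by exact_mod_cast gst_pos P κ)
  linarith

theorem dvd_rd (κ : ℕ) (u : ℤ) : (gst P κ : ℤ) ∣ rd P κ u := Dvd.intro_left _ rfl

theorem rd_of_dvd {κ : ℕ} {u : ℤ} (h : (gst P κ : ℤ) ∣ u) : rd P κ u = u :=
  Int.ediv_mul_cancel h

theorem rd_rd (κ : ℕ) (u : ℤ) : rd P κ (rd P κ u) = rd P κ u := rd_of_dvd P (dvd_rd P κ u)

theorem rd_mono (κ : ℕ) {u v : ℤ} (h : u ≤ v) : rd P κ u ≤ rd P κ v := by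
  unfold rd
  exact mul_le_mul_of_nonneg_right
    (Int.ediv_le_ediv (by exact_mod_cast gst_pos P κ) h) (by positivity)

theorem abs_sub_rd (κ : ℕ) (u : ℤ) : (u - rd P κ u).natAbs < gst P κ := by
  have h1 := rd_le P κ u
  have h2 := lt_rd P κ u
  omega

@[simp] theorem rdn_i (κ : ℕ) (y : St) : (rdn P κ y).i = y.i := rfl
@[simp] theorem rdn_j (κ : ℕ) (y : St) : (rdn P κ y).j = y.j := rfl
@[simp] theorem rdn_u (κ : ℕ) (y : St) : (rdn P κ y).u = rd P κ y.u := rfl
@[simp] theorem rdn_v (κ : ℕ) (y : St) : (rdn P κ y).v = rd P κ y.v := rfl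

theorem dist_self (y : St) : Alg45.dist y y = 0 := by simp [Alg45.dist]

theorem dist_comm (y z : St) : Alg45.dist y z = Alg45.dist z y := by
  unfold Alg45.dist
  omega

theorem dist_triangle (x y z : St) : Alg45.dist x z ≤ Alg45.dist x y + Alg45.dist y z := by
  unfold Alg45.dist
  omega

theorem dist_rdn_le (κ : ℕ) (y : St) : Alg45.dist y (rdn P κ y) + 2 ≤ 2 * gst P κ := by
  unfold Alg45.dist
  have h1 := abs_sub_rd P κ y.u
  have h2 := abs_sub_rd P κ y.v
  simp only [rdn_u, rdn_v]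
  omega

theorem rdn_rdn (κ : ℕ) (y : St) : rdn P κ (rdn P κ y) = rdn P κ y := by
  unfold rdn
  simp [rd_rd]

theorem dist_rdn_of_dvd {κ : ℕ} {y : St} (h1 : (gst P κ : ℤ) ∣ y.u) (h2 : (gst P κ : ℤ) ∣ y.v) :
    rdn P κ y = y := by
  unfold rdn
  rw [rd_of_dvd P h1, rd_of_dvd P h2]

/-! ### classes -/

theorem cls_le {F : St → ℕ} {y : St} (h : F y ≠ 0) : 2 ^ cls F y ≤ F y := Nat.pow_log_le_self 2 h

theorem lt_cls (F : St → ℕ) (y : St) : F y < 2 ^ (cls F y + 1) :=
  Nat.lt_pow_succ_log_self (by norm_num) _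

/-! ### the window grid -/

theorem WA_pos (κ : ℕ) : 0 < WA P κ := Nat.succ_pos _

theorem N_pos : 0 < P.N := Nat.two_pow_pos _

variable {P}

@[simp] theorem piece_i (κ : ℕ) (x : St) (q a b : ℕ) : (piece P κ x q a b).i = x.i - 1 := rfl
@[simp] theorem piece_j (κ : ℕ) (x : St) (q a b : ℕ) : (piece P κ x q a b).j = P.N * x.j + q := rfl
theorem piece_u (κ : ℕ) (x : St) (q a b : ℕ) : (piece P κ x q a b).u = cut P κ x q a := rfl
theorem piece_v (κ : ℕ) (x : St) (q a b : ℕ) : (piece P κ x q a b).v = cut P κ x (q + 1) b := rfl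

@[simp] theorem cut_zero (κ : ℕ) (x : St) (a : ℕ) : cut P κ x 0 a = x.u := if_pos rfl

@[simp] theorem cut_N (κ : ℕ) (x : St) (a : ℕ) : cut P κ x P.N a = x.v := by
  unfold cut
  rw [if_neg (N_pos P).ne', if_pos rfl]

theorem cut_of_pos {κ q : ℕ} (x : St) (a : ℕ) (h0 : q ≠ 0) (hN : q ≠ P.N) :
    cut P κ x q a = pos P κ x a := by
  unfold cut
  rw [if_neg h0, if_neg hN]

/-- the slopes of the pieces add up -/
theorem sum_piece_sub (κ : ℕ) (x : St) (c : ℕ → ℕ) :
    ∑ q ∈ range P.N, ((piece P κ x q (c q) (c (q + 1))).v - (piece P κ x q (c q) (c (q + 1))).u) =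
      x.v - x.u := by
  simp only [piece_u, piece_v]
  rw [sum_range_sub (fun q => cut P κ x q (c q)), cut_N, cut_zero]

theorem Vst_le (κ : ℕ) (x : St) (f : St → ℕ) (c : ℕ → ℕ) (h : ∀ q < P.N, c q < WA P κ) :
    Vst P κ x f ≤ ∑ q ∈ range P.N, f (piece P κ x q (c q) (c (q + 1))) := by
  refine minSt_le c h ?_
  intro q hq a b b'
  unfold piece
  rw [hq, cut_N, cut_N]

theorem exists_Vst (κ : ℕ) (x : St) (f : St → ℕ) : ∃ c : ℕ → ℕ, (∀ q, c q < WA P κ) ∧
    Vst P κ x f = ∑ q ∈ range P.N, f (piece P κ x q (c q) (c (q + 1))) := by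
  obtain ⟨c, hc, hN, h⟩ := exists_minSt (T := fun q a b => f (piece P κ x q a b)) (N := P.N)
    (WA_pos P κ)
  refine ⟨fun q => if q ≤ P.N then c q else 0, ?_, ?_⟩
  · intro q
    dsimp only
    split_ifs with h'
    · rcases Nat.lt_or_eq_of_le h' with h'' | rfl
      · exact hc q h''
      · rw [hN]; exact WA_pos P κ
    · exact WA_pos P κ
  · unfold Vst
    rw [h]
    refine sum_congr rfl fun q hq => ?_
    have := mem_range.1 hq
    dsimp only
    rw [if_pos (by omega), if_pos (by omega)]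

theorem Vst_mono (κ : ℕ) (x : St) {f g : St → ℕ}
    (h : ∀ q a b, q < P.N → f (piece P κ x q a b) ≤ g (piece P κ x q a b)) :
    Vst P κ x f ≤ Vst P κ x g := by
  obtain ⟨c, hc, h'⟩ := exists_Vst κ x g
  rw [h']
  exact (Vst_le κ x f c fun q _ => hc q).trans
    (sum_le_sum fun q hq => h _ _ _ (mem_range.1 hq))

/-! ### clamping -/

theorem clp_of_mem {u : ℤ} (h : u.natAbs ≤ P.Dm) : clp P u = u := by
  unfold clp
  omega

theorem natAbs_clp_le (u : ℤ) : (clp P u).natAbs ≤ P.Dm := by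
  unfold clp
  omega

theorem clp_mono {u v : ℤ} (h : u ≤ v) : clp P u ≤ clp P v := by
  unfold clp
  omega

theorem clp_lip (u v : ℤ) : (clp P u - clp P v).natAbs ≤ (u - v).natAbs := by
  unfold clp
  omega

/-- clamping brings a diagonal nearer to every diagonal of the domain -/
theorem clp_lip' {u v : ℤ} (hv : v.natAbs ≤ P.Dm) : (clp P u - v).natAbs ≤ (u - v).natAbs := by
  unfold clp
  omega

theorem dvd_clp {g : ℤ} {u : ℤ} (hD : g ∣ (P.Dm : ℤ)) (hu : g ∣ u) : g ∣ clp P u := by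
  unfold clp
  rcases max_choice (-(P.Dm : ℤ)) (min (P.Dm : ℤ) u) with h | h
  · rw [h]; exact (dvd_neg).2 hD
  · rw [h]
    rcases min_choice (P.Dm : ℤ) u with h' | h'
    · rw [h']; exact hD
    · rw [h']; exact hu

/-- rounding stays in the domain -/
theorem natAbs_rd_le {κ : ℕ} {u : ℤ} (hD : (gst P κ : ℤ) ∣ (P.Dm : ℤ)) (hu : u.natAbs ≤ P.Dm) :
    (rd P κ u).natAbs ≤ P.Dm := by
  have h1 := rd_le P κ u
  have h2 := rd_mono P κ (show (-(P.Dm : ℤ)) ≤ u by omega)
  rw [rd_of_dvd P ((dvd_neg).2 hD)] at h2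
  omega

theorem inD_rdn {κ : ℕ} {y : St} (hD : (gst P κ : ℤ) ∣ (P.Dm : ℤ)) (hy : inD P y) :
    inD P (rdn P κ y) := ⟨natAbs_rd_le hD hy.1, natAbs_rd_le hD hy.2⟩

/-! ### letters -/

theorem wlo_le_rd {κ : ℕ} {x : St} (hD : (gst P κ : ℤ) ∣ (P.Dm : ℤ)) (hx : x.u.natAbs ≤ P.Dm) :
    wlo P κ x ≤ rd P κ x.u := by
  have h := natAbs_rd_le hD hx
  have h2 : (0 : ℤ) ≤ P.r * 2 ^ κ := by positivity
  unfold wlo
  refine max_le ?_ ?_ <;> omega

theorem rd_le_whi {κ : ℕ} {x : St} (hD : (gst P κ : ℤ) ∣ (P.Dm : ℤ)) (hx : x.u.natAbs ≤ P.Dm) :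
    rd P κ x.u ≤ whi P κ x := by
  have h := natAbs_rd_le hD hx
  have h2 : (0 : ℤ) ≤ P.r * 2 ^ κ := by positivity
  unfold whi
  refine le_min ?_ ?_ <;> omega

theorem dvd_wlo {κ : ℕ} (hD : (gst P κ : ℤ) ∣ (P.Dm : ℤ)) (x : St) :
    (gst P κ : ℤ) ∣ wlo P κ x := by
  unfold wlo
  have h : (gst P κ : ℤ) ∣ rd P κ x.u - P.r * 2 ^ κ := by
    refine dvd_sub (dvd_rd P κ _) (Dvd.dvd.mul_left ?_ _)
    exact_mod_cast gst_dvd P κ
  rcases max_choice (-(P.Dm : ℤ)) (rd P κ x.u - P.r * 2 ^ κ) with h' | h' <;> rw [h']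
  · exact (dvd_neg).2 hD
  · exact h

theorem dvd_whi {κ : ℕ} (hD : (gst P κ : ℤ) ∣ (P.Dm : ℤ)) (x : St) :
    (gst P κ : ℤ) ∣ whi P κ x := by
  unfold whi
  have h : (gst P κ : ℤ) ∣ rd P κ x.u + P.r * 2 ^ κ := by
    refine dvd_add (dvd_rd P κ _) (Dvd.dvd.mul_left ?_ _)
    exact_mod_cast gst_dvd P κ
  rcases min_choice (P.Dm : ℤ) (rd P κ x.u + P.r * 2 ^ κ) with h' | h' <;> rw [h']
  · exact hD
  · exact h

theorem pos_zero (κ : ℕ) (x : St) (h : wlo P κ x ≤ whi P κ x) : pos P κ x 0 = wlo P κ x := by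
  unfold pos
  simp [h]

theorem pos_le_whi (κ : ℕ) (x : St) (a : ℕ) : pos P κ x a ≤ whi P κ x := min_le_left _ _

theorem wlo_le_pos {κ : ℕ} {x : St} (hD : (gst P κ : ℤ) ∣ (P.Dm : ℤ)) (hx : x.u.natAbs ≤ P.Dm)
    (a : ℕ) : wlo P κ x ≤ pos P κ x a := by
  unfold pos
  refine le_min ((wlo_le_rd hD hx).trans (rd_le_whi hD hx)) ?_
  have : (0 : ℤ) ≤ a * (gst P κ : ℤ) := by positivity
  linarith

theorem pos_mono (κ : ℕ) (x : St) {a b : ℕ} (h : a ≤ b) : pos P κ x a ≤ pos P κ x b := by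
  unfold pos
  refine min_le_min le_rfl ?_
  have : (a : ℤ) * (gst P κ : ℤ) ≤ b * (gst P κ : ℤ) :=
    mul_le_mul_of_nonneg_right (by exact_mod_cast h) (by positivity)
  linarith

/-- two letters at index distance `≤ d` -/
theorem pos_sub_le (κ : ℕ) (x : St) {a b d : ℕ} (h1 : a ≤ b + d) (h2 : b ≤ a + d) :
    (pos P κ x a - pos P κ x b).natAbs ≤ d * gst P κ := by
  have h3 : ((a : ℤ) - b) * (gst P κ : ℤ) ≤ d * gst P κ :=
    mul_le_mul_of_nonneg_right (by omega) (by positivity)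
  have h4 : ((b : ℤ) - a) * (gst P κ : ℤ) ≤ d * gst P κ :=
    mul_le_mul_of_nonneg_right (by omega) (by positivity)
  have h5 : ((a : ℤ) - b) * (gst P κ : ℤ) = a * gst P κ - b * gst P κ := by ring
  have h6 : ((b : ℤ) - a) * (gst P κ : ℤ) = b * gst P κ - a * gst P κ := by ring
  rw [h5] at h3
  rw [h6] at h4
  unfold pos
  generalize (a : ℤ) * gst P κ = A at *
  generalize (b : ℤ) * gst P κ = B at *
  have h7 : ((d * gst P κ : ℕ) : ℤ) = d * gst P κ := by push_cast; ring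
  generalize (d : ℤ) * gst P κ = C at *
  omega

theorem natAbs_pos_le {κ : ℕ} {x : St} (hD : (gst P κ : ℤ) ∣ (P.Dm : ℤ)) (hx : x.u.natAbs ≤ P.Dm)
    (a : ℕ) : (pos P κ x a).natAbs ≤ P.Dm := by
  have h1 := pos_le_whi (P := P) κ x a
  have h2 := wlo_le_pos hD hx a
  have h3 : whi P κ x ≤ P.Dm := min_le_left _ _
  have h4 : -(P.Dm : ℤ) ≤ wlo P κ x := le_max_left _ _
  omega

theorem pos_near {κ : ℕ} {x : St} (hD : (gst P κ : ℤ) ∣ (P.Dm : ℤ)) (hx : x.u.natAbs ≤ P.Dm)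
    (a : ℕ) : (pos P κ x a - rd P κ x.u).natAbs ≤ P.r * 2 ^ κ := by
  have h1 := pos_le_whi (P := P) κ x a
  have h2 := wlo_le_pos hD hx a
  have h3 : whi P κ x ≤ rd P κ x.u + P.r * 2 ^ κ := min_le_right _ _
  have h4 : rd P κ x.u - P.r * 2 ^ κ ≤ wlo P κ x := le_max_right _ _
  rw [← Nat.cast_le (α := ℤ), Int.natCast_natAbs, abs_le]
  push_cast
  constructor <;> linarith

theorem dvd_pos {κ : ℕ} (hD : (gst P κ : ℤ) ∣ (P.Dm : ℤ)) (x : St) (a : ℕ) :
    (gst P κ : ℤ) ∣ pos P κ x a := by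
  unfold pos
  rcases min_choice (whi P κ x) (wlo P κ x + a * (gst P κ : ℤ)) with h' | h' <;> rw [h']
  · exact dvd_whi hD x
  · exact dvd_add (dvd_wlo hD x) (Dvd.intro_left _ rfl)

/-- the length of the window -/
theorem whi_sub_wlo (κ : ℕ) (x : St) : whi P κ x - wlo P κ x ≤ 2 * P.r * gpt P κ * gst P κ := by
  have h3 : ((gpt P κ : ℤ)) * gst P κ = 2 ^ κ := by exact_mod_cast gpt_mul_gst P κ
  have h4 : (2 * P.r * gpt P κ * gst P κ : ℤ) = 2 * (P.r * 2 ^ κ) := by rw [← h3]; ring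
  rw [h4]
  have h5 : whi P κ x ≤ rd P κ x.u + P.r * 2 ^ κ := min_le_right _ _
  have h6 : rd P κ x.u - P.r * 2 ^ κ ≤ wlo P κ x := le_max_right _ _
  linarith

/-- every grid point of the window is a letter -/
theorem exists_pos' {κ : ℕ} {x : St} {m : ℤ} (hD : (gst P κ : ℤ) ∣ (P.Dm : ℤ))
    (hm : (gst P κ : ℤ) ∣ m) (h1 : wlo P κ x ≤ m) (h2 : m ≤ whi P κ x) :
    ∃ a < WA P κ, pos P κ x a = m ∧ m = wlo P κ x + a * (gst P κ : ℤ) := by
  obtain ⟨t, ht⟩ := dvd_sub hm (dvd_wlo hD x)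
  have hg : (0 : ℤ) < gst P κ := by exact_mod_cast gst_pos P κ
  have ht0 : 0 ≤ t := by
    by_contra hneg
    have : (gst P κ : ℤ) * t < 0 := mul_neg_of_pos_of_neg hg (not_le.1 hneg)
    linarith
  have ht1 : t ≤ 2 * P.r * gpt P κ := by
    have h3 := whi_sub_wlo (P := P) κ x
    have : (gst P κ : ℤ) * t ≤ gst P κ * (2 * P.r * gpt P κ) := by
      rw [← ht]
      linarith [mul_comm (gst P κ : ℤ) (2 * P.r * gpt P κ)]
    exact le_of_mul_le_mul_left this hg
  have h4 : m = wlo P κ x + (t.toNat : ℕ) * (gst P κ : ℤ) := by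
    rw [Int.toNat_of_nonneg ht0]
    linarith [mul_comm (gst P κ : ℤ) t]
  refine ⟨t.toNat, ?_, ?_, h4⟩
  · unfold WA
    have : (t.toNat : ℤ) ≤ 2 * P.r * gpt P κ := by rw [Int.toNat_of_nonneg ht0]; exact ht1
    have h5 : t.toNat ≤ 2 * P.r * gpt P κ := by exact_mod_cast this
    omega
  · unfold pos
    rw [← h4]
    exact min_eq_right h2

theorem exists_pos {κ : ℕ} {x : St} {m : ℤ} (hD : (gst P κ : ℤ) ∣ (P.Dm : ℤ))
    (hm : (gst P κ : ℤ) ∣ m) (hmD : m.natAbs ≤ P.Dm)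
    (h : (m - rd P κ x.u).natAbs ≤ P.r * 2 ^ κ) : ∃ a < WA P κ, pos P κ x a = m := by
  have habs : |m - rd P κ x.u| ≤ P.r * 2 ^ κ := by
    rw [← Int.natCast_natAbs]
    exact_mod_cast h
  obtain ⟨h1, h2⟩ := abs_le.1 habs
  obtain ⟨a, ha, h3, -⟩ := exists_pos' (x := x) hD hm (max_le (by omega) (by linarith))
    (le_min (by omega) (by linarith))
  exact ⟨a, ha, h3⟩

/-- the pieces stay in the domain -/
theorem inD_piece {κ : ℕ} {x : St} (hD : (gst P κ : ℤ) ∣ (P.Dm : ℤ)) (hx : inD P x) (q a b : ℕ) :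
    inD P (piece P κ x q a b) := by
  have h : ∀ q a, (cut P κ x q a).natAbs ≤ P.Dm := by
    intro q a
    unfold cut
    split_ifs
    · exact hx.1
    · exact hx.2
    · exact natAbs_pos_le hD hx.1 _
  exact ⟨h q a, h (q + 1) b⟩

end grid

end Crest.Agent.R288.AlgApi299
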