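import Crest.Agent.R288.AlgA_45

/-! VOID (helper97): the elementary facts of Alg45 are in `ElA_260` (owner of the leaf ALG.ELEM).
This file is kept empty on purpose; do not import it. -/

namespace Crest.Agent.R288.AlgF97

end Crest.Agent.R288.AlgF97
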