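import Crest.Agent.R288.AlgA_45

/-!
# R288: basic lemmas of `AlgA_45` (helper615)

* `minR`, `argR`, `sumR`, `lmin`: bounds, attained, `sumR` as a `Finset` sum.
* `D`, `minSt`, `Vst`: at most the value of every grid staircase, attained; prefix/suffix.
* `gst`, `rd`, `rdn`: nested grids, rounding error.
-/

set_option autoImplicit false

namespace Crest.Agent.R288.AlgL615

open Crest.Agent.R288.Alg45 Finset

/-! ### `minR` -/

theorem foldl_min_le_init (f : ℕ → ℕ) (l : List ℕ) (m : ℕ) :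
    l.foldl (fun m a => min m (f a)) m ≤ m := by
  induction l generalizing m with
  | nil => exact le_rfl
  | cons a l ih => exact (ih _).trans (min_le_left _ _)

theorem foldl_min_le_mem (f : ℕ → ℕ) (l : List ℕ) (m : ℕ) {a : ℕ} (h : a ∈ l) :
    l.foldl (fun m a => min m (f a)) m ≤ f a := by
  induction l generalizing m with
  | nil => simp at h
  | cons b l ih =>
    rcases List.mem_cons.1 h with rfl | h
    · exact (foldl_min_le_init f l _).trans (min_le_right _ _)
    · exact ih _ h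

theorem foldl_min_mem (f : ℕ → ℕ) (l : List ℕ) (m : ℕ) :
    l.foldl (fun m a => min m (f a)) m = m ∨
      ∃ a ∈ l, l.foldl (fun m a => min m (f a)) m = f a := by
  induction l generalizing m with
  | nil => exact Or.inl rfl
  | cons b l ih =>
    rcases ih (min m (f b)) with h | ⟨a, ha, h⟩
    · rcases le_total m (f b) with h1 | h1
      · left
        rw [List.foldl_cons, h, min_eq_left h1]
      · right
        exact ⟨b, List.mem_cons_self, by rw [List.foldl_cons, h, min_eq_right h1]⟩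
    · exact Or.inr ⟨a, List.mem_cons_of_mem _ ha, h⟩

theorem minR_le {n : ℕ} {f : ℕ → ℕ} {a : ℕ} (h : a < n) : minR n f ≤ f a :=
  foldl_min_le_mem f _ _ (List.mem_range.2 h)

theorem minR_zero (f : ℕ → ℕ) : minR 0 f = f 0 := rfl

/-- attained -/
theorem minR_mem {n : ℕ} (f : ℕ → ℕ) (h : 0 < n) : ∃ a < n, minR n f = f a := by
  rcases foldl_min_mem f (List.range n) (f 0) with h1 | ⟨a, ha, h1⟩
  · exact ⟨0, h, h1⟩
  · exact ⟨a, List.mem_range.1 ha, h1⟩

theorem le_minR {n : ℕ} {f : ℕ → ℕ} {c : ℕ} (h : 0 < n) (hc : ∀ a < n, c ≤ f a) :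
    c ≤ minR n f := by
  obtain ⟨a, ha, h1⟩ := minR_mem f h
  rw [h1]
  exact hc a ha

theorem minR_congr {n : ℕ} {f g : ℕ → ℕ} (h : 0 < n) (hfg : ∀ a < n, f a = g a) :
    minR n f = minR n g :=
  le_antisymm (le_minR h fun a ha => (minR_le ha).trans (hfg a ha).le)
    (le_minR h fun a ha => (minR_le ha).trans (hfg a ha).symm.le)

theorem minR_mono {n : ℕ} {f g : ℕ → ℕ} (h : 0 < n) (hfg : ∀ a < n, f a ≤ g a) :
    minR n f ≤ minR n g :=
  le_minR h fun a ha => (minR_le ha).trans (hfg a ha)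

theorem minR_add_const {n : ℕ} {f g : ℕ → ℕ} {c : ℕ} (h : 0 < n) (hfg : ∀ a < n, f a ≤ g a + c) :
    minR n f ≤ minR n g + c := by
  obtain ⟨a, ha, h1⟩ := minR_mem g h
  rw [h1]
  exact (minR_le ha).trans (hfg a ha)

/-! ### `argR` -/

theorem foldl_arg (f : ℕ → ℕ) (l : List ℕ) (m : ℕ) :
    (l.foldl (fun m a => if f a < f m then a else m) m = m ∨
      l.foldl (fun m a => if f a < f m then a else m) m ∈ l) ∧
    f (l.foldl (fun m a => if f a < f m then a else m) m) ≤ f m ∧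
    ∀ a ∈ l, f (l.foldl (fun m a => if f a < f m then a else m) m) ≤ f a := by
  induction l generalizing m with
  | nil => exact ⟨Or.inl rfl, le_rfl, by simp⟩
  | cons b l ih =>
    rw [List.foldl_cons]
    by_cases hb : f b < f m
    · rw [if_pos hb]
      obtain ⟨h1, h2, h3⟩ := ih b
      refine ⟨Or.inr ?_, h2.trans hb.le, ?_⟩
      · rcases h1 with h1 | h1
        · rw [h1]; exact List.mem_cons_self
        · exact List.mem_cons_of_mem _ h1
      · intro a ha
        rcases List.mem_cons.1 ha with rfl | ha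
        · exact h2
        · exact h3 a ha
    · rw [if_neg hb]
      obtain ⟨h1, h2, h3⟩ := ih m
      refine ⟨?_, h2, ?_⟩
      · rcases h1 with h1 | h1
        · exact Or.inl h1
        · exact Or.inr (List.mem_cons_of_mem _ h1)
      · intro a ha
        rcases List.mem_cons.1 ha with rfl | ha
        · exact h2.trans (not_lt.1 hb)
        · exact h3 a ha

theorem argR_lt {n : ℕ} (f : ℕ → ℕ) (h : 0 < n) : argR n f < n := by
  rcases (foldl_arg f (List.range n) 0).1 with h1 | h1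
  · unfold argR; rw [h1]; exact h
  · exact List.mem_range.1 h1

theorem argR_le {n : ℕ} (f : ℕ → ℕ) {a : ℕ} (h : a < n) : f (argR n f) ≤ f a :=
  (foldl_arg f (List.range n) 0).2.2 a (List.mem_range.2 h)

theorem argR_le_zero {n : ℕ} (f : ℕ → ℕ) : f (argR n f) ≤ f 0 :=
  (foldl_arg f (List.range n) 0).2.1

theorem f_argR {n : ℕ} (f : ℕ → ℕ) (h : 0 < n) : f (argR n f) = minR n f := by
  refine le_antisymm ?_ (minR_le (argR_lt f h))
  obtain ⟨a, ha, h1⟩ := minR_mem f h
  rw [h1]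
  exact argR_le f ha

/-! ### `sumR` -/

theorem sumR_eq (n : ℕ) (f : ℕ → ℕ) : sumR n f = ∑ i ∈ range n, f i := by
  unfold sumR
  induction n with
  | zero => simp
  | succ n ih => rw [List.range_succ, List.map_append, List.sum_append, ih, sum_range_succ]; simp

theorem sumR_succ (n : ℕ) (f : ℕ → ℕ) : sumR (n + 1) f = sumR n f + f n := by
  rw [sumR_eq, sumR_eq, sum_range_succ]

theorem sumR_mono {n : ℕ} {f g : ℕ → ℕ} (h : ∀ i < n, f i ≤ g i) : sumR n f ≤ sumR n g := by
  rw [sumR_eq, sumR_eq]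
  exact sum_le_sum fun i hi => h i (mem_range.1 hi)

theorem sumR_congr {n : ℕ} {f g : ℕ → ℕ} (h : ∀ i < n, f i = g i) : sumR n f = sumR n g := by
  rw [sumR_eq, sumR_eq]
  exact sum_congr rfl fun i hi => h i (mem_range.1 hi)

theorem le_sumR {n : ℕ} {f : ℕ → ℕ} {i : ℕ} (h : i < n) : f i ≤ sumR n f := by
  rw [sumR_eq]
  exact single_le_sum (f := f) (fun _ _ => Nat.zero_le _) (mem_range.2 h)

theorem sumR_const (n c : ℕ) : sumR n (fun _ => c) = n * c := by
  rw [sumR_eq]; simp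

theorem sumR_le_const {n c : ℕ} {f : ℕ → ℕ} (h : ∀ i < n, f i ≤ c) : sumR n f ≤ n * c :=
  (sumR_mono h).trans (sumR_const n c).le

theorem sumR_add (n : ℕ) (f g : ℕ → ℕ) : sumR n (fun i => f i + g i) = sumR n f + sumR n g := by
  simp only [sumR_eq, sum_add_distrib]

theorem sumR_pos {n : ℕ} {f : ℕ → ℕ} {i : ℕ} (h : i < n) (hf : 0 < f i) : 0 < sumR n f :=
  lt_of_lt_of_le hf (le_sumR h)

/-! ### `lmin` -/

theorem lmin_le_left (a : ℕ) (l : List ℕ) : lmin a l ≤ a := by
  unfold lmin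
  induction l generalizing a with
  | nil => exact le_rfl
  | cons b l ih => exact (ih _).trans (min_le_left _ _)

theorem lmin_le_mem (a : ℕ) {l : List ℕ} {b : ℕ} (h : b ∈ l) : lmin a l ≤ b := by
  unfold lmin
  induction l generalizing a with
  | nil => simp at h
  | cons c l ih =>
    rcases List.mem_cons.1 h with rfl | h
    · rw [List.foldl_cons]
      exact (lmin_le_left (min a b) l).trans (min_le_right _ _)
    · exact ih _ h

theorem lmin_mem (a : ℕ) (l : List ℕ) : lmin a l = a ∨ lmin a l ∈ l := by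
  unfold lmin
  induction l generalizing a with
  | nil => exact Or.inl rfl
  | cons b l ih =>
    rw [List.foldl_cons]
    rcases ih (min a b) with h | h
    · rcases le_total a b with h1 | h1
      · left; rw [h, min_eq_left h1]
      · right; rw [h, min_eq_right h1]; exact List.mem_cons_self
    · exact Or.inr (List.mem_cons_of_mem _ h)

theorem le_lmin {a c : ℕ} {l : List ℕ} (h : c ≤ a) (hl : ∀ b ∈ l, c ≤ b) : c ≤ lmin a l := by
  rcases lmin_mem a l with h1 | h1
  · rw [h1]; exact h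
  · exact hl _ h1

/-! ### the staircase DP -/

theorem D_zero (A : ℕ) (T : ℕ → ℕ → ℕ → ℕ) (b : ℕ) : D A T 0 b = 0 := rfl

theorem D_succ (A : ℕ) (T : ℕ → ℕ → ℕ → ℕ) (j b : ℕ) :
    D A T (j + 1) b = minR A fun a => D A T j a + T j a b := rfl

/-- the DP is at most the value of every staircase -/
theorem D_le (A : ℕ) (T : ℕ → ℕ → ℕ → ℕ) (cs : ℕ → ℕ) (j : ℕ) (h : ∀ i < j, cs i < A) :
    D A T j (cs j) ≤ ∑ q ∈ range j, T q (cs q) (cs (q + 1)) := by
  induction j with
  | zero => simp [D]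
  | succ j ih =>
    rw [D_succ, sum_range_succ]
    refine (minR_le (h j (Nat.lt_succ_self j))).trans ?_
    exact Nat.add_le_add_right (ih fun i hi => h i (by omega)) _

/-- attained -/
theorem exists_D {A : ℕ} (hA : 0 < A) (T : ℕ → ℕ → ℕ → ℕ) (j b : ℕ) :
    ∃ cs : ℕ → ℕ, (∀ i < j, cs i < A) ∧ cs j = b ∧
      D A T j b = ∑ q ∈ range j, T q (cs q) (cs (q + 1)) := by
  induction j generalizing b with
  | zero => exact ⟨fun _ => b, by simp, rfl, by simp [D]⟩
  | succ j ih =>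
    obtain ⟨a, ha, h1⟩ := minR_mem (fun a => D A T j a + T j a b) hA
    obtain ⟨cs, h2, h3, h4⟩ := ih a
    refine ⟨fun i => if i ≤ j then cs i else b, ?_, ?_, ?_⟩
    · intro i hi
      rcases Nat.lt_or_ge i j with h | h
      · simp only [if_pos h.le]; exact h2 i h
      · have : i = j := by omega
        subst this
        simp only [if_pos le_rfl, h3]; exact ha
    · simp
    · rw [D_succ, h1, h4, sum_range_succ]
      congr 1
      · refine sum_congr rfl fun q hq => ?_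
        have hq' := mem_range.1 hq
        simp only [if_pos hq'.le, if_pos (show q + 1 ≤ j by omega)]
      · simp only [if_pos le_rfl, h3, if_neg (show ¬ j + 1 ≤ j by omega)]

/-- prefix DP plus the rest of a staircase is at least the DP of the end -/
theorem D_le_split (A : ℕ) (T : ℕ → ℕ → ℕ → ℕ) (cs : ℕ → ℕ) (j k : ℕ)
    (h : ∀ i < j + k, cs i < A) :
    D A T (j + k) (cs (j + k)) ≤
      D A T j (cs j) + ∑ q ∈ range k, T (j + q) (cs (j + q)) (cs (j + q + 1)) := by
  induction k with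
  | zero => simp
  | succ k ih =>
    have h1 := ih fun i hi => h i (by omega)
    have h2 : D A T (j + (k + 1)) (cs (j + (k + 1))) ≤
        D A T (j + k) (cs (j + k)) + T (j + k) (cs (j + k)) (cs (j + k + 1)) := by
      have e : j + (k + 1) = (j + k) + 1 := by ring
      rw [e, D_succ]
      exact minR_le (h (j + k) (by omega))
    rw [sum_range_succ]
    omega

/-- only the last piece depends on the last letter -/
theorem D_lip {A : ℕ} (hA : 0 < A) {T : ℕ → ℕ → ℕ → ℕ} {j b b' c : ℕ}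
    (h : ∀ a < A, T j a b ≤ T j a b' + c) : D A T (j + 1) b ≤ D A T (j + 1) b' + c := by
  rw [D_succ, D_succ]
  refine minR_add_const hA fun a ha => ?_
  have := h a ha
  omega

theorem D_mono {A : ℕ} (hA : 0 < A) {T T' : ℕ → ℕ → ℕ → ℕ} {j : ℕ}
    (h : ∀ q < j, ∀ a < A, ∀ b, T q a b ≤ T' q a b) (b : ℕ) : D A T j b ≤ D A T' j b := by
  induction j generalizing b with
  | zero => simp [D]
  | succ j ih =>
    rw [D_succ, D_succ]
    exact minR_mono hA fun a ha => Nat.add_le_add (ih (fun q hq => h q (by omega)) a)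
      (h j (Nat.lt_succ_self j) a ha b)

theorem minSt_le (N A : ℕ) (T : ℕ → ℕ → ℕ → ℕ) (cs : ℕ → ℕ) (h : ∀ i < N, cs i < A)
    (h0 : cs N = 0) : minSt N A T ≤ ∑ q ∈ range N, T q (cs q) (cs (q + 1)) := by
  have := D_le A T cs N h
  rwa [h0] at this

theorem exists_minSt {A : ℕ} (hA : 0 < A) (N : ℕ) (T : ℕ → ℕ → ℕ → ℕ) :
    ∃ cs : ℕ → ℕ, (∀ i < N, cs i < A) ∧ cs N = 0 ∧
      minSt N A T = ∑ q ∈ range N, T q (cs q) (cs (q + 1)) := exists_D hA T N 0

/-! ### the window grid -/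

section win

variable (P : Par)

theorem WA_pos (κ : ℕ) : 0 < WA P κ := Nat.succ_pos _

theorem N_pos : 0 < P.N := by unfold Par.N; positivity

@[simp] theorem cut_zero (κ : ℕ) (x : St) (a : ℕ) : cut P κ x 0 a = x.u := by simp [cut]

@[simp] theorem cut_N (κ : ℕ) (x : St) (a : ℕ) : cut P κ x P.N a = x.v := by
  simp [cut, (N_pos P).ne']

theorem cut_mid {κ : ℕ} {x : St} {q : ℕ} (h0 : q ≠ 0) (hN : q ≠ P.N) (a : ℕ) :
    cut P κ x q a = pos P κ x a := by simp [cut, h0, hN]

/-- the letter at cut `0` is irrelevant -/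
theorem piece_zero (κ : ℕ) (x : St) (a a' b : ℕ) : piece P κ x 0 a b = piece P κ x 0 a' b := by
  simp [piece]

/-- the letter at cut `N` is irrelevant -/
theorem piece_last (κ : ℕ) (x : St) {q : ℕ} (hq : q + 1 = P.N) (a b b' : ℕ) :
    piece P κ x q a b = piece P κ x q a b' := by
  unfold piece
  rw [hq, cut_N, cut_N]

/-- the value of a grid staircase, `cs` = letters of the cuts -/
def stV (κ : ℕ) (x : St) (f : St → ℕ) (cs : ℕ → ℕ) : ℕ :=
  ∑ q ∈ range P.N, f (piece P κ x q (cs q) (cs (q + 1)))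

/-- the outer letters are irrelevant -/
theorem stV_congr {κ : ℕ} {x : St} {f : St → ℕ} {cs cs' : ℕ → ℕ}
    (h : ∀ q, 0 < q → q < P.N → cs q = cs' q) : stV P κ x f cs = stV P κ x f cs' := by
  refine sum_congr rfl fun q hq => ?_
  have hq' := mem_range.1 hq
  congr 1
  unfold piece
  congr 1
  · rcases Nat.eq_zero_or_pos q with rfl | h0
    · simp
    · rw [h q h0 hq']
  · rcases Nat.lt_or_ge (q + 1) P.N with h1 | h1
    · rw [h (q + 1) (Nat.succ_pos q) h1]
    · have : q + 1 = P.N := by omega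
      rw [this, cut_N, cut_N]

theorem Vst_le {κ : ℕ} {x : St} {f : St → ℕ} {cs : ℕ → ℕ}
    (h : ∀ q, 0 < q → q < P.N → cs q < WA P κ) : Vst P κ x f ≤ stV P κ x f cs := by
  have hN := N_pos P
  have e : stV P κ x f cs = stV P κ x f (fun q => if 0 < q ∧ q < P.N then cs q else 0) :=
    stV_congr P fun q h0 h1 => by simp [h0, h1]
  rw [e]
  refine minSt_le P.N (WA P κ) _ (fun q => if 0 < q ∧ q < P.N then cs q else 0) ?_ ?_
  · intro i hi
    split
    · rename_i h1; exact h i h1.1 h1.2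
    · exact WA_pos P κ
  · simp

theorem exists_Vst (κ : ℕ) (x : St) (f : St → ℕ) :
    ∃ cs : ℕ → ℕ, (∀ q, cs q < WA P κ) ∧ Vst P κ x f = stV P κ x f cs := by
  obtain ⟨cs, h1, h2, h3⟩ := exists_minSt (WA_pos P κ) P.N
    (fun q a b => f (piece P κ x q a b))
  refine ⟨fun q => if q ≤ P.N then cs q else 0, fun q => ?_, ?_⟩
  · show (if q ≤ P.N then cs q else 0) < WA P κ
    split
    · rename_i h
      rcases Nat.lt_or_ge q P.N with h4 | h4
      · exact h1 q h4
      · have : q = P.N := by omega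
        rw [this, h2]; exact WA_pos P κ
    · exact WA_pos P κ
  · unfold Vst
    rw [h3]
    refine sum_congr rfl fun q hq => ?_
    have hq' := mem_range.1 hq
    simp only [if_pos hq'.le, if_pos (show q + 1 ≤ P.N by omega)]

theorem Vst_mono {κ : ℕ} {x : St} {f g : St → ℕ} (h : ∀ y, f y ≤ g y) :
    Vst P κ x f ≤ Vst P κ x g :=
  D_mono (WA_pos P κ) (fun _ _ _ _ _ => h _) 0

/-! ### grids -/

theorem gst_pos (κ : ℕ) : 0 < gst P κ := by unfold gst; positivity

theorem gst_dvd {κ κ' : ℕ} (h : κ ≤ κ') : gst P κ ∣ gst P κ' :=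
  Nat.pow_dvd_pow 2 (Nat.sub_le_sub_right h _)

theorem gst_le_pow (κ : ℕ) : gst P κ ≤ 2 ^ κ := Nat.pow_le_pow_right (by norm_num) (Nat.sub_le _ _)

/-- `gpt κ` grid steps make `2^κ` -/
theorem gpt_mul_gst (κ : ℕ) : gpt P κ * gst P κ = 2 ^ κ := by
  unfold gpt gst
  rw [← pow_add]
  congr 1
  omega

theorem gst_dvd_pow (κ : ℕ) : gst P κ ∣ 2 ^ κ := ⟨gpt P κ, by rw [mul_comm, gpt_mul_gst]⟩

theorem rd_le (κ : ℕ) (u : ℤ) : rd P κ u ≤ u :=
  Int.ediv_mul_le u (by have := gst_pos P κ; omega)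

theorem lt_rd_add (κ : ℕ) (u : ℤ) : u < rd P κ u + gst P κ := by
  have h : (0 : ℤ) < gst P κ := by have := gst_pos P κ; omega
  unfold rd
  have h1 := Int.emod_add_mul_ediv u (gst P κ : ℤ)
  have h2 := Int.emod_lt_of_pos u h
  nlinarith

theorem dvd_rd (κ : ℕ) (u : ℤ) : (gst P κ : ℤ) ∣ rd P κ u := Dvd.intro_left _ rfl

theorem rd_of_dvd {κ : ℕ} {u : ℤ} (h : (gst P κ : ℤ) ∣ u) : rd P κ u = u :=
  Int.ediv_mul_cancel h

theorem rd_rd {κ κ' : ℕ} (h : κ ≤ κ') (u : ℤ) : rd P κ (rd P κ' u) = rd P κ' u :=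
  rd_of_dvd P ((Int.natCast_dvd_natCast.2 (gst_dvd P h)).trans (dvd_rd P κ' u))

theorem natAbs_sub_rd (κ : ℕ) (u : ℤ) : (u - rd P κ u).natAbs < gst P κ := by
  have := rd_le P κ u
  have := lt_rd_add P κ u
  omega

/-- on the grid of class `κ` -/
def OnG (κ : ℕ) (y : St) : Prop := (gst P κ : ℤ) ∣ y.u ∧ (gst P κ : ℤ) ∣ y.v

theorem OnG.mono {κ κ' : ℕ} {y : St} (h : κ ≤ κ') (hy : OnG P κ' y) : OnG P κ y :=
  ⟨(Int.natCast_dvd_natCast.2 (gst_dvd P h)).trans hy.1,
    (Int.natCast_dvd_natCast.2 (gst_dvd P h)).trans hy.2⟩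

theorem onG_rdn (κ : ℕ) (y : St) : OnG P κ (rdn P κ y) := ⟨dvd_rd P κ _, dvd_rd P κ _⟩

theorem rdn_of_onG {κ : ℕ} {y : St} (h : OnG P κ y) : rdn P κ y = y := by
  unfold rdn
  rw [rd_of_dvd P h.1, rd_of_dvd P h.2]

theorem rdn_rdn {κ κ' : ℕ} (h : κ ≤ κ') (y : St) : rdn P κ (rdn P κ' y) = rdn P κ' y :=
  rdn_of_onG P (OnG.mono P h (onG_rdn P κ' y))

@[simp] theorem rdn_i (κ : ℕ) (y : St) : (rdn P κ y).i = y.i := rfl
@[simp] theorem rdn_j (κ : ℕ) (y : St) : (rdn P κ y).j = y.j := rfl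

theorem dist_rdn_lt (κ : ℕ) (y : St) : Alg45.dist y (rdn P κ y) < 2 * gst P κ := by
  have h1 := natAbs_sub_rd P κ y.u
  have h2 := natAbs_sub_rd P κ y.v
  show (y.u - rd P κ y.u).natAbs + (y.v - rd P κ y.v).natAbs < 2 * gst P κ
  omega

end win

/-! ### distance -/

theorem dist_comm (y z : St) : Alg45.dist y z = Alg45.dist z y := by
  unfold Alg45.dist
  omega

@[simp] theorem dist_self (y : St) : Alg45.dist y y = 0 := by simp [Alg45.dist]

theorem dist_triangle (x y z : St) : Alg45.dist x z ≤ Alg45.dist x y + Alg45.dist y z := by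
  unfold Alg45.dist
  omega

end Crest.Agent.R288.AlgL615
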