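/-
# Row 288 (helper125): specification lemmas of the deterministic definitions of `Alg45`

* `minR`, `argR`, `sumR`, `lmin`       : minimum, first argmin, sum
* `D`, `minSt`                         : `le` for every letter sequence, attained
* `maxR`, `cdiv`, `rngC`               : maximum, ceiling division, intervals
* `gst`, `rd`, `rdn`, `clp`            : grids, rounding, nestedness, clamping
* `pos`, `cut`, `piece`, `Vst`         : every grid staircase is hit, `Vst` = minimum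
* `Wm`                                 : running minimum
-/
import Mathlib
import Crest.Agent.R288.AlgA_45

set_option autoImplicit false

namespace Crest.Agent.R288.AlgS125

open Finset Crest.Agent.R288.Alg45

/-! ## minR, argR, sumR, lmin -/

theorem foldl_min_le_init (l : List ℕ) (f : ℕ → ℕ) (c : ℕ) :
    l.foldl (fun m a => min m (f a)) c ≤ c := by
  induction l generalizing c with
  | nil => exact le_rfl
  | cons a l ih => exact (ih _).trans (min_le_left _ _)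

theorem foldl_min_le (l : List ℕ) (f : ℕ → ℕ) (c a : ℕ) (h : a ∈ l) :
    l.foldl (fun m a => min m (f a)) c ≤ f a := by
  induction l generalizing c with
  | nil => simp at h
  | cons b l ih =>
    rcases List.mem_cons.1 h with rfl | h
    · exact (foldl_min_le_init l f _).trans (min_le_right _ _)
    · exact ih _ h

theorem foldl_min_mem (l : List ℕ) (f : ℕ → ℕ) (c : ℕ) :
    l.foldl (fun m a => min m (f a)) c = c ∨ ∃ a ∈ l, l.foldl (fun m a => min m (f a)) c = f a := by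
  induction l generalizing c with
  | nil => exact Or.inl rfl
  | cons b l ih =>
    simp only [List.foldl_cons]
    rcases ih (min c (f b)) with h | ⟨a, ha, h⟩
    · rcases min_choice c (f b) with h' | h'
      · exact Or.inl (h.trans h')
      · exact Or.inr ⟨b, by simp, h.trans h'⟩
    · exact Or.inr ⟨a, by simp [ha], h⟩

theorem minR_le {n a : ℕ} (f : ℕ → ℕ) (h : a < n) : minR n f ≤ f a :=
  foldl_min_le _ f _ a (List.mem_range.2 h)

theorem minR_le_zero (n : ℕ) (f : ℕ → ℕ) : minR n f ≤ f 0 := foldl_min_le_init _ _ _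

theorem exists_minR {n : ℕ} (f : ℕ → ℕ) (h : 0 < n) : ∃ a < n, minR n f = f a := by
  rcases foldl_min_mem (List.range n) f (f 0) with h' | ⟨a, ha, h'⟩
  · exact ⟨0, h, h'⟩
  · exact ⟨a, List.mem_range.1 ha, h'⟩

theorem le_minR {n c : ℕ} {f : ℕ → ℕ} (h : 0 < n) (hc : ∀ a < n, c ≤ f a) : c ≤ minR n f := by
  obtain ⟨a, ha, h'⟩ := exists_minR f h
  rw [h']; exact hc a ha

theorem minR_mono {n : ℕ} {f g : ℕ → ℕ} (h : 0 < n) (hfg : ∀ a < n, f a ≤ g a) :
    minR n f ≤ minR n g :=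
  le_minR h fun a ha => (minR_le f ha).trans (hfg a ha)

theorem foldl_min_congr (l : List ℕ) (f g : ℕ → ℕ) (c : ℕ) (h : ∀ a ∈ l, f a = g a) :
    l.foldl (fun m a => min m (f a)) c = l.foldl (fun m a => min m (g a)) c := by
  induction l generalizing c with
  | nil => rfl
  | cons b l ih =>
    simp only [List.foldl_cons]
    rw [h b (by simp)]
    exact ih _ fun a ha => h a (by simp [ha])

theorem minR_congr {n : ℕ} {f g : ℕ → ℕ} (h : 0 < n) (hfg : ∀ a < n, f a = g a) :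
    minR n f = minR n g := by
  unfold minR
  rw [hfg 0 h]
  exact foldl_min_congr _ _ _ _ fun a ha => hfg a (List.mem_range.1 ha)

theorem foldl_arg_spec (l : List ℕ) (f : ℕ → ℕ) (c : ℕ) :
    (l.foldl (fun m a => if f a < f m then a else m) c = c ∨
      l.foldl (fun m a => if f a < f m then a else m) c ∈ l) ∧
    f (l.foldl (fun m a => if f a < f m then a else m) c) ≤ f c ∧
    ∀ a ∈ l, f (l.foldl (fun m a => if f a < f m then a else m) c) ≤ f a := by
  induction l generalizing c with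
  | nil => simp
  | cons b l ih =>
    simp only [List.foldl_cons]
    obtain ⟨h1, h2, h3⟩ := ih (if f b < f c then b else c)
    refine ⟨?_, ?_, ?_⟩
    · rcases h1 with h1 | h1
      · rw [h1]
        split_ifs
        · exact Or.inr (by simp)
        · exact Or.inl rfl
      · exact Or.inr (by simp [h1])
    · refine h2.trans ?_
      split_ifs with h
      · exact h.le
      · exact le_rfl
    · intro a ha
      rcases List.mem_cons.1 ha with rfl | ha
      · refine h2.trans ?_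
        split_ifs with h
        · exact le_rfl
        · exact not_lt.1 h
      · exact h3 a ha

theorem argR_lt {n : ℕ} (f : ℕ → ℕ) (h : 0 < n) : argR n f < n := by
  rcases (foldl_arg_spec (List.range n) f 0).1 with h' | h'
  · show (List.range n).foldl _ 0 < n
    rw [h']; exact h
  · exact List.mem_range.1 h'

theorem argR_le {n a : ℕ} (f : ℕ → ℕ) (h : a < n) : f (argR n f) ≤ f a :=
  (foldl_arg_spec (List.range n) f 0).2.2 a (List.mem_range.2 h)

theorem argR_le_zero (n : ℕ) (f : ℕ → ℕ) : f (argR n f) ≤ f 0 :=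
  (foldl_arg_spec (List.range n) f 0).2.1

theorem f_argR {n : ℕ} (f : ℕ → ℕ) (h : 0 < n) : f (argR n f) = minR n f := by
  apply le_antisymm
  · obtain ⟨a, ha, h'⟩ := exists_minR f h
    rw [h']; exact argR_le f ha
  · exact minR_le f (argR_lt f h)

theorem argR_zero (f : ℕ → ℕ) : argR 0 f = 0 := rfl

theorem sumR_eq (n : ℕ) (f : ℕ → ℕ) : sumR n f = ∑ a ∈ range n, f a := by
  unfold sumR
  rw [Finset.sum_range, ← List.sum_ofFn]
  congr 1
  rw [List.ofFn_eq_map, ← List.map_coe_finRange_eq_range, List.map_map]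
  rfl

theorem sumR_succ (n : ℕ) (f : ℕ → ℕ) : sumR (n + 1) f = sumR n f + f n := by
  rw [sumR_eq, sumR_eq, Finset.sum_range_succ]

theorem sumR_congr {n : ℕ} {f g : ℕ → ℕ} (h : ∀ a < n, f a = g a) : sumR n f = sumR n g := by
  rw [sumR_eq, sumR_eq]
  exact Finset.sum_congr rfl fun a ha => h a (Finset.mem_range.1 ha)

theorem sumR_mono {n : ℕ} {f g : ℕ → ℕ} (h : ∀ a < n, f a ≤ g a) : sumR n f ≤ sumR n g := by
  rw [sumR_eq, sumR_eq]
  exact Finset.sum_le_sum fun a ha => h a (Finset.mem_range.1 ha)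

theorem le_sumR {n a : ℕ} (f : ℕ → ℕ) (h : a < n) : f a ≤ sumR n f := by
  rw [sumR_eq]
  exact Finset.single_le_sum (f := f) (fun _ _ => Nat.zero_le _) (Finset.mem_range.2 h)

theorem lmin_le_init (a : ℕ) (l : List ℕ) : lmin a l ≤ a := by
  unfold lmin
  induction l generalizing a with
  | nil => exact le_rfl
  | cons b l ih => exact (ih _).trans (min_le_left _ _)

theorem lmin_le (a : ℕ) {l : List ℕ} {b : ℕ} (h : b ∈ l) : lmin a l ≤ b := by
  unfold lmin
  induction l generalizing a with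
  | nil => simp at h
  | cons c l ih =>
    rcases List.mem_cons.1 h with rfl | h
    · exact (lmin_le_init _ l).trans (min_le_right _ _)
    · exact ih _ h

theorem lmin_mem (a : ℕ) (l : List ℕ) : lmin a l = a ∨ lmin a l ∈ l := by
  unfold lmin
  induction l generalizing a with
  | nil => exact Or.inl rfl
  | cons c l ih =>
    simp only [List.foldl_cons]
    rcases ih (min a c) with h | h
    · rcases min_choice a c with h' | h'
      · exact Or.inl (h.trans h')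
      · exact Or.inr (by rw [h, h']; simp)
    · exact Or.inr (by simp [h])

theorem le_lmin {a c : ℕ} {l : List ℕ} (h : c ≤ a) (hl : ∀ b ∈ l, c ≤ b) : c ≤ lmin a l := by
  rcases lmin_mem a l with h' | h'
  · rw [h']; exact h
  · exact hl _ h'

theorem foldl_max_ge_init (l : List ℕ) (f : ℕ → ℕ) (c : ℕ) :
    c ≤ l.foldl (fun m a => max m (f a)) c := by
  induction l generalizing c with
  | nil => exact le_rfl
  | cons a l ih => exact (le_max_left _ _).trans (ih _)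

theorem foldl_max_ge (l : List ℕ) (f : ℕ → ℕ) (c a : ℕ) (h : a ∈ l) :
    f a ≤ l.foldl (fun m a => max m (f a)) c := by
  induction l generalizing c with
  | nil => simp at h
  | cons b l ih =>
    rcases List.mem_cons.1 h with rfl | h
    · exact (le_max_right _ _).trans (foldl_max_ge_init l f _)
    · exact ih _ h

theorem foldl_max_le (l : List ℕ) (f : ℕ → ℕ) (c M : ℕ) (h0 : c ≤ M) (h : ∀ a ∈ l, f a ≤ M) :
    l.foldl (fun m a => max m (f a)) c ≤ M := by
  induction l generalizing c with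
  | nil => exact h0
  | cons b l ih =>
    exact ih _ (max_le h0 (h b (by simp))) fun a ha => h a (by simp [ha])

theorem le_maxR {n a : ℕ} (f : ℕ → ℕ) (h : a < n) : f a ≤ maxR n f :=
  foldl_max_ge _ f _ a (List.mem_range.2 h)

theorem maxR_le {n M : ℕ} {f : ℕ → ℕ} (h : ∀ a < n, f a ≤ M) : maxR n f ≤ M :=
  foldl_max_le _ f _ M (Nat.zero_le _) fun a ha => h a (List.mem_range.1 ha)

theorem maxR_mono {n : ℕ} {f g : ℕ → ℕ} (h : ∀ a < n, f a ≤ g a) : maxR n f ≤ maxR n g :=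
  maxR_le fun a ha => (h a ha).trans (le_maxR g ha)

/-- `a ≤ b * cdiv a b` -/
theorem le_mul_cdiv {b : ℕ} (a : ℕ) (hb : 0 < b) : a ≤ b * cdiv a b := by
  unfold cdiv
  have h1 := Nat.div_add_mod (a + (b - 1)) b
  have h2 := Nat.mod_lt (a + (b - 1)) hb
  omega

/-- `b * cdiv a b < a + b` -/
theorem mul_cdiv_lt {b : ℕ} (a : ℕ) (hb : 0 < b) : b * cdiv a b < a + b := by
  unfold cdiv
  have h1 := Nat.mul_div_le (a + (b - 1)) b
  omega

theorem cdiv_le_of_le_mul {a b c : ℕ} (hb : 0 < b) (h : a ≤ b * c) : cdiv a b ≤ c := by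
  by_contra hlt
  push Not at hlt
  have h1 := mul_cdiv_lt a hb
  have h2 : b * (c + 1) ≤ b * cdiv a b := Nat.mul_le_mul_left _ hlt
  rw [Nat.mul_succ] at h2
  omega

theorem le_cdiv_of_mul_le {a b c : ℕ} (hb : 0 < b) (h : b * c ≤ a) : c ≤ cdiv a b := by
  have h1 := le_mul_cdiv a hb
  exact Nat.le_of_mul_le_mul_left (h.trans h1) hb

theorem cdiv_mono {a a' b : ℕ} (h : a ≤ a') : cdiv a b ≤ cdiv a' b := by
  unfold cdiv
  exact Nat.div_le_div_right (by omega)

theorem cdiv_cast_ge {b : ℕ} (a : ℕ) (hb : 0 < b) : (a : ℝ) / b ≤ (cdiv a b : ℝ) := by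
  rw [div_le_iff₀ (by exact_mod_cast hb)]
  have := le_mul_cdiv a hb
  rw [mul_comm] at this
  exact_mod_cast this

theorem cdiv_cast_lt {b : ℕ} (a : ℕ) (hb : 0 < b) : (cdiv a b : ℝ) < (a : ℝ) / b + 1 := by
  have hb' : (0 : ℝ) < b := by exact_mod_cast hb
  have := mul_cdiv_lt a hb
  have h2 : (b : ℝ) * (cdiv a b : ℝ) < a + b := by exact_mod_cast this
  rw [← sub_lt_iff_lt_add, lt_div_iff₀ hb']
  nlinarith [h2]

theorem mem_rngC {lo hi t : ℕ} : t ∈ rngC lo hi ↔ lo ≤ t ∧ t ≤ hi := by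
  unfold rngC
  simp only [List.mem_map, List.mem_range]
  constructor
  · rintro ⟨s, hs, rfl⟩
    omega
  · rintro ⟨h1, h2⟩
    exact ⟨t - lo, by omega, by omega⟩

theorem nodup_rngC (lo hi : ℕ) : (rngC lo hi).Nodup := by
  unfold rngC
  exact List.nodup_range.map fun a b h => by simpa using h

/-! ## dist -/

theorem dist_self (y : St) : Alg45.dist y y = 0 := by simp [Alg45.dist]

theorem dist_comm (y z : St) : Alg45.dist y z = Alg45.dist z y := by
  unfold Alg45.dist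
  omega

theorem dist_tri (x y z : St) : Alg45.dist x z ≤ Alg45.dist x y + Alg45.dist y z := by
  unfold Alg45.dist
  omega

/-! ## The staircase DP -/

variable {A : ℕ} {T : ℕ → ℕ → ℕ → ℕ}

@[simp] theorem D_zero (A : ℕ) (T : ℕ → ℕ → ℕ → ℕ) (b : ℕ) : D A T 0 b = 0 := rfl

theorem D_succ (A : ℕ) (T : ℕ → ℕ → ℕ → ℕ) (j b : ℕ) :
    D A T (j + 1) b = minR A fun a => D A T j a + T j a b := rfl

/-- every letter sequence -/
theorem D_le_sum (c : ℕ → ℕ) {j : ℕ} (hc : ∀ q < j, c q < A) :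
    D A T j (c j) ≤ ∑ q ∈ range j, T q (c q) (c (q + 1)) := by
  induction j with
  | zero => simp
  | succ j ih =>
    rw [D_succ, Finset.sum_range_succ]
    exact (minR_le _ (hc j (by omega))).trans
      (Nat.add_le_add_right (ih fun q hq => hc q (by omega)) _)

/-- attained -/
theorem exists_D (hA : 0 < A) (j b : ℕ) :
    ∃ c : ℕ → ℕ, (∀ q < j, c q < A) ∧ c j = b ∧
      D A T j b = ∑ q ∈ range j, T q (c q) (c (q + 1)) := by
  induction j generalizing b with
  | zero => exact ⟨fun _ => b, by simp, rfl, by simp⟩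
  | succ j ih =>
    obtain ⟨a, ha, h⟩ := exists_minR (fun a => D A T j a + T j a b) hA
    obtain ⟨c, hc, hcj, hD⟩ := ih a
    refine ⟨fun q => if q ≤ j then c q else b, ?_, ?_, ?_⟩
    · intro q hq
      have hqj : q ≤ j := by omega
      show (if q ≤ j then c q else b) < A
      rw [if_pos hqj]
      rcases Nat.lt_or_ge q j with h1 | h1
      · exact hc q h1
      · have : q = j := by omega
        rw [this, hcj]; exact ha
    · show (if j + 1 ≤ j then c (j + 1) else b) = b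
      rw [if_neg (by omega)]
    · rw [D_succ, h, Finset.sum_range_succ]
      simp only [le_refl, if_true]
      rw [if_neg (by omega : ¬ j + 1 ≤ j), hcj, hD]
      congr 1
      apply Finset.sum_congr rfl
      intro q hq
      have hq := Finset.mem_range.1 hq
      rw [if_pos (by omega), if_pos (by omega)]

theorem D_mono {T' : ℕ → ℕ → ℕ → ℕ} (hA : 0 < A) {j : ℕ} (b : ℕ)
    (h : ∀ q < j, ∀ a < A, ∀ b', T q a b' ≤ T' q a b') : D A T j b ≤ D A T' j b := by
  induction j generalizing b with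
  | zero => simp
  | succ j ih =>
    rw [D_succ, D_succ]
    exact minR_mono hA fun a ha =>
      Nat.add_le_add (ih a fun q hq => h q (by omega)) (h j (by omega) a ha b)

theorem D_congr {T' : ℕ → ℕ → ℕ → ℕ} (hA : 0 < A) {j : ℕ} (b : ℕ)
    (h : ∀ q < j, ∀ a < A, ∀ b', T q a b' = T' q a b') : D A T j b = D A T' j b :=
  le_antisymm (D_mono hA b fun q hq a ha b' => (h q hq a ha b').le)
    (D_mono hA b fun q hq a ha b' => (h q hq a ha b').ge)

theorem minSt_le {N : ℕ} (c : ℕ → ℕ) (hc : ∀ q < N, c q < A) (h0 : c N = 0) :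
    minSt N A T ≤ ∑ q ∈ range N, T q (c q) (c (q + 1)) := by
  have := D_le_sum (T := T) c hc
  rw [h0] at this
  exact this

theorem exists_minSt (hA : 0 < A) (N : ℕ) :
    ∃ c : ℕ → ℕ, (∀ q < N, c q < A) ∧ c N = 0 ∧
      minSt N A T = ∑ q ∈ range N, T q (c q) (c (q + 1)) := exists_D hA N 0

/-! ## The grid -/

variable (P : Par)

theorem gst_pos (κ : ℕ) : 0 < gst P κ := by unfold gst; positivity

theorem gst_dvd {κ κ' : ℕ} (h : κ ≤ κ') : gst P κ ∣ gst P κ' := by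
  unfold gst
  exact pow_dvd_pow 2 (by omega)

theorem gst_le {κ κ' : ℕ} (h : κ ≤ κ') : gst P κ ≤ gst P κ' :=
  Nat.le_of_dvd (gst_pos P κ') (gst_dvd P h)

/-- `gst * gpt = 2^κ` -/
theorem gst_mul_gpt (κ : ℕ) : gst P κ * gpt P κ = 2 ^ κ := by
  unfold gst gpt
  rw [← pow_add]
  congr 1
  omega

theorem gst_dvd_pow (κ : ℕ) : gst P κ ∣ 2 ^ κ := ⟨_, (gst_mul_gpt P κ).symm⟩

theorem gst_le_pow (κ : ℕ) : gst P κ ≤ 2 ^ κ := Nat.le_of_dvd (by positivity) (gst_dvd_pow P κ)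

theorem gst_mul_le (κ : ℕ) (h : P.pb ≤ κ) : gst P κ * 2 ^ P.pb = 2 ^ κ := by
  unfold gst
  rw [← pow_add]
  congr 1
  omega

theorem gpt_pos (κ : ℕ) : 0 < gpt P κ := by unfold gpt; positivity

theorem gst_dvd_rd (κ : ℕ) (u : ℤ) : (gst P κ : ℤ) ∣ rd P κ u := by
  unfold rd; exact dvd_mul_left _ _

theorem rd_le (κ : ℕ) (u : ℤ) : rd P κ u ≤ u := by
  unfold rd
  exact Int.ediv_mul_le u (by have := gst_pos P κ; omega)

theorem lt_rd (κ : ℕ) (u : ℤ) : u < rd P κ u + gst P κ := by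
  unfold rd
  have h := Int.lt_ediv_add_one_mul_self u (by have := gst_pos P κ; omega : (0 : ℤ) < gst P κ)
  nlinarith [h]

theorem rd_eq {κ : ℕ} {u : ℤ} (h : (gst P κ : ℤ) ∣ u) : rd P κ u = u := by
  unfold rd
  exact Int.ediv_mul_cancel h

theorem rd_rd (κ : ℕ) (u : ℤ) : rd P κ (rd P κ u) = rd P κ u := rd_eq P (gst_dvd_rd P κ u)

theorem rd_mono (κ : ℕ) {u v : ℤ} (h : u ≤ v) : rd P κ u ≤ rd P κ v := by
  unfold rd
  exact mul_le_mul_of_nonneg_right (Int.ediv_le_ediv (by have := gst_pos P κ; omega) h)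
    (by positivity)

theorem natAbs_rd (κ : ℕ) (u : ℤ) : (u - rd P κ u).natAbs < gst P κ := by
  have h1 := rd_le P κ u
  have h2 := lt_rd P κ u
  omega

theorem dist_rdn (κ : ℕ) (y : St) : Alg45.dist y (rdn P κ y) < 2 * gst P κ := by
  unfold Alg45.dist rdn
  have h1 := natAbs_rd P κ y.u
  have h2 := natAbs_rd P κ y.v
  simp only
  omega

@[simp] theorem rdn_i (κ : ℕ) (y : St) : (rdn P κ y).i = y.i := rfl
@[simp] theorem rdn_j (κ : ℕ) (y : St) : (rdn P κ y).j = y.j := rfl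
@[simp] theorem rdn_u (κ : ℕ) (y : St) : (rdn P κ y).u = rd P κ y.u := rfl
@[simp] theorem rdn_v (κ : ℕ) (y : St) : (rdn P κ y).v = rd P κ y.v := rfl

/-- grid state of class `κ` -/
def OnG (κ : ℕ) (y : St) : Prop := (gst P κ : ℤ) ∣ y.u ∧ (gst P κ : ℤ) ∣ y.v

theorem OnG.mono {κ κ' : ℕ} {y : St} (h : OnG P κ' y) (hk : κ ≤ κ') : OnG P κ y := by
  have hd : (gst P κ : ℤ) ∣ (gst P κ' : ℤ) := by exact_mod_cast gst_dvd P hk
  exact ⟨hd.trans h.1, hd.trans h.2⟩

theorem onG_rdn (κ : ℕ) (y : St) : OnG P κ (rdn P κ y) := ⟨gst_dvd_rd P κ _, gst_dvd_rd P κ _⟩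

theorem rdn_eq {κ : ℕ} {y : St} (h : OnG P κ y) : rdn P κ y = y := by
  unfold rdn
  rw [rd_eq P h.1, rd_eq P h.2]

theorem rdn_rdn (κ : ℕ) (y : St) : rdn P κ (rdn P κ y) = rdn P κ y := rdn_eq P (onG_rdn P κ y)

/-! ## Clamping -/

theorem clp_eq {u : ℤ} (h : |u| ≤ P.Dm) : clp P u = u := by
  have := abs_le.1 h
  unfold clp
  omega

theorem abs_clp_le (u : ℤ) : |clp P u| ≤ P.Dm := by
  rw [abs_le]
  unfold clp
  omega

theorem natAbs_clp_le (u : ℤ) : (clp P u).natAbs ≤ P.Dm := by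
  have := abs_le.1 (abs_clp_le P u)
  omega

theorem clp_mono {u v : ℤ} (h : u ≤ v) : clp P u ≤ clp P v := by
  unfold clp
  omega

theorem dvd_clp {κ : ℕ} (hD : gst P κ ∣ P.Dm) {u : ℤ} (h : (gst P κ : ℤ) ∣ u) :
    (gst P κ : ℤ) ∣ clp P u := by
  have hDz : (gst P κ : ℤ) ∣ (P.Dm : ℤ) := by exact_mod_cast hD
  unfold clp
  rcases max_choice (-(P.Dm : ℤ)) (min (P.Dm : ℤ) u) with h' | h' <;> rw [h']
  · exact hDz.neg_right
  · rcases min_choice (P.Dm : ℤ) u with h'' | h'' <;> rw [h'']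
    · exact hDz
    · exact h

/-- clamping is a projection: it does not increase the distance to a point of the domain -/
theorem abs_clp_sub_le {u w : ℤ} (hw : |w| ≤ P.Dm) : |clp P u - w| ≤ |u - w| := by
  have h1 := abs_le.1 hw
  rcases abs_cases (u - w) with h2 | h2 <;> rcases abs_cases (clp P u - w) with h3 | h3 <;>
    rw [h2.1, h3.1] <;> unfold clp at * <;> omega

/-! ## Letters, cuts, pieces -/

theorem WA_pos (κ : ℕ) : 0 < WA P κ := by unfold WA; omega

theorem pos_eq (κ : ℕ) (x : St) (a : ℕ) :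
    pos P κ x a = min (whi P κ x) (wlo P κ x + a * (gst P κ : ℤ)) := rfl

theorem gst_dvd_rad (κ : ℕ) : (gst P κ : ℤ) ∣ P.r * 2 ^ κ :=
  Dvd.dvd.mul_left (by exact_mod_cast gst_dvd_pow P κ) _

theorem gst_dvd_wlo {κ : ℕ} (hD : gst P κ ∣ P.Dm) (x : St) : (gst P κ : ℤ) ∣ wlo P κ x := by
  have hDz : (gst P κ : ℤ) ∣ (P.Dm : ℤ) := by exact_mod_cast hD
  unfold wlo
  rcases max_choice (-(P.Dm : ℤ)) (rd P κ x.u - P.r * 2 ^ κ) with h' | h' <;> rw [h']
  · exact hDz.neg_right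
  · exact dvd_sub (gst_dvd_rd P κ _) (gst_dvd_rad P κ)

theorem gst_dvd_whi {κ : ℕ} (hD : gst P κ ∣ P.Dm) (x : St) : (gst P κ : ℤ) ∣ whi P κ x := by
  have hDz : (gst P κ : ℤ) ∣ (P.Dm : ℤ) := by exact_mod_cast hD
  unfold whi
  rcases min_choice (P.Dm : ℤ) (rd P κ x.u + P.r * 2 ^ κ) with h' | h' <;> rw [h']
  · exact hDz
  · exact dvd_add (gst_dvd_rd P κ _) (gst_dvd_rad P κ)

theorem neg_Dm_le_wlo (κ : ℕ) (x : St) : -(P.Dm : ℤ) ≤ wlo P κ x := le_max_left _ _

theorem lo_le_wlo (κ : ℕ) (x : St) : rd P κ x.u - P.r * 2 ^ κ ≤ wlo P κ x := le_max_right _ _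

theorem whi_le_Dm (κ : ℕ) (x : St) : whi P κ x ≤ P.Dm := min_le_left _ _

theorem whi_le_hi (κ : ℕ) (x : St) : whi P κ x ≤ rd P κ x.u + P.r * 2 ^ κ := min_le_right _ _

/-- the base point `rd x.u` of a domain state lies in the window -/
theorem wlo_le_rd {κ : ℕ} {x : St} (hD : gst P κ ∣ P.Dm) (hx : -(P.Dm : ℤ) ≤ x.u) :
    wlo P κ x ≤ rd P κ x.u := by
  have hDz : (gst P κ : ℤ) ∣ (P.Dm : ℤ) := by exact_mod_cast hD
  have h1 := rd_mono P κ hx
  rw [rd_eq P hDz.neg_right] at h1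
  have h2 : (0 : ℤ) ≤ P.r * 2 ^ κ := by positivity
  exact max_le h1 (by linarith)

theorem rd_le_whi {κ : ℕ} {x : St} (hx : x.u ≤ P.Dm) : rd P κ x.u ≤ whi P κ x := by
  have h2 : (0 : ℤ) ≤ P.r * 2 ^ κ := by positivity
  exact le_min ((rd_le P κ _).trans hx) (by linarith)

theorem wlo_le_whi {κ : ℕ} {x : St} (hD : gst P κ ∣ P.Dm) (hx : |x.u| ≤ P.Dm) :
    wlo P κ x ≤ whi P κ x :=
  (wlo_le_rd P hD (abs_le.1 hx).1).trans (rd_le_whi P (abs_le.1 hx).2)

theorem pos_le_whi (κ : ℕ) (x : St) (a : ℕ) : pos P κ x a ≤ whi P κ x := min_le_left _ _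

theorem wlo_le_pos {κ : ℕ} {x : St} (h : wlo P κ x ≤ whi P κ x) (a : ℕ) :
    wlo P κ x ≤ pos P κ x a := by
  unfold pos
  refine le_min h ?_
  have : (0 : ℤ) ≤ a * (gst P κ : ℤ) := by positivity
  linarith

theorem abs_pos_le {κ : ℕ} {x : St} (hD : gst P κ ∣ P.Dm) (hx : |x.u| ≤ P.Dm) (a : ℕ) :
    |pos P κ x a| ≤ P.Dm :=
  abs_le.2 ⟨(neg_Dm_le_wlo P κ x).trans (wlo_le_pos P (wlo_le_whi P hD hx) a),
    (pos_le_whi P κ x a).trans (whi_le_Dm P κ x)⟩

theorem gst_dvd_pos {κ : ℕ} (hD : gst P κ ∣ P.Dm) (x : St) (a : ℕ) : (gst P κ : ℤ) ∣ pos P κ x a := by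
  unfold pos
  rcases min_choice (whi P κ x) (wlo P κ x + a * (gst P κ : ℤ)) with h' | h' <;> rw [h']
  · exact gst_dvd_whi P hD x
  · exact dvd_add (gst_dvd_wlo P hD x) (dvd_mul_left _ _)

theorem pos_ge {κ : ℕ} {x : St} (hD : gst P κ ∣ P.Dm) (hx : |x.u| ≤ P.Dm) (a : ℕ) :
    rd P κ x.u - P.r * 2 ^ κ ≤ pos P κ x a :=
  (lo_le_wlo P κ x).trans (wlo_le_pos P (wlo_le_whi P hD hx) a)

theorem pos_le (κ : ℕ) (x : St) (a : ℕ) : pos P κ x a ≤ rd P κ x.u + P.r * 2 ^ κ :=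
  (pos_le_whi P κ x a).trans (whi_le_hi P κ x)

theorem pos_mono (κ : ℕ) (x : St) {a b : ℕ} (h : a ≤ b) : pos P κ x a ≤ pos P κ x b := by
  unfold pos
  refine min_le_min_left _ ?_
  have : (a : ℤ) * (gst P κ : ℤ) ≤ b * (gst P κ : ℤ) :=
    mul_le_mul_of_nonneg_right (by exact_mod_cast h) (by positivity)
  linarith

/-- neighbouring letters differ by at most one step -/
theorem pos_succ_le (κ : ℕ) (x : St) (a : ℕ) : pos P κ x (a + 1) ≤ pos P κ x a + gst P κ := by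
  unfold pos
  have h : (wlo P κ x + ((a + 1 : ℕ) : ℤ) * (gst P κ : ℤ)) =
      wlo P κ x + a * (gst P κ : ℤ) + gst P κ := by push_cast; ring
  rw [h]
  have hg : (0 : ℤ) ≤ gst P κ := by positivity
  omega

/-- the letter of a multiple of the step in the window, with its index -/
theorem exists_pos' {κ : ℕ} {x : St} {m : ℤ} (hD : gst P κ ∣ P.Dm) (hm : (gst P κ : ℤ) ∣ m)
    (h1 : wlo P κ x ≤ m) (h2 : m ≤ whi P κ x) :
    ∃ a < WA P κ, pos P κ x a = m ∧ wlo P κ x + a * (gst P κ : ℤ) = m := by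
  have hg := gst_pos P κ
  have hgz : (0 : ℤ) < gst P κ := by exact_mod_cast hg
  obtain ⟨k, hk⟩ := dvd_sub hm (gst_dvd_wlo P hD x)
  have hk0 : 0 ≤ k := by
    by_contra hneg
    push Not at hneg
    have : (gst P κ : ℤ) * k < 0 := mul_neg_of_pos_of_neg hgz hneg
    linarith
  obtain ⟨a, rfl⟩ := Int.eq_ofNat_of_zero_le hk0
  have h3 : wlo P κ x + a * (gst P κ : ℤ) = m := by linarith [hk, mul_comm (gst P κ : ℤ) a]
  refine ⟨a, ?_, ?_, h3⟩
  · have h4 : (gst P κ : ℤ) * a ≤ 2 * P.r * 2 ^ κ := by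
      have := lo_le_wlo P κ x
      have := whi_le_hi P κ x
      linarith
    have h5 : gst P κ * a ≤ 2 * P.r * (gst P κ * gpt P κ) := by
      rw [gst_mul_gpt]; exact_mod_cast h4
    have h6 : gst P κ * a ≤ gst P κ * (2 * P.r * gpt P κ) := by
      calc gst P κ * a ≤ 2 * P.r * (gst P κ * gpt P κ) := h5
        _ = gst P κ * (2 * P.r * gpt P κ) := by ring
    have h7 := Nat.le_of_mul_le_mul_left h6 hg
    unfold WA; omega
  · rw [pos_eq, h3, min_eq_right h2]

/-- the letter of a grid position of the domain -/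
theorem exists_pos {κ : ℕ} {x : St} {m : ℤ} (hDm : gst P κ ∣ P.Dm) (hm : (gst P κ : ℤ) ∣ m)
    (hD : |m| ≤ P.Dm)
    (h1 : rd P κ x.u - P.r * 2 ^ κ ≤ m) (h2 : m ≤ rd P κ x.u + P.r * 2 ^ κ) :
    ∃ a < WA P κ, pos P κ x a = m := by
  obtain ⟨a, ha, h, _⟩ := exists_pos' P hDm hm (max_le (abs_le.1 hD).1 h1)
    (le_min (abs_le.1 hD).2 h2)
  exact ⟨a, ha, h⟩

theorem cut_zero (κ : ℕ) (x : St) (a : ℕ) : cut P κ x 0 a = x.u := by simp [cut]

theorem N_pos : 0 < P.N := by unfold Par.N; positivity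

theorem cut_N (κ : ℕ) (x : St) (a : ℕ) : cut P κ x P.N a = x.v := by
  unfold cut
  rw [if_neg (N_pos P).ne', if_pos rfl]

theorem cut_inner {κ : ℕ} {x : St} {q : ℕ} (h0 : 0 < q) (h1 : q < P.N) (a : ℕ) :
    cut P κ x q a = pos P κ x a := by
  unfold cut
  rw [if_neg (by omega), if_neg (by omega)]

@[simp] theorem piece_i (κ : ℕ) (x : St) (q a b : ℕ) : (piece P κ x q a b).i = x.i - 1 := rfl
@[simp] theorem piece_j (κ : ℕ) (x : St) (q a b : ℕ) : (piece P κ x q a b).j = P.N * x.j + q := rfl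
@[simp] theorem piece_u (κ : ℕ) (x : St) (q a b : ℕ) : (piece P κ x q a b).u = cut P κ x q a := rfl
@[simp] theorem piece_v (κ : ℕ) (x : St) (q a b : ℕ) :
    (piece P κ x q a b).v = cut P κ x (q + 1) b := rfl

/-- the piece `q` of the staircase `m` -/
def pc (x : St) (m : ℕ → ℤ) (q : ℕ) : St := ⟨x.i - 1, P.N * x.j + q, m q, m (q + 1)⟩

/-- grid staircase of `x` at scale `κ`: inner cuts on the grid, in the window and in the domain -/
structure IsSt (κ : ℕ) (x : St) (m : ℕ → ℤ) : Prop where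
  zero : m 0 = x.u
  last : m P.N = x.v
  dvd : ∀ q, 0 < q → q < P.N → (gst P κ : ℤ) ∣ m q
  lo : ∀ q, 0 < q → q < P.N → rd P κ x.u - P.r * 2 ^ κ ≤ m q
  hi : ∀ q, 0 < q → q < P.N → m q ≤ rd P κ x.u + P.r * 2 ^ κ
  dom : ∀ q, 0 < q → q < P.N → |m q| ≤ P.Dm

theorem piece_eq_pc {κ : ℕ} {x : St} {c : ℕ → ℕ} {q : ℕ} :
    piece P κ x q (c q) (c (q + 1)) = pc P x (fun q => cut P κ x q (c q)) q := rfl

theorem isSt_cut {κ : ℕ} {x : St} (c : ℕ → ℕ) (hD : gst P κ ∣ P.Dm) (hx : |x.u| ≤ P.Dm) :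
    IsSt P κ x (fun q => cut P κ x q (c q)) where
  zero := cut_zero P κ x _
  last := cut_N P κ x _
  dvd q h0 h1 := by
    show (gst P κ : ℤ) ∣ cut P κ x q (c q)
    rw [cut_inner P h0 h1]; exact gst_dvd_pos P hD x _
  lo q h0 h1 := by
    show _ ≤ cut P κ x q (c q)
    rw [cut_inner P h0 h1]; exact pos_ge P hD hx _
  hi q h0 h1 := by
    show cut P κ x q (c q) ≤ _
    rw [cut_inner P h0 h1]; exact pos_le P κ x _
  dom q h0 h1 := by
    show |cut P κ x q (c q)| ≤ _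
    rw [cut_inner P h0 h1]; exact abs_pos_le P hD hx _

/-- letters of a grid staircase -/
theorem IsSt.letters {κ : ℕ} {x : St} {m : ℕ → ℤ} (hD : gst P κ ∣ P.Dm) (h : IsSt P κ x m) :
    ∃ c : ℕ → ℕ, (∀ q, c q < WA P κ) ∧ c 0 = 0 ∧ c P.N = 0 ∧
      ∀ q ≤ P.N, cut P κ x q (c q) = m q := by
  classical
  have key : ∀ q, ∃ a < WA P κ, (0 < q → q < P.N → pos P κ x a = m q) ∧
      ((q = 0 ∨ P.N ≤ q) → a = 0) := by
    intro q
    by_cases hq : 0 < q ∧ q < P.N
    · obtain ⟨a, ha, h'⟩ := exists_pos P hD (h.dvd q hq.1 hq.2) (h.dom q hq.1 hq.2)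
        (h.lo q hq.1 hq.2) (h.hi q hq.1 hq.2)
      exact ⟨a, ha, fun _ _ => h', fun h'' => by omega⟩
    · exact ⟨0, WA_pos P κ, fun h0 h1 => absurd ⟨h0, h1⟩ hq, fun _ => rfl⟩
  choose c hc hc' hc'' using key
  refine ⟨c, hc, hc'' 0 (Or.inl rfl), hc'' P.N (Or.inr le_rfl), ?_⟩
  intro q hq
  rcases Nat.eq_zero_or_pos q with rfl | h0
  · rw [cut_zero]; exact h.zero.symm
  rcases Nat.lt_or_ge q P.N with h1 | h1
  · rw [cut_inner P h0 h1, hc' q h0 h1]
  · have : q = P.N := le_antisymm hq h1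
    subst this
    rw [cut_N]; exact h.last.symm

/-- `Vst` is at most the cost of every grid staircase -/
theorem Vst_le {κ : ℕ} {x : St} {m : ℕ → ℤ} (hD : gst P κ ∣ P.Dm) (f : St → ℕ)
    (h : IsSt P κ x m) :
    Vst P κ x f ≤ ∑ q ∈ range P.N, f (pc P x m q) := by
  obtain ⟨c, hc, _, hN, hcut⟩ := h.letters P hD
  have h1 := minSt_le (T := fun q a b => f (piece P κ x q a b)) c (fun q _ => hc q) hN
  refine h1.trans (le_of_eq ?_)
  apply Finset.sum_congr rfl
  intro q hq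
  have hq := Finset.mem_range.1 hq
  show f (piece P κ x q (c q) (c (q + 1))) = _
  congr 1
  unfold piece pc
  rw [hcut q hq.le, hcut (q + 1) hq]

/-- `Vst` is attained, letter form (no hypothesis) -/
theorem exists_Vst_letters (κ : ℕ) (x : St) (f : St → ℕ) :
    ∃ c : ℕ → ℕ, (∀ q < P.N, c q < WA P κ) ∧ c P.N = 0 ∧
      Vst P κ x f = ∑ q ∈ range P.N, f (piece P κ x q (c q) (c (q + 1))) :=
  exists_minSt (T := fun q a b => f (piece P κ x q a b)) (WA_pos P κ) P.N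

/-- `Vst` is attained -/
theorem exists_Vst {κ : ℕ} {x : St} (hD : gst P κ ∣ P.Dm) (hx : |x.u| ≤ P.Dm) (f : St → ℕ) :
    ∃ m : ℕ → ℤ, IsSt P κ x m ∧ Vst P κ x f = ∑ q ∈ range P.N, f (pc P x m q) := by
  obtain ⟨c, _, _, h⟩ := exists_Vst_letters P κ x f
  exact ⟨_, isSt_cut P c hD hx, h⟩

theorem Vst_mono {κ : ℕ} {x : St} {f g : St → ℕ} (h : ∀ y : St, y.i = x.i - 1 → f y ≤ g y) :
    Vst P κ x f ≤ Vst P κ x g := by
  obtain ⟨c, hc, hN, hg⟩ := exists_Vst_letters P κ x g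
  rw [hg]
  exact (minSt_le (T := fun q a b => f (piece P κ x q a b)) c hc hN).trans
    (Finset.sum_le_sum fun q _ => h _ rfl)

/-- monotone, the values matter only at the pieces -/
theorem Vst_mono' {κ : ℕ} {x : St} {f g : St → ℕ}
    (h : ∀ q < P.N, ∀ a < WA P κ, ∀ b, f (piece P κ x q a b) ≤ g (piece P κ x q a b)) :
    Vst P κ x f ≤ Vst P κ x g :=
  D_mono (WA_pos P κ) 0 h

theorem Vst_congr {κ : ℕ} {x : St} {f g : St → ℕ} (h : ∀ y : St, y.i = x.i - 1 → f y = g y) :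
    Vst P κ x f = Vst P κ x g :=
  le_antisymm (Vst_mono P fun y hy => (h y hy).le) (Vst_mono P fun y hy => (h y hy).ge)

/-- lower bound from a bound for every letter sequence (no hypothesis) -/
theorem le_Vst_letters {κ : ℕ} {x : St} {f : St → ℕ} {c₀ : ℕ}
    (h : ∀ c : ℕ → ℕ, (∀ q < P.N, c q < WA P κ) → c P.N = 0 →
      c₀ ≤ ∑ q ∈ range P.N, f (piece P κ x q (c q) (c (q + 1)))) : c₀ ≤ Vst P κ x f := by
  obtain ⟨c, hc, hN, hg⟩ := exists_Vst_letters P κ x f
  rw [hg]; exact h c hc hN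

/-- lower bound from a bound for every grid staircase -/
theorem le_Vst {κ : ℕ} {x : St} {f : St → ℕ} {c : ℕ} (hD : gst P κ ∣ P.Dm) (hx : |x.u| ≤ P.Dm)
    (h : ∀ m, IsSt P κ x m → c ≤ ∑ q ∈ range P.N, f (pc P x m q)) : c ≤ Vst P κ x f := by
  obtain ⟨m, hm, hg⟩ := exists_Vst P hD hx f
  rw [hg]; exact h m hm

/-- rounding an integer staircase of the domain to the grid of `x`: all inner cuts move by less than one step -/
theorem isSt_rd {κ : ℕ} {x : St} {m : ℕ → ℤ} (hD : gst P κ ∣ P.Dm) (h0 : m 0 = x.u) (hN : m P.N = x.v)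
    (hr : ∀ q, 0 < q → q < P.N → |m q - x.u| ≤ P.r * 2 ^ κ)
    (hd : ∀ q, 0 < q → q < P.N → |m q| ≤ P.Dm) :
    ∃ m' : ℕ → ℤ, IsSt P κ x m' ∧ (∀ q, m' q ≤ m q) ∧ ∀ q, m q < m' q + gst P κ := by
  have hg : (0 : ℤ) < gst P κ := by exact_mod_cast gst_pos P κ
  have hDz : (gst P κ : ℤ) ∣ (P.Dm : ℤ) := by exact_mod_cast hD
  refine ⟨fun q => if 0 < q ∧ q < P.N then rd P κ (m q) else m q, ⟨?_, ?_, ?_, ?_, ?_, ?_⟩, ?_, ?_⟩
  · simp [h0]
  · simp [hN]
  · intro q h1 h2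
    simp only [h1, h2, and_self, if_true]
    exact gst_dvd_rd P κ _
  · intro q h1 h2
    simp only [h1, h2, and_self, if_true]
    have h3 := abs_le.1 (hr q h1 h2)
    have h4 : rd P κ (x.u - P.r * 2 ^ κ) ≤ rd P κ (m q) := rd_mono P κ (by linarith [h3.1])
    have h5 : rd P κ (x.u - P.r * 2 ^ κ) = rd P κ x.u - P.r * 2 ^ κ := by
      unfold rd
      obtain ⟨k, hk⟩ : (gst P κ : ℤ) ∣ P.r * 2 ^ κ :=
        Dvd.dvd.mul_left (by exact_mod_cast gst_dvd_pow P κ) _
      rw [hk, Int.sub_mul_ediv_left _ _ hg.ne']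
      ring
    linarith
  · intro q h1 h2
    simp only [h1, h2, and_self, if_true]
    have h3 := abs_le.1 (hr q h1 h2)
    have h4 : rd P κ (m q) ≤ rd P κ (x.u + P.r * 2 ^ κ) := rd_mono P κ (by linarith [h3.2])
    have h5 : rd P κ (x.u + P.r * 2 ^ κ) = rd P κ x.u + P.r * 2 ^ κ := by
      unfold rd
      obtain ⟨k, hk⟩ : (gst P κ : ℤ) ∣ P.r * 2 ^ κ :=
        Dvd.dvd.mul_left (by exact_mod_cast gst_dvd_pow P κ) _
      rw [hk, Int.add_mul_ediv_left _ _ hg.ne']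
      ring
    linarith
  · intro q h1 h2
    simp only [h1, h2, and_self, if_true]
    have h3 := abs_le.1 (hd q h1 h2)
    have h4 : rd P κ (-(P.Dm : ℤ)) ≤ rd P κ (m q) := rd_mono P κ h3.1
    rw [rd_eq P hDz.neg_right] at h4
    have h5 := rd_le P κ (m q)
    rw [abs_le]
    exact ⟨h4, h5.trans h3.2⟩
  · intro q
    by_cases h : 0 < q ∧ q < P.N
    · simp only [h, and_self, if_true]; exact rd_le P κ _
    · simp only [h, if_false]; exact le_rfl
  · intro q
    by_cases h : 0 < q ∧ q < P.N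
    · simp only [h, and_self, if_true]; exact lt_rd P κ _
    · simp only [h, if_false]; linarith

/-! ## Running minimum -/

theorem Wm_zero (F : ℕ) (V : ℕ → ℕ) : Wm F V 0 = F := rfl
theorem Wm_succ (F : ℕ) (V : ℕ → ℕ) (i : ℕ) : Wm F V (i + 1) = min (Wm F V i) (V i) := rfl

theorem Wm_anti (F : ℕ) (V : ℕ → ℕ) {i k : ℕ} (h : i ≤ k) : Wm F V k ≤ Wm F V i := by
  induction k, h using Nat.le_induction with
  | base => exact le_rfl
  | succ k _ ih => exact (min_le_left _ _).trans ih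

theorem Wm_le (F : ℕ) (V : ℕ → ℕ) {i k : ℕ} (h : i < k) : Wm F V k ≤ V i :=
  (Wm_anti F V h).trans (min_le_right _ _)

theorem Wm_le_F (F : ℕ) (V : ℕ → ℕ) (k : ℕ) : Wm F V k ≤ F := Wm_anti F V (Nat.zero_le k)

theorem le_Wm {F c : ℕ} {V : ℕ → ℕ} {k : ℕ} (hF : c ≤ F) (hV : ∀ i < k, c ≤ V i) :
    c ≤ Wm F V k := by
  induction k with
  | zero => exact hF
  | succ k ih => exact le_min (ih fun i hi => hV i (by omega)) (hV k (by omega))

theorem Wm_congr {F : ℕ} {V V' : ℕ → ℕ} {k : ℕ} (h : ∀ i < k, V i = V' i) : Wm F V k = Wm F V' k := by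
  induction k with
  | zero => rfl
  | succ k ih => rw [Wm_succ, Wm_succ, ih fun i hi => h i (by omega), h k (by omega)]

end Crest.Agent.R288.AlgS125
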