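import Crest.Agent.R288.Gt_373

/-!
# R288, leaf [GAME], domain form (helper373)

Natural number form of the macro split of `Gn` (Gt_373) with ADMISSIBLE cuts (654 #4702, 722, 153):

* `sumG x y h r j m` = sum of `Gn` over the `2^r` pieces below `(h+r, j)` along the cuts `m`;
* `Gn_le_sumG` (every staircase), `exists_sumG` (attained, inner cuts are admissible diagonals, hence
  in `[-|x|, |y|]`, `adm_bound`), `exists_sumG_dom` (all cuts in `[-D, D]`, all cuts within
  `|w - u| + |w - v| ≤ Gn`);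
* `sumG_round`: cuts moved by at most `s` each change the sum by at most `2 * s * 2^r`
  (`≤ 2 s (2^r)`), outer cuts fixed;
* `Gn_le_pow` : `Gn ≤ 2^h + ...` for admissible ends.
-/

set_option autoImplicit false

namespace Crest.Agent.R288.Gt373

open Finset
open Crest.GraphRAM Crest.Agent.R288.GameA347 Crest.Agent.R288.NodeA785

variable (x y : List ℕ)

/-- the sum of the costs of the `2^r` pieces of height `h` below the node `(h + r, j)` -/
def sumG (h r j : ℕ) (m : ℕ → ℤ) : ℕ :=
  ∑ q ∈ range (2 ^ r), Gn x y h (2 ^ r * j + q) (m q) (m (q + 1))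

theorem sumG_zero (h j : ℕ) (m : ℕ → ℤ) : sumG x y h 0 j m = Gn x y h j (m 0) (m 1) := by
  simp [sumG]

theorem sumG_succ (h r j : ℕ) (m : ℕ → ℤ) :
    sumG x y h (r + 1) j m
      = sumG x y h r (2 * j) m + sumG x y h r (2 * j + 1) (fun t => m (2 ^ r + t)) := by
  unfold sumG
  rw [pow_succ, mul_two, sum_range_add]
  congr 1
  · refine sum_congr rfl fun t _ => ?_
    congr 1
    ring
  · refine sum_congr rfl fun t _ => ?_
    have e : (2 ^ r + 2 ^ r) * j + (2 ^ r + t) = 2 ^ r * (2 * j + 1) + t := by ring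
    rw [e]
    rfl

theorem sumG_congr (h r j : ℕ) {m m' : ℕ → ℤ} (e : ∀ q ≤ 2 ^ r, m q = m' q) :
    sumG x y h r j m = sumG x y h r j m' := by
  unfold sumG
  refine sum_congr rfl fun q hq => ?_
  have := mem_range.1 hq
  rw [e q (by omega), e (q + 1) (by omega)]

/-- **the cost is at most the sum over every staircase** -/
theorem Gn_le_sumG (h r j : ℕ) (m : ℕ → ℤ) :
    Gn x y (h + r) j (m 0) (m (2 ^ r)) ≤ sumG x y h r j m := by
  induction r generalizing j m with
  | zero => simp [sumG_zero]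
  | succ r ih =>
    rw [sumG_succ]
    have h1 := ih (2 * j) m
    have h2 := ih (2 * j + 1) (fun t => m (2 ^ r + t))
    have h3 := Gn_split_le x y (h + r) j (m 0) (m (2 ^ r)) (m (2 ^ (r + 1)))
    simp only [add_zero] at h2
    have e : 2 ^ r + 2 ^ r = 2 ^ (r + 1) := by rw [pow_succ]; ring
    rw [e] at h2
    have e2 : h + (r + 1) = h + r + 1 := by ring
    rw [e2]
    omega

/-- **and it is attained, with admissible inner cuts** -/
theorem exists_sumG (h r j : ℕ) (u v : ℤ) : ∃ m : ℕ → ℤ, m 0 = u ∧ m (2 ^ r) = v ∧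
    (∀ q, 0 < q → q < 2 ^ r → Adm y.length (lo x.length h (2 ^ r * j + q)) (m q)) ∧
    sumG x y h r j m = Gn x y (h + r) j u v := by
  induction r generalizing j u v with
  | zero =>
    refine ⟨fun t => if t = 0 then u else v, by simp, by simp, fun q h1 h2 => ?_, ?_⟩
    · simp at h2; omega
    · simp [sumG_zero]
  | succ r ih =>
    obtain ⟨w, hwA, hw⟩ := exists_Gn_split x y (h + r) j u v
    obtain ⟨m1, a1, b1, d1, c1⟩ := ih (2 * j) u w
    obtain ⟨m2, a2, b2, d2, c2⟩ := ih (2 * j + 1) w v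
    have hp : 0 < 2 ^ r := by positivity
    have e : 2 ^ (r + 1) = 2 ^ r + 2 ^ r := by rw [pow_succ]; ring
    refine ⟨fun t => if t ≤ 2 ^ r then m1 t else m2 (t - 2 ^ r), by simp [a1], ?_, ?_, ?_⟩
    · simp only [e]
      rw [if_neg (by omega), Nat.add_sub_cancel]
      exact b2
    · intro q h1 h2
      rw [e] at h2
      simp only
      rcases lt_trichotomy q (2 ^ r) with hq | hq | hq
      · rw [if_pos hq.le]
        have := d1 q h1 hq
        have e3 : 2 ^ (r + 1) * j + q = 2 ^ r * (2 * j) + q := by ring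
        rwa [e3]
      · rw [if_pos hq.le, hq, b1]
        have e3 : lo x.length h (2 ^ (r + 1) * j + 2 ^ r) = lo x.length (h + r) (2 * j + 1) := by
          unfold lo
          congr 1
          ring
        rwa [e3]
      · rw [if_neg (by omega)]
        have := d2 (q - 2 ^ r) (by omega) (by omega)
        have e3 : 2 ^ (r + 1) * j + q = 2 ^ r * (2 * j + 1) + (q - 2 ^ r) := by
          obtain ⟨t, rfl⟩ := Nat.exists_eq_add_of_lt hq
          have : 2 ^ r + t + 1 - 2 ^ r = t + 1 := by omega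
          rw [this]
          ring
        rwa [e3]
    · rw [sumG_succ]
      have e2 : h + (r + 1) = h + r + 1 := by ring
      rw [e2, hw, ← c1, ← c2]
      congr 1
      · exact sumG_congr x y h r (2 * j) fun q hq => by rw [if_pos hq]
      · refine sumG_congr x y h r (2 * j + 1) fun q hq => ?_
        rcases Nat.eq_zero_or_pos q with h0 | h0
        · subst h0
          rw [if_pos (by simp), add_zero, b1, a2]
        · rw [if_neg (by omega)]
          congr 1
          omega

/-- admissible diagonals lie in `[-|x|, |y|]` -/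
theorem adm_bound {n m a : ℕ} {u : ℤ} (ha : a ≤ n) (h : Adm m a u) : -(n : ℤ) ≤ u ∧ u ≤ m := by
  unfold Adm at h
  omega

/-- the variation of a staircase -/
theorem natAbs_le_sumG (h r j : ℕ) (m : ℕ → ℤ) {a b : ℕ} (hab : a ≤ b) (hb : b ≤ 2 ^ r) :
    (m a - m b).natAbs ≤ ∑ q ∈ Ico a b, Gn x y h (2 ^ r * j + q) (m q) (m (q + 1)) := by
  induction b, hab using Nat.le_induction with
  | base => simp
  | succ b hab ih =>
    rw [sum_Ico_succ_top hab]
    have h1 := ih (by omega)
    have h2 := Gn_ge x y h (2 ^ r * j + b) (m b) (m (b + 1))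
    omega

theorem cut_bound (h r j : ℕ) (m : ℕ → ℤ) {q : ℕ} (hq : q ≤ 2 ^ r) :
    (m 0 - m q).natAbs + (m q - m (2 ^ r)).natAbs ≤ sumG x y h r j m := by
  have h1 := natAbs_le_sumG x y h r j m (Nat.zero_le q) hq
  have h2 := natAbs_le_sumG x y h r j m hq le_rfl
  unfold sumG
  rw [range_eq_Ico, ← sum_Ico_consecutive _ (Nat.zero_le q) hq]
  omega

/-- **domain form**: for ends in `[-D, D]` there is an optimal staircase inside `[-D, D]`; all cuts
are within the cost of the ends -/
theorem exists_sumG_dom {D : ℕ} (hx : x.length ≤ D) (hy : y.length ≤ D) (h r j : ℕ) {u v : ℤ}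
    (hu : u.natAbs ≤ D) (hv : v.natAbs ≤ D) : ∃ m : ℕ → ℤ, m 0 = u ∧ m (2 ^ r) = v ∧
    (∀ q ≤ 2 ^ r, (m q).natAbs ≤ D) ∧
    (∀ q ≤ 2 ^ r, (u - m q).natAbs + (m q - v).natAbs ≤ Gn x y (h + r) j u v) ∧
    sumG x y h r j m = Gn x y (h + r) j u v := by
  obtain ⟨m, h0, h1, hA, hs⟩ := exists_sumG x y h r j u v
  refine ⟨m, h0, h1, fun q hq => ?_, fun q hq => ?_, hs⟩
  · rcases Nat.eq_zero_or_pos q with rfl | hq0
    · rw [h0]; exact hu
    · rcases eq_or_lt_of_le hq with rfl | hq1
      · rw [h1]; exact hv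
      · have := adm_bound (lo_le x.length h (2 ^ r * j + q)) (hA q hq0 hq1)
        omega
  · have := cut_bound x y h r j m hq
    rw [h0, h1, hs] at this
    exact this

/-- **rounding**: if every cut moves by at most `s` and the outer cuts by nothing, the sum grows by at
most `2 (2^r - 1) s` -/
theorem sumG_round (h r j s : ℕ) {m m' : ℕ → ℤ} (h0 : m' 0 = m 0) (h1 : m' (2 ^ r) = m (2 ^ r))
    (hs : ∀ q ≤ 2 ^ r, (m' q - m q).natAbs ≤ s) :
    sumG x y h r j m' ≤ sumG x y h r j m + 2 * (2 ^ r - 1) * s := by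
  have hp : 0 < 2 ^ r := by positivity
  have key : sumG x y h r j m' ≤ sumG x y h r j m +
      (∑ q ∈ range (2 ^ r), (m' q - m q).natAbs +
        ∑ q ∈ range (2 ^ r), (m' (q + 1) - m (q + 1)).natAbs) := by
    unfold sumG
    rw [← sum_add_distrib, ← sum_add_distrib]
    refine sum_le_sum fun q _ => ?_
    have := Gn_lip x y h (2 ^ r * j + q) (m' q) (m' (q + 1)) (m q) (m (q + 1))
    omega
  obtain ⟨N, hN⟩ : ∃ N, 2 ^ r = N + 1 := ⟨2 ^ r - 1, by omega⟩
  have k1 : ∑ q ∈ range (2 ^ r), (m' q - m q).natAbs ≤ (2 ^ r - 1) * s := by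
    rw [hN, sum_range_succ', h0]
    simp only [sub_self, Int.natAbs_zero, add_zero, Nat.add_sub_cancel]
    calc _ ≤ ∑ _q ∈ range N, s := sum_le_sum fun q hq => hs _ (by have := mem_range.1 hq; omega)
      _ = N * s := by simp
  have k2 : ∑ q ∈ range (2 ^ r), (m' (q + 1) - m (q + 1)).natAbs ≤ (2 ^ r - 1) * s := by
    rw [hN, sum_range_succ, ← hN, h1]
    simp only [sub_self, Int.natAbs_zero, add_zero]
    rw [hN, Nat.add_sub_cancel]
    calc _ ≤ ∑ _q ∈ range N, s := sum_le_sum fun q hq => hs _ (by have := mem_range.1 hq; omega)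
      _ = N * s := by simp
  calc _ ≤ _ := key
    _ ≤ sumG x y h r j m + ((2 ^ r - 1) * s + (2 ^ r - 1) * s) := by omega
    _ = _ := by ring

/-- trivial upper bound at admissible ends -/
theorem Gn_le_pow {h j : ℕ} {u v : ℤ} (hu : Adm y.length (lo x.length h j) u)
    (hv : Adm y.length (hi x.length h j) v) : Gn x y h j u v ≤ 2 ^ h + (u - v).natAbs := by
  rw [Gn_adm x y hu hv]
  exact gn_le x y h j hu hv

/-- upper bound in the domain `[-D, D]` -/
theorem Gn_le_dom {D : ℕ} (hx : x.length ≤ D) (h j : ℕ) {u v : ℤ}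
    (hu : u.natAbs ≤ D) (hv : v.natAbs ≤ D) : Gn x y h j u v ≤ 2 ^ h + (u - v).natAbs + 4 * D := by
  have := hu
  have h1 := gn_le x y h j (adm_clip y.length (lo x.length h j) u)
    (adm_clip y.length (hi x.length h j) v)
  rw [gn_clip] at h1
  have h2 := lo_le x.length h j
  have h3 := hi_le x.length h j
  unfold Gn off
  unfold clip pos at h1 ⊢
  omega

end Crest.Agent.R288.Gt373
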