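import Crest.Agent.R288.Hull_131

/-!
# R288: the approximate Lipschitz property of the unit functions `F_e` (helper364; [HULLLIP] of #4684,
proof of 153 #4701)

`F_{e+1}(x) = hull (F_e x) (menu of x) dist f`, the menu of `x` holds the ADMISSIBLE pairs `(κ, z)`
(`κ ≤ cls z + 2`, `cls z ≤ κ + 3`, `cls = log2 F_e`) with `cls x - a ≤ κ ≤ cls x + a2` and
`dist x z ≤ ρ x`, `F_e x ≤ ρ x`; `f` = any function of the pair.

* `ALip A dist s F` : `s F(x) ≤ F(x') + dist x x'` on `A`;
* `hull_step` : one pair of states, abstract menus;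
* `Menu` / `hull_alip` : **`ALip s F_e ⊢ ALip (s - 8/2^a) F_{e+1}`**;
* `alip_iter` : `ALip s F_0 ⊢ ALip (s - e 8/2^a) F_e`;
* `alip_one_add`, `alip_abs`, `alip_cls` : consequences;
* `base_alip` : closure of the start bound `U` (accurate up to `1 + τ`, `CL`-Lipschitz, `U ≤ B0 G`) on a
  menu of one scale.
-/

set_option autoImplicit false

namespace Crest.Agent.R288.HullLip364

open Crest.Agent.R288.Hull131

universe u v

/-! ## Abstract form -/

section abs

variable {S : Type u} {Q : Type v}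

/-- `s F(x) ≤ F(x') + dist x x'` for all states of `A` -/
def ALip (A : S → Prop) (dist : S → S → ℕ) (s : ℝ) (F : S → ℕ) : Prop :=
  ∀ x x', A x → A x' → s * F x ≤ F x' + dist x x'

theorem ALip.mono {A : S → Prop} {dist : S → S → ℕ} {s s' : ℝ} {F : S → ℕ} (h : ALip A dist s F)
    (hs : s' ≤ s) : ALip A dist s' F := fun x x' hx hx' =>
  (mul_le_mul_of_nonneg_right hs (Nat.cast_nonneg _)).trans (h x x' hx hx')

/-- one pair of states at distance `r`, abstract menus -/
theorem hull_step {own own' r : ℕ} {m m' : List Q} {d d' f : Q → ℕ} {s : ℝ} (hs : s ≤ 1)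
    (hF : s * own ≤ own' + r)
    (hm : ∀ p ∈ m', (p ∈ m ∧ d p ≤ d' p + r) ∨ s * own ≤ d' p + r) :
    s * hull own m d f ≤ hull own' m' d' f + r := by
  have h0 : (hull own m d f : ℝ) ≤ own := by exact_mod_cast hull_le_own
  have hp : (0 : ℝ) ≤ hull own m d f := Nat.cast_nonneg _
  have own0 : (0 : ℝ) ≤ own := Nat.cast_nonneg _
  rcases le_or_gt s 0 with hs0 | hs0
  · have h1 : s * hull own m d f ≤ 0 := mul_nonpos_of_nonpos_of_nonneg hs0 hp
    have h2 : (0 : ℝ) ≤ hull own' m' d' f + r := by positivity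
    linarith
  have hsown : s * hull own m d f ≤ s * own := mul_le_mul_of_nonneg_left h0 hs0.le
  rcases hull_attained (own := own') (m := m') (d := d') (f := f) with e | ⟨p, hp', e⟩
  · rw [e]
    exact hsown.trans hF
  · rw [e]
    push_cast
    rcases hm p hp' with ⟨h1, h2⟩ | h1
    · have h3 : (hull own m d f : ℝ) ≤ d p + f p := by exact_mod_cast hull_le h1
      have h4 : (d p : ℝ) ≤ d' p + r := by exact_mod_cast h2
      have h5 : s * hull own m d f ≤ hull own m d f := by nlinarith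
      linarith
    · have h3 : (0 : ℝ) ≤ f p := Nat.cast_nonneg _
      linarith

end abs

/-! ## Menus of admissible pairs -/

/-- class -/
abbrev cls {S : Type u} (F : S → ℕ) (z : S) : ℕ := Nat.log 2 (F z)

/-- the pair `(κ, z)` is admissible -/
def Adm {S : Type u} (F : S → ℕ) (p : ℕ × S) : Prop := p.1 ≤ cls F p.2 + 2 ∧ cls F p.2 ≤ p.1 + 3

section menu

variable {S : Type u}

/-- What is used of the menus `m x` of pairs `(κ, z)`: `G` = allowed pairs (grid of `κ`, domain; the same for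
all states of `A`), `a` = depth, `a2` = height, `ρ x ≥ F x` = radius. -/
structure Menu (A : S → Prop) (dist : S → S → ℕ) (F : S → ℕ) (G : ℕ × S → Prop) (a : ℕ)
    (m : S → List (ℕ × S)) : Prop where
  /-- members are allowed and admissible states of `A` -/
  snd : ∀ x, A x → ∀ p ∈ m x, A p.2 ∧ G p ∧ Adm F p
  /-- all allowed and admissible pairs of the classes `≥ cls x - a`, `≤ cls x + 4`, at distance
  `≤ F x` are members -/
  cpl : ∀ x, A x → ∀ p, A p.2 → G p → Adm F p → cls F x ≤ p.1 + a → p.1 ≤ cls F x + 4 →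
    dist x p.2 ≤ F x → p ∈ m x

variable {A : S → Prop} {dist : S → S → ℕ} {F : S → ℕ} {G : ℕ × S → Prop} {a : ℕ}
  {m : S → List (ℕ × S)}

theorem lt_of_adm {p : ℕ × S} (h : Adm F p) : F p.2 < 2 ^ (p.1 + 4) := by
  refine (Nat.lt_pow_succ_log_self one_lt_two (F p.2)).trans_le ?_
  exact Nat.pow_le_pow_right (by norm_num) (by have := h.2; simp only [cls] at this; omega)

theorem le_of_adm {p : ℕ × S} (h : Adm F p) (h0 : F p.2 ≠ 0) : 2 ^ p.1 ≤ 4 * F p.2 := by
  have h1 := Nat.pow_log_le_self 2 h0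
  have h2 : 2 ^ p.1 ≤ 2 ^ (cls F p.2 + 2) := Nat.pow_le_pow_right (by norm_num) h.1
  rw [pow_add] at h2
  simp only [cls] at h2
  omega

/-- **the step** -/
theorem hull_alip (hsym : ∀ x z, dist x z = dist z x)
    (htri : ∀ x y z, dist x z ≤ dist x y + dist y z) {s : ℝ} (hs : s ≤ 1) (hs3 : 1 / 3 ≤ s)
    (hF : ALip A dist s F) (hm : Menu A dist F G a m) (f : ℕ × S → ℕ) :
    ALip A dist (s - 8 / 2 ^ a) fun x => hull (F x) (m x) (fun p => dist x p.2) f := by
  intro x x' hx hx'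
  have h2a : (0 : ℝ) < 2 ^ a := by positivity
  have hθ : (0 : ℝ) ≤ 8 / 2 ^ a := by positivity
  have hFx : (0 : ℝ) ≤ F x := Nat.cast_nonneg _
  refine hull_step (by linarith) ?_ ?_
  · have h1 := hF x x' hx hx'
    have h2 : (s - 8 / 2 ^ a) * (F x : ℝ) ≤ s * F x :=
      mul_le_mul_of_nonneg_right (by linarith) hFx
    linarith
  intro p hp
  obtain ⟨hA, hG, hadm⟩ := hm.snd x' hx' p hp
  have htr : dist x p.2 ≤ dist x' p.2 + dist x x' := by
    have := htri x x' p.2; omega
  have htrR : (dist x p.2 : ℝ) ≤ dist x' p.2 + dist x x' := by exact_mod_cast htr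
  by_cases hd : dist x p.2 ≤ F x
  swap
  · refine Or.inr ?_
    have h1 : (F x : ℝ) ≤ dist x p.2 := by exact_mod_cast (not_le.1 hd).le
    have h2 : (s - 8 / 2 ^ a) * (F x : ℝ) ≤ 1 * F x :=
      mul_le_mul_of_nonneg_right (by linarith) hFx
    linarith
  rcases Nat.eq_zero_or_pos (F x) with h0 | h0
  · refine Or.inr ?_
    have : (F x : ℝ) = 0 := by exact_mod_cast h0
    rw [this, mul_zero]
    positivity
  have hx1 : 2 ^ cls F x ≤ F x := Nat.pow_log_le_self 2 h0.ne'
  have hx2 : F x < 2 ^ (cls F x + 1) := Nat.lt_pow_succ_log_self one_lt_two (F x)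
  by_cases hk1 : cls F x ≤ p.1 + a
  swap
  · -- too fine
    refine Or.inr ?_
    have h1 : F p.2 * 2 ^ a ≤ 8 * F x := by
      have h3 := lt_of_adm hadm
      have h4 : 2 ^ (p.1 + 4) * 2 ^ a ≤ 8 * 2 ^ cls F x := by
        rw [← pow_add, show (8 : ℕ) = 2 ^ 3 by norm_num, ← pow_add]
        exact Nat.pow_le_pow_right (by norm_num) (by omega)
      calc F p.2 * 2 ^ a ≤ 2 ^ (p.1 + 4) * 2 ^ a := Nat.mul_le_mul_right _ h3.le
        _ ≤ 8 * 2 ^ cls F x := h4
        _ ≤ 8 * F x := Nat.mul_le_mul_left _ hx1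
    have h2 : (F p.2 : ℝ) ≤ 8 / 2 ^ a * F x := by
      rw [div_mul_eq_mul_div, le_div_iff₀ h2a]
      exact_mod_cast h1
    have h3 := hF x p.2 hx hA
    have h4 : (s - 8 / 2 ^ a) * (F x : ℝ) = s * F x - 8 / 2 ^ a * F x := by ring
    rw [h4]
    linarith
  by_cases hk2 : p.1 ≤ cls F x + 4
  swap
  · -- too coarse
    refine Or.inr ?_
    have h1 : 4 * F x ≤ F p.2 := by
      have h3 : cls F x + 3 ≤ cls F p.2 := by have := hadm.1; omega
      have h4 : F p.2 ≠ 0 := by
        intro h; simp only [cls, h, Nat.log_zero_right] at h3; omega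
      have h5 := Nat.pow_log_le_self 2 h4
      have h6 : 2 ^ (cls F x + 3) ≤ 2 ^ cls F p.2 := Nat.pow_le_pow_right (by norm_num) h3
      have h7 : 2 ^ (cls F x + 3) = 4 * 2 ^ (cls F x + 1) := by ring
      simp only [cls] at *
      omega
    have h2 : 4 * (F x : ℝ) ≤ F p.2 := by exact_mod_cast h1
    have h3 := hF p.2 x hA hx
    rw [hsym p.2 x] at h3
    have h5 : s * (4 * (F x : ℝ)) ≤ s * F p.2 := mul_le_mul_of_nonneg_left h2 (by linarith)
    have h6 : (s - 8 / 2 ^ a) * (F x : ℝ) ≤ s * F x :=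
      mul_le_mul_of_nonneg_right (by linarith) hFx
    have h7 : 1 / 3 * (F x : ℝ) ≤ s * F x := mul_le_mul_of_nonneg_right hs3 hFx
    have h8 : s * (F x : ℝ) ≤ 1 * F x := mul_le_mul_of_nonneg_right hs hFx
    nlinarith
  exact Or.inl ⟨hm.cpl x hx p hA hG hadm hk1 hk2 hd, htr⟩

/-- **iteration over the epochs** -/
theorem alip_iter (hsym : ∀ x z, dist x z = dist z x)
    (htri : ∀ x y z, dist x z ≤ dist x y + dist y z) {F : ℕ → S → ℕ} {G : ℕ → ℕ × S → Prop}
    {m : ℕ → S → List (ℕ × S)} {f : ℕ → ℕ × S → ℕ} {s : ℝ} {E : ℕ} (hs : s ≤ 1)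
    (hE : 1 / 3 ≤ s - E * (8 / 2 ^ a)) (h0 : ALip A dist s (F 0))
    (hm : ∀ e < E, Menu A dist (F e) (G e) a (m e))
    (hF : ∀ e < E, ∀ x, A x → F (e + 1) x = hull (F e x) (m e x) (fun p => dist x p.2) (f e)) :
    ∀ e ≤ E, ALip A dist (s - e * (8 / 2 ^ a)) (F e) := by
  have hθ : (0 : ℝ) ≤ 8 / 2 ^ a := by positivity
  intro e
  induction e with
  | zero => intro _; simpa using h0
  | succ e ih =>
    intro he
    have h1 := ih (by omega)
    have h2 : (e : ℝ) * (8 / 2 ^ a) ≤ E * (8 / 2 ^ a) :=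
      mul_le_mul_of_nonneg_right (by exact_mod_cast (by omega : e ≤ E)) hθ
    have h3 : (0 : ℝ) ≤ e * (8 / 2 ^ a) := by positivity
    have h4 := hull_alip hsym htri (s := s - e * (8 / 2 ^ a)) (by linarith) (by linarith) h1
      (hm e (by omega)) (f e)
    intro x x' hx hx'
    rw [hF e (by omega) x hx, hF e (by omega) x' hx']
    have h5 := h4 x x' hx hx'
    have h6 : s - ((e + 1 : ℕ) : ℝ) * (8 / 2 ^ a) = s - e * (8 / 2 ^ a) - 8 / 2 ^ a := by
      push_cast; ring
    rw [h6]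
    exact h5

end menu

/-! ## Consequences of `ALip` -/

section cons

variable {S : Type u} {A : S → Prop} {dist : S → S → ℕ} {F : S → ℕ} {s ζ : ℝ} {x x' : S}

/-- `F(x) ≤ (1+ζ) (F(x') + dist)` -/
theorem alip_one_add (h : ALip A dist s F) (hζ : 1 ≤ (1 + ζ) * s) (h0 : 0 ≤ ζ) (hx : A x)
    (hx' : A x') : (F x : ℝ) ≤ (1 + ζ) * (F x' + dist x x') := by
  have h1 := mul_le_mul_of_nonneg_left (h x x' hx hx') (by linarith : 0 ≤ 1 + ζ)
  have h2 : 1 * (F x : ℝ) ≤ (1 + ζ) * s * F x :=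
    mul_le_mul_of_nonneg_right hζ (Nat.cast_nonneg _)
  nlinarith

/-- `1 - θ` Lipschitz with `θ ≤ ζ/2 ≤ 1/2` -/
theorem alip_zeta (h : ALip A dist (1 - ζ / 2) F) (h0 : 0 ≤ ζ) (h1 : ζ ≤ 1) (hx : A x)
    (hx' : A x') : (F x : ℝ) ≤ (1 + ζ) * (F x' + dist x x') :=
  alip_one_add h (by nlinarith) h0 hx hx'

/-- `F(x) ≤ 2 (F(x') + dist)` in natural numbers -/
theorem alip_two (h : ALip A dist s F) (hs : 1 / 2 ≤ s) (hx : A x) (hx' : A x') :
    F x ≤ 2 * (F x' + dist x x') := by
  have h1 := alip_one_add (ζ := 1) h (by linarith) (by norm_num) hx hx'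
  have h2 : (F x : ℝ) ≤ 2 * (F x' + dist x x') := by linarith
  exact_mod_cast h2

/-- near states: classes differ by at most one -/
theorem alip_cls_near (h : ALip A dist s F) (hs : 7 / 8 ≤ s) (hx : A x) (hx' : A x')
    (hd : 4 * dist x x' ≤ F x) (hsym : dist x x' = dist x' x) :
    cls F x' ≤ cls F x + 1 ∧ cls F x ≤ cls F x' + 1 := by
  have hdR : 4 * (dist x x' : ℝ) ≤ F x := by exact_mod_cast hd
  have h1 := h x x' hx hx'
  have h2 := h x' x hx' hx
  rw [← hsym] at h2
  have hp : (0 : ℝ) ≤ F x := Nat.cast_nonneg _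
  have hp' : (0 : ℝ) ≤ F x' := Nat.cast_nonneg _
  have h3 : 7 / 8 * (F x : ℝ) ≤ s * F x := mul_le_mul_of_nonneg_right hs hp
  have h4 : 7 / 8 * (F x' : ℝ) ≤ s * F x' := mul_le_mul_of_nonneg_right hs hp'
  have h5 : (F x : ℝ) ≤ 2 * F x' := by linarith
  have h6 : (F x' : ℝ) ≤ 2 * F x := by linarith
  have h5' : F x ≤ 2 * F x' := by exact_mod_cast h5
  have h6' : F x' ≤ 2 * F x := by exact_mod_cast h6
  have key : ∀ p q : ℕ, p ≤ 2 * q → Nat.log 2 p ≤ Nat.log 2 q + 1 := by
    intro p q hpq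
    rcases Nat.eq_zero_or_pos q with h0 | h0
    · subst h0; simp at hpq; subst hpq; simp
    · have : Nat.log 2 (2 * q) = Nat.log 2 q + 1 := by
        rw [mul_comm]
        exact Nat.log_mul_base one_lt_two h0.ne'
      exact (Nat.log_mono_right hpq).trans this.le
  exact ⟨key _ _ h6', key _ _ h5'⟩

/-- states of the menu (distance at most `2 F`): the class grows by at most `3` -/
theorem alip_cls_far (h : ALip A dist s F) (hs : 1 / 2 ≤ s) (hx : A x) (hx' : A x')
    (hd : dist x' x ≤ 2 * F x) : cls F x' ≤ cls F x + 3 := by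
  have h1 := alip_two h hs hx' hx
  rcases Nat.eq_zero_or_pos (F x) with h0 | h0
  · have : F x' = 0 := by omega
    simp [cls, this]
  · have h3 : F x' < 2 ^ (cls F x + 4) := by
      have h4 : F x < 2 ^ (cls F x + 1) := Nat.lt_pow_succ_log_self one_lt_two (F x)
      have h5 : 2 ^ (cls F x + 4) = 8 * 2 ^ (cls F x + 1) := by ring
      omega
    have : cls F x' < cls F x + 4 := by
      rcases Nat.eq_zero_or_pos (F x') with h6 | h6
      · simp only [cls, h6, Nat.log_zero_right]; omega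
      · exact Nat.log_lt_of_lt_pow h6.ne' h3
    omega

/-- two-sided additive form -/
theorem alip_abs (h : ALip A dist s F) (hζ : 1 ≤ (1 + ζ) * s) (h0 : 0 ≤ ζ) (hx : A x) (hx' : A x')
    (hsym : dist x x' = dist x' x) {M : ℝ} (hM : (F x : ℝ) ≤ M) (hM' : (F x' : ℝ) ≤ M) :
    |(F x : ℝ) - F x'| ≤ (1 + ζ) * dist x x' + ζ * M := by
  have h1 := alip_one_add h hζ h0 hx hx'
  have h2 := alip_one_add h hζ h0 hx' hx
  rw [← hsym] at h2
  rw [abs_le]
  constructor <;> nlinarith

end cons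

/-! ## The base: closure of the start bound on a menu of one scale -/

section base

variable {S : Type u} {Q : Type v}

/-- `F(x) = hull (U x) (m x) (dist x ·) (U ·)`: closure of the start bound `U`; the menu of `x` holds
for every state `z` with `dist x z ≤ U x` a state at distance `≤ st x` of `z`, where `st x = 0` or
`st x ≤ α U x` and `b ≤ α U x`; `U` is `(1+τ, CL, b)`-Lipschitz, `G ≤ U`, `G` 1-Lipschitz, and `U ≤ B0 G` where `st ≠ 0` (the big states):
tiny states need nothing and there is NO additive constant in the conclusion. -/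
theorem base_alip {A : S → Prop} {dist : S → S → ℕ} {G U st : S → ℕ} {m : S → List S}
    {α τ CL B0 : ℝ} {b : ℕ} (hα : 0 ≤ α) (hτ : 0 ≤ τ) (hCL : 0 ≤ CL) (hB : 1 ≤ B0)
    (htri : ∀ x y z, dist x z ≤ dist x y + dist y z)
    (hG : ∀ x z, A x → A z → G x ≤ G z + dist x z) (hGU : ∀ x, A x → G x ≤ U x)
    (hUG : ∀ x, A x → st x ≠ 0 → (U x : ℝ) ≤ B0 * G x)
    (hU : ∀ z z', A z → A z' → (U z' : ℝ) ≤ (1 + τ) * (U z + CL * dist z z') + b)
    (hmA : ∀ x, A x → ∀ z ∈ m x, A z)
    (hm : ∀ x z, A x → A z → dist x z ≤ U x → ∃ z' ∈ m x, dist z z' ≤ st x ∧ (st x = 0 → z' = z))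
    (hst : ∀ x, A x → st x = 0 ∨ ((st x : ℝ) ≤ α * U x ∧ (b : ℝ) ≤ α * U x)) :
    ALip A dist (1 / (1 + τ + (2 + (1 + τ) * CL) * (α * B0)))
      (fun x => hull (U x) (m x) (fun z => dist x z) U) := by
  intro x x' hx hx'
  set c : ℝ := 1 + τ + (2 + (1 + τ) * CL) * (α * B0) with hc
  have hαB : 0 ≤ α * B0 := by positivity
  have hc1 : 1 ≤ c := by
    have : 0 ≤ (2 + (1 + τ) * CL) * (α * B0) := by positivity
    linarith
  have hc0 : 0 < c := by linarith
  -- a representation of the value at `x'`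
  obtain ⟨z, hz, hval⟩ : ∃ z, A z ∧
      dist x z + U z ≤ hull (U x') (m x') (fun z => dist x' z) U + dist x x' := by
    rcases hull_attained (own := U x') (m := m x') (d := fun z => dist x' z) (f := U) with
      e | ⟨z, hz, e⟩
    · exact ⟨x', hx', by rw [e]; omega⟩
    · refine ⟨z, hmA x' hx' z hz, ?_⟩
      rw [e]
      have := htri x x' z
      show dist x z + U z ≤ dist x' z + U z + dist x x'
      omega
  have hvalR : (dist x z : ℝ) + U z ≤
      (hull (U x') (m x') (fun z => dist x' z) U : ℝ) + dist x x' := by exact_mod_cast hval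
  suffices h : (hull (U x) (m x) (fun z => dist x z) U : ℝ) ≤ c * (dist x z + U z) by
    show 1 / c * (hull (U x) (m x) (fun z => dist x z) U : ℝ) ≤ _
    rw [one_div, inv_mul_le_iff₀ hc0]
    exact h.trans (mul_le_mul_of_nonneg_left hvalR hc0.le)
  have hUz : (0 : ℝ) ≤ U z := Nat.cast_nonneg _
  have hdz : (0 : ℝ) ≤ dist x z := Nat.cast_nonneg _
  have hown : (hull (U x) (m x) (fun z => dist x z) U : ℝ) ≤ U x := by
    exact_mod_cast hull_le_own
  by_cases hd : dist x z ≤ U x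
  swap
  · have h1 : (U x : ℝ) ≤ dist x z := by exact_mod_cast (not_le.1 hd).le
    nlinarith
  obtain ⟨z', hz', hzz, hz0⟩ := hm x z hx hz hd
  have h1 : (hull (U x) (m x) (fun z => dist x z) U : ℝ) ≤ dist x z' + U z' := by
    exact_mod_cast hull_le (own := U x) (m := m x) (d := fun z => dist x z) (f := U) hz'
  by_cases h0 : st x = 0
  · have h2 := hz0 h0
    subst h2
    nlinarith
  obtain ⟨hs1, hs2⟩ := (hst x hx).resolve_left h0
  -- lower bound of the target by `U x / B0`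
  have hT : (U x : ℝ) ≤ B0 * (dist x z + U z) := by
    have h2 : (G x : ℝ) ≤ G z + dist x z := by exact_mod_cast hG x z hx hz
    have h3 : (G z : ℝ) ≤ U z := by exact_mod_cast hGU z hz
    have h4 := hUG x hx h0
    have h5 : B0 * (G x : ℝ) ≤ B0 * (dist x z + U z) :=
      mul_le_mul_of_nonneg_left (by linarith) (by linarith)
    linarith
  have h2 : (dist x z' : ℝ) ≤ dist x z + st x := by
    have h3 := htri x z z'
    have h4 : dist x z' ≤ dist x z + st x := by omega
    exact_mod_cast h4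
  have h3 := hU z z' hz (hmA x hx z' hz')
  have h4 : (dist z z' : ℝ) ≤ st x := by exact_mod_cast hzz
  have h5 : (1 + τ) * CL * (dist z z' : ℝ) ≤ (1 + τ) * CL * (α * U x) :=
    mul_le_mul_of_nonneg_left (h4.trans hs1) (by positivity)
  have h6 : α * (U x : ℝ) ≤ α * B0 * (dist x z + U z) := by
    have := mul_le_mul_of_nonneg_left hT hα
    linarith
  have h7 : (2 + (1 + τ) * CL) * (α * (U x : ℝ)) ≤
      (2 + (1 + τ) * CL) * (α * B0 * (dist x z + U z)) :=
    mul_le_mul_of_nonneg_left h6 (by positivity)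
  calc (hull (U x) (m x) (fun z => dist x z) U : ℝ) ≤ dist x z' + U z' := h1
    _ ≤ dist x z + st x + ((1 + τ) * (U z + CL * dist z z') + b) := by linarith
    _ ≤ (1 + τ) * (dist x z + U z) + (2 + (1 + τ) * CL) * (α * U x) := by nlinarith
    _ ≤ (1 + τ) * (dist x z + U z) + (2 + (1 + τ) * CL) * (α * B0 * (dist x z + U z)) := by
        linarith
    _ = c * (dist x z + U z) := by rw [hc]; ring

end base

end Crest.Agent.R288.HullLip364
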