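import Crest.Agent.R288.AlgB_45
import Crest.Agent.R288.HullLip_364

/-!
# R288: the approximate Lipschitz property of the unit functions of Alg45 v2 (helper364; (A7)(d) of #4877)

* `hull_step2` : one pair of states; a pair of the menu of `x'` is either in the menu of `x` or covered by
  the retire price of `x`;
* `mem_rngC`, `mem_menu`, `of_mem_menu`, `rdz_mem_menu` : the clamped menus of Alg45;
* `pm`, `hull_eq` : the pairs of `Alg45.hull`, as a `Hull131.hull`;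
* `hull_alip` : **`ALip A dist s F ⊢ ALip A dist (s - 2/2^al) (hull P F f)`**, `A` = states of one block in
  the domain, `F z ≤ f κ z` at the inadmissible pairs;
* `FE_alip` : iteration over `FE`;
* `FE0_alip` : the start `FE 0`.
-/

set_option autoImplicit false

namespace Crest.Agent.R288.HullLipA364

open Crest.Agent.R288.Alg45 Crest.Agent.R288.HullLip364

/-! ## One pair of states -/

section abs

universe v

variable {Q : Type v}

/-- `hull_step` with pairs whose number itself covers the retire price -/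
theorem hull_step2 {own own' r : ℕ} {m m' : List Q} {d d' f : Q → ℕ} {s : ℝ} (hs : s ≤ 1)
    (hF : s * own ≤ own' + r)
    (hm : ∀ p ∈ m', (p ∈ m ∧ d p ≤ d' p + r) ∨ s * own ≤ d' p + f p + r) :
    s * Hull131.hull own m d f ≤ Hull131.hull own' m' d' f + r := by
  have h0 : (Hull131.hull own m d f : ℝ) ≤ own := by exact_mod_cast Hull131.hull_le_own
  have hp : (0 : ℝ) ≤ Hull131.hull own m d f := Nat.cast_nonneg _
  have own0 : (0 : ℝ) ≤ own := Nat.cast_nonneg _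
  rcases le_or_gt s 0 with hs0 | hs0
  · have h1 : s * Hull131.hull own m d f ≤ 0 := mul_nonpos_of_nonpos_of_nonneg hs0 hp
    have h2 : (0 : ℝ) ≤ Hull131.hull own' m' d' f + r := by positivity
    linarith
  have hsown : s * Hull131.hull own m d f ≤ s * own := mul_le_mul_of_nonneg_left h0 hs0.le
  rcases Hull131.hull_attained (own := own') (m := m') (d := d') (f := f) with e | ⟨p, hp', e⟩
  · rw [e]
    exact hsown.trans hF
  · rw [e]
    push_cast
    rcases hm p hp' with ⟨h1, h2⟩ | h1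
    · have h3 : (Hull131.hull own m d f : ℝ) ≤ d p + f p := by exact_mod_cast Hull131.hull_le h1
      have h4 : (d p : ℝ) ≤ d' p + r := by exact_mod_cast h2
      have h5 : s * Hull131.hull own m d f ≤ Hull131.hull own m d f := by nlinarith
      linarith
    · linarith

end abs

/-! ## Elementary facts of Alg45 -/

variable (P : Par)

theorem dist_self (y : St) : Alg45.dist y y = 0 := by simp [Alg45.dist]

theorem dist_comm (y z : St) : Alg45.dist y z = Alg45.dist z y := by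
  unfold Alg45.dist; omega

theorem dist_tri (x y z : St) : Alg45.dist x z ≤ Alg45.dist x y + Alg45.dist y z := by
  unfold Alg45.dist; omega

theorem mem_rngC {lo hi κ : ℕ} : κ ∈ rngC lo hi ↔ lo ≤ κ ∧ κ ≤ hi := by
  unfold rngC
  simp only [List.mem_map, List.mem_range]
  constructor
  · rintro ⟨t, ht, rfl⟩; omega
  · rintro ⟨h1, h2⟩; exact ⟨κ - lo, by omega, by omega⟩

theorem gst_pos (κ : ℕ) : 0 < gst P κ := by unfold gst; positivity

theorem dvd_rd (κ : ℕ) (u : ℤ) : (gst P κ : ℤ) ∣ rd P κ u := by unfold rd; exact dvd_mul_left _ _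

theorem rd_le (κ : ℕ) (u : ℤ) : rd P κ u ≤ u := by
  have h : (0 : ℤ) < gst P κ := by exact_mod_cast gst_pos P κ
  unfold rd
  exact Int.ediv_mul_le u h.ne'

theorem lt_rd (κ : ℕ) (u : ℤ) : u < rd P κ u + gst P κ := by
  have h : (0 : ℤ) < gst P κ := by exact_mod_cast gst_pos P κ
  unfold rd
  have := Int.lt_ediv_add_one_mul_self u h
  linarith

theorem clp_of {u : ℤ} (h : u.natAbs ≤ P.Dm) : clp P u = u := by
  unfold clp; omega

theorem natAbs_clp (u : ℤ) : (clp P u).natAbs ≤ P.Dm := by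
  unfold clp; omega

theorem clp_lip (u w : ℤ) : (clp P u - clp P w).natAbs ≤ (u - w).natAbs := by
  unfold clp; omega

/-- index of a grid integer near `rd u` -/
theorem exists_idx {κ ρ : ℕ} {u w : ℤ} (hw : (gst P κ : ℤ) ∣ w) (hd : (w - u).natAbs ≤ ρ) :
    ∃ a : ℕ, a < 2 * (ρ / gst P κ) + 3 ∧
      w = rd P κ u + ((a : ℤ) - (ρ / gst P κ + 1 : ℕ)) * (gst P κ : ℤ) := by
  have hg : 0 < gst P κ := gst_pos P κ
  have hgZ : (0 : ℤ) < gst P κ := by exact_mod_cast hg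
  obtain ⟨t, ht⟩ : (gst P κ : ℤ) ∣ w - rd P κ u := dvd_sub hw (dvd_rd P κ u)
  have h1 := rd_le P κ u
  have h2 := lt_rd P κ u
  have h3 : (ρ : ℤ) < gst P κ * ((ρ / gst P κ : ℕ) + 1) := by
    have := Nat.lt_mul_div_succ ρ hg
    exact_mod_cast this
  have h4 : (w - u) ≤ ρ := by omega
  have h5 : -(ρ : ℤ) ≤ w - u := by omega
  have h6 : -((ρ / gst P κ : ℕ) + 1 : ℤ) < t := by
    by_contra hc
    have hc' : t ≤ -((ρ / gst P κ : ℕ) + 1 : ℤ) := by omega
    have h7 : (gst P κ : ℤ) * t ≤ gst P κ * (-((ρ / gst P κ : ℕ) + 1 : ℤ)) :=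
      mul_le_mul_of_nonneg_left hc' hgZ.le
    nlinarith
  have h7 : t < (ρ / gst P κ : ℕ) + 2 := by
    by_contra hc
    have hc' : ((ρ / gst P κ : ℕ) : ℤ) + 2 ≤ t := by omega
    have h8 : (gst P κ : ℤ) * (((ρ / gst P κ : ℕ) : ℤ) + 2) ≤ gst P κ * t :=
      mul_le_mul_of_nonneg_left hc' hgZ.le
    nlinarith
  refine ⟨(t + ((ρ / gst P κ : ℕ) + 1)).toNat, by omega, ?_⟩
  have h8 : (((t + ((ρ / gst P κ : ℕ) + 1)).toNat : ℕ) : ℤ) = t + ((ρ / gst P κ : ℕ) + 1) :=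
    Int.toNat_of_nonneg (by omega)
  rw [h8]
  push_cast
  linarith

/-- the clamp of a grid state near `y` is in the menu of `y` -/
theorem clp_mem_menu {κ ρ : ℕ} {y : St} {u v : ℤ} (hu : (gst P κ : ℤ) ∣ u) (hv : (gst P κ : ℤ) ∣ v)
    (hdu : (u - y.u).natAbs ≤ ρ) (hdv : (v - y.v).natAbs ≤ ρ) :
    (⟨y.i, y.j, clp P u, clp P v⟩ : St) ∈ menu P κ ρ y := by
  obtain ⟨a, ha, hau⟩ := exists_idx P (ρ := ρ) hu hdu
  obtain ⟨b, hb, hbv⟩ := exists_idx P (ρ := ρ) hv hdv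
  have hmem : ∀ {c n : ℕ}, c < n → (c : ℤ) ∈ (do let a ← List.range n; pure (a : ℤ) : List ℤ) := by
    intro c n hc
    simp only [List.bind_eq_flatMap, List.mem_flatMap, List.pure_def, List.mem_singleton]
    exact ⟨c, List.mem_range.2 hc, rfl⟩
  unfold menu
  rw [List.mem_flatMap]
  refine ⟨a, hmem ha, ?_⟩
  rw [List.mem_map]
  refine ⟨b, hmem hb, ?_⟩
  rw [← hau, ← hbv]

theorem mem_menu {κ ρ : ℕ} {y z : St} (hi : z.i = y.i) (hj : z.j = y.j) (hD : inD P z)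
    (hu : (gst P κ : ℤ) ∣ z.u) (hv : (gst P κ : ℤ) ∣ z.v)
    (hdu : (z.u - y.u).natAbs ≤ ρ) (hdv : (z.v - y.v).natAbs ≤ ρ) : z ∈ menu P κ ρ y := by
  have h := clp_mem_menu P (y := y) (ρ := ρ) hu hv hdu hdv
  rw [clp_of P hD.1, clp_of P hD.2, ← hi, ← hj] at h
  exact h

theorem of_mem_menu {κ ρ : ℕ} {y z : St} (h : z ∈ menu P κ ρ y) :
    z.i = y.i ∧ z.j = y.j ∧ inD P z := by
  unfold menu at h
  rw [List.mem_flatMap] at h
  obtain ⟨a, _, h⟩ := h
  rw [List.mem_map] at h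
  obtain ⟨b, _, rfl⟩ := h
  exact ⟨rfl, rfl, natAbs_clp P _, natAbs_clp P _⟩

/-! ## The pairs of the hull -/

/-- all pairs of the menu of `hull` -/
def pm (F : St → ℕ) (y : St) : List (ℕ × St) :=
  (rngC (Alg45.cls F y - P.al) (Alg45.cls F y + P.a2)).flatMap fun κ' =>
    (menu P κ' (2 * F y) y).map fun z => (κ', z)

theorem mem_pm {F : St → ℕ} {y : St} {p : ℕ × St} : p ∈ pm P F y ↔
    (Alg45.cls F y - P.al ≤ p.1 ∧ p.1 ≤ Alg45.cls F y + P.a2) ∧ p.2 ∈ menu P p.1 (2 * F y) y := by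
  unfold pm
  simp only [List.mem_flatMap, List.mem_map]
  constructor
  · rintro ⟨κ', h1, z, hz, rfl⟩
    exact ⟨mem_rngC.1 h1, hz⟩
  · rintro ⟨h1, h2⟩
    exact ⟨p.1, mem_rngC.2 h1, p.2, h2, rfl⟩

theorem hull_eq (F : St → ℕ) (f : ℕ → St → ℕ) (y : St) : Alg45.hull P F f y =
    Hull131.hull (F y) (pm P F y) (fun p => Alg45.dist y p.2) (fun p => f p.1 p.2) := by
  have h : ((rngC (Alg45.cls F y - P.al) (Alg45.cls F y + P.a2)).flatMap fun κ' =>
      (menu P κ' (2 * F y) y).map fun z => Alg45.dist y z + f κ' z) =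
      (pm P F y).map fun p => Alg45.dist y p.2 + f p.1 p.2 := by
    unfold pm
    rw [List.map_flatMap]
    simp only [List.map_map, Function.comp_def]
  unfold Alg45.hull Hull131.hull lmin
  rw [h, List.foldl_map]

/-! ## The step -/

/-- the states of one block in the domain -/
def Blk (i j : ℕ) (y : St) : Prop := y.i = i ∧ y.j = j ∧ inD P y

theorem Blk.menu {i j κ ρ : ℕ} {y z : St} (hy : Blk P i j y) (h : z ∈ menu P κ ρ y) :
    Blk P i j z := by
  obtain ⟨h1, h2, h3⟩ := of_mem_menu P h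
  exact ⟨h1.trans hy.1, h2.trans hy.2.1, h3⟩

theorem adm_iff {F : St → ℕ} {κ : ℕ} {y : St} : adm P F κ y = true ↔
    rdn P κ y = y ∧ (y.v - y.u).natAbs ≤ 8 * 2 ^ κ ∧ κ ≤ Alg45.cls F y + 1 ∧
      Alg45.cls F y ≤ κ + 1 := by
  unfold adm
  simp only [Bool.and_eq_true, decide_eq_true_eq, and_assoc]

theorem dvd_of_rdn {κ : ℕ} {y : St} (h : rdn P κ y = y) :
    (gst P κ : ℤ) ∣ y.u ∧ (gst P κ : ℤ) ∣ y.v := by
  have h1 : rd P κ y.u = y.u := congrArg St.u h
  have h2 : rd P κ y.v = y.v := congrArg St.v h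
  exact ⟨h1 ▸ dvd_rd P κ y.u, h2 ▸ dvd_rd P κ y.v⟩

/-- **the step**: `f` = the numbers; at inadmissible pairs of the menus they are at least `F` -/
theorem hull_alip {i j : ℕ} {F : St → ℕ} {f : ℕ → St → ℕ} {s : ℝ} (ha2 : 3 ≤ P.a2) (hs : s ≤ 1)
    (hs3 : 1 / 3 ≤ s) (hF : ALip (Blk P i j) Alg45.dist s F)
    (hf : ∀ y, Blk P i j y → ∀ p ∈ pm P F y, adm P F p.1 p.2 = false → F p.2 ≤ f p.1 p.2) :
    ALip (Blk P i j) Alg45.dist (s - 2 / 2 ^ P.al) (Alg45.hull P F f) := by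
  intro x x' hx hx'
  rw [hull_eq, hull_eq]
  have h2a : (0 : ℝ) < 2 ^ P.al := by positivity
  have hθ : (0 : ℝ) ≤ 2 / 2 ^ P.al := by positivity
  have hFx : (0 : ℝ) ≤ F x := Nat.cast_nonneg _
  have hsub : (s - 2 / 2 ^ P.al) * (F x : ℝ) ≤ s * F x :=
    mul_le_mul_of_nonneg_right (by linarith) hFx
  refine hull_step2 (by linarith) ?_ ?_
  · have h1 := hF x x' hx hx'
    linarith
  intro p hp
  have hA : Blk P i j p.2 := hx'.menu P ((mem_pm P).1 hp).2
  have htr : Alg45.dist x p.2 ≤ Alg45.dist x' p.2 + Alg45.dist x x' := by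
    have := dist_tri x x' p.2; omega
  have htrR : (Alg45.dist x p.2 : ℝ) ≤ Alg45.dist x' p.2 + Alg45.dist x x' := by
    exact_mod_cast htr
  have hfp : (0 : ℝ) ≤ f p.1 p.2 := Nat.cast_nonneg _
  by_cases hadm : adm P F p.1 p.2 = true
  swap
  · -- inadmissible
    refine Or.inr ?_
    have h1 := hf x' hx' p hp (by simpa using hadm)
    have h2 : (F p.2 : ℝ) ≤ f p.1 p.2 := by exact_mod_cast h1
    have h3 := hF x p.2 hx hA
    linarith
  obtain ⟨hgr, -, hc1, hc2⟩ := (adm_iff P).1 hadm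
  by_cases hd : Alg45.dist x p.2 ≤ F x
  swap
  · refine Or.inr ?_
    have h1 : (F x : ℝ) ≤ Alg45.dist x p.2 := by exact_mod_cast (not_le.1 hd).le
    have h2 : s * (F x : ℝ) ≤ 1 * F x := mul_le_mul_of_nonneg_right hs hFx
    linarith
  rcases Nat.eq_zero_or_pos (F x) with h0 | h0
  · refine Or.inr ?_
    have : (F x : ℝ) = 0 := by exact_mod_cast h0
    rw [this, mul_zero]
    positivity
  have hx1 : 2 ^ Alg45.cls F x ≤ F x := Nat.pow_log_le_self 2 h0.ne'
  have hx2 : F x < 2 ^ (Alg45.cls F x + 1) := Nat.lt_pow_succ_log_self one_lt_two (F x)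
  by_cases hk1 : Alg45.cls F x ≤ p.1 + P.al
  swap
  · -- too fine
    refine Or.inr ?_
    have h1 : F p.2 * 2 ^ P.al ≤ 2 * F x := by
      have h3 : F p.2 < 2 ^ (p.1 + 2) := by
        refine (Nat.lt_pow_succ_log_self one_lt_two (F p.2)).trans_le ?_
        exact Nat.pow_le_pow_right (by norm_num) (by unfold Alg45.cls at hc2; omega)
      have h4 : 2 ^ (p.1 + 2) * 2 ^ P.al ≤ 2 * 2 ^ Alg45.cls F x := by
        rw [← pow_add, ← pow_succ']
        exact Nat.pow_le_pow_right (by norm_num) (by omega)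
      calc F p.2 * 2 ^ P.al ≤ 2 ^ (p.1 + 2) * 2 ^ P.al := Nat.mul_le_mul_right _ h3.le
        _ ≤ 2 * 2 ^ Alg45.cls F x := h4
        _ ≤ 2 * F x := Nat.mul_le_mul_left _ hx1
    have h2 : (F p.2 : ℝ) ≤ 2 / 2 ^ P.al * F x := by
      rw [div_mul_eq_mul_div, le_div_iff₀ h2a]
      exact_mod_cast h1
    have h3 := hF x p.2 hx hA
    have h4 : (s - 2 / 2 ^ P.al) * (F x : ℝ) = s * F x - 2 / 2 ^ P.al * F x := by ring
    rw [h4]
    linarith
  by_cases hk2 : p.1 ≤ Alg45.cls F x + P.a2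
  swap
  · -- too coarse
    refine Or.inr ?_
    have h1 : 4 * F x ≤ F p.2 := by
      have h3 : Alg45.cls F x + 3 ≤ Alg45.cls F p.2 := by omega
      have h4 : F p.2 ≠ 0 := by
        intro h; unfold Alg45.cls at h3; rw [h, Nat.log_zero_right] at h3; omega
      have h5 := Nat.pow_log_le_self 2 h4
      have h6 : 2 ^ (Alg45.cls F x + 3) ≤ 2 ^ Alg45.cls F p.2 :=
        Nat.pow_le_pow_right (by norm_num) h3
      have h7 : 2 ^ (Alg45.cls F x + 3) = 4 * 2 ^ (Alg45.cls F x + 1) := by ring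
      have h8 : 2 ^ Alg45.cls F p.2 ≤ F p.2 := h5
      omega
    have h2 : 4 * (F x : ℝ) ≤ F p.2 := by exact_mod_cast h1
    have h3 := hF p.2 x hA hx
    rw [dist_comm p.2 x] at h3
    have h5 : s * (4 * (F x : ℝ)) ≤ s * F p.2 := mul_le_mul_of_nonneg_left h2 (by linarith)
    have h7 : 1 / 3 * (F x : ℝ) ≤ s * F x := mul_le_mul_of_nonneg_right hs3 hFx
    have h8 : s * (F x : ℝ) ≤ 1 * F x := mul_le_mul_of_nonneg_right hs hFx
    nlinarith
  refine Or.inl ⟨(mem_pm P).2 ⟨⟨by omega, hk2⟩, ?_⟩, htr⟩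
  obtain ⟨hgu, hgv⟩ := dvd_of_rdn P hgr
  refine mem_menu P (hA.1.trans hx.1.symm) (hA.2.1.trans hx.2.1.symm) hA.2.2 hgu hgv ?_ ?_ <;>
  · unfold Alg45.dist at hd
    omega

/-! ## Iteration over `FE` -/

theorem le_cdiv_sum {K a : ℕ} {x : ℕ → ℕ} (hK : 0 < K) (h : ∀ i < K, a ≤ x i) :
    a ≤ cdiv (sumR K x) K := by
  have h1 : K * a ≤ sumR K x := by
    unfold sumR
    clear hK
    induction K with
    | zero => simp
    | succ K ih =>
      rw [List.range_succ, List.map_append, List.sum_append]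
      have h2 := ih fun i hi => h i (by omega)
      have h3 := h K (by omega)
      simp only [List.map_cons, List.map_nil, List.sum_cons, List.sum_nil, add_zero]
      rw [Nat.succ_mul]
      omega
  unfold cdiv
  rw [Nat.le_div_iff_mul_le hK, mul_comm]
  omega

/-- **`FE e` is approximately Lipschitz on every block of the domain.** -/
theorem FE_alip {i j : ℕ} {X : ℕ → ℕ × St → ℕ} {s : ℝ} {E : ℕ} (ha2 : 3 ≤ P.a2) (hK : 0 < P.K)
    (hs : s ≤ 1) (hE : 1 / 3 ≤ s - E * (2 / 2 ^ P.al))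
    (h0 : ALip (Blk P i j) Alg45.dist s (FE P X 0))
    (hX : ∀ e < E, ∀ y, Blk P i j y → ∀ p ∈ pm P (FE P X e) y, adm P (FE P X e) p.1 p.2 = false →
      ∀ k < P.K, FE P X e p.2 ≤ X (idx P e k) (p.1, p.2)) :
    ∀ e ≤ E, ALip (Blk P i j) Alg45.dist (s - e * (2 / 2 ^ P.al)) (FE P X e) := by
  have hθ : (0 : ℝ) ≤ 2 / 2 ^ P.al := by positivity
  intro e
  induction e with
  | zero => intro _; simpa using h0
  | succ e ih =>
    intro he
    have h1 := ih (by omega)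
    have h2 : (e : ℝ) * (2 / 2 ^ P.al) ≤ E * (2 / 2 ^ P.al) :=
      mul_le_mul_of_nonneg_right (by exact_mod_cast (by omega : e ≤ E)) hθ
    have h3 : (0 : ℝ) ≤ e * (2 / 2 ^ P.al) := by positivity
    have h4 := hull_alip P (f := Xbar P fun i κ z => X (idx P e i) (κ, z)) ha2
      (s := s - e * (2 / 2 ^ P.al)) (by linarith) (by linarith) h1
      (fun y hy p hp ha => le_cdiv_sum hK fun k hk => hX e (by omega) y hy p hp ha k hk)
    have h6 : s - ((e + 1 : ℕ) : ℝ) * (2 / 2 ^ P.al) = s - e * (2 / 2 ^ P.al) - 2 / 2 ^ P.al := by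
      push_cast; ring
    rw [h6]
    exact h4

/-! ## The start `FE 0` -/

theorem one_lt_gst {κ : ℕ} (h : gst P κ ≠ 1) : P.pb < κ := by
  by_contra hc
  exact h (by unfold gst; rw [Nat.sub_eq_zero_of_le (not_lt.1 hc), pow_zero])

/-- closure of the start bound `U` on the menus of Alg45; `G ≤ U`, `G` 1-Lipschitz, `U ≤ B0 G` at the states
with `2^(al+pb) ≤ U`, `U` `(1+τ, CL, b)`-Lipschitz -/
theorem hull_start {i j : ℕ} {G U : St → ℕ} {α τ CL B0 : ℝ} {b : ℕ}
    (hτ : 0 ≤ τ) (hCL : 0 ≤ CL) (hB : 1 ≤ B0) (hα : 2 ≤ α * 2 ^ (P.al + P.pb))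
    (hb : (b : ℝ) ≤ α * 2 ^ (P.al + P.pb))
    (hG : ∀ x z, Blk P i j x → Blk P i j z → G x ≤ G z + Alg45.dist x z)
    (hGU : ∀ x, Blk P i j x → G x ≤ U x)
    (hUG : ∀ x, Blk P i j x → 2 ^ (P.al + P.pb) ≤ U x → (U x : ℝ) ≤ B0 * G x)
    (hU : ∀ z z', Blk P i j z → Blk P i j z' →
      (U z' : ℝ) ≤ (1 + τ) * (U z + CL * Alg45.dist z z') + b) :
    ALip (Blk P i j) Alg45.dist (1 / (1 + τ + (2 + (1 + τ) * CL) * (α * B0)))
      (Alg45.hull P U fun _ z => U z) := by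
  have hE : (Alg45.hull P U fun _ z => U z) = fun x =>
      Hull131.hull (U x) ((pm P U x).map Prod.snd) (fun z => Alg45.dist x z) U := by
    funext x
    rw [hull_eq]
    unfold Hull131.hull
    rw [List.foldl_map]
  rw [hE]
  have h2p : (0 : ℝ) < 2 ^ (P.al + P.pb) := by positivity
  have hα0 : 0 ≤ α := by
    by_contra hc
    have : α * 2 ^ (P.al + P.pb) ≤ 0 := mul_nonpos_of_nonpos_of_nonneg (not_le.1 hc).le h2p.le
    linarith
  -- facts on the step
  have hbig : ∀ x, gst P (Alg45.cls U x - P.al) ≠ 1 →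
      gst P (Alg45.cls U x - P.al) * 2 ^ (P.al + P.pb) ≤ U x ∧ 2 ^ (P.al + P.pb) ≤ U x := by
    intro x hx
    have h1 := one_lt_gst P hx
    have h2 : U x ≠ 0 := by
      intro h; unfold Alg45.cls at h1; rw [h, Nat.log_zero_right] at h1; omega
    have h3 : 2 ^ Alg45.cls U x ≤ U x := Nat.pow_log_le_self 2 h2
    constructor
    · refine le_trans ?_ h3
      unfold gst
      rw [← pow_add]
      exact Nat.pow_le_pow_right (by norm_num) (by omega)
    · exact le_trans (Nat.pow_le_pow_right (by norm_num) (by omega)) h3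
  refine base_alip (G := G) (st := fun x => 2 * (gst P (Alg45.cls U x - P.al) - 1)) (b := b)
    hα0 hτ hCL hB dist_tri hG hGU ?_ hU ?_ ?_ ?_
  · intro x hx hst
    exact hUG x hx (hbig x (by omega)).2
  · intro x hx z hz
    obtain ⟨p, hp, rfl⟩ := List.mem_map.1 hz
    exact hx.menu P ((mem_pm P).1 hp).2
  · intro x z hx hz hd
    set κ := Alg45.cls U x - P.al with hκ
    have hgp := gst_pos P κ
    have hgU : gst P κ - 1 ≤ U x := by
      rcases Nat.eq_zero_or_pos (U x) with h0 | h0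
      · have : gst P κ = 1 := by
          by_contra hc
          have := (hbig x hc).2
          have h3 : 0 < 2 ^ (P.al + P.pb) := by positivity
          omega
        omega
      · by_cases hc : gst P κ = 1
        · omega
        · have h3 := (hbig x hc).1
          rw [← hκ] at h3
          have h4 : 1 ≤ 2 ^ (P.al + P.pb) := Nat.one_le_two_pow
          have h5 : gst P κ * 1 ≤ gst P κ * 2 ^ (P.al + P.pb) := Nat.mul_le_mul_left _ h4
          omega
    have hru := rd_le P κ z.u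
    have hru' := lt_rd P κ z.u
    have hrv := rd_le P κ z.v
    have hrv' := lt_rd P κ z.v
    have hdist : (x.u - z.u).natAbs + (x.v - z.v).natAbs ≤ U x := hd
    have hmem : (⟨x.i, x.j, clp P (rd P κ z.u), clp P (rd P κ z.v)⟩ : St) ∈
        menu P κ (2 * U x) x :=
      clp_mem_menu P (dvd_rd P κ _) (dvd_rd P κ _) (by omega) (by omega)
    refine ⟨⟨x.i, x.j, clp P (rd P κ z.u), clp P (rd P κ z.v)⟩, ?_, ?_, ?_⟩
    · exact List.mem_map.2 ⟨(κ, _), (mem_pm P).2 ⟨⟨le_rfl, by omega⟩, hmem⟩, rfl⟩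
    · have h1 := clp_lip P z.u (rd P κ z.u)
      have h2 := clp_lip P z.v (rd P κ z.v)
      rw [clp_of P hz.2.2.1] at h1
      rw [clp_of P hz.2.2.2] at h2
      show (z.u - clp P (rd P κ z.u)).natAbs + (z.v - clp P (rd P κ z.v)).natAbs ≤ _
      omega
    · intro h0
      have h1 : gst P κ = 1 := by omega
      have h2 : rd P κ z.u = z.u := by omega
      have h3 : rd P κ z.v = z.v := by omega
      rw [h2, h3, clp_of P hz.2.2.1, clp_of P hz.2.2.2, hx.1, hx.2.1]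
      obtain ⟨h4, h5, -⟩ := hz
      cases z
      simp only at h4 h5
      subst h4 h5
      rfl
  · intro x _
    by_cases hg : gst P (Alg45.cls U x - P.al) = 1
    · left
      show 2 * (gst P (Alg45.cls U x - P.al) - 1) = 0
      rw [hg]
    · right
      obtain ⟨h1, h2⟩ := hbig x hg
      have h1R : (gst P (Alg45.cls U x - P.al) : ℝ) * 2 ^ (P.al + P.pb) ≤ U x := by
        exact_mod_cast h1
      have h2R : (2 : ℝ) ^ (P.al + P.pb) ≤ U x := by exact_mod_cast h2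
      constructor
      · have h3 : ((2 * (gst P (Alg45.cls U x - P.al) - 1) : ℕ) : ℝ) ≤
            2 * (gst P (Alg45.cls U x - P.al) : ℝ) := by
          have : 2 * (gst P (Alg45.cls U x - P.al) - 1) ≤ 2 * gst P (Alg45.cls U x - P.al) := by
            omega
          exact_mod_cast this
        refine h3.trans ?_
        have h4 : 0 ≤ (gst P (Alg45.cls U x - P.al) : ℝ) := Nat.cast_nonneg _
        calc 2 * (gst P (Alg45.cls U x - P.al) : ℝ)
            ≤ α * 2 ^ (P.al + P.pb) * gst P (Alg45.cls U x - P.al) :=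
              mul_le_mul_of_nonneg_right hα h4
          _ = α * ((gst P (Alg45.cls U x - P.al) : ℝ) * 2 ^ (P.al + P.pb)) := by ring
          _ ≤ α * U x := mul_le_mul_of_nonneg_left h1R hα0
      · exact hb.trans (mul_le_mul_of_nonneg_left h2R hα0)

/-- the Lipschitz hypothesis of `hull_start` from an ideal start bound `U0` -/
theorem start_lip {A : St → Prop} {U : St → ℕ} {U0 : St → ℝ} {τ CL : ℝ} {b : ℕ} (hτ : 0 ≤ τ)
    (hl : ∀ z, A z → U0 z ≤ U z) (hu : ∀ z, A z → (U z : ℝ) ≤ (1 + τ) * U0 z + b)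
    (h0 : ∀ z z', A z → A z' → U0 z' ≤ U0 z + CL * Alg45.dist z z') :
    ∀ z z', A z → A z' → (U z' : ℝ) ≤ (1 + τ) * (U z + CL * Alg45.dist z z') + b := by
  intro z z' hz hz'
  have h1 := hu z' hz'
  have h2 := h0 z z' hz hz'
  have h3 := hl z hz
  have h4 : (1 + τ) * U0 z' ≤ (1 + τ) * (U z + CL * Alg45.dist z z') :=
    mul_le_mul_of_nonneg_left (by linarith) (by linarith)
  linarith

/-- **`FE 0`** -/
theorem FE0_alip {i j : ℕ} {X : ℕ → ℕ × St → ℕ} {G : St → ℕ} {U0 : St → ℝ} {α τ CL B0 : ℝ} {b : ℕ}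
    (hτ : 0 ≤ τ) (hCL : 0 ≤ CL) (hB : 1 ≤ B0) (hα : 2 ≤ α * 2 ^ (P.al + P.pb))
    (hb : (b : ℝ) ≤ α * 2 ^ (P.al + P.pb))
    (hG : ∀ x z, Blk P i j x → Blk P i j z → G x ≤ G z + Alg45.dist x z)
    (hGU : ∀ x, Blk P i j x → G x ≤ X 0 (0, x))
    (hUG : ∀ x, Blk P i j x → 2 ^ (P.al + P.pb) ≤ X 0 (0, x) → (X 0 (0, x) : ℝ) ≤ B0 * G x)
    (hl : ∀ z, Blk P i j z → U0 z ≤ X 0 (0, z))
    (hu : ∀ z, Blk P i j z → (X 0 (0, z) : ℝ) ≤ (1 + τ) * U0 z + b)
    (h0 : ∀ z z', Blk P i j z → Blk P i j z' → U0 z' ≤ U0 z + CL * Alg45.dist z z') :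
    ALip (Blk P i j) Alg45.dist (1 / (1 + τ + (2 + (1 + τ) * CL) * (α * B0))) (FE P X 0) := by
  have h := hull_start P (i := i) (j := j) (G := G) (U := fun z => X 0 (0, z)) hτ hCL hB hα hb
    hG hGU hUG (start_lip hτ hl hu h0)
  exact h

/-- **(A7)(d)**: all unit functions `FE e`, `e ≤ E`: `F(x) ≤ (1+ζ) (F(x') + dist x x')`; parameters
`τ + (2 + (1+τ) CL) α B0 ≤ ζ/4`, `E (2/2^al) ≤ ζ/4`. -/
theorem FE_lip {i j : ℕ} {X : ℕ → ℕ × St → ℕ} {ζ c : ℝ} {E : ℕ} (ha2 : 3 ≤ P.a2) (hK : 0 < P.K)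
    (hζ0 : 0 ≤ ζ) (hζ1 : ζ ≤ 1) (hc0 : 0 ≤ c) (hc : c ≤ ζ / 4) (hal : E * (2 / 2 ^ P.al) ≤ ζ / 4)
    (h0 : ALip (Blk P i j) Alg45.dist (1 / (1 + c)) (FE P X 0))
    (hX : ∀ e < E, ∀ y, Blk P i j y → ∀ p ∈ pm P (FE P X e) y, adm P (FE P X e) p.1 p.2 = false →
      ∀ k < P.K, FE P X e p.2 ≤ X (idx P e k) (p.1, p.2))
    {e : ℕ} (he : e ≤ E) :
    ALip (Blk P i j) Alg45.dist (1 - ζ / 2) (FE P X e) ∧
    ∀ x x', Blk P i j x → Blk P i j x' →
      (FE P X e x : ℝ) ≤ (1 + ζ) * (FE P X e x' + Alg45.dist x x') := by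
  have h1 : 1 - ζ / 4 ≤ 1 / (1 + c) := by
    rw [le_div_iff₀ (by linarith)]
    nlinarith
  have h2 : 1 / (1 + c) ≤ 1 := by
    rw [div_le_one (by linarith)]; linarith
  have h3 : (e : ℝ) * (2 / 2 ^ P.al) ≤ E * (2 / 2 ^ P.al) :=
    mul_le_mul_of_nonneg_right (by exact_mod_cast he) (by positivity)
  have h4 := FE_alip P ha2 hK h2 (by linarith) h0 hX e he
  have h5 : ALip (Blk P i j) Alg45.dist (1 - ζ / 2) (FE P X e) := h4.mono (by linarith)
  exact ⟨h5, fun x x' hx hx' => alip_zeta h5 hζ0 hζ1 hx hx'⟩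

end Crest.Agent.R288.HullLipA364
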