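import Crest.Agent.R288.Gt_373
import Crest.Agent.R288.AlgA_45

/-!
# Row 288, leaf GST (helper442): the exact cost `G` on the states of `AlgA_45`

* `Exact N Dm G` : the four facts about a cost `G : St → ℕ` which the analysis uses
  (`|v-u| ≤ G`, `1`-Lipschitz in `dist`, `G ≤` every cut staircase, attained with INNER cuts in
  `[-Dm, Dm]`);
* `gst x y n : St → ℕ` (`Gn` of helper373 at the binary height `n * i`), **`exact_gst`**, `gst_root`;
* `cut_left`, `cut_right`, `cut_both` : the cuts of a staircase stay within its cost;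
* `Exact.le_cuts` : `G ≤` the staircase sum of any cuts with the ends of the state;
* `Exact.exists_opt` : optimal cuts, `|m q - u| + |v - m q| ≤ G`, inner cuts in `[-Dm, Dm]`;
* `Exact.move_sum`, `Exact.round` : rounding of the cuts, `Exact.exists_round`: optimal cuts rounded
  by a rounding map.
-/

set_option autoImplicit false

namespace Crest.Agent.R288.GSt442

open Finset
open Crest.GraphRAM Crest.Agent.R288.GameA347 Crest.Agent.R288.NodeA785 Crest.Agent.R288.VI684
open Crest.Agent.R288.Gt373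
open Crest.Agent.R288.Alg45 (St Par)

/-- the staircase sum of the cuts `m` below the block `(i+1, j)` -/
def ssum (N : ℕ) (f : St → ℕ) (i j : ℕ) (m : ℕ → ℤ) : ℕ :=
  ∑ q ∈ range N, f ⟨i, N * j + q, m q, m (q + 1)⟩

/-- what the analysis uses of the exact cost; `Dm` = range of the inner cuts -/
structure Exact (N Dm : ℕ) (G : St → ℕ) : Prop where
  ge : ∀ x : St, (x.v - x.u).natAbs ≤ G x
  lip : ∀ y z : St, y.i = z.i → y.j = z.j → G y ≤ G z + Alg45.dist y z
  le : ∀ (i j : ℕ) (m : ℕ → ℤ), G ⟨i + 1, j, m 0, m N⟩ ≤ ssum N G i j m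
  opt : ∀ (i j : ℕ) (u v : ℤ), ∃ m : ℕ → ℤ, m 0 = u ∧ m N = v ∧
    (∀ q, 0 < q → q < N → -(Dm : ℤ) ≤ m q ∧ m q ≤ Dm) ∧ ssum N G i j m = G ⟨i + 1, j, u, v⟩

/-- the exact cost of a state, `n` = binary levels of a macro level -/
def gst (x y : List ℕ) (n : ℕ) (s : St) : ℕ := Gn x y (n * s.i) s.j s.u s.v

theorem stair_eq_ssum (x y : List ℕ) (n i j : ℕ) (m : ℕ → ℤ) :
    stair (Gt x y (n * i)) n j m = (ssum (2 ^ n) (gst x y n) i j m : ℝ) := by
  unfold stair ssum gst Gt
  push_cast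
  refine sum_congr rfl fun q _ => ?_
  rw [mul_comm]

/-- admissible diagonals of the rows `≤ |x|` -/
theorem adm_range {x y : List ℕ} {a : ℕ} {w : ℤ} {Dm : ℕ} (ha : a ≤ x.length) (hx : x.length ≤ Dm)
    (hy : y.length ≤ Dm) (h : Adm y.length a w) : -(Dm : ℤ) ≤ w ∧ w ≤ Dm := by
  obtain ⟨h1, h2⟩ := h
  omega

/-- an optimal staircase with admissible inner cuts -/
theorem exists_Gn_stair (x y : List ℕ) {Dm : ℕ} (hx : x.length ≤ Dm) (hy : y.length ≤ Dm)
    (h r j : ℕ) (u v : ℤ) :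
    ∃ m : ℕ → ℤ, m 0 = u ∧ m (2 ^ r) = v ∧
      (∀ q, 0 < q → q < 2 ^ r → -(Dm : ℤ) ≤ m q ∧ m q ≤ Dm) ∧
      ∑ t ∈ range (2 ^ r), Gn x y h (2 ^ r * j + t) (m t) (m (t + 1)) = Gn x y (h + r) j u v := by
  induction r generalizing j u v with
  | zero =>
    refine ⟨fun t => if t = 0 then u else v, by simp, by simp, fun q h1 h2 => ?_, ?_⟩
    · simp at h2; omega
    · simp
  | succ r ih =>
    obtain ⟨w, hw, he⟩ := exists_Gn_split x y (h + r) j u v
    obtain ⟨m1, a1, b1, d1, c1⟩ := ih (2 * j) u w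
    obtain ⟨m2, a2, b2, d2, c2⟩ := ih (2 * j + 1) w v
    have hp : 0 < 2 ^ r := by positivity
    have e2 : 2 ^ (r + 1) = 2 ^ r + 2 ^ r := by rw [pow_succ]; ring
    have hwD := adm_range (x := x) (y := y) (lo_le x.length (h + r) (2 * j + 1)) hx hy hw
    refine ⟨fun t => if t ≤ 2 ^ r then m1 t else m2 (t - 2 ^ r), by simp [a1], ?_, ?_, ?_⟩
    · simp only [e2]
      rw [if_neg (by omega), Nat.add_sub_cancel]
      exact b2
    · intro q h1 h2
      rw [e2] at h2
      simp only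
      rcases lt_trichotomy q (2 ^ r) with h3 | h3 | h3
      · rw [if_pos h3.le]; exact d1 q h1 h3
      · rw [if_pos h3.le, h3, b1]; exact hwD
      · rw [if_neg (by omega)]; exact d2 _ (by omega) (by omega)
    · have e3 : h + (r + 1) = h + r + 1 := rfl
      rw [e3, he, ← c1, ← c2, e2, sum_range_add]
      congr 1
      · refine sum_congr rfl fun t ht => ?_
        have ht' := mem_range.1 ht
        simp only
        rw [if_pos (by omega), if_pos (by omega)]
        congr 1
        ring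
      · refine sum_congr rfl fun t ht => ?_
        simp only
        have e4 : (2 ^ r + 2 ^ r) * j + (2 ^ r + t) = 2 ^ r * (2 * j + 1) + t := by ring
        rw [e4]
        rcases Nat.eq_zero_or_pos t with h0 | h0
        · subst h0
          rw [if_pos (by simp), if_neg (by omega)]
          simp only [add_zero, zero_add]
          rw [b1, a2]
          congr 2
          omega
        · rw [if_neg (by omega), if_neg (by omega)]
          congr 2 <;> omega

theorem exact_gst (x y : List ℕ) (n : ℕ) {Dm : ℕ} (hx : x.length ≤ Dm) (hy : y.length ≤ Dm) :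
    Exact (2 ^ n) Dm (gst x y n) where
  ge s := by
    have h := Gn_ge x y (n * s.i) s.j s.u s.v
    unfold gst
    omega
  lip a b hi hj := by
    have h := Gn_lip x y (n * a.i) a.j a.u a.v b.u b.v
    unfold gst Alg45.dist
    rw [← hi, ← hj]
    omega
  le i j m := by
    have h := Gt_le_stair x y (n * i) n j m
    rw [stair_eq_ssum] at h
    unfold gst
    have e : n * (i + 1) = n * i + n := by ring
    show Gn x y (n * (i + 1)) j (m 0) (m (2 ^ n)) ≤ _
    rw [e]
    unfold Gt at h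
    exact_mod_cast h
  opt i j u v := by
    obtain ⟨m, h0, h1, hD, h2⟩ := exists_Gn_stair x y hx hy (n * i) n j u v
    refine ⟨m, h0, h1, hD, ?_⟩
    have e : n * (i + 1) = n * i + n := by ring
    show _ = Gn x y (n * (i + 1)) j u v
    rw [e, ← h2]
    rfl

/-- the root -/
theorem gst_root (x y : List ℕ) {n I : ℕ} (h : x.length ≤ 2 ^ (n * I)) :
    gst x y n ⟨I, 0, 0, (y.length : ℤ) - x.length⟩ = editDist x y :=
  Gn_root x y h

section

variable {N Dm : ℕ} {G : St → ℕ}

/-! ## Cuts -/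

/-- a cut is within the cost of the part before it -/
theorem cut_left (f : St → ℕ) (hf : ∀ s : St, (s.v - s.u).natAbs ≤ f s) (i j : ℕ) (m : ℕ → ℤ)
    (N q : ℕ) : (m q - m 0).natAbs ≤ ∑ t ∈ range q, f ⟨i, N * j + t, m t, m (t + 1)⟩ := by
  induction q with
  | zero => simp
  | succ q ih =>
    rw [sum_range_succ]
    have h := hf ⟨i, N * j + q, m q, m (q + 1)⟩
    simp only at h
    omega

/-- ... and of the part behind it -/
theorem cut_right (f : St → ℕ) (hf : ∀ s : St, (s.v - s.u).natAbs ≤ f s) (i j : ℕ) (m : ℕ → ℤ)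
    (N q r : ℕ) : (m (q + r) - m q).natAbs
      ≤ ∑ t ∈ range r, f ⟨i, N * j + (q + t), m (q + t), m (q + t + 1)⟩ := by
  induction r with
  | zero => simp
  | succ r ih =>
    rw [sum_range_succ]
    have h := hf ⟨i, N * j + (q + r), m (q + r), m (q + r + 1)⟩
    simp only at h
    have e : q + (r + 1) = q + r + 1 := rfl
    rw [e]
    omega

/-- both parts together -/
theorem cut_both (f : St → ℕ) (hf : ∀ s : St, (s.v - s.u).natAbs ≤ f s) (i j : ℕ) (m : ℕ → ℤ)
    {N q : ℕ} (hq : q ≤ N) : (m q - m 0).natAbs + (m N - m q).natAbs ≤ ssum N f i j m := by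
  obtain ⟨r, rfl⟩ := Nat.exists_eq_add_of_le hq
  have h1 := cut_left f hf i j m (q + r) q
  have h2 := cut_right f hf i j m (q + r) q r
  unfold ssum
  rw [sum_range_add]
  exact Nat.add_le_add h1 h2

theorem ssum_mono {f g : St → ℕ} (h : ∀ s, f s ≤ g s) (i j : ℕ) (m : ℕ → ℤ) :
    ssum N f i j m ≤ ssum N g i j m := sum_le_sum fun _ _ => h _

theorem ssum_congr (f : St → ℕ) (i j : ℕ) {m m' : ℕ → ℤ} (h : ∀ q ≤ N, m q = m' q) :
    ssum N f i j m = ssum N f i j m' := by
  unfold ssum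
  refine sum_congr rfl fun q hq => ?_
  have := mem_range.1 hq
  rw [h q (by omega), h (q + 1) (by omega)]

/-- `G` of a state is at most the sum over every staircase with its ends -/
theorem Exact.le_cuts (E : Exact N Dm G) {x : St} {i : ℕ} (hx : x.i = i + 1) {m : ℕ → ℤ}
    (h0 : m 0 = x.u) (h1 : m N = x.v) : G x ≤ ssum N G i x.j m := by
  have h := E.le i x.j m
  rw [h0, h1] at h
  have e : (⟨i + 1, x.j, x.u, x.v⟩ : St) = x := by rw [← hx]
  rwa [e] at h

/-! ## Rounding -/

theorem Exact.move (E : Exact N Dm G) (i j : ℕ) (m m' : ℕ → ℤ) (q : ℕ) :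
    G ⟨i, N * j + q, m' q, m' (q + 1)⟩
      ≤ G ⟨i, N * j + q, m q, m (q + 1)⟩
        + ((m' q - m q).natAbs + (m' (q + 1) - m (q + 1)).natAbs) :=
  E.lip _ _ rfl rfl

theorem Exact.move_sum (E : Exact N Dm G) (i j : ℕ) (m m' : ℕ → ℤ) :
    ssum N G i j m'
      ≤ ssum N G i j m
        + ∑ q ∈ range N, ((m' q - m q).natAbs + (m' (q + 1) - m (q + 1)).natAbs) := by
  unfold ssum
  rw [← sum_add_distrib]
  exact sum_le_sum fun q _ => E.move i j m m' q

/-- cuts moved by at most `s`: the cost grows by at most `2 N s` -/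
theorem Exact.round (E : Exact N Dm G) (i j : ℕ) {m m' : ℕ → ℤ} {s : ℕ}
    (h : ∀ q ≤ N, (m' q - m q).natAbs ≤ s) : ssum N G i j m' ≤ ssum N G i j m + 2 * N * s := by
  refine (E.move_sum i j m m').trans (Nat.add_le_add_left ?_ _)
  calc ∑ q ∈ range N, ((m' q - m q).natAbs + (m' (q + 1) - m (q + 1)).natAbs)
      ≤ ∑ _q ∈ range N, 2 * s := sum_le_sum fun q hq => by
        have h1 := h q (mem_range.1 hq).le
        have h2 := h (q + 1) (mem_range.1 hq)
        omega
    _ = 2 * N * s := by rw [sum_const, card_range, smul_eq_mul]; ring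

/-- the optimal cuts: their distances and their range -/
theorem Exact.exists_opt (E : Exact N Dm G) {x : St} {i : ℕ} (hx : x.i = i + 1) :
    ∃ m : ℕ → ℤ, m 0 = x.u ∧ m N = x.v ∧ ssum N G i x.j m = G x ∧
      (∀ q, 0 < q → q < N → -(Dm : ℤ) ≤ m q ∧ m q ≤ Dm) ∧
      (∀ q ≤ N, (m q - x.u).natAbs + (x.v - m q).natAbs ≤ G x) := by
  obtain ⟨m, h0, h1, hD, h2⟩ := E.opt i x.j x.u x.v
  have e : (⟨i + 1, x.j, x.u, x.v⟩ : St) = x := by rw [← hx]
  rw [e] at h2
  refine ⟨m, h0, h1, h2, hD, fun q hq => ?_⟩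
  have := cut_both G E.ge i x.j m hq
  rw [h2, h0, h1] at this
  exact this

/-- **optimal cuts, rounded**: `B q w` = the allowed positions of cut `q`; every integer `w` in the range
(within `G x` of both ends, in `[-Dm, Dm]`) has an allowed position within `s` -/
theorem Exact.exists_round (E : Exact N Dm G) {x : St} {i s : ℕ} (hx : x.i = i + 1)
    (B : ℕ → ℤ → Prop)
    (hB : ∀ q, 0 < q → q < N → ∀ w : ℤ, -(Dm : ℤ) ≤ w → w ≤ Dm →
      (w - x.u).natAbs + (x.v - w).natAbs ≤ G x → ∃ w', B q w' ∧ (w' - w).natAbs ≤ s)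
    (hN : 0 < N) :
    ∃ m : ℕ → ℤ, m 0 = x.u ∧ m N = x.v ∧ (∀ q, 0 < q → q < N → B q (m q)) ∧
      (∀ q ≤ N, (m q - x.u).natAbs + (x.v - m q).natAbs ≤ G x + 2 * s) ∧
      ssum N G i x.j m ≤ G x + 2 * N * s := by
  obtain ⟨m, h0, h1, h2, h3, h4⟩ := E.exists_opt hx
  have hc : ∀ q, ∃ w' : ℤ, (0 < q → q < N → B q w') ∧ (q = 0 → w' = x.u) ∧ (q = N → w' = x.v) ∧
      (q ≤ N → (w' - m q).natAbs ≤ s) := by
    intro q
    rcases Nat.eq_zero_or_pos q with hq | hq
    · subst hq
      refine ⟨x.u, fun h => absurd h (lt_irrefl _), fun _ => rfl, fun h => absurd h hN.ne, fun _ => ?_⟩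
      rw [h0]; simp
    · rcases lt_trichotomy q N with h5 | h5 | h5
      · obtain ⟨w', hw, hs⟩ := hB q hq h5 (m q) (h3 q hq h5).1 (h3 q hq h5).2 (h4 q h5.le)
        exact ⟨w', fun _ _ => hw, fun h => absurd h hq.ne', fun h => absurd h h5.ne, fun _ => hs⟩
      · subst h5
        refine ⟨x.v, fun _ h => absurd h (lt_irrefl _), fun h => absurd h hq.ne', fun _ => rfl,
          fun _ => ?_⟩
        rw [h1]; simp
      · exact ⟨0, fun _ h => absurd h (by omega), fun h => absurd h hq.ne', fun h => absurd h h5.ne',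
          fun h => absurd h (by omega)⟩
  choose m' hm' using hc
  refine ⟨m', (hm' 0).2.1 rfl, (hm' N).2.2.1 rfl, fun q h5 h6 => (hm' q).1 h5 h6, fun q hq => ?_, ?_⟩
  · have h5 := h4 q hq
    have h6 := (hm' q).2.2.2 hq
    omega
  · rw [← h2]
    exact E.round i x.j fun q hq => (hm' q).2.2.2 hq

end

end Crest.Agent.R288.GSt442
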