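import Mathlib

/-!
# R288: the hull calculus and (F3') of ALG-U (helper131; #4628, #4672 (U2), #4684 (2))

* `hull own m d f` : `min own (min over the menu m of d z + f z)` (natural numbers, `foldl`; the same
  fold as `Loc45.chVal`);
* `hull_le_own`, `hull_le`, `le_hull`, `hull_attained`, `hull_mono`, `hull_lip`;
* `sum_hull_le` : the sum over the ranks of the hulls is at most `K` times the hull of (an upper bound
  of) the mean; `cmean` = rounded up mean, `sum_hull_cmean`;
* `sum_pieces` : the same summed over the pieces of a staircase;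
* `f3_state` : **(F3')**, one state, any staircase: `F_{e+1}(x) ≤ ∑ F_{e+1}(y_j) + (F_e(x) + reg)/K + errors`.
-/

set_option autoImplicit false

namespace Crest.Agent.R288.Hull131

open Finset

universe u

/-- `min own (min over z ∈ m of d z + f z)` -/
def hull {P : Type u} (own : ℕ) (m : List P) (d f : P → ℕ) : ℕ :=
  m.foldl (fun a z => min a (d z + f z)) own

section hull

variable {P : Type u} {own : ℕ} {m : List P} {d f : P → ℕ}

@[simp] theorem hull_nil : hull own [] d f = own := rfl

theorem hull_cons (z : P) : hull own (z :: m) d f = hull (min own (d z + f z)) m d f := rfl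

theorem hull_eq_min (z : P) : hull own (z :: m) d f = min (d z + f z) (hull own m d f) := by
  induction m generalizing own with
  | nil => simp [hull, min_comm]
  | cons w m ih =>
    rw [hull_cons, hull_cons, ← hull_cons (own := min own (d z + f z)), hull_cons, hull_cons,
      min_right_comm, ← hull_cons (own := min own (d w + f w)), ih]

theorem hull_le_own : hull own m d f ≤ own := by
  induction m generalizing own with
  | nil => exact le_rfl
  | cons w m ih => exact (ih (own := min own (d w + f w))).trans (min_le_left _ _)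

theorem hull_le {z : P} (hz : z ∈ m) : hull own m d f ≤ d z + f z := by
  induction m generalizing own with
  | nil => cases hz
  | cons w m ih =>
    rcases List.mem_cons.1 hz with rfl | hz
    · exact (hull_le_own (own := min own (d z + f z))).trans (min_le_right _ _)
    · exact ih (own := min own (d w + f w)) hz

theorem le_hull {a : ℕ} (h0 : a ≤ own) (h : ∀ z ∈ m, a ≤ d z + f z) : a ≤ hull own m d f := by
  induction m generalizing own with
  | nil => exact h0
  | cons w m ih =>
    exact ih (own := min own (d w + f w)) (le_min h0 (h w (by simp))) fun z hz => h z (by simp [hz])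

theorem hull_attained : hull own m d f = own ∨ ∃ z ∈ m, hull own m d f = d z + f z := by
  induction m generalizing own with
  | nil => exact Or.inl rfl
  | cons w m ih =>
    rcases ih (own := min own (d w + f w)) with h | ⟨z, hz, h⟩
    · rw [hull_cons, h]
      rcases min_choice own (d w + f w) with h' | h'
      · exact Or.inl h'
      · exact Or.inr ⟨w, by simp, h'⟩
    · exact Or.inr ⟨z, by simp [hz], h⟩

theorem hull_mono {own' : ℕ} {f' : P → ℕ} (h0 : own ≤ own') (h : ∀ z ∈ m, f z ≤ f' z) :
    hull own m d f ≤ hull own' m d f' :=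
  le_hull (hull_le_own.trans h0) fun z hz =>
    (hull_le hz).trans (Nat.add_le_add_left (h z hz) _)

/-- comparison of two hulls at distance `r` (targets of the second one available in the first) -/
theorem hull_lip {own' r : ℕ} {m' : List P} {d' : P → ℕ} (h0 : own ≤ own' + r)
    (h : ∀ z ∈ m', z ∈ m ∧ d z ≤ d' z + r) : hull own m d f ≤ hull own' m' d' f + r := by
  rcases hull_attained (own := own') (m := m') (d := d') (f := f) with e | ⟨z, hz, e⟩
  · rw [e]
    exact hull_le_own.trans h0
  · rw [e]
    have h1 := hull_le (own := own) (d := d) (f := f) (h z hz).1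
    have h2 := (h z hz).2
    omega

/-- **mean of the hulls ≤ hull of the mean** (sums over `K` ranks) -/
theorem sum_hull_le {K : ℕ} {X : ℕ → P → ℕ} {fb : P → ℕ}
    (h : ∀ z ∈ m, ∑ k ∈ range K, X k z ≤ K * fb z) :
    ∑ k ∈ range K, hull own m d (X k) ≤ K * hull own m d fb := by
  rcases hull_attained (own := own) (m := m) (d := d) (f := fb) with e | ⟨z, hz, e⟩
  · rw [e]
    calc ∑ k ∈ range K, hull own m d (X k) ≤ ∑ _k ∈ range K, own :=
          sum_le_sum fun k _ => hull_le_own
      _ = K * own := by simp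
  · rw [e]
    calc ∑ k ∈ range K, hull own m d (X k) ≤ ∑ k ∈ range K, (d z + X k z) :=
          sum_le_sum fun k _ => hull_le hz
      _ = K * d z + ∑ k ∈ range K, X k z := by simp [sum_add_distrib]
      _ ≤ K * (d z + fb z) := by
          have := h z hz
          rw [mul_add]
          omega

end hull

/-- rounded up mean over the ranks `< K` -/
def cmean (K : ℕ) (x : ℕ → ℕ) : ℕ := (∑ k ∈ range K, x k + (K - 1)) / K

theorem le_cmean {K : ℕ} (hK : 0 < K) (x : ℕ → ℕ) : ∑ k ∈ range K, x k ≤ K * cmean K x := by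
  unfold cmean
  have h := Nat.div_add_mod (∑ k ∈ range K, x k + (K - 1)) K
  have h2 := Nat.mod_lt (∑ k ∈ range K, x k + (K - 1)) hK
  omega

theorem cmean_le {K : ℕ} (hK : 0 < K) (x : ℕ → ℕ) :
    (cmean K x : ℝ) ≤ (∑ k ∈ range K, (x k : ℝ)) / K + 1 := by
  have h1 : K * cmean K x ≤ ∑ k ∈ range K, x k + (K - 1) := Nat.mul_div_le _ _
  have hK' : (0 : ℝ) < K := by exact_mod_cast hK
  have h2 : (K : ℝ) * cmean K x ≤ ∑ k ∈ range K, (x k : ℝ) + K := by
    have h3 : K * cmean K x ≤ ∑ k ∈ range K, x k + K := by omega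
    exact_mod_cast h3
  rw [div_add_one hK'.ne', le_div_iff₀ hK']
  linarith

theorem cmean_le_of_le {K : ℕ} (hK : 0 < K) {x : ℕ → ℕ} {B : ℕ} (h : ∀ k < K, x k ≤ B) :
    cmean K x ≤ B := by
  unfold cmean
  have h1 : ∑ k ∈ range K, x k ≤ K * B := by
    calc ∑ k ∈ range K, x k ≤ ∑ _k ∈ range K, B := sum_le_sum fun k hk => h k (mem_range.1 hk)
      _ = K * B := by simp
  have h2 : (∑ k ∈ range K, x k + (K - 1)) / K ≤ (K * B + (K - 1)) / K :=
    Nat.div_le_div_right (by omega)
  refine h2.trans ?_
  rw [Nat.div_le_iff_le_mul_add_pred hK]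

theorem le_cmean_of_le {K : ℕ} (hK : 0 < K) {x : ℕ → ℕ} {a : ℕ} (h : ∀ k < K, a ≤ x k) :
    a ≤ cmean K x := by
  have h1 : K * a ≤ ∑ k ∈ range K, x k := by
    calc K * a = ∑ _k ∈ range K, a := by simp
      _ ≤ ∑ k ∈ range K, x k := sum_le_sum fun k hk => h k (mem_range.1 hk)
  exact Nat.le_of_mul_le_mul_left (h1.trans (le_cmean hK x)) hK

/-- the hulls of the ranks against the hull of the rounded mean -/
theorem sum_hull_cmean {P : Type u} {own : ℕ} {m : List P} {d : P → ℕ} {K : ℕ} (hK : 0 < K)
    (X : ℕ → P → ℕ) :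
    ∑ k ∈ range K, hull own m d (X k) ≤ K * hull own m d (fun z => cmean K fun k => X k z) :=
  sum_hull_le fun z _ => le_cmean hK fun k => X k z

/-- summed over the pieces of a staircase: `g k y` = end value of rank `k` at the piece `y`,
`Fn y` = next unit -/
theorem sum_pieces {S : Type u} {K : ℕ} (l : List S) {g : ℕ → S → ℕ} {Fn : S → ℕ}
    (h : ∀ y ∈ l, ∑ k ∈ range K, g k y ≤ K * Fn y) :
    ∑ k ∈ range K, (l.map (g k)).sum ≤ K * (l.map Fn).sum := by
  induction l with
  | nil => simp
  | cons y l ih =>
    have h1 := h y (by simp)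
    have h2 := ih fun y hy => h y (by simp [hy])
    simp only [List.map_cons, List.sum_cons, sum_add_distrib, mul_add]
    omega

/-- **(F3')**, one state and one staircase.  `X k`, `R k`, `A k`, `W k` = number, arrival mean, value
before the jump, wild value of rank `k`; `g k` = end values of rank `k` of the staircase, `Sn` = sum of
the next unit over its pieces. -/
theorem f3_state {K : ℕ} (hK : 0 < K) {X R A W g : ℕ → ℝ} {F Fn Sn reg ν τ r : ℝ}
    (hFn : Fn ≤ (∑ k ∈ range K, X k) / K + r) (hX : ∀ k < K, X k ≤ R k + ν)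
    (hRA : ∀ k < K, R k ≤ A k + τ) (hAW : ∑ k ∈ range K, A k ≤ ∑ k ∈ range K, W k + reg)
    (hW0 : W 0 ≤ F) (hW : ∀ k, k + 1 < K → W (k + 1) ≤ g k) (hg0 : ∀ k < K, 0 ≤ g k)
    (hg : ∑ k ∈ range K, g k ≤ K * Sn) :
    Fn ≤ Sn + (F + reg) / K + (ν + τ + r) := by
  have hK' : (0 : ℝ) < K := by exact_mod_cast hK
  have hWs : ∑ k ∈ range K, W k ≤ ∑ k ∈ range K, g k + F := by
    obtain ⟨K, rfl⟩ : ∃ K', K = K' + 1 := ⟨K - 1, by omega⟩
    rw [sum_range_succ' (fun k => W k), sum_range_succ (fun k => g k)]
    have h5 : ∑ k ∈ range K, W (k + 1) ≤ ∑ k ∈ range K, g k :=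
      sum_le_sum fun k hk => hW k (by have := mem_range.1 hk; omega)
    have h6 := hg0 K (by omega)
    linarith
  have hXs : ∑ k ∈ range K, X k ≤ ∑ k ∈ range K, A k + K * (ν + τ) := by
    calc ∑ k ∈ range K, X k ≤ ∑ k ∈ range K, (A k + (ν + τ)) :=
          sum_le_sum fun k hk => by
            have := hX k (mem_range.1 hk); have := hRA k (mem_range.1 hk); linarith
      _ = _ := by rw [sum_add_distrib, sum_const, card_range, nsmul_eq_mul]
  have h1 : (∑ k ∈ range K, X k) / K ≤ Sn + (F + reg) / K + (ν + τ) := by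
    rw [div_le_iff₀ hK']
    have h2 : (Sn + (F + reg) / K + (ν + τ)) * K = K * Sn + (F + reg) + K * (ν + τ) := by
      field_simp
    rw [h2]
    linarith
  linarith

end Crest.Agent.R288.Hull131
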