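import Crest.Agent.R288.AlgA_45
import Crest.Agent.R288.Hull_131

/-!
# R288, [HULL] part B (helper407): menu and hull of AlgA_45 (ALG v2)

* grid: `gst_pos`, `gst_dvd`, `OnG`, `rd_onG`, `rd_le`, `lt_rd`, `rd_eq`, `dist_rdn`;
* domain: `clp_abs`, `clp_eq`, `clp_lip`, `OnG.clp`, `inD_rdn`;
* `mem_menu`, `menu_of`, `menu_inD`, `menu_onG`, `menu_dist`, `rdn_mem_menu` : the menu of a state = the
  (clamped) grid states of a box around it;
* `cmenu` : the list of pairs of the hull (independent of the numbers), `hull_eq` (= `Hull131.hull`),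
  `mem_cmenu`, `cmenu_of`, `own_mem_cmenu`;
* `hull_le_F`, `hull_le`, `hull_le_own`, `le_hull`, `hull_attained`, `hull_mono`, `hull_congr`,
  `le_hull_of_lip` (soundness), `sum_hull` (sum over the ranks ≤ `K` × hull of the rounded up mean),
  `FNext` versions.
-/

set_option autoImplicit false

namespace Crest.Agent.R288.HullB407

open Crest.Agent.R288.Alg45

variable (P : Par)

/-! ## Grids -/

theorem gst_pos (κ : ℕ) : 0 < gst P κ := Nat.pow_pos (by norm_num)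

theorem gst_dvd {κ κ' : ℕ} (h : κ ≤ κ') : gst P κ ∣ gst P κ' :=
  pow_dvd_pow 2 (Nat.sub_le_sub_right h _)

theorem gst_mono {κ κ' : ℕ} (h : κ ≤ κ') : gst P κ ≤ gst P κ' :=
  Nat.pow_le_pow_right (by norm_num) (Nat.sub_le_sub_right h _)

/-- `gst κ ≤ max 1 (2^κ / 2^pb)` -/
theorem gst_mul_le {κ : ℕ} (h : P.pb ≤ κ) : gst P κ * 2 ^ P.pb = 2 ^ κ := by
  unfold gst
  rw [← pow_add, Nat.sub_add_cancel h]

theorem gst_le (κ : ℕ) : gst P κ * 2 ^ P.pb ≤ 2 ^ κ + 2 ^ P.pb := by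
  rcases le_total P.pb κ with h | h
  · rw [gst_mul_le P h]
    exact Nat.le_add_right _ _
  · unfold gst
    rw [Nat.sub_eq_zero_of_le h, pow_zero, one_mul]
    exact Nat.le_add_left _ _

/-- multiple of the grid step of class `κ` -/
def OnG (κ : ℕ) (u : ℤ) : Prop := (gst P κ : ℤ) ∣ u

variable {P}

theorem OnG.anti {κ κ' : ℕ} {u : ℤ} (h : OnG P κ' u) (hκ : κ ≤ κ') : OnG P κ u :=
  (Int.natCast_dvd_natCast.2 (gst_dvd P hκ)).trans h

theorem OnG.add {κ : ℕ} {u v : ℤ} (h : OnG P κ u) (h' : OnG P κ v) : OnG P κ (u + v) := dvd_add h h'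

theorem OnG.sub {κ : ℕ} {u v : ℤ} (h : OnG P κ u) (h' : OnG P κ v) : OnG P κ (u - v) := dvd_sub h h'

theorem onG_mul (κ : ℕ) (a : ℤ) : OnG P κ (a * (gst P κ : ℤ)) := Dvd.intro_left _ rfl

theorem rd_onG (κ : ℕ) (u : ℤ) : OnG P κ (rd P κ u) := onG_mul κ _

theorem rd_le (κ : ℕ) (u : ℤ) : rd P κ u ≤ u := Int.ediv_mul_le _ (by have := gst_pos P κ; omega)

theorem lt_rd (κ : ℕ) (u : ℤ) : u < rd P κ u + gst P κ := by
  have h : (0 : ℤ) < gst P κ := by exact_mod_cast gst_pos P κ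
  have := Int.lt_ediv_add_one_mul_self u h
  unfold rd
  linarith

theorem rd_eq {κ : ℕ} {u : ℤ} (h : OnG P κ u) : rd P κ u = u := Int.ediv_mul_cancel h

theorem rd_eq_iff {κ : ℕ} {u : ℤ} : rd P κ u = u ↔ OnG P κ u :=
  ⟨fun h => h ▸ rd_onG κ u, rd_eq⟩

theorem rd_mono (κ : ℕ) {u v : ℤ} (h : u ≤ v) : rd P κ u ≤ rd P κ v :=
  mul_le_mul_of_nonneg_right (Int.ediv_le_ediv (by exact_mod_cast gst_pos P κ) h) (by positivity)

theorem natAbs_sub_rd (κ : ℕ) (u : ℤ) : (u - rd P κ u).natAbs < gst P κ := by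
  have h1 := rd_le (P := P) κ u
  have h2 := lt_rd (P := P) κ u
  omega

theorem dist_self (y : St) : Alg45.dist y y = 0 := by simp [Alg45.dist]

theorem dist_comm (y z : St) : Alg45.dist y z = Alg45.dist z y := by
  unfold Alg45.dist
  omega

theorem dist_tri (x y z : St) : Alg45.dist x z ≤ Alg45.dist x y + Alg45.dist y z := by
  unfold Alg45.dist
  omega

theorem dist_rdn (κ : ℕ) (y : St) : Alg45.dist y (rdn P κ y) ≤ 2 * gst P κ := by
  have h1 := natAbs_sub_rd (P := P) κ y.u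
  have h2 := natAbs_sub_rd (P := P) κ y.v
  show (y.u - rd P κ y.u).natAbs + (y.v - rd P κ y.v).natAbs ≤ _
  omega

@[simp] theorem rdn_i (κ : ℕ) (y : St) : (rdn P κ y).i = y.i := rfl
@[simp] theorem rdn_j (κ : ℕ) (y : St) : (rdn P κ y).j = y.j := rfl
@[simp] theorem rdn_u (κ : ℕ) (y : St) : (rdn P κ y).u = rd P κ y.u := rfl
@[simp] theorem rdn_v (κ : ℕ) (y : St) : (rdn P κ y).v = rd P κ y.v := rfl

theorem rdn_eq_iff {κ : ℕ} {y : St} : rdn P κ y = y ↔ OnG P κ y.u ∧ OnG P κ y.v := by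
  rw [← rd_eq_iff, ← rd_eq_iff]
  constructor
  · intro h
    exact ⟨congrArg St.u h, congrArg St.v h⟩
  · rintro ⟨h1, h2⟩
    cases y
    simp only [rdn, St.mk.injEq, true_and]
    exact ⟨h1, h2⟩

theorem rdn_rdn (κ : ℕ) (y : St) : rdn P κ (rdn P κ y) = rdn P κ y :=
  rdn_eq_iff.2 ⟨rd_onG κ _, rd_onG κ _⟩

/-! ## The domain -/

theorem clp_abs (u : ℤ) : (clp P u).natAbs ≤ P.Dm := by
  unfold clp
  omega

theorem clp_eq {u : ℤ} (h : u.natAbs ≤ P.Dm) : clp P u = u := by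
  unfold clp
  omega

theorem clp_lip (u v : ℤ) : |clp P u - clp P v| ≤ |u - v| := by
  unfold clp
  rcases abs_cases (u - v) with h | h <;>
    rcases abs_cases (max (-(P.Dm : ℤ)) (min (P.Dm : ℤ) u) - max (-(P.Dm : ℤ)) (min (P.Dm : ℤ) v)) with
      h' | h' <;> omega

/-- the clamp does not leave the interval between `u` and a point of the domain -/
theorem clp_sub_le {u v : ℤ} (hv : v.natAbs ≤ P.Dm) : |clp P u - v| ≤ |u - v| := by
  have := clp_lip (P := P) u v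
  rwa [clp_eq hv] at this

theorem OnG.clp {κ : ℕ} {u : ℤ} (hD : gst P κ ∣ P.Dm) (h : OnG P κ u) : OnG P κ (clp P u) := by
  have hD' : OnG P κ (P.Dm : ℤ) := Int.natCast_dvd_natCast.2 hD
  unfold Alg45.clp
  rcases le_total (P.Dm : ℤ) u with h1 | h1
  · rw [min_eq_left h1]
    rcases max_choice (-(P.Dm : ℤ)) (P.Dm : ℤ) with h2 | h2 <;> rw [h2]
    · exact (dvd_neg).2 hD'
    · exact hD'
  · rw [min_eq_right h1]
    rcases max_choice (-(P.Dm : ℤ)) u with h2 | h2 <;> rw [h2]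
    · exact (dvd_neg).2 hD'
    · exact h

theorem rd_dom {κ : ℕ} {u : ℤ} (hD : gst P κ ∣ P.Dm) (h : u.natAbs ≤ P.Dm) :
    (rd P κ u).natAbs ≤ P.Dm := by
  have h1 := rd_le (P := P) κ u
  have h2 : OnG P κ (-(P.Dm : ℤ)) := (dvd_neg).2 (Int.natCast_dvd_natCast.2 hD)
  have h3 := rd_mono (P := P) κ (u := -(P.Dm : ℤ)) (v := u) (by omega)
  rw [rd_eq h2] at h3
  omega

theorem inD_rdn {κ : ℕ} {y : St} (hD : gst P κ ∣ P.Dm) (h : inD P y) : inD P (rdn P κ y) :=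
  ⟨rd_dom hD h.1, rd_dom hD h.2⟩

/-! ## The menu -/

/-- one coordinate of the menu -/
theorem coord_iff {κ ρ : ℕ} {u w : ℤ} :
    (∃ a < 2 * (ρ / gst P κ) + 3, w = rd P κ u + ((a : ℤ) - (ρ / gst P κ + 1 : ℕ)) * (gst P κ : ℤ)) ↔
      OnG P κ w ∧ |w - rd P κ u| ≤ ((ρ / gst P κ + 1 : ℕ) : ℤ) * gst P κ := by
  have hg : (0 : ℤ) < gst P κ := by exact_mod_cast gst_pos P κ
  set R : ℕ := ρ / gst P κ + 1 with hR
  constructor
  · rintro ⟨a, ha, rfl⟩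
    refine ⟨(rd_onG κ u).add (onG_mul κ _), ?_⟩
    rw [add_sub_cancel_left, abs_mul, abs_of_pos hg]
    refine mul_le_mul_of_nonneg_right ?_ hg.le
    rw [abs_le]
    constructor <;> omega
  · rintro ⟨⟨c, hc⟩, h2⟩
    obtain ⟨d, hd⟩ := rd_onG (P := P) κ u
    have h3 : w - rd P κ u = (c - d) * (gst P κ : ℤ) := by rw [hc, hd]; ring
    rw [h3, abs_mul, abs_of_pos hg] at h2
    have h4 : |c - d| ≤ (R : ℤ) := le_of_mul_le_mul_right h2 hg
    rw [abs_le] at h4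
    refine ⟨(c - d + R).toNat, ?_, ?_⟩
    · omega
    · have h5 : (((c - d + R).toNat : ℕ) : ℤ) = c - d + R := Int.toNat_of_nonneg (by omega)
      rw [h5]
      linear_combination h3

/-- the values of one coordinate of the menu -/
def Crd (P : Par) (κ ρ : ℕ) (u w : ℤ) : Prop :=
  ∃ w', OnG P κ w' ∧ |w' - rd P κ u| ≤ ((ρ / gst P κ + 1 : ℕ) : ℤ) * gst P κ ∧ w = clp P w'

theorem mem_menu {κ ρ : ℕ} {y z : St} :
    z ∈ menu P κ ρ y ↔ z.i = y.i ∧ z.j = y.j ∧ Crd P κ ρ y.u z.u ∧ Crd P κ ρ y.v z.v := by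
  unfold menu Crd
  simp only [List.mem_flatMap, List.mem_map, List.mem_range, List.bind_eq_flatMap, List.pure_def,
    List.mem_singleton]
  constructor
  · rintro ⟨_, ⟨a, ha, rfl⟩, _, ⟨b, hb, rfl⟩, rfl⟩
    obtain ⟨h1, h2⟩ := coord_iff.1 ⟨a, ha, rfl⟩
    obtain ⟨h3, h4⟩ := coord_iff.1 ⟨b, hb, rfl⟩
    exact ⟨rfl, rfl, ⟨_, h1, h2, rfl⟩, ⟨_, h3, h4, rfl⟩⟩
  · rintro ⟨h1, h2, ⟨w, h3, h4, h5⟩, ⟨w', h6, h7, h8⟩⟩
    obtain ⟨a, ha, ha'⟩ := coord_iff.2 ⟨h3, h4⟩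
    obtain ⟨b, hb, hb'⟩ := coord_iff.2 ⟨h6, h7⟩
    refine ⟨a, ⟨a, ha, rfl⟩, b, ⟨b, hb, rfl⟩, ?_⟩
    rw [ha'] at h5
    rw [hb'] at h8
    cases z
    simp only at h1 h2 h5 h8
    subst h1 h2 h5 h8
    rfl

theorem crd_dom {κ ρ : ℕ} {u w : ℤ} (h : Crd P κ ρ u w) : w.natAbs ≤ P.Dm := by
  obtain ⟨w', -, -, rfl⟩ := h
  exact clp_abs w'

theorem crd_onG {κ ρ : ℕ} {u w : ℤ} (hD : gst P κ ∣ P.Dm) (h : Crd P κ ρ u w) : OnG P κ w := by
  obtain ⟨w', h1, -, rfl⟩ := h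
  exact h1.clp hD

/-- points of the domain on the grid at distance at most `ρ` -/
theorem crd_of {κ ρ : ℕ} {u w : ℤ} (hw : w.natAbs ≤ P.Dm) (hg' : OnG P κ w)
    (h : |w - u| ≤ (ρ : ℤ)) : Crd P κ ρ u w := by
  have hg : (0 : ℤ) < gst P κ := by exact_mod_cast gst_pos P κ
  refine ⟨w, hg', ?_, (clp_eq hw).symm⟩
  obtain ⟨c, hc⟩ := hg'.sub (rd_onG (P := P) κ u)
  have h1 := rd_le (P := P) κ u
  have h2 := lt_rd (P := P) κ u
  have h3 : |w - rd P κ u| < ρ + gst P κ := by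
    rw [abs_le] at h
    rw [abs_lt]
    constructor <;> linarith
  rw [hc, abs_mul, abs_of_pos hg] at h3 ⊢
  rw [mul_comm]
  refine mul_le_mul_of_nonneg_right ?_ hg.le
  have h4 : (ρ : ℤ) < (ρ / gst P κ + 1 : ℕ) * (gst P κ : ℤ) := by
    have := Nat.lt_div_mul_add (a := ρ) (gst_pos P κ)
    have h5 : ρ < (ρ / gst P κ + 1) * gst P κ := by rw [add_mul, one_mul]; exact this
    exact_mod_cast h5
  have h6 : (gst P κ : ℤ) * |c| < ((ρ / gst P κ + 1 : ℕ) + 1 : ℤ) * (gst P κ : ℤ) := by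
    linarith
  rw [mul_comm] at h6
  have h7 := lt_of_mul_lt_mul_right h6 hg.le
  omega

theorem crd_dist {κ ρ : ℕ} {u w : ℤ} (hu : u.natAbs ≤ P.Dm) (h : Crd P κ ρ u w) :
    |w - u| ≤ (ρ : ℤ) + 2 * gst P κ := by
  obtain ⟨w', -, hb, rfl⟩ := h
  refine (clp_sub_le hu).trans ?_
  have h0 : ((ρ / gst P κ + 1 : ℕ) : ℤ) * gst P κ ≤ ρ + gst P κ := by
    have : (ρ / gst P κ + 1) * gst P κ ≤ ρ + gst P κ := by
      rw [add_mul, one_mul]
      exact Nat.add_le_add_right (Nat.div_mul_le_self _ _) _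
    exact_mod_cast this
  have h3 := rd_le (P := P) κ u
  have h4 := lt_rd (P := P) κ u
  rw [abs_le] at hb ⊢
  constructor <;> linarith

theorem menu_inD {κ ρ : ℕ} {y z : St} (h : z ∈ menu P κ ρ y) : inD P z := by
  obtain ⟨-, -, h1, h2⟩ := mem_menu.1 h
  exact ⟨crd_dom h1, crd_dom h2⟩

theorem menu_i {κ ρ : ℕ} {y z : St} (h : z ∈ menu P κ ρ y) : z.i = y.i := (mem_menu.1 h).1

theorem menu_j {κ ρ : ℕ} {y z : St} (h : z ∈ menu P κ ρ y) : z.j = y.j := (mem_menu.1 h).2.1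

theorem menu_onG {κ ρ : ℕ} {y z : St} (hD : gst P κ ∣ P.Dm) (h : z ∈ menu P κ ρ y) :
    rdn P κ z = z := by
  obtain ⟨-, -, h1, h2⟩ := mem_menu.1 h
  exact rdn_eq_iff.2 ⟨crd_onG hD h1, crd_onG hD h2⟩

theorem menu_dist {κ ρ : ℕ} {y z : St} (hy : inD P y) (h : z ∈ menu P κ ρ y) :
    |z.u - y.u| ≤ (ρ : ℤ) + 2 * gst P κ ∧ |z.v - y.v| ≤ (ρ : ℤ) + 2 * gst P κ := by
  obtain ⟨-, -, h1, h2⟩ := mem_menu.1 h
  exact ⟨crd_dist hy.1 h1, crd_dist hy.2 h2⟩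

/-- grid states of the domain at distance at most `ρ` (each end) are in the menu -/
theorem menu_of {κ ρ : ℕ} {y z : St} (hi : z.i = y.i) (hj : z.j = y.j) (hz : inD P z)
    (hg : rdn P κ z = z) (hu : |z.u - y.u| ≤ (ρ : ℤ)) (hv : |z.v - y.v| ≤ (ρ : ℤ)) :
    z ∈ menu P κ ρ y := by
  rw [rdn_eq_iff] at hg
  exact mem_menu.2 ⟨hi, hj, crd_of hz.1 hg.1 hu, crd_of hz.2 hg.2 hv⟩

/-- the same with `dist` -/
theorem menu_of_dist {κ ρ : ℕ} {y z : St} (hi : z.i = y.i) (hj : z.j = y.j) (hz : inD P z)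
    (hg : rdn P κ z = z) (h : Alg45.dist y z ≤ ρ) : z ∈ menu P κ ρ y := by
  unfold Alg45.dist at h
  exact menu_of hi hj hz hg (abs_le.2 ⟨by omega, by omega⟩) (abs_le.2 ⟨by omega, by omega⟩)

theorem rdn_mem_menu {κ ρ : ℕ} {y : St} (hD : gst P κ ∣ P.Dm) (hy : inD P y) :
    rdn P κ y ∈ menu P κ ρ y := by
  have h0 : (0 : ℤ) ≤ ((ρ / gst P κ + 1 : ℕ) : ℤ) * gst P κ := by positivity
  refine mem_menu.2 ⟨rfl, rfl, ⟨_, rd_onG κ _, ?_, (clp_eq (rd_dom hD hy.1)).symm⟩,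
    ⟨_, rd_onG κ _, ?_, (clp_eq (rd_dom hD hy.2)).symm⟩⟩
  · rwa [sub_self, abs_zero]
  · rwa [sub_self, abs_zero]

/-! ## The hull -/

theorem mem_rngC {lo hi a : ℕ} : a ∈ rngC lo hi ↔ lo ≤ a ∧ a ≤ hi := by
  unfold rngC
  simp only [List.mem_map, List.mem_range]
  constructor
  · rintro ⟨t, ht, rfl⟩
    omega
  · rintro ⟨h1, h2⟩
    exact ⟨a - lo, by omega, by omega⟩

variable (P)

/-- the pairs of the hull of `y`; independent of the numbers -/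
def cmenu (F : St → ℕ) (y : St) : List (ℕ × St) :=
  (rngC (cls F y - P.al) (cls F y + P.a2)).flatMap fun κ' =>
    (menu P κ' (2 * F y) y).map fun z => (κ', z)

theorem hull_eq (F : St → ℕ) (f : ℕ → St → ℕ) (y : St) :
    hull P F f y =
      Hull131.hull (F y) (cmenu P F y) (fun p => Alg45.dist y p.2) (fun p => f p.1 p.2) := by
  have h : Hull131.hull (F y) (cmenu P F y) (fun p => Alg45.dist y p.2) (fun p => f p.1 p.2) =
      lmin (F y) ((cmenu P F y).map fun p => Alg45.dist y p.2 + f p.1 p.2) := by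
    unfold Hull131.hull lmin
    rw [List.foldl_map]
  rw [h, cmenu, List.map_flatMap]
  simp only [List.map_map]
  rfl

variable {P}

theorem mem_cmenu {F : St → ℕ} {y : St} {p : ℕ × St} : p ∈ cmenu P F y ↔
    (cls F y - P.al ≤ p.1 ∧ p.1 ≤ cls F y + P.a2) ∧ p.2 ∈ menu P p.1 (2 * F y) y := by
  unfold cmenu
  simp only [List.mem_flatMap, List.mem_map, mem_rngC]
  constructor
  · rintro ⟨κ, hκ, z, hz, rfl⟩
    exact ⟨hκ, hz⟩
  · rintro ⟨h, hz⟩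
    exact ⟨p.1, h, p.2, hz, rfl⟩

theorem cmenu_of {F : St → ℕ} {y z : St} {κ : ℕ} (h1 : cls F y ≤ κ + P.al)
    (h2 : κ ≤ cls F y + P.a2) (hz : z ∈ menu P κ (2 * F y) y) : (κ, z) ∈ cmenu P F y :=
  mem_cmenu.2 ⟨⟨by omega, h2⟩, hz⟩

theorem cmenu_cls {F : St → ℕ} {y : St} {p : ℕ × St} (h : p ∈ cmenu P F y) :
    cls F y ≤ p.1 + P.al ∧ p.1 ≤ cls F y + P.a2 := by
  obtain ⟨⟨h1, h2⟩, -⟩ := mem_cmenu.1 h
  omega

theorem cmenu_inD {F : St → ℕ} {y : St} {p : ℕ × St} (h : p ∈ cmenu P F y) : inD P p.2 :=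
  menu_inD (mem_cmenu.1 h).2

theorem cmenu_i {F : St → ℕ} {y : St} {p : ℕ × St} (h : p ∈ cmenu P F y) : p.2.i = y.i :=
  menu_i (mem_cmenu.1 h).2

theorem cmenu_j {F : St → ℕ} {y : St} {p : ℕ × St} (h : p ∈ cmenu P F y) : p.2.j = y.j :=
  menu_j (mem_cmenu.1 h).2

theorem own_mem_cmenu {F : St → ℕ} {y : St} (hD : gst P (cls F y) ∣ P.Dm) (hy : inD P y) :
    (cls F y, rdn P (cls F y) y) ∈ cmenu P F y :=
  cmenu_of (by omega) (by omega) (rdn_mem_menu hD hy)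

theorem hull_le_F (F : St → ℕ) (f : ℕ → St → ℕ) (y : St) : hull P F f y ≤ F y := by
  rw [hull_eq]
  exact Hull131.hull_le_own

theorem hull_le {F : St → ℕ} {f : ℕ → St → ℕ} {y : St} {p : ℕ × St} (h : p ∈ cmenu P F y) :
    hull P F f y ≤ Alg45.dist y p.2 + f p.1 p.2 := by
  rw [hull_eq]
  exact Hull131.hull_le h

/-- the own pair: round to the own grid -/
theorem hull_le_own {F : St → ℕ} {f : ℕ → St → ℕ} {y : St} (hD : gst P (cls F y) ∣ P.Dm)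
    (hy : inD P y) :
    hull P F f y ≤ Alg45.dist y (rdn P (cls F y) y) + f (cls F y) (rdn P (cls F y) y) :=
  hull_le (own_mem_cmenu hD hy)

theorem le_hull {F : St → ℕ} {f : ℕ → St → ℕ} {y : St} {a : ℕ} (h0 : a ≤ F y)
    (h : ∀ p ∈ cmenu P F y, a ≤ Alg45.dist y p.2 + f p.1 p.2) : a ≤ hull P F f y := by
  rw [hull_eq]
  exact Hull131.le_hull h0 h

theorem hull_attained (F : St → ℕ) (f : ℕ → St → ℕ) (y : St) : hull P F f y = F y ∨
    ∃ p ∈ cmenu P F y, hull P F f y = Alg45.dist y p.2 + f p.1 p.2 := by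
  rw [hull_eq]
  exact Hull131.hull_attained

theorem hull_mono {F : St → ℕ} {f f' : ℕ → St → ℕ} {y : St}
    (h : ∀ p ∈ cmenu P F y, f p.1 p.2 ≤ f' p.1 p.2) : hull P F f y ≤ hull P F f' y := by
  rw [hull_eq, hull_eq]
  exact Hull131.hull_mono le_rfl h

theorem hull_congr {F : St → ℕ} {f f' : ℕ → St → ℕ} {y : St}
    (h : ∀ p ∈ cmenu P F y, f p.1 p.2 = f' p.1 p.2) : hull P F f y = hull P F f' y :=
  le_antisymm (hull_mono fun p hp => (h p hp).le) (hull_mono fun p hp => (h p hp).ge)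

/-- **soundness**: `G` below `F` and below the numbers, Lipschitz along the menu -/
theorem le_hull_of_lip {G F : St → ℕ} {f : ℕ → St → ℕ} {y : St} (h0 : G y ≤ F y)
    (hL : ∀ p ∈ cmenu P F y, G y ≤ Alg45.dist y p.2 + G p.2)
    (h : ∀ p ∈ cmenu P F y, G p.2 ≤ f p.1 p.2) : G y ≤ hull P F f y :=
  le_hull h0 fun p hp => (hL p hp).trans (Nat.add_le_add_left (h p hp) _)

/-- soundness with the Lipschitz property on the states of one block inside the domain -/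
theorem le_hull_of_lip' {G F : St → ℕ} {f : ℕ → St → ℕ} {y : St} (h0 : G y ≤ F y)
    (hL : ∀ z, z.i = y.i → z.j = y.j → inD P z → G y ≤ Alg45.dist y z + G z)
    (h : ∀ κ z, z.i = y.i → z.j = y.j → inD P z → G z ≤ f κ z) : G y ≤ hull P F f y :=
  le_hull_of_lip h0 (fun _ hp => hL _ (cmenu_i hp) (cmenu_j hp) (cmenu_inD hp))
    fun _ hp => h _ _ (cmenu_i hp) (cmenu_j hp) (cmenu_inD hp)

/-! ## Mean over the ranks -/

theorem sumR_eq (n : ℕ) (f : ℕ → ℕ) : sumR n f = ∑ a ∈ Finset.range n, f a := by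
  induction n with
  | zero => rfl
  | succ n ih => rw [Finset.sum_range_succ, ← ih]; simp [sumR, List.range_succ]

theorem Xbar_eq (X : ℕ → ℕ → St → ℕ) (κ : ℕ) (z : St) :
    Xbar P X κ z = Hull131.cmean P.K fun k => X k κ z := by
  unfold Xbar cdiv Hull131.cmean
  rw [sumR_eq]

/-- **sum over the ranks of the hulls ≤ `K` times the next unit** -/
theorem sum_hull_le (hK : 0 < P.K) (F : St → ℕ) (X : ℕ → ℕ → St → ℕ) (y : St) :
    ∑ k ∈ Finset.range P.K, hull P F (X k) y ≤ P.K * FNext P F X y := by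
  have h := Hull131.sum_hull_cmean (own := F y) (m := cmenu P F y)
    (d := fun p : ℕ × St => Alg45.dist y p.2) hK fun k (p : ℕ × St) => X k p.1 p.2
  have e : FNext P F X y = Hull131.hull (F y) (cmenu P F y) (fun p => Alg45.dist y p.2)
      (fun p => Hull131.cmean P.K fun k => X k p.1 p.2) := by
    unfold FNext
    rw [hull_eq]
    simp only [Xbar_eq]
  rw [e]
  simpa only [hull_eq] using h

theorem FNext_le_F (F : St → ℕ) (X : ℕ → ℕ → St → ℕ) (y : St) : FNext P F X y ≤ F y :=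
  hull_le_F _ _ _

theorem FNext_le {F : St → ℕ} {X : ℕ → ℕ → St → ℕ} {y : St} {p : ℕ × St} (h : p ∈ cmenu P F y) :
    FNext P F X y ≤ Alg45.dist y p.2 + Xbar P X p.1 p.2 := hull_le h

theorem FNext_le_own {F : St → ℕ} {X : ℕ → ℕ → St → ℕ} {y : St} (hD : gst P (cls F y) ∣ P.Dm)
    (hy : inD P y) : FNext P F X y ≤
      Alg45.dist y (rdn P (cls F y) y) + Xbar P X (cls F y) (rdn P (cls F y) y) :=
  hull_le_own hD hy

theorem le_Xbar (hK : 0 < P.K) {X : ℕ → ℕ → St → ℕ} {κ : ℕ} {z : St} {a : ℕ}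
    (h : ∀ k < P.K, a ≤ X k κ z) : a ≤ Xbar P X κ z := by
  rw [Xbar_eq]
  exact Hull131.le_cmean_of_le hK h

theorem Xbar_le_of_le (hK : 0 < P.K) {X : ℕ → ℕ → St → ℕ} {κ : ℕ} {z : St} {a : ℕ}
    (h : ∀ k < P.K, X k κ z ≤ a) : Xbar P X κ z ≤ a := by
  rw [Xbar_eq]
  exact Hull131.cmean_le_of_le hK h

theorem Xbar_le (hK : 0 < P.K) (X : ℕ → ℕ → St → ℕ) (κ : ℕ) (z : St) :
    (Xbar P X κ z : ℝ) ≤ (∑ k ∈ Finset.range P.K, (X k κ z : ℝ)) / P.K + 1 := by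
  rw [Xbar_eq]
  exact Hull131.cmean_le hK _

/-- soundness of the next unit -/
theorem le_FNext (hK : 0 < P.K) {G F : St → ℕ} {X : ℕ → ℕ → St → ℕ} {y : St} (h0 : G y ≤ F y)
    (hL : ∀ z, z.i = y.i → z.j = y.j → inD P z → G y ≤ Alg45.dist y z + G z)
    (h : ∀ k < P.K, ∀ κ z, z.i = y.i → z.j = y.j → inD P z → G z ≤ X k κ z) :
    G y ≤ FNext P F X y :=
  le_hull_of_lip' h0 hL fun κ z h1 h2 h3 => le_Xbar hK fun k hk => h k hk κ z h1 h2 h3

end Crest.Agent.R288.HullB407
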