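import Mathlib
import Crest.Prelude.Def_GraphRAM

/-!
# R288 (S0433): the pure library of `Crest.GraphRAM.editDist`

* unfolding rules;
* `Al x y k`: there is an alignment of `x` and `y` of cost `k`;
* symmetry, `0` iff equal, triangle inequality, append, reverse, length bounds;
* splitting formula for a concatenation;
* the prefix recursion.
-/

set_option autoImplicit false

namespace Crest.Agent.R288.Ed

open Crest.GraphRAM

variable {α : Type*} [DecidableEq α]

/-! ### unfolding -/

@[simp] theorem ed_nil_left (y : List α) : editDist [] y = y.length := rfl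

@[simp] theorem ed_cons_nil (a : α) (x : List α) : editDist (a :: x) [] = x.length + 1 := rfl

@[simp] theorem ed_nil_right (x : List α) : editDist x [] = x.length := by
  cases x <;> rfl

theorem ed_cons_cons (a b : α) (x y : List α) :
    editDist (a :: x) (b :: y) = min (editDist x y + if a = b then 0 else 1)
      (min (editDist (a :: x) y + 1) (editDist x (b :: y) + 1)) := rfl

/-! ### alignments -/

/-- an alignment of cost `k` -/
inductive Al {α : Type*} : List α → List α → ℕ → Prop
  | nil : Al [] [] 0
  | ins {x y : List α} {k : ℕ} (b : α) : Al x y k → Al x (b :: y) (k + 1)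
  | del {x y : List α} {k : ℕ} (a : α) : Al x y k → Al (a :: x) y (k + 1)
  | mat {x y : List α} {k : ℕ} (a : α) : Al x y k → Al (a :: x) (a :: y) k
  | sub {x y : List α} {k : ℕ} (a b : α) : Al x y k → Al (a :: x) (b :: y) (k + 1)

theorem Al.nil_left {α : Type*} : ∀ y : List α, Al [] y y.length
  | [] => .nil
  | b :: y => .ins b (Al.nil_left y)

theorem Al.nil_right {α : Type*} : ∀ x : List α, Al x [] x.length
  | [] => .nil
  | a :: x => .del a (Al.nil_right x)

theorem Al.symm {α : Type*} {x y : List α} {k : ℕ} (h : Al x y k) : Al y x k := by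
  induction h with
  | nil => exact .nil
  | ins b _ ih => exact .del b ih
  | del a _ ih => exact .ins a ih
  | mat a _ ih => exact .mat a ih
  | sub a b _ ih => exact .sub b a ih

theorem Al.append {α : Type*} {x y x' y' : List α} {k l : ℕ} (h : Al x y k) (h' : Al x' y' l) :
    Al (x ++ x') (y ++ y') (k + l) := by
  induction h with
  | nil => simpa using h'
  | ins b _ ih => rw [show ∀ k, k + 1 + l = k + l + 1 by intros; omega]; exact .ins b ih
  | del a _ ih => rw [show ∀ k, k + 1 + l = k + l + 1 by intros; omega]; exact .del a ih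
  | mat a _ ih => exact .mat a ih
  | sub a b _ ih => rw [show ∀ k, k + 1 + l = k + l + 1 by intros; omega]; exact .sub a b ih

theorem Al.refl {α : Type*} : ∀ x : List α, Al x x 0
  | [] => .nil
  | a :: x => .mat a (Al.refl x)

theorem ed_cons_cons_le_sub (a b : α) (x y : List α) :
    editDist (a :: x) (b :: y) ≤ editDist x y + if a = b then 0 else 1 := by
  rw [ed_cons_cons]; exact min_le_left _ _

theorem ed_cons_right_le (b : α) (x y : List α) : editDist x (b :: y) ≤ editDist x y + 1 := by
  cases x with
  | nil => simp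
  | cons a x => rw [ed_cons_cons]; exact (min_le_right _ _).trans (min_le_left _ _)

theorem ed_cons_left_le (a : α) (x y : List α) : editDist (a :: x) y ≤ editDist x y + 1 := by
  cases y with
  | nil => simp
  | cons b y => rw [ed_cons_cons]; exact (min_le_right _ _).trans (min_le_right _ _)

/-- the edit distance is a lower bound for every alignment -/
theorem Al.le {x y : List α} {k : ℕ} (h : Al x y k) : editDist x y ≤ k := by
  induction h with
  | nil => simp
  | ins b _ ih => exact (ed_cons_right_le _ _ _).trans (Nat.add_le_add_right ih 1)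
  | del a _ ih => exact (ed_cons_left_le _ _ _).trans (Nat.add_le_add_right ih 1)
  | mat a _ ih => exact (ed_cons_cons_le_sub _ _ _ _).trans (by simpa using ih)
  | sub a b _ ih =>
    refine (ed_cons_cons_le_sub _ _ _ _).trans (Nat.add_le_add ih ?_)
    split <;> omega

/-- and is attained -/
theorem al_ed : ∀ x y : List α, Al x y (editDist x y)
  | [], y => Al.nil_left y
  | a :: x, [] => by simpa using Al.nil_right (a :: x)
  | a :: x, b :: y => by
    have h1 := al_ed x y
    have h2 := al_ed (a :: x) y
    have h3 := al_ed x (b :: y)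
    rw [ed_cons_cons]
    rcases min_choice (editDist x y + if a = b then 0 else 1)
      (min (editDist (a :: x) y + 1) (editDist x (b :: y) + 1)) with h | h
    · rw [h]
      split
      · rename_i hab
        subst hab
        exact .mat a h1
      · exact .sub a b h1
    · rw [h]
      rcases min_choice (editDist (a :: x) y + 1) (editDist x (b :: y) + 1) with h | h
      · rw [h]; exact .ins b h2
      · rw [h]; exact .del a h3
termination_by x y => x.length + y.length

theorem ed_le_iff {x y : List α} {k : ℕ} : editDist x y ≤ k ↔ ∃ j ≤ k, Al x y j :=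
  ⟨fun h => ⟨_, h, al_ed x y⟩, fun ⟨_, hj, h⟩ => h.le.trans hj⟩

/-! ### metric facts -/

theorem ed_comm (x y : List α) : editDist x y = editDist y x :=
  le_antisymm (al_ed y x).symm.le (al_ed x y).symm.le

@[simp] theorem ed_self (x : List α) : editDist x x = 0 := Nat.le_zero.1 (Al.refl x).le

theorem Al.eq_of_zero {α : Type*} {x y : List α} {k : ℕ} (h : Al x y k) (hk : k = 0) : x = y := by
  induction h with
  | nil => rfl
  | ins b _ ih => omega
  | del a _ ih => omega
  | mat a _ ih => rw [ih hk]
  | sub a b _ ih => omega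

theorem ed_eq_zero_iff {x y : List α} : editDist x y = 0 ↔ x = y :=
  ⟨fun h => (al_ed x y).eq_of_zero h, fun h => by rw [h, ed_self]⟩

theorem ed_append_le (x y x' y' : List α) :
    editDist (x ++ x') (y ++ y') ≤ editDist x y + editDist x' y' :=
  ((al_ed x y).append (al_ed x' y')).le

/-- splitting an alignment at a cut of the first string -/
theorem Al.split {α : Type*} {x y : List α} {k : ℕ} (h : Al x y k) :
    ∀ x1 x2 : List α, x = x1 ++ x2 → ∃ y1 y2 k1 k2, y = y1 ++ y2 ∧ k = k1 + k2 ∧
      Al x1 y1 k1 ∧ Al x2 y2 k2 := by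
  induction h with
  | nil =>
    intro x1 x2 h
    obtain ⟨rfl, rfl⟩ := List.append_eq_nil_iff.1 h.symm
    exact ⟨[], [], 0, 0, rfl, rfl, .nil, .nil⟩
  | ins b _ ih =>
    intro x1 x2 h
    obtain ⟨y1, y2, k1, k2, rfl, rfl, h1, h2⟩ := ih x1 x2 h
    exact ⟨b :: y1, y2, k1 + 1, k2, rfl, by omega, .ins b h1, h2⟩
  | @del x y k a h0 ih =>
    intro x1 x2 h
    cases x1 with
    | nil =>
      obtain rfl : x2 = a :: x := by simpa using h.symm
      exact ⟨[], y, 0, k + 1, rfl, by omega, .nil, .del a h0⟩
    | cons c x1 =>
      simp only [List.cons_append, List.cons.injEq] at h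
      obtain ⟨rfl, h⟩ := h
      obtain ⟨y1, y2, k1, k2, rfl, rfl, h1, h2⟩ := ih x1 x2 h
      exact ⟨y1, y2, k1 + 1, k2, rfl, by omega, .del _ h1, h2⟩
  | @mat x y k a h0 ih =>
    intro x1 x2 h
    cases x1 with
    | nil =>
      obtain rfl : x2 = a :: x := by simpa using h.symm
      exact ⟨[], a :: y, 0, k, rfl, by omega, .nil, .mat a h0⟩
    | cons c x1 =>
      simp only [List.cons_append, List.cons.injEq] at h
      obtain ⟨rfl, h⟩ := h
      obtain ⟨y1, y2, k1, k2, rfl, rfl, h1, h2⟩ := ih x1 x2 h
      exact ⟨a :: y1, y2, k1, k2, rfl, by omega, .mat _ h1, h2⟩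
  | @sub x y k a b h0 ih =>
    intro x1 x2 h
    cases x1 with
    | nil =>
      obtain rfl : x2 = a :: x := by simpa using h.symm
      exact ⟨[], b :: y, 0, k + 1, rfl, by omega, .nil, .sub a b h0⟩
    | cons c x1 =>
      simp only [List.cons_append, List.cons.injEq] at h
      obtain ⟨rfl, h⟩ := h
      obtain ⟨y1, y2, k1, k2, rfl, rfl, h1, h2⟩ := ih x1 x2 h
      exact ⟨b :: y1, y2, k1 + 1, k2, rfl, by omega, .sub _ _ h1, h2⟩

theorem Al.length_le {α : Type*} {x y : List α} {k : ℕ} (h : Al x y k) :
    y.length ≤ x.length + k := by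
  induction h <;> simp only [List.length_cons, List.length_nil] <;> omega

/-- inversion at the first letter of the second string -/
theorem Al.inv_cons {x y : List α} {a : α} {k : ℕ} (h : Al x (a :: y) k) :
    (∃ x1 x2 k2, x = x1 ++ x2 ∧ Al x2 y k2 ∧ k = x1.length + 1 + k2) ∨
    (∃ x1 c x2 k2, x = x1 ++ c :: x2 ∧ Al x2 y k2 ∧
      k = x1.length + (if c = a then 0 else 1) + k2) ∨
    (∃ x1 c x2 k2, x = x1 ++ c :: x2 ∧ Al x2 y k2 ∧ k = x1.length + 1 + k2) := by
  generalize hw : a :: y = w at h
  induction h with
  | nil => simp at hw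
  | ins b h _ =>
    simp only [List.cons.injEq] at hw
    obtain ⟨rfl, rfl⟩ := hw
    exact Or.inl ⟨[], _, _, rfl, h, by simp; omega⟩
  | del c _ ih =>
    rcases ih hw with ⟨x1, x2, k2, rfl, h1, rfl⟩ | ⟨x1, d, x2, k2, rfl, h1, rfl⟩ |
      ⟨x1, d, x2, k2, rfl, h1, rfl⟩
    · exact Or.inl ⟨c :: x1, x2, k2, rfl, h1, by simp; omega⟩
    · exact Or.inr (Or.inl ⟨c :: x1, d, x2, k2, rfl, h1, by simp; omega⟩)
    · exact Or.inr (Or.inr ⟨c :: x1, d, x2, k2, rfl, h1, by simp; omega⟩)
  | mat c h _ =>
    simp only [List.cons.injEq] at hw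
    obtain ⟨rfl, rfl⟩ := hw
    exact Or.inr (Or.inl ⟨[], _, _, _, rfl, h, by simp⟩)
  | sub c d h _ =>
    simp only [List.cons.injEq] at hw
    obtain ⟨rfl, rfl⟩ := hw
    exact Or.inr (Or.inr ⟨[], _, _, _, rfl, h, by simp; omega⟩)

/-- composition of alignments -/
theorem Al.trans {x y z : List α} {k l : ℕ} (h : Al x y k) (h' : Al y z l) :
    ∃ m ≤ k + l, Al x z m := by
  induction h' generalizing x k with
  | nil => exact ⟨k, by omega, h⟩
  | ins b _ ih =>
    obtain ⟨m, hm, h1⟩ := ih h
    exact ⟨m + 1, by omega, .ins b h1⟩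
  | del a h0 ih =>
    rcases h.inv_cons with ⟨x1, x2, k2, rfl, h1, rfl⟩ | ⟨x1, d, x2, k2, rfl, h1, rfl⟩ |
      ⟨x1, d, x2, k2, rfl, h1, rfl⟩ <;> obtain ⟨m, hm, h2⟩ := ih h1
    · exact ⟨x1.length + m, by omega, (Al.nil_right x1).append h2⟩
    · exact ⟨x1.length + (m + 1), by omega, (Al.nil_right x1).append (.del d h2)⟩
    · exact ⟨x1.length + (m + 1), by omega, (Al.nil_right x1).append (.del d h2)⟩
  | mat a h0 ih =>
    rcases h.inv_cons with ⟨x1, x2, k2, rfl, h1, rfl⟩ | ⟨x1, d, x2, k2, rfl, h1, rfl⟩ |
      ⟨x1, d, x2, k2, rfl, h1, rfl⟩ <;> obtain ⟨m, hm, h2⟩ := ih h1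
    · exact ⟨x1.length + (m + 1), by omega, (Al.nil_right x1).append (.ins a h2)⟩
    · by_cases hd : d = a
      · subst hd
        exact ⟨x1.length + m, by omega, (Al.nil_right x1).append (.mat d h2)⟩
      · rw [if_neg hd]
        exact ⟨x1.length + (m + 1), by omega, (Al.nil_right x1).append (.sub d a h2)⟩
    · exact ⟨x1.length + (m + 1), by omega, (Al.nil_right x1).append (.sub d a h2)⟩
  | sub a b h0 ih =>
    rcases h.inv_cons with ⟨x1, x2, k2, rfl, h1, rfl⟩ | ⟨x1, d, x2, k2, rfl, h1, rfl⟩ |
      ⟨x1, d, x2, k2, rfl, h1, rfl⟩ <;> obtain ⟨m, hm, h2⟩ := ih h1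
    · exact ⟨x1.length + (m + 1), by omega, (Al.nil_right x1).append (.ins b h2)⟩
    · exact ⟨x1.length + (m + 1), by omega, (Al.nil_right x1).append (.sub d b h2)⟩
    · exact ⟨x1.length + (m + 1), by omega, (Al.nil_right x1).append (.sub d b h2)⟩

theorem ed_triangle (x y z : List α) : editDist x z ≤ editDist x y + editDist y z := by
  obtain ⟨m, hm, h⟩ := (al_ed x y).trans (al_ed y z)
  exact h.le.trans hm

theorem length_le_ed (x y : List α) : y.length ≤ x.length + editDist x y := (al_ed x y).length_le

theorem length_le_ed' (x y : List α) : x.length ≤ y.length + editDist x y := by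
  rw [ed_comm]; exact length_le_ed y x

theorem ed_le_max (x y : List α) : editDist x y ≤ max x.length y.length := by
  induction x generalizing y with
  | nil => simp
  | cons a x ih =>
    cases y with
    | nil => simp
    | cons b y =>
      have h1 := ed_cons_cons_le_sub a b x y
      have h2 := ih y
      simp only [List.length_cons]
      split at h1 <;> omega

theorem ed_le_add (x y : List α) : editDist x y ≤ x.length + y.length :=
  (ed_le_max x y).trans (by omega)

/-- splitting formula, lower bound: some cut of `y` is optimal -/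
theorem exists_split (x1 x2 y : List α) : ∃ j ≤ y.length,
    editDist (x1 ++ x2) y = editDist x1 (y.take j) + editDist x2 (y.drop j) := by
  obtain ⟨y1, y2, k1, k2, hy, hk, h1, h2⟩ := (al_ed (x1 ++ x2) y).split x1 x2 rfl
  refine ⟨y1.length, by rw [hy]; simp, ?_⟩
  have e1 : y.take y1.length = y1 := by rw [hy]; simp
  have e2 : y.drop y1.length = y2 := by rw [hy]; simp
  rw [e1, e2]
  refine le_antisymm ?_ ?_
  · conv_lhs => rw [hy]
    exact ed_append_le _ _ _ _
  · rw [hk]
    exact Nat.add_le_add h1.le h2.le

/-- splitting formula, upper bound: every cut of `y` -/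
theorem split_le (x1 x2 y : List α) (j : ℕ) :
    editDist (x1 ++ x2) y ≤ editDist x1 (y.take j) + editDist x2 (y.drop j) := by
  conv_lhs => rw [← List.take_append_drop j y]
  exact ed_append_le _ _ _ _

theorem Al.snoc_ins {α : Type*} {x y : List α} {k : ℕ} (b : α) (h : Al x y k) :
    Al x (y ++ [b]) (k + 1) := by
  simpa using h.append (.ins b .nil)

theorem Al.reverse {α : Type*} {x y : List α} {k : ℕ} (h : Al x y k) :
    Al x.reverse y.reverse k := by
  induction h with
  | nil => exact .nil
  | ins b _ ih => simpa using ih.append (.ins b .nil)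
  | del a _ ih => simpa using ih.append (.del a .nil)
  | mat a _ ih => simpa using ih.append (.mat a .nil)
  | sub a b _ ih => simpa using ih.append (.sub a b .nil)

theorem ed_reverse (x y : List α) : editDist x.reverse y.reverse = editDist x y := by
  refine le_antisymm (al_ed x y).reverse.le ?_
  have := (al_ed x.reverse y.reverse).reverse.le
  simpa using this

/-- the recursion at the last letters -/
theorem ed_snoc_snoc (a b : α) (x y : List α) :
    editDist (x ++ [a]) (y ++ [b]) = min (editDist x y + if a = b then 0 else 1)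
      (min (editDist (x ++ [a]) y + 1) (editDist x (y ++ [b]) + 1)) := by
  rw [← ed_reverse (x ++ [a]) (y ++ [b]), ← ed_reverse x y, ← ed_reverse (x ++ [a]) y,
    ← ed_reverse x (y ++ [b])]
  simp only [List.reverse_append, List.reverse_cons, List.reverse_nil, List.nil_append,
    List.singleton_append]
  exact ed_cons_cons _ _ _ _

/-- the table of prefix distances -/
def tab (x y : List α) (i j : ℕ) : ℕ := editDist (x.take i) (y.take j)

@[simp] theorem tab_zero_left (x y : List α) (j : ℕ) : tab x y 0 j = min j y.length := by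
  simp [tab]

@[simp] theorem tab_zero_right (x y : List α) (i : ℕ) : tab x y i 0 = min i x.length := by
  simp [tab]

theorem tab_full (x y : List α) : tab x y x.length y.length = editDist x y := by simp [tab]

/-- the recursion of the table -/
theorem tab_succ_succ (x y : List α) {i j : ℕ} (hi : i < x.length) (hj : j < y.length) :
    tab x y (i + 1) (j + 1) = min (tab x y i j + if x[i] = y[j] then 0 else 1)
      (min (tab x y (i + 1) j + 1) (tab x y i (j + 1) + 1)) := by
  unfold tab
  rw [List.take_succ_eq_append_getElem hi, List.take_succ_eq_append_getElem hj, ed_snoc_snoc]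

/-! ### changing the strings -/

theorem ed_take_left (x y : List α) (j : ℕ) : editDist (x.take j) y ≤ editDist x y + (x.length - j) := by
  have h1 := ed_triangle (x.take j) x y
  have h2 : editDist (x.take j) x ≤ x.length - j := by
    have := ed_append_le (x.take j) (x.take j) [] (x.drop j)
    simpa using this
  omega

theorem ed_take_take_le (y : List α) (i j : ℕ) :
    editDist (y.take i) (y.take j) ≤ (i - j) + (j - i) := by
  rcases le_total i j with h | h
  · have h1 : y.take i = (y.take j).take i := by rw [List.take_take, min_eq_left h]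
    have := ed_append_le ((y.take j).take i) ((y.take j).take i) [] ((y.take j).drop i)
    simp only [List.append_nil, List.take_append_drop, ed_self, ed_nil_left, List.length_drop,
      List.length_take, zero_add] at this
    rw [h1]
    omega
  · have h1 : y.take j = (y.take i).take j := by rw [List.take_take, min_eq_left h]
    have := ed_append_le ((y.take i).take j) ((y.take i).take j) ((y.take i).drop j) []
    simp only [List.append_nil, List.take_append_drop, ed_self, ed_nil_right, List.length_drop,
      List.length_take, zero_add] at this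
    rw [h1]
    omega

end Crest.Agent.R288.Ed
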