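import Mathlib
import Crest.Prelude.Def_GraphRAM
import Crest.Agent.R288.Ed1_864

/-!
# R288 (S0433): the game form of the edit distance

`G x y a b p q` is the cost of aligning the block `x[a, b)` with the stretch of `y` that starts at
position `p` and ends at position `q`; for `p > q` one also walks back `p - q` steps, so that all
formulas below hold for ALL positions:

* `G_split_le`, `exists_G_split` (the optimal cut lies between `p` and `q`);
* `G` is `1`-Lipschitz in `p` and in `q`;
* `|(b - q) - (a - p)| ≤ G`;
* the root value is `editDist x y`;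
* the same in diagonals: `g x y a b u v`, `u v : ℤ`, position `p = a + u` clipped to `[0, |y|]`.
-/

set_option autoImplicit false

namespace Crest.Agent.R288.GameA347

open Crest.GraphRAM Crest.Agent.R288.Ed

variable {α : Type*}

/-! ### segments -/

/-- the letters of `l` at the positions `i, …, j - 1` -/
def seg (l : List α) (i j : ℕ) : List α := (l.take j).drop i

theorem seg_eq_take (l : List α) (i j : ℕ) : seg l i j = (l.drop i).take (j - i) := by
  unfold seg; rw [List.drop_take]

@[simp] theorem seg_length (l : List α) (i j : ℕ) :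
    (seg l i j).length = min j l.length - i := by simp [seg]

theorem seg_length_le (l : List α) (i j : ℕ) : (seg l i j).length ≤ j - i := by
  rw [seg_length]; omega

theorem seg_of_le (l : List α) {i j : ℕ} (h : j ≤ i) : seg l i j = [] := by
  apply List.eq_nil_of_length_eq_zero; rw [seg_length]; omega

@[simp] theorem seg_self (l : List α) (i : ℕ) : seg l i i = [] := seg_of_le l le_rfl

@[simp] theorem seg_nil (i j : ℕ) : seg ([] : List α) i j = [] := by simp [seg]

theorem seg_zero (l : List α) (j : ℕ) : seg l 0 j = l.take j := by simp [seg]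

theorem seg_to_end (l : List α) {i j : ℕ} (h : l.length ≤ j) : seg l i j = l.drop i := by
  unfold seg; rw [List.take_of_length_le h]

@[simp] theorem seg_full (l : List α) : seg l 0 l.length = l := by simp [seg]

theorem seg_append_seg (l : List α) {i j k : ℕ} (hij : i ≤ j) (hjk : j ≤ k) :
    seg l i j ++ seg l j k = seg l i k := by
  rw [seg_eq_take, seg_eq_take, seg_eq_take]
  have h1 : l.drop j = (l.drop i).drop (j - i) := by
    rw [List.drop_drop]; congr 1; omega
  rw [h1, show k - i = (j - i) + (k - j) by omega, List.take_add]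

theorem getElem?_seg (l : List α) (i j t : ℕ) (h : i + t < j) : (seg l i j)[t]? = l[i + t]? := by
  unfold seg
  rw [List.getElem?_drop, List.getElem?_take]
  simp [h]

theorem seg_succ_left (l : List α) {i j : ℕ} (hij : i < j) (hi : i < l.length) :
    seg l i j = l[i] :: seg l (i + 1) j := by
  rw [← seg_append_seg l (Nat.le_succ i) (show i + 1 ≤ j from hij)]
  have : seg l i (i + 1) = [l[i]] := by
    rw [seg_eq_take, Nat.add_sub_cancel_left, List.drop_eq_getElem_cons hi]
    rfl
  rw [this]; rfl

theorem seg_succ_right (l : List α) {i j : ℕ} (hij : i ≤ j) (hj : j < l.length) :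
    seg l i (j + 1) = seg l i j ++ [l[j]] := by
  rw [← seg_append_seg l hij (Nat.le_succ j)]
  congr 1
  rw [seg_eq_take, show j.succ - j = 1 by omega, List.drop_eq_getElem_cons hj]
  rfl

theorem seg_singleton (l : List α) {i : ℕ} (hi : i < l.length) : seg l i (i + 1) = [l[i]] := by
  rw [seg_succ_left l (Nat.lt_succ_self i) hi, seg_self]

/-- segments of a segment -/
theorem seg_seg (l : List α) (i j s t : ℕ) : seg (seg l i j) s t = seg l (i + s) (min j (i + t)) := by
  apply List.ext_getElem?
  intro k
  simp only [seg, List.getElem?_drop, List.getElem?_take]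
  by_cases h1 : s + k < t
  · by_cases h2 : i + (s + k) < j
    · have h3 : i + s + k < min j (i + t) := by omega
      rw [if_pos h1, if_pos h2, if_pos h3]; congr 1; omega
    · have h3 : ¬ (i + s + k < min j (i + t)) := by omega
      rw [if_pos h1, if_neg h2, if_neg h3]
  · have h3 : ¬ (i + s + k < min j (i + t)) := by omega
    rw [if_neg h1, if_neg h3]

variable [DecidableEq α]

/-! ### dropping letters at an end -/

theorem ed_le_append_right (x y z : List α) : editDist x (y ++ z) ≤ editDist x y + z.length := by
  have := ed_append_le x y [] z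
  simpa using this

theorem ed_le_of_append_right (x y z : List α) : editDist x y ≤ editDist x (y ++ z) + z.length := by
  have h1 := ed_triangle x (y ++ z) y
  have h2 : editDist (y ++ z) y ≤ z.length := by
    have := ed_append_le y y z []
    simpa using this
  omega

theorem ed_le_append_left (x y z : List α) : editDist x (z ++ y) ≤ z.length + editDist x y := by
  have := ed_append_le [] z x y
  simpa using this

theorem ed_le_of_append_left (x y z : List α) : editDist x y ≤ editDist x (z ++ y) + z.length := by
  have h1 := ed_triangle x (z ++ y) y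
  have h2 : editDist (z ++ y) y ≤ z.length := by
    have := ed_append_le z [] y y
    simpa using this
  omega

/-! ### the position form -/

/-- the cost of aligning `x[a, b)` with the walk in `y` from position `p` to position `q` -/
def G (x y : List α) (a b p q : ℕ) : ℕ := editDist (seg x a b) (seg y p q) + (p - q)

theorem G_of_le (x y : List α) (a b : ℕ) {p q : ℕ} (h : p ≤ q) :
    G x y a b p q = editDist (seg x a b) (seg y p q) := by
  unfold G; rw [Nat.sub_eq_zero_of_le h]; rfl

theorem G_of_ge (x y : List α) (a b : ℕ) {p q : ℕ} (h : q ≤ p) :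
    G x y a b p q = (seg x a b).length + (p - q) := by
  unfold G; rw [seg_of_le y h, ed_nil_right]

/-- the root -/
theorem G_root (x y : List α) : G x y 0 x.length 0 y.length = editDist x y := by
  rw [G_of_le _ _ _ _ (Nat.zero_le _), seg_full, seg_full]

/-- an empty block -/
theorem G_empty (x y : List α) {a b p q : ℕ} (h : b ≤ a) (hq : q ≤ y.length) :
    G x y a b p q = (p - q) + (q - p) := by
  unfold G
  rw [seg_of_le x h, ed_nil_left, seg_length]
  omega

/-- lower bounds -/
theorem G_ge_left (x y : List α) {a b p q : ℕ} (hb : b ≤ x.length) : (b - a) + p ≤ q + G x y a b p q := by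
  have h1 := length_le_ed' (seg x a b) (seg y p q)
  have h2 := seg_length_le y p q
  unfold G
  rw [seg_length] at h1
  omega

theorem G_ge_right (x y : List α) {a b p q : ℕ} (hq : q ≤ y.length) : q ≤ p + (b - a) + G x y a b p q := by
  have h1 := length_le_ed (seg x a b) (seg y p q)
  have h2 := seg_length_le x a b
  unfold G
  rw [seg_length y] at h1
  omega

/-- upper bound -/
theorem G_le_max (x y : List α) (a b p q : ℕ) : G x y a b p q ≤ max (b - a) (q - p) + (p - q) := by
  unfold G
  have h1 := ed_le_max (seg x a b) (seg y p q)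
  have h2 := seg_length_le x a b
  have h3 := seg_length_le y p q
  omega

theorem G_le_add (x y : List α) (a b p q : ℕ) : G x y a b p q ≤ (b - a) + (q - p) + (p - q) := by
  have := G_le_max x y a b p q
  omega

/-! ### Lipschitz -/

theorem G_lip_right_aux (x y : List α) (a b p : ℕ) {q q' : ℕ} (h : q ≤ q') :
    G x y a b p q ≤ G x y a b p q' + (q' - q) ∧ G x y a b p q' ≤ G x y a b p q + (q' - q) := by
  unfold G
  rcases le_total p q with h1 | h1
  · have e := seg_append_seg y h1 h
    have h2 := ed_le_of_append_right (seg x a b) (seg y p q) (seg y q q')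
    have h3 := ed_le_append_right (seg x a b) (seg y p q) (seg y q q')
    have h4 := seg_length_le y q q'
    rw [e] at h2 h3
    omega
  · rw [seg_of_le y h1, ed_nil_right]
    rcases le_total p q' with h2 | h2
    · have h3 := ed_le_of_append_right (seg x a b) [] (seg y p q')
      have h4 := ed_le_append_right (seg x a b) [] (seg y p q')
      have h5 := seg_length_le y p q'
      simp only [List.nil_append, ed_nil_right] at h3 h4
      omega
    · rw [seg_of_le y h2, ed_nil_right]
      omega

theorem G_lip_left_aux (x y : List α) (a b q : ℕ) {p p' : ℕ} (h : p ≤ p') :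
    G x y a b p q ≤ G x y a b p' q + (p' - p) ∧ G x y a b p' q ≤ G x y a b p q + (p' - p) := by
  unfold G
  rcases le_total p' q with h1 | h1
  · have e := seg_append_seg y h h1
    have h2 := ed_le_of_append_left (seg x a b) (seg y p' q) (seg y p p')
    have h3 := ed_le_append_left (seg x a b) (seg y p' q) (seg y p p')
    have h4 := seg_length_le y p p'
    rw [e] at h2 h3
    omega
  · rw [seg_of_le y h1, ed_nil_right]
    rcases le_total p q with h2 | h2
    · have h3 := ed_le_of_append_left (seg x a b) [] (seg y p q)
      have h4 := ed_le_append_left (seg x a b) [] (seg y p q)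
      have h5 := seg_length_le y p q
      simp only [List.append_nil, ed_nil_right] at h3 h4
      omega
    · rw [seg_of_le y h2, ed_nil_right]
      omega

/-- `G` is `1`-Lipschitz in the right end -/
theorem G_lip_right (x y : List α) (a b p q q' : ℕ) :
    G x y a b p q ≤ G x y a b p q' + ((q - q') + (q' - q)) := by
  rcases le_total q q' with h | h
  · have := (G_lip_right_aux x y a b p h).1
    omega
  · have := (G_lip_right_aux x y a b p h).2
    omega

/-- `G` is `1`-Lipschitz in the left end -/
theorem G_lip_left (x y : List α) (a b p p' q : ℕ) :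
    G x y a b p q ≤ G x y a b p' q + ((p - p') + (p' - p)) := by
  rcases le_total p p' with h | h
  · have := (G_lip_left_aux x y a b q h).1
    omega
  · have := (G_lip_left_aux x y a b q h).2
    omega

/-- dependence on the block: moving the right end of the block -/
theorem G_block_right_le (x y : List α) {a b b' : ℕ} (p q : ℕ) (h1 : a ≤ b) (h : b ≤ b') :
    G x y a b' p q ≤ G x y a b p q + (b' - b) ∧ G x y a b p q ≤ G x y a b' p q + (b' - b) := by
  unfold G
  have e := seg_append_seg x h1 h
  have h2 := ed_le_of_append_right (seg y p q) (seg x a b) (seg x b b')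
  have h3 := ed_le_append_right (seg y p q) (seg x a b) (seg x b b')
  have h4 := seg_length_le x b b'
  rw [e] at h2 h3
  rw [ed_comm (seg y p q), ed_comm (seg y p q)] at h2 h3
  omega

/-! ### the split -/

/-- every cut gives an upper bound -/
theorem G_split_le (x y : List α) {a m b : ℕ} (ham : a ≤ m) (hmb : m ≤ b) (p r q : ℕ) :
    G x y a b p q ≤ G x y a m p r + G x y m b r q := by
  have ex := seg_append_seg x ham hmb
  -- the case of a cut between `p` and `q`
  have key : ∀ r : ℕ, p ≤ r → r ≤ q → G x y a b p q ≤ G x y a m p r + G x y m b r q := by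
    intro r h1 h2
    rw [G_of_le _ _ _ _ (h1.trans h2), G_of_le _ _ _ _ h1, G_of_le _ _ _ _ h2, ← ex,
      ← seg_append_seg y h1 h2]
    exact ed_append_le _ _ _ _
  rcases le_total p q with hpq | hpq
  · rcases le_total r p with h1 | h1
    · have h2 := key p le_rfl hpq
      have h3 := G_lip_left x y m b p r q
      have h4 : G x y a m p p + (p - r) = G x y a m p r := by
        rw [G_of_ge _ _ _ _ le_rfl, G_of_ge _ _ _ _ h1]; omega
      omega
    · rcases le_total r q with h2 | h2
      · exact key r h1 h2
      · have h3 := key q hpq le_rfl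
        have h4 := G_lip_right x y a m p q r
        have h5 : G x y m b q q + (r - q) = G x y m b r q := by
          rw [G_of_ge _ _ _ _ le_rfl, G_of_ge _ _ _ _ h2]; omega
        omega
  · -- `q ≤ p`
    have hl : (seg x a b).length = (seg x a m).length + (seg x m b).length := by
      rw [← ex, List.length_append]
    rw [G_of_ge _ _ _ _ hpq, hl]
    rcases le_total r p with h1 | h1
    · rw [G_of_ge x y a m h1]
      rcases le_total q r with h2 | h2
      · rw [G_of_ge x y m b h2]; omega
      · rw [G_of_le x y m b h2]
        have h3 := length_le_ed' (seg x m b) (seg y r q)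
        have h4 := seg_length_le y r q
        omega
    · rw [G_of_ge x y m b (hpq.trans h1), G_of_le x y a m h1]
      have h3 := length_le_ed' (seg x a m) (seg y p r)
      have h4 := seg_length_le y p r
      omega

/-- and some cut between `p` and `q` is optimal -/
theorem exists_G_split (x y : List α) {a m b : ℕ} (ham : a ≤ m) (hmb : m ≤ b) (p q : ℕ) :
    ∃ r, min p q ≤ r ∧ r ≤ max p q ∧ G x y a b p q = G x y a m p r + G x y m b r q := by
  have ex := seg_append_seg x ham hmb
  rcases le_total p q with hpq | hpq
  · obtain ⟨j, hj, e⟩ := exists_split (seg x a m) (seg x m b) (seg y p q)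
    have hlen := seg_length_le y p q
    refine ⟨p + j, by omega, by omega, ?_⟩
    have h1 : p + j ≤ q := by omega
    rw [G_of_le _ _ _ _ hpq, G_of_le _ _ _ _ (Nat.le_add_right p j), G_of_le _ _ _ _ h1, ← ex, e]
    have e1 : (seg y p q).take j = seg y p (p + j) := by
      rw [seg_eq_take, seg_eq_take, List.take_take, show min j (q - p) = p + j - p by omega]
    have e2 : (seg y p q).drop j = seg y (p + j) q := by
      unfold seg; rw [List.drop_drop]
    rw [e1, e2]
  · refine ⟨p, by omega, by omega, ?_⟩
    rw [G_of_ge _ _ _ _ hpq, G_of_ge _ _ _ _ le_rfl, G_of_ge _ _ _ _ hpq, ← ex,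
      List.length_append]
    omega

/-- the split as a minimum over any finite set of cuts that holds the interval between `p` and `q` -/
theorem G_eq_inf' (x y : List α) {a m b : ℕ} (ham : a ≤ m) (hmb : m ≤ b) (p q : ℕ)
    (W : Finset ℕ) (hW : W.Nonempty) (hWpq : ∀ r, min p q ≤ r → r ≤ max p q → r ∈ W) :
    G x y a b p q = W.inf' hW (fun r => G x y a m p r + G x y m b r q) := by
  apply le_antisymm
  · exact Finset.le_inf' _ _ fun r _ => G_split_le x y ham hmb p r q
  · obtain ⟨r, h1, h2, h3⟩ := exists_G_split x y ham hmb p q
    rw [h3]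
    exact Finset.inf'_le (fun r => G x y a m p r + G x y m b r q) (hWpq r h1 h2)

/-- one letter of `x` against a stretch of `y` -/
theorem ed_singleton (c : α) (y : List α) :
    editDist [c] y = (if c ∈ y then y.length - 1 else max 1 y.length) := by
  induction y with
  | nil => simp
  | cons b y ih =>
    rw [ed_cons_cons, ih]
    by_cases h : c = b
    · subst h
      simp only [if_true, ed_nil_left, List.mem_cons, true_or, List.length_cons]
      by_cases h2 : c ∈ y
      · have : 0 < y.length := List.length_pos_of_mem h2
        rw [if_pos h2]; omega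
      · rw [if_neg h2]; omega
    · have h3 : (c ∈ b :: y) ↔ c ∈ y := by simp [h]
      simp only [if_neg h, ed_nil_left, List.length_cons, h3]
      by_cases h2 : c ∈ y
      · have : 0 < y.length := List.length_pos_of_mem h2
        rw [if_pos h2, if_pos h2]; omega
      · rw [if_neg h2, if_neg h2]; omega

/-- the leaf of one letter -/
theorem G_leaf (x y : List α) {a p q : ℕ} (ha : a < x.length) :
    G x y a (a + 1) p q =
      (if x[a] ∈ seg y p q then (seg y p q).length - 1 else max 1 (seg y p q).length) + (p - q) := by
  unfold G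
  rw [seg_singleton x ha, ed_singleton]

/-! ### the diagonal form -/

/-- the position `a + u`, clipped to `[0, n]` -/
def pos (n a : ℕ) (u : ℤ) : ℕ := min ((a : ℤ) + u).toNat n

theorem pos_le (n a : ℕ) (u : ℤ) : pos n a u ≤ n := min_le_right _ _

/-- the diagonal `u` is admissible at the row `a` -/
def Adm (n a : ℕ) (u : ℤ) : Prop := 0 ≤ (a : ℤ) + u ∧ (a : ℤ) + u ≤ n

theorem coe_pos {n a : ℕ} {u : ℤ} (h : Adm n a u) : ((pos n a u : ℕ) : ℤ) = a + u := by
  unfold pos; obtain ⟨h1, h2⟩ := h; omega

theorem adm_of_pos (n a r : ℕ) (h : r ≤ n) : Adm n a ((r : ℤ) - a) := by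
  constructor <;> omega

theorem pos_sub (n a r : ℕ) (h : r ≤ n) : pos n a ((r : ℤ) - a) = r := by
  unfold pos; omega

/-- clipping a diagonal to the admissible ones -/
def clip (n a : ℕ) (u : ℤ) : ℤ := (pos n a u : ℤ) - a

theorem adm_clip (n a : ℕ) (u : ℤ) : Adm n a (clip n a u) := adm_of_pos n a _ (pos_le n a u)

theorem pos_clip (n a : ℕ) (u : ℤ) : pos n a (clip n a u) = pos n a u :=
  pos_sub n a _ (pos_le n a u)

theorem clip_of_adm {n a : ℕ} {u : ℤ} (h : Adm n a u) : clip n a u = u := by
  unfold clip; rw [coe_pos h]; ring

theorem pos_lip (n a : ℕ) (u u' : ℤ) :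
    (pos n a u - pos n a u') + (pos n a u' - pos n a u) ≤ (u - u').natAbs := by
  unfold pos; omega

theorem clip_lip (n a : ℕ) (u u' : ℤ) : (clip n a u - clip n a u').natAbs ≤ (u - u').natAbs := by
  have := pos_lip n a u u'
  unfold clip; omega

/-- rounding an admissible diagonal anywhere and clipping it back moves it no farther -/
theorem clip_near {n a : ℕ} {u : ℤ} (h : Adm n a u) (u' : ℤ) :
    (u - clip n a u').natAbs ≤ (u - u').natAbs := by
  have := clip_lip n a u u'
  rwa [clip_of_adm h] at this

/-- the cost of the block `x[a, b)` when the alignment enters on diagonal `u` and leaves on `v` -/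
def g (x y : List α) (a b : ℕ) (u v : ℤ) : ℕ :=
  G x y a b (pos y.length a u) (pos y.length b v)

theorem g_clip (x y : List α) (a b : ℕ) (u v : ℤ) :
    g x y a b (clip y.length a u) (clip y.length b v) = g x y a b u v := by
  unfold g; rw [pos_clip, pos_clip]

theorem g_clip_left (x y : List α) (a b : ℕ) (u v : ℤ) :
    g x y a b (clip y.length a u) v = g x y a b u v := by
  unfold g; rw [pos_clip]

theorem g_clip_right (x y : List α) (a b : ℕ) (u v : ℤ) :
    g x y a b u (clip y.length b v) = g x y a b u v := by
  unfold g; rw [pos_clip]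

/-- the root value -/
theorem g_root (x y : List α) :
    g x y 0 x.length 0 ((y.length : ℤ) - x.length) = editDist x y := by
  unfold g
  rw [pos_sub _ _ _ le_rfl, show pos y.length 0 0 = 0 by unfold pos; simp, G_root]

/-- `1`-Lipschitz in the left diagonal -/
theorem g_lip_left (x y : List α) (a b : ℕ) (u u' v : ℤ) :
    g x y a b u v ≤ g x y a b u' v + (u - u').natAbs :=
  (G_lip_left x y a b _ _ _).trans (Nat.add_le_add_left (pos_lip _ _ _ _) _)

/-- `1`-Lipschitz in the right diagonal -/
theorem g_lip_right (x y : List α) (a b : ℕ) (u v v' : ℤ) :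
    g x y a b u v ≤ g x y a b u v' + (v - v').natAbs :=
  (G_lip_right x y a b _ _ _).trans (Nat.add_le_add_left (pos_lip _ _ _ _) _)

theorem g_lip (x y : List α) (a b : ℕ) (u u' v v' : ℤ) :
    g x y a b u v ≤ g x y a b u' v' + (u - u').natAbs + (v - v').natAbs :=
  (g_lip_right x y a b u v v').trans (Nat.add_le_add_right (g_lip_left x y a b u u' v') _)

/-- `|u - v| ≤ g` for admissible diagonals -/
theorem g_ge (x y : List α) {a b : ℕ} (hab : a ≤ b) (hb : b ≤ x.length) {u v : ℤ}
    (hu : Adm y.length a u) (hv : Adm y.length b v) : (u - v).natAbs ≤ g x y a b u v := by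
  have h1 := G_ge_left x y (a := a) (p := pos y.length a u) (q := pos y.length b v) hb
  have h2 := G_ge_right x y (a := a) (b := b) (p := pos y.length a u) (q := pos y.length b v)
    (pos_le _ _ _)
  have h3 := coe_pos hu
  have h4 := coe_pos hv
  unfold g
  omega

/-- `g ≤ (b - a) + |u - v|` -/
theorem g_le (x y : List α) {a b : ℕ} (hab : a ≤ b) {u v : ℤ}
    (hu : Adm y.length a u) (hv : Adm y.length b v) :
    g x y a b u v ≤ (b - a) + (u - v).natAbs := by
  have h1 := G_le_max x y a b (pos y.length a u) (pos y.length b v)
  have h3 := coe_pos hu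
  have h4 := coe_pos hv
  unfold g
  omega

/-- an empty block -/
theorem g_empty (x y : List α) (a : ℕ) {u v : ℤ} (hu : Adm y.length a u) (hv : Adm y.length a v) :
    g x y a a u v = (u - v).natAbs := by
  have h3 := coe_pos hu
  have h4 := coe_pos hv
  unfold g
  rw [G_empty x y le_rfl (pos_le _ _ _)]
  omega

/-- every midpoint diagonal gives an upper bound -/
theorem g_split_le (x y : List α) {a m b : ℕ} (ham : a ≤ m) (hmb : m ≤ b) (u w v : ℤ) :
    g x y a b u v ≤ g x y a m u w + g x y m b w v :=
  G_split_le x y ham hmb _ _ _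

/-- and some admissible midpoint diagonal is optimal -/
theorem exists_g_split (x y : List α) {a m b : ℕ} (ham : a ≤ m) (hmb : m ≤ b) (u v : ℤ) :
    ∃ w : ℤ, Adm y.length m w ∧ g x y a b u v = g x y a m u w + g x y m b w v := by
  obtain ⟨r, h1, h2, h3⟩ := exists_G_split x y ham hmb (pos y.length a u) (pos y.length b v)
  have hr : r ≤ y.length := h2.trans (max_le (pos_le _ _ _) (pos_le _ _ _))
  refine ⟨(r : ℤ) - m, adm_of_pos _ _ _ hr, ?_⟩
  unfold g
  rw [pos_sub _ _ _ hr]
  exact h3

/-- the optimal midpoint diagonal is near `u` and near `v` -/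
theorem exists_g_split_window (x y : List α) {a m b : ℕ} (ham : a ≤ m) (hmb : m ≤ b)
    (hb : b ≤ x.length) {u v : ℤ} (hu : Adm y.length a u) (hv : Adm y.length b v) :
    ∃ w : ℤ, Adm y.length m w ∧ g x y a b u v = g x y a m u w + g x y m b w v ∧
      (u - w).natAbs ≤ g x y a m u w ∧ (w - v).natAbs ≤ g x y m b w v ∧
      (u - w).natAbs + (w - v).natAbs ≤ g x y a b u v := by
  obtain ⟨w, hw, e⟩ := exists_g_split x y ham hmb u v
  have h1 := g_ge x y ham (hmb.trans hb) hu hw
  have h2 := g_ge x y hmb hb hw hv
  exact ⟨w, hw, e, h1, h2, by omega⟩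

/-- the split as a minimum over any finite set of diagonals that holds an optimal one: all
admissible ones (for admissible `u`, `v` those with `|u - w| + |w - v| ≤ c` are enough) -/
theorem g_eq_inf' (x y : List α) {a m b : ℕ} (ham : a ≤ m) (hmb : m ≤ b) (u v : ℤ)
    (W : Finset ℤ) (hW : W.Nonempty) (h : ∀ w, Adm y.length m w → w ∈ W) :
    g x y a b u v = W.inf' hW (fun w => g x y a m u w + g x y m b w v) := by
  apply le_antisymm
  · exact Finset.le_inf' _ _ fun w _ => g_split_le x y ham hmb u w v
  · obtain ⟨w, h1, h2⟩ := exists_g_split x y ham hmb u v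
    rw [h2]
    exact Finset.inf'_le (fun w => g x y a m u w + g x y m b w v) (h w h1)

theorem g_eq_inf'_window (x y : List α) {a m b : ℕ} (ham : a ≤ m) (hmb : m ≤ b)
    (hb : b ≤ x.length) {u v : ℤ} (hu : Adm y.length a u) (hv : Adm y.length b v) {c : ℕ}
    (hc : g x y a b u v ≤ c) (W : Finset ℤ) (hW : W.Nonempty)
    (h : ∀ w, Adm y.length m w → (u - w).natAbs + (w - v).natAbs ≤ c → w ∈ W) :
    g x y a b u v = W.inf' hW (fun w => g x y a m u w + g x y m b w v) := by
  apply le_antisymm
  · exact Finset.le_inf' _ _ fun w _ => g_split_le x y ham hmb u w v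
  · obtain ⟨w, h1, h2, _, _, h5⟩ := exists_g_split_window x y ham hmb hb hu hv
    rw [h2]
    exact Finset.inf'_le (fun w => g x y a m u w + g x y m b w v) (h w h1 (h5.trans hc))

/-! ### a whole alignment: one diagonal at every grid row -/

/-- the cost of the alignment that passes row `r k` on diagonal `w k`, `k = 0, …, n` -/
def pathCost (x y : List α) (r : ℕ → ℕ) (w : ℕ → ℤ) (n : ℕ) : ℕ :=
  ∑ k ∈ Finset.range n, g x y (r k) (r (k + 1)) (w k) (w (k + 1))

/-- every choice of diagonals costs at least the distance -/
theorem g_le_pathCost (x y : List α) (r : ℕ → ℕ) (hr : Monotone r) (w : ℕ → ℤ) (n : ℕ)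
    (hn : 0 < n) : g x y (r 0) (r n) (w 0) (w n) ≤ pathCost x y r w n := by
  induction n with
  | zero => omega
  | succ n ih =>
    unfold pathCost
    rw [Finset.sum_range_succ]
    rcases Nat.eq_zero_or_pos n with h | h
    · subst h; simp
    · exact (g_split_le x y (hr (Nat.zero_le n)) (hr (Nat.le_succ n)) _ (w n) _).trans
        (Nat.add_le_add_right (ih h) _)

/-- and some choice of admissible diagonals with the given ends costs exactly this -/
theorem exists_pathCost (x y : List α) (r : ℕ → ℕ) (hr : Monotone r) (n : ℕ) (hn : 0 < n)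
    (u v : ℤ) : ∃ w : ℕ → ℤ, w 0 = u ∧ w n = v ∧ (∀ k, 0 < k → k < n → Adm y.length (r k) (w k)) ∧
      pathCost x y r w n = g x y (r 0) (r n) u v := by
  induction n generalizing v with
  | zero => omega
  | succ n ih =>
    rcases Nat.eq_zero_or_pos n with h | h
    · subst h
      refine ⟨fun k => if k = 0 then u else v, by simp, by simp, fun k h1 h2 => by omega, ?_⟩
      simp [pathCost]
    · obtain ⟨c, hc, e⟩ := exists_g_split x y (hr (Nat.zero_le n)) (hr (Nat.le_succ n)) u v
      obtain ⟨w, h0, hn', hadm, hcost⟩ := ih h c
      refine ⟨fun k => if k ≤ n then w k else v, ?_, ?_, ?_, ?_⟩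
      · simpa using h0
      · simp
      · intro k h1 h2
        have hk : k ≤ n := by omega
        simp only [if_pos hk]
        rcases Nat.lt_or_ge k n with h3 | h3
        · exact hadm k h1 h3
        · obtain rfl : k = n := by omega
          rw [hn']; exact hc
      · unfold pathCost at hcost ⊢
        rw [Finset.sum_range_succ, e]
        congr 1
        · rw [← hcost]
          apply Finset.sum_congr rfl
          intro k hk
          have hk' := Finset.mem_range.1 hk
          simp only [if_pos (show k ≤ n by omega), if_pos (show k + 1 ≤ n by omega)]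
        · simp only [if_pos (le_refl n), hn', if_neg (show ¬ n + 1 ≤ n by omega)]

/-- moving every diagonal by at most `s k` costs at most `2 ∑ s k` -/
theorem pathCost_move (x y : List α) (r : ℕ → ℕ) (w w' : ℕ → ℤ) (n : ℕ) :
    pathCost x y r w' n ≤ pathCost x y r w n +
      ∑ k ∈ Finset.range n, ((w' k - w k).natAbs + (w' (k + 1) - w (k + 1)).natAbs) := by
  unfold pathCost
  rw [← Finset.sum_add_distrib]
  apply Finset.sum_le_sum
  intro k _
  have := g_lip x y (r k) (r (k + 1)) (w' k) (w k) (w' (k + 1)) (w (k + 1))
  omega

end Crest.Agent.R288.GameA347
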