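import Mathlib
import Crest.Agent.R288.GameA_347

/-!
# R288 (S0433), leaf [Node], pure part

* dyadic blocks: block `(h, j)` of a string of length `n` is `[lo n h j, hi n h j)` with
  `lo n h j = min n (j * 2 ^ h)`, `hi n h j = lo n h (j + 1)`; its halves are `(h - 1, 2j)` and
  `(h - 1, 2j + 1)`; the root is `(H, 0)` with `n ≤ 2 ^ H` (e.g. `H = Nat.clog 2 n`);
* `gn x y h j u v`: the cost of the node `(h, j)` between the diagonals `u` and `v`, with split,
  Lipschitz, window and root lemmas;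
* `Grid`: states `(u, v)`, `u = s (i - K)` (`i ≤ 2K`), `v = u + s (k - R)` (`k ≤ 2R`), numbered by
  `enc i k < cnt`; rounding to the grid; children states after the letter `T`
  (`w = u + s' (T - R')`) on the finer grid.
-/

set_option autoImplicit false

namespace Crest.Agent.R288.NodeA785

open Crest.GraphRAM Crest.Agent.R288.Ed Crest.Agent.R288.GameA347

/-! ### dyadic blocks -/

/-- left end of the block `(h, j)` of a string of length `n` -/
def lo (n h j : ℕ) : ℕ := min n (j * 2 ^ h)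

/-- right end of the block `(h, j)` -/
def hi (n h j : ℕ) : ℕ := min n ((j + 1) * 2 ^ h)

theorem hi_eq_lo (n h j : ℕ) : hi n h j = lo n h (j + 1) := rfl

theorem lo_le (n h j : ℕ) : lo n h j ≤ n := min_le_left _ _

theorem hi_le (n h j : ℕ) : hi n h j ≤ n := min_le_left _ _

theorem lo_mono (n h : ℕ) {j j' : ℕ} (hj : j ≤ j') : lo n h j ≤ lo n h j' :=
  min_le_min le_rfl (Nat.mul_le_mul_right _ hj)

theorem lo_le_hi (n h j : ℕ) : lo n h j ≤ hi n h j := lo_mono n h (Nat.le_succ j)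

@[simp] theorem lo_zero (n h : ℕ) : lo n h 0 = 0 := by simp [lo]

theorem hi_eq_min_add (n h j : ℕ) : hi n h j = min n (lo n h j + 2 ^ h) := by
  have hp := Nat.two_pow_pos h
  unfold lo hi
  rw [add_mul, one_mul]
  generalize j * 2 ^ h = A at *
  generalize 2 ^ h = P at *
  omega

theorem hi_sub_lo_le (n h j : ℕ) : hi n h j - lo n h j ≤ 2 ^ h := by
  rw [hi_eq_min_add]
  generalize 2 ^ h = P at *
  omega

theorem hi_sub_lo_full {n h j : ℕ} (hj : (j + 1) * 2 ^ h ≤ n) : hi n h j - lo n h j = 2 ^ h := by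
  have : j * 2 ^ h ≤ n := le_trans (Nat.mul_le_mul_right _ (Nat.le_succ j)) hj
  unfold lo hi
  rw [min_eq_right hj, min_eq_right this, add_mul, one_mul, Nat.add_sub_cancel_left]

theorem lo_of_ge {n h j : ℕ} (hj : n ≤ j * 2 ^ h) : lo n h j = n := min_eq_left hj

theorem lo_of_le {n h j : ℕ} (hj : j * 2 ^ h ≤ n) : lo n h j = j * 2 ^ h := min_eq_right hj

theorem hi_of_ge {n h j : ℕ} (hj : n ≤ (j + 1) * 2 ^ h) : hi n h j = n := min_eq_left hj

theorem hi_of_le {n h j : ℕ} (hj : (j + 1) * 2 ^ h ≤ n) : hi n h j = (j + 1) * 2 ^ h :=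
  min_eq_right hj

/-- the root -/
theorem hi_root {n H : ℕ} (h : n ≤ 2 ^ H) : hi n H 0 = n := hi_of_ge (by simpa using h)

theorem hi_root_clog (n : ℕ) : hi n (Nat.clog 2 n) 0 = n :=
  hi_root (Nat.le_pow_clog (by norm_num) n)

/-- the leaves -/
theorem lo_leaf {n j : ℕ} (hj : j ≤ n) : lo n 0 j = j := by unfold lo; simpa using hj

theorem hi_leaf {n j : ℕ} (hj : j < n) : hi n 0 j = j + 1 := by unfold hi; simpa using hj

/-- the left half begins where the block begins -/
theorem lo_succ (n h j : ℕ) : lo n h (2 * j) = lo n (h + 1) j := by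
  unfold lo; rw [pow_succ]; congr 1; ring

/-- the right half ends where the block ends -/
theorem hi_succ (n h j : ℕ) : hi n h (2 * j + 1) = hi n (h + 1) j := by
  unfold hi; rw [pow_succ]; congr 1; ring

/-- the halves meet -/
theorem hi_left (n h j : ℕ) : hi n h (2 * j) = lo n h (2 * j + 1) := rfl

theorem lo_le_mid (n h j : ℕ) : lo n (h + 1) j ≤ lo n h (2 * j + 1) := by
  rw [← lo_succ]; exact lo_mono n h (Nat.le_succ _)

theorem mid_le_hi (n h j : ℕ) : lo n h (2 * j + 1) ≤ hi n (h + 1) j := by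
  rw [← hi_succ]; exact lo_le_hi n h _

theorem len_succ (n h j : ℕ) :
    hi n (h + 1) j - lo n (h + 1) j =
      (hi n h (2 * j) - lo n h (2 * j)) + (hi n h (2 * j + 1) - lo n h (2 * j + 1)) := by
  have h1 := lo_le_mid n h j
  have h2 := mid_le_hi n h j
  have h3 := lo_succ n h j
  have h4 := hi_succ n h j
  have h5 := hi_left n h j
  omega

/-- the blocks of one height partition the string -/
theorem sum_len {n H : ℕ} (h : ℕ) (hH : n ≤ 2 ^ (h + H)) :
    ∑ j ∈ Finset.range (2 ^ H), (hi n h j - lo n h j) = n := by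
  have key : ∀ m, ∑ j ∈ Finset.range m, (hi n h j - lo n h j) = lo n h m := by
    intro m
    induction m with
    | zero => simp
    | succ m ih =>
      rw [Finset.sum_range_succ, ih, ← hi_eq_lo]
      have := lo_le_hi n h m
      omega
  rw [key, lo_of_ge]
  rwa [← pow_add, add_comm H h]

/-- the block of height `h` around the row `a` -/
theorem lo_anc (n a h : ℕ) : lo n h (a / 2 ^ h) ≤ a :=
  (min_le_right _ _).trans (Nat.div_mul_le_self _ _)

theorem lt_hi_anc {n a : ℕ} (h : ℕ) (ha : a < n) : a < hi n h (a / 2 ^ h) :=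
  lt_min ha (Nat.lt_mul_of_div_lt (Nat.lt_succ_self _) (Nat.two_pow_pos h))

theorem eq_anc {n h j a : ℕ} (h1 : lo n h j ≤ a) (h2 : a < hi n h j) : j = a / 2 ^ h := by
  unfold lo at h1
  unfold hi at h2
  have h3 : a < n := lt_of_lt_of_le h2 (min_le_left _ _)
  have h4 : a < (j + 1) * 2 ^ h := lt_of_lt_of_le h2 (min_le_right _ _)
  have h5 : j * 2 ^ h ≤ a := by omega
  symm
  apply Nat.div_eq_of_lt_le h5 h4

theorem anc_succ (h a : ℕ) : a / 2 ^ (h + 1) = a / 2 ^ h / 2 := by
  rw [pow_succ, Nat.div_div_eq_div_mul]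

theorem anc_child (h a : ℕ) : a / 2 ^ h = 2 * (a / 2 ^ (h + 1)) + a / 2 ^ h % 2 := by
  rw [anc_succ]; omega

/-! ### the cost of a node -/

/-- the cost of the node `(h, j)` when the alignment enters on diagonal `u`, leaves on `v` -/
def gn (x y : List ℕ) (h j : ℕ) (u v : ℤ) : ℕ := g x y (lo x.length h j) (hi x.length h j) u v

section gn

variable (x y : List ℕ) (h j : ℕ) (u u' v v' w : ℤ)

theorem gn_root {H : ℕ} (hH : x.length ≤ 2 ^ H) :
    gn x y H 0 0 ((y.length : ℤ) - x.length) = editDist x y := by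
  unfold gn
  rw [lo_zero, hi_root hH, g_root]

theorem gn_split_le : gn x y (h + 1) j u v ≤ gn x y h (2 * j) u w + gn x y h (2 * j + 1) w v := by
  unfold gn
  rw [lo_succ, hi_succ, hi_left]
  exact g_split_le x y (lo_le_mid _ _ _) (mid_le_hi _ _ _) u w v

theorem exists_gn_split : ∃ w : ℤ, Adm y.length (lo x.length h (2 * j + 1)) w ∧
    gn x y (h + 1) j u v = gn x y h (2 * j) u w + gn x y h (2 * j + 1) w v := by
  unfold gn
  rw [lo_succ, hi_succ, hi_left]
  exact exists_g_split x y (lo_le_mid _ _ _) (mid_le_hi _ _ _) u v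

theorem exists_gn_split_window {u v : ℤ} (hu : Adm y.length (lo x.length (h + 1) j) u)
    (hv : Adm y.length (hi x.length (h + 1) j) v) :
    ∃ w : ℤ, Adm y.length (lo x.length h (2 * j + 1)) w ∧
      gn x y (h + 1) j u v = gn x y h (2 * j) u w + gn x y h (2 * j + 1) w v ∧
      (u - w).natAbs ≤ gn x y h (2 * j) u w ∧ (w - v).natAbs ≤ gn x y h (2 * j + 1) w v ∧
      (u - w).natAbs + (w - v).natAbs ≤ gn x y (h + 1) j u v := by
  unfold gn
  rw [lo_succ, hi_succ, hi_left]
  exact exists_g_split_window x y (lo_le_mid _ _ _) (mid_le_hi _ _ _) (hi_le _ _ _) hu hv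

theorem gn_lip_left : gn x y h j u v ≤ gn x y h j u' v + (u - u').natAbs := g_lip_left _ _ _ _ _ _ _

theorem gn_lip_right : gn x y h j u v ≤ gn x y h j u v' + (v - v').natAbs :=
  g_lip_right _ _ _ _ _ _ _

theorem gn_lip : gn x y h j u v ≤ gn x y h j u' v' + (u - u').natAbs + (v - v').natAbs :=
  g_lip _ _ _ _ _ _ _ _

theorem gn_ge {u v : ℤ} (hu : Adm y.length (lo x.length h j) u)
    (hv : Adm y.length (hi x.length h j) v) : (u - v).natAbs ≤ gn x y h j u v :=
  g_ge x y (lo_le_hi _ _ _) (hi_le _ _ _) hu hv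

theorem gn_le {u v : ℤ} (hu : Adm y.length (lo x.length h j) u)
    (hv : Adm y.length (hi x.length h j) v) : gn x y h j u v ≤ 2 ^ h + (u - v).natAbs :=
  (g_le x y (lo_le_hi _ _ _) hu hv).trans (Nat.add_le_add_right (hi_sub_lo_le _ _ _) _)

/-- nodes beyond the end of the string -/
theorem gn_empty (hj : x.length ≤ j * 2 ^ h) {u v : ℤ} (hu : Adm y.length x.length u)
    (hv : Adm y.length x.length v) : gn x y h j u v = (u - v).natAbs := by
  unfold gn
  rw [lo_of_ge hj, hi_of_ge (hj.trans (Nat.mul_le_mul_right _ (Nat.le_succ j)))]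
  exact g_empty x y _ hu hv

end gn

/-! ### grids -/

/-- a grid of states `(u, v)` of a node: `u = s (i - K)` with `i ≤ 2K`, `v = u + s (k - R)` with
`k ≤ 2R` -/
structure Grid where
  /-- the step -/
  s : ℕ
  /-- half the number of the left diagonals -/
  K : ℕ
  /-- half the number of the differences -/
  R : ℕ

namespace Grid

variable (G G' : Grid)

/-- number of left diagonals -/
def cu : ℕ := 2 * G.K + 1

/-- number of differences -/
def cd : ℕ := 2 * G.R + 1

/-- number of states -/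
def cnt : ℕ := G.cu * G.cd

/-- index of a state -/
def enc (i k : ℕ) : ℕ := i * G.cd + k

/-- the left diagonal number of an index -/
def fi (t : ℕ) : ℕ := t / G.cd

/-- the difference number of an index -/
def fk (t : ℕ) : ℕ := t % G.cd

/-- the left diagonal -/
def U (i : ℕ) : ℤ := G.s * ((i : ℤ) - G.K)

/-- the difference of the diagonals -/
def dU (k : ℕ) : ℤ := G.s * ((k : ℤ) - G.R)

/-- the right diagonal -/
def V (i k : ℕ) : ℤ := G.U i + G.dU k

theorem cd_pos : 0 < G.cd := Nat.succ_pos _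

theorem cu_pos : 0 < G.cu := Nat.succ_pos _

theorem cnt_pos : 0 < G.cnt := Nat.mul_pos G.cu_pos G.cd_pos

theorem enc_lt {i k : ℕ} (hi : i < G.cu) (hk : k < G.cd) : G.enc i k < G.cnt := by
  unfold enc cnt
  calc i * G.cd + k < i * G.cd + G.cd := by omega
    _ = (i + 1) * G.cd := by ring
    _ ≤ G.cu * G.cd := Nat.mul_le_mul_right _ hi

theorem fi_enc {i k : ℕ} (hk : k < G.cd) : G.fi (G.enc i k) = i := by
  unfold fi enc
  rw [mul_comm, Nat.mul_add_div G.cd_pos, Nat.div_eq_of_lt hk, add_zero]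

theorem fk_enc {i k : ℕ} (hk : k < G.cd) : G.fk (G.enc i k) = k := by
  unfold fk enc
  rw [mul_comm, Nat.mul_add_mod, Nat.mod_eq_of_lt hk]

theorem enc_fi_fk (t : ℕ) : G.enc (G.fi t) (G.fk t) = t := by
  unfold enc fi fk
  rw [mul_comm]; exact Nat.div_add_mod t G.cd

theorem fi_lt {t : ℕ} (h : t < G.cnt) : G.fi t < G.cu := Nat.div_lt_of_lt_mul (by
  rw [mul_comm]; exact h)

theorem fk_lt (t : ℕ) : G.fk t < G.cd := Nat.mod_lt _ G.cd_pos

theorem enc_inj {i k i' k' : ℕ} (hk : k < G.cd) (hk' : k' < G.cd) (h : G.enc i k = G.enc i' k') :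
    i = i' ∧ k = k' := by
  have h1 := G.fi_enc (i := i) hk
  have h2 := G.fk_enc (i := i) hk
  rw [h, G.fi_enc hk'] at h1
  rw [h, G.fk_enc hk'] at h2
  exact ⟨h1.symm, h2.symm⟩

theorem U_center : G.U G.K = 0 := by simp [U]

theorem dU_center : G.dU G.R = 0 := by simp [dU]

theorem U_abs {i : ℕ} (hi : i < G.cu) : |G.U i| ≤ G.s * G.K := by
  unfold U cu at *
  rw [abs_mul, Nat.abs_cast]
  apply mul_le_mul_of_nonneg_left _ (Int.natCast_nonneg _)
  rw [abs_le]; constructor <;> omega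

theorem dU_abs {k : ℕ} (hk : k < G.cd) : |G.dU k| ≤ G.s * G.R := by
  unfold dU cd at *
  rw [abs_mul, Nat.abs_cast]
  apply mul_le_mul_of_nonneg_left _ (Int.natCast_nonneg _)
  rw [abs_le]; constructor <;> omega

theorem U_add (i k : ℕ) : G.U (i + k) = G.U i + G.s * k := by
  unfold U; push_cast; ring

theorem U_lt {i i' : ℕ} (hs : 0 < G.s) (h : i < i') : G.U i < G.U i' := by
  unfold U
  apply mul_lt_mul_of_pos_left _ (by exact_mod_cast hs)
  omega

theorem U_inj {i i' : ℕ} (hs : 0 < G.s) (h : G.U i = G.U i') : i = i' := by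
  unfold U at h
  have h1 : ((i : ℤ) - G.K) = (i' : ℤ) - G.K := by
    apply mul_left_cancel₀ _ h
    exact_mod_cast hs.ne'
  omega

/-- the position in `y` where the state begins, for a block that begins at the row `a` -/
theorem pos_U (n a i : ℕ) : pos n a (G.U i) = min (a + G.s * i - G.s * G.K) n := by
  unfold pos U
  congr 1
  have h : (a : ℤ) + G.s * ((i : ℤ) - G.K) = ((a + G.s * i : ℕ) : ℤ) - ((G.s * G.K : ℕ) : ℤ) := by
    push_cast; ring
  rw [h]
  omega

/-- the position in `y` where the state ends, for a block that ends at the row `b` -/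
theorem pos_V (n b i k : ℕ) :
    pos n b (G.V i k) = min (b + G.s * (i + k) - G.s * (G.K + G.R)) n := by
  unfold pos V U dU
  congr 1
  have h : (b : ℤ) + (G.s * ((i : ℤ) - G.K) + G.s * ((k : ℤ) - G.R))
      = ((b + G.s * (i + k) : ℕ) : ℤ) - ((G.s * (G.K + G.R) : ℕ) : ℤ) := by
    push_cast; ring
  rw [h]
  omega

theorem natAbs_dU (k : ℕ) : (G.dU k).natAbs = G.s * ((k - G.R) + (G.R - k)) := by
  unfold dU
  rw [Int.natAbs_mul, Int.natAbs_natCast]
  congr 1
  omega

/-! rounding to the lattice -/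

/-- the nearest left diagonal number -/
def near (u : ℤ) : ℕ := ((u + G.s * G.K + (G.s / 2 : ℕ)) / (G.s : ℤ)).toNat

theorem near_spec (hs : 0 < G.s) {u : ℤ} (h1 : -(G.s * G.K : ℤ) ≤ u) (h2 : u ≤ G.s * G.K) :
    G.near u < G.cu ∧ 2 * |u - G.U (G.near u)| ≤ G.s := by
  have hs' : (0 : ℤ) < G.s := by exact_mod_cast hs
  set a : ℤ := u + G.s * G.K + (G.s / 2 : ℕ) with ha
  have ha0 : 0 ≤ a := by omega
  set q : ℤ := a / (G.s : ℤ) with hq
  have hq0 : 0 ≤ q := Int.ediv_nonneg ha0 hs'.le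
  have hdm : (G.s : ℤ) * q + a % G.s = a := Int.mul_ediv_add_emod a G.s
  have hm0 : 0 ≤ a % (G.s : ℤ) := Int.emod_nonneg _ hs'.ne'
  have hm1 : a % (G.s : ℤ) < G.s := Int.emod_lt_of_pos _ hs'
  have hn : ((G.near u : ℕ) : ℤ) = q := by
    unfold near; rw [← ha, ← hq]; omega
  constructor
  · have h3 : (G.s : ℤ) * q < G.s * (2 * G.K + 1) := by
      have : (G.s : ℤ) * (2 * G.K + 1) = 2 * (G.s * G.K) + G.s := by ring
      rw [this]
      omega
    have h4 : q < 2 * G.K + 1 := lt_of_mul_lt_mul_left h3 hs'.le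
    unfold cu
    omega
  · have h5 : u - G.U (G.near u) = a % G.s - (G.s / 2 : ℕ) := by
      unfold U
      rw [hn]
      have : (G.s : ℤ) * (q - G.K) = G.s * q - G.s * G.K := by ring
      rw [this]
      omega
    rw [h5]
    rcases abs_cases (a % (G.s : ℤ) - (G.s / 2 : ℕ)) with ⟨e, _⟩ | ⟨e, _⟩ <;> rw [e] <;> omega

end Grid

/-! ### the children of a state -/

/-- the grid `G'` of the children refines the grid `G` of the parent with ratio `q` -/
structure Fine (q : ℕ) (G G' : Grid) : Prop where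
  hs : G.s = q * G'.s
  pos : 0 < G'.s
  hK : q * G.K ≤ G'.K

/-- number of the left diagonal of the state in the children's grid -/
def lI (q : ℕ) (G G' : Grid) (i : ℕ) : ℕ := G'.K - q * G.K + q * i

/-- number of the middle diagonal chosen by the letter `T`, i.e. `w = u + s' (T - R')` -/
def rI (q : ℕ) (G G' : Grid) (i T : ℕ) : ℕ := lI q G G' i + T - G'.R

/-- number of the difference `v - w` in the children's grid -/
def rK (q : ℕ) (G G' : Grid) (k T : ℕ) : ℕ := 2 * G'.R + q * k - (q * G.R + T)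

/-- the letter `T` is allowed in the state `(i, k)` -/
def OkT (q : ℕ) (G G' : Grid) (i k T : ℕ) : Prop :=
  T < G'.cd ∧ G'.R ≤ lI q G G' i + T ∧ rI q G G' i T < G'.cu ∧
    q * G.R + T ≤ 2 * G'.R + q * k ∧ rK q G G' k T < G'.cd

instance (q : ℕ) (G G' : Grid) (i k T : ℕ) : Decidable (OkT q G G' i k T) := by
  unfold OkT; infer_instance

section children

variable {q : ℕ} {G G' : Grid} {i k T : ℕ}

theorem U_lI (F : Fine q G G') (i : ℕ) : G'.U (lI q G G' i) = G.U i := by
  have h := F.hK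
  unfold Grid.U lI
  rw [F.hs]
  push_cast [h]
  ring

theorem lI_lt (F : Fine q G G') (hi : i < G.cu) : lI q G G' i < G'.cu := by
  have h := F.hK
  have h1 : q * i ≤ q * (2 * G.K) := Nat.mul_le_mul_left _ (by unfold Grid.cu at hi; omega)
  have h2 : q * (2 * G.K) = 2 * (q * G.K) := by ring
  unfold lI Grid.cu
  omega

theorem U_rI (F : Fine q G G') (h : OkT q G G' i k T) :
    G'.U (rI q G G' i T) = G.U i + G'.dU T := by
  rw [← U_lI F i]
  unfold rI Grid.U Grid.dU
  have := h.2.1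
  push_cast [this]
  ring

/-- the left child is the state `(u, w)` -/
theorem V_left (F : Fine q G G') (h : OkT q G G' i k T) :
    G'.V (lI q G G' i) T = G'.U (rI q G G' i T) := by
  rw [U_rI F h, Grid.V, U_lI F i]

/-- the right child is the state `(w, v)` -/
theorem V_right (F : Fine q G G') (h : OkT q G G' i k T) :
    G'.V (rI q G G' i T) (rK q G G' k T) = G.V i k := by
  rw [Grid.V, U_rI F h, Grid.V]
  unfold rK Grid.dU
  rw [F.hs]
  have := h.2.2.2.1
  push_cast [this]
  ring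

/-- every lattice diagonal within the windows is a letter -/
theorem exists_T (F : Fine q G G') (w : ℤ) (t : ℤ) (hw : w = G.U i + G'.s * t)
    (h1 : |t| ≤ G'.R) (h2 : |G.V i k - w| ≤ G'.s * G'.R) (h3 : |w| ≤ G'.s * G'.K) :
    OkT q G G' i k (t + G'.R).toNat ∧ G'.U (rI q G G' i (t + G'.R).toNat) = w ∧
      G'.dU (t + G'.R).toNat = G'.s * t := by
  have hp : (0 : ℤ) < G'.s := by exact_mod_cast F.pos
  rw [abs_le] at h1
  set T := (t + G'.R).toNat with hT
  have hTc : (T : ℤ) = t + G'.R := by omega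
  -- the middle diagonal
  have e1 : G.U i = G'.s * ((lI q G G' i : ℤ) - G'.K) := by rw [← U_lI F i]; rfl
  have h3' : |(lI q G G' i : ℤ) - G'.K + t| ≤ G'.K := by
    have : w = G'.s * ((lI q G G' i : ℤ) - G'.K + t) := by rw [hw, e1]; ring
    rw [this, abs_mul, Nat.abs_cast] at h3
    exact le_of_mul_le_mul_left h3 hp
  -- the difference
  have h2' : |(q : ℤ) * ((k : ℤ) - G.R) - t| ≤ G'.R := by
    have : G.V i k - w = G'.s * ((q : ℤ) * ((k : ℤ) - G.R) - t) := by
      rw [hw, Grid.V, Grid.dU, F.hs]; push_cast; ring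
    rw [this, abs_mul, Nat.abs_cast] at h2
    exact le_of_mul_le_mul_left h2 hp
  rw [abs_le] at h2' h3'
  have e2 : (q : ℤ) * ((k : ℤ) - G.R) = ((q * k : ℕ) : ℤ) - ((q * G.R : ℕ) : ℤ) := by
    push_cast; ring
  rw [e2] at h2'
  have hok : OkT q G G' i k T := by
    unfold OkT rI rK Grid.cd Grid.cu
    generalize q * k = a at *
    generalize q * G.R = b at *
    generalize lI q G G' i = c at *
    refine ⟨?_, ?_, ?_, ?_, ?_⟩ <;> omega
  refine ⟨hok, ?_, ?_⟩
  · rw [U_rI F hok, hw, Grid.dU, hTc]; ring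
  · rw [Grid.dU, hTc]; ring

/-- every diagonal within the windows is near a letter -/
theorem exists_near (F : Fine q G G') (w : ℤ) (h1 : |w - G.U i| ≤ G'.s * G'.R)
    (h2 : |G.V i k - w| ≤ G'.s * G'.R) (h3 : |w| ≤ G'.s * G'.K) :
    ∃ T, OkT q G G' i k T ∧ 2 * |w - G'.U (rI q G G' i T)| ≤ G'.s := by
  have hp : (0 : ℤ) < G'.s := by exact_mod_cast F.pos
  -- the nearest multiple
  obtain ⟨t, ht⟩ : ∃ t : ℤ, 2 * |w - (G.U i + G'.s * t)| ≤ G'.s := by
    refine ⟨(w - G.U i + (G'.s / 2 : ℕ)) / (G'.s : ℤ), ?_⟩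
    set a : ℤ := w - G.U i + (G'.s / 2 : ℕ) with ha
    have hdm : (G'.s : ℤ) * (a / G'.s) + a % G'.s = a := Int.mul_ediv_add_emod a G'.s
    have hm0 : 0 ≤ a % (G'.s : ℤ) := Int.emod_nonneg _ hp.ne'
    have hm1 : a % (G'.s : ℤ) < G'.s := Int.emod_lt_of_pos _ hp
    have e : w - (G.U i + G'.s * (a / G'.s)) = a % G'.s - (G'.s / 2 : ℕ) := by
      omega
    rw [e]
    rcases abs_cases (a % (G'.s : ℤ) - (G'.s / 2 : ℕ)) with ⟨e, _⟩ | ⟨e, _⟩ <;> rw [e] <;> omega
  -- an integer multiple of `s'` which is less than `s' (N + 1/2)` is at most `s' N`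
  have key : ∀ (z : ℤ) (N : ℕ), 2 * |G'.s * z| ≤ 2 * (G'.s * N) + G'.s → |z| ≤ N := by
    intro z N hz
    rw [abs_mul, Nat.abs_cast] at hz
    by_contra hcon
    have h4 : (N : ℤ) + 1 ≤ |z| := by omega
    have h5 : (G'.s : ℤ) * (N + 1) ≤ G'.s * |z| := mul_le_mul_of_nonneg_left h4 hp.le
    rw [mul_add, mul_one] at h5
    omega
  have e1 : G.U i = G'.s * ((lI q G G' i : ℤ) - G'.K) := by rw [← U_lI F i]; rfl
  have r1 : |t| ≤ G'.R := by
    apply key
    have : (G'.s : ℤ) * t = (w - G.U i) - (w - (G.U i + G'.s * t)) := by ring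
    rw [this]
    have := abs_sub (w - G.U i) (w - (G.U i + G'.s * t))
    omega
  have r2 : |G.V i k - (G.U i + G'.s * t)| ≤ G'.s * G'.R := by
    have hz : G.V i k - (G.U i + G'.s * t) = G'.s * ((q : ℤ) * ((k : ℤ) - G.R) - t) := by
      rw [Grid.V, Grid.dU, F.hs]; push_cast; ring
    have hk : |(q : ℤ) * ((k : ℤ) - G.R) - t| ≤ G'.R := by
      apply key
      rw [← hz]
      have h4 : G.V i k - (G.U i + G'.s * t) = (G.V i k - w) + (w - (G.U i + G'.s * t)) := by ring
      rw [h4]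
      have := abs_add_le (G.V i k - w) (w - (G.U i + G'.s * t))
      omega
    rw [hz, abs_mul, Nat.abs_cast]
    exact mul_le_mul_of_nonneg_left hk hp.le
  have r3 : |G.U i + G'.s * t| ≤ G'.s * G'.K := by
    have hz : G.U i + G'.s * t = G'.s * ((lI q G G' i : ℤ) - G'.K + t) := by rw [e1]; ring
    have hk : |(lI q G G' i : ℤ) - G'.K + t| ≤ G'.K := by
      apply key
      rw [← hz]
      have h4 : G.U i + G'.s * t = w - (w - (G.U i + G'.s * t)) := by ring
      rw [h4]
      have := abs_sub w (w - (G.U i + G'.s * t))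
      omega
    rw [hz, abs_mul, Nat.abs_cast]
    exact mul_le_mul_of_nonneg_left hk hp.le
  obtain ⟨h4, h5, _⟩ := exists_T F _ t rfl r1 r2 r3
  exact ⟨_, h4, by rw [h5]; exact ht⟩

end children

end Crest.Agent.R288.NodeA785
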