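import Mathlib
import Crest.Agent.R288.NodeA_785

/-!
# R288 (S0433), leaf [Init], pure part 1: the E-distance and the start promise `T₀`

`E g e h j u`: the tree distance with macro branching `2 ^ g` of the node `(h, j)` on the diagonal
`u` (`e` = cost of the single rows): at the macro heights `g ∣ h` a child may change its diagonal
(inf-convolution `ic` with the absolute value).

* `E_lip`: `2 ^ g`-Lipschitz in `u`; `E_split`: binary split inequality; `E_sum`: the sum over the
  children of a macro block;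
* for the mismatch function `mis x y`: `gn_le_E` : `gn ≤ |u - v| + 2 E`;
* `T0`: `T0_split` (hard subsolution), `T0_lip_left/right` (1-Lipschitz), `T0_le_gn`,
  `gn_le_T0 : gn ≤ B₀ T0` with `B₀ = 8 L 2 ^ g`.
-/

set_option autoImplicit false

namespace Crest.Agent.R288.Init772

open Crest.GraphRAM Crest.Agent.R288.Ed Crest.Agent.R288.GameA347 Crest.Agent.R288.NodeA785

/-! ### inf-convolution with the absolute value -/

/-- `ic F u = min_w (F w + |w - u|)` -/
noncomputable def ic (F : ℤ → ℕ) (u : ℤ) : ℕ := ⨅ w : ℤ, (F w + (w - u).natAbs)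

theorem exists_ic (F : ℤ → ℕ) (u : ℤ) : ∃ w : ℤ, ic F u = F w + (w - u).natAbs := by
  have h := Nat.sInf_mem (Set.range_nonempty (fun w : ℤ => F w + (w - u).natAbs))
  obtain ⟨w, hw⟩ := h
  exact ⟨w, hw.symm⟩

theorem ic_le (F : ℤ → ℕ) (u w : ℤ) : ic F u ≤ F w + (w - u).natAbs :=
  Nat.sInf_le ⟨w, rfl⟩

theorem ic_le_self (F : ℤ → ℕ) (u : ℤ) : ic F u ≤ F u := by
  have := ic_le F u u
  simpa using this

theorem le_ic {F : ℤ → ℕ} {u : ℤ} {c : ℕ} (h : ∀ w : ℤ, c ≤ F w + (w - u).natAbs) :
    c ≤ ic F u := by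
  obtain ⟨w, hw⟩ := exists_ic F u
  rw [hw]; exact h w

theorem ic_lip (F : ℤ → ℕ) (u u' : ℤ) : ic F u ≤ ic F u' + (u - u').natAbs := by
  obtain ⟨w, hw⟩ := exists_ic F u'
  have := ic_le F u w
  omega

/-- the inf-convolution does nothing to a `1`-Lipschitz function -/
theorem ic_of_lip {F : ℤ → ℕ} (h : ∀ u u' : ℤ, F u ≤ F u' + (u - u').natAbs) (u : ℤ) :
    ic F u = F u := by
  apply le_antisymm (ic_le_self F u)
  apply le_ic
  intro w
  have := h u w
  omega

/-! ### the E-distance -/

/-- what the parent of a node of height `h` sees -/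
noncomputable def wr (g h : ℕ) (F : ℤ → ℕ) : ℤ → ℕ := if g ∣ h then ic F else F

/-- the E-distance with macro branching `2 ^ g`; `e` = cost of the rows -/
noncomputable def E (g : ℕ) (e : ℕ → ℤ → ℕ) : ℕ → ℕ → ℤ → ℕ
  | 0, j, u => e j u
  | h + 1, j, u => wr g h (E g e h (2 * j)) u + wr g h (E g e h (2 * j + 1)) u

section E

variable (g : ℕ) (e : ℕ → ℤ → ℕ)

@[simp] theorem E_zero (j : ℕ) (u : ℤ) : E g e 0 j u = e j u := rfl

theorem E_succ (h j : ℕ) (u : ℤ) :
    E g e (h + 1) j u = wr g h (E g e h (2 * j)) u + wr g h (E g e h (2 * j + 1)) u := rfl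

theorem wr_le (h : ℕ) (F : ℤ → ℕ) (u : ℤ) : wr g h F u ≤ F u := by
  unfold wr
  split_ifs
  · exact ic_le_self F u
  · exact le_rfl

/-- the Lipschitz constant of the node of height `h` as its parent sees it -/
theorem wr_lip {h : ℕ}
    (hE : ∀ (j : ℕ) (u u' : ℤ), ¬ g ∣ h → E g e h j u ≤ E g e h j u' + 2 ^ (h % g) * (u - u').natAbs)
    (j : ℕ) (u u' : ℤ) :
    wr g h (E g e h j) u ≤ wr g h (E g e h j) u' + 2 ^ (h % g) * (u - u').natAbs := by
  unfold wr
  split_ifs with hd
  · rw [Nat.mod_eq_zero_of_dvd hd, pow_zero, one_mul]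
    exact ic_lip _ _ _
  · exact hE j u u' hd

/-- `E` is `2 ^ ((h - 1) % g + 1)`-Lipschitz -/
theorem E_lip_succ (hg : 1 ≤ g) (h : ℕ) : ∀ (j : ℕ) (u u' : ℤ),
    E g e (h + 1) j u ≤ E g e (h + 1) j u' + 2 ^ (h % g + 1) * (u - u').natAbs := by
  induction h with
  | zero =>
    intro j u u'
    have key := wr_lip g e (h := 0) (fun j u u' hd => absurd (dvd_zero g) hd)
    have h1 := key (2 * j) u u'
    have h2 := key (2 * j + 1) u u'
    rw [E_succ, E_succ]
    rw [pow_succ, Nat.zero_mod] at *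
    linarith
  | succ h ih =>
    intro j u u'
    have key := wr_lip g e (h := h + 1) (fun j u u' hd => by
      have h3 := ih j u u'
      have h4 : (h + 1) % g = h % g + 1 := by
        have h5 : h % g < g := Nat.mod_lt _ hg
        have h6 : h % g + 1 ≠ g := by
          intro h7
          apply hd
          have h8 := Nat.div_add_mod h g
          exact ⟨h / g + 1, by rw [mul_add, mul_one]; omega⟩
        rw [Nat.add_mod, Nat.mod_eq_of_lt (a := 1) (by omega), Nat.mod_eq_of_lt (by omega)]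
      rw [h4]
      exact h3)
    have h1 := key (2 * j) u u'
    have h2 := key (2 * j + 1) u u'
    rw [E_succ, E_succ]
    rw [pow_succ]
    linarith

/-- the parent sees a `2 ^ (g - 1)`-Lipschitz function -/
theorem wr_lip' (hg : 1 ≤ g) (h j : ℕ) (u u' : ℤ) :
    wr g h (E g e h j) u ≤ wr g h (E g e h j) u' + 2 ^ (g - 1) * (u - u').natAbs := by
  have h1 : 2 ^ (h % g) ≤ 2 ^ (g - 1) :=
    Nat.pow_le_pow_right (by norm_num) (by have := Nat.mod_lt h hg; omega)
  refine le_trans (wr_lip g e (h := h) ?_ j u u')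
    (Nat.add_le_add_left (Nat.mul_le_mul_right _ h1) _)
  intro j u u' hd
  cases h with
  | zero => exact absurd (dvd_zero g) hd
  | succ h =>
    have h3 := E_lip_succ g e hg h j u u'
    have h4 : (h + 1) % g = h % g + 1 := by
      have h5 : h % g < g := Nat.mod_lt _ hg
      have h6 : h % g + 1 ≠ g := by
        intro h7
        apply hd
        have h8 := Nat.div_add_mod h g
        exact ⟨h / g + 1, by rw [mul_add, mul_one]; omega⟩
      rw [Nat.add_mod, Nat.mod_eq_of_lt (a := 1) (by omega), Nat.mod_eq_of_lt (by omega)]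
    rw [h4]
    exact h3

/-- `E` is `2 ^ g`-Lipschitz -/
theorem E_lip (hg : 1 ≤ g) (he : ∀ (j : ℕ) (u u' : ℤ), e j u ≤ e j u' + (u - u').natAbs)
    (h j : ℕ) (u u' : ℤ) : E g e h j u ≤ E g e h j u' + 2 ^ g * (u - u').natAbs := by
  cases h with
  | zero =>
    refine (he j u u').trans (Nat.add_le_add_left ?_ _)
    exact Nat.le_mul_of_pos_left _ (Nat.two_pow_pos _)
  | succ h =>
    refine (E_lip_succ g e hg h j u u').trans (Nat.add_le_add_left (Nat.mul_le_mul_right _ ?_) _)
    exact Nat.pow_le_pow_right (by norm_num) (by have := Nat.mod_lt h hg; omega)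

/-- the binary split inequality -/
theorem E_split (hg : 1 ≤ g) (h j : ℕ) (u m : ℤ) :
    E g e (h + 1) j u ≤
      E g e h (2 * j) u + E g e h (2 * j + 1) m + 2 ^ (g - 1) * (u - m).natAbs := by
  rw [E_succ]
  have h1 := wr_le g h (E g e h (2 * j)) u
  have h2 := wr_lip' g e hg h (2 * j + 1) u m
  have h3 := wr_le g h (E g e h (2 * j + 1)) m
  omega

/-- no cost above the number of rows -/
theorem E_le (he : ∀ (j : ℕ) (u : ℤ), e j u ≤ 1) (h : ℕ) :
    ∀ (j : ℕ) (u : ℤ), E g e h j u ≤ 2 ^ h := by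
  induction h with
  | zero => intro j u; simpa using he j u
  | succ h ih =>
    intro j u
    rw [E_succ, pow_succ]
    have h1 := (wr_le g h (E g e h (2 * j)) u).trans (ih _ _)
    have h2 := (wr_le g h (E g e h (2 * j + 1)) u).trans (ih _ _)
    omega

/-- inside a macro level: the sum over the macro children -/
theorem E_sum (q r : ℕ) (hr : r + 1 ≤ g) : ∀ (j : ℕ) (u : ℤ),
    E g e (g * q + (r + 1)) j u =
      ∑ i ∈ Finset.range (2 ^ (r + 1)), ic (E g e (g * q) (2 ^ (r + 1) * j + i)) u := by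
  induction r with
  | zero =>
    intro j u
    rw [← add_assoc, add_zero, E_succ]
    have h1 : wr g (g * q) = ic := by
      funext F; unfold wr; rw [if_pos (dvd_mul_right g q)]
    rw [h1]
    simp [Finset.sum_range_succ]
  | succ r ih =>
    intro j u
    rw [← add_assoc (g * q) (r + 1) 1, E_succ]
    have h1 : ∀ F, wr g (g * q + (r + 1)) F = F := by
      intro F
      unfold wr
      rw [if_neg]
      intro hd
      rw [Nat.dvd_add_right (dvd_mul_right g q)] at hd
      have := Nat.le_of_dvd (by omega) hd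
      omega
    rw [h1, h1, ih (by omega), ih (by omega)]
    rw [pow_succ 2 (r + 1), mul_two, Finset.sum_range_add]
    congr 1
    · apply Finset.sum_congr rfl
      intro i _
      congr 2
      ring
    · apply Finset.sum_congr rfl
      intro i _
      congr 2
      ring

/-- a macro block of height `g (q + 1)` -/
theorem E_macro (hg : 1 ≤ g) (q j : ℕ) (u : ℤ) :
    E g e (g * (q + 1)) j u =
      ∑ i ∈ Finset.range (2 ^ g), ic (E g e (g * q) (2 ^ g * j + i)) u := by
  have h := E_sum g e q (g - 1) (by omega) j u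
  rw [Nat.sub_add_cancel hg] at h
  rw [mul_add, mul_one]
  exact h

end E

/-! ### mismatches -/

section mis

variable (x y : List ℕ)

/-- the mismatch of the row `j` on the diagonal `u` (rows beyond the end cost nothing) -/
def mis (j : ℕ) (u : ℤ) : ℕ :=
  if j < x.length then
    (if 0 ≤ (j : ℤ) + u ∧ x[j]? = y[((j : ℤ) + u).toNat]? then 0 else 1)
  else 0

theorem mis_le (j : ℕ) (u : ℤ) : mis x y j u ≤ 1 := by
  unfold mis; split_ifs <;> omega

theorem mis_lip (j : ℕ) (u u' : ℤ) : mis x y j u ≤ mis x y j u' + (u - u').natAbs := by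
  by_cases h : u = u'
  · subst h; omega
  · have h1 : 1 ≤ (u - u').natAbs := by omega
    have h2 := mis_le x y j u
    omega

/-- the leaf on one diagonal -/
theorem gn_leaf_le (j : ℕ) (u : ℤ) : gn x y 0 j u u ≤ 2 * mis x y j u := by
  unfold gn
  by_cases hj : j < x.length
  · rw [lo_leaf hj.le, hi_leaf hj]
    unfold g
    rw [G_leaf x y hj]
    unfold mis
    rw [if_pos hj]
    have hl : (seg y (pos y.length j u) (pos y.length (j + 1) u)).length ≤ 1 := by
      rw [seg_length]
      unfold pos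
      push_cast
      omega
    have hd : pos y.length j u - pos y.length (j + 1) u = 0 := by
      unfold pos; push_cast; omega
    rw [hd, add_zero]
    split_ifs with h1 h2 h2
    · omega
    · omega
    · exfalso
      apply h1
      obtain ⟨h3, h4⟩ := h2
      have h5 : x[j]? = some x[j] := List.getElem?_eq_getElem hj
      rw [h5] at h4
      obtain ⟨h6, h7⟩ := List.getElem?_eq_some_iff.mp h4.symm
      have h8 : pos y.length j u = ((j : ℤ) + u).toNat := by unfold pos; omega
      have h9 : pos y.length (j + 1) u = ((j : ℤ) + u).toNat + 1 := by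
        unfold pos; push_cast; omega
      rw [h8, h9, seg_singleton y h6, h7]
      exact List.mem_singleton.mpr rfl
    · omega
  · have h1 : lo x.length 0 j = x.length := lo_of_ge (by simpa using Nat.le_of_not_lt hj)
    have h2 : hi x.length 0 j = x.length :=
      hi_of_ge (by rw [pow_zero, mul_one]; omega)
    rw [h1, h2]
    unfold g
    rw [G_empty x y le_rfl (pos_le _ _ _)]
    simp

/-- `gn ≤ |u - v| + 2 E` -/
theorem gn_le_E (gg : ℕ) (h : ℕ) : ∀ (j : ℕ) (u v : ℤ),
    gn x y h j u v ≤ (u - v).natAbs + 2 * E gg (mis x y) h j u := by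
  have step : ∀ h, (∀ j u, gn x y h j u u ≤ 2 * E gg (mis x y) h j u) →
      ∀ j u v, gn x y h j u v ≤ (u - v).natAbs + 2 * E gg (mis x y) h j u := by
    intro h hh j u v
    have h1 := gn_lip_right x y h j u v u
    have h2 := hh j u
    omega
  induction h with
  | zero =>
    apply step
    intro j u
    exact gn_leaf_le x y j u
  | succ h ih =>
    apply step
    intro j u
    have h1 := gn_split_le x y h j u u u
    have key : ∀ j, gn x y h j u u ≤ 2 * wr gg h (E gg (mis x y) h j) u := by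
      intro j
      unfold wr
      split_ifs with hd
      · obtain ⟨w, hw⟩ := exists_ic (E gg (mis x y) h j) u
        have h2 := gn_lip x y h j u w u w
        have h3 := ih j w w
        simp only [sub_self, Int.natAbs_zero, zero_add] at h3
        omega
      · have h3 := ih j u u
        simpa using h3
    have h2 := key (2 * j)
    have h3 := key (2 * j + 1)
    rw [E_succ]
    omega

/-! ### the start promise -/

/-- the start promise; `L ≥` a quarter of the heights plus one, `g` = binary height of a macro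
level -/
noncomputable def T0 (g L : ℕ) (h j : ℕ) (u v : ℤ) : ℝ :=
  (1 - (h + 1) / (4 * L)) * |((u - v : ℤ) : ℝ)| + E g (mis x y) h j u / (4 * 2 ^ g * L)

variable {g L : ℕ}

theorem T0_nonneg {h : ℕ} (hL : h + 1 ≤ 4 * L) (j : ℕ) (u v : ℤ) : 0 ≤ T0 x y g L h j u v := by
  unfold T0
  have h1 : (0 : ℝ) < L := by
    have : 0 < L := by omega
    exact_mod_cast this
  have h2 : ((h : ℝ) + 1) / (4 * L) ≤ 1 := by
    rw [div_le_one (by positivity)]
    exact_mod_cast hL
  have h3 : 0 ≤ 1 - ((h : ℝ) + 1) / (4 * L) := by linarith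
  positivity

/-- the hard subsolution inequality -/
theorem T0_split (hg : 1 ≤ g) {h : ℕ} (hL : h + 2 ≤ 4 * L) (j : ℕ) (u m v : ℤ) :
    T0 x y g L (h + 1) j u v ≤ T0 x y g L h (2 * j) u m + T0 x y g L h (2 * j + 1) m v := by
  unfold T0
  have h1 : (0 : ℝ) < L := by
    have : 0 < L := by omega
    exact_mod_cast this
  have hE := E_split g (mis x y) hg h j u m
  have hE' : (E g (mis x y) (h + 1) j u : ℝ) ≤ E g (mis x y) h (2 * j) u +
      E g (mis x y) h (2 * j + 1) m + 2 ^ (g - 1) * |((u - m : ℤ) : ℝ)| := by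
    have h2 : ((E g (mis x y) (h + 1) j u : ℕ) : ℝ) ≤ ((E g (mis x y) h (2 * j) u +
      E g (mis x y) h (2 * j + 1) m + 2 ^ (g - 1) * (u - m).natAbs : ℕ) : ℝ) := by
      exact_mod_cast hE
    push_cast [Nat.cast_natAbs] at h2 ⊢
    exact h2
  have hg2 : (2 : ℝ) ^ (g - 1) ≤ 2 ^ g := pow_le_pow_right₀ (by norm_num) (Nat.sub_le _ _)
  have hp : (0 : ℝ) < 2 ^ g := by positivity
  set a : ℝ := |((u - m : ℤ) : ℝ)| with ha
  set c : ℝ := |((m - v : ℤ) : ℝ)| with hc
  have ha0 : 0 ≤ a := abs_nonneg _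
  have hc0 : 0 ≤ c := abs_nonneg _
  have htri : |((u - v : ℤ) : ℝ)| ≤ a + c := by
    have : ((u - v : ℤ) : ℝ) = ((u - m : ℤ) : ℝ) + ((m - v : ℤ) : ℝ) := by push_cast; ring
    rw [this]
    exact abs_add_le _ _
  have h2 : ((h : ℝ) + 1 + 1) / (4 * L) ≤ 1 := by
    rw [div_le_one (by positivity)]
    exact_mod_cast hL
  have h3 : 0 ≤ 1 - (((h : ℕ) + 1 : ℕ) + 1 : ℝ) / (4 * L) := by
    push_cast
    linarith
  have h4 : (1 - (((h : ℕ) + 1 : ℕ) + 1 : ℝ) / (4 * L)) * |((u - v : ℤ) : ℝ)| ≤
      (1 - (((h : ℕ) + 1 : ℕ) + 1 : ℝ) / (4 * L)) * (a + c) := mul_le_mul_of_nonneg_left htri h3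
  have h5 : (E g (mis x y) (h + 1) j u : ℝ) / (4 * 2 ^ g * L) ≤
      (E g (mis x y) h (2 * j) u + E g (mis x y) h (2 * j + 1) m + 2 ^ g * a) / (4 * 2 ^ g * L) := by
    apply div_le_div_of_nonneg_right _ (by positivity)
    refine hE'.trans ?_
    have := mul_le_mul_of_nonneg_right hg2 ha0
    linarith
  refine (add_le_add h4 h5).trans (le_of_sub_nonneg ?_)
  have e1 : (1 - ((h : ℝ) + 1) / (4 * L)) * a + E g (mis x y) h (2 * j) u / (4 * 2 ^ g * L) +
      ((1 - ((h : ℝ) + 1) / (4 * L)) * c + E g (mis x y) h (2 * j + 1) m / (4 * 2 ^ g * L)) -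
      ((1 - (((h : ℕ) + 1 : ℕ) + 1 : ℝ) / (4 * L)) * (a + c) +
      (E g (mis x y) h (2 * j) u + E g (mis x y) h (2 * j + 1) m + 2 ^ g * a) / (4 * 2 ^ g * L)) =
      c / (4 * L) := by
    push_cast
    field_simp
    ring
  rw [e1]
  positivity

/-- Lipschitz in the left diagonal -/
theorem T0_lip_left (hg : 1 ≤ g) {h : ℕ} (hL : h + 1 ≤ 4 * L) (j : ℕ) (u u' v : ℤ) :
    T0 x y g L h j u v ≤ T0 x y g L h j u' v + |((u - u' : ℤ) : ℝ)| := by
  unfold T0
  have h1 : (0 : ℝ) < L := by
    have : 0 < L := by omega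
    exact_mod_cast this
  have hE := E_lip g (mis x y) hg (mis_lip x y) h j u u'
  have hE' : (E g (mis x y) h j u : ℝ) ≤ E g (mis x y) h j u' + 2 ^ g * |((u - u' : ℤ) : ℝ)| := by
    have h2 : ((E g (mis x y) h j u : ℕ) : ℝ) ≤ ((E g (mis x y) h j u' +
      2 ^ g * (u - u').natAbs : ℕ) : ℝ) := by exact_mod_cast hE
    push_cast [Nat.cast_natAbs] at h2 ⊢
    exact h2
  set a : ℝ := |((u - u' : ℤ) : ℝ)| with ha
  have ha0 : 0 ≤ a := abs_nonneg _
  have htri : |((u - v : ℤ) : ℝ)| ≤ a + |((u' - v : ℤ) : ℝ)| := by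
    have : ((u - v : ℤ) : ℝ) = ((u - u' : ℤ) : ℝ) + ((u' - v : ℤ) : ℝ) := by push_cast; ring
    rw [this]
    exact abs_add_le _ _
  have h3 : 0 ≤ 1 - ((h : ℝ) + 1) / (4 * L) := by
    have h2 : ((h : ℝ) + 1) / (4 * L) ≤ 1 := by
      rw [div_le_one (by positivity)]
      exact_mod_cast hL
    linarith
  have h4 := mul_le_mul_of_nonneg_left htri h3
  have h5 : (E g (mis x y) h j u : ℝ) / (4 * 2 ^ g * L) ≤
      (E g (mis x y) h j u' + 2 ^ g * a) / (4 * 2 ^ g * L) :=
    div_le_div_of_nonneg_right hE' (by positivity)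
  have h6 : (E g (mis x y) h j u' + 2 ^ g * a) / (4 * 2 ^ g * L) =
      E g (mis x y) h j u' / (4 * 2 ^ g * L) + a / (4 * L) := by
    field_simp
  have h7 : a / (4 * L) ≤ a * (((h : ℝ) + 1) / (4 * L)) := by
    rw [div_eq_mul_one_div]
    apply mul_le_mul_of_nonneg_left _ ha0
    apply div_le_div_of_nonneg_right _ (by positivity)
    have : (0 : ℝ) ≤ h := by positivity
    linarith
  nlinarith

/-- Lipschitz in the right diagonal -/
theorem T0_lip_right {h : ℕ} (hL : h + 1 ≤ 4 * L) (j : ℕ) (u v v' : ℤ) :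
    T0 x y g L h j u v ≤ T0 x y g L h j u v' + |((v - v' : ℤ) : ℝ)| := by
  unfold T0
  have h1 : (0 : ℝ) < L := by
    have : 0 < L := by omega
    exact_mod_cast this
  set a : ℝ := |((v - v' : ℤ) : ℝ)| with ha
  have ha0 : 0 ≤ a := abs_nonneg _
  have htri : |((u - v : ℤ) : ℝ)| ≤ |((u - v' : ℤ) : ℝ)| + a := by
    have : ((u - v : ℤ) : ℝ) = ((u - v' : ℤ) : ℝ) + -((v - v' : ℤ) : ℝ) := by push_cast; ring
    rw [this]
    refine (abs_add_le _ _).trans ?_
    rw [abs_neg]
  have h3 : 0 ≤ 1 - ((h : ℝ) + 1) / (4 * L) := by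
    have h2 : ((h : ℝ) + 1) / (4 * L) ≤ 1 := by
      rw [div_le_one (by positivity)]
      exact_mod_cast hL
    linarith
  have h4 := mul_le_mul_of_nonneg_left htri h3
  have h5 : 0 ≤ ((h : ℝ) + 1) / (4 * L) := by positivity
  nlinarith

/-- `T₀` is at most the cost -/
theorem T0_le_gn (hg : 1 ≤ g) {h : ℕ} (hL : h + 1 ≤ 4 * L) : ∀ (j : ℕ) (u v : ℤ),
    Adm y.length (lo x.length h j) u → Adm y.length (hi x.length h j) v →
      T0 x y g L h j u v ≤ gn x y h j u v := by
  induction h with
  | zero =>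
    intro j u v hu hv
    have h1 : (0 : ℝ) < L := by
      have : 0 < L := by omega
      exact_mod_cast this
    have hge := gn_ge x y 0 j hu hv
    have hge' : |((u - v : ℤ) : ℝ)| ≤ gn x y 0 j u v := by
      have h2 : (((u - v).natAbs : ℕ) : ℝ) ≤ gn x y 0 j u v := by exact_mod_cast hge
      rwa [Nat.cast_natAbs, Int.cast_abs] at h2
    have hm := mis_le x y j u
    have hp : (1 : ℝ) ≤ 2 ^ g := one_le_pow₀ (by norm_num)
    unfold T0
    rw [E_zero]
    by_cases huv : u = v
    · subst huv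
      simp only [sub_self, Int.cast_zero, abs_zero, mul_zero, zero_add]
      -- the leaf on one diagonal: the mismatch is at most the cost
      have hle : mis x y j u ≤ gn x y 0 j u u := by
        unfold mis
        split_ifs with hj hm'
        · omega
        · by_contra hcon
          have hzero : gn x y 0 j u u = 0 := by omega
          apply hm'
          have hu' : Adm y.length j u := by rwa [lo_leaf hj.le] at hu
          have hv' : Adm y.length (j + 1) u := by rwa [hi_leaf hj] at hv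
          unfold gn at hzero
          rw [lo_leaf hj.le, hi_leaf hj] at hzero
          unfold GameA347.g at hzero
          rw [G_leaf x y hj] at hzero
          have hp1 := coe_pos hu'
          have hp2 := coe_pos hv'
          have h5 : pos y.length (j + 1) u = pos y.length j u + 1 := by push_cast at hp2; omega
          have h6 : pos y.length j u < y.length := by
            have := pos_le y.length (j + 1) u; omega
          rw [h5, seg_singleton y h6] at hzero
          have h7 : pos y.length j u = ((j : ℤ) + u).toNat := by omega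
          split_ifs at hzero with h8
          · refine ⟨hu'.1, ?_⟩
            rw [List.mem_singleton] at h8
            rw [List.getElem?_eq_getElem hj, h8, ← h7, List.getElem?_eq_getElem h6]
          · simp at hzero
        · omega
      have hle' : (mis x y j u : ℝ) ≤ gn x y 0 j u u := by exact_mod_cast hle
      have h3 : (mis x y j u : ℝ) / (4 * 2 ^ g * L) ≤ mis x y j u := by
        apply div_le_self (by positivity)
        have : (1 : ℝ) ≤ L := by
          have : 1 ≤ L := by omega
          exact_mod_cast this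
        nlinarith
      linarith
    · have h2 : (1 : ℝ) ≤ |((u - v : ℤ) : ℝ)| := by
        have h3 : (1 : ℤ) ≤ |u - v| := by
          have : 1 ≤ (u - v).natAbs := by omega
          rw [Int.abs_eq_natAbs]
          exact_mod_cast this
        have h4 : ((1 : ℤ) : ℝ) ≤ ((|u - v| : ℤ) : ℝ) := by exact_mod_cast h3
        rwa [Int.cast_one, Int.cast_abs] at h4
      have h3 : (mis x y j u : ℝ) / (4 * 2 ^ g * L) ≤ 1 / (4 * L) := by
        rw [div_le_div_iff₀ (by positivity) (by positivity)]
        have h4 : (mis x y j u : ℝ) ≤ 1 := by exact_mod_cast hm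
        have h5 : (mis x y j u : ℝ) * (4 * L) ≤ 1 * (4 * L) :=
          mul_le_mul_of_nonneg_right h4 (by positivity)
        nlinarith
      have h4 : (1 : ℝ) / (4 * L) ≤ 1 / (4 * L) * |((u - v : ℤ) : ℝ)| :=
        le_mul_of_one_le_right (by positivity) h2
      have h6 : (1 - (((0 : ℕ) : ℝ) + 1) / (4 * L)) * |((u - v : ℤ) : ℝ)| =
          |((u - v : ℤ) : ℝ)| - 1 / (4 * L) * |((u - v : ℤ) : ℝ)| := by
        push_cast; ring
      rw [h6]
      linarith
  | succ h ih =>
    intro j u v hu hv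
    obtain ⟨m, hm, he⟩ := exists_gn_split x y h j u v
    have h1 := T0_split x y (g := g) (L := L) hg (h := h) (by omega) j u m v
    have h2 := ih (by omega) (2 * j) u m (by rw [lo_succ]; exact hu) (by rw [hi_left]; exact hm)
    have h3 := ih (by omega) (2 * j + 1) m v hm (by rw [hi_succ]; exact hv)
    rw [he]
    push_cast
    linarith

/-- the cost is at most `B₀ T₀`, `B₀ = 8 L 2 ^ g` -/
theorem gn_le_T0 {h : ℕ} (hL : h + 1 ≤ 2 * L) (j : ℕ) (u v : ℤ) :
    (gn x y h j u v : ℝ) ≤ 8 * 2 ^ g * L * T0 x y g L h j u v := by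
  have h1 : (0 : ℝ) < L := by
    have : 0 < L := by omega
    exact_mod_cast this
  have h1' : (1 : ℝ) ≤ L := by
    have : 1 ≤ L := by omega
    exact_mod_cast this
  have h2 := gn_le_E x y g h j u v
  have h3 : (gn x y h j u v : ℝ) ≤ |((u - v : ℤ) : ℝ)| + 2 * E g (mis x y) h j u := by
    have : (gn x y h j u v : ℝ) ≤ (((u - v).natAbs + 2 * E g (mis x y) h j u : ℕ) : ℝ) := by
      exact_mod_cast h2
    push_cast [Nat.cast_natAbs] at this ⊢
    exact this
  have hp : (1 : ℝ) ≤ 2 ^ g := one_le_pow₀ (by norm_num)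
  unfold T0
  have h4 : 8 * 2 ^ g * L * ((1 - ((h : ℝ) + 1) / (4 * L)) * |((u - v : ℤ) : ℝ)| +
      E g (mis x y) h j u / (4 * 2 ^ g * L)) =
      8 * 2 ^ g * L * (1 - ((h : ℝ) + 1) / (4 * L)) * |((u - v : ℤ) : ℝ)| +
        2 * E g (mis x y) h j u := by
    field_simp
    ring
  rw [h4]
  have h5 : (1 : ℝ) / 2 ≤ 1 - ((h : ℝ) + 1) / (4 * L) := by
    have h6 : ((h : ℝ) + 1) / (4 * L) ≤ 1 / 2 := by
      rw [div_le_div_iff₀ (by positivity) (by norm_num)]
      have h7 : ((h : ℝ) + 1) ≤ 2 * L := by exact_mod_cast hL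
      linarith
    linarith
  have h6 : (1 : ℝ) ≤ 8 * 2 ^ g * L * (1 - ((h : ℝ) + 1) / (4 * L)) := by
    have h7 : (1 : ℝ) ≤ 2 ^ g * L := by nlinarith
    nlinarith
  have h7 := mul_le_mul_of_nonneg_right h6 (abs_nonneg ((u - v : ℤ) : ℝ))
  linarith

end mis

end Crest.Agent.R288.Init772
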