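import Mathlib

/-!
# R288: value iteration on the macro tree (leaf [VI] of #4274, LEMMA 288-974 v2)

Everything is about functions of a node index `j : ℕ` and two diagonals `u v : ℤ`.

* `dz a b = |a - b|` (real), `Coer f` : `|u - v| ≤ f u v`, `Lip f` : `1`-Lipschitz in both ends.
* `mpl f g u v = ⨅ w, f u w + g w v` (min-plus product), attained for coercive `f, g`.
* `W f r j` : minimum over the staircases of the `2^r` pieces `f (2^r j + t)` below the binary node
  `j` at height `r` (children of `j` are `2j`, `2j+1`); `W_le_stair`, `exists_stair`.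
* `V S P n i j` : value of the game with stops `S`, terminal values `P`, `n` binary levels per window,
  `i` = number of windows below.
* `C S P n k i j` : value iteration; `F S P n K i j` = mean of `C k`, `k < K`.
* `ic2 f` : inf-convolution with the distance ("jump and stop").
-/

set_option autoImplicit false

namespace Crest.Agent.R288.VI684

open Finset

/-- distance of two diagonals -/
noncomputable def dz (a b : ℤ) : ℝ := |(a : ℝ) - b|

theorem dz_nonneg (a b : ℤ) : 0 ≤ dz a b := abs_nonneg _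

theorem dz_self (a : ℤ) : dz a a = 0 := by simp [dz]

theorem dz_comm (a b : ℤ) : dz a b = dz b a := abs_sub_comm _ _

theorem dz_tri (a b c : ℤ) : dz a c ≤ dz a b + dz b c := abs_sub_le _ _ _

/-- a coercive function attains its minimum on `ℤ` -/
theorem exists_min_int (φ : ℤ → ℝ) (a : ℤ) (h : ∀ w, dz a w ≤ φ w) : ∃ w, ∀ w', φ w ≤ φ w' := by
  have hfin : {w : ℤ | φ w ≤ φ a}.Finite := by
    refine Set.Finite.subset (Set.finite_Icc (a - ⌈φ a⌉) (a + ⌈φ a⌉)) fun w hw => ?_
    have h1 : |(a : ℝ) - w| ≤ φ a := (h w).trans hw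
    have h2 : φ a ≤ (⌈φ a⌉ : ℝ) := Int.le_ceil _
    have h3 := abs_le.1 (h1.trans h2)
    constructor
    · have : (a : ℝ) - (⌈φ a⌉ : ℝ) ≤ w := by linarith [h3.2]
      exact_mod_cast this
    · have : (w : ℝ) ≤ a + (⌈φ a⌉ : ℝ) := by linarith [h3.1]
      exact_mod_cast this
  obtain ⟨w, hw, hmin⟩ := hfin.exists_minimalFor (fun w => φ w) _ ⟨a, le_refl (φ a)⟩
  refine ⟨w, fun w' => ?_⟩
  by_cases hw' : φ w' ≤ φ a
  · by_contra hlt
    push Not at hlt
    have := hmin hw' hlt.le
    simp only at this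
    linarith
  · exact hw.trans (not_le.1 hw').le

/-- coercive -/
def Coer (f : ℤ → ℤ → ℝ) : Prop := ∀ u v, dz u v ≤ f u v

/-- `1`-Lipschitz in the left end -/
def LipL (f : ℤ → ℤ → ℝ) : Prop := ∀ u u' v, f u v ≤ f u' v + dz u u'

/-- `1`-Lipschitz in the right end -/
def LipR (f : ℤ → ℤ → ℝ) : Prop := ∀ u v v', f u v ≤ f u v' + dz v v'

/-- `1`-Lipschitz in both ends -/
def Lip (f : ℤ → ℤ → ℝ) : Prop := ∀ u v u' v', f u v ≤ f u' v' + (dz u u' + dz v v')

theorem Lip.left {f : ℤ → ℤ → ℝ} (h : Lip f) : LipL f := fun u u' v => by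
  have := h u v u' v
  rw [dz_self] at this
  linarith

theorem Lip.right {f : ℤ → ℤ → ℝ} (h : Lip f) : LipR f := fun u v v' => by
  have := h u v u v'
  rw [dz_self] at this
  linarith

theorem Lip.mk {f : ℤ → ℤ → ℝ} (h1 : LipL f) (h2 : LipR f) : Lip f := fun u v u' v' => by
  have a := h1 u u' v
  have b := h2 u' v v'
  linarith

theorem Coer.nonneg {f : ℤ → ℤ → ℝ} (h : Coer f) (u v : ℤ) : 0 ≤ f u v :=
  (dz_nonneg _ _).trans (h u v)

/-- min-plus product -/
noncomputable def mpl (f g : ℤ → ℤ → ℝ) (u v : ℤ) : ℝ := ⨅ w : ℤ, (f u w + g w v)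

theorem mpl_bdd {f g : ℤ → ℤ → ℝ} (hf : Coer f) (hg : Coer g) (u v : ℤ) :
    BddBelow (Set.range fun w : ℤ => f u w + g w v) :=
  ⟨0, by rintro _ ⟨w, rfl⟩; exact add_nonneg (hf.nonneg _ _) (hg.nonneg _ _)⟩

theorem mpl_le {f g : ℤ → ℤ → ℝ} (hf : Coer f) (hg : Coer g) (u v w : ℤ) :
    mpl f g u v ≤ f u w + g w v := ciInf_le (mpl_bdd hf hg u v) w

theorem exists_mpl {f g : ℤ → ℤ → ℝ} (hf : Coer f) (hg : Coer g) (u v : ℤ) :
    ∃ w, mpl f g u v = f u w + g w v := by
  obtain ⟨w, hw⟩ := exists_min_int (fun w => f u w + g w v) u fun w => by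
    have := hf u w
    have := hg.nonneg w v
    linarith
  exact ⟨w, le_antisymm (mpl_le hf hg u v w) (le_ciInf hw)⟩

theorem le_mpl {f g : ℤ → ℤ → ℝ} {u v : ℤ} {r : ℝ} (h : ∀ w, r ≤ f u w + g w v) :
    r ≤ mpl f g u v := le_ciInf h

theorem mpl_coer {f g : ℤ → ℤ → ℝ} (hf : Coer f) (hg : Coer g) : Coer (mpl f g) := fun u v =>
  le_mpl fun w => (dz_tri u w v).trans (add_le_add (hf u w) (hg w v))

theorem mpl_lipL {f g : ℤ → ℤ → ℝ} (hf : Coer f) (hg : Coer g) (h : LipL f) :
    LipL (mpl f g) := fun u u' v => by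
  obtain ⟨w, hw⟩ := exists_mpl hf hg u' v
  have h1 := mpl_le hf hg u v w
  have h2 := h u u' w
  rw [hw]
  linarith

theorem mpl_lipR {f g : ℤ → ℤ → ℝ} (hf : Coer f) (hg : Coer g) (h : LipR g) :
    LipR (mpl f g) := fun u v v' => by
  obtain ⟨w, hw⟩ := exists_mpl hf hg u v'
  have h1 := mpl_le hf hg u v w
  have h2 := h w v v'
  rw [hw]
  linarith

theorem mpl_mono {f f' g g' : ℤ → ℤ → ℝ} (hf : Coer f) (hg : Coer g)
    (h1 : ∀ u v, f u v ≤ f' u v) (h2 : ∀ u v, g u v ≤ g' u v) (u v : ℤ) :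
    mpl f g u v ≤ mpl f' g' u v :=
  le_mpl fun w => (mpl_le hf hg u v w).trans (add_le_add (h1 _ _) (h2 _ _))

/-- the minimum over the staircases of the `2^r` pieces below the node `j` at height `r` -/
noncomputable def W (f : ℕ → ℤ → ℤ → ℝ) : ℕ → ℕ → ℤ → ℤ → ℝ
  | 0, j => f j
  | r + 1, j => mpl (W f r (2 * j)) (W f r (2 * j + 1))

@[simp] theorem W_zero (f : ℕ → ℤ → ℤ → ℝ) (j : ℕ) : W f 0 j = f j := rfl

theorem W_succ (f : ℕ → ℤ → ℤ → ℝ) (r j : ℕ) :
    W f (r + 1) j = mpl (W f r (2 * j)) (W f r (2 * j + 1)) := rfl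

theorem W_coer {f : ℕ → ℤ → ℤ → ℝ} (hf : ∀ j, Coer (f j)) (r j : ℕ) : Coer (W f r j) := by
  induction r generalizing j with
  | zero => exact hf j
  | succ r ih => exact mpl_coer (ih _) (ih _)

theorem W_lipL {f : ℕ → ℤ → ℤ → ℝ} (hf : ∀ j, Coer (f j)) (h : ∀ j, LipL (f j)) (r j : ℕ) :
    LipL (W f r j) := by
  induction r generalizing j with
  | zero => exact h j
  | succ r ih => exact mpl_lipL (W_coer hf r _) (W_coer hf r _) (ih _)

theorem W_lipR {f : ℕ → ℤ → ℤ → ℝ} (hf : ∀ j, Coer (f j)) (h : ∀ j, LipR (f j)) (r j : ℕ) :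
    LipR (W f r j) := by
  induction r generalizing j with
  | zero => exact h j
  | succ r ih => exact mpl_lipR (W_coer hf r _) (W_coer hf r _) (ih _)

theorem W_lip {f : ℕ → ℤ → ℤ → ℝ} (hf : ∀ j, Coer (f j)) (h : ∀ j, Lip (f j)) (r j : ℕ) :
    Lip (W f r j) :=
  Lip.mk (W_lipL hf (fun j => (h j).left) r j) (W_lipR hf (fun j => (h j).right) r j)

theorem W_le_split {f : ℕ → ℤ → ℤ → ℝ} (hf : ∀ j, Coer (f j)) (r j : ℕ) (u v w : ℤ) :
    W f (r + 1) j u v ≤ W f r (2 * j) u w + W f r (2 * j + 1) w v :=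
  mpl_le (W_coer hf r _) (W_coer hf r _) u v w

theorem exists_split {f : ℕ → ℤ → ℤ → ℝ} (hf : ∀ j, Coer (f j)) (r j : ℕ) (u v : ℤ) :
    ∃ w, W f (r + 1) j u v = W f r (2 * j) u w + W f r (2 * j + 1) w v :=
  exists_mpl (W_coer hf r _) (W_coer hf r _) u v

/-- monotone in the piece functions; only the `2^r` pieces below the node matter -/
theorem W_mono {f f' : ℕ → ℤ → ℤ → ℝ} (hf : ∀ j, Coer (f j)) (r j : ℕ)
    (h : ∀ t < 2 ^ r, ∀ u v, f (2 ^ r * j + t) u v ≤ f' (2 ^ r * j + t) u v) (u v : ℤ) :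
    W f r j u v ≤ W f' r j u v := by
  induction r generalizing j u v with
  | zero => simpa using h 0 (by simp) u v
  | succ r ih =>
    rw [W_succ, W_succ]
    refine mpl_mono (W_coer hf r _) (W_coer hf r _) (fun u v => ih _ (fun t ht u v => ?_) u v)
      (fun u v => ih _ (fun t ht u v => ?_) u v) u v
    · have := h t (by rw [pow_succ]; omega) u v
      rwa [pow_succ, mul_assoc] at this
    · have := h (2 ^ r + t) (by rw [pow_succ]; omega) u v
      have e : 2 ^ (r + 1) * j + (2 ^ r + t) = 2 ^ r * (2 * j + 1) + t := by ring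
      rwa [e] at this

/-- the sum over a staircase `m` of the `2^r` pieces below the node `j` -/
noncomputable def stair (f : ℕ → ℤ → ℤ → ℝ) (r j : ℕ) (m : ℕ → ℤ) : ℝ :=
  ∑ t ∈ range (2 ^ r), f (2 ^ r * j + t) (m t) (m (t + 1))

theorem stair_zero (f : ℕ → ℤ → ℤ → ℝ) (j : ℕ) (m : ℕ → ℤ) : stair f 0 j m = f j (m 0) (m 1) := by
  simp [stair]

theorem stair_succ (f : ℕ → ℤ → ℤ → ℝ) (r j : ℕ) (m : ℕ → ℤ) :
    stair f (r + 1) j m
      = stair f r (2 * j) m + stair f r (2 * j + 1) (fun t => m (2 ^ r + t)) := by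
  unfold stair
  rw [pow_succ, mul_two, sum_range_add]
  congr 1
  · refine sum_congr rfl fun t _ => ?_
    congr 1
    ring
  · refine sum_congr rfl fun t _ => ?_
    have e : (2 ^ r + 2 ^ r) * j + (2 ^ r + t) = 2 ^ r * (2 * j + 1) + t := by ring
    rw [e]
    rfl

/-- **the window DP is a lower bound of every staircase** -/
theorem W_le_stair {f : ℕ → ℤ → ℤ → ℝ} (hf : ∀ j, Coer (f j)) (r j : ℕ) (m : ℕ → ℤ) :
    W f r j (m 0) (m (2 ^ r)) ≤ stair f r j m := by
  induction r generalizing j m with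
  | zero => simp [stair_zero]
  | succ r ih =>
    rw [stair_succ]
    have h1 := ih (2 * j) m
    have h2 := ih (2 * j + 1) (fun t => m (2 ^ r + t))
    have h3 := W_le_split hf r j (m 0) (m (2 ^ (r + 1))) (m (2 ^ r))
    simp only [add_zero] at h2
    have e : 2 ^ r + 2 ^ r = 2 ^ (r + 1) := by rw [pow_succ]; ring
    rw [e] at h2
    linarith

/-- **and is attained** -/
theorem exists_stair {f : ℕ → ℤ → ℤ → ℝ} (hf : ∀ j, Coer (f j)) (r j : ℕ) (u v : ℤ) :
    ∃ m : ℕ → ℤ, m 0 = u ∧ m (2 ^ r) = v ∧ stair f r j m = W f r j u v := by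
  induction r generalizing j u v with
  | zero =>
    refine ⟨fun t => if t = 0 then u else v, by simp, by simp, ?_⟩
    simp [stair_zero]
  | succ r ih =>
    obtain ⟨w, hw⟩ := exists_split hf r j u v
    obtain ⟨m1, a1, b1, c1⟩ := ih (2 * j) u w
    obtain ⟨m2, a2, b2, c2⟩ := ih (2 * j + 1) w v
    have hp : 0 < 2 ^ r := by positivity
    refine ⟨fun t => if t ≤ 2 ^ r then m1 t else m2 (t - 2 ^ r), by simp [a1], ?_, ?_⟩
    · have e : 2 ^ (r + 1) = 2 ^ r + 2 ^ r := by rw [pow_succ]; ring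
      simp only [e]
      rw [if_neg (by omega), Nat.add_sub_cancel]
      exact b2
    · rw [stair_succ, hw, ← c1, ← c2]
      congr 1
      · unfold stair
        refine sum_congr rfl fun t ht => ?_
        have ht' := mem_range.1 ht
        simp only
        rw [if_pos (by omega), if_pos (by omega)]
      · unfold stair
        refine sum_congr rfl fun t ht => ?_
        simp only
        rcases Nat.eq_zero_or_pos t with h0 | h0
        · subst h0
          rw [if_pos (by simp), if_neg (by omega)]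
          simp only [add_zero, zero_add]
          rw [b1, a2]
          congr 2
          omega
        · rw [if_neg (by omega), if_neg (by omega)]
          congr 2 <;> omega

/-- the minimum of a sum is at least the sum of the minima -/
theorem sum_W_le {ι : Type*} (s : Finset ι) {f : ι → ℕ → ℤ → ℤ → ℝ} (hs : s.Nonempty)
    (hf : ∀ i ∈ s, ∀ j, Coer (f i j)) (r j : ℕ) (u v : ℤ) :
    ∑ i ∈ s, W (f i) r j u v ≤ W (fun j u v => ∑ i ∈ s, f i j u v) r j u v := by
  have hc : ∀ j, Coer (fun u v => ∑ i ∈ s, f i j u v) := by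
    intro j u v
    obtain ⟨i0, hi0⟩ := hs
    calc dz u v ≤ f i0 j u v := hf i0 hi0 j u v
      _ ≤ ∑ i ∈ s, f i j u v :=
        single_le_sum (f := fun i => f i j u v) (fun i hi => (hf i hi j).nonneg u v) hi0
  obtain ⟨m, hm0, hm1, hm⟩ := exists_stair hc r j u v
  rw [← hm]
  subst hm0 hm1
  have : stair (fun j u v => ∑ i ∈ s, f i j u v) r j m = ∑ i ∈ s, stair (f i) r j m := by
    unfold stair
    rw [sum_comm]
  rw [this]
  exact sum_le_sum fun i hi => W_le_stair (hf i hi) r j m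

/-! ### the value function -/

section val

variable (S : ℕ → ℕ → ℤ → ℤ → ℝ) (P : ℕ → ℤ → ℤ → ℝ) (n : ℕ)

/-- value with stops `S i j` (`i` = number of windows below) and terminal values `P j` -/
noncomputable def V : ℕ → ℕ → ℤ → ℤ → ℝ
  | 0, j => P j
  | i + 1, j => fun u v => min (S (i + 1) j u v) (W (V i) n j u v)

/-- value iteration from the stops -/
noncomputable def C : ℕ → ℕ → ℕ → ℤ → ℤ → ℝ
  | _, 0, j => P j
  | 0, i + 1, j => S (i + 1) j
  | k + 1, i + 1, j => fun u v => min (S (i + 1) j u v) (W (C k i) n j u v)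

/-- mean of the first `K` iterates -/
noncomputable def F (K i j : ℕ) (u v : ℤ) : ℝ := (∑ k ∈ range K, C S P n k i j u v) / K

@[simp] theorem V_zero (j : ℕ) : V S P n 0 j = P j := rfl

theorem V_succ (i j : ℕ) (u v : ℤ) :
    V S P n (i + 1) j u v = min (S (i + 1) j u v) (W (V S P n i) n j u v) := rfl

@[simp] theorem C_term (k j : ℕ) : C S P n k 0 j = P j := by cases k <;> rfl

theorem C_zero (i j : ℕ) : C S P n 0 (i + 1) j = S (i + 1) j := rfl

theorem C_succ (k i j : ℕ) (u v : ℤ) :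
    C S P n (k + 1) (i + 1) j u v = min (S (i + 1) j u v) (W (C S P n k i) n j u v) := rfl

variable {S P n}

/-- minimum of two coercive functions -/
theorem min_coer {f g : ℤ → ℤ → ℝ} (hf : Coer f) (hg : Coer g) :
    Coer fun u v => min (f u v) (g u v) := fun u v => le_min (hf u v) (hg u v)

theorem min_lip {f g : ℤ → ℤ → ℝ} (hf : Lip f) (hg : Lip g) :
    Lip fun u v => min (f u v) (g u v) := fun u v u' v' => by
  rw [← min_add_add_right]
  exact min_le_min (hf u v u' v') (hg u v u' v')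

section coer

variable (hS : ∀ i j, Coer (S i j)) (hP : ∀ j, Coer (P j))

include hS hP

theorem V_coer (i j : ℕ) : Coer (V S P n i j) := by
  induction i generalizing j with
  | zero => exact hP j
  | succ i ih => exact min_coer (hS _ _) (W_coer ih n j)

theorem C_coer (k i j : ℕ) : Coer (C S P n k i j) := by
  induction k generalizing i j with
  | zero =>
    cases i with
    | zero => exact hP j
    | succ i => exact hS _ _
  | succ k ih =>
    cases i with
    | zero => exact hP j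
    | succ i => exact min_coer (hS _ _) (W_coer (fun j => ih i j) n j)

theorem V_lip (hSl : ∀ i j, Lip (S i j)) (hPl : ∀ j, Lip (P j)) (i j : ℕ) :
    Lip (V S P n i j) := by
  induction i generalizing j with
  | zero => exact hPl j
  | succ i ih => exact min_lip (hSl _ _) (W_lip (V_coer hS hP i) ih n j)

theorem C_lip (hSl : ∀ i j, Lip (S i j)) (hPl : ∀ j, Lip (P j)) (k i j : ℕ) :
    Lip (C S P n k i j) := by
  induction k generalizing i j with
  | zero =>
    cases i with
    | zero => exact hPl j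
    | succ i => exact hSl _ _
  | succ k ih =>
    cases i with
    | zero => exact hPl j
    | succ i =>
      exact min_lip (hSl _ _) (W_lip (fun j => C_coer hS hP k i j) (fun j => ih i j) n j)

omit hS hP in
theorem V_le_S (i j : ℕ) (u v : ℤ) : V S P n (i + 1) j u v ≤ S (i + 1) j u v := min_le_left _ _

/-- `V` is an exact hard subsolution -/
theorem V_le_stair (i j : ℕ) (m : ℕ → ℤ) :
    V S P n (i + 1) j (m 0) (m (2 ^ n)) ≤ stair (V S P n i) n j m :=
  (min_le_right _ _).trans (W_le_stair (V_coer hS hP i) n j m)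

/-- either stop or an optimal staircase -/
theorem V_cases (i j : ℕ) (u v : ℤ) :
    V S P n (i + 1) j u v = S (i + 1) j u v ∨
      ∃ m : ℕ → ℤ, m 0 = u ∧ m (2 ^ n) = v ∧ stair (V S P n i) n j m = V S P n (i + 1) j u v := by
  rw [V_succ]
  rcases le_total (S (i + 1) j u v) (W (V S P n i) n j u v) with h | h
  · left
    exact min_eq_left h
  · right
    rw [min_eq_right h]
    exact exists_stair (V_coer hS hP i) n j u v

omit hS hP in
/-- a hard subsolution below the data is below `V` -/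
theorem le_V {T : ℕ → ℕ → ℤ → ℤ → ℝ} (hT : ∀ i j, Coer (T i j))
    (h0 : ∀ j u v, T 0 j u v ≤ P j u v) (h1 : ∀ i j u v, T (i + 1) j u v ≤ S (i + 1) j u v)
    (h2 : ∀ i j u v, T (i + 1) j u v ≤ W (T i) n j u v) (i j : ℕ) (u v : ℤ) :
    T i j u v ≤ V S P n i j u v := by
  induction i generalizing j u v with
  | zero => exact h0 j u v
  | succ i ih =>
    rw [V_succ]
    exact le_min (h1 _ _ _ _) ((h2 _ _ _ _).trans
      (W_mono (hT i) n j (fun t _ u v => ih _ u v) u v))

theorem V_le_C (hVS : ∀ i j u v, V S P n (i + 1) j u v ≤ S (i + 1) j u v) (k i j : ℕ) (u v : ℤ) :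
    V S P n i j u v ≤ C S P n k i j u v := by
  induction k generalizing i j u v with
  | zero =>
    cases i with
    | zero => simp
    | succ i => exact hVS i j u v
  | succ k ih =>
    cases i with
    | zero => simp
    | succ i =>
      rw [C_succ, V_succ]
      exact min_le_min le_rfl (W_mono (V_coer hS hP i) n j (fun t _ u v => ih i _ u v) u v)

theorem C_anti (k i j : ℕ) (u v : ℤ) : C S P n (k + 1) i j u v ≤ C S P n k i j u v := by
  induction k generalizing i j u v with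
  | zero =>
    cases i with
    | zero => simp
    | succ i =>
      rw [C_succ, C_zero]
      exact min_le_left _ _
  | succ k ih =>
    cases i with
    | zero => simp
    | succ i =>
      rw [C_succ, C_succ]
      exact min_le_min le_rfl
        (W_mono (fun j => C_coer hS hP (k + 1) i j) n j (fun t _ u v => ih i _ u v) u v)

omit hS hP in
/-- `C k ≤ S` above level `0` -/
theorem C_le_S (k i j : ℕ) (u v : ℤ) : C S P n k (i + 1) j u v ≤ S (i + 1) j u v := by
  cases k with
  | zero => exact le_rfl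
  | succ k => exact min_le_left _ _

/-- one step of value iteration against an arbitrary staircase -/
theorem C_le_stair (k i j : ℕ) (m : ℕ → ℤ) :
    C S P n (k + 1) (i + 1) j (m 0) (m (2 ^ n)) ≤ stair (C S P n k i) n j m :=
  (min_le_right _ _).trans (W_le_stair (fun j => C_coer hS hP k i j) n j m)

omit hS hP in
/-- value iteration converges after `i` steps -/
theorem C_eq_V (k i j : ℕ) (h : i ≤ k) : C S P n k i j = V S P n i j := by
  induction k generalizing i j with
  | zero =>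
    have : i = 0 := by omega
    subst this
    rfl
  | succ k ih =>
    cases i with
    | zero => simp
    | succ i =>
      funext u v
      rw [C_succ, V_succ]
      have e : C S P n k i = V S P n i := funext fun j => ih i j (by omega)
      rw [e]

/-! ### the mean -/

variable {K : ℕ}

omit hS hP in
theorem F_zero (hK : 0 < K) (j : ℕ) : F S P n K 0 j = P j := by
  funext u v
  unfold F
  simp only [C_term, sum_const, card_range, nsmul_eq_mul]
  field_simp

omit hS hP in
theorem mul_F (hK : 0 < K) (i j : ℕ) (u v : ℤ) :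
    (K : ℝ) * F S P n K i j u v = ∑ k ∈ range K, C S P n k i j u v := by
  unfold F
  field_simp

theorem F_coer (hK : 0 < K) (i j : ℕ) : Coer (F S P n K i j) := fun u v => by
  have hK' : (0 : ℝ) < K := by exact_mod_cast hK
  unfold F
  rw [le_div_iff₀ hK']
  calc dz u v * K = ∑ _k ∈ range K, dz u v := by simp [mul_comm]
    _ ≤ _ := sum_le_sum fun k _ => C_coer hS hP k i j u v

/-- **(F1)** -/
theorem F_lip (hK : 0 < K) (hSl : ∀ i j, Lip (S i j)) (hPl : ∀ j, Lip (P j)) (i j : ℕ) :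
    Lip (F S P n K i j) := fun u v u' v' => by
  have hK' : (0 : ℝ) < K := by exact_mod_cast hK
  unfold F
  rw [div_le_iff₀ hK', add_mul, div_mul_cancel₀ _ hK'.ne']
  calc ∑ k ∈ range K, C S P n k i j u v
      ≤ ∑ k ∈ range K, (C S P n k i j u' v' + (dz u u' + dz v v')) :=
        sum_le_sum fun k _ => C_lip hS hP hSl hPl k i j u v u' v'
    _ = _ := by rw [sum_add_distrib]; simp only [sum_const, card_range, nsmul_eq_mul]; ring

omit hS hP in
/-- **(F2)**, upper part -/
theorem F_le_S (hK : 0 < K) (i j : ℕ) (u v : ℤ) : F S P n K (i + 1) j u v ≤ S (i + 1) j u v := by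
  have hK' : (0 : ℝ) < K := by exact_mod_cast hK
  unfold F
  rw [div_le_iff₀ hK']
  calc ∑ k ∈ range K, C S P n k (i + 1) j u v ≤ ∑ _k ∈ range K, S (i + 1) j u v :=
        sum_le_sum fun k _ => C_le_S k i j u v
    _ = _ := by simp [mul_comm]

/-- **(F2)**, lower part: `V ≤ F` (and `T ≤ V` by `le_V`) -/
theorem V_le_F (hK : 0 < K) (i j : ℕ) (u v : ℤ) : V S P n i j u v ≤ F S P n K i j u v := by
  have hK' : (0 : ℝ) < K := by exact_mod_cast hK
  unfold F
  rw [le_div_iff₀ hK']
  calc V S P n i j u v * K = ∑ _k ∈ range K, V S P n i j u v := by simp [mul_comm]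
    _ ≤ _ := sum_le_sum fun k _ => V_le_C hS hP (fun i j u v => V_le_S i j u v) k i j u v

/-- the mean of the first `K` iterates, `K * F` form of **(F3)** for the window DP -/
theorem F_le_W (hK : 0 < K) (i j : ℕ) (u v : ℤ) :
    F S P n K (i + 1) j u v ≤ W (F S P n K i) n j u v + S (i + 1) j u v / K := by
  have hK' : (0 : ℝ) < K := by exact_mod_cast hK
  obtain ⟨m, hm0, hm1, hm⟩ := exists_stair (fun j => F_coer hS hP hK i j) n j u v
  rw [← hm]
  subst hm0 hm1
  have hst : (K : ℝ) * stair (F S P n K i) n j m = ∑ k ∈ range K, stair (C S P n k i) n j m := by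
    unfold stair
    rw [mul_sum, sum_comm]
    exact sum_congr rfl fun t _ => mul_F hK i _ _ _
  have hmain : (K : ℝ) * F S P n K (i + 1) j (m 0) (m (2 ^ n))
      ≤ S (i + 1) j (m 0) (m (2 ^ n)) + (K : ℝ) * stair (F S P n K i) n j m := by
    rw [mul_F hK, hst]
    obtain ⟨K', rfl⟩ : ∃ K', K = K' + 1 := ⟨K - 1, by omega⟩
    rw [sum_range_succ', sum_range_succ (fun k => stair (C S P n k i) n j m)]
    have h1 : ∑ k ∈ range K', C S P n (k + 1) (i + 1) j (m 0) (m (2 ^ n))
        ≤ ∑ k ∈ range K', stair (C S P n k i) n j m :=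
      sum_le_sum fun k _ => C_le_stair hS hP k i j m
    have h2 : 0 ≤ stair (C S P n K' i) n j m :=
      sum_nonneg fun t _ => (C_coer hS hP K' i _).nonneg _ _
    have h3 : C S P n 0 (i + 1) j (m 0) (m (2 ^ n)) = S (i + 1) j (m 0) (m (2 ^ n)) := rfl
    linarith
  have : F S P n K (i + 1) j (m 0) (m (2 ^ n)) ≤ (S (i + 1) j (m 0) (m (2 ^ n))
      + (K : ℝ) * stair (F S P n K i) n j m) / K := by
    rw [le_div_iff₀ hK']
    linarith
  rw [add_div, mul_div_cancel_left₀ _ hK'.ne'] at this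
  linarith

/-- **(F3)**: `F` is a subsolution up to `S / K`, for EVERY staircase -/
theorem F_le_stair (hK : 0 < K) (i j : ℕ) (m : ℕ → ℤ) :
    F S P n K (i + 1) j (m 0) (m (2 ^ n))
      ≤ stair (F S P n K i) n j m + S (i + 1) j (m 0) (m (2 ^ n)) / K := by
  have h1 := F_le_W (n := n) hS hP hK i j (m 0) (m (2 ^ n))
  have h2 := W_le_stair (f := F S P n K i) (fun j => F_coer hS hP hK i j) n j m
  linarith

end coer

end val

/-! ### jump and stop -/

/-- inf-convolution with the distance -/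
noncomputable def ic2 (f : ℤ → ℤ → ℝ) (u v : ℤ) : ℝ :=
  ⨅ p : ℤ × ℤ, (f p.1 p.2 + (dz u p.1 + dz v p.2))

theorem ic2_le {f : ℤ → ℤ → ℝ} (hf : ∀ u v, 0 ≤ f u v) (u v u' v' : ℤ) :
    ic2 f u v ≤ f u' v' + (dz u u' + dz v v') :=
  ciInf_le (⟨0, by
    rintro _ ⟨p, rfl⟩
    exact add_nonneg (hf _ _) (add_nonneg (dz_nonneg _ _) (dz_nonneg _ _))⟩ :
    BddBelow (Set.range fun p : ℤ × ℤ => f p.1 p.2 + (dz u p.1 + dz v p.2))) (u', v')

theorem le_ic2 {f : ℤ → ℤ → ℝ} {u v : ℤ} {r : ℝ}
    (h : ∀ u' v', r ≤ f u' v' + (dz u u' + dz v v')) : r ≤ ic2 f u v :=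
  le_ciInf fun p => h p.1 p.2

theorem ic2_le_self {f : ℤ → ℤ → ℝ} (hf : ∀ u v, 0 ≤ f u v) (u v : ℤ) : ic2 f u v ≤ f u v := by
  simpa [dz_self] using ic2_le hf u v u v

/-- the minimum is attained -/
theorem exists_ic2 {f : ℤ → ℤ → ℝ} (hf : ∀ u v, 0 ≤ f u v) (u v : ℤ) :
    ∃ u' v', ic2 f u v = f u' v' + (dz u u' + dz v v') := by
  have hfin : {p : ℤ × ℤ | f p.1 p.2 + (dz u p.1 + dz v p.2) ≤ f u v}.Finite := by
    refine Set.Finite.subset ((Set.finite_Icc (u - ⌈f u v⌉) (u + ⌈f u v⌉)).prod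
      (Set.finite_Icc (v - ⌈f u v⌉) (v + ⌈f u v⌉))) fun p hp => ?_
    have hp' : f p.1 p.2 + (dz u p.1 + dz v p.2) ≤ f u v := hp
    have h0 := hf p.1 p.2
    have h1 := dz_nonneg u p.1
    have h2 := dz_nonneg v p.2
    have h3 : f u v ≤ (⌈f u v⌉ : ℝ) := Int.le_ceil _
    have a1 : |(u : ℝ) - p.1| ≤ (⌈f u v⌉ : ℝ) := by
      have : dz u p.1 ≤ (⌈f u v⌉ : ℝ) := by linarith
      exact this
    have a2 : |(v : ℝ) - p.2| ≤ (⌈f u v⌉ : ℝ) := by
      have : dz v p.2 ≤ (⌈f u v⌉ : ℝ) := by linarith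
      exact this
    have b1 := abs_le.1 a1
    have b2 := abs_le.1 a2
    refine Set.mem_prod.2 ⟨⟨?_, ?_⟩, ⟨?_, ?_⟩⟩
    · have : (u : ℝ) - (⌈f u v⌉ : ℝ) ≤ p.1 := by linarith [b1.2]
      exact_mod_cast this
    · have : (p.1 : ℝ) ≤ u + (⌈f u v⌉ : ℝ) := by linarith [b1.1]
      exact_mod_cast this
    · have : (v : ℝ) - (⌈f u v⌉ : ℝ) ≤ p.2 := by linarith [b2.2]
      exact_mod_cast this
    · have : (p.2 : ℝ) ≤ v + (⌈f u v⌉ : ℝ) := by linarith [b2.1]
      exact_mod_cast this
  obtain ⟨p, hp, hmin⟩ := hfin.exists_minimalFor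
    (fun p : ℤ × ℤ => f p.1 p.2 + (dz u p.1 + dz v p.2)) _
    ⟨(u, v), by simp [dz_self]⟩
  refine ⟨p.1, p.2, le_antisymm (ic2_le hf u v p.1 p.2) (le_ic2 fun u' v' => ?_)⟩
  by_cases hw : f u' v' + (dz u u' + dz v v') ≤ f u v
  · by_contra hlt
    push Not at hlt
    have := hmin (show (u', v') ∈ _ from hw) hlt.le
    simp only at this
    linarith
  · exact (show f p.1 p.2 + (dz u p.1 + dz v p.2) ≤ f u v from hp).trans (not_le.1 hw).le

theorem ic2_lip {f : ℤ → ℤ → ℝ} (hf : ∀ u v, 0 ≤ f u v) : Lip (ic2 f) := fun u v u' v' => by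
  obtain ⟨a, b, h⟩ := exists_ic2 hf u' v'
  have h1 := ic2_le hf u v a b
  have h2 := dz_tri u u' a
  have h3 := dz_tri v v' b
  rw [h]
  linarith

/-- a Lipschitz lower bound survives -/
theorem le_ic2_of_lip {f T : ℤ → ℤ → ℝ} (hT : Lip T) (h : ∀ u v, T u v ≤ f u v) (u v : ℤ) :
    T u v ≤ ic2 f u v :=
  le_ic2 fun u' v' => (hT u v u' v').trans (by linarith [h u' v'])

theorem ic2_coer {f : ℤ → ℤ → ℝ} (hf : Coer f) : Coer (ic2 f) := fun u v =>
  le_ic2 fun u' v' => by
    have h1 := dz_tri u u' v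
    have h2 := dz_tri u' v' v
    have h3 := hf u' v'
    have h4 := dz_comm v v'
    linarith

end Crest.Agent.R288.VI684
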