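import Crest.Agent.R288.NodeA_785
import Crest.Agent.R288.VI_684
import Crest.Agent.R288.InitA_772

/-!
# R288, the concrete instance of the abstract macro game (helper373)

`gn x y h j u v` (helper785) clips its diagonals, so it is neither coercive nor proper outside the
admissible diagonals. Here: the TOTAL cost

  `Gn x y h j u v = gn x y h j u v + off u + off v`   (natural number),
  `Gt x y h j u v : ℝ` = its cast,

`off` = distance of a diagonal to the admissible ones of its row. On ALL of `ℤ × ℤ`: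

* `Gt_coer`, `Gt_lip`, `Gt_lipL`, `Gt_lipR`, `Gt_nonneg`;
* `Gn_split_le`, `exists_Gn_split`, `Gt_split : Gt (h+1) j = mpl (Gt h (2j)) (Gt h (2j+1))`,
  **`Gt_W : Gt (h+r) j = W (Gt h) r j`** (helper684's window DP), `Gt_le_stair`, `exists_Gt_stair`;
* `Gn_adm` (`= gn` at admissible ends), `Gt_root` (root value = `editDist x y`);
* the start bound `U0t = |u - v| + 2 E + off u + off v` (helper772's `E`):
  `Gt_le_U0t`, `U0t_le : U0t ≤ (8 * 2^g * L + 1) * Gt`, `T0_le_Gt`.
-/

set_option autoImplicit false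

namespace Crest.Agent.R288.Gt373

open Finset
open Crest.GraphRAM Crest.Agent.R288.GameA347 Crest.Agent.R288.NodeA785 Crest.Agent.R288.VI684
open Crest.Agent.R288.Init772 (mis gn_le_E T0 T0_le_gn T0_lip_left T0_lip_right gn_le_T0)

/-- the distance of the diagonal `u` to the admissible diagonals of the row `a` -/
def off (n a : ℕ) (u : ℤ) : ℕ := (u - clip n a u).natAbs

theorem off_of_adm {n a : ℕ} {u : ℤ} (h : Adm n a u) : off n a u = 0 := by
  unfold off; rw [clip_of_adm h]; simp

/-- clipping and the offset together are `1`-Lipschitz -/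
theorem clip_off (n a : ℕ) (u u' : ℤ) :
    (clip n a u - clip n a u').natAbs + off n a u ≤ off n a u' + (u - u').natAbs := by
  unfold off clip pos
  omega

variable (x y : List ℕ)

/-- the total cost of the node `(h, j)` on all of `ℤ × ℤ` -/
def Gn (h j : ℕ) (u v : ℤ) : ℕ :=
  gn x y h j u v + off y.length (lo x.length h j) u + off y.length (hi x.length h j) v

theorem Gn_adm {h j : ℕ} {u v : ℤ} (hu : Adm y.length (lo x.length h j) u)
    (hv : Adm y.length (hi x.length h j) v) : Gn x y h j u v = gn x y h j u v := by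
  unfold Gn; rw [off_of_adm hu, off_of_adm hv]; rfl

theorem gn_clip (h j : ℕ) (u v : ℤ) :
    gn x y h j (clip y.length (lo x.length h j) u) (clip y.length (hi x.length h j) v)
      = gn x y h j u v := by
  unfold gn; rw [g_clip]

theorem Gn_lip_left (h j : ℕ) (u u' v : ℤ) :
    Gn x y h j u v ≤ Gn x y h j u' v + (u - u').natAbs := by
  have h1 := gn_lip_left x y h j (clip y.length (lo x.length h j) u)
    (clip y.length (lo x.length h j) u') v
  have h2 := clip_off y.length (lo x.length h j) u u'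
  have h3 : gn x y h j (clip y.length (lo x.length h j) u) v = gn x y h j u v := by
    unfold gn; rw [g_clip_left]
  have h4 : gn x y h j (clip y.length (lo x.length h j) u') v = gn x y h j u' v := by
    unfold gn; rw [g_clip_left]
  unfold Gn
  omega

theorem Gn_lip_right (h j : ℕ) (u v v' : ℤ) :
    Gn x y h j u v ≤ Gn x y h j u v' + (v - v').natAbs := by
  have h1 := gn_lip_right x y h j u (clip y.length (hi x.length h j) v)
    (clip y.length (hi x.length h j) v')
  have h2 := clip_off y.length (hi x.length h j) v v'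
  have h3 : gn x y h j u (clip y.length (hi x.length h j) v) = gn x y h j u v := by
    unfold gn; rw [g_clip_right]
  have h4 : gn x y h j u (clip y.length (hi x.length h j) v') = gn x y h j u v' := by
    unfold gn; rw [g_clip_right]
  unfold Gn
  omega

theorem Gn_lip (h j : ℕ) (u v u' v' : ℤ) :
    Gn x y h j u v ≤ Gn x y h j u' v' + (u - u').natAbs + (v - v').natAbs :=
  (Gn_lip_right x y h j u v v').trans
    (Nat.add_le_add_right (Gn_lip_left x y h j u u' v') _)

theorem Gn_ge (h j : ℕ) (u v : ℤ) : (u - v).natAbs ≤ Gn x y h j u v := by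
  have h1 := gn_ge x y h j (adm_clip y.length (lo x.length h j) u)
    (adm_clip y.length (hi x.length h j) v)
  rw [gn_clip] at h1
  unfold Gn off
  omega

theorem Gn_split_le (h j : ℕ) (u w v : ℤ) :
    Gn x y (h + 1) j u v ≤ Gn x y h (2 * j) u w + Gn x y h (2 * j + 1) w v := by
  have h1 := gn_split_le x y h j u v w
  unfold Gn
  rw [lo_succ, hi_succ]
  omega

theorem exists_Gn_split (h j : ℕ) (u v : ℤ) : ∃ w : ℤ,
    Adm y.length (lo x.length h (2 * j + 1)) w ∧
      Gn x y (h + 1) j u v = Gn x y h (2 * j) u w + Gn x y h (2 * j + 1) w v := by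
  obtain ⟨w, hw, he⟩ := exists_gn_split x y h j u v
  refine ⟨w, hw, ?_⟩
  unfold Gn
  rw [lo_succ, hi_succ, he, hi_left, off_of_adm hw]
  omega

/-- the root -/
theorem Gn_root {H : ℕ} (hH : x.length ≤ 2 ^ H) :
    Gn x y H 0 0 ((y.length : ℤ) - x.length) = editDist x y := by
  rw [Gn_adm x y (h := H) (j := 0), gn_root x y hH]
  · rw [lo_zero]; constructor <;> omega
  · rw [hi_root hH]; constructor <;> omega

/-! ### real form -/

/-- the total cost as a real function -/
noncomputable def Gt (h j : ℕ) (u v : ℤ) : ℝ := (Gn x y h j u v : ℝ)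

theorem dz_eq_natAbs (a b : ℤ) : dz a b = ((a - b).natAbs : ℝ) := by
  unfold dz
  rw [Nat.cast_natAbs, ← Int.cast_sub, Int.cast_abs]

theorem Gt_nonneg (h j : ℕ) (u v : ℤ) : 0 ≤ Gt x y h j u v := Nat.cast_nonneg _

theorem Gt_coer (h j : ℕ) : Coer (Gt x y h j) := fun u v => by
  rw [dz_eq_natAbs]
  unfold Gt
  exact_mod_cast Gn_ge x y h j u v

theorem Gt_lipL (h j : ℕ) : LipL (Gt x y h j) := fun u u' v => by
  rw [dz_eq_natAbs]
  unfold Gt
  exact_mod_cast Gn_lip_left x y h j u u' v

theorem Gt_lipR (h j : ℕ) : LipR (Gt x y h j) := fun u v v' => by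
  rw [dz_eq_natAbs]
  unfold Gt
  exact_mod_cast Gn_lip_right x y h j u v v'

theorem Gt_lip (h j : ℕ) : Lip (Gt x y h j) := Lip.mk (Gt_lipL x y h j) (Gt_lipR x y h j)

/-- **the binary split** -/
theorem Gt_split (h j : ℕ) :
    Gt x y (h + 1) j = mpl (Gt x y h (2 * j)) (Gt x y h (2 * j + 1)) := by
  funext u v
  apply le_antisymm
  · refine le_mpl fun w => ?_
    unfold Gt
    exact_mod_cast Gn_split_le x y h j u w v
  · obtain ⟨w, _, he⟩ := exists_Gn_split x y h j u v
    refine (mpl_le (Gt_coer x y h (2 * j)) (Gt_coer x y h (2 * j + 1)) u v w).trans (le_of_eq ?_)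
    unfold Gt
    rw [he]
    push_cast
    rfl

/-- **the macro split: the cost of a node is the window DP of the costs `r` levels below** -/
theorem Gt_W (h r j : ℕ) : Gt x y (h + r) j = W (Gt x y h) r j := by
  induction r generalizing j with
  | zero => rfl
  | succ r ih =>
    rw [← Nat.add_assoc, Gt_split, ih, ih, W_succ]

theorem Gt_le_stair (h r j : ℕ) (m : ℕ → ℤ) :
    Gt x y (h + r) j (m 0) (m (2 ^ r)) ≤ stair (Gt x y h) r j m := by
  rw [Gt_W]
  exact W_le_stair (fun j => Gt_coer x y h j) r j m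

theorem exists_Gt_stair (h r j : ℕ) (u v : ℤ) :
    ∃ m : ℕ → ℤ, m 0 = u ∧ m (2 ^ r) = v ∧ stair (Gt x y h) r j m = Gt x y (h + r) j u v := by
  rw [Gt_W]
  exact exists_stair (fun j => Gt_coer x y h j) r j u v

theorem Gt_root {H : ℕ} (hH : x.length ≤ 2 ^ H) :
    Gt x y H 0 0 ((y.length : ℤ) - x.length) = editDist x y := by
  unfold Gt; rw [Gn_root x y hH]

theorem Gt_adm {h j : ℕ} {u v : ℤ} (hu : Adm y.length (lo x.length h j) u)
    (hv : Adm y.length (hi x.length h j) v) : Gt x y h j u v = gn x y h j u v := by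
  unfold Gt; rw [Gn_adm x y hu hv]

/-! ### the start bound -/

/-- the start bound of "FROM ABOVE" (#4352), `g` = binary height of a macro level of the
`E`-distance -/
noncomputable def U0t (g h j : ℕ) (u v : ℤ) : ℝ :=
  dz u v + 2 * (Init772.E g (mis x y) h j u : ℝ) + (off y.length (lo x.length h j) u : ℝ)
    + (off y.length (hi x.length h j) v : ℝ)

theorem Gt_le_U0t (g h j : ℕ) (u v : ℤ) : Gt x y h j u v ≤ U0t x y g h j u v := by
  have h1 := gn_le_E x y g h j u v
  unfold Gt Gn U0t
  rw [dz_eq_natAbs]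
  have h2 : (gn x y h j u v : ℝ) ≤ ((u - v).natAbs : ℝ) + 2 * (Init772.E g (mis x y) h j u : ℝ) := by
    exact_mod_cast h1
  push_cast
  linarith

/-- the start promise of helper772 is at most the total cost, everywhere -/
theorem T0_le_Gt {g L h : ℕ} (hg : 1 ≤ g) (hL : h + 1 ≤ 4 * L) (j : ℕ) (u v : ℤ) :
    T0 x y g L h j u v ≤ Gt x y h j u v := by
  have h1 := T0_le_gn x y (g := g) (L := L) hg hL j _ _
    (adm_clip y.length (lo x.length h j) u) (adm_clip y.length (hi x.length h j) v)
  rw [gn_clip] at h1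
  have h2 := T0_lip_left x y (g := g) (L := L) hg hL j u (clip y.length (lo x.length h j) u) v
  have h3 := T0_lip_right x y (g := g) (L := L) hL j (clip y.length (lo x.length h j) u) v
    (clip y.length (hi x.length h j) v)
  unfold Gt Gn off
  push_cast [Nat.cast_natAbs]
  push_cast at h2 h3
  linarith

theorem U0t_le {g L h : ℕ} (hg : 1 ≤ g) (hL : h + 1 ≤ 2 * L) (j : ℕ) (u v : ℤ) :
    U0t x y g h j u v ≤ (8 * 2 ^ g * L + 1) * Gt x y h j u v := by
  have hL4 : h + 1 ≤ 4 * L := by omega
  have h1 := T0_le_Gt x y (g := g) (L := L) hg hL4 j u v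
  have hLpos : (0 : ℝ) < L := by
    have : 0 < L := by omega
    exact_mod_cast this
  have hL1 : (1 : ℝ) ≤ L := by
    have : 1 ≤ L := by omega
    exact_mod_cast this
  have hp : (1 : ℝ) ≤ 2 ^ g := one_le_pow₀ (by norm_num)
  -- `|u-v| + 2E ≤ 8 * 2^g * L * T0`
  have h4 : 8 * 2 ^ g * L * T0 x y g L h j u v =
      8 * 2 ^ g * L * (1 - ((h : ℝ) + 1) / (4 * L)) * |((u - v : ℤ) : ℝ)| +
        2 * Init772.E g (mis x y) h j u := by
    unfold T0
    field_simp
    ring
  have h5 : (1 : ℝ) / 2 ≤ 1 - ((h : ℝ) + 1) / (4 * L) := by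
    have h6 : ((h : ℝ) + 1) / (4 * L) ≤ 1 / 2 := by
      rw [div_le_div_iff₀ (by positivity) (by norm_num)]
      have h7 : ((h : ℝ) + 1) ≤ 2 * L := by exact_mod_cast hL
      linarith
    linarith
  have h6 : (1 : ℝ) ≤ 8 * 2 ^ g * L * (1 - ((h : ℝ) + 1) / (4 * L)) := by
    have h7 : (1 : ℝ) ≤ 2 ^ g * L := by nlinarith
    nlinarith
  have h7 := mul_le_mul_of_nonneg_right h6 (abs_nonneg ((u - v : ℤ) : ℝ))
  have h8 : 8 * 2 ^ g * (L : ℝ) * T0 x y g L h j u v ≤ 8 * 2 ^ g * L * Gt x y h j u v :=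
    mul_le_mul_of_nonneg_left h1 (by positivity)
  have h9 : (off y.length (lo x.length h j) u : ℝ) + (off y.length (hi x.length h j) v : ℝ)
      ≤ Gt x y h j u v := by
    unfold Gt Gn
    push_cast
    have : (0 : ℝ) ≤ gn x y h j u v := Nat.cast_nonneg _
    linarith
  have h10 : dz u v = |((u - v : ℤ) : ℝ)| := by unfold dz; push_cast; rfl
  unfold U0t
  rw [h10]
  linarith

end Crest.Agent.R288.Gt373
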