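import Mathlib
import Crest.Agent.R288.InitA_772
import Crest.Agent.R288.Hoef_45

/-!
# R288 (S0433), leaf [Init], part 2: the estimator of the E-distance (pure, deterministic part)

* `Par`: the parameters `g` (binary height of a macro level), `σ` (grid: step `2 ^ (κ - σ)` at
  scale `2 ^ κ`), `J` (number of layers), `c` (`2 ^ c` samples), `s` (fixed point `2 ^ s`), `t`
  (inflation `1 + 2 ^ (- t)`);
* `icg`: the inf-convolution over the grid in the window of radius `2 ^ κ`, `icg_lower/upper`;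
* `phi`, `phr`: the layers, `phr_lower/upper`, `sum_phr`;
* `step`: the estimator of `Σ_{i < 2 ^ r} ic (Ef i)` from estimators of the `Ef i`.
-/

set_option autoImplicit false

namespace Crest.Agent.R288.Init772

open Finset Crest.Agent.R295.Rnd627 Crest.Agent.R295.Rnd627.RT

/-- parameters -/
structure Par where
  /-- binary height of a macro level -/
  g : ℕ
  /-- grid: step `2 ^ (κ - σ)` at scale `2 ^ κ` -/
  σ : ℕ
  /-- number of layers -/
  J : ℕ
  /-- `2 ^ c` samples -/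
  c : ℕ
  /-- fixed point scale `2 ^ s` -/
  s : ℕ
  /-- inflation `1 + 2 ^ (-t)` -/
  t : ℕ

namespace Par

variable (P : Par)

/-- the grid step at scale `2 ^ κ` -/
def st (κ : ℕ) : ℕ := 2 ^ (κ - P.σ)

/-- logarithm of the number of grid points in a window -/
def mu (κ : ℕ) : ℕ := min κ P.σ

theorem st_mul (κ : ℕ) : P.st κ * 2 ^ P.mu κ = 2 ^ κ := by
  unfold st mu
  rw [← pow_add]
  congr 1
  omega

theorem st_pos (κ : ℕ) : 0 < P.st κ := Nat.two_pow_pos _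

theorem st_dvd {κ κ' : ℕ} (h : κ' ≤ κ) : P.st κ' ∣ P.st κ := pow_dvd_pow 2 (by omega)

/-- the cap at scale `2 ^ κ` -/
def cap (κ : ℕ) : ℕ := 2 ^ P.s * 2 ^ κ

/-- the layer between `2 ^ (κ - 1)` and `2 ^ κ` (the last one: below `1`) -/
def phi (κ z : ℕ) : ℕ := min z (P.cap κ) - (if κ = 0 then 0 else min z (P.cap (κ - 1)))

/-- minimum over the first `n` grid points of the window around `u` -/
def icr (κ : ℕ) (B : ℤ → ℕ) (u : ℤ) : ℕ → ℕ
  | 0 => P.cap κ
  | n + 1 => min (icr κ B u n) (B (u + P.st κ * ((n : ℤ) - 2 ^ P.mu κ)) +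
      2 ^ P.s * (P.st κ * ((n : ℤ) - 2 ^ P.mu κ).natAbs))

/-- the inf-convolution over the grid points of the window of radius `2 ^ κ` around `u` -/
def icg (κ : ℕ) (B : ℤ → ℕ) (u : ℤ) : ℕ := P.icr κ B u (2 * 2 ^ P.mu κ + 1)

/-- the table on all windows from the tables on the windows `z0, z0 + 1, …` -/
def big (κ : ℕ) (z0 : ℤ) (F : ℕ → ℤ → ℕ) (w : ℤ) : ℕ := F ((w / 2 ^ κ - z0).toNat) w

/-! ### real form -/

/-- value of a table entry -/
noncomputable def rv (x : ℕ) : ℝ := (x : ℝ) / 2 ^ P.s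

theorem rv_nonneg (x : ℕ) : 0 ≤ P.rv x := by unfold rv; positivity

theorem rv_add (x y : ℕ) : P.rv (x + y) = P.rv x + P.rv y := by unfold rv; push_cast; ring

theorem rv_min (x y : ℕ) : P.rv (min x y) = min (P.rv x) (P.rv y) := by
  unfold rv
  rw [Nat.cast_min, min_div_div_right (by positivity)]

theorem rv_mono {x y : ℕ} (h : x ≤ y) : P.rv x ≤ P.rv y := by
  unfold rv
  exact div_le_div_of_nonneg_right (by exact_mod_cast h) (by positivity)

theorem rv_mul (x : ℕ) : P.rv (2 ^ P.s * x) = x := by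
  unfold rv
  push_cast
  field_simp

theorem rv_cap (κ : ℕ) : P.rv (P.cap κ) = 2 ^ κ := by
  unfold cap
  rw [rv_mul]
  push_cast
  rfl

theorem rv_zero : P.rv 0 = 0 := by unfold rv; simp

/-- the layers in real form -/
noncomputable def phr (κ : ℕ) (z : ℝ) : ℝ :=
  min z (2 ^ κ) - (if κ = 0 then 0 else min z (2 ^ (κ - 1)))

theorem rv_phi (κ z : ℕ) : P.rv (P.phi κ z) = phr κ (P.rv z) := by
  unfold phi phr
  by_cases h : κ = 0
  · subst h
    simp only [if_true, Nat.sub_zero, sub_zero]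
    rw [rv_min, rv_cap]
  · rw [if_neg h, if_neg h]
    have h1 : min z (P.cap (κ - 1)) ≤ min z (P.cap κ) := by
      apply min_le_min le_rfl
      unfold cap
      exact Nat.mul_le_mul_left _ (Nat.pow_le_pow_right (by norm_num) (by omega))
    have h2 : P.rv (min z (P.cap κ) - min z (P.cap (κ - 1))) + P.rv (min z (P.cap (κ - 1))) =
        P.rv (min z (P.cap κ)) := by
      rw [← rv_add, Nat.sub_add_cancel h1]
    rw [rv_min, rv_min, rv_cap, rv_cap] at h2
    linarith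

theorem phr_nonneg {κ : ℕ} {z : ℝ} (hz : 0 ≤ z) : 0 ≤ phr κ z := by
  unfold phr
  split_ifs with h
  · have : (0 : ℝ) ≤ 2 ^ κ := by positivity
    rw [sub_zero]
    exact le_min hz this
  · have h1 : (2 : ℝ) ^ (κ - 1) ≤ 2 ^ κ := pow_le_pow_right₀ (by norm_num) (by omega)
    have := min_le_min (le_refl z) h1
    linarith

theorem phr_le (κ : ℕ) {z : ℝ} (hz : 0 ≤ z) : phr κ z ≤ 2 ^ κ := by
  unfold phr
  have h1 : min z ((2 : ℝ) ^ κ) ≤ 2 ^ κ := min_le_right _ _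
  split_ifs with h
  · linarith
  · have : (0 : ℝ) ≤ min z (2 ^ (κ - 1)) := le_min hz (by positivity)
    linarith

theorem phr_mono (κ : ℕ) {a b : ℝ} (h : a ≤ b) : phr κ a ≤ phr κ b := by
  unfold phr
  split_ifs with h0
  · have := min_le_min h (le_refl ((2 : ℝ) ^ κ))
    linarith
  · have h1 : (2 : ℝ) ^ (κ - 1) ≤ 2 ^ κ := pow_le_pow_right₀ (by norm_num) (by omega)
    rcases le_total a (2 ^ (κ - 1)) with h2 | h2
    · rw [min_eq_left (h2.trans h1), min_eq_left h2]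
      have := min_le_min (le_refl b) h1
      linarith
    · rw [min_eq_right h2, min_eq_right (h2.trans h)]
      have := min_le_min h (le_refl ((2 : ℝ) ^ κ))
      linarith

theorem phr_eq_zero {κ : ℕ} (h : κ ≠ 0) {z : ℝ} (hz : z ≤ 2 ^ (κ - 1)) : phr κ z = 0 := by
  unfold phr
  rw [if_neg h]
  have h1 : (2 : ℝ) ^ (κ - 1) ≤ 2 ^ κ := pow_le_pow_right₀ (by norm_num) (by omega)
  rw [min_eq_left hz, min_eq_left (hz.trans h1), sub_self]

theorem phr_cap (κ : ℕ) (z : ℝ) : phr κ (min (2 ^ κ) z) = phr κ z := by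
  have h1 : (2 : ℝ) ^ (κ - 1) ≤ 2 ^ κ := pow_le_pow_right₀ (by norm_num) (by omega)
  unfold phr
  rcases le_total z (2 ^ κ) with h | h
  · rw [min_eq_right h]
  · rw [min_eq_left h, min_self, min_eq_right h, min_eq_right h1, min_eq_right (h1.trans h)]

/-- the layers are sandwiched: lower -/
theorem phr_lower {κ : ℕ} (hκ : κ ≠ 0) {f g ε η : ℝ} (hf : 0 ≤ f) (hε : 0 ≤ ε) (hη : 0 ≤ η)
    (hg : min (2 ^ κ) ((1 - ε) * f - η * 2 ^ κ) ≤ g) (hg0 : 0 ≤ g) :
    phr κ ((1 - ε - 2 * η) * f) ≤ phr κ g := by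
  rcases le_total (2 ^ (κ - 1)) f with h | h
  · have h1 : (2 : ℝ) ^ κ ≤ 2 * f := by
      have : (2 : ℝ) ^ κ = 2 * 2 ^ (κ - 1) := by
        rw [← pow_succ']; congr 1; omega
      linarith
    rw [← phr_cap κ ((1 - ε - 2 * η) * f)]
    apply phr_mono
    refine le_trans (min_le_min le_rfl ?_) hg
    nlinarith
  · rw [phr_eq_zero hκ]
    · exact phr_nonneg hg0
    · nlinarith [mul_nonneg hε hf, mul_nonneg hη hf]

/-- the layers are sandwiched: upper -/
theorem phr_upper {κ : ℕ} (hκ : κ ≠ 0) {f g ε η : ℝ} (hf : 0 ≤ f) (hη : 0 ≤ η)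
    (hεη : (1 + ε) / 4 + η ≤ 1 / 2)
    (hε : 0 ≤ ε) (hg : g ≤ (1 + ε) * f + η * 2 ^ κ) :
    phr κ g ≤ phr κ ((1 + ε + 4 * η) * f) := by
  have hp : (0 : ℝ) < 2 ^ κ := by positivity
  rcases le_total (2 ^ κ) (4 * f) with h | h
  · apply phr_mono
    nlinarith
  · rw [phr_eq_zero hκ]
    · exact phr_nonneg (by positivity)
    · have : (2 : ℝ) ^ κ = 2 * 2 ^ (κ - 1) := by
        rw [← pow_succ']; congr 1; omega
      nlinarith

/-- the sum of the layers -/
theorem sum_phr (κ : ℕ) (z : ℝ) : ∀ n, n ≤ κ →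
    ∑ l ∈ range n, phr (κ - l) z = min z (2 ^ κ) - min z (2 ^ (κ - n)) := by
  intro n
  induction n with
  | zero => intro _; simp
  | succ n ih =>
    intro hn
    rw [sum_range_succ, ih (by omega)]
    unfold phr
    rw [if_neg (by omega)]
    have : κ - n - 1 = κ - (n + 1) := by omega
    rw [this]
    ring

/-- the sum of all layers -/
theorem sum_phr_all (κ : ℕ) (z : ℝ) :
    ∑ l ∈ range (κ + 1), phr (κ - l) z = min z (2 ^ κ) := by
  rw [sum_range_succ, sum_phr κ z κ le_rfl, Nat.sub_self]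
  unfold phr
  simp

/-- bounds for the sum over the layers `l ≤ min κ J` -/
theorem sum_phr_ge (κ J : ℕ) (z : ℝ) :
    min z (2 ^ κ) - 2 ^ κ / 2 ^ (J + 1) ≤ ∑ l ∈ range (min κ J + 1), phr (κ - l) z := by
  rcases le_or_gt κ J with h | h
  · rw [min_eq_left h, sum_phr_all]
    have : (0 : ℝ) ≤ 2 ^ κ / 2 ^ (J + 1) := by positivity
    linarith
  · rw [min_eq_right h.le, sum_phr κ z (J + 1) (by omega)]
    have h1 : (2 : ℝ) ^ κ / 2 ^ (J + 1) = 2 ^ (κ - (J + 1)) := by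
      rw [div_eq_iff (by positivity), ← pow_add]
      congr 1
      omega
    rw [h1]
    have := min_le_right z ((2 : ℝ) ^ (κ - (J + 1)))
    linarith

theorem sum_phr_le (κ J : ℕ) {z : ℝ} (hz : 0 ≤ z) :
    ∑ l ∈ range (min κ J + 1), phr (κ - l) z ≤ min z (2 ^ κ) := by
  rw [← sum_phr_all κ z]
  apply sum_le_sum_of_subset_of_nonneg
  · exact range_subset_range.2 (by omega)
  · intro l _ _
    exact phr_nonneg hz

/-! ### the inf-convolution over the grid -/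

section icg

variable {κ : ℕ} {B : ℤ → ℕ} {u : ℤ}

theorem icr_le_cap (n : ℕ) : P.icr κ B u n ≤ P.cap κ := by
  induction n with
  | zero => exact le_rfl
  | succ n ih => exact (min_le_left _ _).trans ih

theorem icr_le {n t : ℕ} (h : t < n) : P.icr κ B u n ≤
    B (u + P.st κ * ((t : ℤ) - 2 ^ P.mu κ)) +
      2 ^ P.s * (P.st κ * ((t : ℤ) - 2 ^ P.mu κ).natAbs) := by
  induction n with
  | zero => omega
  | succ n ih =>
    rcases Nat.lt_succ_iff_lt_or_eq.1 h with h | rfl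
    · exact (min_le_left _ _).trans (ih h)
    · exact min_le_right _ _

theorem le_icr {n : ℕ} {x : ℝ} (h0 : x ≤ P.rv (P.cap κ)) (h : ∀ t < n, x ≤
    P.rv (B (u + P.st κ * ((t : ℤ) - 2 ^ P.mu κ)) +
      2 ^ P.s * (P.st κ * ((t : ℤ) - 2 ^ P.mu κ).natAbs))) : x ≤ P.rv (P.icr κ B u n) := by
  induction n with
  | zero => exact h0
  | succ n ih =>
    unfold icr
    rw [rv_min]
    exact le_min (ih fun t ht => h t (by omega)) (h n (by omega))

theorem icg_le_cap : P.rv (P.icg κ B u) ≤ 2 ^ κ := by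
  rw [← P.rv_cap]
  exact P.rv_mono (P.icr_le_cap _)

/-- the lower bound -/
theorem icg_lower {Ef : ℤ → ℕ} {ε η : ℝ} (hε : 0 ≤ ε) (hε1 : ε ≤ 1)
    (hB : ∀ w : ℤ, |w - u| ≤ 2 ^ κ → (P.st κ : ℤ) ∣ w - u →
      min (2 ^ κ) ((1 - ε) * Ef w - η * 2 ^ κ) ≤ P.rv (B w)) :
    min (2 ^ κ) ((1 - ε) * ic Ef u - η * 2 ^ κ) ≤ P.rv (P.icg κ B u) := by
  unfold icg
  apply P.le_icr
  · rw [rv_cap]; exact min_le_left _ _
  · intro t ht
    rw [rv_add, rv_mul]
    set p : ℤ := (t : ℤ) - 2 ^ P.mu κ with hp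
    have h1 : |p| ≤ 2 ^ P.mu κ := by
      rw [abs_le]
      have : (t : ℤ) < 2 * 2 ^ P.mu κ + 1 := by exact_mod_cast ht
      constructor <;> omega
    have h2 : |(u + P.st κ * p) - u| = (P.st κ * p.natAbs : ℕ) := by
      rw [add_sub_cancel_left, abs_mul, Nat.abs_cast]
      push_cast
      rw [Int.abs_eq_natAbs]
    have h3 : (P.st κ * p.natAbs : ℕ) ≤ 2 ^ κ := by
      rw [← P.st_mul κ]
      apply Nat.mul_le_mul_left
      have h4 : (p.natAbs : ℤ) ≤ 2 ^ P.mu κ := by rw [← Int.abs_eq_natAbs]; exact h1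
      exact_mod_cast h4
    have h4 := hB (u + P.st κ * p) (by rw [h2]; exact_mod_cast h3)
      (by rw [add_sub_cancel_left]; exact dvd_mul_right _ _)
    have h5 := ic_le Ef u (u + P.st κ * p)
    have h6 : (u + P.st κ * p - u).natAbs = P.st κ * p.natAbs := by
      have := h2
      rw [Int.abs_eq_natAbs] at this
      exact_mod_cast this
    rw [h6] at h5
    have h5' : (ic Ef u : ℝ) ≤ Ef (u + P.st κ * p) + (P.st κ * p.natAbs : ℕ) := by
      exact_mod_cast h5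
    set D : ℝ := ((P.st κ * p.natAbs : ℕ) : ℝ) with hD
    have hD0 : 0 ≤ D := by positivity
    rcases le_total ((2 : ℝ) ^ κ) ((1 - ε) * Ef (u + P.st κ * p) - η * 2 ^ κ) with h7 | h7
    · rw [min_eq_left h7] at h4
      refine (min_le_left _ _).trans ?_
      linarith
    · rw [min_eq_right h7] at h4
      refine (min_le_right _ _).trans ?_
      nlinarith

/-- rounding a difference to the grid towards zero -/
theorem exists_round {a : ℕ} (ha : 0 < a) (d : ℤ) :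
    ∃ p : ℤ, (a : ℤ) * p.natAbs ≤ d.natAbs ∧ (d - a * p).natAbs ≤ a - 1 := by
  refine ⟨d.sign * (d.natAbs / a : ℕ), ?_, ?_⟩
  · have h1 : (d.sign * ((d.natAbs / a : ℕ) : ℤ)).natAbs ≤ d.natAbs / a := by
      rw [Int.natAbs_mul, Int.natAbs_natCast]
      rcases eq_or_ne d 0 with rfl | h
      · simp
      · rw [Int.natAbs_sign_of_ne_zero h, one_mul]
    have h2 := Nat.mul_div_le d.natAbs a
    have h3 : a * (d.sign * ((d.natAbs / a : ℕ) : ℤ)).natAbs ≤ a * (d.natAbs / a) :=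
      Nat.mul_le_mul_left _ h1
    exact_mod_cast h3.trans h2
  · have h1 : d - a * (d.sign * ((d.natAbs / a : ℕ) : ℤ)) = d.sign * ((d.natAbs % a : ℕ) : ℤ) := by
      have h2 := Nat.div_add_mod d.natAbs a
      have h3 : d = d.sign * (d.natAbs : ℤ) := (Int.sign_mul_natAbs d).symm
      have h4 : ((d.natAbs : ℕ) : ℤ) = a * ((d.natAbs / a : ℕ) : ℤ) + ((d.natAbs % a : ℕ) : ℤ) := by
        exact_mod_cast h2.symm
      calc d - a * (d.sign * ((d.natAbs / a : ℕ) : ℤ))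
          = d.sign * (d.natAbs : ℤ) - a * (d.sign * ((d.natAbs / a : ℕ) : ℤ)) := by rw [← h3]
        _ = d.sign * (a * ((d.natAbs / a : ℕ) : ℤ) + ((d.natAbs % a : ℕ) : ℤ)) -
            a * (d.sign * ((d.natAbs / a : ℕ) : ℤ)) := by rw [← h4]
        _ = _ := by ring
    rw [h1, Int.natAbs_mul, Int.natAbs_natCast]
    have h5 := Nat.mod_lt d.natAbs ha
    rcases eq_or_ne d 0 with rfl | h
    · simp
    · rw [Int.natAbs_sign_of_ne_zero h, one_mul]
      omega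

/-- the upper bound; `b` = Lipschitz constant of `Ef`, `b (st - 1) ≤ β 2 ^ κ` -/
theorem icg_upper {Ef : ℤ → ℕ} {b : ℕ} {ε η β : ℝ} (hε : 0 ≤ ε) (hε1 : ε ≤ 1) (hη : 0 ≤ η)
    (hβ0 : 0 ≤ β) (hL : ∀ w w' : ℤ, Ef w ≤ Ef w' + b * (w - w').natAbs)
    (hβ : (b : ℝ) * (P.st κ - 1 : ℕ) ≤ β * 2 ^ κ)
    (hB : ∀ w : ℤ, |w - u| ≤ 2 ^ κ → (P.st κ : ℤ) ∣ w - u →
      P.rv (B w) ≤ (1 + ε) * Ef w + η * 2 ^ κ) :
    P.rv (P.icg κ B u) ≤ (1 + ε) * ic Ef u + (η + 2 * β) * 2 ^ κ := by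
  obtain ⟨w, hw⟩ := exists_ic Ef u
  have hk : (0 : ℝ) < 2 ^ κ := by positivity
  rcases le_or_gt ((w - u).natAbs) (2 ^ κ) with hd | hd
  · obtain ⟨p, hp1, hp2⟩ := exists_round (P.st_pos κ) (w - u)
    have hp3 : P.st κ * p.natAbs ≤ P.st κ * 2 ^ P.mu κ := by
      rw [P.st_mul]
      have : (P.st κ * p.natAbs : ℕ) ≤ (w - u).natAbs := by exact_mod_cast hp1
      omega
    have hp4 : p.natAbs ≤ 2 ^ P.mu κ := Nat.le_of_mul_le_mul_left hp3 (P.st_pos κ)
    have hp5 : |p| ≤ 2 ^ P.mu κ := by rw [Int.abs_eq_natAbs]; exact_mod_cast hp4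
    have hp6 : 0 ≤ p + 2 ^ P.mu κ := by have := (abs_le.1 hp5).1; omega
    have ht : (p + 2 ^ P.mu κ).toNat < 2 * 2 ^ P.mu κ + 1 := by
      have := (abs_le.1 hp5).2
      have h2 : ((p + 2 ^ P.mu κ).toNat : ℤ) < 2 * 2 ^ P.mu κ + 1 := by
        rw [Int.toNat_of_nonneg hp6]; omega
      exact_mod_cast h2
    have h1 := P.icr_le (κ := κ) (B := B) (u := u) ht
    have h2 : ((p + 2 ^ P.mu κ).toNat : ℤ) - 2 ^ P.mu κ = p := by
      rw [Int.toNat_of_nonneg hp6]; ring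
    rw [h2] at h1
    have h3 := P.rv_mono h1
    rw [rv_add, rv_mul] at h3
    have h4 : |u + P.st κ * p - u| = (P.st κ * p.natAbs : ℕ) := by
      rw [add_sub_cancel_left, abs_mul, Nat.abs_cast, Int.abs_eq_natAbs]
      push_cast
      rfl
    have h5 : (P.st κ * p.natAbs : ℕ) ≤ 2 ^ κ := by rw [← P.st_mul κ]; exact hp3
    have h6 := hB (u + P.st κ * p) (by rw [h4]; exact_mod_cast h5)
      (by rw [add_sub_cancel_left]; exact dvd_mul_right _ _)
    have h7 := hL (u + P.st κ * p) w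
    have h8 : (u + P.st κ * p - w).natAbs ≤ P.st κ - 1 := by
      have : u + P.st κ * p - w = -(w - u - P.st κ * p) := by ring
      rw [this, Int.natAbs_neg]
      exact hp2
    have h9 : (Ef (u + P.st κ * p) : ℝ) ≤ Ef w + β * 2 ^ κ := by
      have h10 : Ef (u + P.st κ * p) ≤ Ef w + b * (P.st κ - 1) :=
        h7.trans (Nat.add_le_add_left (Nat.mul_le_mul_left _ h8) _)
      have h11 : (Ef (u + P.st κ * p) : ℝ) ≤ Ef w + b * (P.st κ - 1 : ℕ) := by exact_mod_cast h10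
      linarith
    have h12 : ((P.st κ * p.natAbs : ℕ) : ℝ) ≤ ((w - u).natAbs : ℕ) := by
      have : (P.st κ * p.natAbs : ℕ) ≤ (w - u).natAbs := by exact_mod_cast hp1
      exact_mod_cast this
    have h13 : (ic Ef u : ℝ) = Ef w + ((w - u).natAbs : ℕ) := by rw [hw]; push_cast; rfl
    unfold icg
    rw [h13]
    have h14 : (0 : ℝ) ≤ ((w - u).natAbs : ℕ) := by positivity
    nlinarith [mul_nonneg hβ0 hk.le]
  · have h1 := P.icg_le_cap (κ := κ) (B := B) (u := u)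
    have h2 : (2 : ℝ) ^ κ ≤ ic Ef u := by
      have : 2 ^ κ ≤ ic Ef u := by rw [hw]; omega
      exact_mod_cast this
    nlinarith [mul_nonneg hη hk.le, mul_nonneg hβ0 hk.le]

end icg

/-! ### good tables -/

/-- the table `F` of the window `z` at scale `2 ^ κ` is good for `Ef` -/
def Good (ε η : ℝ) (κ : ℕ) (Ef : ℤ → ℕ) (z : ℤ) (F : ℤ → ℕ) : Prop :=
  ∀ u : ℤ, 2 ^ κ * z ≤ u → u < 2 ^ κ * (z + 1) → (P.st κ : ℤ) ∣ u →
    min (2 ^ κ) ((1 - ε) * Ef u - η * 2 ^ κ) ≤ P.rv (F u) ∧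
      P.rv (F u) ≤ (1 + ε) * Ef u + η * 2 ^ κ

/-- good tables of the windows `z0, …, z0 + n - 1` -/
theorem good_big {ε η : ℝ} {κ : ℕ} {Ef : ℤ → ℕ} {z0 : ℤ} {n : ℕ} {F : ℕ → ℤ → ℕ}
    (hF : ∀ c < n, P.Good ε η κ Ef (z0 + c) (F c)) {w : ℤ} (h1 : 2 ^ κ * z0 ≤ w)
    (h2 : w < 2 ^ κ * (z0 + n)) (h3 : (P.st κ : ℤ) ∣ w) :
    min (2 ^ κ) ((1 - ε) * Ef w - η * 2 ^ κ) ≤ P.rv (big κ z0 F w) ∧
      P.rv (big κ z0 F w) ≤ (1 + ε) * Ef w + η * 2 ^ κ := by
  have hk : (0 : ℤ) < 2 ^ κ := by positivity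
  have h4 : z0 ≤ w / 2 ^ κ := by
    rw [Int.le_ediv_iff_mul_le hk, mul_comm]; exact h1
  have h5 : w / 2 ^ κ < z0 + n := by
    rw [Int.ediv_lt_iff_lt_mul hk, mul_comm]; exact h2
  have h6 : ((w / 2 ^ κ - z0).toNat : ℤ) = w / 2 ^ κ - z0 := Int.toNat_of_nonneg (by omega)
  have h7 : (w / 2 ^ κ - z0).toNat < n := by
    have : ((w / 2 ^ κ - z0).toNat : ℤ) < n := by rw [h6]; omega
    exact_mod_cast this
  have h8 := hF _ h7
  unfold Good at h8
  rw [h6] at h8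
  have h9 := Int.mul_ediv_add_emod w (2 ^ κ)
  have h10 := Int.emod_nonneg w hk.ne'
  have h11 := Int.emod_lt_of_pos w hk
  unfold big
  apply h8 w _ _ h3
  · have : z0 + (w / 2 ^ κ - z0) = w / 2 ^ κ := by ring
    rw [this]
    omega
  · have : z0 + (w / 2 ^ κ - z0) + 1 = w / 2 ^ κ + 1 := by ring
    rw [this, mul_add, mul_one]
    omega

end Par

end Crest.Agent.R288.Init772
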