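import Mathlib
import Crest.Agent.R288.InitB_772

/-!
# R288 (S0433), leaf [Init], part 3: the estimator of the E-distance (probability)

* `dev`: two-sided Chernoff bound for repetitions;
* `wins`: the tables of several windows; `smp`: one sampled child; `lays`: the layers;
* `step`: the estimator of `Σ_{i < 2 ^ r} ic (Ef i)` at scale `2 ^ κ`;
* `step_good`: it is good with probability `≥ 1 - δ` if the children are.
-/

set_option autoImplicit false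

namespace Crest.Agent.R288.Init772

open Finset Crest.Agent.R295.Rnd627 Crest.Agent.R295.Rnd627.RT

universe u

/-- two-sided Chernoff bound: relative error `a` plus additive error `a Λ` -/
theorem dev {α : Type u} {M : ℕ} (hM : 0 < M) {t : RT α} {f : α → ℝ}
    (hf : t.All M fun x => 0 ≤ f x ∧ f x ≤ 1) (m : ℕ) {a Λ : ℝ} (ha : 0 ≤ a) (ha1 : a ≤ 1) :
    (reps m t).Pr M (fun L => ¬ ((1 - a) * (m * t.Ev M f) - a * Λ ≤ (L.map f).sum ∧
      (L.map f).sum ≤ (1 + a) * (m * t.Ev M f) + a * Λ)) ≤ 2 * Real.exp (-(a ^ 2 * Λ)) := by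
  set μ : ℝ := m * t.Ev M f with hμ
  have hμ0 : 0 ≤ μ := mul_nonneg (Nat.cast_nonneg _) (Ev_nonneg_all (hf.mono fun x hx => hx.1))
  have h1 : (reps m t).Pr M (fun L => (1 + a) * μ + a * Λ ≤ (L.map f).sum) ≤
      Real.exp (-(a ^ 2 * Λ)) := by
    refine (Hoef45.Pr_reps_sum_ge_exp hM hf m ha (le_of_eq hμ.symm)).trans ?_
    apply Real.exp_le_exp.2
    have h2 := (abs_le.1 (Real.abs_exp_sub_one_sub_id_le (x := a) (by rwa [abs_of_nonneg ha]))).2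
    nlinarith [mul_le_mul_of_nonneg_right h2 hμ0]
  have h2 : (reps m t).Pr M (fun L => (L.map f).sum ≤ (1 - a) * μ - a * Λ) ≤
      Real.exp (-(a ^ 2 * Λ)) := by
    refine (Hoef45.Pr_reps_sum_le_exp hM hf m ha (le_of_eq hμ)).trans ?_
    apply Real.exp_le_exp.2
    have h2 := (abs_le.1 (Real.abs_exp_sub_one_sub_id_le (x := -a)
      (by rwa [abs_neg, abs_of_nonneg ha]))).2
    nlinarith [mul_le_mul_of_nonneg_right h2 hμ0]
  refine le_trans (Pr_mono fun L hL => ?_) ((Pr_or_le M (reps m t) _ _).trans (add_le_add h1 h2)) |>.trans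
    (le_of_eq (by ring))
  rcases le_or_gt ((1 + a) * μ + a * Λ) (L.map f).sum with h3 | h3
  · exact Or.inl h3
  · right
    by_contra h4
    exact hL ⟨(not_le.1 h4).le, h3.le⟩

/-- the tables of the windows `0, …, n - 1` -/
def wins (f : ℕ → RT (ℤ → ℕ)) : ℕ → RT (ℕ → ℤ → ℕ)
  | 0 => ret fun _ _ => 0
  | n + 1 => (wins f n).bind fun F => (f n).map fun T c => if c = n then T else F c

theorem Pr_const {α : Type u} {M : ℕ} (hM : 0 < M) (t : RT α) (p : Prop) [Decidable p] :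
    t.Pr M (fun _ => p) = if p then 1 else 0 := by
  by_cases h : p
  · simp only [h, if_true]; exact Pr_true hM t
  · simp only [h, if_false]; exact Pr_false M t

/-- union bound along a `bind` -/
theorem Pr_bind_le {α β : Type u} {M : ℕ} (hM : 0 < M) (t : RT α) (g : α → RT β) (Q : α → Prop)
    (R : β → Prop) {δ₁ δ₂ : ℝ} (h1 : t.Pr M (fun a => ¬ Q a) ≤ δ₁) (hδ : 0 ≤ δ₂)
    (h2 : ∀ a, Q a → (g a).Pr M (fun b => ¬ R b) ≤ δ₂) :
    (t.bind g).Pr M (fun b => ¬ R b) ≤ δ₁ + δ₂ := by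
  classical
  rw [Pr_bind]
  have h3 : ∀ a, (g a).Pr M (fun b => ¬ R b) ≤ (if ¬ Q a then 1 else 0) + δ₂ := by
    intro a
    by_cases ha : Q a
    · rw [if_neg (by simpa using ha), zero_add]; exact h2 a ha
    · rw [if_pos ha]
      have := Pr_le_one hM (g a) (fun b => ¬ R b)
      linarith
  refine (Ev_mono h3).trans ?_
  rw [Ev_add, Ev_const hM]
  rw [Pr_def] at h1
  linarith

theorem Pr_wins {M : ℕ} (hM : 0 < M) (f : ℕ → RT (ℤ → ℕ)) (G : ℕ → (ℤ → ℕ) → Prop) {δ : ℝ}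
    (hδ : 0 ≤ δ) (n : ℕ) (h : ∀ c < n, (f c).Pr M (fun T => ¬ G c T) ≤ δ) :
    (wins f n).Pr M (fun F => ¬ ∀ c < n, G c (F c)) ≤ n * δ := by
  induction n with
  | zero =>
    have : (wins f 0).Pr M (fun F => ¬ ∀ c < 0, G c (F c)) ≤ (wins f 0).Pr M (fun _ => False) :=
      Pr_mono fun F hF => hF (fun c hc => absurd hc (by omega))
    rw [Pr_false] at this
    simpa using this
  | succ n ih =>
    refine le_trans (Pr_bind_le hM (wins f n) _ (fun F => ∀ c < n, G c (F c)) _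
      (ih fun c hc => h c (by omega)) hδ (fun F hF => ?_)) (le_of_eq (by push_cast; ring))
    rw [Pr_map]
    refine le_trans (Pr_mono fun T hT => ?_) (h n (by omega))
    intro hG
    apply hT
    intro c hc
    by_cases hcn : c = n
    · subst hcn; simpa using hG
    · simpa [hcn] using hF c (by omega)

namespace Par

variable (P : Par)

/-- good, exact at scale `1` -/
def GoodC (ε η : ℝ) (κ : ℕ) (Ef : ℤ → ℕ) (z : ℤ) (F : ℤ → ℕ) : Prop :=
  P.Good (if κ = 0 then 0 else ε) (if κ = 0 then 0 else η) κ Ef z F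

/-- one sampled child -/
def smp (C : ℕ → ℕ → ℤ → RT (ℤ → ℕ)) (r κ l : ℕ) (z : ℤ) : RT (ℤ → ℕ) :=
  rnd fun v => (wins (fun c => C (κ - l) (v % 2 ^ r) (2 ^ l * z - 1 + c)) (2 ^ l + 2)).map
    fun F u => P.phi (κ - l) (P.icg (κ - l) (big (κ - l) (2 ^ l * z - 1) F) u)

/-- the layers -/
def lays (C : ℕ → ℕ → ℤ → RT (ℤ → ℕ)) (r κ : ℕ) (z : ℤ) : ℕ → RT (ℤ → ℕ)
  | 0 => ret fun _ => 0
  | l + 1 => (lays C r κ z l).bind fun A => (reps (2 ^ (P.c + r - l)) (P.smp C r κ l z)).map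
      fun L u => A u + 2 ^ l * (L.map fun T => T u).sum / 2 ^ P.c

/-- the estimator of `Σ_{i < 2 ^ r} ic (Ef i)` from the estimators `C κ i z` of `Ef i` -/
def step (C : ℕ → ℕ → ℤ → RT (ℤ → ℕ)) (r κ : ℕ) (z : ℤ) : RT (ℤ → ℕ) :=
  (P.lays C r κ z (min κ P.J + 1)).map fun A u => min (P.cap κ) (A u + A u / 2 ^ P.t)

/-! ### one sample -/

section one

variable {C : ℕ → ℕ → ℤ → RT (ℤ → ℕ)} {r κ l : ℕ} {z : ℤ} {Ef : ℕ → ℤ → ℕ} {M : ℕ}
  {ε η β δ : ℝ}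

/-- the sandwich for one child with good tables -/
theorem layer_bounds (hε : 0 ≤ ε) (hη : 0 ≤ η) (hβ0 : 0 ≤ β)
    (hεη : (1 + ε) / 4 + (η + 2 * β) ≤ 1 / 2) (hl : l ≤ κ)
    {Ei : ℤ → ℕ} (hL : ∀ w w' : ℤ, Ei w ≤ Ei w' + 2 ^ P.g * (w - w').natAbs)
    (hβ : ((2 ^ P.g : ℕ) : ℝ) ≤ β * 2 ^ P.σ)
    {F : ℕ → ℤ → ℕ} (hF : ∀ c : ℕ, c < 2 ^ l + 2 → P.GoodC ε η (κ - l) Ei (2 ^ l * z - 1 + c) (F c))
    {u : ℤ} (hu1 : 2 ^ κ * z ≤ u) (hu2 : u < 2 ^ κ * (z + 1)) (hu3 : (P.st κ : ℤ) ∣ u) :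
    phr (κ - l) ((1 - ε - 2 * η) * ic Ei u) ≤
        P.rv (P.phi (κ - l) (P.icg (κ - l) (big (κ - l) (2 ^ l * z - 1) F) u)) ∧
      P.rv (P.phi (κ - l) (P.icg (κ - l) (big (κ - l) (2 ^ l * z - 1) F) u)) ≤
        phr (κ - l) ((1 + ε + 4 * (η + 2 * β)) * ic Ei u) := by
  have hε1 : ε ≤ 1 := by linarith
  set κ' := κ - l with hκ'
  have hkk : (2 : ℤ) ^ κ = 2 ^ κ' * 2 ^ l := by rw [← pow_add]; congr 1; omega
  have hp' : (0 : ℤ) < 2 ^ κ' := by positivity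
  -- the tables around `u`
  have hB : ∀ (ε' η' : ℝ), (∀ c : ℕ, c < 2 ^ l + 2 → P.Good ε' η' κ' Ei (2 ^ l * z - 1 + c) (F c)) →
      ∀ w : ℤ, |w - u| ≤ 2 ^ κ' → (P.st κ' : ℤ) ∣ w - u →
      min (2 ^ κ') ((1 - ε') * Ei w - η' * 2 ^ κ') ≤ P.rv (big κ' (2 ^ l * z - 1) F w) ∧
        P.rv (big κ' (2 ^ l * z - 1) F w) ≤ (1 + ε') * Ei w + η' * 2 ^ κ' := by
    intro ε' η' hG w hw1 hw2
    rw [abs_le] at hw1
    apply P.good_big hG
    · have : (2 : ℤ) ^ κ' * (2 ^ l * z - 1) = 2 ^ κ * z - 2 ^ κ' := by rw [hkk]; ring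
      rw [this]
      linarith [hw1.1]
    · have : (2 : ℤ) ^ κ' * (2 ^ l * z - 1 + ((2 ^ l + 2 : ℕ) : ℤ)) = 2 ^ κ * (z + 1) + 2 ^ κ' := by
        rw [hkk]; push_cast; ring
      rw [this]
      linarith [hw1.2]
    · have h1 : (P.st κ' : ℤ) ∣ u :=
        (Int.natCast_dvd_natCast.2 (P.st_dvd (by omega))).trans hu3
      have h2 : w = (w - u) + u := by ring
      rw [h2]
      exact dvd_add hw2 h1
  have hf0 : (0 : ℝ) ≤ ic Ei u := Nat.cast_nonneg _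
  rw [P.rv_phi]
  set gg := P.rv (P.icg κ' (big κ' (2 ^ l * z - 1) F) u) with hgg
  have hg0 : 0 ≤ gg := P.rv_nonneg _
  have hcap : gg ≤ 2 ^ κ' := P.icg_le_cap
  -- the grid error
  have hst : ∀ κ', ((2 ^ P.g : ℕ) : ℝ) * ((P.st κ' - 1 : ℕ) : ℝ) ≤ β * 2 ^ κ' := by
    intro κ'
    rcases le_or_gt κ' P.σ with h | h
    · have : P.st κ' = 1 := by unfold st; rw [Nat.sub_eq_zero_of_le h, pow_zero]
      rw [this]
      simp only [Nat.sub_self, Nat.cast_zero, mul_zero]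
      positivity
    · have h1 : ((P.st κ' - 1 : ℕ) : ℝ) ≤ 2 ^ (κ' - P.σ) := by
        have : P.st κ' - 1 ≤ 2 ^ (κ' - P.σ) := Nat.sub_le _ _
        exact_mod_cast this
      have h2 : (2 : ℝ) ^ κ' = 2 ^ P.σ * 2 ^ (κ' - P.σ) := by rw [← pow_add]; congr 1; omega
      calc ((2 ^ P.g : ℕ) : ℝ) * ((P.st κ' - 1 : ℕ) : ℝ) ≤ (β * 2 ^ P.σ) * 2 ^ (κ' - P.σ) :=
            mul_le_mul hβ h1 (Nat.cast_nonneg _) (by positivity)
        _ = β * 2 ^ κ' := by rw [h2]; ring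
  by_cases h0 : κ' = 0
  · have hG : ∀ c : ℕ, c < 2 ^ l + 2 → P.Good 0 0 κ' Ei (2 ^ l * z - 1 + c) (F c) := by
      intro c hc
      have := hF c hc
      unfold GoodC at this
      rwa [if_pos h0, if_pos h0] at this
    have hB' := hB 0 0 hG
    have hlow := P.icg_lower (κ := κ') (B := big κ' (2 ^ l * z - 1) F) (u := u) (Ef := Ei)
      (ε := 0) (η := 0) le_rfl zero_le_one (fun w h1 h2 => (hB' w h1 h2).1)
    have hup := P.icg_upper (κ := κ') (B := big κ' (2 ^ l * z - 1) F) (u := u) (Ef := Ei)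
      (b := 2 ^ P.g) (ε := 0) (η := 0) (β := 0) le_rfl zero_le_one le_rfl le_rfl hL
      (by rw [h0]; unfold st; simp) (fun w h1 h2 => (hB' w h1 h2).2)
    rw [← hgg] at hlow hup
    simp only [sub_zero, one_mul, zero_mul, add_zero, mul_zero] at hlow hup
    rw [h0] at hlow hcap ⊢
    rw [pow_zero] at hlow hcap
    have hgeq : gg = min 1 (ic Ei u : ℝ) := le_antisymm (le_min hcap hup) hlow
    rw [hgeq]
    have e1 : phr 0 (min 1 (ic Ei u : ℝ)) = phr 0 (ic Ei u : ℝ) := by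
      have := phr_cap 0 (ic Ei u : ℝ)
      rwa [pow_zero] at this
    rw [e1]
    constructor
    · apply phr_mono
      nlinarith [mul_nonneg hε hf0, mul_nonneg hη hf0]
    · apply phr_mono
      nlinarith [mul_nonneg hε hf0, mul_nonneg hη hf0, mul_nonneg hβ0 hf0]
  · have hG : ∀ c : ℕ, c < 2 ^ l + 2 → P.Good ε η κ' Ei (2 ^ l * z - 1 + c) (F c) := by
      intro c hc
      have := hF c hc
      unfold GoodC at this
      rwa [if_neg h0, if_neg h0] at this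
    have hB' := hB ε η hG
    have hlow := P.icg_lower (κ := κ') (B := big κ' (2 ^ l * z - 1) F) (u := u) (Ef := Ei)
      hε hε1 (fun w h1 h2 => (hB' w h1 h2).1)
    have hup := P.icg_upper (κ := κ') (B := big κ' (2 ^ l * z - 1) F) (u := u) (Ef := Ei)
      (b := 2 ^ P.g) hε hε1 hη hβ0 hL (hst κ') (fun w h1 h2 => (hB' w h1 h2).2)
    rw [← hgg] at hlow hup
    exact ⟨phr_lower h0 hf0 hε hη hlow hg0,
      phr_upper h0 hf0 (by positivity) hεη hε hup⟩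

/-- a sample is between `0` and the cap -/
theorem smp_All (u : ℤ) : (P.smp C r κ l z).All M fun T =>
    0 ≤ P.rv (T u) / 2 ^ (κ - l) ∧ P.rv (T u) / 2 ^ (κ - l) ≤ 1 := by
  intro v _
  refine (All_bind M _ _ _).2 (All.of_forall fun F => ?_)
  show 0 ≤ P.rv (P.phi (κ - l) _) / 2 ^ (κ - l) ∧ P.rv (P.phi (κ - l) _) / 2 ^ (κ - l) ≤ 1
  constructor
  · exact div_nonneg (P.rv_nonneg _) (by positivity)
  · rw [div_le_one (by positivity), P.rv_phi]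
    exact phr_le _ (P.rv_nonneg _)

/-- the mean of a sample -/
theorem smp_mean (hM : 0 < M) (hr : 2 ^ r ∣ M) (hε : 0 ≤ ε) (hη : 0 ≤ η) (hβ0 : 0 ≤ β)
    (hδ : 0 ≤ δ) (hεη : (1 + ε) / 4 + (η + 2 * β) ≤ 1 / 2) (hl : l ≤ κ)
    (hL : ∀ i (w w' : ℤ), Ef i w ≤ Ef i w' + 2 ^ P.g * (w - w').natAbs)
    (hβ : ((2 ^ P.g : ℕ) : ℝ) ≤ β * 2 ^ P.σ)
    (hC : ∀ κ i z, (C κ i z).Pr M (fun F => ¬ P.GoodC ε η κ (Ef i) z F) ≤ δ)
    {u : ℤ} (hu1 : 2 ^ κ * z ≤ u) (hu2 : u < 2 ^ κ * (z + 1)) (hu3 : (P.st κ : ℤ) ∣ u) :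
    ∑ i ∈ range (2 ^ r), phr (κ - l) ((1 - ε - 2 * η) * ic (Ef i) u) - 3 * 2 ^ r * 2 ^ κ * δ ≤
        2 ^ r * (P.smp C r κ l z).Ev M (fun T => P.rv (T u)) ∧
      2 ^ r * (P.smp C r κ l z).Ev M (fun T => P.rv (T u)) ≤
        ∑ i ∈ range (2 ^ r), phr (κ - l) ((1 + ε + 4 * (η + 2 * β)) * ic (Ef i) u) +
          3 * 2 ^ r * 2 ^ κ * δ := by
  classical
  set X : ℕ → ℝ := fun i => (wins (fun c => C (κ - l) i (2 ^ l * z - 1 + c)) (2 ^ l + 2)).Ev M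
    (fun F => P.rv (P.phi (κ - l) (P.icg (κ - l) (big (κ - l) (2 ^ l * z - 1) F) u))) with hX
  have h1 : (P.smp C r κ l z).Ev M (fun T => P.rv (T u)) = (∑ i ∈ range (2 ^ r), X i) / (2 ^ r : ℕ) := by
    rw [← Ev_mod_eq hM hr X, Ev_draw]
    unfold smp
    rw [Ev_rnd]
    congr 1
    apply sum_congr rfl
    intro v _
    rw [Ev_map]
  have hp : (0 : ℝ) < 2 ^ r := by positivity
  have h2 : 2 ^ r * (P.smp C r κ l z).Ev M (fun T => P.rv (T u)) = ∑ i ∈ range (2 ^ r), X i := by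
    rw [h1]
    push_cast
    field_simp
  rw [h2]
  have hw : ∀ i, (wins (fun c => C (κ - l) i (2 ^ l * z - 1 + c)) (2 ^ l + 2)).Pr M
      (fun F => ¬ ∀ c : ℕ, c < 2 ^ l + 2 → P.GoodC ε η (κ - l) (Ef i) (2 ^ l * z - 1 + c) (F c)) ≤
      (2 ^ l + 2 : ℕ) * δ := fun i =>
    Pr_wins hM _ (fun c T => P.GoodC ε η (κ - l) (Ef i) (2 ^ l * z - 1 + c) T) hδ _
      (fun c _ => hC _ _ _)
  have h3 : ((2 ^ l + 2 : ℕ) : ℝ) * δ * 2 ^ (κ - l) ≤ 3 * 2 ^ κ * δ := by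
    have h4 : (2 : ℝ) ^ κ = 2 ^ l * 2 ^ (κ - l) := by rw [← pow_add]; congr 1; omega
    have h5 : ((2 ^ l + 2 : ℕ) : ℝ) ≤ 3 * 2 ^ l := by
      have : 2 ^ l + 2 ≤ 3 * 2 ^ l := by have := Nat.one_le_two_pow (n := l); omega
      exact_mod_cast this
    rw [h4]
    have h6 : (0 : ℝ) ≤ δ * 2 ^ (κ - l) := by positivity
    nlinarith
  have h4 : ∀ i, phr (κ - l) ((1 - ε - 2 * η) * ic (Ef i) u) - 3 * 2 ^ κ * δ ≤ X i := by
    intro i
    have h5 : ∀ F : ℕ → ℤ → ℕ, phr (κ - l) ((1 - ε - 2 * η) * ic (Ef i) u) -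
        2 ^ (κ - l) * (if ¬ ∀ c : ℕ, c < 2 ^ l + 2 →
          P.GoodC ε η (κ - l) (Ef i) (2 ^ l * z - 1 + c) (F c) then 1 else 0) ≤
        P.rv (P.phi (κ - l) (P.icg (κ - l) (big (κ - l) (2 ^ l * z - 1) F) u)) := by
      intro F
      by_cases hF : ∀ c : ℕ, c < 2 ^ l + 2 → P.GoodC ε η (κ - l) (Ef i) (2 ^ l * z - 1 + c) (F c)
      · rw [if_neg (by simpa using hF), mul_zero, sub_zero]
        exact (P.layer_bounds hε hη hβ0 hεη hl (hL i) hβ hF hu1 hu2 hu3).1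
      · rw [if_pos hF, mul_one]
        have h6 := P.rv_nonneg (P.phi (κ - l) (P.icg (κ - l) (big (κ - l) (2 ^ l * z - 1) F) u))
        have hf0 : (0 : ℝ) ≤ ic (Ef i) u := Nat.cast_nonneg _
        have h7 := phr_mono (κ - l) (show (1 - ε - 2 * η) * ic (Ef i) u ≤ ic (Ef i) u by
          nlinarith [mul_nonneg hε hf0, mul_nonneg hη hf0])
        have h8 := phr_le (κ - l) hf0
        linarith
    have h6 := Ev_mono (M := M)
      (t := wins (fun c => C (κ - l) i (2 ^ l * z - 1 + c)) (2 ^ l + 2)) h5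
    rw [Ev_sub, Ev_const hM, Ev_mul_left, ← Pr_def] at h6
    have h7 := mul_le_mul_of_nonneg_left (hw i) (show (0 : ℝ) ≤ 2 ^ (κ - l) by positivity)
    rw [hX]
    show _ ≤ (wins (fun c => C (κ - l) i (2 ^ l * z - 1 + c)) (2 ^ l + 2)).Ev M
      (fun F => P.rv (P.phi (κ - l) (P.icg (κ - l) (big (κ - l) (2 ^ l * z - 1) F) u)))
    nlinarith
  have h5 : ∀ i, X i ≤ phr (κ - l) ((1 + ε + 4 * (η + 2 * β)) * ic (Ef i) u) +
      3 * 2 ^ κ * δ := by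
    intro i
    have h5 : ∀ F : ℕ → ℤ → ℕ,
        P.rv (P.phi (κ - l) (P.icg (κ - l) (big (κ - l) (2 ^ l * z - 1) F) u)) ≤
        phr (κ - l) ((1 + ε + 4 * (η + 2 * β)) * ic (Ef i) u) +
        2 ^ (κ - l) * (if ¬ ∀ c : ℕ, c < 2 ^ l + 2 →
          P.GoodC ε η (κ - l) (Ef i) (2 ^ l * z - 1 + c) (F c) then 1 else 0) := by
      intro F
      by_cases hF : ∀ c : ℕ, c < 2 ^ l + 2 → P.GoodC ε η (κ - l) (Ef i) (2 ^ l * z - 1 + c) (F c)
      · rw [if_neg (by simpa using hF), mul_zero, add_zero]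
        exact (P.layer_bounds hε hη hβ0 hεη hl (hL i) hβ hF hu1 hu2 hu3).2
      · rw [if_pos hF, mul_one, P.rv_phi]
        have h6 := phr_le (κ - l)
          (P.rv_nonneg (P.icg (κ - l) (big (κ - l) (2 ^ l * z - 1) F) u))
        have h7 : 0 ≤ phr (κ - l) ((1 + ε + 4 * (η + 2 * β)) * ic (Ef i) u) :=
          phr_nonneg (by positivity)
        linarith
    have h6 := Ev_mono (M := M)
      (t := wins (fun c => C (κ - l) i (2 ^ l * z - 1 + c)) (2 ^ l + 2)) h5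
    rw [Ev_add, Ev_const hM, Ev_mul_left, ← Pr_def] at h6
    have h7 := mul_le_mul_of_nonneg_left (hw i) (show (0 : ℝ) ≤ 2 ^ (κ - l) by positivity)
    rw [hX]
    show (wins (fun c => C (κ - l) i (2 ^ l * z - 1 + c)) (2 ^ l + 2)).Ev M
      (fun F => P.rv (P.phi (κ - l) (P.icg (κ - l) (big (κ - l) (2 ^ l * z - 1) F) u))) ≤ _
    nlinarith
  constructor
  · have h6 := sum_le_sum fun i (_ : i ∈ range (2 ^ r)) => h4 i
    rw [sum_sub_distrib, sum_const, card_range, nsmul_eq_mul] at h6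
    push_cast at h6
    linarith
  · have h6 := sum_le_sum fun i (_ : i ∈ range (2 ^ r)) => h5 i
    rw [sum_add_distrib, sum_const, card_range, nsmul_eq_mul] at h6
    push_cast at h6
    linarith

end one

end Par

end Crest.Agent.R288.Init772
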