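import Mathlib
import Crest.Agent.R288.InitC_772

/-!
# R288 (S0433), leaf [Init], part 4: the estimator of the E-distance (main theorem)

* `Ok`: conditions on the parameters; `step_good`: one macro step;
* `est`: the recursive estimator of the E-distance; `est_good`: with probability `≥ 1 - δ` the
  table is good with relative error `q ρ` and additive error `η 2 ^ κ`.
-/

set_option autoImplicit false

namespace Crest.Agent.R288.Init772

open Finset Crest.Agent.R295.Rnd627 Crest.Agent.R295.Rnd627.RT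

universe u

theorem list_sum_cast (L : List (ℤ → ℕ)) (u : ℤ) :
    (((L.map fun T => T u).sum : ℕ) : ℝ) = (L.map fun T => ((T u : ℕ) : ℝ)).sum := by
  induction L with
  | nil => simp
  | cons a L ih => simp only [List.map_cons, List.sum_cons, Nat.cast_add, ih]

theorem list_sum_div (L : List (ℤ → ℕ)) (f : (ℤ → ℕ) → ℝ) (c : ℝ) :
    (L.map fun T => f T / c).sum = (L.map f).sum / c := by
  induction L with
  | nil => simp
  | cons a L ih => simp only [List.map_cons, List.sum_cons, ih, add_div]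

/-- `min (Σ x) k ≤ Σ min x k` -/
theorem min_sum_le {ι : Type*} (s : Finset ι) (x : ι → ℝ) {k : ℝ} (hk : 0 ≤ k)
    (hx : ∀ i ∈ s, 0 ≤ x i) : min (∑ i ∈ s, x i) k ≤ ∑ i ∈ s, min (x i) k := by
  classical
  induction s using Finset.induction_on with
  | empty => simp
  | insert a s ha ih =>
    rw [sum_insert ha, sum_insert ha]
    have h1 := ih fun i hi => hx i (mem_insert_of_mem hi)
    have h2 := hx a (mem_insert_self a s)
    have h3 : 0 ≤ ∑ i ∈ s, x i := sum_nonneg fun i hi => hx i (mem_insert_of_mem hi)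
    have h4 : min (x a + ∑ i ∈ s, x i) k ≤ min (x a) k + min (∑ i ∈ s, x i) k := by
      rcases le_total (x a) k with h5 | h5
      · rw [min_eq_left h5]
        rcases le_total (∑ i ∈ s, x i) k with h6 | h6
        · rw [min_eq_left h6]; exact min_le_left _ _
        · rw [min_eq_right h6]; exact (min_le_right _ _).trans (by linarith)
      · rw [min_eq_right h5]
        exact (min_le_right _ _).trans (by have := le_min h3 hk; linarith)
    linarith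

namespace Par

variable (P : Par)

/-- conditions on the parameters: `a` deviation, `β` grid error, `δ` failure probability, `η`
additive error (relative to the scale) -/
structure Ok (M : ℕ) (a β δ η : ℝ) : Prop where
  hM : 0 < M
  hg : 2 ^ P.g ∣ M
  ha : 0 ≤ a
  ha1 : a ≤ 1
  hβ0 : 0 ≤ β
  hβ : ((2 ^ P.g : ℕ) : ℝ) ≤ β * 2 ^ P.σ
  hδ : 0 ≤ δ
  hJ : P.J ≤ P.c + P.g
  hη : 4 * (2 ^ P.g / 2 ^ (P.J + 1) + 3 * (P.J + 1) * 2 ^ P.g * δ + a + (P.J + 1) / 2 ^ P.s) ≤ η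
  ht : 5 * (2 ^ P.g / 2 ^ (P.J + 1) + 3 * (P.J + 1) * 2 ^ P.g * δ + a + (P.J + 1) / 2 ^ P.s) ≤
    1 / 2 ^ P.t
  hp : (P.J + 1) * (2 ^ P.σ * (2 * Real.exp (-(a ^ 2 * (2 ^ P.c / (P.J + 1)))))) ≤ δ

/-- the growth of the relative error in one macro step -/
noncomputable def rho (β η : ℝ) : ℝ := 4 * η + 8 * β + 4 * (1 / 2 ^ P.t)

section lay

variable {C : ℕ → ℕ → ℤ → RT (ℤ → ℕ)} {r κ l : ℕ} {z : ℤ} {Ef : ℕ → ℤ → ℕ} {M : ℕ}
  {ε η β δ a : ℝ}

/-- lower bound of the contribution of a layer -/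
noncomputable def loL (Ef : ℕ → ℤ → ℕ) (r κ : ℕ) (lo a δ : ℝ) (u : ℤ) (l : ℕ) : ℝ :=
  (1 - a) * (∑ i ∈ range (2 ^ r), phr (κ - l) (lo * ic (Ef i) u) - 3 * 2 ^ r * 2 ^ κ * δ) -
    a * (2 ^ κ / (P.J + 1)) - 1 / 2 ^ P.s

/-- upper bound of the contribution of a layer -/
noncomputable def upL (Ef : ℕ → ℤ → ℕ) (r κ : ℕ) (up a δ : ℝ) (u : ℤ) (l : ℕ) : ℝ :=
  (1 + a) * (∑ i ∈ range (2 ^ r), phr (κ - l) (up * ic (Ef i) u) + 3 * 2 ^ r * 2 ^ κ * δ) +
    a * (2 ^ κ / (P.J + 1))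

/-- one layer at one diagonal -/
theorem lay_one (hO : P.Ok M a β δ η) (hr : r ≤ P.g) (hJr : P.J ≤ P.c + r) (hε : 0 ≤ ε) (hη : 0 ≤ η)
    (hεη : (1 + ε) / 4 + (η + 2 * β) ≤ 1 / 2) (hl : l ≤ κ) (hlJ : l ≤ P.J)
    (hL : ∀ i (w w' : ℤ), Ef i w ≤ Ef i w' + 2 ^ P.g * (w - w').natAbs)
    (hC : ∀ κ i z, (C κ i z).Pr M (fun F => ¬ P.GoodC ε η κ (Ef i) z F) ≤ δ)
    {u : ℤ} (hu1 : 2 ^ κ * z ≤ u) (hu2 : u < 2 ^ κ * (z + 1)) (hu3 : (P.st κ : ℤ) ∣ u) :
    (reps (2 ^ (P.c + r - l)) (P.smp C r κ l z)).Pr M (fun L => ¬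
      (P.loL Ef r κ (1 - ε - 2 * η) a δ u l ≤ P.rv (2 ^ l * (L.map fun T => T u).sum / 2 ^ P.c) ∧
        P.rv (2 ^ l * (L.map fun T => T u).sum / 2 ^ P.c) ≤
          P.upL Ef r κ (1 + ε + 4 * (η + 2 * β)) a δ u l)) ≤
      2 * Real.exp (-(a ^ 2 * (2 ^ P.c / (P.J + 1)))) := by
  have hm := P.smp_mean (C := C) (r := r) (κ := κ) (l := l) (z := z) (Ef := Ef) hO.hM
    ((pow_dvd_pow 2 hr).trans hO.hg) hε hη hO.hβ0 hO.hδ hεη hl hL hO.hβ hC hu1 hu2 hu3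
  have hd := dev hO.hM (P.smp_All (C := C) (r := r) (κ := κ) (l := l) (z := z) (M := M) u)
    (2 ^ (P.c + r - l)) (Λ := 2 ^ P.c / (P.J + 1)) hO.ha hO.ha1
  refine le_trans (Pr_mono fun L hL' => ?_) hd
  intro hgood
  apply hL'
  clear hL' hd
  obtain ⟨h1, h2⟩ := hgood
  -- the mean
  set Y : ℝ := (P.smp C r κ l z).Ev M (fun T => P.rv (T u)) with hY
  have hk' : (0 : ℝ) < 2 ^ (κ - l) := by positivity
  have hEv : (P.smp C r κ l z).Ev M (fun T => P.rv (T u) / 2 ^ (κ - l)) = Y / 2 ^ (κ - l) := by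
    rw [hY, Ev_div]
  rw [hEv, list_sum_div L (fun T => P.rv (T u))] at h1 h2
  set S : ℝ := (L.map fun T => P.rv (T u)).sum with hS
  -- the powers
  have hk : (2 : ℝ) ^ κ = 2 ^ l * 2 ^ (κ - l) := by rw [← pow_add]; congr 1; omega
  have hc : (2 : ℝ) ^ P.c * 2 ^ r = 2 ^ l * 2 ^ (P.c + r - l) := by
    rw [← pow_add, ← pow_add]; congr 1; omega
  have hcast : ((2 ^ (P.c + r - l) : ℕ) : ℝ) = 2 ^ (P.c + r - l) := by push_cast; rfl
  rw [hcast] at h1 h2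
  have hcp : (0 : ℝ) < 2 ^ P.c := by positivity
  have hlp : (0 : ℝ) < 2 ^ l := by positivity
  have hJp : (0 : ℝ) < P.J + 1 := by positivity
  -- the sum in real form
  have hsum : P.rv (L.map fun T => T u).sum = S := by
    rw [hS]
    unfold rv
    rw [list_sum_cast, ← list_sum_div]
  have hfl1 : P.rv (2 ^ l * (L.map fun T => T u).sum / 2 ^ P.c) ≤ 2 ^ l * S / 2 ^ P.c := by
    rw [← hsum]
    unfold rv
    have h3 : (((2 ^ l * (L.map fun T => T u).sum / 2 ^ P.c : ℕ) : ℝ)) ≤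
        ((2 ^ l * (L.map fun T => T u).sum : ℕ) : ℝ) / ((2 ^ P.c : ℕ) : ℝ) := Nat.cast_div_le
    refine (div_le_div_of_nonneg_right h3 (by positivity)).trans (le_of_eq ?_)
    push_cast
    ring
  have hfl2 : 2 ^ l * S / 2 ^ P.c - 1 / 2 ^ P.s ≤
      P.rv (2 ^ l * (L.map fun T => T u).sum / 2 ^ P.c) := by
    rw [← hsum]
    unfold rv
    have h3 : ((2 ^ l * (L.map fun T => T u).sum : ℕ) : ℝ) / ((2 ^ P.c : ℕ) : ℝ) - 1 ≤
        ((2 ^ l * (L.map fun T => T u).sum / 2 ^ P.c : ℕ) : ℝ) := by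
      have h4 : (2 ^ l * (L.map fun T => T u).sum) <
          (2 ^ l * (L.map fun T => T u).sum / 2 ^ P.c) * 2 ^ P.c + 2 ^ P.c := by
        have := Nat.lt_div_mul_add (a := 2 ^ l * (L.map fun T => T u).sum)
          (Nat.two_pow_pos P.c)
        exact this
      have h5 : ((2 ^ l * (L.map fun T => T u).sum : ℕ) : ℝ) <
          ((2 ^ l * (L.map fun T => T u).sum / 2 ^ P.c : ℕ) : ℝ) * ((2 ^ P.c : ℕ) : ℝ) +
            ((2 ^ P.c : ℕ) : ℝ) := by exact_mod_cast h4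
      have h6 : (0 : ℝ) < ((2 ^ P.c : ℕ) : ℝ) := by positivity
      rw [sub_le_iff_le_add, div_le_iff₀ h6]
      linarith
    have h4 := div_le_div_of_nonneg_right h3 (show (0 : ℝ) ≤ 2 ^ P.s by positivity)
    refine le_trans (le_of_eq ?_) h4
    push_cast
    ring
  -- scale the deviation inequalities by `2 ^ κ / 2 ^ c`
  have hw : (0 : ℝ) < 2 ^ κ / 2 ^ P.c := by positivity
  have e1 : (2 : ℝ) ^ κ / 2 ^ P.c * (S / 2 ^ (κ - l)) = 2 ^ l * S / 2 ^ P.c := by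
    rw [hk]; field_simp
  have e2 : (2 : ℝ) ^ κ / 2 ^ P.c * (2 ^ (P.c + r - l) * (Y / 2 ^ (κ - l))) = 2 ^ r * Y := by
    have : (2 : ℝ) ^ κ / 2 ^ P.c * (2 ^ (P.c + r - l) * (Y / 2 ^ (κ - l))) =
        (2 ^ l * 2 ^ (P.c + r - l)) * Y / 2 ^ P.c := by
      rw [hk]; field_simp
    rw [this, ← hc]
    field_simp
  have e3 : (2 : ℝ) ^ κ / 2 ^ P.c * (a * (2 ^ P.c / (P.J + 1))) = a * (2 ^ κ / (P.J + 1)) := by
    field_simp
  have h1' := mul_le_mul_of_nonneg_left h1 hw.le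
  have h2' := mul_le_mul_of_nonneg_left h2 hw.le
  have f1 : (2 : ℝ) ^ κ / 2 ^ P.c * ((1 - a) * (2 ^ (P.c + r - l) * (Y / 2 ^ (κ - l))) -
      a * (2 ^ P.c / (P.J + 1))) = (1 - a) * (2 ^ r * Y) - a * (2 ^ κ / (P.J + 1)) := by
    rw [← e2, ← e3]; ring
  have f2 : (2 : ℝ) ^ κ / 2 ^ P.c * ((1 + a) * (2 ^ (P.c + r - l) * (Y / 2 ^ (κ - l))) +
      a * (2 ^ P.c / (P.J + 1))) = (1 + a) * (2 ^ r * Y) + a * (2 ^ κ / (P.J + 1)) := by
    rw [← e2, ← e3]; ring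
  rw [f1, e1] at h1'
  rw [f2, e1] at h2'
  have ha := hO.ha
  have ha1 := hO.ha1
  constructor
  · refine le_trans ?_ hfl2
    unfold loL
    have := mul_le_mul_of_nonneg_left hm.1 (show 0 ≤ 1 - a by linarith)
    linarith
  · refine hfl1.trans ?_
    unfold upL
    have := mul_le_mul_of_nonneg_left hm.2 (show 0 ≤ 1 + a by linarith)
    linarith

/-- one layer at all diagonals of the window -/
theorem lay_all (hO : P.Ok M a β δ η) (hr : r ≤ P.g) (hJr : P.J ≤ P.c + r) (hε : 0 ≤ ε) (hη : 0 ≤ η)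
    (hεη : (1 + ε) / 4 + (η + 2 * β) ≤ 1 / 2) (hl : l ≤ κ) (hlJ : l ≤ P.J)
    (hL : ∀ i (w w' : ℤ), Ef i w ≤ Ef i w' + 2 ^ P.g * (w - w').natAbs)
    (hC : ∀ κ i z, (C κ i z).Pr M (fun F => ¬ P.GoodC ε η κ (Ef i) z F) ≤ δ) :
    (reps (2 ^ (P.c + r - l)) (P.smp C r κ l z)).Pr M (fun L => ¬
      ∀ u : ℤ, 2 ^ κ * z ≤ u → u < 2 ^ κ * (z + 1) → (P.st κ : ℤ) ∣ u →
      (P.loL Ef r κ (1 - ε - 2 * η) a δ u l ≤ P.rv (2 ^ l * (L.map fun T => T u).sum / 2 ^ P.c) ∧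
        P.rv (2 ^ l * (L.map fun T => T u).sum / 2 ^ P.c) ≤
          P.upL Ef r κ (1 + ε + 4 * (η + 2 * β)) a δ u l)) ≤
      2 ^ P.σ * (2 * Real.exp (-(a ^ 2 * (2 ^ P.c / (P.J + 1))))) := by
  set e : ℝ := 2 * Real.exp (-(a ^ 2 * (2 ^ P.c / (P.J + 1)))) with he
  have he0 : 0 ≤ e := by positivity
  -- the diagonals are indexed by `t < 2 ^ mu κ`
  set uu : ℕ → ℤ := fun t => 2 ^ κ * z + P.st κ * t with huu
  have hst : ((P.st κ : ℕ) : ℤ) * 2 ^ P.mu κ = 2 ^ κ := by exact_mod_cast P.st_mul κ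
  have hu1 : ∀ t, 2 ^ κ * z ≤ uu t := fun t => by
    rw [huu]
    have : (0 : ℤ) ≤ P.st κ * (t : ℤ) := by positivity
    show 2 ^ κ * z ≤ 2 ^ κ * z + P.st κ * (t : ℤ)
    linarith
  have hst0 : (0 : ℤ) < P.st κ := by exact_mod_cast P.st_pos κ
  have hu2 : ∀ t ∈ range (2 ^ P.mu κ), uu t < 2 ^ κ * (z + 1) := by
    intro t ht
    rw [mem_range] at ht
    have h1 : (t : ℤ) < 2 ^ P.mu κ := by exact_mod_cast ht
    have h2 := mul_lt_mul_of_pos_left h1 hst0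
    rw [hst] at h2
    show 2 ^ κ * z + P.st κ * (t : ℤ) < 2 ^ κ * (z + 1)
    linarith
  have hdv : (P.st κ : ℤ) ∣ 2 ^ κ * z := by
    rw [← hst, mul_assoc]
    exact dvd_mul_right _ _
  have hu3 : ∀ t, (P.st κ : ℤ) ∣ uu t := fun t => dvd_add hdv (dvd_mul_right _ _)
  refine le_trans (Pr_mono (Q := fun L => ∃ t ∈ range (2 ^ P.mu κ), ¬
    (P.loL Ef r κ (1 - ε - 2 * η) a δ (uu t) l ≤
        P.rv (2 ^ l * (L.map fun T => T (uu t)).sum / 2 ^ P.c) ∧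
        P.rv (2 ^ l * (L.map fun T => T (uu t)).sum / 2 ^ P.c) ≤
          P.upL Ef r κ (1 + ε + 4 * (η + 2 * β)) a δ (uu t) l)) fun L hL' => ?_) ?_
  · by_contra hcon
    push Not at hcon
    apply hL'
    intro u h1 h2 h3
    obtain ⟨p, hp⟩ := dvd_sub h3 hdv
    have hp0 : 0 ≤ p := by
      by_contra h4
      have h5 : p ≤ -1 := by omega
      have h6 := mul_le_mul_of_nonneg_left h5 hst0.le
      linarith
    have hp1 : p < 2 ^ P.mu κ := by
      by_contra h4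
      have h5 : 2 ^ P.mu κ ≤ p := not_lt.1 h4
      have h6 := mul_le_mul_of_nonneg_left h5 hst0.le
      rw [hst] at h6
      linarith
    have hp2 : uu p.toNat = u := by
      show 2 ^ κ * z + P.st κ * (p.toNat : ℤ) = u
      rw [Int.toNat_of_nonneg hp0]
      linarith
    have hp3 : p.toNat ∈ range (2 ^ P.mu κ) := by
      rw [mem_range]
      have : (p.toNat : ℤ) < 2 ^ P.mu κ := by rw [Int.toNat_of_nonneg hp0]; exact hp1
      exact_mod_cast this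
    have := hcon p.toNat hp3
    rw [hp2] at this
    exact this
  · refine (Pr_exists_le M _ _ _).trans ?_
    refine (sum_le_sum fun t ht => P.lay_one hO hr hJr hε hη hεη hl hlJ hL hC (hu1 t) (hu2 t ht)
      (hu3 t)).trans ?_
    rw [sum_const, card_range, nsmul_eq_mul]
    apply mul_le_mul_of_nonneg_right _ he0
    have : 2 ^ P.mu κ ≤ 2 ^ P.σ := Nat.pow_le_pow_right (by norm_num) (min_le_right _ _)
    exact_mod_cast this

/-- the accumulated layers are within their bounds -/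
def LayOk (Ef : ℕ → ℤ → ℕ) (r κ : ℕ) (z : ℤ) (lo up a δ : ℝ) (n : ℕ) (A : ℤ → ℕ) : Prop :=
  ∀ u : ℤ, 2 ^ κ * z ≤ u → u < 2 ^ κ * (z + 1) → (P.st κ : ℤ) ∣ u →
    (∑ l ∈ range n, P.loL Ef r κ lo a δ u l ≤ P.rv (A u) ∧
      P.rv (A u) ≤ ∑ l ∈ range n, P.upL Ef r κ up a δ u l)

/-- all layers -/
theorem lays_good (hO : P.Ok M a β δ η) (hr : r ≤ P.g) (hJr : P.J ≤ P.c + r) (hε : 0 ≤ ε) (hη : 0 ≤ η)
    (hεη : (1 + ε) / 4 + (η + 2 * β) ≤ 1 / 2)
    (hL : ∀ i (w w' : ℤ), Ef i w ≤ Ef i w' + 2 ^ P.g * (w - w').natAbs)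
    (hC : ∀ κ i z, (C κ i z).Pr M (fun F => ¬ P.GoodC ε η κ (Ef i) z F) ≤ δ) (n : ℕ)
    (hn : n ≤ min κ P.J + 1) :
    (P.lays C r κ z n).Pr M (fun A => ¬
      P.LayOk Ef r κ z (1 - ε - 2 * η) (1 + ε + 4 * (η + 2 * β)) a δ n A) ≤
      n * (2 ^ P.σ * (2 * Real.exp (-(a ^ 2 * (2 ^ P.c / (P.J + 1)))))) := by
  induction n with
  | zero =>
    have h0 : (P.lays C r κ z 0).Pr M (fun A => ¬
      P.LayOk Ef r κ z (1 - ε - 2 * η) (1 + ε + 4 * (η + 2 * β)) a δ 0 A) ≤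
      (P.lays C r κ z 0).Pr M (fun _ => False) := by
      refine Pr_mono_all ?_
      intro hcon
      apply hcon
      intro u _ _ _
      simp [rv]
    rw [Pr_false] at h0
    simpa using h0
  | succ n ih =>
    have hδ' : 0 ≤ 2 ^ P.σ * (2 * Real.exp (-(a ^ 2 * (2 ^ P.c / (P.J + 1 : ℝ))))) := by
      positivity
    set X : ℝ := 2 ^ P.σ * (2 * Real.exp (-(a ^ 2 * (2 ^ P.c / (P.J + 1 : ℝ))))) with hX
    have h1 := ih (by omega)
    have h2 := P.lay_all (C := C) (r := r) (κ := κ) (l := n) (z := z) (Ef := Ef) hO hr hJr hε hη hεη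
      (by omega) (by omega) hL hC
    rw [← hX] at h2
    have h3 := Pr_bind_le hO.hM (P.lays C r κ z n)
      (fun A => (reps (2 ^ (P.c + r - n)) (P.smp C r κ n z)).map
        fun L u => A u + 2 ^ n * (L.map fun T => T u).sum / 2 ^ P.c)
      (fun A => P.LayOk Ef r κ z (1 - ε - 2 * η) (1 + ε + 4 * (η + 2 * β)) a δ n A)
      (fun A => P.LayOk Ef r κ z (1 - ε - 2 * η) (1 + ε + 4 * (η + 2 * β)) a δ (n + 1) A)
      (δ₁ := n * X) (δ₂ := X) h1 hδ' (fun A hA => by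
        rw [Pr_map]
        refine le_trans (Pr_mono fun L hL' => ?_) h2
        intro hG
        apply hL'
        intro u k1 k2 k3
        have h4 := hA u k1 k2 k3
        have h5 := hG u k1 k2 k3
        show _ ≤ P.rv (A u + 2 ^ n * (L.map fun T => T u).sum / 2 ^ P.c) ∧
          P.rv (A u + 2 ^ n * (L.map fun T => T u).sum / 2 ^ P.c) ≤ _
        rw [sum_range_succ, sum_range_succ, rv_add]
        exact ⟨add_le_add h4.1 h5.1, add_le_add h4.2 h5.2⟩)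
    refine le_trans h3 (le_of_eq ?_)
    push_cast
    ring

end lay

end Par

end Crest.Agent.R288.Init772
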