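import Mathlib
import Crest.Agent.R288.InitD_772

/-!
# R288 (S0433), leaf [Init], part 5: one macro step and the recursive estimator

* `step_good`: one macro step of the estimator;
* `est`, `est_good`: the recursive estimator of the E-distance at macro heights;
* `estH`, `estH_good`: the same at every height.
-/

set_option autoImplicit false

namespace Crest.Agent.R288.Init772

open Finset Crest.Agent.R295.Rnd627 Crest.Agent.R295.Rnd627.RT

/-- the final inequality: lower -/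
theorem final_lower {a ω θ k m x E S W lo ε' η : ℝ} (ha : 0 ≤ a) (haω : a ≤ ω)
    (hθ : 5 * ω ≤ θ) (hθ1 : θ ≤ 1) (hk : 0 ≤ k) (hm : m = min (lo * E) k) (hE : 0 ≤ E)
    (hlo : 1 - ε' ≤ lo) (hlo0 : 0 ≤ lo) (hη : 4 * ω ≤ η)
    (hS : (1 - a) * m - ω * k ≤ S) (hW : θ * S - ω * k ≤ W) (hx : x = min k (S + W)) :
    min k ((1 - ε') * E - η * k) ≤ x := by
  have hω : 0 ≤ ω := ha.trans haω
  have hm0 : 0 ≤ m := by rw [hm]; exact le_min (mul_nonneg hlo0 hE) hk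
  have hωk : 0 ≤ ω * k := mul_nonneg hω hk
  have h1 : (1 + θ) * ((1 - a) * m - ω * k) - ω * k ≤ S + W := by
    have := mul_le_mul_of_nonneg_left hS (show 0 ≤ 1 + θ by linarith)
    linarith
  have h2 : m ≤ (1 + θ) * (1 - a) * m := by
    have h3 : 1 ≤ (1 + θ) * (1 - a) := by nlinarith
    nlinarith
  rw [hx]
  refine le_min (min_le_left _ _) ?_
  rcases le_total (lo * E) k with h | h
  · rw [min_eq_left h] at hm
    refine (min_le_right _ _).trans ?_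
    have h4 : (1 - ε') * E ≤ lo * E := mul_le_mul_of_nonneg_right hlo hE
    have h5 : 4 * ω * k ≤ η * k := mul_le_mul_of_nonneg_right hη hk
    have h6 : θ * (ω * k) ≤ 1 * (ω * k) := mul_le_mul_of_nonneg_right hθ1 hωk
    nlinarith
  · rw [min_eq_right h] at hm
    refine (min_le_left _ _).trans ?_
    rw [hm] at h1
    have h3 : 1 ≤ (1 + θ) * (1 - a) - (1 + θ) * ω - ω := by nlinarith
    nlinarith

/-- the final inequality: upper -/
theorem final_upper {a ω θ k x E S W up ε ε' η y : ℝ} (ha : 0 ≤ a) (haω : a ≤ ω)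
    (hθ : 5 * ω ≤ θ) (hθ1 : θ ≤ 1 / 8) (hk : 0 ≤ k) (hE : 0 ≤ E)
    (hup : up = 1 + ε + y) (hy : 0 ≤ y) (hε : 0 ≤ ε) (hy1 : ε + y ≤ 1)
    (hε' : ε' = ε + y + 4 * θ) (hη : 4 * ω ≤ η)
    (hS : S ≤ (1 + a) * (up * E) + 2 * (ω * k)) (hW : W ≤ θ * S) (hx : x = min k (S + W)) :
    x ≤ (1 + ε') * E + η * k := by
  have hω : 0 ≤ ω := ha.trans haω
  have hωk : 0 ≤ ω * k := mul_nonneg hω hk
  rw [hx]
  refine (min_le_right _ _).trans ?_
  have h1 : S + W ≤ (1 + θ) * ((1 + a) * (up * E) + 2 * (ω * k)) := by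
    have := mul_le_mul_of_nonneg_left hS (show 0 ≤ 1 + θ by linarith)
    linarith
  have h2 : (1 + θ) * (1 + a) ≤ 1 + 2 * θ := by nlinarith
  have h3 : (1 + θ) * (1 + a) * up ≤ 1 + ε' := by
    have h4 : 0 ≤ up := by rw [hup]; linarith
    have h5 := mul_le_mul_of_nonneg_right h2 h4
    have h6 : (1 + 2 * θ) * up ≤ 1 + ε' := by
      rw [hup, hε']
      nlinarith
    linarith
  have h4 : (1 + θ) * (1 + a) * up * E ≤ (1 + ε') * E := mul_le_mul_of_nonneg_right h3 hE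
  have h5 : 4 * (ω * k) ≤ η * k := by
    have := mul_le_mul_of_nonneg_right hη hk
    linarith
  have h6 : θ * (ω * k) ≤ 1 / 8 * (ω * k) := mul_le_mul_of_nonneg_right hθ1 hωk
  nlinarith

namespace Par

variable (P : Par)

section st

variable {C : ℕ → ℕ → ℤ → RT (ℤ → ℕ)} {r κ : ℕ} {z : ℤ} {Ef : ℕ → ℤ → ℕ} {M : ℕ}
  {ε η β δ a : ℝ}

/-- the loss of one macro step -/
noncomputable def om (a δ : ℝ) : ℝ :=
  2 ^ P.g / 2 ^ (P.J + 1) + 3 * (P.J + 1) * 2 ^ P.g * δ + a + (P.J + 1) / 2 ^ P.s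

theorem le_om (ha : 0 ≤ a) (hδ : 0 ≤ δ) : a ≤ P.om a δ := by
  unfold om
  have h1 : (0 : ℝ) ≤ 2 ^ P.g / 2 ^ (P.J + 1) := by positivity
  have h2 : (0 : ℝ) ≤ 3 * (P.J + 1) * 2 ^ P.g * δ := by positivity
  have h3 : (0 : ℝ) ≤ (P.J + 1) / 2 ^ P.s := by positivity
  linarith

theorem sum_loL (hr : r ≤ P.g) (hδ : 0 ≤ δ) (ha : 0 ≤ a) (ha1 : a ≤ 1) {lo : ℝ} (hlo : 0 ≤ lo)
    (u : ℤ) : (1 - a) * min (lo * ((∑ i ∈ range (2 ^ r), ic (Ef i) u : ℕ) : ℝ)) (2 ^ κ) -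
      P.om a δ * 2 ^ κ ≤ ∑ l ∈ range (min κ P.J + 1), P.loL Ef r κ lo a δ u l := by
  have hk : (1 : ℝ) ≤ 2 ^ κ := one_le_pow₀ (by norm_num)
  have hg : (2 : ℝ) ^ r ≤ 2 ^ P.g := pow_le_pow_right₀ (by norm_num) hr
  set n : ℕ := min κ P.J + 1 with hn
  have hnJ : (n : ℝ) ≤ P.J + 1 := by
    have : n ≤ P.J + 1 := by omega
    exact_mod_cast this
  have hn0 : (0 : ℝ) ≤ n := Nat.cast_nonneg _
  unfold loL
  rw [sum_sub_distrib, sum_sub_distrib, ← mul_sum, sum_sub_distrib, sum_const, sum_const,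
    sum_const, card_range, nsmul_eq_mul, nsmul_eq_mul, nsmul_eq_mul, sum_comm]
  have h1 : ∀ i ∈ range (2 ^ r), min (lo * (ic (Ef i) u : ℝ)) (2 ^ κ) - 2 ^ κ / 2 ^ (P.J + 1) ≤
      ∑ l ∈ range n, phr (κ - l) (lo * ic (Ef i) u) := fun i _ => sum_phr_ge κ P.J _
  have h2 := sum_le_sum h1
  rw [sum_sub_distrib, sum_const, card_range, nsmul_eq_mul] at h2
  have h3 : min (lo * ((∑ i ∈ range (2 ^ r), ic (Ef i) u : ℕ) : ℝ)) (2 ^ κ) ≤
      ∑ i ∈ range (2 ^ r), min (lo * (ic (Ef i) u : ℝ)) (2 ^ κ) := by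
    have h4 := min_sum_le (range (2 ^ r)) (fun i => lo * (ic (Ef i) u : ℝ)) (k := 2 ^ κ)
      (by positivity) (fun i _ => by positivity)
    rw [← mul_sum] at h4
    push_cast
    exact h4
  push_cast at h2
  have h5 : (2 : ℝ) ^ r * (2 ^ κ / 2 ^ (P.J + 1)) ≤ 2 ^ P.g / 2 ^ (P.J + 1) * 2 ^ κ := by
    have : (2 : ℝ) ^ P.g / 2 ^ (P.J + 1) * 2 ^ κ = 2 ^ P.g * (2 ^ κ / 2 ^ (P.J + 1)) := by ring
    rw [this]
    exact mul_le_mul_of_nonneg_right hg (by positivity)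
  have h6 : (n : ℝ) * (3 * 2 ^ r * 2 ^ κ * δ) ≤ 3 * (P.J + 1) * 2 ^ P.g * δ * 2 ^ κ := by
    have h7 : (n : ℝ) * 2 ^ r ≤ (P.J + 1) * 2 ^ P.g := mul_le_mul hnJ hg (by positivity)
      (by positivity)
    have h8 := mul_le_mul_of_nonneg_right h7 (show 0 ≤ 3 * (2 ^ κ * δ) by positivity)
    linarith
  have h7 : (n : ℝ) * (a * (2 ^ κ / (P.J + 1))) ≤ a * 2 ^ κ := by
    have h8 : (n : ℝ) * (2 ^ κ / (P.J + 1)) ≤ 2 ^ κ := by
      rw [mul_div_assoc', div_le_iff₀ (by positivity), mul_comm]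
      exact mul_le_mul_of_nonneg_left hnJ (by positivity)
    have := mul_le_mul_of_nonneg_left h8 ha
    linarith
  have h8 : (n : ℝ) * (1 / 2 ^ P.s) ≤ (P.J + 1) / 2 ^ P.s * 2 ^ κ := by
    have h9 : (n : ℝ) * (1 / 2 ^ P.s) ≤ (P.J + 1) / 2 ^ P.s := by
      rw [mul_one_div]
      exact div_le_div_of_nonneg_right hnJ (by positivity)
    refine h9.trans (le_mul_of_one_le_right (by positivity) hk)
  set A1 := ∑ i ∈ range (2 ^ r), ∑ l ∈ range n, phr (κ - l) (lo * ic (Ef i) u) with hA1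
  set mm := min (lo * ((∑ i ∈ range (2 ^ r), ic (Ef i) u : ℕ) : ℝ)) (2 ^ κ) with hmm
  have h9 : mm - 2 ^ P.g / 2 ^ (P.J + 1) * 2 ^ κ - 3 * (P.J + 1) * 2 ^ P.g * δ * 2 ^ κ ≤
      A1 - (n : ℝ) * (3 * 2 ^ r * 2 ^ κ * δ) := by linarith
  have h10 := mul_le_mul_of_nonneg_left h9 (show 0 ≤ 1 - a by linarith)
  have h11 : (0 : ℝ) ≤ a * (2 ^ P.g / 2 ^ (P.J + 1) * 2 ^ κ + 3 * (P.J + 1) * 2 ^ P.g * δ * 2 ^ κ) := by
    positivity
  unfold om
  have e : (2 ^ P.g / 2 ^ (P.J + 1) + 3 * ((P.J : ℝ) + 1) * 2 ^ P.g * δ + a +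
      ((P.J : ℝ) + 1) / 2 ^ P.s) * 2 ^ κ = 2 ^ P.g / 2 ^ (P.J + 1) * 2 ^ κ +
      3 * (P.J + 1) * 2 ^ P.g * δ * 2 ^ κ + a * 2 ^ κ + (P.J + 1) / 2 ^ P.s * 2 ^ κ := by ring
  rw [e]
  linarith

theorem sum_upL (hr : r ≤ P.g) (hδ : 0 ≤ δ) (ha : 0 ≤ a) (ha1 : a ≤ 1) {up : ℝ} (hup : 0 ≤ up)
    (u : ℤ) : ∑ l ∈ range (min κ P.J + 1), P.upL Ef r κ up a δ u l ≤
      (1 + a) * (up * ((∑ i ∈ range (2 ^ r), ic (Ef i) u : ℕ) : ℝ)) +
        2 * (P.om a δ * 2 ^ κ) := by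
  have hg : (2 : ℝ) ^ r ≤ 2 ^ P.g := pow_le_pow_right₀ (by norm_num) hr
  set n : ℕ := min κ P.J + 1 with hn
  have hnJ : (n : ℝ) ≤ P.J + 1 := by
    have : n ≤ P.J + 1 := by omega
    exact_mod_cast this
  have hn0 : (0 : ℝ) ≤ n := Nat.cast_nonneg _
  unfold upL
  rw [sum_add_distrib, ← mul_sum, sum_add_distrib, sum_const, sum_const, card_range,
    nsmul_eq_mul, nsmul_eq_mul, sum_comm]
  have h2 : ∑ i ∈ range (2 ^ r), ∑ l ∈ range n, phr (κ - l) (up * ic (Ef i) u) ≤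
      up * ((∑ i ∈ range (2 ^ r), ic (Ef i) u : ℕ) : ℝ) := by
    push_cast
    rw [mul_sum]
    apply sum_le_sum
    intro i _
    exact (sum_phr_le κ P.J (by positivity)).trans (min_le_left _ _)
  have h6 : (n : ℝ) * (3 * 2 ^ r * 2 ^ κ * δ) ≤ 3 * (P.J + 1) * 2 ^ P.g * δ * 2 ^ κ := by
    have h7 : (n : ℝ) * 2 ^ r ≤ (P.J + 1) * 2 ^ P.g := mul_le_mul hnJ hg (by positivity)
      (by positivity)
    have h8 := mul_le_mul_of_nonneg_right h7 (show 0 ≤ 3 * (2 ^ κ * δ) by positivity)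
    linarith
  have h7 : (n : ℝ) * (a * (2 ^ κ / (P.J + 1))) ≤ a * 2 ^ κ := by
    have h8 : (n : ℝ) * (2 ^ κ / (P.J + 1)) ≤ 2 ^ κ := by
      rw [mul_div_assoc', div_le_iff₀ (by positivity), mul_comm]
      exact mul_le_mul_of_nonneg_left hnJ (by positivity)
    have := mul_le_mul_of_nonneg_left h8 ha
    linarith
  set A1 := ∑ i ∈ range (2 ^ r), ∑ l ∈ range n, phr (κ - l) (up * ic (Ef i) u) with hA1
  set EE := up * ((∑ i ∈ range (2 ^ r), ic (Ef i) u : ℕ) : ℝ) with hEE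
  have h9 : A1 + (n : ℝ) * (3 * 2 ^ r * 2 ^ κ * δ) ≤
      EE + 3 * (P.J + 1) * 2 ^ P.g * δ * 2 ^ κ := by linarith
  have h10 := mul_le_mul_of_nonneg_left h9 (show 0 ≤ 1 + a by linarith)
  have h12 : (0 : ℝ) ≤ 3 * (P.J + 1) * 2 ^ P.g * δ * 2 ^ κ := by positivity
  have h13 : a * (3 * (P.J + 1) * 2 ^ P.g * δ * 2 ^ κ) ≤ 1 * (3 * (P.J + 1) * 2 ^ P.g * δ * 2 ^ κ) :=
    mul_le_mul_of_nonneg_right ha1 h12
  have h14 : (0 : ℝ) ≤ 2 ^ P.g / 2 ^ (P.J + 1) * 2 ^ κ := by positivity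
  have h15 : (0 : ℝ) ≤ (P.J + 1) / 2 ^ P.s * 2 ^ κ := by positivity
  have h16 : (0 : ℝ) ≤ a * 2 ^ κ := by positivity
  unfold om
  have e : (2 ^ P.g / 2 ^ (P.J + 1) + 3 * ((P.J : ℝ) + 1) * 2 ^ P.g * δ + a +
      ((P.J : ℝ) + 1) / 2 ^ P.s) * 2 ^ κ = 2 ^ P.g / 2 ^ (P.J + 1) * 2 ^ κ +
      3 * (P.J + 1) * 2 ^ P.g * δ * 2 ^ κ + a * 2 ^ κ + (P.J + 1) / 2 ^ P.s * 2 ^ κ := by ring
  rw [e]
  linarith

/-- **one macro step** -/
theorem step_good (hO : P.Ok M a β δ η) (hr : r ≤ P.g) (hJr : P.J ≤ P.c + r) (hε : 0 ≤ ε)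
    (hερ : ε + P.rho β η ≤ 1 / 2)
    (hL : ∀ i (w w' : ℤ), Ef i w ≤ Ef i w' + 2 ^ P.g * (w - w').natAbs)
    (hC : ∀ κ i z, (C κ i z).Pr M (fun F => ¬ P.GoodC ε η κ (Ef i) z F) ≤ δ) :
    (P.step C r κ z).Pr M (fun F => ¬ P.Good (ε + P.rho β η) η κ
      (fun u => ∑ i ∈ range (2 ^ r), ic (Ef i) u) z F) ≤ δ := by
  have ha := hO.ha
  have ha1 := hO.ha1
  have hβ0 := hO.hβ0
  have hδ := hO.hδ
  have hω : a ≤ P.om a δ := P.le_om ha hδ
  have hω0 : 0 ≤ P.om a δ := ha.trans hω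
  have hηω : 4 * P.om a δ ≤ η := hO.hη
  have hη0 : 0 ≤ η := by linarith
  have hθω : 5 * P.om a δ ≤ 1 / 2 ^ P.t := hO.ht
  have hθ0 : (0 : ℝ) ≤ 1 / 2 ^ P.t := by positivity
  have hrho : P.rho β η = 4 * η + 8 * β + 4 * (1 / 2 ^ P.t) := rfl
  have hεη : (1 + ε) / 4 + (η + 2 * β) ≤ 1 / 2 := by linarith
  have hmain := P.lays_good (C := C) (r := r) (κ := κ) (z := z) (Ef := Ef) hO hr hJr hε hη0 hεη
    hL hC
    (min κ P.J + 1) le_rfl
  have hδ' : ((min κ P.J + 1 : ℕ) : ℝ) *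
      (2 ^ P.σ * (2 * Real.exp (-(a ^ 2 * (2 ^ P.c / (P.J + 1)))))) ≤ δ := by
    refine le_trans (mul_le_mul_of_nonneg_right ?_ (by positivity)) hO.hp
    have : min κ P.J + 1 ≤ P.J + 1 := by omega
    exact_mod_cast this
  unfold step
  rw [Pr_map]
  refine le_trans (Pr_mono fun A hA => ?_) (hmain.trans hδ')
  intro hG
  apply hA
  intro u h1 h2 h3
  obtain ⟨g1, g2⟩ := hG u h1 h2 h3
  have hlo0 : 0 ≤ 1 - ε - 2 * η := by linarith
  have hup0 : 0 ≤ 1 + ε + 4 * (η + 2 * β) := by positivity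
  have g1' := (P.sum_loL (Ef := Ef) (κ := κ) hr hδ ha ha1 hlo0 u).trans g1
  have g2' := g2.trans (P.sum_upL (Ef := Ef) (κ := κ) hr hδ ha ha1 hup0 u)
  have hk : (1 : ℝ) ≤ 2 ^ κ := one_le_pow₀ (by norm_num)
  set S : ℝ := P.rv (A u) with hS
  have hS0 : 0 ≤ S := P.rv_nonneg _
  have hW1 : P.rv (A u / 2 ^ P.t) ≤ 1 / 2 ^ P.t * S := by
    rw [hS]
    unfold rv
    have h4 : (((A u / 2 ^ P.t : ℕ)) : ℝ) ≤ (A u : ℝ) / ((2 ^ P.t : ℕ) : ℝ) := Nat.cast_div_le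
    refine (div_le_div_of_nonneg_right h4 (by positivity)).trans (le_of_eq ?_)
    push_cast
    ring
  have hW2 : 1 / 2 ^ P.t * S - P.om a δ * 2 ^ κ ≤ P.rv (A u / 2 ^ P.t) := by
    have h4 : (A u : ℝ) / ((2 ^ P.t : ℕ) : ℝ) - 1 ≤ ((A u / 2 ^ P.t : ℕ) : ℝ) := by
      have h5 : A u < (A u / 2 ^ P.t) * 2 ^ P.t + 2 ^ P.t :=
        Nat.lt_div_mul_add (a := A u) (Nat.two_pow_pos P.t)
      have h6 : (A u : ℝ) < ((A u / 2 ^ P.t : ℕ) : ℝ) * ((2 ^ P.t : ℕ) : ℝ) +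
          ((2 ^ P.t : ℕ) : ℝ) := by exact_mod_cast h5
      have h7 : (0 : ℝ) < ((2 ^ P.t : ℕ) : ℝ) := by positivity
      rw [sub_le_iff_le_add, div_le_iff₀ h7]
      linarith
    have h5 := div_le_div_of_nonneg_right h4 (show (0 : ℝ) ≤ 2 ^ P.s by positivity)
    have h6 : 1 / 2 ^ P.t * S - 1 / 2 ^ P.s ≤ P.rv (A u / 2 ^ P.t) := by
      rw [hS]
      unfold rv
      refine le_trans (le_of_eq ?_) h5
      push_cast
      ring
    have h7 : 1 / 2 ^ P.s ≤ P.om a δ * 2 ^ κ := by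
      have h8 : 1 / 2 ^ P.s ≤ P.om a δ := by
        unfold om
        have k1 : (0 : ℝ) ≤ 2 ^ P.g / 2 ^ (P.J + 1) := by positivity
        have k2 : (0 : ℝ) ≤ 3 * (P.J + 1) * 2 ^ P.g * δ := by positivity
        have k3 : (1 : ℝ) / 2 ^ P.s ≤ (P.J + 1) / 2 ^ P.s := by
          apply div_le_div_of_nonneg_right _ (by positivity)
          have : (0 : ℝ) ≤ P.J := Nat.cast_nonneg _
          linarith
        linarith
      exact h8.trans (le_mul_of_one_le_right hω0 hk)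
    linarith
  have hx : P.rv (min (P.cap κ) (A u + A u / 2 ^ P.t)) =
      min (2 ^ κ) (S + P.rv (A u / 2 ^ P.t)) := by
    rw [rv_min, rv_cap, rv_add]
  have hθ8 : (1 : ℝ) / 2 ^ P.t ≤ 1 / 8 := by linarith
  constructor
  · exact final_lower (m := min ((1 - ε - 2 * η) *
      ((∑ i ∈ range (2 ^ r), ic (Ef i) u : ℕ) : ℝ)) (2 ^ κ)) ha hω hθω (by linarith)
      (by positivity) rfl (Nat.cast_nonneg _) (by linarith) hlo0 hηω g1' hW2 hx
  · exact final_upper (ε := ε) (y := 4 * (η + 2 * β)) (up := 1 + ε + 4 * (η + 2 * β)) ha hω hθω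
      hθ8 (by positivity) (Nat.cast_nonneg _) rfl (by positivity) hε (by linarith)
      (by rw [hrho]; ring) hηω g2' hW1 hx

end st

/-! ### the recursive estimator -/

/-- the estimator of the E-distance at the macro height `q` -/
noncomputable def est (e : ℕ → ℤ → ℕ) : ℕ → ℕ → ℕ → ℤ → RT (ℤ → ℕ)
  | 0, _, j, _ => ret fun u => 2 ^ P.s * e j u
  | q + 1, κ, j, z => if κ = 0 then
      ret fun u => 2 ^ P.s * min 1 (E P.g e (P.g * (q + 1)) j u)
    else P.step (fun κ' i z' => est e q κ' (2 ^ P.g * j + i) z') P.g κ z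

/-- the parameters of a partial macro level of height `r ≤ g`: as many samples as at a full one -/
def up (r : ℕ) : Par := { P with c := P.c + (P.g - r) }

theorem Ok.up {M : ℕ} {a β δ η : ℝ} (hO : P.Ok M a β δ η) (r : ℕ) : (P.up r).Ok M a β δ η := by
  refine ⟨hO.hM, hO.hg, hO.ha, hO.ha1, hO.hβ0, hO.hβ, hO.hδ, ?_, hO.hη, hO.ht, ?_⟩
  · show P.J ≤ P.c + (P.g - r) + P.g
    have := hO.hJ
    omega
  · refine le_trans ?_ hO.hp
    show ((P.J : ℝ) + 1) * (2 ^ P.σ * (2 * Real.exp (-(a ^ 2 *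
      (2 ^ (P.c + (P.g - r)) / ((P.J : ℝ) + 1)))))) ≤ _
    apply mul_le_mul_of_nonneg_left _ (by positivity)
    apply mul_le_mul_of_nonneg_left _ (by positivity)
    apply mul_le_mul_of_nonneg_left _ (by norm_num)
    apply Real.exp_le_exp.2
    apply neg_le_neg
    apply mul_le_mul_of_nonneg_left _ (by positivity)
    apply div_le_div_of_nonneg_right _ (by positivity)
    exact pow_le_pow_right₀ (by norm_num) (by omega)

/-- the estimator at the height `g q + r`, `1 ≤ r ≤ g` -/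
noncomputable def estH (e : ℕ → ℤ → ℕ) (q r κ j : ℕ) (z : ℤ) : RT (ℤ → ℕ) :=
  if κ = 0 then ret fun u => 2 ^ P.s * min 1 (E P.g e (P.g * q + r) j u)
  else (P.up r).step (fun κ' i z' => P.est e q κ' (2 ^ r * j + i) z') r κ z

section good

variable {e : ℕ → ℤ → ℕ} {M : ℕ} {η β δ a : ℝ}

/-- the exact table at scale `1` is good -/
theorem good_exact (ε η' : ℝ) (Ef : ℤ → ℕ) (z : ℤ) :
    P.GoodC ε η' 0 Ef z (fun u => 2 ^ P.s * min 1 (Ef u)) := by
  unfold GoodC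
  rw [if_pos rfl, if_pos rfl]
  intro u _ _ _
  rw [rv_mul]
  push_cast
  constructor
  · simp
  · simp

theorem est_good (hO : P.Ok M a β δ η) (hg : 1 ≤ P.g)
    (he : ∀ (j : ℕ) (u u' : ℤ), e j u ≤ e j u' + (u - u').natAbs) (he1 : ∀ j u, e j u ≤ 1)
    (q : ℕ) (hq : q * P.rho β η ≤ 1 / 2) (κ j : ℕ) (z : ℤ) :
    (P.est e q κ j z).Pr M (fun F => ¬ P.GoodC (q * P.rho β η) η κ (E P.g e (P.g * q) j) z F)
      ≤ δ := by
  have ha := hO.ha
  have hδ := hO.hδ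
  have hβ0 := hO.hβ0
  have hω : a ≤ P.om a δ := P.le_om ha hδ
  have hηω : 4 * P.om a δ ≤ η := hO.hη
  have hη0 : 0 ≤ η := by linarith
  have hrho : 0 ≤ P.rho β η := by unfold rho; positivity
  induction q generalizing κ j z with
  | zero =>
    have h0 : (P.est e 0 κ j z).Pr M (fun F => ¬ P.GoodC ((0 : ℕ) * P.rho β η) η κ
        (E P.g e (P.g * 0) j) z F) ≤ (P.est e 0 κ j z).Pr M (fun _ => False) := by
      refine Pr_mono_all ?_
      intro hcon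
      apply hcon
      intro u _ _ _
      have h1 : P.rv (2 ^ P.s * e j u) = e j u := P.rv_mul _
      have h2 : (0 : ℝ) ≤ e j u := Nat.cast_nonneg _
      have h3 : (e j u : ℝ) ≤ 1 := by exact_mod_cast he1 j u
      have h4 : E P.g e (P.g * 0) j u = e j u := rfl
      have hk : (0 : ℝ) < 2 ^ κ := by positivity
      show min (2 ^ κ) ((1 - _) * ((E P.g e (P.g * 0) j u : ℕ) : ℝ) - _ * 2 ^ κ) ≤
        P.rv (2 ^ P.s * e j u) ∧ P.rv (2 ^ P.s * e j u) ≤ _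
      rw [h1, h4]
      by_cases hκ : κ = 0
      · rw [if_pos hκ, if_pos hκ]
        constructor
        · refine (min_le_right _ _).trans ?_
          linarith
        · linarith
      · rw [if_neg hκ, if_neg hκ]
        push_cast
        have h5 : 0 ≤ η * 2 ^ κ := by positivity
        constructor
        · refine (min_le_right _ _).trans ?_
          linarith
        · linarith
    rw [Pr_false] at h0
    exact h0.trans hδ
  | succ q ih =>
    have hq' : (q : ℝ) * P.rho β η ≤ 1 / 2 := by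
      push_cast at hq
      linarith
    unfold est
    split_ifs with hκ
    · subst hκ
      have h0 : (ret fun u => 2 ^ P.s * min 1 (E P.g e (P.g * (q + 1)) j u)).Pr M
          (fun F => ¬ P.GoodC (((q + 1 : ℕ) : ℝ) * P.rho β η) η 0
            (E P.g e (P.g * (q + 1)) j) z F) ≤
          (ret fun u => 2 ^ P.s * min 1 (E P.g e (P.g * (q + 1)) j u)).Pr M (fun _ => False) := by
        refine Pr_mono_all ?_
        intro hcon
        exact hcon (P.good_exact _ _ _ _)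
      rw [Pr_false] at h0
      exact h0.trans hδ
    · have h1 := P.step_good (C := fun κ' i z' => P.est e q κ' (2 ^ P.g * j + i) z')
        (r := P.g) (κ := κ) (z := z) (Ef := fun i => E P.g e (P.g * q) (2 ^ P.g * j + i))
        (ε := q * P.rho β η) hO le_rfl hO.hJ (by positivity) (by push_cast at hq; linarith)
        (fun i w w' => E_lip P.g e hg he (P.g * q) (2 ^ P.g * j + i) w w')
        (fun κ' i z' => ih hq' κ' (2 ^ P.g * j + i) z')
      refine le_trans (Pr_mono fun F hF => ?_) h1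
      intro hG
      apply hF
      unfold GoodC
      rw [if_neg hκ, if_neg hκ]
      intro u k1 k2 k3
      have h2 := hG u k1 k2 k3
      have h3 := E_macro P.g e hg q j u
      rw [h3]
      have h4 : ((q + 1 : ℕ) : ℝ) * P.rho β η = q * P.rho β η + P.rho β η := by push_cast; ring
      rw [h4]
      exact h2

theorem estH_good (hO : P.Ok M a β δ η) (hg : 1 ≤ P.g)
    (he : ∀ (j : ℕ) (u u' : ℤ), e j u ≤ e j u' + (u - u').natAbs) (he1 : ∀ j u, e j u ≤ 1)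
    (q r : ℕ) (hr : r + 1 ≤ P.g) (hq : (q + 1 : ℕ) * P.rho β η ≤ 1 / 2) (κ j : ℕ) (z : ℤ) :
    (P.estH e q (r + 1) κ j z).Pr M (fun F => ¬ P.GoodC ((q + 1 : ℕ) * P.rho β η) η κ
      (E P.g e (P.g * q + (r + 1)) j) z F) ≤ δ := by
  have ha := hO.ha
  have hδ := hO.hδ
  have hβ0 := hO.hβ0
  have hω : a ≤ P.om a δ := P.le_om ha hδ
  have hηω : 4 * P.om a δ ≤ η := hO.hη
  have hη0 : 0 ≤ η := by linarith
  have hrho : 0 ≤ P.rho β η := by unfold rho; positivity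
  have hq' : (q : ℝ) * P.rho β η ≤ 1 / 2 := by
    push_cast at hq
    linarith
  unfold estH
  split_ifs with hκ
  · subst hκ
    have h0 : (ret fun u => 2 ^ P.s * min 1 (E P.g e (P.g * q + (r + 1)) j u)).Pr M
        (fun F => ¬ P.GoodC (((q + 1 : ℕ) : ℝ) * P.rho β η) η 0
          (E P.g e (P.g * q + (r + 1)) j) z F) ≤
        (ret fun u => 2 ^ P.s * min 1 (E P.g e (P.g * q + (r + 1)) j u)).Pr M
          (fun _ => False) := by
      refine Pr_mono_all ?_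
      intro hcon
      exact hcon (P.good_exact _ _ _ _)
    rw [Pr_false] at h0
    exact h0.trans hδ
  · have h1 := (P.up (r + 1)).step_good (C := fun κ' i z' => P.est e q κ' (2 ^ (r + 1) * j + i) z')
      (r := r + 1) (κ := κ) (z := z) (Ef := fun i => E P.g e (P.g * q) (2 ^ (r + 1) * j + i))
      (ε := q * P.rho β η) (Ok.up P hO (r + 1)) hr
      (show P.J ≤ P.c + (P.g - (r + 1)) + (r + 1) by have := hO.hJ; omega) (by positivity)
      (show q * P.rho β η + P.rho β η ≤ 1 / 2 by push_cast at hq; linarith)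
      (fun i w w' => E_lip P.g e hg he (P.g * q) (2 ^ (r + 1) * j + i) w w')
      (fun κ' i z' => P.est_good hO hg he he1 q hq' κ' (2 ^ (r + 1) * j + i) z')
    refine le_trans (Pr_mono fun F hF => ?_) h1
    intro hG
    apply hF
    unfold GoodC
    rw [if_neg hκ, if_neg hκ]
    intro u k1 k2 k3
    have h2 := hG u k1 k2 k3
    have h3 := E_sum P.g e q r hr j u
    rw [h3]
    have h4 : ((q + 1 : ℕ) : ℝ) * P.rho β η = q * P.rho β η + P.rho β η := by push_cast; ring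
    rw [h4]
    exact h2

end good

end Par

end Crest.Agent.R288.Init772
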