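import Mathlib
import Crest.Agent.R288.InitE_772

/-!
# R288 (S0433), leaf [Init], part 6: the scale search

`C κ z : RT (ℤ → ℕ)` = any source of tables of `Ef` (window `z` of scale `2 ^ κ`).

* `uk κ u` = grid point of scale `κ` at or below `u`; `vals C u n` = the values at `uk κ u` of the
  scales `κ < n`; `sel V d 0 n` = value (rounded down) of the first scale which is not capped;
* `ehat C u n d : RT ℕ`; `ehat_good`: `|ehat - Ef u| ≤ τ Ef u + 1`, `Ef u = 0 → ehat = 0` with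
  probability `≥ 1 - n δ`, `τ = ε + 4 η + 8 β`;
* `U0`, `U0h`: the start bound `|u - v| + 2 E` and its computed form.
-/

set_option autoImplicit false

namespace Crest.Agent.R288.Init772

open Finset Crest.Agent.R295.Rnd627 Crest.Agent.R295.Rnd627.RT

namespace Par

variable (P : Par)

/-- the grid point of scale `2 ^ κ` at or below `u` -/
def uk (κ : ℕ) (u : ℤ) : ℤ := P.st κ * (u / P.st κ)

theorem uk_dvd (κ : ℕ) (u : ℤ) : (P.st κ : ℤ) ∣ P.uk κ u := dvd_mul_right _ _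

theorem uk_le (κ : ℕ) (u : ℤ) : P.uk κ u ≤ u :=
  Int.mul_ediv_self_le (by have := P.st_pos κ; omega)

theorem lt_uk (κ : ℕ) (u : ℤ) : u < P.uk κ u + P.st κ := by
  have h := Int.lt_mul_ediv_self_add (x := u) (k := (P.st κ : ℤ)) (by exact_mod_cast P.st_pos κ)
  exact h

theorem uk_zero (u : ℤ) : P.uk 0 u = u := by
  unfold uk st
  simp

theorem uk_near (κ : ℕ) (u : ℤ) : (P.uk κ u - u).natAbs ≤ P.st κ - 1 := by
  have h1 := P.uk_le κ u
  have h2 := P.lt_uk κ u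
  have h3 := P.st_pos κ
  omega

theorem uk_mem (κ : ℕ) (u : ℤ) : 2 ^ κ * (u / 2 ^ κ) ≤ P.uk κ u ∧
    P.uk κ u < 2 ^ κ * (u / 2 ^ κ + 1) := by
  have hk : (0 : ℤ) < 2 ^ κ := by positivity
  have h1 := Int.mul_ediv_self_le (x := u) (k := 2 ^ κ) hk.ne'
  have h2 := Int.lt_mul_ediv_self_add (x := u) hk
  have h3 := P.uk_le κ u
  refine ⟨?_, by rw [mul_add, mul_one]; omega⟩
  -- the window start is a multiple of the step
  have hst : ((P.st κ : ℕ) : ℤ) * 2 ^ P.mu κ = 2 ^ κ := by exact_mod_cast P.st_mul κ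
  have hst0 : (0 : ℤ) < P.st κ := by exact_mod_cast P.st_pos κ
  have h4 : (P.st κ : ℤ) * (2 ^ P.mu κ * (u / 2 ^ κ)) ≤ u := by
    rw [← mul_assoc, hst]; exact h1
  have h5 : 2 ^ P.mu κ * (u / 2 ^ κ) ≤ u / P.st κ := by
    rw [Int.le_ediv_iff_mul_le hst0, mul_comm]; exact h4
  have h6 := mul_le_mul_of_nonneg_left h5 hst0.le
  rw [← mul_assoc, hst] at h6
  exact h6

/-- the values at the scales `κ < n` -/
def vals (C : ℕ → ℤ → RT (ℤ → ℕ)) (u : ℤ) : ℕ → RT (ℕ → ℕ)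
  | 0 => ret fun _ => 0
  | n + 1 => (vals C u n).bind fun V => (C n (u / 2 ^ n)).map fun F κ =>
      if κ = n then F (P.uk n u) else V κ

/-- the value of the first scale which is not capped -/
def sel (V : ℕ → ℕ) (d : ℕ) : ℕ → ℕ → ℕ
  | _, 0 => d
  | κ, m + 1 => if V κ < P.cap κ then V κ / 2 ^ P.s else sel V d (κ + 1) m

/-- the estimate: scales `κ < n`, default `d` -/
def ehat (C : ℕ → ℤ → RT (ℤ → ℕ)) (u : ℤ) (n d : ℕ) : RT ℕ :=
  (P.vals C u n).map fun V => P.sel V d 0 n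

theorem sel_spec (V : ℕ → ℕ) (d κ m : ℕ) (h : ∃ i, κ ≤ i ∧ i < κ + m ∧ V i < P.cap i) :
    ∃ i, κ ≤ i ∧ i < κ + m ∧ V i < P.cap i ∧ (∀ i', κ ≤ i' → i' < i → P.cap i' ≤ V i') ∧
      P.sel V d κ m = V i / 2 ^ P.s := by
  induction m generalizing κ with
  | zero => obtain ⟨i, h1, h2, _⟩ := h; omega
  | succ m ih =>
    unfold sel
    by_cases hκ : V κ < P.cap κ
    · rw [if_pos hκ]
      exact ⟨κ, le_rfl, by omega, hκ, fun i' h1 h2 => by omega, rfl⟩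
    · rw [if_neg hκ]
      obtain ⟨i, h1, h2, h3⟩ := h
      have h4 : κ + 1 ≤ i := by
        rcases Nat.eq_or_lt_of_le h1 with rfl | h5
        · exact absurd h3 hκ
        · exact h5
      obtain ⟨i, g1, g2, g3, g4, g5⟩ := ih (κ + 1) ⟨i, h4, by omega, h3⟩
      refine ⟨i, by omega, by omega, g3, fun i' k1 k2 => ?_, g5⟩
      rcases Nat.eq_or_lt_of_le k1 with rfl | k3
      · exact not_lt.1 hκ
      · exact g4 i' k3 k2

section scan

variable {C : ℕ → ℤ → RT (ℤ → ℕ)} {Ef : ℤ → ℕ} {M : ℕ} {ε η β δ : ℝ} {u : ℤ}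

/-- the value at scale `κ` is good -/
def VOk (Ef : ℤ → ℕ) (ε η : ℝ) (u : ℤ) (κ : ℕ) (x : ℕ) : Prop :=
  min (2 ^ κ) ((1 - (if κ = 0 then 0 else ε)) * Ef (P.uk κ u) -
      (if κ = 0 then 0 else η) * 2 ^ κ) ≤ P.rv x ∧
    P.rv x ≤ (1 + (if κ = 0 then 0 else ε)) * Ef (P.uk κ u) + (if κ = 0 then 0 else η) * 2 ^ κ

theorem Pr_vals (hM : 0 < M) (hδ : 0 ≤ δ)
    (hC : ∀ κ z, (C κ z).Pr M (fun F => ¬ P.GoodC ε η κ Ef z F) ≤ δ) (n : ℕ) :
    (P.vals C u n).Pr M (fun V => ¬ ∀ κ < n, P.VOk Ef ε η u κ (V κ)) ≤ n * δ := by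
  induction n with
  | zero =>
    have : (P.vals C u 0).Pr M (fun V => ¬ ∀ κ < 0, P.VOk Ef ε η u κ (V κ)) ≤
        (P.vals C u 0).Pr M (fun _ => False) :=
      Pr_mono fun F hF => hF (fun c hc => absurd hc (by omega))
    rw [Pr_false] at this
    simpa using this
  | succ n ih =>
    have h1 := Pr_bind_le hM (P.vals C u n)
      (fun V => (C n (u / 2 ^ n)).map fun F κ => if κ = n then F (P.uk n u) else V κ)
      (fun V => ∀ κ < n, P.VOk Ef ε η u κ (V κ))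
      (fun V => ∀ κ < n + 1, P.VOk Ef ε η u κ (V κ)) (δ₁ := n * δ) (δ₂ := δ) ih hδ
      (fun V hV => by
        rw [Pr_map]
        refine le_trans (Pr_mono fun F hF => ?_) (hC n (u / 2 ^ n))
        intro hG
        apply hF
        intro κ hκ
        by_cases hκn : κ = n
        · subst hκn
          have h2 := P.uk_mem κ u
          have h3 := hG (P.uk κ u) h2.1 h2.2 (P.uk_dvd κ u)
          simpa [VOk] using h3
        · have h4 := hV κ (by omega)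
          simpa [hκn] using h4)
    refine h1.trans (le_of_eq ?_)
    push_cast
    ring

/-- the deterministic part of the scale search -/
theorem sel_good (hε : 0 ≤ ε) (hη : 0 ≤ η) (hβ0 : 0 ≤ β) (hε1 : ε ≤ 1 / 2) (hη1 : η ≤ 1 / 8)
    (hβ1 : β ≤ 1 / 16) (hL : ∀ w w' : ℤ, Ef w ≤ Ef w' + 2 ^ P.g * (w - w').natAbs)
    (hβ : ((2 ^ P.g : ℕ) : ℝ) ≤ β * 2 ^ P.σ) {n : ℕ} (hn : 2 * Ef u < 2 ^ (n - 1)) (hn1 : 1 ≤ n)
    {V : ℕ → ℕ} (hV : ∀ κ < n, P.VOk Ef ε η u κ (V κ)) (d : ℕ) :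
    |(P.sel V d 0 n : ℝ) - Ef u| ≤ (ε + 4 * η + 8 * β) * Ef u + 1 ∧
      (Ef u = 0 → P.sel V d 0 n = 0) := by
  -- the grid error
  have hst : ∀ κ', ((2 ^ P.g : ℕ) : ℝ) * ((P.st κ' - 1 : ℕ) : ℝ) ≤ β * 2 ^ κ' := by
    intro κ'
    rcases le_or_gt κ' P.σ with h | h
    · have : P.st κ' = 1 := by unfold st; rw [Nat.sub_eq_zero_of_le h, pow_zero]
      rw [this]
      simp only [Nat.sub_self, Nat.cast_zero, mul_zero]
      positivity
    · have h1 : ((P.st κ' - 1 : ℕ) : ℝ) ≤ 2 ^ (κ' - P.σ) := by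
        have : P.st κ' - 1 ≤ 2 ^ (κ' - P.σ) := Nat.sub_le _ _
        exact_mod_cast this
      have h2 : (2 : ℝ) ^ κ' = 2 ^ P.σ * 2 ^ (κ' - P.σ) := by rw [← pow_add]; congr 1; omega
      calc ((2 ^ P.g : ℕ) : ℝ) * ((P.st κ' - 1 : ℕ) : ℝ) ≤ (β * 2 ^ P.σ) * 2 ^ (κ' - P.σ) :=
            mul_le_mul hβ h1 (Nat.cast_nonneg _) (by positivity)
        _ = β * 2 ^ κ' := by rw [h2]; ring
  have hE1 : ∀ κ, (Ef (P.uk κ u) : ℝ) ≤ Ef u + β * 2 ^ κ := by
    intro κ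
    have h1 := hL (P.uk κ u) u
    have h2 : Ef (P.uk κ u) ≤ Ef u + 2 ^ P.g * (P.st κ - 1) :=
      h1.trans (Nat.add_le_add_left (Nat.mul_le_mul_left _ (P.uk_near κ u)) _)
    have h3 : (Ef (P.uk κ u) : ℝ) ≤ Ef u + (2 ^ P.g : ℕ) * (P.st κ - 1 : ℕ) := by exact_mod_cast h2
    linarith [hst κ]
  have hE2 : ∀ κ, (Ef u : ℝ) ≤ Ef (P.uk κ u) + β * 2 ^ κ := by
    intro κ
    have h1 := hL u (P.uk κ u)
    have h4 : (u - P.uk κ u).natAbs ≤ P.st κ - 1 := by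
      rw [← Int.natAbs_neg, neg_sub]; exact P.uk_near κ u
    have h2 : Ef u ≤ Ef (P.uk κ u) + 2 ^ P.g * (P.st κ - 1) :=
      h1.trans (Nat.add_le_add_left (Nat.mul_le_mul_left _ h4) _)
    have h3 : (Ef u : ℝ) ≤ Ef (P.uk κ u) + (2 ^ P.g : ℕ) * (P.st κ - 1 : ℕ) := by exact_mod_cast h2
    linarith [hst κ]
  have hcap : ∀ κ x, x < P.cap κ ↔ P.rv x < 2 ^ κ := by
    intro κ x
    rw [← P.rv_cap κ]
    unfold rv
    rw [div_lt_div_iff_of_pos_right (by positivity)]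
    exact_mod_cast Iff.rfl
  have hE0 : (0 : ℝ) ≤ Ef u := Nat.cast_nonneg _
  -- the last scale is not capped
  have hlast : V (n - 1) < P.cap (n - 1) := by
    rw [hcap]
    have h1 := (hV (n - 1) (by omega)).2
    have h2 := hE1 (n - 1)
    have h3 : 2 * (Ef u : ℝ) < 2 ^ (n - 1) := by exact_mod_cast hn
    have hk : (0 : ℝ) < 2 ^ (n - 1) := by positivity
    have h5 : (0 : ℝ) ≤ Ef (P.uk (n - 1) u) := Nat.cast_nonneg _
    split_ifs at h1 with h0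
    · rw [h0] at h1 h3 ⊢
      rw [P.uk_zero] at h1
      rw [pow_zero] at h3
      simp only [add_zero, one_mul, zero_mul, pow_zero] at h1 ⊢
      have h6 : Ef u = 0 := by
        by_contra h7
        have : 1 ≤ Ef u := Nat.one_le_iff_ne_zero.2 h7
        have : (1 : ℝ) ≤ Ef u := by exact_mod_cast this
        linarith
      rw [h6] at h1
      simp only [Nat.cast_zero] at h1
      linarith
    · have h6 : (1 + ε) * (Ef (P.uk (n - 1) u) : ℝ) ≤ 3 / 2 * Ef (P.uk (n - 1) u) :=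
        mul_le_mul_of_nonneg_right (by linarith) h5
      have h7 : β * 2 ^ (n - 1) ≤ 1 / 16 * (2 : ℝ) ^ (n - 1) := mul_le_mul_of_nonneg_right hβ1 hk.le
      have h8 : η * 2 ^ (n - 1) ≤ 1 / 8 * (2 : ℝ) ^ (n - 1) := mul_le_mul_of_nonneg_right hη1 hk.le
      linarith
  obtain ⟨κ, _, hκn, hκ, hmin, hsel⟩ := P.sel_spec V d 0 n ⟨n - 1, by omega, by omega, hlast⟩
  rw [zero_add] at hκn
  rw [hsel]
  have hVκ := hV κ hκn
  rw [hcap] at hκ
  -- rounding down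
  have hfl : |((V κ / 2 ^ P.s : ℕ) : ℝ) - P.rv (V κ)| ≤ 1 := by
    unfold rv
    have h1 : ((V κ / 2 ^ P.s : ℕ) : ℝ) ≤ (V κ : ℝ) / ((2 ^ P.s : ℕ) : ℝ) := Nat.cast_div_le
    have h2 : (V κ : ℝ) / ((2 ^ P.s : ℕ) : ℝ) - 1 ≤ ((V κ / 2 ^ P.s : ℕ) : ℝ) := by
      have h5 : V κ < (V κ / 2 ^ P.s) * 2 ^ P.s + 2 ^ P.s :=
        Nat.lt_div_mul_add (a := V κ) (Nat.two_pow_pos P.s)
      have h6 : (V κ : ℝ) < ((V κ / 2 ^ P.s : ℕ) : ℝ) * ((2 ^ P.s : ℕ) : ℝ) +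
          ((2 ^ P.s : ℕ) : ℝ) := by exact_mod_cast h5
      have h7 : (0 : ℝ) < ((2 ^ P.s : ℕ) : ℝ) := by positivity
      rw [sub_le_iff_le_add, div_le_iff₀ h7]
      linarith
    push_cast at h1 h2 ⊢
    rw [abs_le]
    constructor <;> linarith
  by_cases h0 : κ = 0
  · -- scale one: exact
    subst h0
    have h1 := hVκ.1
    have h2 := hVκ.2
    rw [if_pos rfl, if_pos rfl, P.uk_zero] at h1 h2
    simp only [sub_zero, one_mul, zero_mul, pow_zero, add_zero] at h1 h2 hκ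
    have h3 : Ef u = 0 := by
      by_contra h7
      have : 1 ≤ Ef u := Nat.one_le_iff_ne_zero.2 h7
      have h8 : (1 : ℝ) ≤ Ef u := by exact_mod_cast this
      rw [min_eq_left h8] at h1
      linarith
    rw [h3] at h2
    simp only [Nat.cast_zero] at h2
    have h4 : V 0 = 0 := by
      have h5 : P.rv (V 0) = 0 := le_antisymm h2 (P.rv_nonneg _)
      unfold rv at h5
      rw [div_eq_zero_iff] at h5
      rcases h5 with h5 | h5
      · exact_mod_cast h5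
      · exact absurd h5 (by positivity)
    rw [h4, Nat.zero_div, h3]
    simp
  · -- the previous scale was capped
    have hprev := hmin (κ - 1) (by omega) (by omega)
    have hprev' : (2 : ℝ) ^ (κ - 1) ≤ P.rv (V (κ - 1)) := by
      rw [← P.rv_cap (κ - 1)]
      exact P.rv_mono hprev
    have hV1 := (hV (κ - 1) (by omega)).2
    have hk2 : (2 : ℝ) ^ κ = 2 * 2 ^ (κ - 1) := by rw [← pow_succ']; congr 1; omega
    have hk : (0 : ℝ) < 2 ^ (κ - 1) := by positivity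
    have hbig : (2 : ℝ) ^ κ ≤ 4 * Ef u := by
      have h2 := hE1 (κ - 1)
      have h5 : (0 : ℝ) ≤ Ef (P.uk (κ - 1) u) := Nat.cast_nonneg _
      split_ifs at hV1 with h1
      · rw [h1] at hV1 hprev' hk2
        rw [P.uk_zero] at hV1
        simp only [add_zero, one_mul, zero_mul] at hV1
        rw [pow_zero] at hprev' hk2
        linarith
      · have h6 : (1 + ε) * (Ef (P.uk (κ - 1) u) : ℝ) ≤ 3 / 2 * Ef (P.uk (κ - 1) u) :=
          mul_le_mul_of_nonneg_right (by linarith) h5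
        have h7 : β * 2 ^ (κ - 1) ≤ 1 / 16 * (2 : ℝ) ^ (κ - 1) :=
          mul_le_mul_of_nonneg_right hβ1 hk.le
        have h8 : η * 2 ^ (κ - 1) ≤ 1 / 8 * (2 : ℝ) ^ (κ - 1) :=
          mul_le_mul_of_nonneg_right hη1 hk.le
        linarith
    have h1 := hVκ.1
    have h2 := hVκ.2
    rw [if_neg h0, if_neg h0] at h1 h2
    have h3 : (1 - ε) * Ef (P.uk κ u) - η * 2 ^ κ ≤ P.rv (V κ) := by
      rcases min_le_iff.1 h1 with h | h
      · linarith
      · exact h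
    have hEpos : (1 : ℝ) ≤ 2 ^ κ := one_le_pow₀ (by norm_num)
    refine ⟨?_, fun hz => ?_⟩
    · have e1 := hE1 κ
      have e2 := hE2 κ
      have hx0 : (0 : ℝ) ≤ Ef (P.uk κ u) := Nat.cast_nonneg _
      have hβk : 0 ≤ β * 2 ^ κ := by positivity
      have h4 : |P.rv (V κ) - Ef u| ≤ ε * Ef (P.uk κ u) + η * 2 ^ κ + β * 2 ^ κ := by
        rw [abs_le]
        constructor <;> linarith
      have h5 : ε * Ef (P.uk κ u) ≤ ε * (Ef u + β * 2 ^ κ) := mul_le_mul_of_nonneg_left e1 hε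
      have h6 : ε * (β * 2 ^ κ) ≤ 1 / 2 * (β * 2 ^ κ) := mul_le_mul_of_nonneg_right hε1 hβk
      have h7 : (η + 2 * β) * 2 ^ κ ≤ (η + 2 * β) * (4 * Ef u) :=
        mul_le_mul_of_nonneg_left hbig (by positivity)
      calc |((V κ / 2 ^ P.s : ℕ) : ℝ) - Ef u|
          = |(((V κ / 2 ^ P.s : ℕ) : ℝ) - P.rv (V κ)) + (P.rv (V κ) - Ef u)| := by congr 1; ring
        _ ≤ |((V κ / 2 ^ P.s : ℕ) : ℝ) - P.rv (V κ)| + |P.rv (V κ) - Ef u| := abs_add_le _ _
        _ ≤ (ε + 4 * η + 8 * β) * Ef u + 1 := by nlinarith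
    · exfalso
      rw [hz] at hbig
      simp only [Nat.cast_zero, mul_zero] at hbig
      linarith

/-- **the scale search** -/
theorem ehat_good (hM : 0 < M) (hδ : 0 ≤ δ) (hε : 0 ≤ ε) (hη : 0 ≤ η) (hβ0 : 0 ≤ β)
    (hε1 : ε ≤ 1 / 2) (hη1 : η ≤ 1 / 8) (hβ1 : β ≤ 1 / 16)
    (hL : ∀ w w' : ℤ, Ef w ≤ Ef w' + 2 ^ P.g * (w - w').natAbs)
    (hβ : ((2 ^ P.g : ℕ) : ℝ) ≤ β * 2 ^ P.σ)
    (hC : ∀ κ z, (C κ z).Pr M (fun F => ¬ P.GoodC ε η κ Ef z F) ≤ δ)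
    {n : ℕ} (hn : 2 * Ef u < 2 ^ (n - 1)) (hn1 : 1 ≤ n) (d : ℕ) :
    (P.ehat C u n d).Pr M (fun x => ¬ (|(x : ℝ) - Ef u| ≤ (ε + 4 * η + 8 * β) * Ef u + 1 ∧
      (Ef u = 0 → x = 0))) ≤ n * δ := by
  unfold ehat
  rw [Pr_map]
  refine le_trans (Pr_mono fun V hV => ?_) (P.Pr_vals (u := u) hM hδ hC n)
  intro hG
  exact hV (P.sel_good hε hη hβ0 hε1 hη1 hβ1 hL hβ hn hn1 hG d)

end scan

/-! ### the start bound -/

section start

variable {e : ℕ → ℤ → ℕ} {M : ℕ} {η β δ a : ℝ}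

/-- the estimate of `E` at the height `g q + r + 1` -/
noncomputable def eh (e : ℕ → ℤ → ℕ) (q r j : ℕ) (u : ℤ) : RT ℕ :=
  P.ehat (fun κ z => P.estH e q (r + 1) κ j z) u (P.g * q + r + 4) 0

/-- **the estimate of the E-distance at every height** -/
theorem eh_good (hO : P.Ok M a β δ η) (hg : 1 ≤ P.g)
    (he : ∀ (j : ℕ) (u u' : ℤ), e j u ≤ e j u' + (u - u').natAbs) (he1 : ∀ j u, e j u ≤ 1)
    (q r : ℕ) (hr : r + 1 ≤ P.g) (hq : (q + 2 : ℕ) * P.rho β η ≤ 1 / 2) (j : ℕ) (u : ℤ) :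
    (P.eh e q r j u).Pr M (fun x => ¬
      (|(x : ℝ) - E P.g e (P.g * q + (r + 1)) j u| ≤
          ((q + 2 : ℕ) * P.rho β η) * E P.g e (P.g * q + (r + 1)) j u + 1 ∧
        (E P.g e (P.g * q + (r + 1)) j u = 0 → x = 0))) ≤ ((P.g * q + r + 4 : ℕ) : ℝ) * δ := by
  have ha := hO.ha
  have hδ := hO.hδ
  have hβ0 := hO.hβ0
  have hω : a ≤ P.om a δ := P.le_om ha hδ
  have hηω : 4 * P.om a δ ≤ η := hO.hη
  have hη0 : 0 ≤ η := by linarith
  have hθ0 : (0 : ℝ) ≤ 1 / 2 ^ P.t := by positivity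
  have hrho : P.rho β η = 4 * η + 8 * β + 4 * (1 / 2 ^ P.t) := rfl
  have hrho0 : 0 ≤ P.rho β η := by unfold rho; positivity
  have hq0 : (0 : ℝ) ≤ q := Nat.cast_nonneg _
  have hqr : 0 ≤ (q : ℝ) * P.rho β η := by positivity
  push_cast at hq
  have h1 : ((q : ℝ) + 1) * P.rho β η ≤ 1 / 2 := by linarith
  have h2 : 2 * P.rho β η ≤ 1 / 2 := by linarith
  have hE : 2 * E P.g e (P.g * q + (r + 1)) j u < 2 ^ (P.g * q + r + 4 - 1) := by
    have h3 := E_le P.g e he1 (P.g * q + (r + 1)) j u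
    have h4 : P.g * q + r + 4 - 1 = P.g * q + (r + 1) + 2 := by omega
    rw [h4, pow_add]
    have : 0 < 2 ^ (P.g * q + (r + 1)) := Nat.two_pow_pos _
    omega
  have hmain := P.ehat_good (C := fun κ z => P.estH e q (r + 1) κ j z)
    (Ef := E P.g e (P.g * q + (r + 1)) j) (M := M) (ε := ((q + 1 : ℕ) : ℝ) * P.rho β η) (η := η)
    (β := β) (δ := δ) (u := u) hO.hM hδ (by positivity) hη0 hβ0 (by push_cast; exact h1)
    (by linarith) (by linarith) (fun w w' => E_lip P.g e hg he _ j w w') hO.hβ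
    (fun κ z => P.estH_good hO hg he he1 q r hr (by push_cast; exact h1) κ j z) hE (by omega) 0
  refine le_trans (Pr_mono fun x hx => ?_) hmain
  intro hG
  apply hx
  refine ⟨hG.1.trans ?_, hG.2⟩
  have hE0 : (0 : ℝ) ≤ E P.g e (P.g * q + (r + 1)) j u := Nat.cast_nonneg _
  have h5 : ((q + 1 : ℕ) : ℝ) * P.rho β η + 4 * η + 8 * β ≤ ((q + 2 : ℕ) : ℝ) * P.rho β η := by
    push_cast
    linarith
  have := mul_le_mul_of_nonneg_right h5 hE0
  linarith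

end start

end Par

/-! ### the start bound for `gn` -/

section ugn

variable (x y : List ℕ)

/-- the start bound `U₀ = |u - v| + 2 E` -/
noncomputable def U0 (g h j : ℕ) (u v : ℤ) : ℕ := (u - v).natAbs + 2 * E g (mis x y) h j u

theorem gn_le_U0 (g h j : ℕ) (u v : ℤ) : NodeA785.gn x y h j u v ≤ U0 x y g h j u v :=
  gn_le_E x y g h j u v

/-- `U₀ ≤ B₀ gn` with `B₀ = 16 L 2 ^ g` (`h + 1 ≤ 2 L`) -/
theorem U0_le_gn {g L h : ℕ} (hg : 1 ≤ g) (hL : h + 1 ≤ 2 * L) (j : ℕ) (u v : ℤ)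
    (hu : GameA347.Adm y.length (NodeA785.lo x.length h j) u)
    (hv : GameA347.Adm y.length (NodeA785.hi x.length h j) v) :
    U0 x y g h j u v ≤ 16 * 2 ^ g * L * NodeA785.gn x y h j u v := by
  have h1 := T0_le_gn x y (g := g) (L := L) hg (h := h) (by omega) j u v hu hv
  have hL0 : (0 : ℝ) < L := by
    have : 0 < L := by omega
    exact_mod_cast this
  have hL1 : (1 : ℝ) ≤ L := by
    have : 1 ≤ L := by omega
    exact_mod_cast this
  have hp : (1 : ℝ) ≤ 2 ^ g := one_le_pow₀ (by norm_num)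
  unfold T0 at h1
  have h5 : (1 : ℝ) / 2 ≤ 1 - ((h : ℝ) + 1) / (4 * L) := by
    have h6 : ((h : ℝ) + 1) / (4 * L) ≤ 1 / 2 := by
      rw [div_le_div_iff₀ (by positivity) (by norm_num)]
      have h7 : ((h : ℝ) + 1) ≤ 2 * L := by exact_mod_cast hL
      linarith
    linarith
  have h6 : 1 / 2 * |((u - v : ℤ) : ℝ)| ≤ (1 - ((h : ℝ) + 1) / (4 * L)) * |((u - v : ℤ) : ℝ)| :=
    mul_le_mul_of_nonneg_right h5 (abs_nonneg _)
  have h7 : (0 : ℝ) ≤ |((u - v : ℤ) : ℝ)| := abs_nonneg _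
  have h8 : |((u - v : ℤ) : ℝ)| ≤ 16 * 2 ^ g * L * (1 / 2 * |((u - v : ℤ) : ℝ)|) := by
    have : (1 : ℝ) ≤ 2 ^ g * L := by nlinarith
    nlinarith
  have h9 : (2 * E g (mis x y) h j u : ℝ) ≤
      16 * 2 ^ g * L * ((E g (mis x y) h j u : ℝ) / (4 * 2 ^ g * L)) := by
    have h10 : 16 * 2 ^ g * L * ((E g (mis x y) h j u : ℝ) / (4 * 2 ^ g * L)) =
        4 * E g (mis x y) h j u := by
      field_simp
      ring
    rw [h10]
    have : (0 : ℝ) ≤ E g (mis x y) h j u := Nat.cast_nonneg _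
    linarith
  have h11 : 16 * 2 ^ g * L * (1 / 2 * |((u - v : ℤ) : ℝ)| +
      (E g (mis x y) h j u : ℝ) / (4 * 2 ^ g * L)) ≤
      16 * 2 ^ g * L * (NodeA785.gn x y h j u v : ℝ) :=
    mul_le_mul_of_nonneg_left (by linarith) (by positivity)
  have h12 : (U0 x y g h j u v : ℝ) ≤ 16 * 2 ^ g * L * (NodeA785.gn x y h j u v : ℝ) := by
    unfold U0
    push_cast [Nat.cast_natAbs]
    push_cast at h8 h11
    linarith
  exact_mod_cast h12

/-- the computed start bound from an estimate `ê` of `E` -/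
def U0h (p : ℕ) (u v : ℤ) (eh : ℕ) : ℕ := (u - v).natAbs + 2 * (eh + 1 + (eh + 1) / p)

/-- it is an upper bound, of relative precision `4 / p` plus `4` -/
theorem U0h_bounds {p : ℕ} (hp : 4 ≤ p) {g h j : ℕ} {u v : ℤ} {eh : ℕ} {τ : ℝ} (hτ0 : 0 ≤ τ)
    (hτ : 2 * τ * p ≤ 1)
    (hh : |(eh : ℝ) - E g (mis x y) h j u| ≤ τ * E g (mis x y) h j u + 1) :
    U0 x y g h j u v ≤ U0h p u v eh ∧
      (U0h p u v eh : ℝ) ≤ (1 + 4 / p) * U0 x y g h j u v + 8 := by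
  set EE : ℝ := ((E g (mis x y) h j u : ℕ) : ℝ) with hEE
  have hE0 : 0 ≤ EE := Nat.cast_nonneg _
  have hpp : (4 : ℝ) ≤ p := by exact_mod_cast hp
  have hp0 : (0 : ℝ) < p := by linarith
  have hτ' : τ ≤ 1 / (2 * p) := by
    rw [le_div_iff₀ (by positivity)]
    linarith
  have hτ8 : τ ≤ 1 / 8 := hτ'.trans (by
    rw [div_le_div_iff₀ (by positivity) (by norm_num)]; linarith)
  obtain ⟨h1, h2⟩ := abs_le.1 hh
  constructor
  · -- `E ≤ eh + 1 + (eh + 1) / p`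
    have h3 : EE ≤ (eh : ℝ) + 1 + ((eh : ℝ) + 1) / p := by
      have h4 : (1 - τ) * EE ≤ (eh : ℝ) + 1 := by linarith
      have h5 : 0 ≤ (eh : ℝ) + 1 := by positivity
      have h6 : 1 ≤ (1 - τ) * (1 + 2 * τ) := by nlinarith
      have h7 : EE ≤ (1 + 2 * τ) * ((eh : ℝ) + 1) := by
        have := mul_le_mul_of_nonneg_left h4 (show 0 ≤ 1 + 2 * τ by linarith)
        nlinarith
      have h8 : 2 * τ * ((eh : ℝ) + 1) ≤ ((eh : ℝ) + 1) / p := by
        rw [le_div_iff₀ hp0]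
        nlinarith
      linarith
    have h4 : E g (mis x y) h j u ≤ eh + 1 + (eh + 1) / p := by
      by_contra h5
      have h6 : eh + 1 + (eh + 1) / p + 1 ≤ E g (mis x y) h j u := by omega
      have h7 : ((eh : ℝ) + 1 + (((eh + 1) / p : ℕ) : ℝ) + 1) ≤ EE := by
        rw [hEE]; exact_mod_cast h6
      have h8 : ((eh : ℝ) + 1) / p < (((eh + 1) / p : ℕ) : ℝ) + 1 := by
        have h9 : eh + 1 < (eh + 1) / p * p + p := Nat.lt_div_mul_add (a := eh + 1) (by omega)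
        have h10 : ((eh : ℝ) + 1) < (((eh + 1) / p : ℕ) : ℝ) * p + p := by exact_mod_cast h9
        rw [div_lt_iff₀ hp0]
        linarith
      linarith
    unfold U0 U0h
    omega
  · have h3 : (((eh + 1) / p : ℕ) : ℝ) ≤ ((eh : ℝ) + 1) / p := by
      have := Nat.cast_div_le (α := ℝ) (m := eh + 1) (n := p)
      push_cast at this
      exact this
    unfold U0 U0h
    push_cast [Nat.cast_natAbs]
    rw [← hEE]
    have h4 : (eh : ℝ) + 1 ≤ (1 + τ) * EE + 2 := by linarith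
    have h5 : ((eh : ℝ) + 1) / p ≤ ((1 + τ) * EE + 2) / p := div_le_div_of_nonneg_right h4 hp0.le
    have h6 : τ * EE ≤ 1 / (2 * p) * EE := mul_le_mul_of_nonneg_right hτ' hE0
    have h7 : ((1 + τ) * EE + 2) / p ≤ (9 / 8 * EE + 2) / p := by
      apply div_le_div_of_nonneg_right _ hp0.le
      nlinarith
    have h8 : (9 / 8 * EE + 2) / p = 9 / 8 * (EE / p) + 2 / p := by field_simp
    have h9 : (2 : ℝ) / p ≤ 1 / 2 := by
      rw [div_le_div_iff₀ hp0 (by norm_num)]; linarith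
    have h10 : 1 / (2 * p) * EE = 1 / 2 * (EE / p) := by field_simp
    have h11 : 0 ≤ EE / p := by positivity
    have h12 : (0 : ℝ) ≤ |(u : ℝ) - v| := abs_nonneg _
    have h13 : (1 + 4 / (p : ℝ)) * (|(u : ℝ) - v| + 2 * EE) =
        |(u : ℝ) - v| + 4 / p * |(u : ℝ) - v| + 2 * EE + 8 * (EE / p) := by
      field_simp
      ring
    have h14 : 0 ≤ 4 / (p : ℝ) * |(u : ℝ) - v| := by positivity
    push_cast
    rw [h13]
    linarith

end ugn

end Crest.Agent.R288.Init772
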