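import Crest.Agent.R288.InitF_772

/-!
# R288 (S0433), leaf [Init]: explicit parameters of the estimator and the number of calls

`par g D m`: macro height `g`, precision `2 ^ (-D)`, failure probability `2 ^ (-m)`.

* `par_ok`: `Par.Ok M (1/2)^(D+5) (1/2)^D (1/2)^m (1/2)^D` if `2 g + 2 D + 12 ≤ m`, `2 ^ g ∣ M`;
* `par_rho`: growth of the relative error `16 (1/2)^D` per macro level;
* `calls`, `calls_le`: number of recursive calls `≤ (2 ^ g K)^q`, `K = 4 (J + 1) 2 ^ c`;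
  `K_le`: `K ≤ 2 ^ (2 D + 15) (g + D + 5) ^ 2 m`.
-/

set_option autoImplicit false

namespace Crest.Agent.R288.InitN775

open Finset Crest.Agent.R288.Init772

/-- the parameters -/
def par (g D m : ℕ) : Par where
  g := g
  σ := g + D
  J := g + D + 4
  c := 2 * D + 11 + Nat.clog 2 (g + D + 5) + Nat.clog 2 m
  s := g + 2 * D + 10
  t := D

section par

variable {g D m M : ℕ}

theorem tp (k n : ℕ) : (2 : ℝ) ^ k * (1 / 2) ^ (k + n) = (1 / 2) ^ n := by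
  rw [pow_add, ← mul_assoc, ← mul_pow]
  norm_num

theorem om_le (hm : 2 * g + 2 * D + 12 ≤ m) :
    (2 : ℝ) ^ g / 2 ^ (g + D + 4 + 1) + 3 * ((g + D + 4 : ℕ) + 1) * 2 ^ g * (1 / 2) ^ m +
      (1 / 2) ^ (D + 5) + ((g + D + 4 : ℕ) + 1) / 2 ^ (g + 2 * D + 10) ≤ 4 * (1 / 2) ^ (D + 5) := by
  have hJ : (((g + D + 4 : ℕ) : ℝ) + 1) ≤ 2 ^ (g + D + 5) := by
    have : g + D + 4 + 1 ≤ 2 ^ (g + D + 5) := (Nat.lt_two_pow_self (n := g + D + 5)).le
    exact_mod_cast this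
  have h1 : (2 : ℝ) ^ g / 2 ^ (g + D + 4 + 1) = (1 / 2) ^ (D + 5) := by
    rw [div_eq_iff (by positivity), one_div, inv_pow,
      show g + D + 4 + 1 = g + (D + 5) by omega, pow_add 2 g (D + 5)]
    field_simp
  have h2 : 3 * (((g + D + 4 : ℕ) : ℝ) + 1) * 2 ^ g * (1 / 2) ^ m ≤ (1 / 2) ^ (D + 5) := by
    have e1 : (1 / 2 : ℝ) ^ m ≤ (1 / 2) ^ (2 * g + 2 * D + 12) :=
      pow_le_pow_of_le_one (by norm_num) (by norm_num) hm
    have e2 : 3 * (((g + D + 4 : ℕ) : ℝ) + 1) * 2 ^ g ≤ 4 * 2 ^ (g + D + 5) * 2 ^ g := by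
      apply mul_le_mul_of_nonneg_right _ (by positivity)
      have : (0 : ℝ) ≤ ((g + D + 4 : ℕ) : ℝ) + 1 := by positivity
      linarith
    have e3 : (4 : ℝ) * 2 ^ (g + D + 5) * 2 ^ g * (1 / 2) ^ (2 * g + 2 * D + 12) =
        (1 / 2) ^ (D + 5) := by
      have h4 : (4 : ℝ) * 2 ^ (g + D + 5) * 2 ^ g = 2 ^ (2 + (g + D + 5) + g) := by
        rw [pow_add 2 (2 + (g + D + 5)) g, pow_add 2 2 (g + D + 5)]; norm_num
      rw [h4, show 2 * g + 2 * D + 12 = (2 + (g + D + 5) + g) + (D + 5) by omega]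
      exact tp _ _
    calc _ ≤ 4 * 2 ^ (g + D + 5) * 2 ^ g * (1 / 2) ^ (2 * g + 2 * D + 12) :=
          mul_le_mul e2 e1 (by positivity) (by positivity)
      _ = _ := e3
  have h3 : (((g + D + 4 : ℕ) : ℝ) + 1) / 2 ^ (g + 2 * D + 10) ≤ (1 / 2) ^ (D + 5) := by
    rw [div_le_iff₀ (by positivity)]
    refine hJ.trans (le_of_eq ?_)
    rw [one_div, inv_pow, show g + 2 * D + 10 = (g + D + 5) + (D + 5) by omega,
      pow_add 2 (g + D + 5) (D + 5)]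
    field_simp
  linarith

/-- `exp (- x) ≤ 2 ^ (- n)` for `n ≤ x` -/
theorem exp_neg_le {x : ℝ} {n : ℕ} (h : (n : ℝ) ≤ x) : Real.exp (-x) ≤ (1 / 2) ^ n := by
  have h1 : Real.exp (-1) ≤ 1 / 2 := by
    rw [Real.exp_neg, one_div]
    apply inv_anti₀ (by norm_num)
    have := Real.add_one_le_exp (1 : ℝ)
    linarith
  calc Real.exp (-x) ≤ Real.exp (-(n : ℝ)) := Real.exp_le_exp.2 (by linarith)
    _ = Real.exp (-1) ^ n := by rw [← Real.exp_nat_mul]; congr 1; ring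
    _ ≤ (1 / 2) ^ n := pow_le_pow_left₀ (Real.exp_pos _).le h1 n

theorem two_pow_c :
    (2 : ℝ) ^ (2 * D + 11) * ((g + D + 5 : ℕ) : ℝ) * m ≤ 2 ^ (par g D m).c := by
  have h1 : g + D + 5 ≤ 2 ^ Nat.clog 2 (g + D + 5) := Nat.le_pow_clog (by norm_num) _
  have h2 : m ≤ 2 ^ Nat.clog 2 m := Nat.le_pow_clog (by norm_num) _
  have hc : (2 : ℝ) ^ (par g D m).c = 2 ^ (2 * D + 11) * 2 ^ Nat.clog 2 (g + D + 5) *
      2 ^ Nat.clog 2 m := by
    rw [← pow_add, ← pow_add]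
    rfl
  have h1' : ((g + D + 5 : ℕ) : ℝ) ≤ 2 ^ Nat.clog 2 (g + D + 5) := by exact_mod_cast h1
  have h2' : (m : ℝ) ≤ 2 ^ Nat.clog 2 m := by exact_mod_cast h2
  rw [hc]
  generalize (2 : ℝ) ^ Nat.clog 2 (g + D + 5) = A at h1'
  generalize (2 : ℝ) ^ Nat.clog 2 m = B at h2'
  have h3 : (0 : ℝ) < 2 ^ (2 * D + 11) := by positivity
  generalize (2 : ℝ) ^ (2 * D + 11) = C at h3
  have hA : (0 : ℝ) ≤ ((g + D + 5 : ℕ) : ℝ) := Nat.cast_nonneg _
  have hm0 : (0 : ℝ) ≤ m := Nat.cast_nonneg _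
  exact mul_le_mul (mul_le_mul_of_nonneg_left h1' h3.le) h2' hm0
    (mul_nonneg h3.le (hA.trans h1'))

theorem par_hp (hm : 2 * g + 2 * D + 12 ≤ m) :
    (((g + D + 4 : ℕ) : ℝ) + 1) * (2 ^ (g + D) * (2 * Real.exp (-(((1 / 2 : ℝ) ^ (D + 5)) ^ 2 *
      (2 ^ (par g D m).c / (((g + D + 4 : ℕ) : ℝ) + 1)))))) ≤ (1 / 2) ^ m := by
  have hJ0 : (0 : ℝ) < ((g + D + 4 : ℕ) : ℝ) + 1 := by positivity
  have hJ1 : (((g + D + 4 : ℕ) : ℝ) + 1) = ((g + D + 5 : ℕ) : ℝ) := by push_cast; ring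
  have hx : ((2 * m : ℕ) : ℝ) ≤ ((1 / 2 : ℝ) ^ (D + 5)) ^ 2 *
      (2 ^ (par g D m).c / (((g + D + 4 : ℕ) : ℝ) + 1)) := by
    have h1 := two_pow_c (g := g) (D := D) (m := m)
    have h2 : ((1 / 2 : ℝ) ^ (D + 5)) ^ 2 * (2 ^ (2 * D + 11)) = 2 := by
      rw [← pow_mul, show 2 * D + 11 = (D + 5) * 2 + 1 by omega, pow_succ 2, ← mul_assoc, ← mul_pow]
      norm_num
    rw [mul_div_assoc', le_div_iff₀ hJ0, hJ1]
    have h3 := mul_le_mul_of_nonneg_left h1 (show (0 : ℝ) ≤ ((1 / 2 : ℝ) ^ (D + 5)) ^ 2 by positivity)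
    refine le_trans (le_of_eq ?_) h3
    push_cast at *
    calc 2 * (m : ℝ) * (g + D + 5) = (((1 / 2 : ℝ) ^ (D + 5)) ^ 2 * (2 ^ (2 * D + 11))) *
          m * (g + D + 5) := by rw [h2]
      _ = _ := by ring
  have he := exp_neg_le hx
  have hJ : (((g + D + 4 : ℕ) : ℝ) + 1) ≤ 2 ^ (g + D + 5) := by
    have : g + D + 4 + 1 ≤ 2 ^ (g + D + 5) := (Nat.lt_two_pow_self (n := g + D + 5)).le
    exact_mod_cast this
  have h4 : (((g + D + 4 : ℕ) : ℝ) + 1) * (2 ^ (g + D) * (2 * Real.exp (-(((1 / 2 : ℝ) ^ (D + 5)) ^ 2 *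
      (2 ^ (par g D m).c / (((g + D + 4 : ℕ) : ℝ) + 1)))))) ≤
      2 ^ (g + D + 5) * (2 ^ (g + D) * (2 * (1 / 2) ^ (2 * m))) := by
    apply mul_le_mul hJ _ (by positivity) (by positivity)
    exact mul_le_mul_of_nonneg_left (mul_le_mul_of_nonneg_left he (by norm_num)) (by positivity)
  refine h4.trans ?_
  have h5 : (2 : ℝ) ^ (g + D + 5) * (2 ^ (g + D) * (2 * (1 / 2) ^ (2 * m))) =
      2 ^ (2 * g + 2 * D + 6) * (1 / 2) ^ m * (1 / 2) ^ m := by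
    rw [two_mul m, pow_add (1 / 2 : ℝ) m m,
      show 2 * g + 2 * D + 6 = (g + D + 5) + (g + D) + 1 by omega, pow_add, pow_add]
    ring
  rw [h5]
  have h6 : (2 : ℝ) ^ (2 * g + 2 * D + 6) * (1 / 2) ^ m ≤ 1 := by
    have h7 : (2 : ℝ) ^ (2 * g + 2 * D + 6) ≤ 2 ^ m := pow_le_pow_right₀ (by norm_num) (by omega)
    calc (2 : ℝ) ^ (2 * g + 2 * D + 6) * (1 / 2) ^ m ≤ 2 ^ m * (1 / 2) ^ m :=
          mul_le_mul_of_nonneg_right h7 (by positivity)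
      _ = 1 := by rw [← mul_pow]; norm_num
  exact mul_le_of_le_one_left (by positivity) h6

/-- **the parameters are admissible** -/
theorem par_ok (hM : 0 < M) (hg : 2 ^ g ∣ M) (hm : 2 * g + 2 * D + 12 ≤ m) :
    (par g D m).Ok M ((1 / 2) ^ (D + 5)) ((1 / 2) ^ D) ((1 / 2) ^ m) ((1 / 2) ^ D) := by
  have hom := om_le hm
  have e : (4 : ℝ) * (1 / 2) ^ (D + 5) = 1 / 8 * (1 / 2) ^ D := by rw [pow_add]; ring
  rw [e] at hom
  have hD : (0 : ℝ) < (1 / 2) ^ D := by positivity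
  refine ⟨hM, hg, by positivity, pow_le_one₀ (by norm_num) (by norm_num), by positivity, ?_,
    by positivity, ?_, ?_, ?_, ?_⟩
  · show ((2 ^ g : ℕ) : ℝ) ≤ (1 / 2) ^ D * 2 ^ (g + D)
    rw [pow_add, one_div, inv_pow]
    push_cast
    field_simp
    exact le_rfl
  · show g + D + 4 ≤ 2 * D + 11 + Nat.clog 2 (g + D + 5) + Nat.clog 2 m + g
    omega
  · show 4 * ((2 : ℝ) ^ g / 2 ^ (g + D + 4 + 1) + 3 * (((g + D + 4 : ℕ) : ℝ) + 1) * 2 ^ g *
      (1 / 2) ^ m + (1 / 2) ^ (D + 5) + (((g + D + 4 : ℕ) : ℝ) + 1) / 2 ^ (g + 2 * D + 10)) ≤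
      (1 / 2) ^ D
    linarith
  · show 5 * ((2 : ℝ) ^ g / 2 ^ (g + D + 4 + 1) + 3 * (((g + D + 4 : ℕ) : ℝ) + 1) * 2 ^ g *
      (1 / 2) ^ m + (1 / 2) ^ (D + 5) + (((g + D + 4 : ℕ) : ℝ) + 1) / 2 ^ (g + 2 * D + 10)) ≤
      1 / 2 ^ D
    have e2 : (1 : ℝ) / 2 ^ D = (1 / 2) ^ D := by rw [one_div, one_div, inv_pow]
    rw [e2]
    linarith
  · exact par_hp hm

theorem par_rho : (par g D m).rho ((1 / 2) ^ D) ((1 / 2) ^ D) = 16 * (1 / 2) ^ D := by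
  unfold Par.rho
  have e2 : (1 : ℝ) / 2 ^ (par g D m).t = (1 / 2) ^ D := by
    show (1 : ℝ) / 2 ^ D = _
    rw [one_div, one_div, inv_pow]
  rw [e2]
  ring

/-- the relative error after `q` macro levels is at most `1 / p` -/
theorem par_prec {q p : ℕ} (hp : 16 * q * p ≤ 2 ^ D) (hp0 : 0 < p) :
    (q : ℝ) * (par g D m).rho ((1 / 2) ^ D) ((1 / 2) ^ D) ≤ 1 / p := by
  rw [par_rho, le_div_iff₀ (by exact_mod_cast hp0)]
  have h1 : ((16 * q * p : ℕ) : ℝ) ≤ 2 ^ D := by exact_mod_cast hp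
  have h2 : (q : ℝ) * (16 * (1 / 2) ^ D) * p = ((16 * q * p : ℕ) : ℝ) * (1 / 2) ^ D := by
    push_cast; ring
  rw [h2]
  calc ((16 * q * p : ℕ) : ℝ) * (1 / 2) ^ D ≤ 2 ^ D * (1 / 2) ^ D :=
        mul_le_mul_of_nonneg_right h1 (by positivity)
    _ = 1 := by rw [← mul_pow]; norm_num

end par

/-! ### number of calls -/

section calls

variable (P : Par)

/-- number of calls made by `est e q κ` (itself included) -/
def calls : ℕ → ℕ → ℕ
  | 0, _ => 1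
  | q + 1, κ => 1 + ∑ l ∈ range (min κ P.J + 1),
      2 ^ (P.c + P.g - l) * ((2 ^ l + 2) * calls q (κ - l))

/-- the factor of one macro level, besides `2 ^ g` -/
def K : ℕ := 4 * (P.J + 1) * 2 ^ P.c

theorem one_le_K : 1 ≤ K P := by
  unfold K
  have := Nat.one_le_two_pow (n := P.c)
  nlinarith

theorem calls_le (hJ : P.J ≤ P.c + P.g) (q κ : ℕ) : calls P q κ ≤ (2 ^ P.g * K P) ^ q := by
  induction q generalizing κ with
  | zero => simp [calls]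
  | succ q ih =>
    unfold calls
    set R := (2 ^ P.g * K P) ^ q with hR
    have hR1 : 1 ≤ R := Nat.one_le_pow _ _ (Nat.mul_pos (Nat.two_pow_pos _) (one_le_K P))
    have h1 : ∀ l ∈ range (min κ P.J + 1),
        2 ^ (P.c + P.g - l) * ((2 ^ l + 2) * calls P q (κ - l)) ≤ 3 * 2 ^ (P.c + P.g) * R := by
      intro l hl
      rw [mem_range] at hl
      have h2 : 2 ^ l + 2 ≤ 3 * 2 ^ l := by have := Nat.one_le_two_pow (n := l); omega
      have h3 : 2 ^ (P.c + P.g) = 2 ^ (P.c + P.g - l) * 2 ^ l := by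
        rw [← pow_add]; congr 1; omega
      calc 2 ^ (P.c + P.g - l) * ((2 ^ l + 2) * calls P q (κ - l))
          ≤ 2 ^ (P.c + P.g - l) * ((3 * 2 ^ l) * R) :=
            Nat.mul_le_mul_left _ (Nat.mul_le_mul h2 (ih _))
        _ = 3 * 2 ^ (P.c + P.g) * R := by rw [h3]; ring
    have h2 : ∑ l ∈ range (min κ P.J + 1),
        2 ^ (P.c + P.g - l) * ((2 ^ l + 2) * calls P q (κ - l)) ≤
        (P.J + 1) * (3 * 2 ^ (P.c + P.g) * R) := by
      refine (sum_le_card_nsmul _ _ _ h1).trans ?_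
      rw [card_range, smul_eq_mul]
      exact Nat.mul_le_mul_right _ (by omega)
    have h3 : 1 ≤ (P.J + 1) * 2 ^ (P.c + P.g) * R := by
      have h4 : 1 ≤ 2 ^ (P.c + P.g) := Nat.one_le_two_pow
      have h5 : 1 ≤ (P.J + 1) * 2 ^ (P.c + P.g) := Nat.mul_pos (by omega) h4
      exact Nat.mul_pos h5 hR1
    have h4 : (2 ^ P.g * K P) ^ (q + 1) = 4 * ((P.J + 1) * 2 ^ (P.c + P.g) * R) := by
      rw [pow_succ, ← hR]
      unfold K
      rw [pow_add]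
      ring
    have h5 : (P.J + 1) * (3 * 2 ^ (P.c + P.g) * R) = 3 * ((P.J + 1) * 2 ^ (P.c + P.g) * R) := by
      ring
    rw [h4]
    rw [h5] at h2
    omega

/-- in terms of the length of the block -/
theorem calls_le' (hJ : P.J ≤ P.c + P.g) (q κ : ℕ) :
    calls P q κ ≤ 2 ^ (P.g * q) * K P ^ q := by
  refine (calls_le P hJ q κ).trans (le_of_eq ?_)
  rw [mul_pow, ← pow_mul]

/-- the number of draws of `est e q κ` -/
def draws : ℕ → ℕ → ℕ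
  | 0, _ => 0
  | q + 1, κ => if κ = 0 then 0 else ∑ l ∈ range (min κ P.J + 1),
      2 ^ (P.c + P.g - l) * (1 + (2 ^ l + 2) * draws q (κ - l))

end calls

theorem two_pow_clog_le {n : ℕ} (h : n ≠ 0) : 2 ^ Nat.clog 2 n ≤ 2 * n := by
  rcases Nat.lt_or_ge n 2 with h1 | h1
  · have : n = 1 := by omega
    subst this
    simp
  · have h2 : Nat.clog 2 n - 1 < Nat.clog 2 n := by
      have := Nat.clog_pos (b := 2) (by norm_num) h1
      omega
    have h3 : 2 ^ (Nat.clog 2 n - 1) < n := by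
      rw [← not_le]
      intro h4
      have := Nat.clog_le_of_le_pow h4
      omega
    have h4 : 2 ^ Nat.clog 2 n = 2 * 2 ^ (Nat.clog 2 n - 1) := by
      rw [← pow_succ']
      congr 1
      omega
    omega

/-- the factor of a macro level is polynomial in `2 ^ D`, `g`, `D`, `m` -/
theorem K_le {g D m : ℕ} (hm : m ≠ 0) :
    K (par g D m) ≤ 2 ^ (2 * D + 15) * (g + D + 5) ^ 2 * m := by
  unfold K par
  dsimp only
  have h1 := two_pow_clog_le (n := g + D + 5) (by omega)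
  have h2 := two_pow_clog_le hm
  rw [pow_add, pow_add 2 (2 * D + 11) (Nat.clog 2 (g + D + 5))]
  calc 4 * (g + D + 4 + 1) * (2 ^ (2 * D + 11) * 2 ^ Nat.clog 2 (g + D + 5) * 2 ^ Nat.clog 2 m)
      ≤ 4 * (g + D + 4 + 1) * (2 ^ (2 * D + 11) * (2 * (g + D + 5)) * (2 * m)) :=
        Nat.mul_le_mul_left _ (Nat.mul_le_mul (Nat.mul_le_mul_left _ h1) h2)
    _ = 2 ^ (2 * D + 15) * (g + D + 5) ^ 2 * m := by
        rw [show 2 * D + 15 = 2 * D + 11 + 4 by omega, pow_add 2 (2 * D + 11) 4]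
        ring

end Crest.Agent.R288.InitN775
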