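import Crest.Agent.R288.Red_867

/-!
# R288: the tape layer in HL (helper867)

Randomness up front: `drawT z a k x y t` = keep `a` bits of every random word, draw `var y` words
into array `k`. Afterwards a deterministic command may be used.

* `tape_draw`: `HPR` triple of `drawAll` for any event `G` on streams;
* `tape_red`: the same with words of `min W w` bits on a machine with word length `w`
  (all later costs are independent of `w`);
* **`tape_core`**: `drawT ;; core` with a deterministic core on every good stream;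
* `tape_coreP`: the event given by a set of tables of `D` words.
-/

set_option autoImplicit false

namespace Crest.Agent.R288.TapeHL867

open Crest.Agent.R295 Crest.Agent.R295.HL Crest.Agent.R295.TopH791 Crest.Agent.R295.Prob791
open Crest.Agent.R288.EnvM12 Crest.Agent.R288.Red867

/-- array `k` of `s'` holds the next `D` words of `ρ` modulo `N` (nothing else has changed in this
array) -/
structure Holds (k D N : ℕ) (ρ : ℕ → ℕ) (s s' : State) : Prop where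
  get : ∀ i < D, s'.arr k i = ρ (s.drawn + i) % N
  out : ∀ i, D ≤ i → s'.arr k i = s.arr k i
  drawn : s'.drawn = s.drawn + D

theorem tape_draw {v L : ℕ} {s : State} {k x y t D : ℕ} {δ : ℝ} (hy : s.reg y = D) (hD : D ≤ L)
    (hDB : D < 2 ^ v) (hxy : x ≠ y) (hyt : y ≠ t) (hxt : x ≠ t) (G : (ℕ → ℕ) → Prop)
    (hG : ∀ (T : ℕ) (ρ0 : ℕ → ℕ), cnt (2 ^ v) (D + T) s.drawn ρ0 (fun ρ => ¬ G ρ) ≤
      δ * ((2 ^ v : ℕ) : ℝ) ^ (D + T)) :
    HPR v L (drawAll k x y t) s (4 * D + 2) (fun s' =>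
      (∃ ρ, G ρ ∧ Holds k D (2 ^ v) ρ s s') ∧ (drawAll k x y t).Frame s s') δ := by
  intro T hT ρ0
  obtain ⟨T, rfl⟩ := Nat.exists_eq_add_of_le (show D ≤ T by omega)
  refine le_trans (cnt_mono fun tab h1 h2 => h1 ?_) (hG T ρ0)
  refine Runs.post (Runs.frame (drawAll_runs (e := ⟨2 ^ v, L, splice ρ0 s.drawn tab⟩) (k := k)
    hy hD hDB hxy hyt hxt)) ?_
  rintro s' ⟨⟨h3, h4, h5⟩, h6⟩
  exact ⟨⟨_, h2, ⟨h3, h4, h5⟩⟩, h6⟩

theorem drawAll_wr (k x y t z : ℕ) : (drawAll k x y t).wr z ↔ x = z ∨ t = z := by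
  simp [drawAll]

theorem drawAll_wa (k x y t j : ℕ) : (drawAll k x y t).wa j ↔ k = j := by
  simp [drawAll]

theorem tape_red {w W L L' : ℕ} {s : State} {k x y t z D : ℕ} {δ : ℝ} (hz : s.reg z = W)
    (hxz : x ≠ z) (htz : t ≠ z) (hL : L ≤ L') (hy : s.reg y = D) (hD : D ≤ L)
    (hDB : D < 2 ^ min W w) (hxy : x ≠ y) (hyt : y ≠ t) (hxt : x ≠ t) (G : (ℕ → ℕ) → Prop)
    (hG : ∀ (T : ℕ) (ρ0 : ℕ → ℕ), cnt (2 ^ min W w) (D + T) s.drawn ρ0 (fun ρ => ¬ G ρ) ≤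
      δ * ((2 ^ min W w : ℕ) : ℝ) ^ (D + T)) :
    HPR w L' (red z (drawAll k x y t)) s (2 * (4 * D + 2)) (fun s' =>
      (∃ ρ, G ρ ∧ Holds k D (2 ^ min W w) ρ s s') ∧ (drawAll k x y t).Frame s s') δ :=
  HPR.red (tape_draw hy hD hDB hxy hyt hxt G hG) hL
    (by rw [drawAll_wr]; exact fun h => h.elim hxz htz) hz

/-- keep `a` bits of every word, draw `var y` words into array `k` -/
def drawT (z : ℕ) (a : Exp) (k x y t : ℕ) : Cmd := .set z a ;; red z (drawAll k x y t)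

theorem drawT_wr (z : ℕ) (a : Exp) (k x y t r : ℕ) :
    (drawT z a k x y t).wr r ↔ z = r ∨ x = r ∨ t = r := by
  rw [drawT, Cmd.wr_seq, Cmd.wr_set, red_wr, drawAll_wr]

theorem drawT_wa (z : ℕ) (a : Exp) (k x y t j : ℕ) : (drawT z a k x y t).wa j ↔ k = j := by
  rw [drawT, Cmd.wa_seq, Cmd.wa_set, red_wa, drawAll_wa, false_or]

theorem drawT_ids {z : ℕ} {a : Exp} {k x y t K R : ℕ} (hz : z < R) (ha : a.ids K R) (hk : k < K)
    (hx : x < R) (hy : y < R) (ht : t < R) : (drawT z a k x y t).ids K R := by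
  refine ⟨⟨hz, ha⟩, red_ids hz _ ?_⟩
  simp only [drawAll, forUp, Cmd.ids, Cnd.ids, Exp.ids]
  tauto

/-- the state after `drawT` on a good stream -/
structure After (G : (ℕ → ℕ) → Prop) (k D N x t z W : ℕ) (s s' : State) : Prop where
  tape : ∃ ρ, G ρ ∧ Holds k D N ρ s s'
  reg : ∀ r, r ≠ x → r ≠ t → r ≠ z → s'.reg r = s.reg r
  bits : s'.reg z = W
  arr : ∀ j, j ≠ k → s'.arr j = s.arr j

theorem drawT_hpr {w W L : ℕ} {s : State} {k x y t z D : ℕ} {a : Exp} {δ : ℝ}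
    (ha : ∀ ρ, a.ok ⟨2 ^ w, L, ρ⟩ s) (haW : a.val s = W)
    (hxz : x ≠ z) (htz : t ≠ z) (hyz : y ≠ z) (hy : s.reg y = D) (hD : D ≤ L)
    (hDB : D < 2 ^ min W w) (hxy : x ≠ y) (hyt : y ≠ t) (hxt : x ≠ t) (G : (ℕ → ℕ) → Prop)
    (hG : ∀ (T : ℕ) (ρ0 : ℕ → ℕ), cnt (2 ^ min W w) (D + T) s.drawn ρ0 (fun ρ => ¬ G ρ) ≤
      δ * ((2 ^ min W w : ℕ) : ℝ) ^ (D + T)) :
    HPR w L (drawT z a k x y t) s (8 * D + 5) (After G k D (2 ^ min W w) x t z W s) δ := by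
  refine HPR.seq_det (p := .set z a) (n := 1) (m := 2 * (4 * D + 2)) (ρ₁ := fun _ => 0)
    (R := fun s' => s' = s.setReg z W) trivial ?_ ?_ (by omega)
  · exact ⟨_, 1, .set (ha _), le_rfl, by rw [haW]⟩
  · rintro s' rfl -
    refine (tape_red (s := s.setReg z W) (by simp) hxz htz (le_refl L)
      (by simp [hyz, hy]) hD hDB hxy hyt hxt G hG).mono le_rfl ?_ le_rfl
    rintro s1 ⟨⟨ρ, c1, c2⟩, c3⟩
    refine ⟨⟨ρ, c1, ⟨c2.get, fun i hi => (c2.out i hi).trans rfl, c2.drawn.trans rfl⟩⟩, ?_, ?_, ?_⟩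
    · intro r r1 r2 r3
      have hr : ¬ (drawAll k x y t).wr r := by
        rw [drawAll_wr]
        rintro (h | h)
        · exact r1 h.symm
        · exact r2 h.symm
      rw [c3.reg r hr]
      simp [r3]
    · have hr : ¬ (drawAll k x y t).wr z := by
        rw [drawAll_wr]
        exact fun h => h.elim hxz htz
      rw [c3.reg z hr]
      simp
    · intro j hj
      have hr : ¬ (drawAll k x y t).wa j := by
        rw [drawAll_wa]
        exact fun h => hj h.symm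
      rw [c3.arr j hr]
      simp

/-- **tapes first, then a deterministic program**: `core` is only run on good streams -/
theorem tape_core {w W L : ℕ} {s : State} {k x y t z D : ℕ} {a : Exp} {core : Cmd} {m N : ℕ}
    {Q : State → Prop} {δ : ℝ} (ha : ∀ ρ, a.ok ⟨2 ^ w, L, ρ⟩ s) (haW : a.val s = W)
    (hxz : x ≠ z) (htz : t ≠ z) (hyz : y ≠ z) (hy : s.reg y = D) (hD : D ≤ L)
    (hDB : D < 2 ^ min W w) (hxy : x ≠ y) (hyt : y ≠ t) (hxt : x ≠ t) (G : (ℕ → ℕ) → Prop)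
    (hG : ∀ (T : ℕ) (ρ0 : ℕ → ℕ), cnt (2 ^ min W w) (D + T) s.drawn ρ0 (fun ρ => ¬ G ρ) ≤
      δ * ((2 ^ min W w : ℕ) : ℝ) ^ (D + T))
    (hcore : ∀ s', After G k D (2 ^ min W w) x t z W s s' →
      ∀ ρ, Runs ⟨2 ^ w, L, ρ⟩ core s' m Q)
    (hN : 8 * D + 5 + m ≤ N) :
    HPR w L (drawT z a k x y t ;; core) s N Q δ :=
  HPR.then_det (drawT_hpr ha haW hxz htz hyz hy hD hDB hxy hyt hxt G hG)
    (fun s' ρ h => hcore s' h ρ) hN

/-- an event that depends on the next `D` words only -/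
theorem cnt_table {v D : ℕ} {d : ℕ} {δ : ℝ} (P : (Fin D → Fin (2 ^ v)) → Prop)
    (hP : (Nat.card {τ : Fin D → Fin (2 ^ v) // ¬ P τ} : ℝ) ≤ δ * ((2 ^ v : ℕ) : ℝ) ^ D)
    (T : ℕ) (ρ0 : ℕ → ℕ) :
    cnt (2 ^ v) (D + T) d ρ0 (fun ρ => ¬ P (fun i => ⟨ρ (d + i) % 2 ^ v,
      Nat.mod_lt _ (Nat.two_pow_pos v)⟩)) ≤ δ * ((2 ^ v : ℕ) : ℝ) ^ (D + T) := by
  rw [cnt_first (N := 2 ^ v) D T d ρ0 (fun τ => ¬ P τ), pow_add, ← mul_assoc]
  · exact mul_le_mul_of_nonneg_right hP (by positivity)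
  · intro tab
    have : (fun i : Fin D => (⟨splice ρ0 d tab (d + i) % 2 ^ v,
        Nat.mod_lt _ (Nat.two_pow_pos v)⟩ : Fin (2 ^ v))) = fun i : Fin D => tab ⟨i, by omega⟩ := by
      funext i
      apply Fin.ext
      show splice ρ0 d tab (d + i) % 2 ^ v = _
      rw [splice_ge ρ0 tab (show (i : ℕ) < D + T by omega)]
      exact Nat.mod_eq_of_lt (tab ⟨i, by omega⟩).2
    rw [this]

/-- the event given by a set of tables -/
theorem tape_coreP {w W L : ℕ} {s : State} {k x y t z D : ℕ} {a : Exp} {core : Cmd} {m N : ℕ}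
    {Q : State → Prop} {δ : ℝ} (ha : ∀ ρ, a.ok ⟨2 ^ w, L, ρ⟩ s) (haW : a.val s = W)
    (hxz : x ≠ z) (htz : t ≠ z) (hyz : y ≠ z) (hy : s.reg y = D) (hD : D ≤ L)
    (hDB : D < 2 ^ min W w) (hxy : x ≠ y) (hyt : y ≠ t) (hxt : x ≠ t)
    (P : (Fin D → Fin (2 ^ min W w)) → Prop)
    (hP : (Nat.card {τ : Fin D → Fin (2 ^ min W w) // ¬ P τ} : ℝ) ≤
      δ * ((2 ^ min W w : ℕ) : ℝ) ^ D)
    (hcore : ∀ (τ : Fin D → Fin (2 ^ min W w)) (s' : State), P τ →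
      (∀ i : Fin D, s'.arr k i = τ i) → (∀ i, D ≤ i → s'.arr k i = s.arr k i) →
      s'.drawn = s.drawn + D → (∀ r, r ≠ x → r ≠ t → r ≠ z → s'.reg r = s.reg r) →
      s'.reg z = W → (∀ j, j ≠ k → s'.arr j = s.arr j) →
      ∀ ρ, Runs ⟨2 ^ w, L, ρ⟩ core s' m Q)
    (hN : 8 * D + 5 + m ≤ N) :
    HPR w L (drawT z a k x y t ;; core) s N Q δ := by
  refine tape_core ha haW hxz htz hyz hy hD hDB hxy hyt hxt _
    (fun T ρ0 => cnt_table P hP T ρ0) ?_ hN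
  rintro s' ⟨⟨ρ, h1, h2⟩, h3, h4, h5⟩
  exact hcore _ s' h1 (fun i => h2.get i i.2) h2.out h2.drawn h3 h4 h5

end Crest.Agent.R288.TapeHL867
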