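import Crest.Agent.R288.Tape_829
import Crest.Agent.R288.TapeHL_867

/-!
# R288 [TAPES/GOOD] part 2 (helper829)

* `HPR_tapes`: fill the tapes (`drawT` of `TapeHL_867`), then run a deterministic core that behaves
  well whenever all value functions `Xv M o t (contents of the tape array) 0` are good.
* `up p a`: upward rounding `≥ (1 + 1/p) (a + 1)`.
* `robU k s p t`: upward robust mean (median of means, then `up p`); **`Pr_robU`**: if
  `E t = μ`, `Var t ≤ V`, `3 V ≤ k c ^ 2`, `c (p + 1) ≤ μ`, `3 p ≤ μ`, then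
  `μ ≤ robU ≤ (1 + 4 / p) μ`, except with probability `2 ^ (-s)`; `Pr_robU_sq`: with a second
  moment; `Dr M t A`: at most `A` draws on every stream, with rules.
-/

set_option autoImplicit false

namespace Crest.Agent.R288.Tape829

open Finset
open Crest.Agent.R295 Crest.Agent.R295.HL Crest.Agent.R295.Rnd627 Crest.Agent.R295.Prob791
open Crest.Agent.R295.TopH791 Crest.Agent.R288.Med559
open Crest.Agent.R288.Bridge331 Crest.Agent.R288.TapeHL867

universe u v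

/-! ### the machine form -/

section machine

variable {σ : Type u} {β : Type v} [Inhabited β]

/-- **tapes first, then a deterministic core**: `a` = number of bits `W` of the words that are kept,
`y` = register with the length `D = o Λ` of the tapes, `k` = the tape array -/
theorem HPR_tapes {w W L : ℕ} {s : State} {k x y r z D : ℕ} {a : Exp} {core : Cmd} {m N Λ : ℕ}
    {Q : State → Prop} {o : ℕ → ℕ} {t : ℕ → (ℕ → σ → β) → σ → RT β} {Ω : ℕ → Finset σ}
    {Gd : ℕ → (ℕ → σ → β) → σ → β → Prop} {δ : ℕ → ℝ}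
    (ha : ∀ ρ, a.ok ⟨2 ^ w, L, ρ⟩ s) (haW : a.val s = W)
    (hxz : x ≠ z) (hrz : r ≠ z) (hyz : y ≠ z) (hy : s.reg y = D) (hD : D ≤ L)
    (hDB : D < 2 ^ min W w) (hxy : x ≠ y) (hyr : y ≠ r) (hxr : x ≠ r)
    (hoD : o Λ ≤ D) (ho : ∀ l < Λ, o l ≤ o (l + 1))
    (hS : ∀ l < Λ, ∀ X x, (t l (lo l X) x).cnt.All (2 ^ min W w) fun y => o l + y.2 ≤ o (l + 1))
    (hδ0 : ∀ l < Λ, 0 ≤ δ l)
    (hδ : ∀ l < Λ, ∀ X, AllGood l Ω Gd X → ∀ x ∈ Ω l,
      (t l (lo l X) x).Pr (2 ^ min W w) (fun b => ¬ Gd l (lo l X) x b) ≤ δ l)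
    (hcore : ∀ s' : State, (∀ i < D, s'.arr k i < 2 ^ min W w) →
      AllGood Λ Ω Gd (Xv (2 ^ min W w) o t (s'.arr k) 0) →
      (∀ i, D ≤ i → s'.arr k i = s.arr k i) → s'.drawn = s.drawn + D →
      (∀ j, j ≠ x → j ≠ r → j ≠ z → s'.reg j = s.reg j) → s'.reg z = W →
      (∀ j, j ≠ k → s'.arr j = s.arr j) → ∀ ρ, Runs ⟨2 ^ w, L, ρ⟩ core s' m Q)
    (hN : 8 * D + 5 + m ≤ N) :
    HPR w L (drawT z a k x y r ;; core) s N Q (∑ l ∈ range Λ, (Ω l).card * δ l) := by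
  have hM : 0 < 2 ^ min W w := Nat.two_pow_pos _
  have hmono : ∀ l ≤ Λ, ∀ i ≤ l, o i ≤ o l := by
    intro l
    induction l with
    | zero => intro _ i hi; rw [Nat.le_zero.1 hi]
    | succ l ih =>
      intro hl i hi
      rcases Nat.lt_or_ge i (l + 1) with h | h
      · exact (ih (by omega) i (by omega)).trans (ho l (by omega))
      · rw [show i = l + 1 by omega]
  refine tape_core ha haW hxz hrz hyz hy hD hDB hxy hyr hxr
    (fun ρ => AllGood Λ Ω Gd (Xv (2 ^ min W w) o t ρ s.drawn)) (fun T ρ0 => ?_) ?_ hN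
  · exact cnt_bad hM hM (dvd_refl _) ρ0 ho (by omega) hS hδ0 hδ
  · rintro s' ⟨⟨ρ, h1, h2⟩, h3, h4, h5⟩ ρ'
    refine hcore s' (fun i hi => ?_) ?_ h2.out h2.drawn h3 h4 h5 ρ'
    · rw [h2.get i hi]
      exact Nat.mod_lt _ hM
    · refine h1.congr (Xv_congr (T := D) (fun l hl X x => (hS l hl X x).mono fun y hy => ?_) hM
        fun i hi => ?_)
      · exact hy.trans ((hmono Λ le_rfl (l + 1) (by omega)).trans hoD)
      · rw [Nat.zero_add, h2.get i hi, Nat.mod_mod]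

end machine

/-! ### rounding up -/

/-- upward rounding: at least `(1 + 1/p) (a + 1)` -/
def up (p a : ℕ) : ℕ := a + 1 + (a + 1) / p + 1

theorem le_up {p a : ℕ} (hp : 0 < p) {μ c : ℝ} (h : μ - c - 1 ≤ a) (hc : c * (p + 1) ≤ μ) :
    μ ≤ up p a := by
  have hp' : (0 : ℝ) < p := Nat.cast_pos.2 hp
  have h1 : ((a : ℝ) + 1) / p ≤ ((a + 1) / p : ℕ) + 1 := by
    rw [div_le_iff₀ hp']
    have h2 := (Nat.lt_div_mul_add (a := a + 1) hp).le
    have h3 : ((a : ℝ) + 1) ≤ ((a + 1) / p : ℕ) * p + p := by exact_mod_cast h2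
    linarith
  have h4 : ((up p a : ℕ) : ℝ) = a + 1 + ((a + 1) / p : ℕ) + 1 := by
    unfold up; push_cast; ring
  rw [h4]
  have h5 : μ - c ≤ a + 1 := by linarith
  have h6 : (μ - c) / p ≤ ((a : ℝ) + 1) / p := div_le_div_of_nonneg_right h5 hp'.le
  have h7 : μ - c + (μ - c) / p ≥ μ := by
    have : c ≤ (μ - c) / p := by
      rw [le_div_iff₀ hp']
      linarith
    linarith
  linarith

theorem up_le {p a : ℕ} (hp : 0 < p) {μ c : ℝ} (h : (a : ℝ) ≤ μ + c)
    (hc : c * (p + 1) ≤ μ) (hμ : 3 * (p : ℝ) ≤ μ) : (up p a : ℝ) ≤ (1 + 4 / p) * μ := by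
  have hp' : (0 : ℝ) < p := Nat.cast_pos.2 hp
  have hp1 : (1 : ℝ) ≤ p := by exact_mod_cast hp
  have h1 : (((a + 1) / p : ℕ) : ℝ) ≤ ((a : ℝ) + 1) / p := by
    have := Nat.cast_div_le (α := ℝ) (m := a + 1) (n := p)
    rwa [Nat.cast_add, Nat.cast_one] at this
  have h4 : ((up p a : ℕ) : ℝ) = a + 1 + ((a + 1) / p : ℕ) + 1 := by
    unfold up; push_cast; ring
  rw [h4]
  have h2 : ((a : ℝ) + 1) / p ≤ (μ + c + 1) / p := div_le_div_of_nonneg_right (by linarith) hp'.le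
  have h3 : μ + c + 2 + (μ + c + 1) / p ≤ (1 + 4 / p) * μ := by
    have e : (1 + 4 / p) * μ - (μ + c + 2 + (μ + c + 1) / p) =
        (3 * μ - c * (p + 1) - 2 * p - 1) / p := by
      field_simp
      ring
    have : 0 ≤ (3 * μ - c * (p + 1) - 2 * p - 1) / p := by
      apply div_nonneg _ hp'.le
      linarith
    linarith
  linarith

/-! ### upward robust mean -/

/-- median of `12 s + 1` means of `k` repetitions, rounded up by the factor `1 + 1/p` -/
noncomputable def robU (k s p : ℕ) (t : RT ℕ) : RT ℕ := (momRT k s t).map (up p)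

/-- **the robust mean is an upper bound of the mean, up to a factor `1 + 4/p`** -/
theorem Pr_robU {M : ℕ} (hM : 0 < M) (t : RT ℕ) {k p : ℕ} (hk : 0 < k) (hp : 0 < p)
    {c V μ : ℝ} (hc : 0 < c) (hμ : t.Ev M (fun a : ℕ => (a : ℝ)) = μ)
    (hV : (t.Ev M fun a : ℕ => ((a : ℝ) - μ) ^ 2) ≤ V) (h3 : 3 * V ≤ k * c ^ 2)
    (hcp : c * (p + 1) ≤ μ) (hpμ : 3 * (p : ℝ) ≤ μ) (s : ℕ) :
    (robU k s p t).Pr M (fun v => ¬ (μ ≤ v ∧ (v : ℝ) ≤ (1 + 4 / p) * μ)) ≤ (1 / 2) ^ s := by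
  unfold robU
  rw [RT.Pr_map]
  have h1 := Pr_mom hM t hk hc hμ hV h3 s
  have h2 := RT.Pr_not hM (momRT k s t) fun v => μ - c - 1 ≤ v ∧ (v : ℝ) ≤ μ + c
  refine le_trans (RT.Pr_mono (Q := fun v : ℕ => ¬ (μ - c - 1 ≤ v ∧ (v : ℝ) ≤ μ + c)) ?_) ?_
  · intro v h4 h5
    exact h4 ⟨le_up hp h5.1 hcp, up_le hp h5.2 hcp hpμ⟩
  · rw [h2]
    linarith

/-- the variance is at most the second moment -/
theorem var_le {M : ℕ} (hM : 0 < M) (t : RT ℕ) {μ V : ℝ}
    (hμ : t.Ev M (fun a : ℕ => (a : ℝ)) = μ) (hV : (t.Ev M fun a : ℕ => (a : ℝ) ^ 2) ≤ V) :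
    (t.Ev M fun a : ℕ => ((a : ℝ) - μ) ^ 2) ≤ V := by
  have h1 : (t.Ev M fun a : ℕ => ((a : ℝ) - μ) ^ 2) =
      (t.Ev M fun a : ℕ => (a : ℝ) ^ 2) - μ ^ 2 := by
    have e : (fun a : ℕ => ((a : ℝ) - μ) ^ 2) =
        fun a : ℕ => ((a : ℝ) ^ 2 - 2 * μ * (a : ℝ)) + μ ^ 2 := by
      funext a; ring
    rw [e, RT.Ev_add, RT.Ev_sub, RT.Ev_mul_left, RT.Ev_const hM, hμ]
    ring
  rw [h1]
  have := sq_nonneg μ
  linarith

/-- the same with a bound for the second moment -/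
theorem Pr_robU_sq {M : ℕ} (hM : 0 < M) (t : RT ℕ) {k p : ℕ} (hk : 0 < k) (hp : 0 < p)
    {c V μ : ℝ} (hc : 0 < c) (hμ : t.Ev M (fun a : ℕ => (a : ℝ)) = μ)
    (hV : (t.Ev M fun a : ℕ => (a : ℝ) ^ 2) ≤ V) (h3 : 3 * V ≤ k * c ^ 2)
    (hcp : c * (p + 1) ≤ μ) (hpμ : 3 * (p : ℝ) ≤ μ) (s : ℕ) :
    (robU k s p t).Pr M (fun v => ¬ (μ ≤ v ∧ (v : ℝ) ≤ (1 + 4 / p) * μ)) ≤ (1 / 2) ^ s :=
  Pr_robU hM t hk hp hc hμ (var_le hM t hμ hV) h3 hcp hpμ s

/-- a computation with one possible value: no error except the rounding -/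
theorem momRT_const {M : ℕ} {t : RT ℕ} {a : ℕ} (h : t.All M fun v => v = a) {k : ℕ} (hk : 0 < k)
    (s : ℕ) : (momRT k s t).All M fun v => v = a := by
  unfold momRT medRT RT.map
  rw [RT.All_bind]
  have h1 : ((RT.reps k t).bind fun l => RT.ret (l.sum / k)).All M fun v => v = a := by
    rw [RT.All_bind]
    refine ((RT.All_reps h k)).mono fun l hl => ?_
    obtain ⟨h1, h2⟩ := hl
    have h3 : l = List.replicate k a := List.eq_replicate_iff.2 ⟨h1, h2⟩
    show l.sum / k = a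
    rw [h3, List.sum_replicate, smul_eq_mul, Nat.mul_div_cancel_left _ hk]
  refine (RT.All_reps h1 (2 * (6 * s) + 1)).mono fun l hl => ?_
  obtain ⟨h2, h3⟩ := hl
  show med l = a
  have hl0 : l ≠ [] := by
    intro h; rw [h] at h2; simp at h2
  exact h3 _ (med_mem_list hl0)

/-! ### number of draws -/

section draws

variable {α : Type u} {β : Type v} {M A B : ℕ}

/-- at most `A` draws on every stream -/
def Dr (M : ℕ) (t : RT α) (A : ℕ) : Prop := ∀ ρ i, t.nxt M ρ i ≤ i + A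

/-- the two forms of the bound for the draws -/
theorem dr_iff (hM : 0 < M) {t : RT α} : Dr M t A ↔ t.cnt.All M fun x => x.2 ≤ A := by
  constructor
  · intro h
    refine all_cnt_of_val t (fun _ m => m ≤ A) 0 fun ρ => ?_
    have := h ρ 0
    omega
  · intro h ρ i
    have h1 := h.val hM ρ i
    have h2 := RT.run_cnt M t ρ i
    have h3 := RT.le_nxt M t ρ i
    unfold RT.val at h1
    rw [h2] at h1
    simp only at h1
    omega

theorem Dr.mono {t : RT α} (h : Dr M t A) (hAB : A ≤ B) : Dr M t B := fun ρ i =>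
  (h ρ i).trans (by omega)

theorem Dr.ret (a : α) : Dr M (RT.ret a) A := fun _ i => Nat.le_add_right i A

theorem Dr.draw : Dr M RT.draw 1 := fun _ _ => le_rfl

/-- draws of consecutive computations -/
theorem Dr.bind {t : RT α} {f : α → RT β} {P : α → Prop} (hM : 0 < M) (ht : Dr M t A)
    (hP : t.All M P) (hf : ∀ a, P a → Dr M (f a) B) : Dr M (t.bind f) (A + B) := by
  intro ρ i
  have h1 : (t.bind f).nxt M ρ i = (f (t.val M ρ i)).nxt M ρ (t.nxt M ρ i) := by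
    unfold RT.nxt RT.val
    rw [RT.run_bind]
  rw [h1]
  have h2 := ht ρ i
  have h3 := hf _ (hP.val hM ρ i) ρ (t.nxt M ρ i)
  omega

theorem Dr.map {t : RT α} (ht : Dr M t A) (f : α → β) : Dr M (t.map f) A := by
  intro ρ i
  have h1 : (t.map f).nxt M ρ i = t.nxt M ρ i := by
    unfold RT.nxt
    rw [RT.run_map]
  rw [h1]
  exact ht ρ i

theorem Dr.reps {t : RT α} (hM : 0 < M) (ht : Dr M t A) (k : ℕ) : Dr M (RT.reps k t) (k * A) := by
  induction k with
  | zero => exact Dr.ret _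
  | succ k ih =>
    rw [RT.reps_succ]
    refine (Dr.bind hM ht (P := fun _ => True) (RT.All.of_forall fun _ => trivial)
      (B := k * A) fun a _ => ?_).mono (by rw [Nat.succ_mul]; omega)
    exact ih.map _

theorem Dr.momRT {t : RT ℕ} (hM : 0 < M) (ht : Dr M t A) (k s : ℕ) :
    Dr M (momRT k s t) ((12 * s + 1) * (k * A)) := by
  unfold Med559.momRT medRT
  refine Dr.map ?_ _
  refine (Dr.reps hM ((ht.reps hM k).map _) _).mono ?_
  exact Nat.mul_le_mul_right _ (by omega)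

theorem Dr.robU {t : RT ℕ} (hM : 0 < M) (ht : Dr M t A) (k s p : ℕ) :
    Dr M (robU k s p t) ((12 * s + 1) * (k * A)) := (ht.momRT hM k s).map _

end draws

end Crest.Agent.R288.Tape829
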