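import Mathlib
import Crest.Agent.R288.InitF_772
import Crest.Agent.R288.InitN_775
import Crest.Agent.R288.Gt_373
import Crest.Agent.R288.Tape2_829

/-!
# R288 (S0433), leaf [Init], part 8: the numbers of index 0 (FINAL FORM)

* `U0n x y g h j u v : ℕ` = `|u - v| + 2 E + off u + off v` on all of `ℤ × ℤ`;
  `Gn_le_U0n`, `U0n_le : U0n ≤ (8 * 2^g * L + 1) * Gn`, `U0n_lip` (constant `2 + 2 * 2^g`);
* `Par.u0 P p x y h j u v : RT ℕ`, the number of index 0 (binary height `h`);
* `Gd0 x y g p h j u v w : U0n ≤ w ∧ w ≤ (1 + 4/p) U0n + 8`; `Gd0.gn_le`, `Gd0.le_gn`, `Gd0.lip`;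
* `u0_good`, `u0_par` (instance `InitN775.par`): failure `≤ (h + 3) δ`;
* `u0_dr` : number of words; `u0_size` : the value on every tape.
-/

set_option autoImplicit false

namespace Crest.Agent.R288.Init772

open Finset Crest.Agent.R295.Rnd627 Crest.Agent.R295.Rnd627.RT
open Crest.Agent.R288.NodeA785 Crest.Agent.R288.Gt373 Crest.Agent.R288.Tape829

section nat

variable (x y : List ℕ)

/-- the start bound as a natural number, on all of `ℤ × ℤ` -/
noncomputable def U0n (g h j : ℕ) (u v : ℤ) : ℕ :=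
  U0 x y g h j u v + off y.length (lo x.length h j) u + off y.length (hi x.length h j) v

theorem cast_U0n (g h j : ℕ) (u v : ℤ) : (U0n x y g h j u v : ℝ) = U0t x y g h j u v := by
  unfold U0n U0 U0t
  rw [dz_eq_natAbs]
  push_cast
  ring

theorem Gn_le_U0n (g h j : ℕ) (u v : ℤ) : Gn x y h j u v ≤ U0n x y g h j u v := by
  have h1 := gn_le_U0 x y g h j u v
  unfold Gn U0n
  omega

theorem U0n_le {g L h : ℕ} (hg : 1 ≤ g) (hL : h + 1 ≤ 2 * L) (j : ℕ) (u v : ℤ) :
    U0n x y g h j u v ≤ (8 * 2 ^ g * L + 1) * Gn x y h j u v := by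
  have h1 := U0t_le x y (g := g) (L := L) hg hL j u v
  rw [← cast_U0n] at h1
  unfold Gt at h1
  exact_mod_cast h1

theorem off_lip (n a : ℕ) (u u' : ℤ) : off n a u ≤ off n a u' + (u - u').natAbs := by
  have := clip_off n a u u'
  omega

/-- the start bound is `(2 + 2 * 2 ^ g)`-Lipschitz -/
theorem U0n_lip {g : ℕ} (hg : 1 ≤ g) (h j : ℕ) (u v u' v' : ℤ) :
    U0n x y g h j u v ≤
      U0n x y g h j u' v' + (2 + 2 * 2 ^ g) * ((u - u').natAbs + (v - v').natAbs) := by
  have h1 := E_lip g (mis x y) hg (mis_lip x y) h j u u'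
  have h2 := off_lip y.length (lo x.length h j) u u'
  have h3 := off_lip y.length (hi x.length h j) v v'
  have h4 : (u - v).natAbs ≤ (u' - v').natAbs + (u - u').natAbs + (v - v').natAbs := by omega
  have h5 : (2 + 2 * 2 ^ g) * ((u - u').natAbs + (v - v').natAbs) =
      2 * ((u - u').natAbs + (v - v').natAbs) +
      2 * (2 ^ g * (u - u').natAbs) + 2 * (2 ^ g * (v - v').natAbs) := by ring
  unfold U0n U0
  rw [h5]
  omega

/-- good numbers of index 0 -/
def Gd0 (g p h j : ℕ) (u v : ℤ) (w : ℕ) : Prop :=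
  U0n x y g h j u v ≤ w ∧ (w : ℝ) ≤ (1 + 4 / p) * U0n x y g h j u v + 8

variable {x y} {g p h j w : ℕ} {u v : ℤ}

theorem Gd0.gn_le (hG : Gd0 x y g p h j u v w) : Gn x y h j u v ≤ w :=
  (Gn_le_U0n x y g h j u v).trans hG.1

theorem Gd0.le_gn (hG : Gd0 x y g p h j u v w) (hp : 4 ≤ p) (hg : 1 ≤ g) {L : ℕ}
    (hL : h + 1 ≤ 2 * L) : w ≤ 2 * (8 * 2 ^ g * L + 1) * Gn x y h j u v + 8 := by
  have h1 := hG.2
  have h2 := U0n_le x y (g := g) hg hL j u v
  have h3 : (U0n x y g h j u v : ℝ) ≤ (8 * 2 ^ g * L + 1) * Gn x y h j u v := by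
    exact_mod_cast h2
  have hp' : (4 : ℝ) ≤ p := by exact_mod_cast hp
  have h4 : (4 : ℝ) / p ≤ 1 := by
    rw [div_le_one (by linarith)]; exact hp'
  have h5 : (w : ℝ) ≤ 2 * (8 * 2 ^ g * L + 1) * Gn x y h j u v + 8 := by
    have h6 : (0 : ℝ) ≤ U0n x y g h j u v := Nat.cast_nonneg _
    have h7 := mul_le_mul_of_nonneg_right (show (1 : ℝ) + 4 / p ≤ 2 by linarith) h6
    nlinarith
  exact_mod_cast h5

/-- the form with the potential `Gn + C₀` -/
theorem Gd0.le_gnC (hG : Gd0 x y g p h j u v w) (hp : 4 ≤ p) (hg : 1 ≤ g) {L C0 : ℕ}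
    (hL : h + 1 ≤ 2 * L) (hC : 1 ≤ C0) :
    w ≤ (16 * 2 ^ g * L + 8) * (Gn x y h j u v + C0) := by
  have h1 := hG.le_gn hp hg hL
  have h2 : 2 * (8 * 2 ^ g * L + 1) * Gn x y h j u v + 8 ≤
      (16 * 2 ^ g * L + 8) * (Gn x y h j u v + C0) := by
    have h3 : 2 * (8 * 2 ^ g * L + 1) * Gn x y h j u v ≤
        (16 * 2 ^ g * L + 8) * Gn x y h j u v := by
      apply Nat.mul_le_mul_right
      ring_nf
      omega
    have h4 : 8 ≤ (16 * 2 ^ g * L + 8) * C0 := by
      calc 8 ≤ 8 * C0 := by omega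
        _ ≤ (16 * 2 ^ g * L + 8) * C0 := Nat.mul_le_mul_right _ (by omega)
    rw [Nat.mul_add (16 * 2 ^ g * L + 8)]
    omega
  omega

/-- two good numbers of one block: Lipschitz up to the relative precision -/
theorem Gd0.lip {u' v' : ℤ} {w' : ℕ} (hG : Gd0 x y g p h j u v w)
    (hG' : Gd0 x y g p h j u' v' w') (hg : 1 ≤ g) :
    (w : ℝ) ≤ (1 + 4 / p) * (w' + (2 + 2 * 2 ^ g) * (((u - u').natAbs : ℕ) +
      ((v - v').natAbs : ℕ))) + 8 := by
  have h1 := hG.2
  have h2 : (U0n x y g h j u' v' : ℝ) ≤ w' := by exact_mod_cast hG'.1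
  have h3 := U0n_lip x y (g := g) hg h j u v u' v'
  have h4 : (U0n x y g h j u v : ℝ) ≤
      U0n x y g h j u' v' + (2 + 2 * 2 ^ g) * (((u - u').natAbs : ℕ) + ((v - v').natAbs : ℕ)) := by
    exact_mod_cast h3
  have h5 : (0 : ℝ) ≤ 1 + 4 / p := by positivity
  have h6 := mul_le_mul_of_nonneg_left (h4.trans (add_le_add_left h2 _)) h5
  linarith

end nat

/-! ### the random number -/

section rand

/-- **the number of index 0** at the block `(h, j)` and the diagonals `u`, `v` -/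
noncomputable def Par.u0 (P : Par) (p : ℕ) (x y : List ℕ) (h j : ℕ) (u v : ℤ) : RT ℕ :=
  match h with
  | 0 => ret (U0n x y P.g 0 j u v)
  | H + 1 => (P.eh (mis x y) (H / P.g) (H % P.g) j u).map fun a =>
      U0h p u v a + off y.length (lo x.length (H + 1) j) u +
        off y.length (hi x.length (H + 1) j) v

variable (P : Par) {x y : List ℕ} {M p : ℕ} {η β δ a : ℝ}

/-- **the numbers of index 0 are good** -/
theorem Par.u0_good (hO : P.Ok M a β δ η) (hg : 1 ≤ P.g) (hp : 4 ≤ p) (h j : ℕ) (u v : ℤ)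
    (hq : 2 * (((h - 1) / P.g + 2 : ℕ) * P.rho β η) * p ≤ 1) :
    (P.u0 p x y h j u v).Pr M (fun w => ¬ Gd0 x y P.g p h j u v w) ≤ ((h + 3 : ℕ) : ℝ) * δ := by
  have hδ := hO.hδ
  cases h with
  | zero =>
    have h1 : (ret (U0n x y P.g 0 j u v)).Pr M (fun w => ¬ Gd0 x y P.g p 0 j u v w) = 0 := by
      have h2 : Gd0 x y P.g p 0 j u v (U0n x y P.g 0 j u v) := by
        refine ⟨le_rfl, ?_⟩
        have h3 : (0 : ℝ) ≤ 4 / p * U0n x y P.g 0 j u v := by positivity
        linarith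
      classical
      rw [Pr_ret, if_neg (not_not.2 h2)]
    show (ret (U0n x y P.g 0 j u v)).Pr M (fun w => ¬ Gd0 x y P.g p 0 j u v w) ≤ _
    rw [h1]
    positivity
  | succ H =>
    have hp' : (4 : ℝ) ≤ p := by exact_mod_cast hp
    rw [Nat.add_sub_cancel] at hq
    have hdm : P.g * (H / P.g) + (H % P.g + 1) = H + 1 := by
      have := Nat.div_add_mod H P.g
      omega
    have hr : H % P.g + 1 ≤ P.g := Nat.mod_lt _ hg
    set τ : ℝ := ((H / P.g + 2 : ℕ) : ℝ) * P.rho β η with hτ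
    have ha := hO.ha
    have hβ0 := hO.hβ0
    have hω : a ≤ P.om a δ := P.le_om ha hδ
    have hηω : 4 * P.om a δ ≤ η := hO.hη
    have hη0 : 0 ≤ η := by linarith
    have hrho0 : 0 ≤ P.rho β η := by unfold Par.rho; positivity
    have hτ0 : 0 ≤ τ := by positivity
    have hτ2 : τ ≤ 1 / 2 := by nlinarith
    have h1 := P.eh_good hO hg (mis_lip x y) (mis_le x y) (H / P.g) (H % P.g) hr hτ2 j u
    rw [hdm, show P.g * (H / P.g) + H % P.g + 4 = H + 4 by omega] at h1
    show ((P.eh (mis x y) (H / P.g) (H % P.g) j u).map _).Pr M _ ≤ _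
    rw [Pr_map]
    refine le_trans (Pr_mono fun b hb => ?_) (h1.trans (le_of_eq (by push_cast; ring)))
    intro hG
    apply hb
    obtain ⟨g1, g2⟩ := U0h_bounds x y hp (g := P.g) (h := H + 1) (j := j) (u := u) (v := v)
      hτ0 (by linarith) hG.1
    refine ⟨?_, ?_⟩
    · unfold U0n
      omega
    · unfold U0n
      push_cast
      have h3 : (0 : ℝ) ≤ 4 / p * off y.length (lo x.length (H + 1) j) u := by positivity
      have h4 : (0 : ℝ) ≤ 4 / p * off y.length (hi x.length (H + 1) j) v := by positivity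
      linarith

/-- the same with 775's parameters -/
theorem u0_par {g D m M p : ℕ} {x y : List ℕ} (hM : 0 < M) (hgM : 2 ^ g ∣ M)
    (hm : 2 * g + 2 * D + 12 ≤ m) (hg : 1 ≤ g) (hp : 4 ≤ p) (h j : ℕ) (u v : ℤ)
    (hD : 32 * ((h - 1) / g + 2) * p ≤ 2 ^ D) :
    ((InitN775.par g D m).u0 p x y h j u v).Pr M (fun w => ¬ Gd0 x y g p h j u v w) ≤
      ((h + 3 : ℕ) : ℝ) * (1 / 2) ^ m := by
  refine Par.u0_good (InitN775.par g D m) (InitN775.par_ok hM hgM hm) hg hp h j u v ?_
  have h1 := InitN775.par_prec (g := g) (D := D) (m := m) (q := (h - 1) / g + 2) (p := 2 * p)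
    (by rw [show 16 * ((h - 1) / g + 2) * (2 * p) = 32 * ((h - 1) / g + 2) * p by ring]; exact hD)
    (by omega)
  have hp0 : (0 : ℝ) < p := by
    have : 0 < p := by omega
    exact_mod_cast this
  rw [le_div_iff₀ (by positivity)] at h1
  push_cast at h1 ⊢
  have hg' : (InitN775.par g D m).g = g := rfl
  rw [hg']
  nlinarith

end rand

/-! ### number of words -/

section words

variable {M : ℕ} (P : Par)

theorem dr_wins (hM : 0 < M) {f : ℕ → RT (ℤ → ℕ)} {A : ℕ} (hf : ∀ c, Dr M (f c) A) (n : ℕ) :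
    Dr M (wins f n) (n * A) := by
  induction n with
  | zero => exact Dr.ret _
  | succ n ih =>
    show Dr M ((wins f n).bind fun F => (f n).map fun T c => if c = n then T else F c) _
    refine (Dr.bind hM ih (P := fun _ => True) (All.of_forall fun _ => trivial)
      (B := A) fun a _ => (hf n).map _).mono (by rw [Nat.succ_mul])

variable {C : ℕ → ℕ → ℤ → RT (ℤ → ℕ)} {A : ℕ → ℕ}

theorem dr_smp (hM : 0 < M) (hC : ∀ κ i z, Dr M (C κ i z) (A κ)) (r κ l : ℕ) (z : ℤ) :
    Dr M (P.smp C r κ l z) (1 + (2 ^ l + 2) * A (κ - l)) := by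
  have h1 : P.smp C r κ l z = draw.bind fun v =>
      (wins (fun c => C (κ - l) (v % 2 ^ r) (2 ^ l * z - 1 + c)) (2 ^ l + 2)).map
        fun F u => P.phi (κ - l) (P.icg (κ - l) (Par.big (κ - l) (2 ^ l * z - 1) F) u) := rfl
  rw [h1]
  exact Dr.bind hM Dr.draw (P := fun _ => True) (All.of_forall fun _ => trivial) fun v _ =>
    (dr_wins hM (fun c => hC _ _ _) _).map _

theorem dr_lays (hM : 0 < M) (hC : ∀ κ i z, Dr M (C κ i z) (A κ)) (r κ : ℕ) (z : ℤ) (n : ℕ) :
    Dr M (P.lays C r κ z n)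
      (∑ l ∈ range n, 2 ^ (P.c + r - l) * (1 + (2 ^ l + 2) * A (κ - l))) := by
  induction n with
  | zero => exact Dr.ret _
  | succ n ih =>
    rw [sum_range_succ]
    exact Dr.bind hM ih (P := fun _ => True) (All.of_forall fun _ => trivial) fun a _ =>
      (Dr.reps hM (dr_smp P hM hC r κ n z) _).map _

theorem dr_step (hM : 0 < M) (hC : ∀ κ i z, Dr M (C κ i z) (A κ)) (r κ : ℕ) (z : ℤ) :
    Dr M (P.step C r κ z)
      (∑ l ∈ range (min κ P.J + 1), 2 ^ (P.c + r - l) * (1 + (2 ^ l + 2) * A (κ - l))) :=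
  (dr_lays P hM hC r κ z _).map _

theorem dr_est (hM : 0 < M) (e : ℕ → ℤ → ℕ) (q κ j : ℕ) (z : ℤ) :
    Dr M (P.est e q κ j z) (InitN775.draws P q κ) := by
  induction q generalizing κ j z with
  | zero => exact Dr.ret _
  | succ q ih =>
    unfold Par.est InitN775.draws
    by_cases hκ : κ = 0
    · rw [if_pos hκ, if_pos hκ]
      exact Dr.ret _
    · rw [if_neg hκ, if_neg hκ]
      exact dr_step P hM (fun κ' i z' => ih κ' _ z') _ _ _

theorem dr_estH (hM : 0 < M) (e : ℕ → ℤ → ℕ) (q r κ j : ℕ) (z : ℤ) (hr : r ≤ P.g) :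
    Dr M (P.estH e q r κ j z) (InitN775.draws P (q + 1) κ) := by
  unfold Par.estH InitN775.draws
  by_cases hκ : κ = 0
  · rw [if_pos hκ, if_pos hκ]
    exact Dr.ret _
  · rw [if_neg hκ, if_neg hκ]
    have h1 := dr_step (P.up r) hM (A := InitN775.draws P q)
      (C := fun κ' i z' => P.est e q κ' (2 ^ r * j + i) z')
      (fun κ' i z' => dr_est P hM e q κ' _ z') r κ z
    have h2 : ∀ l, (P.up r).c + r - l = P.c + P.g - l := fun l => by
      show P.c + (P.g - r) + r - l = _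
      omega
    simp only [h2] at h1
    exact h1

theorem dr_vals (hM : 0 < M) {C : ℕ → ℤ → RT (ℤ → ℕ)} (hC : ∀ κ z, Dr M (C κ z) (A κ)) (u : ℤ)
    (n : ℕ) : Dr M (P.vals C u n) (∑ κ ∈ range n, A κ) := by
  induction n with
  | zero => exact Dr.ret _
  | succ n ih =>
    rw [sum_range_succ]
    exact Dr.bind hM ih (P := fun _ => True) (All.of_forall fun _ => trivial) fun a _ =>
      (hC _ _).map _

/-- **the number of words of the number of index `0`** -/
theorem Par.u0_dr (hM : 0 < M) (hg : 1 ≤ P.g) (p : ℕ) (x y : List ℕ) (h j : ℕ) (u v : ℤ) :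
    Dr M (P.u0 p x y h j u v)
      (∑ κ ∈ range (h + 3), InitN775.draws P ((h - 1) / P.g + 1) κ) := by
  cases h with
  | zero => exact Dr.ret _
  | succ H =>
    have hr : H % P.g + 1 ≤ P.g := Nat.mod_lt _ hg
    have h1 := dr_vals P hM (C := fun κ z => P.estH (mis x y) (H / P.g) (H % P.g + 1) κ j z)
      (A := InitN775.draws P (H / P.g + 1)) (fun κ z => dr_estH P hM _ _ _ _ _ _ hr) u (H + 4)
    have h2 : P.g * (H / P.g) + H % P.g + 4 = H + 4 := by
      have := Nat.div_add_mod H P.g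
      omega
    show Dr M ((P.eh (mis x y) (H / P.g) (H % P.g) j u).map _) _
    refine Dr.map ?_ _
    unfold Par.eh Par.ehat
    rw [h2]
    exact Dr.map h1 _

theorem draws_le (hJ : P.J ≤ P.c + P.g) (q κ : ℕ) :
    InitN775.draws P q κ ≤ (2 ^ P.g * InitN775.K P) ^ q := by
  induction q generalizing κ with
  | zero => simp [InitN775.draws]
  | succ q ih =>
    unfold InitN775.draws
    split_ifs with hκ
    · exact Nat.zero_le _
    set R := (2 ^ P.g * InitN775.K P) ^ q with hR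
    have hR1 : 1 ≤ R :=
      Nat.one_le_pow _ _ (Nat.mul_pos (Nat.two_pow_pos _) (InitN775.one_le_K P))
    have h1 : ∀ l ∈ range (min κ P.J + 1),
        2 ^ (P.c + P.g - l) * (1 + (2 ^ l + 2) * InitN775.draws P q (κ - l)) ≤
          4 * 2 ^ (P.c + P.g) * R := by
      intro l hl
      rw [mem_range] at hl
      have h2 : 2 ^ l + 3 ≤ 4 * 2 ^ l := by have := Nat.one_le_two_pow (n := l); omega
      have h3 : 2 ^ (P.c + P.g) = 2 ^ (P.c + P.g - l) * 2 ^ l := by
        rw [← pow_add]; congr 1; omega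
      have h4 : 1 + (2 ^ l + 2) * InitN775.draws P q (κ - l) ≤ (2 ^ l + 3) * R := by
        have h5 : (2 ^ l + 2) * InitN775.draws P q (κ - l) ≤ (2 ^ l + 2) * R :=
          Nat.mul_le_mul_left _ (ih _)
        calc 1 + (2 ^ l + 2) * InitN775.draws P q (κ - l) ≤ R + (2 ^ l + 2) * R := by omega
          _ = (2 ^ l + 3) * R := by ring
      calc 2 ^ (P.c + P.g - l) * (1 + (2 ^ l + 2) * InitN775.draws P q (κ - l))
          ≤ 2 ^ (P.c + P.g - l) * ((4 * 2 ^ l) * R) :=
            Nat.mul_le_mul_left _ (h4.trans (Nat.mul_le_mul_right _ h2))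
        _ = 4 * 2 ^ (P.c + P.g) * R := by rw [h3]; ring
    refine (sum_le_card_nsmul _ _ _ h1).trans ?_
    rw [card_range, smul_eq_mul]
    have h6 : (min κ P.J + 1) * (4 * 2 ^ (P.c + P.g) * R) ≤
        (P.J + 1) * (4 * 2 ^ (P.c + P.g) * R) := Nat.mul_le_mul_right _ (by omega)
    refine h6.trans (le_of_eq ?_)
    rw [pow_succ, ← hR]
    unfold InitN775.K
    rw [pow_add]
    ring

/-- **the number of words**, closed form -/
theorem Par.u0_dr' (hM : 0 < M) (hg : 1 ≤ P.g) (hJ : P.J ≤ P.c + P.g) (p : ℕ) (x y : List ℕ)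
    (h j : ℕ) (u v : ℤ) :
    Dr M (P.u0 p x y h j u v) ((h + 3) * (2 ^ P.g * InitN775.K P) ^ ((h - 1) / P.g + 1)) := by
  refine (P.u0_dr hM hg p x y h j u v).mono ?_
  refine (sum_le_card_nsmul _ _ _ fun κ _ => draws_le P hJ _ κ).trans ?_
  rw [card_range, smul_eq_mul]

end words

/-! ### size -/

section size

variable {M : ℕ} (P : Par)

theorem sel_lt (V : ℕ → ℕ) (κ m : ℕ) : P.sel V 0 κ m < 2 ^ (κ + m) := by
  induction m generalizing κ with
  | zero => exact Nat.two_pow_pos _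
  | succ m ih =>
    unfold Par.sel
    split_ifs with h1
    · have h2 : V κ / 2 ^ P.s < 2 ^ κ := by
        rw [Nat.div_lt_iff_lt_mul (Nat.two_pow_pos _), mul_comm]
        exact h1
      exact h2.trans_le (Nat.pow_le_pow_right (by norm_num) (by omega))
    · refine (ih (κ + 1)).trans_le (le_of_eq ?_)
      congr 1
      omega

/-- the value on every tape -/
theorem Par.u0_size (p : ℕ) (x y : List ℕ) (h j : ℕ) (u v : ℤ) :
    (P.u0 p x y h j u v).All M fun w => w ≤ (u - v).natAbs + off y.length (lo x.length h j) u +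
      off y.length (hi x.length h j) v + 2 ^ (h + 6) := by
  cases h with
  | zero =>
    show U0n x y P.g 0 j u v ≤ _
    have h1 := mis_le x y j u
    unfold U0n U0
    rw [E_zero]
    have : 2 ^ (0 + 6) = 64 := by norm_num
    omega
  | succ H =>
    show ((P.eh (mis x y) (H / P.g) (H % P.g) j u).map _).All M _
    unfold Par.eh Par.ehat RT.map
    rw [All_bind, All_bind]
    refine All.of_forall fun V => ?_
    have h1 := sel_lt P V 0 (P.g * (H / P.g) + H % P.g + 4)
    have h2 : P.g * (H / P.g) + H % P.g + 4 = H + 4 := by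
      have := Nat.div_add_mod H P.g
      omega
    rw [h2] at h1
    show U0h p u v (P.sel V 0 0 (P.g * (H / P.g) + H % P.g + 4)) + _ + _ ≤ _
    rw [h2]
    have h3 : (P.sel V 0 0 (H + 4) + 1) / p ≤ P.sel V 0 0 (H + 4) + 1 := Nat.div_le_self _ _
    have h4 : 2 ^ (H + 1 + 6) = 8 * 2 ^ (0 + (H + 4)) := by
      rw [show H + 1 + 6 = 3 + (0 + (H + 4)) by omega, pow_add 2 3]; norm_num
    unfold U0h
    omega

end size

end Crest.Agent.R288.Init772
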