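import Mathlib
import Crest.Agent.R288.InitF_772

/-!
# R288 (S0433), leaf [Init], part 7: the test at scale one

`E = 0` iff all rows match on the diagonal iff the block costs nothing:
`min_E_eq : min 1 (E g (mis x y) h j u) = min (gn x y h j u u) 1` for ALL diagonals `u`.
-/

set_option autoImplicit false

namespace Crest.Agent.R288.Init772

open Crest.GraphRAM Crest.Agent.R288.Ed Crest.Agent.R288.GameA347 Crest.Agent.R288.NodeA785

theorem ic_eq_zero (F : ℤ → ℕ) (u : ℤ) : ic F u = 0 ↔ F u = 0 := by
  constructor
  · intro h
    obtain ⟨w, hw⟩ := exists_ic F u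
    rw [h] at hw
    have h1 : w = u := by omega
    subst h1
    omega
  · intro h
    have := ic_le_self F u
    omega

theorem wr_eq_zero (g h : ℕ) (F : ℤ → ℕ) (u : ℤ) : wr g h F u = 0 ↔ F u = 0 := by
  unfold wr
  split_ifs
  · exact ic_eq_zero F u
  · exact Iff.rfl

theorem E_eq_zero_iff (g : ℕ) (e : ℕ → ℤ → ℕ) (h : ℕ) : ∀ (j : ℕ) (u : ℤ),
    E g e h j u = 0 ↔ ∀ i, j * 2 ^ h ≤ i → i < (j + 1) * 2 ^ h → e i u = 0 := by
  induction h with
  | zero =>
    intro j u
    rw [E_zero]
    constructor
    · intro h0 i h1 h2
      have : i = j := by omega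
      rw [this]; exact h0
    · intro h0
      exact h0 j (by omega) (by omega)
  | succ h ih =>
    intro j u
    rw [E_succ, Nat.add_eq_zero_iff, wr_eq_zero, wr_eq_zero, ih, ih]
    have hp : 2 ^ (h + 1) = 2 * 2 ^ h := pow_succ' 2 h
    constructor
    · rintro ⟨h1, h2⟩ i k1 k2
      rcases lt_or_ge i ((2 * j + 1) * 2 ^ h) with h3 | h3
      · exact h1 i (by rw [hp] at k1; linarith) h3
      · exact h2 i h3 (by rw [hp] at k2; linarith)
    · intro h0
      constructor
      · intro i k1 k2
        exact h0 i (by rw [hp]; linarith) (by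
          rw [hp]
          have : 0 < 2 ^ h := Nat.two_pow_pos h
          linarith)
      · intro i k1 k2
        exact h0 i (by
          rw [hp]
          have : 0 < 2 ^ h := Nat.two_pow_pos h
          linarith) (by rw [hp]; linarith)

section mis

variable (x y : List ℕ)

/-- a free block matches row by row -/
theorem mis_eq_zero_of_gn {h j : ℕ} {u : ℤ} (h0 : gn x y h j u u = 0) {i : ℕ}
    (h1 : j * 2 ^ h ≤ i) (h2 : i < (j + 1) * 2 ^ h) : mis x y i u = 0 := by
  unfold mis
  split_ifs with hix hm
  · rfl
  · exfalso
    apply hm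
    have hlo : lo x.length h j = j * 2 ^ h := lo_of_le (by omega)
    have hhi : i < hi x.length h j := lt_min hix h2
    have hle := hi_le x.length h j
    unfold gn at h0
    unfold GameA347.g at h0
    unfold G at h0
    set a := lo x.length h j with ha
    set b := hi x.length h j with hb
    set p := pos y.length a u with hp
    set q := pos y.length b u with hq
    have h3 : editDist (seg x a b) (seg y p q) = 0 := by omega
    have h4 : p ≤ q := by omega
    have h5 : seg x a b = seg y p q := ed_eq_zero_iff.1 h3
    have h6 : b - a = min q y.length - p := by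
      have := congrArg List.length h5
      rw [seg_length, seg_length] at this
      omega
    have hqn : q ≤ y.length := pos_le _ _ _
    have hpn : p ≤ y.length := pos_le _ _ _
    have hp' : p = min ((a : ℤ) + u).toNat y.length := rfl
    have hq' : q = min ((b : ℤ) + u).toNat y.length := rfl
    have h7 : ((p : ℕ) : ℤ) = a + u := by omega
    have h8 : (seg x a b)[i - a]? = (seg y p q)[i - a]? := by rw [h5]
    rw [getElem?_seg x a b (i - a) (by omega), getElem?_seg y p q (i - a) (by omega)] at h8
    have h9 : a + (i - a) = i := by omega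
    have h10 : p + (i - a) = ((i : ℤ) + u).toNat := by omega
    rw [h9, h10] at h8
    exact ⟨by omega, h8⟩
  · rfl

theorem E_eq_zero_iff_gn (g h j : ℕ) (u : ℤ) :
    E g (mis x y) h j u = 0 ↔ gn x y h j u u = 0 := by
  constructor
  · intro h0
    have := gn_le_E x y g h j u u
    rw [h0] at this
    simpa using this
  · intro h0
    rw [E_eq_zero_iff]
    intro i h1 h2
    exact mis_eq_zero_of_gn x y h0 h1 h2

/-- **the test at scale one** -/
theorem min_E_eq (g h j : ℕ) (u : ℤ) :
    min 1 (E g (mis x y) h j u) = min (gn x y h j u u) 1 := by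
  have h1 := E_eq_zero_iff_gn x y g h j u
  by_cases h0 : gn x y h j u u = 0
  · rw [h0, h1.2 h0]; rfl
  · have h2 : E g (mis x y) h j u ≠ 0 := fun h3 => h0 (h1.1 h3)
    omega

end mis

end Crest.Agent.R288.Init772
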