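import Crest.Agent.R288.InitN_775
import Crest.Agent.R288.InitG_772
import Crest.Agent.R288.Tape2_829
import Crest.Agent.R288.Gt_373

/-!
# R288 (S0433), leaf [Init]: index `0` of the algorithm

* number of draws: `Dr_est`, `Dr_estH`, `Dr_eh` (829's `Dr`);
* `V0 x y g h j u v = |u - v| + 2 E + off u + off v` (natural number, on all of `ℤ × ℤ`, cast =
  373's `U0t`): `Gn_le_V0`, `V0_le_Gn`;
* `initV`: the randomized computation of `V0`; **`initV_good`**: `V0 ≤ initV ≤ (1 + 4/p) V0 + 8`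
  with probability `≥ 1 - (h + 3) 2 ^ (-m)`; `initV_le` (always), `Dr_initV` (draws).
-/

set_option autoImplicit false

namespace Crest.Agent.R288.InitU775

open Finset Crest.Agent.R295.Rnd627 Crest.Agent.R295.Rnd627.RT Crest.Agent.R288.Init772
open Crest.Agent.R288.InitN775 Crest.Agent.R288.Tape829

/-! ### number of draws -/

section draws

variable {M A B : ℕ} (P : Par)

theorem Dr_rnd {α : Type} {k : ℕ → RT α} (h : ∀ v, Dr M (k v) A) : Dr M (rnd k) (1 + A) := by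
  intro ρ i
  have := h (ρ i % M) ρ (i + 1)
  show (k (ρ i % M)).nxt M ρ (i + 1) ≤ _
  omega

theorem Dr_bind' {α β : Type} (hM : 0 < M) {t : RT α} {f : α → RT β} (ht : Dr M t A)
    (hf : ∀ a, Dr M (f a) B) : Dr M (t.bind f) (A + B) :=
  Dr.bind hM ht (P := fun _ => True) (All.of_forall fun _ => trivial) fun a _ => hf a

theorem Dr_wins (hM : 0 < M) {f : ℕ → RT (ℤ → ℕ)} (h : ∀ c, Dr M (f c) A) (n : ℕ) :
    Dr M (wins f n) (n * A) := by
  induction n with
  | zero => exact Dr.ret _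
  | succ n ih =>
    refine (Dr_bind' hM ih (B := A) fun F => ?_).mono (by rw [Nat.succ_mul])
    exact (h n).map _

theorem Dr_smp (hM : 0 < M) {C : ℕ → ℕ → ℤ → RT (ℤ → ℕ)} (h : ∀ κ i z, Dr M (C κ i z) A)
    (r κ l : ℕ) (z : ℤ) : Dr M (P.smp C r κ l z) (1 + (2 ^ l + 2) * A) := by
  unfold Par.smp
  exact Dr_rnd fun v => (Dr_wins hM (fun c => h _ _ _) _).map _

theorem Dr_lays (hM : 0 < M) {C : ℕ → ℕ → ℤ → RT (ℤ → ℕ)} (h : ∀ κ i z, Dr M (C κ i z) A)
    {r : ℕ} (hJ : P.J ≤ P.c + r) (κ : ℕ) (z : ℤ) (n : ℕ) (hn : n ≤ P.J + 1) :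
    Dr M (P.lays C r κ z n) (n * (2 ^ (P.c + r) * (1 + 3 * A))) := by
  induction n with
  | zero => exact Dr.ret _
  | succ n ih =>
    refine (Dr_bind' hM (ih (by omega)) (B := 2 ^ (P.c + r - n) * (1 + (2 ^ n + 2) * A))
      fun F => ?_).mono ?_
    · exact ((Dr_smp P hM h r κ n z).reps hM _).map _
    · rw [Nat.succ_mul n]
      apply Nat.add_le_add_left
      have h1 : 2 ^ (P.c + r) = 2 ^ (P.c + r - n) * 2 ^ n := by
        rw [← pow_add]; congr 1; omega
      have h2 : 1 ≤ 2 ^ n := Nat.one_le_two_pow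
      rw [h1, mul_assoc]
      apply Nat.mul_le_mul_left
      have h3 : (2 ^ n + 2) * A ≤ 2 ^ n * (3 * A) := by
        have h4 : 2 ^ n + 2 ≤ 2 ^ n * 3 := by omega
        calc (2 ^ n + 2) * A ≤ (2 ^ n * 3) * A := Nat.mul_le_mul_right _ h4
          _ = 2 ^ n * (3 * A) := by ring
      rw [mul_add, mul_one]
      omega

theorem Dr_step (hM : 0 < M) {C : ℕ → ℕ → ℤ → RT (ℤ → ℕ)} (h : ∀ κ i z, Dr M (C κ i z) A)
    {r : ℕ} (hJ : P.J ≤ P.c + r) (κ : ℕ) (z : ℤ) :
    Dr M (P.step C r κ z) ((P.J + 1) * (2 ^ (P.c + r) * (1 + 3 * A))) := by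
  unfold Par.step
  refine ((Dr_lays P hM h hJ κ z (min κ P.J + 1) (by omega)).map _).mono ?_
  exact Nat.mul_le_mul_right _ (by omega)

theorem step_bound {R : ℕ} (hR : 1 ≤ R) (x : ℕ) (hx : x = P.c + P.g) :
    (P.J + 1) * (2 ^ x * (1 + 3 * R)) ≤ R * (2 ^ P.g * K P) := by
  unfold K
  rw [hx, pow_add]
  calc (P.J + 1) * (2 ^ P.c * 2 ^ P.g * (1 + 3 * R)) ≤ (P.J + 1) * (2 ^ P.c * 2 ^ P.g * (4 * R)) :=
        Nat.mul_le_mul_left _ (Nat.mul_le_mul_left _ (by omega))
    _ = R * (2 ^ P.g * (4 * (P.J + 1) * 2 ^ P.c)) := by ring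

theorem one_le_R (q : ℕ) : 1 ≤ (2 ^ P.g * K P) ^ q :=
  Nat.one_le_pow _ _ (Nat.mul_pos (Nat.two_pow_pos _) (one_le_K P))

theorem Dr_est (hM : 0 < M) (hJ : P.J ≤ P.c + P.g) (e : ℕ → ℤ → ℕ) (q : ℕ) : ∀ (κ j : ℕ) (z : ℤ),
    Dr M (P.est e q κ j z) ((2 ^ P.g * K P) ^ q) := by
  induction q with
  | zero => intro κ j z; exact Dr.ret _
  | succ q ih =>
    intro κ j z
    unfold Par.est
    split_ifs with h
    · exact Dr.ret _
    · refine (Dr_step P hM (fun κ' i z' => ih κ' (2 ^ P.g * j + i) z') hJ κ z).mono ?_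
      rw [pow_succ]
      exact step_bound P (one_le_R P q) _ rfl

theorem Dr_estH (hM : 0 < M) (hJ : P.J ≤ P.c + P.g) (e : ℕ → ℤ → ℕ) (q : ℕ) {r : ℕ}
    (hr : r ≤ P.g) (κ j : ℕ) (z : ℤ) :
    Dr M (P.estH e q r κ j z) ((2 ^ P.g * K P) ^ (q + 1)) := by
  unfold Par.estH
  split_ifs with h
  · exact Dr.ret _
  · refine (Dr_step (P.up r) hM (fun κ' i z' => Dr_est P hM hJ e q κ' (2 ^ r * j + i) z')
      (show P.J ≤ P.c + (P.g - r) + r by omega) κ z).mono ?_
    rw [pow_succ]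
    exact step_bound P (one_le_R P q) (P.c + (P.g - r) + r) (by omega)

theorem Dr_vals (hM : 0 < M) {C : ℕ → ℤ → RT (ℤ → ℕ)} (h : ∀ κ z, Dr M (C κ z) A) (u : ℤ)
    (n : ℕ) : Dr M (P.vals C u n) (n * A) := by
  induction n with
  | zero => exact Dr.ret _
  | succ n ih =>
    refine (Dr_bind' hM ih (B := A) fun F => ?_).mono (by rw [Nat.succ_mul])
    exact (h n _).map _

theorem Dr_eh (hM : 0 < M) (hJ : P.J ≤ P.c + P.g) (e : ℕ → ℤ → ℕ) (q : ℕ) {r : ℕ}
    (hr : r + 1 ≤ P.g) (j : ℕ) (u : ℤ) :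
    Dr M (P.eh e q r j u) ((P.g * q + r + 4) * (2 ^ P.g * K P) ^ (q + 1)) := by
  unfold Par.eh Par.ehat
  exact (Dr_vals P hM (fun κ z => Dr_estH P hM hJ e q hr κ j z) u _).map _

end draws

/-! ### the sure bound -/

section sure

variable (P : Par)

theorem sel_lt (V : ℕ → ℕ) (d m : ℕ) : ∀ κ n, n + κ ≤ m → d < 2 ^ m → P.sel V d κ n < 2 ^ m := by
  intro κ n
  induction n generalizing κ with
  | zero => intro _ hd; exact hd
  | succ n ih =>
    intro hm hd
    unfold Par.sel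
    split_ifs with h
    · have h1 : V κ / 2 ^ P.s < 2 ^ κ := by
        rw [Nat.div_lt_iff_lt_mul (Nat.two_pow_pos _), mul_comm]
        exact h
      exact h1.trans_le (Nat.pow_le_pow_right (by norm_num) (by omega))
    · exact ih (κ + 1) (by omega) hd

theorem eh_lt {M : ℕ} (e : ℕ → ℤ → ℕ) (q r j : ℕ) (u : ℤ) :
    (P.eh e q r j u).All M fun x => x < 2 ^ (P.g * q + r + 4) := by
  unfold Par.eh Par.ehat RT.map
  rw [All_bind]
  exact All.of_forall fun V => sel_lt P V 0 _ 0 _ (by omega) (Nat.two_pow_pos _)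

end sure

/-! ### the start unit -/

open NodeA785 GameA347 Gt373 VI684

section unit

variable (x y : List ℕ)

/-- the start unit on all of `ℤ × ℤ` -/
noncomputable def V0 (g h j : ℕ) (u v : ℤ) : ℕ :=
  U0 x y g h j u v + (off y.length (lo x.length h j) u + off y.length (hi x.length h j) v)

theorem V0_cast (g h j : ℕ) (u v : ℤ) : (V0 x y g h j u v : ℝ) = U0t x y g h j u v := by
  unfold V0 U0 U0t
  rw [dz_eq_natAbs]
  push_cast
  ring

theorem Gn_le_V0 (g h j : ℕ) (u v : ℤ) : Gn x y h j u v ≤ V0 x y g h j u v := by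
  have h1 := gn_le_U0 x y g h j u v
  unfold Gn V0
  omega

theorem V0_le_Gn {g L h : ℕ} (hg : 1 ≤ g) (hL : h + 1 ≤ 2 * L) (j : ℕ) (u v : ℤ) :
    V0 x y g h j u v ≤ (8 * 2 ^ g * L + 1) * Gn x y h j u v := by
  have h1 := U0t_le x y hg hL j u v
  rw [← V0_cast] at h1
  unfold Gt at h1
  exact_mod_cast h1

/-- **the randomized computation of the start unit**, `1 ≤ h` -/
noncomputable def initV (P : Par) (p h j : ℕ) (u v : ℤ) : RT ℕ :=
  (P.eh (mis x y) ((h - 1) / P.g) ((h - 1) % P.g) j u).map fun e =>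
    U0h p u v e + (off y.length (lo x.length h j) u + off y.length (hi x.length h j) v)

variable {g D m M p h : ℕ}

theorem height_eq (_hg : 1 ≤ g) (hh : 1 ≤ h) : g * ((h - 1) / g) + ((h - 1) % g + 1) = h := by
  have := Nat.div_add_mod (h - 1) g
  omega

/-- **good with high probability** -/
theorem initV_good (hM : 0 < M) (hgM : 2 ^ g ∣ M) (hm : 2 * g + 2 * D + 12 ≤ m) (hg : 1 ≤ g)
    (hh : 1 ≤ h) (hp : 4 ≤ p) (hD : 32 * (h + 1) * p ≤ 2 ^ D) (j : ℕ) (u v : ℤ) :
    (initV x y (par g D m) p h j u v).Pr M (fun e => ¬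
      (V0 x y g h j u v ≤ e ∧ (e : ℝ) ≤ (1 + 4 / p) * V0 x y g h j u v + 8)) ≤
      ((h + 3 : ℕ) : ℝ) * (1 / 2) ^ m := by
  set q := (h - 1) / g with hq
  set r := (h - 1) % g with hr
  have hhe : g * q + (r + 1) = h := height_eq hg hh
  have hr1 : r + 1 ≤ g := by
    have := Nat.mod_lt (h - 1) (show 0 < g by omega)
    omega
  have hq1 : q ≤ h - 1 := Nat.div_le_self _ _
  have hO := par_ok (M := M) hM hgM hm
  have hq2 : 16 * (q + 2) * (2 * p) ≤ 2 ^ D := by
    refine le_trans ?_ hD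
    have : q + 2 ≤ h + 1 := by omega
    calc 16 * (q + 2) * (2 * p) = 32 * (q + 2) * p := by ring
      _ ≤ 32 * (h + 1) * p := Nat.mul_le_mul_right _ (Nat.mul_le_mul_left _ this)
  have hprec := par_prec (m := m) (g := g) hq2 (by omega)
  have hp0 : (4 : ℝ) ≤ p := by exact_mod_cast hp
  have hhalf : ((q + 2 : ℕ) : ℝ) * (par g D m).rho ((1 / 2) ^ D) ((1 / 2) ^ D) ≤ 1 / 2 := by
    refine hprec.trans ?_
    push_cast
    rw [div_le_div_iff₀ (by positivity) (by norm_num)]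
    linarith
  have hmain := (par g D m).eh_good (e := mis x y) hO hg (mis_lip x y) (mis_le x y) q r hr1 hhalf
    j u
  have hhe' : (par g D m).g * q + (r + 1) = h := hhe
  rw [hhe'] at hmain
  have hhe2 : (par g D m).g * q + r + 4 = h + 3 := by
    have : (par g D m).g * q + (r + 1) = h := hhe
    omega
  rw [hhe2] at hmain
  unfold initV
  rw [Pr_map]
  refine le_trans (Pr_mono fun e he => ?_) hmain
  intro hG
  apply he
  have hrho0 : 0 ≤ ((q + 2 : ℕ) : ℝ) * (par g D m).rho ((1 / 2) ^ D) ((1 / 2) ^ D) := by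
    rw [par_rho]; positivity
  have h2 := U0h_bounds x y (p := p) hp (g := g) (h := h) (j := j) (u := u) (v := v) (eh := e)
    (τ := ((q + 2 : ℕ) : ℝ) * (par g D m).rho ((1 / 2) ^ D) ((1 / 2) ^ D)) hrho0 (by
      have h3 := mul_le_mul_of_nonneg_right hprec (show (0 : ℝ) ≤ 2 * p by positivity)
      have h4 : (1 : ℝ) / ((2 * p : ℕ) : ℝ) * (2 * p) = 1 := by
        push_cast
        rw [one_div_mul_cancel]
        positivity
      rw [h4] at h3
      linarith) hG.1
  obtain ⟨h3, h4⟩ := h2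
  set o : ℕ := off y.length (lo x.length h j) u + off y.length (hi x.length h j) v with ho
  constructor
  · unfold V0
    omega
  · unfold V0
    rw [← ho]
    push_cast
    have h5 : (0 : ℝ) ≤ 4 / (p : ℝ) * (o : ℝ) := by positivity
    linarith

/-- the sure bound -/
theorem initV_le (hg : 1 ≤ g) (hh : 1 ≤ h) (j : ℕ) (u v : ℤ) :
    (initV x y (par g D m) p h j u v).All M fun e => e ≤ (u - v).natAbs + 4 * 2 ^ (h + 3) +
      (off y.length (lo x.length h j) u + off y.length (hi x.length h j) v) := by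
  unfold initV RT.map
  rw [All_bind]
  have hhe : (par g D m).g * ((h - 1) / (par g D m).g) + (h - 1) % (par g D m).g + 4 = h + 3 := by
    have := height_eq (g := g) (h := h) hg hh
    show g * ((h - 1) / g) + (h - 1) % g + 4 = h + 3
    omega
  refine (eh_lt (par g D m) (mis x y) ((h - 1) / (par g D m).g) ((h - 1) % (par g D m).g) j
    u).mono fun e he => ?_
  rw [hhe] at he
  show U0h p u v e + _ ≤ _
  unfold U0h
  have h1 : (e + 1) / p ≤ e + 1 := Nat.div_le_self _ _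
  omega

/-- number of draws -/
theorem Dr_initV (hM : 0 < M) (hg : 1 ≤ g) (hh : 1 ≤ h) (j : ℕ) (u v : ℤ) :
    Dr M (initV x y (par g D m) p h j u v)
      ((h + 3) * (2 ^ (h + g) * K (par g D m) ^ (h / g + 1))) := by
  have hhe := height_eq (g := g) (h := h) hg hh
  have hr1 : (h - 1) % g + 1 ≤ g := by
    have := Nat.mod_lt (h - 1) (show 0 < g by omega)
    omega
  unfold initV
  refine Dr.map ?_ _
  refine (Dr_eh (par g D m) hM (show g + D + 4 ≤ 2 * D + 11 + Nat.clog 2 (g + D + 5) +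
    Nat.clog 2 m + g by omega) (mis x y) ((h - 1) / g) hr1 j u).mono ?_
  have e1 : (par g D m).g * ((h - 1) / g) + (h - 1) % g + 4 = h + 3 := by
    show g * ((h - 1) / g) + (h - 1) % g + 4 = h + 3
    omega
  rw [e1]
  apply Nat.mul_le_mul_left
  rw [mul_pow, ← pow_mul]
  apply Nat.mul_le_mul
  · apply Nat.pow_le_pow_right (by norm_num)
    show g * ((h - 1) / g + 1) ≤ h + g
    have : g * ((h - 1) / g) ≤ h - 1 := Nat.mul_div_le _ _
    rw [mul_add, mul_one]
    omega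
  · apply Nat.pow_le_pow_right (one_le_K _)
    have : (h - 1) / g ≤ h / g := Nat.div_le_div_right (by omega)
    omega

end unit

end Crest.Agent.R288.InitU775
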