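import Mathlib
import Crest.Agent.R288.InitH_772
import Crest.Agent.R288.InitU_775
import Crest.Agent.R288.GSt_442
import Crest.Agent.R288.HullB_407
import Crest.Agent.R288.AlgB_45

/-!
# R288 (S0433), leaf [Init], part 9: index 0 in the names of Alg45

* `Par.u0` (InitH_772, all heights) = `initV` (InitU_775, heights `≥ 1`): `Par.u0_eq_initV`;
* `iniU Q p x y n : St → RT ℕ` = the `U` of `tapeRT`; `GdI` = good numbers; **`iniU_par`**:
  failure `≤ (n * i + 3) (1/2)^m`; `iniU_dr`: number of words; `iniU_size`: on every tape;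
* `GdI.gst_le`, `GdI.le_gst` (`B₀ = 16 * 2^g * L + 8`, potential `gst + C₀`), `GdI.lip`;
* `FE_zero_le`, `gst_le_FE_zero`, `FE_zero_le_gst`.
-/

set_option autoImplicit false

namespace Crest.Agent.R288.Init772

open Crest.Agent.R295.Rnd627 Crest.Agent.R295.Rnd627.RT Crest.Agent.R288.InitU775
open Crest.Agent.R288.Tape829 Crest.Agent.R288.Gt373 Crest.Agent.R288.NodeA785

theorem U0n_eq_V0 (x y : List ℕ) (g h j : ℕ) (u v : ℤ) :
    U0n x y g h j u v = V0 x y g h j u v := by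
  unfold U0n V0
  rw [Nat.add_assoc]

theorem Par.u0_eq_initV (P : Par) (p : ℕ) (x y : List ℕ) {h : ℕ} (hh : 1 ≤ h) (j : ℕ) (u v : ℤ) :
    P.u0 p x y h j u v = initV x y P p h j u v := by
  cases h with
  | zero => omega
  | succ H =>
    show ((P.eh (mis x y) (H / P.g) (H % P.g) j u).map fun a =>
      U0h p u v a + Gt373.off y.length (NodeA785.lo x.length (H + 1) j) u +
        Gt373.off y.length (NodeA785.hi x.length (H + 1) j) v) = _
    simp only [Nat.add_assoc]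
    rfl

/-! ### the names of Alg45 -/

/-- **INIT** : the `U` of `Alg45.tapeRT` -/
noncomputable def iniU (Q : Par) (p : ℕ) (x y : List ℕ) (n : ℕ) (s : Alg45.St) : RT ℕ :=
  Q.u0 p x y (n * s.i) s.j s.u s.v

/-- good numbers of index `0` -/
def GdI (x y : List ℕ) (g p n : ℕ) (s : Alg45.St) (w : ℕ) : Prop :=
  Gd0 x y g p (n * s.i) s.j s.u s.v w

variable {x y : List ℕ} {g p n w D m M : ℕ} {s : Alg45.St}

theorem iniU_good {Q : Par} {η β δ a : ℝ} (hO : Q.Ok M a β δ η) (hg : 1 ≤ Q.g) (hp : 4 ≤ p)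
    (hq : 2 * (((n * s.i - 1) / Q.g + 2 : ℕ) * Q.rho β η) * p ≤ 1) :
    (iniU Q p x y n s).Pr M (fun w => ¬ GdI x y Q.g p n s w) ≤ ((n * s.i + 3 : ℕ) : ℝ) * δ :=
  Par.u0_good Q hO hg hp _ _ _ _ hq

/-- **the failure probability of index 0** -/
theorem iniU_par (hM : 0 < M) (hgM : 2 ^ g ∣ M) (hm : 2 * g + 2 * D + 12 ≤ m) (hg : 1 ≤ g)
    (hp : 4 ≤ p) (hD : 32 * (n * s.i + 2) * p ≤ 2 ^ D) :
    (iniU (InitN775.par g D m) p x y n s).Pr M (fun w => ¬ GdI x y g p n s w) ≤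
      ((n * s.i + 3 : ℕ) : ℝ) * (1 / 2) ^ m := by
  refine u0_par hM hgM hm hg hp _ _ _ _ (le_trans ?_ hD)
  have h1 : (n * s.i - 1) / g ≤ n * s.i := (Nat.div_le_self _ _).trans (Nat.sub_le _ _)
  exact Nat.mul_le_mul_right _ (Nat.mul_le_mul_left _ (by omega))

/-- number of words -/
theorem iniU_dr {Q : Par} (hM : 0 < M) (hg : 1 ≤ Q.g) (hJ : Q.J ≤ Q.c + Q.g) (p : ℕ)
    (x y : List ℕ) (n : ℕ) (s : Alg45.St) : Dr M (iniU Q p x y n s)
      ((n * s.i + 3) * (2 ^ Q.g * InitN775.K Q) ^ ((n * s.i - 1) / Q.g + 1)) :=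
  Q.u0_dr' hM hg hJ p x y _ _ _ _

/-- number of words, in terms of the length of the block -/
theorem iniU_dr' {Q : Par} (hM : 0 < M) (hg : 1 ≤ Q.g) (hJ : Q.J ≤ Q.c + Q.g) (p : ℕ)
    (x y : List ℕ) (n : ℕ) (s : Alg45.St) : Dr M (iniU Q p x y n s)
      ((n * s.i + 3) * (2 ^ (n * s.i + Q.g) * InitN775.K Q ^ (n * s.i / Q.g + 1))) := by
  refine (iniU_dr hM hg hJ p x y n s).mono (Nat.mul_le_mul_left _ ?_)
  rw [mul_pow, ← pow_mul]
  have h1 : (n * s.i - 1) / Q.g ≤ n * s.i / Q.g := Nat.div_le_div_right (Nat.sub_le _ _)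
  apply Nat.mul_le_mul
  · apply Nat.pow_le_pow_right (by norm_num)
    have h2 := Nat.mul_div_le (n * s.i) Q.g
    have h3 : Q.g * ((n * s.i - 1) / Q.g) ≤ Q.g * (n * s.i / Q.g) := Nat.mul_le_mul_left _ h1
    rw [Nat.mul_add, mul_one]
    omega
  · exact Nat.pow_le_pow_right (InitN775.one_le_K Q) (by omega)

/-- the value on every tape -/
theorem iniU_size (Q : Par) (p : ℕ) (x y : List ℕ) (n : ℕ) (s : Alg45.St) :
    (iniU Q p x y n s).All M fun w => w ≤ (s.u - s.v).natAbs +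
      off y.length (lo x.length (n * s.i) s.j) s.u + off y.length (hi x.length (n * s.i) s.j) s.v +
      2 ^ (n * s.i + 6) := Q.u0_size p x y _ _ _ _

theorem GdI.gst_le (hG : GdI x y g p n s w) : GSt442.gst x y n s ≤ w := hG.gn_le

/-- **the start factor** for the potential `gst + C₀` -/
theorem GdI.le_gst (hG : GdI x y g p n s w) (hp : 4 ≤ p) (hg : 1 ≤ g) {L C0 : ℕ}
    (hL : n * s.i + 1 ≤ 2 * L) (hC : 1 ≤ C0) :
    w ≤ (16 * 2 ^ g * L + 8) * (GSt442.gst x y n s + C0) := hG.le_gnC hp hg hL hC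

theorem GdI.lip {s' : Alg45.St} {w' : ℕ} (hG : GdI x y g p n s w) (hG' : GdI x y g p n s' w')
    (hi : s.i = s'.i) (hj : s.j = s'.j) (hg : 1 ≤ g) :
    (w : ℝ) ≤ (1 + 4 / p) * (w' + (2 + 2 * 2 ^ g) * (Alg45.dist s s' : ℕ)) + 8 := by
  unfold GdI at hG'
  rw [← hi, ← hj] at hG'
  have h1 := Gd0.lip hG hG' hg
  unfold Alg45.dist
  push_cast at h1 ⊢
  exact h1

/-! ### `FE 0` -/

variable {P : Alg45.Par} {X : ℕ → ℕ × Alg45.St → ℕ}

theorem FE_zero_le (s : Alg45.St) : Alg45.FE P X 0 s ≤ X 0 (0, s) := by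
  show Alg45.hull P (fun z => X 0 (0, z)) (fun _ z => X 0 (0, z)) s ≤ _
  exact HullB407.hull_le_F _ _ _

/-- the start of the chain: `F₀ ≤ B₀ (gst + C₀)` -/
theorem FE_zero_le_gst (hG : GdI x y g p n s (X 0 (0, s))) (hp : 4 ≤ p) (hg : 1 ≤ g) {L C0 : ℕ}
    (hL : n * s.i + 1 ≤ 2 * L) (hC : 1 ≤ C0) :
    Alg45.FE P X 0 s ≤ (16 * 2 ^ g * L + 8) * (GSt442.gst x y n s + C0) :=
  (FE_zero_le s).trans (hG.le_gst hp hg hL hC)

/-- soundness of `F₀` -/
theorem gst_le_FE_zero (h : ∀ z : Alg45.St, z.i = s.i → z.j = s.j → Alg45.inD P z →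
      GSt442.gst x y n z ≤ X 0 (0, z)) (hs : GSt442.gst x y n s ≤ X 0 (0, s)) :
    GSt442.gst x y n s ≤ Alg45.FE P X 0 s := by
  show _ ≤ Alg45.hull P (fun z => X 0 (0, z)) (fun _ z => X 0 (0, z)) s
  refine HullB407.le_hull_of_lip' hs (fun z hi hj _ => ?_) (fun _ z hi hj hz => h z hi hj hz)
  have h1 := (GSt442.exact_gst x y n (Dm := max x.length y.length) (le_max_left _ _)
    (le_max_right _ _)).lip s z hi.symm hj.symm
  omega

end Crest.Agent.R288.Init772
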