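import Crest.Agent.R288.AsmC_331
import Crest.Agent.R288.InitI_772
import Crest.Agent.R288.GtDom_373
import Crest.Agent.R288.HullLipA_364

/-!
# R288, ANA block: the approximate Lipschitz property of `FE` from `C.Good X` (helper364)

For `C : Asm331.Cfg` whose index 0 is the INIT of 772 (`GdI`):

* `FE_le_U`, `FE_anti` : `FE e y ≤ X 0 (0, y)`, antitone in `e`;
* `LipOk` : the parameter inequalities;
* `U_lt`, `cls_le` : `cls (FE e) y + a2 ≤ K0` on the domain;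
* `pm_mem` : every pair read by the hull at a state of the domain is in `OmP`;
* `alt_pm` : numbers at the inadmissible pairs;
* **`lip`** : `ALip (1 - ζ/2) (FE e)` and `FE e x ≤ (1+ζ) (FE e x' + dist x x')` on every block, `e ≤ E`.
-/

set_option autoImplicit false

namespace Crest.Agent.R288.AnaLip364

open Crest.Agent.R288.Alg45 Crest.Agent.R288.Dom20 Crest.Agent.R288.Asm331
open Crest.Agent.R288.HullLip364 Crest.Agent.R288.HullLipA364
open Crest.Agent.R288.Init772 (GdI FE_zero_le)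

variable {C : Cfg} {X : ℕ → ℕ × St → ℕ}

theorem FE_succ_le (P : Par) (X : ℕ → ℕ × St → ℕ) (e : ℕ) (y : St) :
    FE P X (e + 1) y ≤ FE P X e y := HullB407.hull_le_F _ _ _

theorem FE_anti (P : Par) (X : ℕ → ℕ × St → ℕ) {e e' : ℕ} (h : e ≤ e') (y : St) :
    FE P X e' y ≤ FE P X e y := by
  induction e', h using Nat.le_induction with
  | base => exact le_rfl
  | succ n _ ih => exact (FE_succ_le P X n y).trans ih

theorem FE_le_U (P : Par) (X : ℕ → ℕ × St → ℕ) (e : ℕ) (y : St) : FE P X e y ≤ X 0 (0, y) :=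
  (FE_anti P X (Nat.zero_le e) y).trans (FE_zero_le y)

/-- the start factor -/
def B1 (g L : ℕ) : ℕ := 16 * 2 ^ g * L + 8

/-- what is used of the configuration -/
structure LipOk (C : Cfg) (x y : List ℕ) (g p L : ℕ) (ζ : ℝ) : Prop where
  GU : ∀ s w, C.GU s w → GdI x y g p C.P.n s w
  x_le : x.length ≤ C.P.Dm
  y_le : y.length ≤ C.P.Dm
  p4 : 4 ≤ p
  g1 : 1 ≤ g
  hL : C.P.n * C.I + 1 ≤ 2 * L
  a2 : 3 ≤ C.P.a2
  K : 0 < C.P.K
  /-- the classes read by the hull are `≤ K0` -/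
  top : 2 * (2 ^ (C.P.n * C.I + 1) + 6 * C.P.Dm) + 8 < 2 ^ (C.K0 + 1 - C.P.a2)
  /-- the hull is exact at small classes -/
  big : 2 * B1 g L ≤ 2 ^ (C.P.al + C.P.pb)
  z0 : 0 ≤ ζ
  z1 : ζ ≤ 1
  al : (C.P.E : ℝ) * (2 / 2 ^ C.P.al) ≤ ζ / 4
  start : 4 / (p : ℝ) + (2 + (1 + 4 / (p : ℝ)) * (2 + 2 * 2 ^ g)) *
    (8 / 2 ^ (C.P.al + C.P.pb) * (2 * B1 g L)) ≤ ζ / 4

variable {x y : List ℕ} {g p L : ℕ} {ζ : ℝ}

theorem inD_of {N I D : ℕ} {s : St} (h : InD N I D s) : s.u.natAbs ≤ D ∧ s.v.natAbs ≤ D := by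
  obtain ⟨-, -, h3, h4⟩ := h
  omega

/-- states of a block of the domain -/
theorem InD_of_Blk {i j : ℕ} (hi : i ≤ C.I) (hj : j < C.P.N ^ (C.I - i)) {s : St}
    (hs : Blk C.P i j s) : InD C.P.N C.I C.P.Dm s := by
  obtain ⟨h1, h2, h3, h4⟩ := hs
  subst h1 h2
  refine ⟨hi, hj, ?_, ?_⟩ <;> omega

theorem Blk_of_InD {s : St} (hs : InD C.P.N C.I C.P.Dm s) : Blk C.P s.i s.j s :=
  ⟨rfl, rfl, inD_of hs⟩

theorem N_pos (P : Par) : 0 < P.N := by unfold Par.N; positivity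

/-- index 0 on the domain -/
theorem good_U (h : C.Good X) (hO : LipOk C x y g p L ζ) {s : St}
    (hs : InD C.P.N C.I C.P.Dm s) : GdI x y g p C.P.n s (X 0 (0, s)) :=
  hO.GU _ _ (C.good_init h (s := (0, s)) ((mem_OmP (N_pos C.P)).2 ⟨Nat.zero_le _, hs⟩))

theorem hL_of (hO : LipOk C x y g p L ζ) {s : St} (hs : InD C.P.N C.I C.P.Dm s) :
    C.P.n * s.i + 1 ≤ 2 * L :=
  le_trans (Nat.succ_le_succ (Nat.mul_le_mul_left _ hs.1)) hO.hL

theorem off_le {n a D : ℕ} {u : ℤ} (ha : a ≤ D) (hu : u.natAbs ≤ D) :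
    Gt373.off n a u ≤ 2 * D := by
  unfold Gt373.off GameA347.clip GameA347.pos
  omega

/-- a sure bound of the good numbers of INIT -/
theorem GdI_le {n D w : ℕ} {s : St} (hG : GdI x y g p n s w) (hp : 4 ≤ p) (hx : x.length ≤ D)
    (hu : s.u.natAbs ≤ D) (hv : s.v.natAbs ≤ D) : w ≤ 2 * (2 ^ (n * s.i + 1) + 6 * D) + 8 := by
  have h0 : Init772.Gd0 x y g p (n * s.i) s.j s.u s.v w := hG
  have hp' : (4 : ℝ) ≤ p := by exact_mod_cast hp
  have h1 : (w : ℝ) ≤ (2 * Init772.U0n x y g (n * s.i) s.j s.u s.v + 8 : ℕ) := by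
    refine h0.2.trans ?_
    push_cast
    have h2 : 4 / (p : ℝ) ≤ 1 := by rw [div_le_one (by linarith)]; exact hp'
    have h3 : (0 : ℝ) ≤ Init772.U0n x y g (n * s.i) s.j s.u s.v := Nat.cast_nonneg _
    nlinarith
  have h2 : w ≤ 2 * Init772.U0n x y g (n * s.i) s.j s.u s.v + 8 := by exact_mod_cast h1
  have h3 : Init772.U0n x y g (n * s.i) s.j s.u s.v ≤ 2 ^ (n * s.i + 1) + 6 * D := by
    unfold Init772.U0n Init772.U0
    have e1 := Init772.E_le g (Init772.mis x y) (Init772.mis_le x y) (n * s.i) s.j s.u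
    have e2 := off_le (n := y.length) (u := s.u) ((NodeA785.lo_le x.length (n * s.i) s.j).trans hx) hu
    have e3 := off_le (n := y.length) (u := s.v) ((NodeA785.hi_le x.length (n * s.i) s.j).trans hx) hv
    rw [pow_succ]
    omega
  omega

theorem U_lt (h : C.Good X) (hO : LipOk C x y g p L ζ) {s : St}
    (hs : InD C.P.N C.I C.P.Dm s) : X 0 (0, s) < 2 ^ (C.K0 + 1 - C.P.a2) := by
  refine lt_of_le_of_lt ?_ hO.top
  obtain ⟨h3, h4⟩ := inD_of hs
  refine (GdI_le (good_U h hO hs) hO.p4 hO.x_le h3 h4).trans ?_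
  have h2 : 2 ^ (C.P.n * s.i + 1) ≤ 2 ^ (C.P.n * C.I + 1) :=
    Nat.pow_le_pow_right (by norm_num) (Nat.succ_le_succ (Nat.mul_le_mul_left _ hs.1))
  omega

/-- **the classes read by the hull are below `K0`** -/
theorem cls_le (h : C.Good X) (hO : LipOk C x y g p L ζ) (e : ℕ) {s : St}
    (hs : InD C.P.N C.I C.P.Dm s) : Alg45.cls (FE C.P X e) s + C.P.a2 ≤ C.K0 := by
  have h1 := lt_of_le_of_lt (FE_le_U C.P X e s) (U_lt h hO hs)
  have h2 : C.P.a2 ≤ C.K0 := by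
    by_contra hc
    have h3 : C.K0 + 1 - C.P.a2 = 0 := by omega
    have h4 := hO.top
    rw [h3, pow_zero] at h4
    omega
  rcases Nat.eq_zero_or_pos (FE C.P X e s) with h0 | h0
  · unfold Alg45.cls
    rw [h0, Nat.log_zero_right]
    omega
  · have := Nat.log_lt_of_lt_pow h0.ne' h1
    unfold Alg45.cls
    omega

/-- **every pair read by the hull at a state of the domain is in the domain of the tapes** -/
theorem pm_mem (h : C.Good X) (hO : LipOk C x y g p L ζ) (e : ℕ) {s : St}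
    (hs : InD C.P.N C.I C.P.Dm s) {q : ℕ × St} (hq : q ∈ pm C.P (FE C.P X e) s) :
    q ∈ OmP C.P.N C.I C.P.Dm C.K0 := by
  obtain ⟨⟨-, h2⟩, h3⟩ := (mem_pm C.P).1 hq
  obtain ⟨h4, h5, h6⟩ := of_mem_menu C.P h3
  refine (mem_OmP (N_pos C.P)).2 ⟨h2.trans (cls_le h hO e hs), ?_⟩
  obtain ⟨a1, a2, -, -⟩ := hs
  refine ⟨by rw [h4]; exact a1, by rw [h4, h5]; exact a2, ?_, ?_⟩
  · have := h6.1; omega
  · have := h6.2; omega

/-- the numbers at the inadmissible pairs read by the hull -/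
theorem alt_pm (h : C.Good X) (hO : LipOk C x y g p L ζ) {e k : ℕ} (he : e < C.P.E)
    (hk : k < C.P.K) {s : St} (hs : InD C.P.N C.I C.P.Dm s) {q : ℕ × St}
    (hq : q ∈ pm C.P (FE C.P X e) s) (ha : adm C.P (FE C.P X e) q.1 q.2 = false) :
    X (idx C.P e k) (q.1, q.2) = FE C.P X e q.2 :=
  C.good_alt h he hk (pm_mem h hO e hs hq) ha

/-- **the start** -/
theorem lip_zero (h : C.Good X) (hO : LipOk C x y g p L ζ) {i j : ℕ} (hi : i ≤ C.I)
    (hj : j < C.P.N ^ (C.I - i)) :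
    ALip (Blk C.P i j) Alg45.dist (1 / (1 + (4 / (p : ℝ) +
      (2 + (1 + 4 / (p : ℝ)) * (2 + 2 * 2 ^ g)) *
        (8 / 2 ^ (C.P.al + C.P.pb) * (2 * B1 g L))))) (FE C.P X 0) := by
  have h2p : (0 : ℝ) < 2 ^ (C.P.al + C.P.pb) := by positivity
  have hα : 8 / 2 ^ (C.P.al + C.P.pb) * (2 : ℝ) ^ (C.P.al + C.P.pb) = 8 :=
    div_mul_cancel₀ _ h2p.ne'
  have hgood : ∀ s, Blk C.P i j s → GdI x y g p C.P.n s (X 0 (0, s)) :=
    fun s hs => good_U h hO (InD_of_Blk hi hj hs)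
  have hB : (8 : ℕ) ≤ B1 g L := by unfold B1; omega
  have hBR : (8 : ℝ) ≤ B1 g L := by exact_mod_cast hB
  have hstart := hull_start C.P (i := i) (j := j) (G := GSt442.gst x y C.P.n)
    (U := fun z => X 0 (0, z)) (α := 8 / 2 ^ (C.P.al + C.P.pb)) (τ := 4 / p)
    (CL := 2 + 2 * 2 ^ g) (B0 := 2 * B1 g L) (b := 8) (by positivity) (by positivity)
    (by linarith) (by rw [hα]; norm_num) (by rw [hα]; norm_num) ?_ ?_ ?_ ?_
  · have e1 : (1 : ℝ) + (4 / (p : ℝ) + (2 + (1 + 4 / (p : ℝ)) * (2 + 2 * 2 ^ g)) *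
        (8 / 2 ^ (C.P.al + C.P.pb) * (2 * B1 g L))) =
        1 + 4 / (p : ℝ) + (2 + (1 + 4 / (p : ℝ)) * (2 + 2 * 2 ^ g)) *
        (8 / 2 ^ (C.P.al + C.P.pb) * (2 * B1 g L)) := by ring
    rw [e1]
    exact hstart
  · intro s z hs hz
    exact (GSt442.exact_gst x y C.P.n hO.x_le hO.y_le).lip s z (hs.1.trans hz.1.symm)
      (hs.2.1.trans hz.2.1.symm)
  · intro s hs
    exact (hgood s hs).gst_le
  · intro s hs hbig
    have h1 := (hgood s hs).le_gst hO.p4 hO.g1 (hL_of hO (InD_of_Blk hi hj hs)) (C0 := 1) le_rfl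
    have h3 : X 0 (0, s) ≤ B1 g L * (GSt442.gst x y C.P.n s + 1) := h1
    have h4 := hO.big
    have h5 : X 0 (0, s) ≤ 2 * B1 g L * GSt442.gst x y C.P.n s := by
      have e1 : B1 g L * (GSt442.gst x y C.P.n s + 1) =
        B1 g L * GSt442.gst x y C.P.n s + B1 g L := by ring
      have e2 : 2 * B1 g L * GSt442.gst x y C.P.n s =
        2 * (B1 g L * GSt442.gst x y C.P.n s) := by ring
      omega
    exact_mod_cast h5
  · intro z z' hz hz'
    have h1 := (hgood z' hz').lip (hgood z hz) (hz'.1.trans hz.1.symm)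
      (hz'.2.1.trans hz.2.1.symm) hO.g1
    rw [HullLipA364.dist_comm z' z] at h1
    exact_mod_cast h1

/-- **(A7)(d) from a good history** -/
theorem lip (h : C.Good X) (hO : LipOk C x y g p L ζ) {i j : ℕ} (hi : i ≤ C.I)
    (hj : j < C.P.N ^ (C.I - i)) {e : ℕ} (he : e ≤ C.P.E) :
    ALip (Blk C.P i j) Alg45.dist (1 - ζ / 2) (FE C.P X e) ∧
    ∀ s s', Blk C.P i j s → Blk C.P i j s' →
      (FE C.P X e s : ℝ) ≤ (1 + ζ) * (FE C.P X e s' + Alg45.dist s s') :=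
  FE_lip C.P hO.a2 hO.K hO.z0 hO.z1 (by positivity) hO.start hO.al (lip_zero h hO hi hj)
    (fun _ he' _ hs _ hq ha _ hk =>
      le_of_eq (alt_pm h hO he' hk (InD_of_Blk hi hj hs) hq ha).symm) he

/-- the same for two states of the domain with the same block -/
theorem lip' (h : C.Good X) (hO : LipOk C x y g p L ζ) {e : ℕ} (he : e ≤ C.P.E) {s s' : St}
    (hs : InD C.P.N C.I C.P.Dm s) (hs' : InD C.P.N C.I C.P.Dm s') (hi : s.i = s'.i)
    (hj : s.j = s'.j) : (FE C.P X e s : ℝ) ≤ (1 + ζ) * (FE C.P X e s' + Alg45.dist s s') := by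
  refine (lip h hO hs.1 hs.2.1 he).2 s s' (Blk_of_InD hs) ?_
  exact ⟨hi.symm, hj.symm, inD_of hs'⟩

end Crest.Agent.R288.AnaLip364
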