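import Crest.Agent.R288.EpU_179

/-!
# R288: one epoch in the letters of the states, and the chain of the epochs (helper616)

One type `S` of states (`Alg45.St`) with a height `ht`, a domain `Ok`; `a = v - u`, `V = G + C₀`,
`F` = unit of the epoch, `R` = mean arrival number in own label.

* `EpV ht Ok N a V F R p` : what one epoch gives at single states (as `EpU179.EpU`, but `V` is free:
  no `V ≤ F`); no lists, no dependent types, sums over `range N`.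
* `EpV.main`, `EpV.le` : `R y ≤ (1+ρ)^H (1 + c + 3 λ B + κ₁ H) V y`.
* `chain` : `F (2 i) ≤ (fix + q^i (B₀ - fix)) V`, `fix = a/(1-q)`, from the step
  `F e, F (e+1) ≤ B V ⊢ F (e+2) ≤ (a + q B) V`.
* `chain_eps` : `a ≤ 1 + δ`, `q ≤ δ ≤ 1/4`, `B₀ ≤ δ 4^i` give `F e ≤ (1 + 4 δ) V` for `2 i ≤ e`.
* `root_eps` : `C₀ ≤ δ G`, `6 δ ≤ ε` : `F ≤ (1 + ε) G` at the root.
* `Pars` : parameters of all epochs, `Pars.aa`, `Pars.qq` : the affine bound, `EpV.bound`.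
* `Ana`, `Ana.root` : the skeleton: start, antitone, number at the own pair, epochs (any form of the
  epoch theorem).
-/

set_option autoImplicit false

namespace Crest.Agent.R288.ChainU616

open Finset Crest.Agent.R288.EpU179

/-- **what one epoch gives at single states**. First alternative: leaf (any height), height `0`,
retired states, free states. Second: `x` = rounded state (as a mere state), `Rx` = value of the pair
(class of `y`, `x`), `ds` ≥ `dist y x` + noise, `z` = pieces of a staircase of `x`, `d` = defect. -/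
structure EpV {S : Type*} (ht : S → ℕ) (Ok : S → Prop) (N : ℕ) (a V F R : S → ℝ) (p : Par) :
    Prop where
  V0 : ∀ y, Ok y → 0 ≤ V y
  aF : ∀ y, Ok y → |a y| ≤ F y
  FB : ∀ y, Ok y → F y ≤ p.B * V y
  step : ∀ y, Ok y → R y ≤ (1 + p.c) * V y ∨
    0 < F y ∧ 0 < ht y ∧ ∃ (x : S) (Rx ds d : ℝ) (z : ℕ → S), Ok x ∧ 0 < F x ∧
      (∀ q < N, Ok (z q) ∧ ht (z q) + 1 = ht y) ∧
      R y ≤ ds + Rx ∧ |a y - a x| ≤ ds ∧ ds ≤ p.ε * V y ∧
      F y ≤ F x + ds + p.ζ * F y ∧ F x ≤ F y + ds + p.ζ * F y ∧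
      ∑ q ∈ range N, a (z q) = a x ∧
      ∑ q ∈ range N, V (z q) ≤ (1 + p.ρ) * V y ∧
      0 ≤ d ∧ d ≤ p.kd * V y ∧ F x ≤ ∑ q ∈ range N, F (z q) + d ∧
      (En F a (a x / F x) N z ≤ p.s ^ 2 * F x → ∑ q ∈ range N, F (z q) - F x ≤ p.s * F x →
        d ≤ p.s * F x → Rx ≤ ∑ q ∈ range N, R (z q) + p.κ * F x) ∧
      Rx ≤ ∑ q ∈ range N, R (z q) + p.k1 * (F x + max (∑ q ∈ range N, F (z q) - F x) 0)

namespace EpV

variable {S : Type*} {ht : S → ℕ} {Ok : S → Prop} {N : ℕ} {a V F R : S → ℝ} {p : Par}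

/-- **the epoch theorem** -/
theorem main (E : EpV ht Ok N a V F R p) (hp : p.Ok) : ∀ h y, ht y = h → Ok y →
    R y + p.lam * Phi F a y
      ≤ (1 + p.ρ) ^ h * (1 + p.c + 3 * p.lam * p.B + p.κ₁ * h) * V y := by
  have hlam := hp.lam0
  have hκ₁ := hp.κ₁0
  have hB := hp.B0
  have hρ1 : (1 : ℝ) ≤ 1 + p.ρ := by have := hp.ρ0; linarith
  have hFa := E.aF
  have hstop : ∀ (h : ℕ) (y : S), Ok y → R y ≤ (1 + p.c) * V y → R y + p.lam * Phi F a y
      ≤ (1 + p.ρ) ^ h * (1 + p.c + 3 * p.lam * p.B + p.κ₁ * h) * V y := by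
    intro h y hy hR
    have h1 := mul_le_mul_of_nonneg_left (Phi_le (hFa y hy)) hlam
    have h2 := mul_le_mul_of_nonneg_left (E.FB y hy) (mul_nonneg (by norm_num : (0:ℝ) ≤ 3) hlam)
    have h3 : 0 ≤ p.κ₁ * h * V y := by have := E.V0 y hy; positivity
    have h4 : R y + p.lam * Phi F a y ≤ (1 + p.c + 3 * p.lam * p.B + p.κ₁ * h) * V y := by
      nlinarith
    have h5 : (1 : ℝ) ≤ (1 + p.ρ) ^ h := one_le_pow₀ hρ1
    have h6 : 0 ≤ (1 + p.c + 3 * p.lam * p.B + p.κ₁ * h) * V y := by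
      have := E.V0 y hy
      have := hp.c0
      positivity
    calc _ ≤ _ := h4
      _ ≤ (1 + p.ρ) ^ h * ((1 + p.c + 3 * p.lam * p.B + p.κ₁ * h) * V y) :=
        le_mul_of_one_le_left h6 h5
      _ = _ := by ring
  intro h
  induction h with
  | zero =>
    intro y hy hok
    rcases E.step y hok with h1 | ⟨_, h1, _⟩
    · exact hstop 0 y hok h1
    · omega
  | succ h ih =>
    intro y hy hok
    rcases E.step y hok with h1 | ⟨hFy, _, x, Rx, ds, d, z, hx, hFx, hz, hR, hax, hds, hF1, hF2,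
      hsa, hsV, hd0, hdV, hdF, hnear, hall⟩
    · exact hstop (h + 1) y hok h1
    · have hVy := E.V0 y hok
      have hcl := closure_on (R := R) (fun q hq => hFa (z q) (hz q hq).1) (hFa x hx) hFx hd0
        hp.k10 hp.κ0 hp.s0 hp.s1 hp.lam1 hsa hdF hnear hall
      have hmv := Phi_move (ds := ds) (z := p.ζ * F y) (hFa y hok) (hFa x hx) hFy hax
        (by linarith) (by linarith)
      have hmv' := mul_le_mul_of_nonneg_left hmv hlam
      have hsum : ∑ q ∈ range N, (R (z q) + p.lam * Phi F a (z q))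
          ≤ (1 + p.ρ) ^ h * (1 + p.c + 3 * p.lam * p.B + p.κ₁ * h) * ∑ q ∈ range N, V (z q) := by
        rw [mul_sum]
        exact sum_le_sum fun q hq => ih (z q) (by have := (hz q (mem_range.1 hq)).2; omega)
          (hz q (mem_range.1 hq)).1
      set P := (1 + p.ρ) ^ h with hP
      have hP1 : (1 : ℝ) ≤ P := one_le_pow₀ hρ1
      set C := 1 + p.c + 3 * p.lam * p.B + p.κ₁ * h with hC
      have hC0 : 0 ≤ C := by
        have := hp.c0
        rw [hC]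
        positivity
      have h2 : P * C * ∑ q ∈ range N, V (z q) ≤ P * C * ((1 + p.ρ) * V y) :=
        mul_le_mul_of_nonneg_left hsV (by positivity)
      have hζ := hp.ζ0
      have hFyB := E.FB y hok
      -- the loss of this window
      have h3 : p.κ * F x ≤ p.κ * (((1 + p.ζ) * p.B + p.ε) * V y) := by
        refine mul_le_mul_of_nonneg_left ?_ hp.κ0
        have : p.ζ * F y ≤ p.ζ * (p.B * V y) := mul_le_mul_of_nonneg_left hFyB hζ
        nlinarith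
      have h4 : (2 * p.lam + p.k1 / p.s) * d ≤ (2 * p.lam + p.k1 / p.s) * (p.kd * V y) :=
        mul_le_mul_of_nonneg_left hdV (add_nonneg (by linarith) (div_nonneg hp.k10 hp.s0.le))
      have h5 : (1 + 5 * p.lam) * ds ≤ (1 + 5 * p.lam) * (p.ε * V y) :=
        mul_le_mul_of_nonneg_left hds (by linarith)
      have h6 : 3 * p.lam * (p.ζ * F y) ≤ 3 * p.lam * (p.ζ * (p.B * V y)) :=
        mul_le_mul_of_nonneg_left (mul_le_mul_of_nonneg_left hFyB hζ) (by linarith)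
      have h7 : R y + p.lam * Phi F a y ≤ P * C * ((1 + p.ρ) * V y) + p.κ₁ * V y := by
        have e1 : p.κ₁ * V y = (1 + 5 * p.lam) * (p.ε * V y) + 3 * p.lam * (p.ζ * (p.B * V y))
            + p.κ * (((1 + p.ζ) * p.B + p.ε) * V y)
            + (2 * p.lam + p.k1 / p.s) * (p.kd * V y) := by
          unfold Par.κ₁
          ring
        have e2 : Phi F a y = a y ^ 2 / F y + 2 * F y := rfl
        rw [e1, e2]
        have e3 : p.lam * (a x ^ 2 / F x + 2 * F x + 5 * ds + 3 * (p.ζ * F y))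
            = p.lam * (a x ^ 2 / F x + 2 * F x) + 5 * p.lam * ds + 3 * p.lam * (p.ζ * F y) := by
          ring
        rw [e3] at hmv'
        have e4 : (1 + 5 * p.lam) * ds = ds + 5 * p.lam * ds := by ring
        rw [e4] at h5
        linarith
      have h8 : p.κ₁ * V y ≤ P * (1 + p.ρ) * (p.κ₁ * V y) := by
        have h9 : 0 ≤ p.κ₁ * V y := mul_nonneg hκ₁ hVy
        exact le_mul_of_one_le_left h9 (by nlinarith)
      calc R y + p.lam * Phi F a y ≤ P * C * ((1 + p.ρ) * V y) + p.κ₁ * V y := h7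
        _ ≤ P * C * ((1 + p.ρ) * V y) + P * (1 + p.ρ) * (p.κ₁ * V y) := by linarith
        _ = _ := by
          rw [hC, hP, pow_succ]
          push_cast
          ring

/-- conclusion for `R` alone at all heights `≤ H` -/
theorem le (E : EpV ht Ok N a V F R p) (hp : p.Ok) {H : ℕ} {C : ℝ}
    (hC : (1 + p.ρ) ^ H * (1 + p.c + 3 * p.lam * p.B + p.κ₁ * H) ≤ C) {y : S} (hy : ht y ≤ H)
    (hok : Ok y) : R y ≤ C * V y := by
  have h1 := E.main hp (ht y) y rfl hok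
  have h2 := mul_nonneg hp.lam0 (Phi_nonneg (F := F) (a := a) (E.aF y hok))
  have hV : 0 ≤ V y := E.V0 y hok
  have hρ : (1 : ℝ) ≤ 1 + p.ρ := by have := hp.ρ0; linarith
  have h3 : (1 + p.ρ) ^ ht y ≤ (1 + p.ρ) ^ H := pow_le_pow_right₀ hρ hy
  have h4 : 1 + p.c + 3 * p.lam * p.B + p.κ₁ * (ht y : ℝ)
      ≤ 1 + p.c + 3 * p.lam * p.B + p.κ₁ * H := by
    have : (ht y : ℝ) ≤ H := by exact_mod_cast hy
    have := mul_le_mul_of_nonneg_left this hp.κ₁0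
    linarith
  have h5 : 0 ≤ 1 + p.c + 3 * p.lam * p.B + p.κ₁ * (ht y : ℝ) := by
    have := hp.lam0
    have := hp.B0
    have := hp.κ₁0
    have := hp.c0
    positivity
  have h6 : (1 + p.ρ) ^ ht y * (1 + p.c + 3 * p.lam * p.B + p.κ₁ * (ht y : ℝ)) ≤ C :=
    (mul_le_mul h3 h4 h5 (by positivity)).trans hC
  have := mul_le_mul_of_nonneg_right h6 hV
  linarith

end EpV

/-! ### the chain of the epochs -/

section chain

variable {S : Type*} {Ok : S → Prop} {V : S → ℝ} {F : ℕ → S → ℝ} {a q B₀ : ℝ}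

/-- **the chain** (epochs up to `E`): the factor contracts to `a / (1 - q)` every two epochs -/
theorem chain {E : ℕ} (hq : 0 ≤ q) (hq1 : q < 1) (hB : a / (1 - q) ≤ B₀)
    (h0 : ∀ y, Ok y → F 0 y ≤ B₀ * V y) (hanti : ∀ e y, Ok y → F (e + 1) y ≤ F e y)
    (hstep : ∀ e, e + 2 ≤ E → ∀ B, a / (1 - q) ≤ B → B ≤ B₀ → (∀ y, Ok y → F e y ≤ B * V y) →
      (∀ y, Ok y → F (e + 1) y ≤ B * V y) → ∀ y, Ok y → F (e + 2) y ≤ (a + q * B) * V y) (i : ℕ)
    (hi : 2 * i ≤ E) :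
    ∀ y, Ok y → F (2 * i) y ≤ (a / (1 - q) + q ^ i * (B₀ - a / (1 - q))) * V y := by
  set A := a / (1 - q) with hA
  have h1q : 0 < 1 - q := by linarith
  have haA : a + q * A = A := by rw [hA]; field_simp; ring
  induction i with
  | zero => intro y hy; simpa using h0 y hy
  | succ i ih =>
    have hpow : 0 ≤ q ^ i := pow_nonneg hq i
    have hpow1 : q ^ i ≤ 1 := pow_le_one₀ hq hq1.le
    have ih' := ih (by omega)
    have h1 := hstep (2 * i) (by omega) (A + q ^ i * (B₀ - A)) (by nlinarith) (by nlinarith) ih'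
      (fun y hy => (hanti _ y hy).trans (ih' y hy))
    intro y hy
    have h2 := h1 y hy
    have e : a + q * (A + q ^ i * (B₀ - A)) = A + q ^ (i + 1) * (B₀ - A) := by
      rw [pow_succ]
      linear_combination haA
    rw [e] at h2
    exact h2

theorem anti_le (hanti : ∀ e y, Ok y → F (e + 1) y ≤ F e y) {e e' : ℕ} (h : e ≤ e') {y : S}
    (hy : Ok y) : F e' y ≤ F e y := by
  induction e', h using Nat.le_induction with
  | base => exact le_rfl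
  | succ n _ ih => exact (hanti n y hy).trans ih

/-- `a ≤ 1 + δ`, `q ≤ δ ≤ 1/4`, `B₀ ≤ δ 4^i`: after `2 i` epochs the factor is `1 + 4 δ` -/
theorem chain_eps {E : ℕ} {δ : ℝ} (hδ0 : 0 < δ) (hδ : δ ≤ 1 / 4) (hV : ∀ y, Ok y → 0 ≤ V y)
    (ha0 : 0 ≤ a) (ha : a ≤ 1 + δ) (hq : 0 ≤ q) (hqδ : q ≤ δ) (hB : 2 ≤ B₀)
    (h0 : ∀ y, Ok y → F 0 y ≤ B₀ * V y) (hanti : ∀ e y, Ok y → F (e + 1) y ≤ F e y)
    (hstep : ∀ e, e + 2 ≤ E → ∀ B, a ≤ B → B ≤ B₀ → (∀ y, Ok y → F e y ≤ B * V y) →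
      (∀ y, Ok y → F (e + 1) y ≤ B * V y) → ∀ y, Ok y → F (e + 2) y ≤ (a + q * B) * V y)
    {i e : ℕ} (hi : B₀ ≤ δ * 4 ^ i) (hiE : 2 * i ≤ E) (he : 2 * i ≤ e) {y : S} (hy : Ok y) :
    F e y ≤ (1 + 4 * δ) * V y := by
  have h1q : 0 < 1 - q := by linarith
  have hA1 : a / (1 - q) ≤ 1 + 3 * δ := by
    rw [div_le_iff₀ h1q]
    nlinarith
  have hA2 : a ≤ a / (1 - q) := by
    rw [le_div_iff₀ h1q]
    nlinarith
  have hA0 : 0 ≤ a / (1 - q) := ha0.trans hA2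
  have h1 := chain (E := E) hq (by linarith) (by linarith) h0 hanti
    (fun e he B h1 h2 h3 h4 => hstep e he B (hA2.trans h1) h2 h3 h4) i hiE y hy
  refine (anti_le hanti he hy).trans (h1.trans (mul_le_mul_of_nonneg_right ?_ (hV y hy)))
  have h2 : q ^ i * (B₀ - a / (1 - q)) ≤ (1 / 4) ^ i * (δ * 4 ^ i) := by
    have h3 : q ^ i ≤ (1 / 4) ^ i := pow_le_pow_left₀ hq (by linarith) i
    have h4 : B₀ - a / (1 - q) ≤ δ * 4 ^ i := by linarith
    have h5 : 0 ≤ δ * 4 ^ i := by positivity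
    calc q ^ i * (B₀ - a / (1 - q)) ≤ q ^ i * (δ * 4 ^ i) :=
          mul_le_mul_of_nonneg_left h4 (pow_nonneg hq i)
      _ ≤ (1 / 4) ^ i * (δ * 4 ^ i) := mul_le_mul_of_nonneg_right h3 h5
  have h6 : (1 / 4 : ℝ) ^ i * (δ * 4 ^ i) = δ := by
    rw [show (1 / 4 : ℝ) ^ i * (δ * 4 ^ i) = δ * ((1 / 4) * 4) ^ i by rw [mul_pow]; ring]
    norm_num
  linarith

/-- the root: the additive constant disappears -/
theorem root_eps {δ ε Fr Gr C₀ : ℝ} (hδ0 : 0 ≤ δ) (hδ : δ ≤ 1 / 4) (hε : 6 * δ ≤ ε) (hG : 0 ≤ Gr)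
    (hC : C₀ ≤ δ * Gr) (h : Fr ≤ (1 + 4 * δ) * (Gr + C₀)) : Fr ≤ (1 + ε) * Gr := by
  nlinarith [mul_nonneg hδ0 hG, mul_nonneg hδ0 hδ0, mul_nonneg (mul_nonneg hδ0 hδ0) hG]

end chain

/-! ### the skeleton -/

/-- the parameters of all epochs: everything but `B` and the defect is fixed; the defect of epoch
`e + 1` is `k₀ + k' B` (`k' =` rounding part + `η`) when `B` bounds the factors of `F (e+1)` and `F e` -/
structure Pars where
  κ : ℝ
  k1 : ℝ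
  s : ℝ
  lam : ℝ
  ρ : ℝ
  ε : ℝ
  ζ : ℝ
  k₀ : ℝ
  k' : ℝ
  c : ℝ
  /-- noise of a number: `ν F + c₃ V` -/
  ν : ℝ
  c₃ : ℝ

namespace Pars

variable (w : Pars)

/-- the parameters of an epoch with factor `B` -/
def at' (B : ℝ) : Par :=
  { B := B, κ := w.κ, k1 := w.k1, s := w.s, lam := w.lam, ρ := w.ρ, ε := w.ε, ζ := w.ζ
    kd := w.k₀ + w.k' * B, c := w.c }

structure Ok : Prop where
  κ0 : 0 ≤ w.κ
  k10 : 0 ≤ w.k1
  s0 : 0 < w.s
  s1 : w.s ≤ 1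
  lam1 : w.k1 * (1 + w.s ^ 2) ≤ w.lam * w.s ^ 2
  ρ0 : 0 ≤ w.ρ
  ε0 : 0 ≤ w.ε
  ζ0 : 0 ≤ w.ζ
  k₀0 : 0 ≤ w.k₀
  k'0 : 0 ≤ w.k'
  c0 : 0 ≤ w.c
  ν0 : 0 ≤ w.ν
  c₃0 : 0 ≤ w.c₃

variable {w}

theorem Ok.at' (h : w.Ok) {B : ℝ} (hB : 0 ≤ B) : (w.at' B).Ok where
  B0 := hB
  κ0 := h.κ0
  k10 := h.k10
  s0 := h.s0
  s1 := h.s1
  lam1 := h.lam1
  ρ0 := h.ρ0
  ε0 := h.ε0
  ζ0 := h.ζ0
  kd0 := add_nonneg h.k₀0 (mul_nonneg h.k'0 hB)
  c0 := h.c0

theorem Ok.lam0 (h : w.Ok) : 0 ≤ w.lam := (h.at' le_rfl).lam0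

/-- the constant of the recursion -/
noncomputable def aa (w : Pars) (H : ℕ) : ℝ :=
  (1 + w.ρ) ^ H * (1 + w.c +
    ((1 + 5 * w.lam) * w.ε + w.κ * w.ε + (2 * w.lam + w.k1 / w.s) * w.k₀) * H) + w.c₃

/-- the slope of the recursion -/
noncomputable def qq (w : Pars) (H : ℕ) : ℝ :=
  (1 + w.ρ) ^ H * (3 * w.lam +
    (3 * w.lam * w.ζ + w.κ * (1 + w.ζ) + (2 * w.lam + w.k1 / w.s) * w.k') * H) + w.ν

theorem bound_eq (w : Pars) (H : ℕ) (B : ℝ) :
    (1 + (w.at' B).ρ) ^ H * (1 + (w.at' B).c + 3 * (w.at' B).lam * (w.at' B).B + (w.at' B).κ₁ * H)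
      + (w.ν * B + w.c₃) = w.aa H + w.qq H * B := by
  unfold aa qq Par.κ₁ at'
  ring

theorem Ok.aa1 (h : w.Ok) (H : ℕ) : 1 ≤ w.aa H := by
  have hlam := h.lam0
  have h1 : (1 : ℝ) ≤ (1 + w.ρ) ^ H := one_le_pow₀ (by have := h.ρ0; linarith)
  have h2 : 0 ≤ ((1 + 5 * w.lam) * w.ε + w.κ * w.ε + (2 * w.lam + w.k1 / w.s) * w.k₀) * H := by
    have := h.ε0
    have := h.κ0
    have := h.k10
    have := h.s0
    have := h.k₀0
    positivity
  have h3 := h.c0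
  have h4 := h.c₃0
  unfold aa
  nlinarith

theorem Ok.qq0 (h : w.Ok) (H : ℕ) : 0 ≤ w.qq H := by
  have hlam := h.lam0
  have := h.ρ0
  have := h.ζ0
  have := h.κ0
  have := h.k10
  have := h.s0
  have := h.k'0
  have := h.ν0
  unfold qq
  positivity

end Pars

/-- **one epoch**: the mean arrival numbers from `EpV` with the parameters `w.at' B` -/
theorem EpV.bound {S : Type*} {ht : S → ℕ} {Ok : S → Prop} {N H : ℕ} {a V F R : S → ℝ} {w : Pars}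
    {B : ℝ} (E : EpV ht Ok N a V F R (w.at' B)) (hw : w.Ok) (hB : 0 ≤ B)
    (htH : ∀ y, Ok y → ht y ≤ H) {y : S} (hy : Ok y) :
    R y ≤ (w.aa H + w.qq H * B - (w.ν * B + w.c₃)) * V y :=
  E.le (hw.at' hB) (H := H) (le_of_eq (by rw [← Pars.bound_eq]; ring)) (htH y hy) hy

/-- **the analysis on a good tape, skeleton**, for any form of the epoch theorem; `E` = number of
epochs, `F e` = unit of epoch `e` (`e = 0`: INIT hull), `R e` = mean arrival number of epoch `e` in own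
label. -/
structure Ana {S : Type*} (Ok : S → Prop) (V : S → ℝ) (F R : ℕ → S → ℝ) (aR qR ν c₃ B₀ : ℝ)
    (E : ℕ) : Prop where
  V0 : ∀ y, Ok y → 0 ≤ V y
  /-- INIT -/
  start : ∀ y, Ok y → F 0 y ≤ B₀ * V y
  /-- `F (e+1) = hull (F e) ..` -/
  anti : ∀ e y, Ok y → F (e + 1) y ≤ F e y
  /-- `F (e+2)` is at most the mean number of epoch `e + 1` at the own pair -/
  num : ∀ e, e + 2 ≤ E → ∀ y, Ok y → F (e + 2) y ≤ R (e + 1) y + ν * F (e + 1) y + c₃ * V y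
  /-- epoch `e + 1` -/
  ep : ∀ e, e + 2 ≤ E → ∀ B, 1 ≤ B → B ≤ B₀ → (∀ y, Ok y → F e y ≤ B * V y) →
    (∀ y, Ok y → F (e + 1) y ≤ B * V y) → ∀ y, Ok y → R (e + 1) y ≤ (aR + qR * B) * V y

namespace Ana

variable {S : Type*} {Ok : S → Prop} {V : S → ℝ} {F R : ℕ → S → ℝ} {aR qR ν c₃ B₀ : ℝ} {E : ℕ}

/-- one step of the chain -/
theorem step (A : Ana Ok V F R aR qR ν c₃ B₀ E) (hν : 0 ≤ ν) {e : ℕ} (he : e + 2 ≤ E) {B : ℝ}
    (hB1 : 1 ≤ B) (hB : B ≤ B₀) (h1 : ∀ y, Ok y → F e y ≤ B * V y)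
    (h2 : ∀ y, Ok y → F (e + 1) y ≤ B * V y) {y : S} (hy : Ok y) :
    F (e + 2) y ≤ (aR + c₃ + (qR + ν) * B) * V y := by
  have h3 := A.ep e he B hB1 hB h1 h2 y hy
  have h4 := A.num e he y hy
  have h5 := mul_le_mul_of_nonneg_left (h2 y hy) hν
  nlinarith

/-- **all epochs** -/
theorem le (A : Ana Ok V F R aR qR ν c₃ B₀ E) {δ : ℝ} (hδ0 : 0 < δ) (hδ : δ ≤ 1 / 4)
    (ha1 : 1 ≤ aR) (hq0 : 0 ≤ qR) (hν : 0 ≤ ν) (hc₃ : 0 ≤ c₃) (ha : aR + c₃ ≤ 1 + δ)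
    (hq : qR + ν ≤ δ) (hB : 2 ≤ B₀) {i : ℕ} (hi : B₀ ≤ δ * 4 ^ i) (he : 2 * i ≤ E) {y : S}
    (hy : Ok y) : F E y ≤ (1 + 4 * δ) * V y :=
  chain_eps (E := E) hδ0 hδ A.V0 (by linarith) ha (by linarith) hq hB A.start A.anti
    (fun _ he _ h1 h2 h3 h4 _ hy => A.step hν he (by linarith) h2 h3 h4 hy) hi he he hy

/-- **the root** -/
theorem root (A : Ana Ok V F R aR qR ν c₃ B₀ E) {δ ε : ℝ} (hδ0 : 0 < δ) (hδ : δ ≤ 1 / 4)
    (hε : 6 * δ ≤ ε) (ha1 : 1 ≤ aR) (hq0 : 0 ≤ qR) (hν : 0 ≤ ν) (hc₃ : 0 ≤ c₃)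
    (ha : aR + c₃ ≤ 1 + δ) (hq : qR + ν ≤ δ) (hB : 2 ≤ B₀) {i : ℕ} (hi : B₀ ≤ δ * 4 ^ i)
    (he : 2 * i ≤ E) {r : S} (hr : Ok r) {Gr C₀ : ℝ} (hG : 0 ≤ Gr) (hV : V r = Gr + C₀)
    (hC : C₀ ≤ δ * Gr) : F E r ≤ (1 + ε) * Gr := by
  have h := A.le hδ0 hδ ha1 hq0 hν hc₃ ha hq hB hi he hr
  rw [hV] at h
  exact root_eps hδ0.le hδ hε hG hC h

end Ana

end Crest.Agent.R288.ChainU616
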