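import Crest.Agent.R288.Dom_20
import Crest.Agent.R288.AlgB_45

/-!
# R288 [DOM] = (A2) of SPEC #4877 (helper20): the domain of ALG v2 is closed under every read

`Dom P I := InD P.N I P.Dm` (block in range, both diagonals in `[-Dm, Dm]`), `Gd P K0` = all steps of the
classes `≤ K0` divide `Dm` (`grdOK_of_pow`: `Dm = 2 ^ H`, `K0 ≤ pb + H`).

* `clp_box`, `clp_of_box`, `dvd_clp`, `clp_between`; `wlo_le`, `le_whi`, `pos_mem`, `pos_box`, `pos_radius`;
* `Dom.piece`, `Dom.tpiece`, `Dom.npiece`, `Dom.rdn`, `Dom.menu` (and: menu states are on the grid),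
  `Dom.cst` (cells of a block of the domain), `jcand_dom`;
* `hull_congr`, `numSt_congr`, `D_congr`, `Vst_congr`, `Wm_congr`, `wild_congr`, `FE_congr` : the values
  depend on the functions on the domain only (`FE_congr`: on the histories on `Om P I K0`);
* `hull_le_own`, `FE_anti`, `FE_le_init`, `cls_FE_le` : sure bounds of the unit functions and classes;
* `Om P I K0` (`mem_Om`, `card_Om_le`, `card_Om_pow : ≤ 18 Dm ^ 5`), `pair_zero`, `pair_own`, `pair_menu` :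
  the pairs which are read lie in `Om P I K0` for `cls + a2 ≤ K0`;
* `DomH` (693): the half domain `|u|, |v| ≤ Dm / 2`, `DomH.dom`, `DomH.rdn`, `DomH.stair`.
-/

set_option autoImplicit false

namespace Crest.Agent.R288.Dom20

open Finset
open Crest.Agent.R288.Alg45

variable (P : Par)

/-- the domain -/
def Dom (I : ℕ) (y : St) : Prop := InD P.N I P.Dm y

/-- the steps of all classes `≤ K0` divide `Dm` -/
def GrdOK (K0 : ℕ) : Prop := ∀ κ ≤ K0, gst P κ ∣ P.Dm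

theorem GrdOK.mono {K0 K1 : ℕ} (h : GrdOK P K1) (h1 : K0 ≤ K1) : GrdOK P K0 :=
  fun κ hκ => h κ (hκ.trans h1)

theorem grdOK_of_pow {H K0 : ℕ} (h : P.Dm = 2 ^ H) (hK : K0 ≤ P.pb + H) : GrdOK P K0 := by
  intro κ hκ
  rw [h]
  exact gst_dvd P (by omega)

theorem N_pos : 0 < P.N := Nat.two_pow_pos _

theorem dom_iff {I : ℕ} {y : St} :
    Dom P I y ↔ y.i ≤ I ∧ y.j < P.N ^ (I - y.i) ∧ inD P y := by
  unfold Dom InD inD
  constructor
  · rintro ⟨h1, h2, h3, h4⟩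
    exact ⟨h1, h2, by omega, by omega⟩
  · rintro ⟨h1, h2, h3, h4⟩
    exact ⟨h1, h2, by omega, by omega⟩

theorem Dom.inD {I : ℕ} {y : St} (h : Dom P I y) : Alg45.inD P y := ((dom_iff P).1 h).2.2

/-! ### the clamp -/

theorem clp_box (u : ℤ) : -(P.Dm : ℤ) ≤ clp P u ∧ clp P u ≤ P.Dm := by
  unfold clp
  constructor
  · exact le_max_left _ _
  · exact max_le (by omega) (min_le_left _ _)

theorem clp_of_box {u : ℤ} (h : -(P.Dm : ℤ) ≤ u ∧ u ≤ P.Dm) : clp P u = u := by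
  unfold clp
  omega

theorem clp_mono {u v : ℤ} (h : u ≤ v) : clp P u ≤ clp P v := by
  unfold clp
  omega

/-- the clamp moves a point towards every point of the domain -/
theorem clp_between {a b u w : ℤ} (hw : -(P.Dm : ℤ) ≤ w ∧ w ≤ P.Dm) (h1 : a ≤ u) (h2 : u ≤ b)
    (h3 : a ≤ w) (h4 : w ≤ b) : a ≤ clp P u ∧ clp P u ≤ b := by
  unfold clp
  omega

/-- the clamp is `1`-Lipschitz; a point of the domain does not get farther -/
theorem clp_dist {u w : ℤ} (hw : -(P.Dm : ℤ) ≤ w ∧ w ≤ P.Dm) :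
    (clp P u - w).natAbs ≤ (u - w).natAbs := by
  unfold clp
  omega

theorem dvd_clp {g : ℕ} (hg : g ∣ P.Dm) {u : ℤ} (hu : (g : ℤ) ∣ u) : (g : ℤ) ∣ clp P u := by
  have h1 : (g : ℤ) ∣ (P.Dm : ℤ) := by exact_mod_cast hg
  unfold clp
  rcases max_choice (-(P.Dm : ℤ)) (min (P.Dm : ℤ) u) with h | h <;> rw [h]
  · exact (dvd_neg).2 h1
  · rcases min_choice (P.Dm : ℤ) u with h2 | h2 <;> rw [h2]
    · exact h1
    · exact hu

/-! ### closure -/

variable {P} {I : ℕ}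

theorem Dom.i_le {y : St} (h : Dom P I y) : y.i ≤ I := h.1

theorem gst_le_pow (κ : ℕ) : gst P κ ≤ 2 ^ κ := Nat.pow_le_pow_right (by norm_num) (Nat.sub_le _ _)

/-- the window of a state of the domain: `wlo ≤ x.u`, `x.u ≤ whi`, both ends in the box -/
theorem wlo_le {κ : ℕ} {x : St} (h : -(P.Dm : ℤ) ≤ x.u) : wlo P κ x ≤ x.u := by
  have h1 := rd_le P κ x.u
  have h2 : (0 : ℤ) ≤ P.r * 2 ^ κ := by positivity
  unfold wlo
  omega

theorem le_whi (hr : 1 ≤ P.r) {κ : ℕ} {x : St} (h : x.u ≤ P.Dm) : x.u ≤ whi P κ x := by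
  have h1 := rd_gt P κ x.u
  have h2 : ((gst P κ : ℕ) : ℤ) ≤ 2 ^ κ := by exact_mod_cast gst_le_pow κ
  have h3 : (2 : ℤ) ^ κ ≤ P.r * 2 ^ κ := by
    have : (1 : ℤ) ≤ P.r := by exact_mod_cast hr
    nlinarith [show (0 : ℤ) < 2 ^ κ by positivity]
  unfold whi
  omega

/-- all letters lie between `wlo` and `whi` -/
theorem pos_mem (hr : 1 ≤ P.r) {x : St} (h : -(P.Dm : ℤ) ≤ x.u ∧ x.u ≤ P.Dm) (κ a : ℕ) :
    wlo P κ x ≤ pos P κ x a ∧ pos P κ x a ≤ whi P κ x := by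
  have h1 := wlo_le (P := P) (κ := κ) h.1
  have h2 := le_whi (P := P) (κ := κ) hr h.2
  have h3 : (0 : ℤ) ≤ a * (gst P κ : ℤ) := by positivity
  unfold pos
  omega

theorem pos_box (hr : 1 ≤ P.r) {x : St} (h : -(P.Dm : ℤ) ≤ x.u ∧ x.u ≤ P.Dm) (κ a : ℕ) :
    -(P.Dm : ℤ) ≤ pos P κ x a ∧ pos P κ x a ≤ P.Dm := by
  have h1 := pos_mem hr h κ a
  unfold wlo whi at h1
  omega

/-- the letters are within `r 2^κ` of the rounded left end -/
theorem pos_radius (hr : 1 ≤ P.r) {x : St} (h : -(P.Dm : ℤ) ≤ x.u ∧ x.u ≤ P.Dm) (κ a : ℕ) :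
    rd P κ x.u - P.r * 2 ^ κ ≤ pos P κ x a ∧ pos P κ x a ≤ rd P κ x.u + P.r * 2 ^ κ := by
  have h1 := pos_mem hr h κ a
  unfold wlo whi at h1
  omega

theorem cut_box (hr : 1 ≤ P.r) {x : St} (h : Dom P I x) (κ q a : ℕ) :
    -(P.Dm : ℤ) ≤ cut P κ x q a ∧ cut P κ x q a ≤ P.Dm := by
  unfold cut
  split
  · exact h.2.2.1
  · split
    · exact h.2.2.2
    · exact pos_box hr h.2.2.1 κ a

theorem Dom.piece {x : St} (h : Dom P I x) (hr : 1 ≤ P.r) (hi : 1 ≤ x.i) {q : ℕ} (hq : q < P.N)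
    (κ a b : ℕ) : Dom P I (piece P κ x q a b) :=
  InD.child h hi hq (cut_box hr h κ q a) (cut_box hr h κ (q + 1) b)

theorem Dom.tpiece {x : St} (h : Dom P I x) (hr : 1 ≤ P.r) (hi : 1 ≤ x.i) {q : ℕ} (hq : q < P.N)
    (F : St → ℕ) (κ : ℕ) : Dom P I (tpiece P F κ x q) := h.piece hr hi hq κ _ _

theorem Dom.npiece {x : St} (h : Dom P I x) (hr : 1 ≤ P.r) (hi : 1 ≤ x.i) {q : ℕ} (hq : q < P.N)
    (F : St → ℕ) (κ a b : ℕ) : Dom P I (npiece P F κ x q a b) := h.piece hr hi hq κ _ _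

/-- any integer staircase with cuts in the box -/
theorem Dom.stair {x : St} (h : Dom P I x) (hi : 1 ≤ x.i) {q : ℕ} (hq : q < P.N) {a b : ℤ}
    (ha : -(P.Dm : ℤ) ≤ a ∧ a ≤ P.Dm) (hb : -(P.Dm : ℤ) ≤ b ∧ b ≤ P.Dm) :
    Dom P I ⟨x.i - 1, P.N * x.j + q, a, b⟩ := InD.child h hi hq ha hb

theorem Dom.rdn {y : St} (h : Dom P I y) {κ : ℕ} (hg : gst P κ ∣ P.Dm) : Dom P I (rdn P κ y) :=
  rdn_InD P hg h

/-- the cost of rounding -/
theorem dist_rdn_le' (κ : ℕ) (y : St) : Alg45.dist y (rdn P κ y) ≤ 2 * (gst P κ - 1) := by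
  have h1 := rd_le P κ y.u
  have h2 := rd_gt P κ y.u
  have h3 := rd_le P κ y.v
  have h4 := rd_gt P κ y.v
  unfold Alg45.dist
  show (y.u - rd P κ y.u).natAbs + (y.v - rd P κ y.v).natAbs ≤ _
  omega

/-- the lists of `menu`, `cellsIn` are elaborated with a coercion of the list -/
theorem mem_castRange {n : ℕ} {a : ℤ} :
    (a ∈ (do let k ← List.range n; pure (k : ℤ) : List ℤ)) ↔ ∃ k < n, (k : ℤ) = a := by
  simp [eq_comm]

theorem mem_menu {κ' ρ : ℕ} {y z : St} : z ∈ menu P κ' ρ y ↔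
    ∃ a < 2 * (ρ / gst P κ') + 3, ∃ b < 2 * (ρ / gst P κ') + 3, z = { y with
        u := clp P (rd P κ' y.u + ((a : ℤ) - (ρ / gst P κ' + 1 : ℕ)) * (gst P κ' : ℤ))
        v := clp P (rd P κ' y.v + ((b : ℤ) - (ρ / gst P κ' + 1 : ℕ)) * (gst P κ' : ℤ)) } := by
  unfold menu
  simp only [List.mem_flatMap, List.mem_map, mem_castRange]
  constructor
  · rintro ⟨_, ⟨a, ha, rfl⟩, _, ⟨b, hb, rfl⟩, rfl⟩
    exact ⟨a, ha, b, hb, rfl⟩
  · rintro ⟨a, ha, b, hb, rfl⟩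
    exact ⟨_, ⟨a, ha, rfl⟩, _, ⟨b, hb, rfl⟩, rfl⟩

theorem Dom.menu {y z : St} (h : Dom P I y) {κ' ρ : ℕ} (hz : z ∈ menu P κ' ρ y) : Dom P I z := by
  obtain ⟨a, -, b, -, rfl⟩ := mem_menu.1 hz
  exact InD.diag h (clp_box P _) (clp_box P _)

/-- menu states keep height and block -/
theorem menu_ij {y z : St} {κ' ρ : ℕ} (hz : z ∈ menu P κ' ρ y) : z.i = y.i ∧ z.j = y.j := by
  obtain ⟨a, -, b, -, rfl⟩ := mem_menu.1 hz
  exact ⟨rfl, rfl⟩

/-- menu states are on the grid -/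
theorem menu_grid {y z : St} {κ' ρ : ℕ} (hg : gst P κ' ∣ P.Dm) (hz : z ∈ menu P κ' ρ y) :
    Alg45.rdn P κ' z = z := by
  obtain ⟨a, -, b, -, rfl⟩ := mem_menu.1 hz
  unfold Alg45.rdn
  have e1 : ∀ (w : ℤ) (c : ℤ), (gst P κ' : ℤ) ∣ clp P (rd P κ' w + c * (gst P κ' : ℤ)) :=
    fun w c => dvd_clp P hg (dvd_add (dvd_rd P κ' w) (dvd_mul_left _ _))
  simp only [rd_of_dvd P (e1 _ _)]

/-- one coordinate of the menu -/
theorem menu_coord {κ' ρ : ℕ} {u w : ℤ} (hw : (gst P κ' : ℤ) ∣ w)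
    (hb : -(P.Dm : ℤ) ≤ w ∧ w ≤ P.Dm) (hd : (w - u).natAbs ≤ ρ) :
    ∃ a < 2 * (ρ / gst P κ') + 3,
      clp P (rd P κ' u + ((a : ℤ) - (ρ / gst P κ' + 1 : ℕ)) * (gst P κ' : ℤ)) = w := by
  have hgp := gst_pos P κ'
  set g := gst P κ' with hgdef
  obtain ⟨c, hc⟩ := hw
  obtain ⟨d, hd'⟩ := dvd_rd P κ' u
  rw [← hgdef] at hd'
  have h1 := rd_le P κ' u
  have h2 := rd_gt P κ' u
  rw [← hgdef] at h2
  -- `c - d` lies in `[-(ρ/g), ρ/g + 1]`
  have hgz : (0 : ℤ) < g := by exact_mod_cast hgp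
  have hr : (ρ : ℤ) < (ρ / g : ℕ) * g + g := by
    have := Nat.lt_div_mul_add (a := ρ) hgp
    exact_mod_cast this
  have h3 : (g : ℤ) * (c - d) ≤ ρ + g := by
    have e : (g : ℤ) * (c - d) = w - rd P κ' u := by rw [hc, hd']; ring
    rw [e]; omega
  have h4 : -(ρ : ℤ) ≤ (g : ℤ) * (c - d) := by
    have e : (g : ℤ) * (c - d) = w - rd P κ' u := by rw [hc, hd']; ring
    rw [e]; omega
  have h5 : c - d < (ρ / g : ℕ) + 2 := by
    by_contra hcon
    push Not at hcon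
    have := mul_le_mul_of_nonneg_left hcon hgz.le
    nlinarith
  have h6 : -((ρ / g : ℕ) : ℤ) - 1 < c - d := by
    by_contra hcon
    push Not at hcon
    have := mul_le_mul_of_nonneg_left hcon hgz.le
    nlinarith
  refine ⟨(c - d + (ρ / g : ℕ) + 1).toNat, by omega, ?_⟩
  have e : ((c - d + (ρ / g : ℕ) + 1).toNat : ℤ) = c - d + (ρ / g : ℕ) + 1 :=
    Int.toNat_of_nonneg (by omega)
  rw [e]
  have e2 : rd P κ' u + (c - d + ((ρ / g : ℕ) : ℤ) + 1 - ((ρ / g + 1 : ℕ) : ℤ)) * (g : ℤ) = w := by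
    rw [hd', hc]; push_cast; ring
  rw [e2, clp_of_box P hb]

/-- **every grid state of the domain within `ρ` of `y` is in the menu** -/
theorem mem_menu_of {κ' ρ : ℕ} {y z : St} (hi : z.i = y.i) (hj : z.j = y.j)
    (hz : Alg45.rdn P κ' z = z) (hD : Alg45.inD P z) (hu : (z.u - y.u).natAbs ≤ ρ)
    (hv : (z.v - y.v).natAbs ≤ ρ) : z ∈ Alg45.menu P κ' ρ y := by
  have e1 : rd P κ' z.u = z.u := congrArg St.u hz
  have e2 : rd P κ' z.v = z.v := congrArg St.v hz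
  have d1 : (gst P κ' : ℤ) ∣ z.u := by rw [← e1]; exact dvd_rd P κ' _
  have d2 : (gst P κ' : ℤ) ∣ z.v := by rw [← e2]; exact dvd_rd P κ' _
  obtain ⟨a, ha, ea⟩ := menu_coord d1 (by have := hD.1; omega) hu
  obtain ⟨b, hb, eb⟩ := menu_coord d2 (by have := hD.2; omega) hv
  refine mem_menu.2 ⟨a, ha, b, hb, ?_⟩
  rw [ea, eb, ← hi, ← hj]

theorem Dom.cst {c : Cel} (h1 : c.i ≤ I) (h2 : c.j < P.N ^ (I - c.i)) (t : ℕ) :
    Dom P I (cst P c t) := ⟨h1, h2, clp_box P _, clp_box P _⟩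

/-- the block of a cell is the block of the domain -/
theorem Dom.celOf {y : St} (h : Dom P I y) (κ : ℕ) :
    (Alg45.celOf κ y).i ≤ I ∧ (Alg45.celOf κ y).j < P.N ^ (I - (Alg45.celOf κ y).i) := ⟨h.1, h.2.1⟩

/-- the blocks of the requests of a window -/
theorem Dom.sub {c : Cel} (h1 : c.i ≤ I) (h2 : c.j < P.N ^ (I - c.i)) (hi : 1 ≤ c.i) {q : ℕ}
    (hq : q < P.N) : c.i - 1 ≤ I ∧ P.N * c.j + q < P.N ^ (I - (c.i - 1)) := by
  have h := InD.child (N := P.N) (I := I) (D := P.Dm) (x := ⟨c.i, c.j, 0, 0⟩)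
    ⟨h1, h2, by constructor <;> simp, by constructor <;> simp⟩ hi hq (a := 0) (b := 0)
    (by constructor <;> simp) (by constructor <;> simp)
  exact ⟨h.1, h.2.1⟩

theorem jcand_dom {c : Cel} (h1 : c.i ≤ I) (h2 : c.j < P.N ^ (I - c.i))
    {Es : List (List (List ℕ))} {B : List (List ℕ)} {w : St × ℕ × ℕ} (hw : w ∈ jcand P c Es B) :
    Dom P I w.1 := by
  unfold jcand at hw
  simp only [List.mem_flatMap, List.mem_map, List.mem_range] at hw
  obtain ⟨p, -, t, -, rfl⟩ := hw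
  exact Dom.cst (c := acell P c p) h1 h2 t

/-! ### the functions only see the domain -/

theorem hull_congr {F F' : St → ℕ} {f f' : ℕ → St → ℕ} {y : St} (hy : Dom P I y)
    (hF : F y = F' y)
    (hf : ∀ κ' ≤ cls F y + P.a2, ∀ z, Dom P I z → f κ' z = f' κ' z) :
    hull P F f y = hull P F' f' y := by
  have hc : cls F' y = cls F y := by unfold cls; rw [hF]
  unfold hull
  rw [hc, ← hF]
  congr 1
  refine List.flatMap_congr fun κ' hκ' => ?_
  refine List.map_congr_left fun z hz => ?_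
  rw [hf κ' ?_ z (hy.menu hz)]
  unfold rngC at hκ'
  simp only [List.mem_map, List.mem_range] at hκ'
  obtain ⟨t, ht, rfl⟩ := hκ'
  omega

theorem numSt_congr {F F' : St → ℕ} {f f' : ℕ → St → ℕ} {κ : ℕ} {y : St} (hy : Dom P I y)
    (hg : gst P (cls F y) ∣ P.Dm) (hF : F y = F' y)
    (hf : ∀ z, Dom P I z → f (cls F y) z = f' (cls F y) z) :
    numSt P F κ f y = numSt P F' κ f' y := by
  have hc : cls F' y = cls F y := by unfold cls; rw [hF]
  unfold numSt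
  rw [hc, ← hF, hf _ (hy.rdn hg)]

theorem foldl_min_congr {l : List ℕ} {f f' : ℕ → ℕ} (h : ∀ a ∈ l, f a = f' a) (b : ℕ) :
    l.foldl (fun m a => min m (f a)) b = l.foldl (fun m a => min m (f' a)) b := by
  induction l generalizing b with
  | nil => rfl
  | cons a l ih =>
    rw [List.foldl_cons, List.foldl_cons, h a (by simp), ih fun c hc => h c (by simp [hc])]

theorem minR_congr {n : ℕ} {f f' : ℕ → ℕ} (hn : 0 < n) (h : ∀ a < n, f a = f' a) :
    minR n f = minR n f' := by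
  unfold minR
  rw [h 0 hn]
  exact foldl_min_congr (fun a ha => h a (List.mem_range.1 ha)) _

theorem D_congr {A : ℕ} (hA : 0 < A) {T T' : ℕ → ℕ → ℕ → ℕ} {j : ℕ}
    (h : ∀ q < j, ∀ a < A, ∀ b, T q a b = T' q a b) (b : ℕ) : D A T j b = D A T' j b := by
  induction j generalizing b with
  | zero => rfl
  | succ j ih =>
    show minR A (fun a => D A T j a + T j a b) = minR A (fun a => D A T' j a + T' j a b)
    refine minR_congr hA fun a ha => ?_
    rw [ih (fun q hq => h q (by omega)), h j (Nat.lt_succ_self j) a ha b]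

theorem WA_pos (κ : ℕ) : 0 < WA P κ := Nat.succ_pos _

theorem Vst_congr {κ : ℕ} {x : St} (hx : Dom P I x) (hr : 1 ≤ P.r) (hi : 1 ≤ x.i) {f f' : St → ℕ}
    (h : ∀ y, Dom P I y → f y = f' y) : Vst P κ x f = Vst P κ x f' := by
  unfold Vst minSt
  exact D_congr (WA_pos κ) (fun q hq a _ b => h _ (hx.piece hr hi hq κ a b)) 0

theorem Wm_congr {F F' : ℕ} {V V' : ℕ → ℕ} {k : ℕ} (hF : F = F') (h : ∀ i < k, V i = V' i) :
    Wm F V k = Wm F' V' k := by
  induction k with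
  | zero => exact hF
  | succ k ih =>
    show min (Wm F V k) (V k) = min (Wm F' V' k) (V' k)
    rw [ih fun i hi => h i (by omega), h k (Nat.lt_succ_self k)]

theorem wild_congr {F F' : St → ℕ} {X X' : ℕ → ℕ → St → ℕ} {κ k K0 : ℕ} {x : St}
    (hx : Dom P I x) (hr : 1 ≤ P.r) (hi : 1 ≤ x.i) (hF : ∀ y, Dom P I y → F y = F' y)
    (hc : ∀ y, Dom P I y → cls F y + P.a2 ≤ K0)
    (hX : ∀ i < k, ∀ κ' ≤ K0, ∀ z, Dom P I z → X i κ' z = X' i κ' z) :
    wild P F X κ x k = wild P F' X' κ x k := by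
  unfold wild
  refine Wm_congr (hF x hx) fun i hi' => Vst_congr hx hr hi fun y hy => ?_
  exact hull_congr hy (hF y hy) fun κ' hκ z hz => hX i hi' κ' (hκ.trans (hc y hy)) z hz

/-! ### sure bounds of the unit functions -/

theorem lmin_le_left (a : ℕ) (l : List ℕ) : lmin a l ≤ a := by
  unfold lmin
  induction l generalizing a with
  | nil => exact le_rfl
  | cons b l ih => exact (ih (min a b)).trans (min_le_left _ _)

theorem hull_le_own (F : St → ℕ) (f : ℕ → St → ℕ) (y : St) : hull P F f y ≤ F y := lmin_le_left _ _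

theorem FE_le_init (X : ℕ → ℕ × St → ℕ) (e : ℕ) (y : St) : FE P X e y ≤ X 0 (0, y) := by
  induction e with
  | zero => exact hull_le_own _ _ _
  | succ e ih => exact (hull_le_own _ _ _).trans ih

theorem FE_anti (X : ℕ → ℕ × St → ℕ) {e e' : ℕ} (h : e ≤ e') (y : St) :
    FE P X e' y ≤ FE P X e y := by
  induction e', h using Nat.le_induction with
  | base => exact le_rfl
  | succ e' _ ih => exact (hull_le_own _ _ _).trans ih

theorem cls_FE_le {X : ℕ → ℕ × St → ℕ} {y : St} {top : ℕ} (h : X 0 (0, y) < 2 ^ (top + 1))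
    (e : ℕ) : cls (FE P X e) y ≤ top := by
  unfold cls
  have h1 := (FE_le_init (P := P) X e y).trans_lt h
  have h2 := Nat.log_mono_right (b := 2) (Nat.le_of_lt_succ (Nat.lt_succ_of_lt h1))
  have h3 : Nat.log 2 (FE P X e y) < top + 1 := Nat.log_lt_of_lt_pow' (Nat.succ_ne_zero _) h1
  omega

theorem sumR_congr {n : ℕ} {f f' : ℕ → ℕ} (h : ∀ a < n, f a = f' a) : sumR n f = sumR n f' := by
  unfold sumR
  rw [List.map_congr_left fun a ha => h a (List.mem_range.1 ha)]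

/-- the unit functions depend on the histories at the pairs of the domain only -/
theorem FE_congr {X X' : ℕ → ℕ × St → ℕ} {K0 top : ℕ} (hK0 : top + P.a2 ≤ K0)
    (h0 : ∀ y, Dom P I y → X 0 (0, y) < 2 ^ (top + 1)) {e : ℕ}
    (hX : ∀ l < idx P e 0, ∀ κ ≤ K0, ∀ z, Dom P I z → X l (κ, z) = X' l (κ, z)) :
    ∀ y, Dom P I y → FE P X e y = FE P X' e y := by
  induction e with
  | zero =>
    intro y hy
    have h00 : ∀ z, Dom P I z → X 0 (0, z) = X' 0 (0, z) := fun z hz =>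
      hX 0 (by unfold idx; omega) 0 (Nat.zero_le _) z hz
    exact hull_congr hy (h00 y hy) fun κ' _ z hz => h00 z hz
  | succ e ih =>
    intro y hy
    have hlt : idx P e 0 ≤ idx P (e + 1) 0 := by
      unfold idx
      have : (e + 1) * P.K = e * P.K + P.K := by ring
      omega
    have ih' := ih fun l hl => hX l (by omega)
    refine hull_congr hy (ih' y hy) fun κ' hκ z hz => ?_
    unfold Xbar
    rw [sumR_congr (f' := fun i => X' (idx P e i) (κ', z))]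
    intro i hi
    refine hX _ ?_ κ' ?_ z hz
    · unfold idx
      have : (e + 1) * P.K = e * P.K + P.K := by ring
      omega
    · have := cls_FE_le (P := P) (h0 y hy) e
      omega

/-! ### the pairs -/

/-- the pairs of the domain with classes `≤ K0` -/
noncomputable def Om (P : Par) (I K0 : ℕ) : Finset (ℕ × St) := OmP P.N I P.Dm K0

theorem mem_Om {K0 : ℕ} {p : ℕ × St} : p ∈ Om P I K0 ↔ p.1 ≤ K0 ∧ Dom P I p.2 :=
  mem_OmP (N_pos P)

theorem pair_zero {K0 : ℕ} {y : St} (h : Dom P I y) : (0, y) ∈ Om P I K0 :=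
  mem_Om.2 ⟨Nat.zero_le _, h⟩

/-- the own pair of a state (`numSt`, `spw`) -/
theorem pair_own {K0 : ℕ} {F : St → ℕ} {y : St} (h : Dom P I y) (hg : GrdOK P K0)
    (hc : cls F y ≤ K0) : (cls F y, Alg45.rdn P (cls F y) y) ∈ Om P I K0 :=
  mem_Om.2 ⟨hc, h.rdn (hg _ hc)⟩

/-- the pairs of `hull` -/
theorem pair_menu {K0 : ℕ} {F : St → ℕ} {y z : St} {κ' ρ : ℕ} (h : Dom P I y)
    (hc : cls F y + P.a2 ≤ K0) (hκ : κ' ∈ rngC (cls F y - P.al) (cls F y + P.a2))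
    (hz : z ∈ Alg45.menu P κ' ρ y) : (κ', z) ∈ Om P I K0 := by
  refine mem_Om.2 ⟨?_, h.menu hz⟩
  unfold rngC at hκ
  simp only [List.mem_map, List.mem_range] at hκ
  obtain ⟨t, ht, rfl⟩ := hκ
  show cls F y - P.al + t ≤ K0
  omega

theorem card_Om_le (I K0 : ℕ) :
    (Om P I K0).card ≤ (K0 + 1) * ((I + 1) * (P.N ^ I + 1) * (2 * P.Dm + 1) ^ 2) :=
  card_OmP_le _ _ _ _

theorem card_Om_pow {K0 : ℕ} (h1 : P.N ^ I ≤ P.Dm) (h2 : I + 1 ≤ P.Dm) (h3 : K0 + 1 ≤ P.Dm) :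
    (Om P I K0).card ≤ 18 * P.Dm ^ 5 := card_OmP_pow h1 h2 h3

/-! ### the half domain (helper693) -/

/-- the states where the plan lemma is used: `|u|, |v| ≤ Dm / 2` -/
def DomH (P : Par) (I : ℕ) (y : St) : Prop := InD P.N I (P.Dm / 2) y

theorem DomH.dom {y : St} (h : DomH P I y) : Dom P I y := by
  obtain ⟨h1, h2, h3, h4⟩ := h
  exact ⟨h1, h2, by omega, by omega⟩

theorem DomH.rdn {y : St} (h : DomH P I y) {κ : ℕ} (hg : gst P κ ∣ P.Dm / 2) :
    DomH P I (Alg45.rdn P κ y) := rdn_InD P hg h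

theorem DomH.stair {x : St} (h : DomH P I x) (hi : 1 ≤ x.i) {q : ℕ} (hq : q < P.N) {a b : ℤ}
    (ha : -((P.Dm / 2 : ℕ) : ℤ) ≤ a ∧ a ≤ (P.Dm / 2 : ℕ))
    (hb : -((P.Dm / 2 : ℕ) : ℤ) ≤ b ∧ b ≤ (P.Dm / 2 : ℕ)) :
    DomH P I ⟨x.i - 1, P.N * x.j + q, a, b⟩ := InD.child h hi hq ha hb

theorem DomH.root {b : ℤ} (hb : -((P.Dm / 2 : ℕ) : ℤ) ≤ b ∧ b ≤ (P.Dm / 2 : ℕ)) :
    DomH P I ⟨I, 0, 0, b⟩ := InD.root hb

end Crest.Agent.R288.Dom20
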