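import Crest.Agent.R288.GSt_442
import Crest.Agent.R288.NodePT_222

/-!
# Row 288 (helper690): the concrete leaf function of ALG-U on all of `ℤ × ℤ`

* `lfR`, `lfS` : the two end rows of the block of a state; `offs`, `T1` : distance to the admissible
  diagonals, the bound `|clip u - clip v| + offs + 1`;
* **`leafO x y n Lam : St → Option ℕ`** : the exact cost `gst x y n` if it is at most `Lam`; at macro
  height `0` the bound `T1` otherwise;
* `leafO_of_le`, `leafO_isSome`, `leafO_le`, `leafO_spec`, `leafO_none`;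
* program form: `leafArg n m k Lam s` (five words) and `leafP n m k Lam g s`,
  **`leafO_eq`** : `leafO = leafP .. (leafF x y (leafArg ..))` for `Lam ≤ D0 (|x|+|y|)`.
-/

set_option autoImplicit false

namespace Crest.Agent.R288.LeafO690

open Crest.GraphRAM Crest.Agent.R288.GameA347 Crest.Agent.R288.NodeA785
open Crest.Agent.R288.Gt373 Crest.Agent.R288.GSt442 Crest.Agent.R288.NodePT222
open Crest.Agent.R288.LeafX222 Crest.Agent.R288.Shell12
open Crest.Agent.R288.Alg45 (St)

/-- distance of the two ends of a state to the admissible diagonals; `n = |x|`, `m = |y|`,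
`k` = binary levels of a macro level -/
def offs (n m k : ℕ) (s : St) : ℕ :=
  off m (lo n (k * s.i) s.j) s.u + off m (hi n (k * s.i) s.j) s.v

/-- upper bound of the cost of one letter, exact up to `1` -/
def T1 (n m k : ℕ) (s : St) : ℕ :=
  (clip m (lo n (k * s.i) s.j) s.u - clip m (hi n (k * s.i) s.j) s.v).natAbs + offs n m k s + 1

/-- **the leaf function** -/
def leafO (x y : List ℕ) (k Lam : ℕ) (s : St) : Option ℕ :=
  if gst x y k s ≤ Lam then some (gst x y k s)
  else if s.i = 0 then some (T1 x.length y.length k s) else none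

variable {x y : List ℕ} {k Lam : ℕ}

theorem leafO_of_le {s : St} (h : gst x y k s ≤ Lam) : leafO x y k Lam s = some (gst x y k s) :=
  if_pos h

theorem leafO_isSome {s : St} (h : s.i = 0) : (leafO x y k Lam s).isSome := by
  unfold leafO
  split_ifs <;> rfl

theorem gst_eq (s : St) : gst x y k s = gn x y (k * s.i) s.j s.u s.v + offs x.length y.length k s := by
  unfold gst Gn offs
  omega

theorem T1_le {s : St} : T1 x.length y.length k s ≤ gst x y k s + 1 := by
  have h1 := gn_ge x y (k * s.i) s.j (adm_clip y.length (lo x.length (k * s.i) s.j) s.u)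
    (adm_clip y.length (hi x.length (k * s.i) s.j) s.v)
  rw [gn_clip] at h1
  rw [gst_eq]
  unfold T1
  omega

theorem le_T1 {s : St} (h : s.i = 0) : gst x y k s ≤ T1 x.length y.length k s := by
  have h1 := gn_le x y (k * s.i) s.j (adm_clip y.length (lo x.length (k * s.i) s.j) s.u)
    (adm_clip y.length (hi x.length (k * s.i) s.j) s.v)
  rw [gn_clip] at h1
  rw [gst_eq]
  unfold T1
  have h2 : (2 : ℕ) ^ (k * s.i) = 1 := by rw [h, Nat.mul_zero, pow_zero]
  omega

/-- the leaf value: exact, or (macro height `0` and cost above `Lam`) exact up to `1` -/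
theorem leafO_spec {s : St} {c : ℕ} (h : leafO x y k Lam s = some c) :
    (c = gst x y k s ∧ gst x y k s ≤ Lam) ∨
      (s.i = 0 ∧ Lam < gst x y k s ∧ gst x y k s ≤ c ∧ c ≤ gst x y k s + 1) := by
  unfold leafO at h
  split_ifs at h with h1 h2
  · exact Or.inl ⟨(Option.some.inj h).symm, h1⟩
  · have h3 := Option.some.inj h
    exact Or.inr ⟨h2, not_le.1 h1, h3 ▸ le_T1 h2, h3 ▸ T1_le⟩

/-- soundness of the leaf values -/
theorem leafO_le {s : St} {c : ℕ} (h : leafO x y k Lam s = some c) :
    gst x y k s ≤ c ∧ c ≤ gst x y k s + 1 := by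
  rcases leafO_spec h with ⟨h1, -⟩ | ⟨-, -, h1, h2⟩
  · omega
  · exact ⟨h1, h2⟩

/-- relative form: the leaf values are exact up to the factor `1 + 1 / Lam` -/
theorem leafO_rel {s : St} {c : ℕ} (h : leafO x y k Lam s = some c) :
    Lam * c ≤ (Lam + 1) * gst x y k s := by
  rcases leafO_spec h with ⟨h1, -⟩ | ⟨-, h3, h1, h2⟩
  · rw [h1]
    exact Nat.mul_le_mul_right _ (by omega)
  · have : Lam * c ≤ Lam * (gst x y k s + 1) := Nat.mul_le_mul_left _ h2
    nlinarith

theorem leafO_none {s : St} (h : leafO x y k Lam s = none) : Lam < gst x y k s ∧ 1 ≤ s.i := by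
  unfold leafO at h
  split_ifs at h with h1 h2
  · exact ⟨not_le.1 h1, by omega⟩

theorem leafO_eq_none_iff {s : St} : leafO x y k Lam s = none ↔ Lam < gst x y k s ∧ 1 ≤ s.i := by
  refine ⟨leafO_none, fun h => ?_⟩
  unfold leafO
  rw [if_neg (by omega), if_neg (by omega)]

/-! ### program form -/

/-- the arguments of the leaf command -/
def leafArg (n m k Lam : ℕ) (s : St) : List ℕ := leafA n m (k * s.i) s.j s.u s.v Lam

@[simp] theorem leafArg_length (n m k Lam : ℕ) (s : St) : (leafArg n m k Lam s).length = 5 := rfl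

/-- the leaf value from the result `g` of the leaf command -/
def leafP (n m k Lam g : ℕ) (s : St) : Option ℕ :=
  if g + offs n m k s ≤ Lam then some (g + offs n m k s)
  else if s.i = 0 then some (T1 n m k s) else none

theorem leafO_eq (hL : Lam ≤ D0 (x.length + y.length)) (s : St) :
    leafO x y k Lam s = leafP x.length y.length k Lam
      (leafF x y (leafArg x.length y.length k Lam s)) s := by
  unfold leafArg
  rw [leafF_leafA x y (k * s.i) s.j s.u s.v hL]
  unfold leafO leafP
  rw [gst_eq]
  rcases Nat.lt_or_ge (gn x y (k * s.i) s.j s.u s.v) (Lam + 1) with h | h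
  · rw [min_eq_left h.le]
  · rw [min_eq_right h]
    have h1 : ¬ gn x y (k * s.i) s.j s.u s.v + offs x.length y.length k s ≤ Lam := by omega
    have h2 : ¬ Lam + 1 + offs x.length y.length k s ≤ Lam := by omega
    simp only [h1, h2, if_false]

theorem leafArg_lt {n m k Lam B : ℕ} {s : St} (hn : n < B) (hm : m < B) (hD : Lam < B) :
    ∀ t ∈ leafArg n m k Lam s, t < B := leafA_lt hn hm hD

end Crest.Agent.R288.LeafO690
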