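import Crest.Agent.R288.AsmN_12
import Crest.Agent.R288.LeafO_690
import Crest.Agent.R288.DomB_20
import Crest.Agent.R288.ChainU_616

/-!
# Row 288, [ANA] U2 (helper442): the root

`rootS x y I = ⟨I, 0, 0, |y| - |x|⟩`, `Num` of `AsmN_12`, heights `nn`, `II`, `lam` of `ParB_806`.

* `gst_rootS`, `Num.gst_root` : the exact cost of the root is `editDist x y`;
* `Num.lam_lt_root` : `2 ^ lam h < editDist x y`; `Num.leaf_root` : `leafO .. root = none`;
* `Num.inD_root`, `Num.dom_root`, `Num.domH_root` : the root is in the domain as soon as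
  `2 ^ (nn h * II h) ≤ D` (`D = Dm` or `Dm / 2`);
* **`ev_C0`** : for all constants `C, a` and all large `h` : `C * h ^ a * W h ≤ 2 ^ lam h`;
  `C0_le` : hence `C * h ^ a ≤ δ * editDist x y` if `1 ≤ δ * W h`;
* **`goodD_of`**, **`goodD_of_ana`** : the field `ana_block` at one history from soundness at the root and
  the chain `ChainU616.Ana`.
-/

set_option autoImplicit false

namespace Crest.Agent.R288.AnaRoot442

open Filter Crest.GraphRAM
open Crest.Agent.R288.Alg45 (St outNum FE)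
open Crest.Agent.R288.Asm12 Crest.Agent.R288.Par806 Crest.Agent.R288.Top791
open Crest.Agent.R288.Shell12 (D0)
open Crest.Agent.R288.GSt442 (gst gst_root)
open Crest.Agent.R288.LeafO690 (leafO leafO_eq_none_iff)
open Crest.Agent.R288.Dom20 (InD Dom DomH)
open Crest.Agent.R288.ChainU616 (Ana)

/-- the root -/
def rootS (x y : List ℕ) (I : ℕ) : St := ⟨I, 0, 0, (y.length : ℤ) - x.length⟩

theorem gst_rootS (x y : List ℕ) {n I : ℕ} (h : x.length ≤ 2 ^ (n * I)) :
    gst x y n (rootS x y I) = editDist x y := gst_root x y h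

section num

variable {x y : List ℕ} {ε : ℚ}

theorem Num.x_le (hn : Num x y ε) : x.length ≤ 2 ^ (nn (hh x y ε) * II (hh x y ε)) :=
  hn.x_lt.le.trans (Nat.pow_le_pow_right (by norm_num) hn.h_le)

theorem Num.y_le (hn : Num x y ε) : y.length ≤ 2 ^ (nn (hh x y ε) * II (hh x y ε)) :=
  hn.y_lt.le.trans (Nat.pow_le_pow_right (by norm_num) hn.h_le)

/-- the exact cost of the root -/
theorem Num.gst_root (hn : Num x y ε) :
    gst x y (nn (hh x y ε)) (rootS x y (II (hh x y ε))) = editDist x y :=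
  gst_rootS x y (Num.x_le hn)

/-- the root is more expensive than a leaf -/
theorem Num.lam_lt (hn : Num x y ε) : 2 ^ lam (hh x y ε) < editDist x y :=
  hn.lam_le.trans_lt hn.far

theorem Num.lam_lt_root (hn : Num x y ε) :
    2 ^ lam (hh x y ε) < gst x y (nn (hh x y ε)) (rootS x y (II (hh x y ε))) := by
  rw [Num.gst_root hn]
  exact Num.lam_lt hn

theorem II_pos (h : ℕ) : 1 ≤ II h := Nat.succ_pos _

/-- the root is not a leaf -/
theorem Num.leaf_root (hn : Num x y ε) {Lam : ℕ} (hL : Lam ≤ D0 (x.length + y.length)) :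
    leafO x y (nn (hh x y ε)) Lam (rootS x y (II (hh x y ε))) = none := by
  rw [leafO_eq_none_iff, Num.gst_root hn]
  exact ⟨hL.trans_lt hn.far, II_pos _⟩

theorem Num.leaf_root_lam (hn : Num x y ε) :
    leafO x y (nn (hh x y ε)) (2 ^ lam (hh x y ε)) (rootS x y (II (hh x y ε))) = none :=
  Num.leaf_root hn hn.lam_le

/-- the root is in the domain -/
theorem Num.inD_root (hn : Num x y ε) {N D : ℕ} (hD : 2 ^ (nn (hh x y ε) * II (hh x y ε)) ≤ D) :
    InD N (II (hh x y ε)) D (rootS x y (II (hh x y ε))) := by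
  have h1 := (Num.x_le hn).trans hD
  have h2 := (Num.y_le hn).trans hD
  exact InD.root (by omega)

theorem Num.dom_root (hn : Num x y ε) {P : Alg45.Par}
    (hD : 2 ^ (nn (hh x y ε) * II (hh x y ε)) ≤ P.Dm) :
    Dom P (II (hh x y ε)) (rootS x y (II (hh x y ε))) := Num.inD_root hn hD

theorem Num.domH_root (hn : Num x y ε) {P : Alg45.Par}
    (hD : 2 ^ (nn (hh x y ε) * II (hh x y ε)) ≤ P.Dm / 2) :
    DomH P (II (hh x y ε)) (rootS x y (II (hh x y ε))) := Num.inD_root hn hD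

end num

/-! ### the additive constant -/

theorem lt_two_pow_lam_aux {C a h : ℕ} (h1 : C ≤ Lg h) (h2 : a + 2 ≤ W h) :
    C * h ^ a * W h ≤ 2 ^ lam h := by
  have hC : C ≤ 2 ^ Lg h := h1.trans Nat.lt_two_pow_self.le
  have hh' : h ^ a ≤ 2 ^ (a * Lg h) := by
    rw [mul_comm, pow_mul]
    exact Nat.pow_le_pow_left (lt_two_pow_Lg h).le a
  have hW : W h ≤ 2 ^ Lg h := (W_le_Lg h).trans Nat.lt_two_pow_self.le
  calc C * h ^ a * W h ≤ 2 ^ Lg h * 2 ^ (a * Lg h) * 2 ^ Lg h :=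
        Nat.mul_le_mul (Nat.mul_le_mul hC hh') hW
    _ = 2 ^ ((a + 2) * Lg h) := by rw [← pow_add, ← pow_add]; congr 1; ring
    _ ≤ 2 ^ lam h := by
        unfold lam
        exact Nat.pow_le_pow_right (by norm_num) (Nat.mul_le_mul_right _ h2)

/-- **polynomials in `h` are below a leaf** -/
theorem ev_C0 (C a : ℕ) : ∀ᶠ h : ℕ in atTop, C * h ^ a * W h ≤ 2 ^ lam h := by
  filter_upwards [ev_le_Lg C 0 0, ev_le_W (a + 2)] with h h1 h2
  simp only [pow_zero, mul_one] at h1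
  exact lt_two_pow_lam_aux h1 h2

/-- `c ≤ δ editDist` for every `c` with `c * W ≤ 2 ^ lam` -/
theorem C0_le {x y : List ℕ} {ε : ℚ} (hn : Num x y ε) {c : ℕ} {δ : ℝ} (hδ : 1 ≤ δ * W (hh x y ε))
    (hc : c * W (hh x y ε) ≤ 2 ^ lam (hh x y ε)) : (c : ℝ) ≤ δ * editDist x y := by
  have hW : (0 : ℝ) < W (hh x y ε) := by exact_mod_cast W_pos _
  have h1 : (c : ℝ) * W (hh x y ε) ≤ editDist x y := by
    exact_mod_cast hc.trans (Num.lam_lt hn).le
  have hδ0 : 0 ≤ δ := by
    by_contra h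
    push Not at h
    nlinarith
  have h2 : (c : ℝ) ≤ (δ * W (hh x y ε)) * c := by
    have : (0 : ℝ) ≤ c := Nat.cast_nonneg _
    nlinarith
  calc (c : ℝ) ≤ (δ * W (hh x y ε)) * c := h2
    _ = δ * (c * W (hh x y ε)) := by ring
    _ ≤ δ * editDist x y := mul_le_mul_of_nonneg_left h1 hδ0

/-- the precision: `δ = ε / m` and `c m W ≤ 2 ^ lam` -/
theorem C0_le_eps {x y : List ℕ} {ε : ℚ} (hn : Num x y ε) {c m : ℕ} (hm : 0 < m)
    (hc : c * m * W (hh x y ε) ≤ 2 ^ lam (hh x y ε)) : (c : ℝ) ≤ (ε : ℝ) / m * editDist x y := by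
  have hm' : (0 : ℝ) < m := by exact_mod_cast hm
  have h1 := C0_le hn (c := c * m) (δ := (ε : ℝ)) hn.eps hc
  push_cast at h1
  rw [div_mul_eq_mul_div, le_div_iff₀ hm']
  exact h1

/-! ### the end of [ANA] -/

section good

variable {x y : List ℕ} {ε : ℚ} {P : Alg45.Par} {leaf : St → Option ℕ} {X : ℕ → ℕ × St → ℕ}
  {root : St}

/-- **the output is good** from the two bounds at the root -/
theorem goodD_of (hl : leaf root = none) (h1 : editDist x y ≤ FE P X P.E root)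
    (h2 : (FE P X P.E root : ℝ) ≤ (1 + (ε : ℝ)) * editDist x y) :
    GoodD ε x y (outNum P leaf X root) := by
  have e : outNum P leaf X root = FE P X P.E root := by
    unfold outNum
    rw [hl]
  rw [e]
  exact ⟨h1, h2⟩

/-- **the last step**: the chain of the epochs at the root -/
theorem goodD_of_ana (hn : Num x y ε) (hroot : root = rootS x y (II (hh x y ε)))
    (hleaf : leaf root = none) {Ok : St → Prop} (hOk : Ok root) {C0 : ℕ} {R : ℕ → St → ℝ}
    {aR qR ν c₃ B₀ : ℝ}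
    (A : Ana Ok (fun s => (gst x y (nn (hh x y ε)) s : ℝ) + C0) (fun e s => (FE P X e s : ℝ)) R
      aR qR ν c₃ B₀ P.E)
    (hsound : gst x y (nn (hh x y ε)) root ≤ FE P X P.E root)
    {δ : ℝ} (hδ0 : 0 < δ) (hδ : 6 * δ ≤ ε) (ha1 : 1 ≤ aR) (hq0 : 0 ≤ qR) (hν : 0 ≤ ν)
    (hc₃ : 0 ≤ c₃) (ha : aR + c₃ ≤ 1 + δ) (hq : qR + ν ≤ δ) (hB : 2 ≤ B₀) {i : ℕ}
    (hi : B₀ ≤ δ * 4 ^ i) (he : 2 * i ≤ P.E) (hC : (C0 : ℝ) ≤ δ * editDist x y) :
    GoodD ε x y (outNum P leaf X root) := by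
  subst hroot
  have hg := Num.gst_root hn
  rw [hg] at hsound
  have hε1 : (ε : ℝ) < 1 := by exact_mod_cast hn.lt
  refine goodD_of hleaf hsound ?_
  refine A.root (δ := δ) (ε := (ε : ℝ)) hδ0 (by linarith) hδ ha1 hq0 hν hc₃ ha hq hB hi he hOk
    (Gr := (editDist x y : ℝ)) (C₀ := (C0 : ℝ)) (Nat.cast_nonneg _) ?_ hC
  show (gst x y (nn (hh x y ε)) (rootS x y (II (hh x y ε))) : ℝ) + C0 = _
  rw [hg]

end good

end Crest.Agent.R288.AnaRoot442
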