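import Crest.Agent.R288.AnaLip_364
import Crest.Agent.R288.AdmR_944
import Crest.Agent.R288.ChainU_616

/-!
# R288, ANA block, U1: the fields `V0`, `start`, `anti`, `num` of `ChainU616.Ana` (helper364)

States = `Alg45.St`, `Ok := InD N I Dm`, `V y := gst y + C0`, `F e y := FE e y`.

* `start` : `FE 0 y ≤ (16 * 2^g * L + 8) (gst y + C0)`;
* `own_adm` : the own pair `(cls (FE e) y, rdn .. y)` is admissible;
* `Rm` : mean arrival number in own label (330's name), `num` : `FE (e+2) y ≤ Rm (e+1) y + 2/2^nb FE (e+1) y + 5`;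
* `ana_of` : `Ana` from soundness (`gst ≤ FE e`) and the epoch theorem.
-/

set_option autoImplicit false

namespace Crest.Agent.R288.AnaStart364

open Finset
open Crest.Agent.R288.Alg45 Crest.Agent.R288.Dom20 Crest.Agent.R288.Asm331
open Crest.Agent.R288.HullLip364 Crest.Agent.R288.HullLipA364 Crest.Agent.R288.AnaLip364
open Crest.Agent.R288.ChainU616 (Ana)

variable {C : Cfg} {X : ℕ → ℕ × St → ℕ} {x y : List ℕ} {g p L : ℕ} {ζ : ℝ}

/-- **the start** -/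
theorem start (h : C.Good X) (hO : LipOk C x y g p L ζ) {C0 : ℕ} (hC : 1 ≤ C0) {s : St}
    (hs : InD C.P.N C.I C.P.Dm s) :
    (FE C.P X 0 s : ℝ) ≤ (B1 g L : ℝ) * ((GSt442.gst x y C.P.n s : ℝ) + C0) := by
  have h1 := Init772.FE_zero_le_gst (P := C.P) (X := X) (good_U h hO hs) hO.p4 hO.g1
    (hL_of hO hs) hC
  have h2 : FE C.P X 0 s ≤ B1 g L * (GSt442.gst x y C.P.n s + C0) := h1
  exact_mod_cast h2

/-- rounding at the own class stays in the domain -/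
theorem hat_in (h : C.Good X) (hO : LipOk C x y g p L ζ)
    (hDm : ∀ κ ≤ C.K0, Alg45.gst C.P κ ∣ C.P.Dm) {e : ℕ} {s : St}
    (hs : InD C.P.N C.I C.P.Dm s) :
    InD C.P.N C.I C.P.Dm (rdn C.P (Alg45.cls (FE C.P X e) s) s) :=
  rdn_InD C.P (hDm _ ((Nat.le_add_right _ _).trans (cls_le h hO e hs))) hs

/-- the crude Lipschitz line of 944 -/
theorem lip7 (h : C.Good X) (hO : LipOk C x y g p L ζ) (hζ : ζ ≤ 1 / 7) {e : ℕ} (he : e ≤ C.P.E)
    {s s' : St} (hs : InD C.P.N C.I C.P.Dm s) (hs' : InD C.P.N C.I C.P.Dm s') (hi : s'.i = s.i)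
    (hj : s'.j = s.j) :
    7 * FE C.P X e s ≤ 8 * (FE C.P X e s' + Alg45.dist s s') := by
  have h1 := lip' h hO he hs hs' hi.symm hj.symm
  have h2 : (0 : ℝ) ≤ FE C.P X e s' + (Alg45.dist s s' : ℕ) := by positivity
  have h3 : (7 : ℝ) * FE C.P X e s ≤ 8 * (FE C.P X e s' + (Alg45.dist s s' : ℕ)) := by nlinarith
  exact_mod_cast h3

/-- coercivity from soundness -/
theorem coer_of (hO : LipOk C x y g p L ζ) {F : St → ℕ} {s : St}
    (hF : GSt442.gst x y C.P.n s ≤ F s) : (s.v - s.u).natAbs ≤ F s :=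
  ((GSt442.exact_gst x y C.P.n hO.x_le hO.y_le).ge s).trans hF

/-- **the facts of 944 about the unit function** (leaf part left out) -/
theorem fok (h : C.Good X) (hO : LipOk C x y g p L ζ) (hζ : ζ ≤ 1 / 7) {e : ℕ} (he : e ≤ C.P.E)
    (hGF : ∀ s, InD C.P.N C.I C.P.Dm s → GSt442.gst x y C.P.n s ≤ FE C.P X e s) :
    AdmR944.FOk (fun _ => none) (FE C.P X e) (InD C.P.N C.I C.P.Dm) 0 where
  leaf_le := by intro s _ c hc; cases hc
  act := fun _ _ _ => Nat.zero_le _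
  coer := fun s hs => coer_of hO (hGF s hs)
  lip := fun _ _ hs hs' hi hj => lip7 h hO hζ he hs hs' hi hj

/-- **the own pair is admissible** -/
theorem own_adm (h : C.Good X) (hO : LipOk C x y g p L ζ) (hζ : ζ ≤ 1 / 7) (hpb : 10 ≤ C.P.pb)
    (hDm : ∀ κ ≤ C.K0, Alg45.gst C.P κ ∣ C.P.Dm) {e : ℕ} (he : e ≤ C.P.E)
    (hGF : ∀ s, InD C.P.N C.I C.P.Dm s → GSt442.gst x y C.P.n s ≤ FE C.P X e s) {s : St}
    (hs : InD C.P.N C.I C.P.Dm s) :
    adm C.P (FE C.P X e) (Alg45.cls (FE C.P X e) s)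
      (rdn C.P (Alg45.cls (FE C.P X e) s) s) = true :=
  AdmR944.adm_rdn (fok h hO hζ he hGF) hpb hs (hat_in h hO hDm hs)

/-- mean over the ranks of the lane means at the own pair -/
noncomputable def Rp (C : Cfg) (X : ℕ → ℕ × St → ℕ) (e : ℕ) (s : St) : ℝ :=
  (∑ k ∈ range C.P.K, C.R X e k (Alg45.cls (FE C.P X e) s)
    (rdn C.P (Alg45.cls (FE C.P X e) s) s)) / C.P.K

/-- mean arrival number in own label -/
noncomputable def Rm (C : Cfg) (X : ℕ → ℕ × St → ℕ) (e : ℕ) (s : St) : ℝ :=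
  (Alg45.dist s (rdn C.P (Alg45.cls (FE C.P X e) s) s) : ℝ) + Rp C X e s

theorem cdiv_le_add (a b : ℕ) (hb : 0 < b) : (cdiv a b : ℝ) ≤ (a : ℝ) / b + 1 := by
  unfold cdiv
  have h1 : b * ((a + (b - 1)) / b) ≤ a + (b - 1) := Nat.mul_div_le _ _
  have h2 : b * ((a + (b - 1)) / b) ≤ a + b := by omega
  have hb' : (0 : ℝ) < b := by exact_mod_cast hb
  have h3 : (b : ℝ) * (((a + (b - 1)) / b : ℕ) : ℝ) ≤ a + b := by exact_mod_cast h2
  rw [div_add_one hb'.ne', le_div_iff₀ hb']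
  linarith

/-- **field `num`**: the next unit against the mean arrival number of the epoch -/
theorem num (h : C.Good X) (hO : LipOk C x y g p L ζ) (hζ : ζ ≤ 1 / 7) (hpb : 10 ≤ C.P.pb)
    (hDm : ∀ κ ≤ C.K0, Alg45.gst C.P κ ∣ C.P.Dm) {e : ℕ} (he : e < C.P.E)
    (hGF : ∀ s, InD C.P.N C.I C.P.Dm s → GSt442.gst x y C.P.n s ≤ FE C.P X e s) {s : St}
    (hs : InD C.P.N C.I C.P.Dm s) :
    (FE C.P X (e + 1) s : ℝ) ≤ Rm C X e s + 2 / 2 ^ C.P.nb * FE C.P X e s + 5 := by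
  set κ := Alg45.cls (FE C.P X e) s with hκ
  set z := rdn C.P κ s with hz
  have hK : (0 : ℝ) < C.P.K := by exact_mod_cast hO.K
  have hκ0 : κ ≤ C.K0 := (Nat.le_add_right _ _).trans (cls_le h hO e hs)
  have hzD : InD C.P.N C.I C.P.Dm z := hat_in h hO hDm hs
  have hadm : adm C.P (FE C.P X e) κ z = true := own_adm h hO hζ hpb hDm he.le hGF hs
  have hmem : (κ, z) ∈ OmP C.P.N C.I C.P.Dm C.K0 := (mem_OmP (N_pos C.P)).2 ⟨hκ0, hzD⟩
  -- the hull
  have h1 : FE C.P X (e + 1) s ≤ Alg45.dist s z +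
      Xbar C.P (fun i κ z => X (idx C.P e i) (κ, z)) κ z :=
    HullB407.FNext_le_own (P := C.P) (F := FE C.P X e)
      (X := fun i κ z => X (idx C.P e i) (κ, z)) (hDm _ hκ0) (inD_of hs)
  have h2 := HullB407.Xbar_le hO.K (fun i κ z => X (idx C.P e i) (κ, z)) κ z
  -- every rank
  set q : ℝ := (2 : ℝ) ^ κ / 2 ^ C.P.nb with hq
  have hq0 : 0 ≤ q := by positivity
  have h3 : ∀ k ∈ range C.P.K, (X (idx C.P e k) (κ, z) : ℝ) ≤ C.R X e k κ z + (2 * q + 2) := by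
    intro k hk
    have h4 := (C.good_num h he (mem_range.1 hk) hmem hadm).2
    have h5 := cdiv_le_add (2 ^ κ) (2 ^ C.P.nb) (by positivity)
    push_cast at h4 h5
    linarith
  have h6 : (∑ k ∈ range C.P.K, (X (idx C.P e k) (κ, z) : ℝ)) / C.P.K ≤
      Rp C X e s + (2 * q + 2) := by
    unfold Rp
    rw [← hκ, ← hz, div_add' _ _ _ hK.ne', div_le_div_iff_of_pos_right hK]
    calc ∑ k ∈ range C.P.K, (X (idx C.P e k) (κ, z) : ℝ)
        ≤ ∑ k ∈ range C.P.K, (C.R X e k κ z + (2 * q + 2)) := sum_le_sum h3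
      _ = _ := by rw [sum_add_distrib, sum_const, card_range, nsmul_eq_mul]; ring
  -- the class
  have h7 : (2 : ℝ) ^ κ ≤ FE C.P X e s + 1 := by
    rcases Nat.eq_zero_or_pos (FE C.P X e s) with h0 | h0
    · have : κ = 0 := by rw [hκ]; unfold Alg45.cls; rw [h0, Nat.log_zero_right]
      rw [this, h0]; norm_num
    · have h8 : 2 ^ κ ≤ FE C.P X e s := Nat.pow_log_le_self 2 h0.ne'
      have h9 : (2 : ℝ) ^ κ ≤ FE C.P X e s := by exact_mod_cast h8
      linarith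
  have h8 : q ≤ FE C.P X e s / 2 ^ C.P.nb + 1 := by
    have h9 : (1 : ℝ) ≤ 2 ^ C.P.nb := one_le_pow₀ (by norm_num)
    have h10 : q ≤ (FE C.P X e s + 1) / 2 ^ C.P.nb :=
      div_le_div_of_nonneg_right h7 (by positivity)
    have h11 : (1 : ℝ) / 2 ^ C.P.nb ≤ 1 := by
      rw [div_le_one (by positivity)]; exact h9
    rw [add_div] at h10
    linarith
  have h12 : (FE C.P X (e + 1) s : ℝ) ≤ Alg45.dist s z +
      (Xbar C.P (fun i κ z => X (idx C.P e i) (κ, z)) κ z : ℝ) := by exact_mod_cast h1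
  have h13 : 2 / 2 ^ C.P.nb * (FE C.P X e s : ℝ) = 2 * (FE C.P X e s / 2 ^ C.P.nb) := by ring
  unfold Rm
  rw [← hκ, ← hz, h13]
  linarith

/-- **`ChainU616.Ana` from soundness and the epoch theorem** -/
theorem ana_of (h : C.Good X) (hO : LipOk C x y g p L ζ) (hζ : ζ ≤ 1 / 7) (hpb : 10 ≤ C.P.pb)
    (hDm : ∀ κ ≤ C.K0, Alg45.gst C.P κ ∣ C.P.Dm) {C0 : ℕ} (hC : 1 ≤ C0)
    (hGF : ∀ e ≤ C.P.E, ∀ s, InD C.P.N C.I C.P.Dm s → GSt442.gst x y C.P.n s ≤ FE C.P X e s)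
    {aR qR : ℝ}
    (ep : ∀ e, e + 2 ≤ C.P.E → ∀ B : ℝ, 1 ≤ B → B ≤ B1 g L →
      (∀ s, InD C.P.N C.I C.P.Dm s → (FE C.P X e s : ℝ) ≤ B * ((GSt442.gst x y C.P.n s : ℝ) + C0)) →
      (∀ s, InD C.P.N C.I C.P.Dm s →
        (FE C.P X (e + 1) s : ℝ) ≤ B * ((GSt442.gst x y C.P.n s : ℝ) + C0)) →
      ∀ s, InD C.P.N C.I C.P.Dm s →
        Rm C X (e + 1) s ≤ (aR + qR * B) * ((GSt442.gst x y C.P.n s : ℝ) + C0)) :
    Ana (InD C.P.N C.I C.P.Dm) (fun s => (GSt442.gst x y C.P.n s : ℝ) + C0)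
      (fun e s => (FE C.P X e s : ℝ)) (Rm C X) aR qR (2 / 2 ^ C.P.nb) (5 / C0) (B1 g L) C.P.E where
  V0 := fun _ _ => by positivity
  start := fun _ hs => start h hO hC hs
  anti := fun e s _ => by exact_mod_cast FE_succ_le C.P X e s
  num := by
    intro e he s hs
    have h1 := num h hO hζ hpb hDm (e := e + 1) (by omega) (hGF _ (by omega)) hs
    have hC' : (0 : ℝ) < C0 := by exact_mod_cast hC
    have hG : (0 : ℝ) ≤ GSt442.gst x y C.P.n s := Nat.cast_nonneg _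
    have h2 : 5 / (C0 : ℝ) * ((GSt442.gst x y C.P.n s : ℝ) + C0) =
        5 + 5 / C0 * GSt442.gst x y C.P.n s := by
      field_simp
      ring
    have h3 : 0 ≤ 5 / (C0 : ℝ) * GSt442.gst x y C.P.n s := by positivity
    show (FE C.P X (e + 1 + 1) s : ℝ) ≤ Rm C X (e + 1) s +
      2 / 2 ^ C.P.nb * (FE C.P X (e + 1) s : ℝ) + 5 / C0 * ((GSt442.gst x y C.P.n s : ℝ) + C0)
    rw [h2]
    linarith
  ep := ep

end Crest.Agent.R288.AnaStart364
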