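import Crest.Agent.R288.AsyB_720

/-!
# R288 leaf [PAR], part B (helper806): the parameter table

Everything is a function of the height `h = clog2 (input length)` only (the precision `ε` of an input of
mode 2 satisfies `1/ε ≤ 2 ^ il km h`, which is beaten by `W h = il 3 h + 1`).  All inequalities are proved in the
form `∀ C, ∀ᶠ h, …` with an ARBITRARY constant factor `C`: the structure `ParOK C h`.

Meaning: `Lg ≈ log2 h`, `Mg ≈ log2 log2 h`, `W → ∞` slowly; windows of `nn` binary levels, `KK` ranks per epoch,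
`EE` epochs.
-/

set_option autoImplicit false

open Filter

namespace Crest.Agent.R288.Par806

open Crest.Agent.R288.Asy720

/-! ### the three scales -/

/-- the slow function -/
def W (h : ℕ) : ℕ := il 3 h + 1
/-- `h < 2 ^ Lg h` -/
def Lg (h : ℕ) : ℕ := il 1 h + 1
/-- `Lg h ≤ 2 ^ Mg h` -/
def Mg (h : ℕ) : ℕ := il 2 h + 1

theorem W_pos (h : ℕ) : 0 < W h := Nat.succ_pos _
theorem Lg_pos (h : ℕ) : 0 < Lg h := Nat.succ_pos _
theorem Mg_pos (h : ℕ) : 0 < Mg h := Nat.succ_pos _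

theorem lt_two_pow_Lg (h : ℕ) : h < 2 ^ Lg h := il_lt_two_pow 0 h

theorem two_pow_Lg_le {h : ℕ} (hh : 1 ≤ h) : 2 ^ Lg h ≤ 2 * h := by
  have h1 : 2 ^ il 1 h ≤ il 0 h := two_pow_il_succ_le (k := 0) hh
  have h2 : il 0 h = h := rfl
  rw [h2] at h1
  calc 2 ^ Lg h = 2 * 2 ^ il 1 h := by rw [Lg, pow_succ, mul_comm]
    _ ≤ 2 * h := Nat.mul_le_mul_left _ h1

theorem Lg_le_two_pow_Mg (h : ℕ) : Lg h ≤ 2 ^ Mg h := il_lt_two_pow 1 h

theorem Mg_le_two_pow_W (h : ℕ) : Mg h ≤ 2 ^ W h := il_lt_two_pow 2 h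

theorem W_le_Mg (h : ℕ) : W h ≤ Mg h := Nat.succ_le_succ (il_succ_le 2 h)
theorem Mg_le_Lg (h : ℕ) : Mg h ≤ Lg h := Nat.succ_le_succ (il_succ_le 1 h)
theorem W_le_Lg (h : ℕ) : W h ≤ Lg h := (W_le_Mg h).trans (Mg_le_Lg h)

theorem tendsto_W : Tendsto W atTop atTop :=
  tendsto_atTop_mono (fun h => Nat.le_succ _) (tendsto_il 3)

theorem ev_W_ge (C : ℕ) : ∀ᶠ h : ℕ in atTop, C ≤ W h := tendsto_W.eventually_ge_atTop C

theorem sm_W {j : ℕ} (hj : j < 3) : Sm j W := (Sm.il_lt hj).add (Sm.const j 1)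
theorem sm_Mg {j : ℕ} (hj : j < 2) : Sm j Mg := (Sm.il_lt hj).add (Sm.const j 1)
theorem sm_Lg : Sm 0 Lg := (Sm.il_lt (by norm_num)).add (Sm.const 0 1)

/-! ### the table -/

/-- binary levels of a window -/
def nn (h : ℕ) : ℕ := Mg h * W h ^ 2
/-- retire threshold `|v-u| ≥ (1 - 4/δi) F` -/
def δi (h : ℕ) : ℕ := 4 * W h ^ 2
/-- ranks of an epoch -/
def KK (h : ℕ) : ℕ := h / (W h ^ 8 * Lg h ^ 3)
/-- epochs -/
def EE (h : ℕ) : ℕ := 4 * (W h + 4) * Lg h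
/-- `1/g` = share of the wild value -/
def gg (h : ℕ) : ℕ := W h ^ 12 * Lg h ^ 3
/-- rate of the near letters -/
def gam (h : ℕ) : ℕ := W h ^ 14 * Lg h ^ 4
/-- regularity constant -/
def Creg : ℕ := 8
/-- unit of the mode choice -/
def um (h : ℕ) : ℕ := gg h * (nn h + 1) * (4 * (Creg + 2))
/-- prior `pm : 1` of calm against wild -/
def pm (h : ℕ) : ℕ := h + 1
/-- precision `2^-bb` of the jump -/
def bb (h : ℕ) : ℕ := 12 * Mg h
/-- near radius `F / 2^sb` -/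
def sb (h : ℕ) : ℕ := bb h + 2 * nn h + 2 * Mg h
/-- macro branching of INIT: `2 ^ gI` -/
def gI (h : ℕ) : ℕ := W h * Lg h
/-- `log2 B0` -/
def lB (h : ℕ) : ℕ := (W h + 4) * Lg h
/-- macro height of the root; `h ≤ nn * II` -/
def II (h : ℕ) : ℕ := h / nn h + 1
/-- grid points `2^pb` per `2^κ` -/
def pb (h : ℕ) : ℕ := 16 * W h * Lg h
/-- shift `2^κ / 2^nb` -/
def nb (h : ℕ) : ℕ := 8 * W h * Lg h
/-- leaves: cost at most `2^lam` -/
def lam (h : ℕ) : ℕ := W h * Lg h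
/-- classes -/
def dl (h : ℕ) : ℕ := 8 * W h * Lg h
def al (h : ℕ) : ℕ := 8 * W h * Lg h
def a1 (h : ℕ) : ℕ := bb h + Mg h
def a2 : ℕ := 8
def du : ℕ := 8
/-- radius of windows and cells -/
def rr : ℕ := 40
/-- copies -/
def c0 (h : ℕ) : ℕ := Mg h
def gJ (h : ℕ) : ℕ := W h ^ 2 * Lg h
def mJ (h : ℕ) : ℕ := 4 ^ (bb h + Mg h)
def gX (h : ℕ) : ℕ := W h * h
def mX (h : ℕ) : ℕ := 2 ^ (2 * nb h + W h * Lg h)

/-! ### growth classes -/

theorem lo_nn : Lo 1 nn := ((sm_Mg (by norm_num)).mul ((sm_W (by norm_num)).pow 2)).lo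

theorem sm1_nn : Sm 1 nn := (sm_Mg (by norm_num)).mul ((sm_W (by norm_num)).pow 2)

theorem sm_two_pow_nn (c : ℕ) : Sm 0 (fun h => 2 ^ (c * nn h)) := (lo_nn.const_mul c).two_pow

theorem lo_Mg : Lo 1 Mg := (sm_Mg (by norm_num)).lo

theorem sm_two_pow_Mg (c : ℕ) : Sm 0 (fun h => 2 ^ (c * Mg h)) := (lo_Mg.const_mul c).two_pow

theorem sm_poly (a b c : ℕ) : Sm 0 (fun h => W h ^ a * Lg h ^ b * Mg h ^ c) :=
  (((sm_W (by norm_num)).pow a).mul (sm_Lg.pow b)).mul ((sm_Mg (by norm_num)).pow c)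

/-- sub-`h` functions are below `K` -/
theorem Sm.le_KK {f : ℕ → ℕ} (hf : Sm 0 f) : ∀ᶠ h : ℕ in atTop, f h ≤ KK h := by
  have h1 : Sm 0 (fun h => f h * (W h ^ 8 * Lg h ^ 3)) :=
    hf.mul (((sm_W (by norm_num)).pow 8).mul (sm_Lg.pow 3))
  filter_upwards [h1.le] with h h2
  unfold KK
  rw [Nat.le_div_iff_mul_le (by have := W_pos h; have := Lg_pos h; positivity)]
  exact h2

/-- `h ≤ 2 K W^8 Lg^3` -/
theorem ev_le_KK : ∀ᶠ h : ℕ in atTop, h ≤ 2 * KK h * (W h ^ 8 * Lg h ^ 3) := by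
  have h1 : Sm 0 (fun h => W h ^ 8 * Lg h ^ 3) := ((sm_W (by norm_num)).pow 8).mul (sm_Lg.pow 3)
  filter_upwards [h1.le] with h h2
  exact (div_bounds (by have := W_pos h; have := Lg_pos h; positivity) h2).2.1


/-! ### the basic comparisons, with arbitrary constants -/

/-- constants and powers of `W`, `Mg` are below `Lg` -/
theorem ev_le_Lg (C a c : ℕ) : ∀ᶠ h : ℕ in atTop, C * W h ^ a * Mg h ^ c ≤ Lg h := by
  have h1 : Sm 1 (fun h => W h ^ a * Mg h ^ c) :=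
    ((sm_W (by norm_num)).pow a).mul ((sm_Mg (by norm_num)).pow c)
  filter_upwards [h1.mul_le C] with h h2
  rw [mul_assoc]
  exact h2.trans (Nat.le_succ _)

/-- constants and powers of `W` are below `Mg` -/
theorem ev_le_Mg (C a : ℕ) : ∀ᶠ h : ℕ in atTop, C * W h ^ a ≤ Mg h := by
  filter_upwards [((sm_W (j := 2) (by norm_num)).pow a).mul_le C] with h h2
  exact h2.trans (Nat.le_succ _)

theorem ev_le_W (C : ℕ) : ∀ᶠ h : ℕ in atTop, C ≤ W h := ev_W_ge C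

/-- `C W^a Lg^b Mg^c 2^(d nn + e Mg) ≤ K` -/
theorem ev_le_KK' (C a b c d e : ℕ) :
    ∀ᶠ h : ℕ in atTop, C * W h ^ a * Lg h ^ b * Mg h ^ c * 2 ^ (d * nn h + e * Mg h) ≤ KK h := by
  have h1 : Sm 0 (fun h => C * W h ^ a * Lg h ^ b * Mg h ^ c * 2 ^ (d * nn h + e * Mg h)) := by
    have h2 := ((Sm.const 0 C).mul (sm_poly a b c)).mul ((sm_two_pow_nn d).mul (sm_two_pow_Mg e))
    refine h2.mono' fun h => le_of_eq ?_
    rw [pow_add]
    ring
  exact Sm.le_KK h1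

/-- `C W^a Lg^b Mg^c 2^(d nn + e Mg) ≤ h`, even to the power `k` -/
theorem ev_pow_le_self (C a b c d e k : ℕ) :
    ∀ᶠ h : ℕ in atTop, (C * W h ^ a * Lg h ^ b * Mg h ^ c * 2 ^ (d * nn h + e * Mg h)) ^ k ≤ h := by
  have h1 : Sm 0 (fun h => C * W h ^ a * Lg h ^ b * Mg h ^ c * 2 ^ (d * nn h + e * Mg h)) := by
    have h2 := ((Sm.const 0 C).mul (sm_poly a b c)).mul ((sm_two_pow_nn d).mul (sm_two_pow_Mg e))
    refine h2.mono' fun h => le_of_eq ?_
    rw [pow_add]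
    ring
  exact (h1.pow k).le0

theorem ev_KK_pos : ∀ᶠ h : ℕ in atTop, 0 < KK h := by
  filter_upwards [ev_le_KK' 1 0 0 0 0 0] with h h1
  simp at h1
  omega

/-- polynomials in `W`, `Mg`, `Lg^b` are below `2 ^ ((b+1) Mg)` -/
theorem ev_le_two_pow_Mg (C a b c : ℕ) :
    ∀ᶠ h : ℕ in atTop, C * W h ^ a * Lg h ^ b * Mg h ^ c ≤ 2 ^ ((b + 1) * Mg h) := by
  filter_upwards [ev_le_Lg C a c] with h h1
  have h2 := Lg_le_two_pow_Mg h
  calc C * W h ^ a * Lg h ^ b * Mg h ^ c = (C * W h ^ a * Mg h ^ c) * Lg h ^ b := by ring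
    _ ≤ Lg h * Lg h ^ b := Nat.mul_le_mul_right _ h1
    _ = Lg h ^ (b + 1) := by ring
    _ ≤ (2 ^ Mg h) ^ (b + 1) := Nat.pow_le_pow_left h2 _
    _ = 2 ^ ((b + 1) * Mg h) := by rw [← pow_mul, mul_comm]

/-- `2 ^ (d nn + e Mg)` and polynomials in `Lg` are below `2 ^ Lg` -/
theorem ev_exp_le_Lg (C d e : ℕ) : ∀ᶠ h : ℕ in atTop, C + d * nn h + e * Mg h ≤ Lg h := by
  filter_upwards [ev_le_Lg (C + d + e) 2 1] with h h1
  have h2 := W_pos h
  have h3 := Mg_pos h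
  have h4 : 1 ≤ W h ^ 2 * Mg h := Nat.mul_pos (by positivity) h3
  have h5 : Mg h ≤ W h ^ 2 * Mg h := Nat.le_mul_of_pos_left _ (by positivity)
  calc C + d * nn h + e * Mg h
      ≤ C * (W h ^ 2 * Mg h) + d * (W h ^ 2 * Mg h) + e * (W h ^ 2 * Mg h) := by
        have e1 : nn h = W h ^ 2 * Mg h := by unfold nn; ring
        rw [e1]
        exact Nat.add_le_add (Nat.add_le_add_right (Nat.le_mul_of_pos_right _ h4) _)
          (Nat.mul_le_mul_left _ h5)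
    _ = (C + d + e) * W h ^ 2 * Mg h ^ 1 := by ring
    _ ≤ Lg h := h1

/-- work: all index drops together -/
theorem ev_work (C a : ℕ) (ha : a ≤ 5) :
    ∀ᶠ h : ℕ in atTop, (EE h * KK h + C) * (C * W h ^ a * Lg h) ≤ h := by
  filter_upwards [ev_le_W (40 * C + 1), (sm_poly 6 2 0).mul_le (2 * C * C + 1),
    ev_le_W 4] with h h1 h2 h3
  have hW := W_pos h
  have hL := Lg_pos h
  simp only [pow_zero, mul_one] at h2
  have h4 : KK h * (W h ^ 8 * Lg h ^ 3) ≤ h := Nat.div_mul_le_self _ _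
  have h5 : EE h ≤ 8 * W h * Lg h := by
    unfold EE
    calc 4 * (W h + 4) * Lg h ≤ 4 * (2 * W h) * Lg h := by gcongr; omega
      _ = 8 * W h * Lg h := by ring
  have h6 : W h ^ a ≤ W h ^ 5 := Nat.pow_le_pow_right hW ha
  have h7 : 2 * (EE h * KK h * (C * W h ^ a * Lg h)) ≤ h := by
    calc 2 * (EE h * KK h * (C * W h ^ a * Lg h))
        ≤ 2 * ((8 * W h * Lg h) * KK h * (C * W h ^ 5 * Lg h)) := by gcongr
      _ = KK h * ((16 * C) * W h ^ 6 * Lg h ^ 2) := by ring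
      _ ≤ KK h * (W h * W h ^ 6 * Lg h ^ 2) := by gcongr; omega
      _ ≤ KK h * (W h ^ 8 * Lg h ^ 3) := by
          refine Nat.mul_le_mul_left _ ?_
          have e1 : W h * W h ^ 6 ≤ W h ^ 8 := by
            rw [← pow_succ']; exact Nat.pow_le_pow_right hW (by norm_num)
          have e2 : Lg h ^ 2 ≤ Lg h ^ 3 := Nat.pow_le_pow_right hL (by norm_num)
          exact Nat.mul_le_mul e1 e2
      _ ≤ h := h4
  have h8 : 2 * (C * (C * W h ^ a * Lg h)) ≤ h := by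
    calc 2 * (C * (C * W h ^ a * Lg h)) = (2 * C * C) * (W h ^ a * Lg h) := by ring
      _ ≤ (2 * C * C + 1) * (W h ^ 6 * Lg h ^ 2) := by
          refine Nat.mul_le_mul (Nat.le_succ _) (Nat.mul_le_mul
            (Nat.pow_le_pow_right hW (by omega)) ?_)
          calc Lg h = Lg h ^ 1 := (pow_one _).symm
            _ ≤ Lg h ^ 2 := Nat.pow_le_pow_right hL (by norm_num)
      _ ≤ h := h2
  have e : (EE h * KK h + C) * (C * W h ^ a * Lg h)
      = EE h * KK h * (C * W h ^ a * Lg h) + C * (C * W h ^ a * Lg h) := by ring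
  omega

/-- work: all window steps together, `(II + C) C Mg W ≤ h` -/
theorem ev_work_window (C : ℕ) : ∀ᶠ h : ℕ in atTop, (II h + C) * (C * Mg h * W h) ≤ h := by
  filter_upwards [ev_le_W (2 * C + 1), ev_pow_le_self (2 * (C + 1) * C + 1) 1 0 1 0 0 1] with h h1 h2
  have hW := W_pos h
  have hM := Mg_pos h
  simp only [pow_zero, mul_one, pow_one, zero_mul, add_zero] at h2
  have hn : 0 < nn h := Nat.mul_pos hM (by positivity)
  have h3 : h / nn h * nn h ≤ h := Nat.div_mul_le_self _ _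
  have h4 : 2 * (h / nn h * (C * Mg h * W h)) ≤ h := by
    calc 2 * (h / nn h * (C * Mg h * W h)) = h / nn h * ((2 * C) * Mg h * W h) := by ring
      _ ≤ h / nn h * (W h * Mg h * W h) := by gcongr; omega
      _ = h / nn h * nn h := by unfold nn; ring
      _ ≤ h := h3
  have h5 : 2 * ((C + 1) * (C * Mg h * W h)) ≤ h := by
    calc 2 * ((C + 1) * (C * Mg h * W h)) = (2 * (C + 1) * C) * W h * Mg h := by ring
      _ ≤ (2 * (C + 1) * C + 1) * W h * Mg h := by gcongr; omega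
      _ ≤ h := h2
  have e : (II h + C) * (C * Mg h * W h)
      = h / nn h * (C * Mg h * W h) + (C + 1) * (C * Mg h * W h) := by unfold II; ring
  omega

end Crest.Agent.R288.Par806
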