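import Crest.Agent.R288.AlgA_45
import Crest.Agent.R288.ParB_806

/-!
# R288, [ASM]: the parameters of the algorithm as functions of the height `h` (helper331)

`parOf h : Alg45.Par` from the table of ParB_806; `HH h` = binary height of the root, `Dm = 2 ^ (HH h + 1)`,
`K0O h` = largest class of a pair, `sX`, `sJ` = failure exponents (groups `12 s + 1`), `pI`, `DI`, `mI` =
parameters of INIT.  This is THE table instance (decision 806 #5114); theorems: ParC_806, ParD_806.
-/

set_option autoImplicit false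

namespace Crest.Agent.R288.ParO331

open Crest.Agent.R288.Par806

/-- binary height of the root -/
def HH (h : ℕ) : ℕ := nn h * II h

/-- range of the diagonals -/
def DmO (h : ℕ) : ℕ := 2 ^ (HH h + 1)

/-- largest class of a pair -/
def K0O (h : ℕ) : ℕ := HH h + gI h + Lg h + 32

/-- failure exponent of a number -/
def sX (h : ℕ) : ℕ := W h * h

/-- failure exponent of a jump -/
def sJ (h : ℕ) : ℕ := W h ^ 2 * Lg h

/-- INIT: precision `4 / pI` -/
def pI (h : ℕ) : ℕ := 2 ^ (8 * Lg h)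

/-- INIT: `D` -/
def DI (h : ℕ) : ℕ := 10 * Lg h

/-- INIT: failure probability `2 ^ (- mI)` of a node -/
def mI (h : ℕ) : ℕ := W h * h

/-- **the parameters** -/
def parOf (h : ℕ) : Alg45.Par where
  n := nn h
  pb := pb h
  r := rr
  Dm := DmO h
  g := gg h
  γ := gam h
  um := um h
  pm := pm h
  sb := sb h
  Creg := Creg
  δi := δi h
  a1 := a1 h
  a2 := a2
  al := al h
  bb := bb h
  dl := dl h
  du := du
  c0 := c0 h
  gJ := 12 * sJ h + 1
  mJ := mJ h
  gX := 12 * sX h + 1
  mX := mX h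
  nb := nb h
  K := KK h
  E := EE h

@[simp] theorem parOf_n (h : ℕ) : (parOf h).n = nn h := rfl
@[simp] theorem parOf_N (h : ℕ) : (parOf h).N = 2 ^ nn h := rfl
@[simp] theorem parOf_pb (h : ℕ) : (parOf h).pb = pb h := rfl
@[simp] theorem parOf_r (h : ℕ) : (parOf h).r = 40 := rfl
@[simp] theorem parOf_Dm (h : ℕ) : (parOf h).Dm = DmO h := rfl
@[simp] theorem parOf_g (h : ℕ) : (parOf h).g = gg h := rfl
@[simp] theorem parOf_γ (h : ℕ) : (parOf h).γ = gam h := rfl
@[simp] theorem parOf_um (h : ℕ) : (parOf h).um = um h := rfl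
@[simp] theorem parOf_pm (h : ℕ) : (parOf h).pm = pm h := rfl
@[simp] theorem parOf_sb (h : ℕ) : (parOf h).sb = sb h := rfl
@[simp] theorem parOf_Creg (h : ℕ) : (parOf h).Creg = 8 := rfl
@[simp] theorem parOf_δi (h : ℕ) : (parOf h).δi = δi h := rfl
@[simp] theorem parOf_a1 (h : ℕ) : (parOf h).a1 = a1 h := rfl
@[simp] theorem parOf_a2 (h : ℕ) : (parOf h).a2 = 8 := rfl
@[simp] theorem parOf_al (h : ℕ) : (parOf h).al = al h := rfl
@[simp] theorem parOf_bb (h : ℕ) : (parOf h).bb = bb h := rfl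
@[simp] theorem parOf_dl (h : ℕ) : (parOf h).dl = dl h := rfl
@[simp] theorem parOf_du (h : ℕ) : (parOf h).du = 8 := rfl
@[simp] theorem parOf_c0 (h : ℕ) : (parOf h).c0 = c0 h := rfl
@[simp] theorem parOf_gJ (h : ℕ) : (parOf h).gJ = 12 * sJ h + 1 := rfl
@[simp] theorem parOf_mJ (h : ℕ) : (parOf h).mJ = mJ h := rfl
@[simp] theorem parOf_gX (h : ℕ) : (parOf h).gX = 12 * sX h + 1 := rfl
@[simp] theorem parOf_mX (h : ℕ) : (parOf h).mX = mX h := rfl
@[simp] theorem parOf_nb (h : ℕ) : (parOf h).nb = nb h := rfl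
@[simp] theorem parOf_K (h : ℕ) : (parOf h).K = KK h := rfl
@[simp] theorem parOf_E (h : ℕ) : (parOf h).E = EE h := rfl

end Crest.Agent.R288.ParO331
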