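import Crest.Agent.R288.ParC_806
import Crest.Agent.R288.ParO_331

/-!
# R288 leaf [PAR], part D (helper806): concrete numeric facts about `ParO331.parOf h`

`ParN h`: INIT (772, 775, 364), the domain and the classes (20, 364, 331), sure value bounds (275).
-/

set_option autoImplicit false
set_option maxHeartbeats 400000

open Filter

namespace Crest.Agent.R288.Par806

open Crest.Agent.R288.Asy720 Crest.Agent.R288.ParO331

/-- largest class -/
def K0P (h : ℕ) : ℕ := nn h * II h + gI h + Lg h + 32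

/-- start factor of INIT: `F 0 ≤ B1P h * (G + 1)` -/
def B1P (h : ℕ) : ℕ := 16 * 2 ^ gI h * h + 8

theorem ev_const_II (C : ℕ) : ∀ᶠ h : ℕ in atTop, C * II h ≤ h := by
  filter_upwards [ev_le_W (2 * C + 1), eventually_ge_atTop (2 * C)] with h h1 h2
  have hW := W_pos h
  have hM := Mg_pos h
  have h3 : h / nn h * nn h ≤ h := Nat.div_mul_le_self _ _
  have h4 : 2 * C ≤ nn h := by
    unfold nn
    calc 2 * C ≤ W h := by omega
      _ = 1 * (W h * 1) := by ring
      _ ≤ Mg h * (W h * W h) := by gcongr <;> omega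
      _ = Mg h * W h ^ 2 := by ring
  have h5 : 2 * (C * (h / nn h)) ≤ h := by
    calc 2 * (C * (h / nn h)) = h / nn h * (2 * C) := by ring
      _ ≤ h / nn h * nn h := Nat.mul_le_mul_left _ h4
      _ ≤ h := h3
  have e : C * II h = C * (h / nn h) + C := by unfold II; ring
  omega

theorem ev_const_len (C : ℕ) : ∀ᶠ h : ℕ in atTop, C * (W h * Lg h + nn h + 1) ≤ h := by
  filter_upwards [ev_len_le (C + 1), ev_le_W 1] with h h1 h2
  have h3 : 1 ≤ W h * Lg h := Nat.mul_pos (W_pos h) (Lg_pos h)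
  refine le_trans ?_ h1
  have h4 : W h * Lg h + nn h + 1 ≤ pb h + EE h + dl h + al h + nb h + lB h + W h * Lg h + nn h := by
    have : 1 ≤ pb h := by
      have e : pb h = 16 * (W h * Lg h) := by unfold pb; ring
      omega
    omega
  calc C * (W h * Lg h + nn h + 1) ≤ (C + 1) * (W h * Lg h + nn h + 1) := by gcongr; omega
    _ ≤ (C + 1) * _ := Nat.mul_le_mul_left _ h4

theorem ev_const_Lg (C : ℕ) : ∀ᶠ h : ℕ in atTop, C ≤ Lg h := by
  filter_upwards [ev_exp_le_Lg C 0 0] with h h1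
  omega

/-- facts about `parOf h`, all for large `h` -/
structure ParN (h : ℕ) : Prop where
  W16 : 16 ≤ W h
  Lg16 : 16 ≤ Lg h
  gI_pos : 1 ≤ gI h
  pI_ge : 4 ≤ pI h
  init_m : 2 * gI h + 2 * DI h + 12 ≤ mI h
  init_D : ∀ i ≤ II h, 32 * (nn h * i + 2) * pI h ≤ 2 ^ DI h
  hL : nn h * II h + 1 ≤ 2 * h
  B1_le : B1P h ≤ 2 ^ (gI h + Lg h + 5)
  B1_lB : B1P h ≤ 2 ^ lB h
  top : B1P h * (2 ^ (nn h * II h) + 6 * 2 ^ (nn h * II h + 1) + 1) < 2 ^ (K0P h + 1 - a2)
  big : 2 * B1P h ≤ 2 ^ (al h + pb h)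
  K0_grd : K0P h ≤ pb h + (nn h * II h + 1)
  K0_lt : K0P h < 2 ^ (nn h * II h + 1)
  II_lt : II h < 2 ^ (nn h * II h + 1)
  nb_le_gX : nb h + pb h ≤ sX h
  /-- 275: sure values are below `2 ^ (3 (h-1))` -/
  sure : K0P h + 6 + (nn h + du + a2 + 4) * II h ≤ 3 * (h - 1)
  δi_ge : 1024 ≤ δi h
  g_ge : 16 ≤ gg h
  um_ge : 40 * (gg h * (nn h + 1)) = um h

theorem B1P_le {h : ℕ} (hh : 1 ≤ h) : B1P h ≤ 2 ^ (gI h + Lg h + 5) := by
  have h1 := lt_two_pow_Lg h
  have h2 : 1 ≤ 2 ^ gI h := Nat.one_le_two_pow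
  have e : (2 : ℕ) ^ (gI h + Lg h + 5) = 32 * (2 ^ gI h * 2 ^ Lg h) := by
    rw [pow_add, pow_add]; ring
  rw [e]
  unfold B1P
  have h3 : 2 ^ gI h * h + 2 ^ gI h ≤ 2 ^ gI h * 2 ^ Lg h := by
    calc 2 ^ gI h * h + 2 ^ gI h = 2 ^ gI h * (h + 1) := by ring
      _ ≤ 2 ^ gI h * 2 ^ Lg h := Nat.mul_le_mul_left _ h1
  have h4 : 16 * 2 ^ gI h * h = 16 * (2 ^ gI h * h) := by ring
  rw [h4]
  generalize 2 ^ gI h * h = X at *
  omega

theorem ev_ParN : ∀ᶠ h : ℕ in atTop, ParN h := by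
  filter_upwards [ev_le_W 48, ev_const_Lg 16, ev_const_len 200, ev_const_II 200, ev_heights,
    ev_len 1, ev_copies 8, eventually_ge_atTop 100, ev_le_Mg 1 1, ev_sb_le 0 1]
    with h hW hL hlen hII hh hl hc h100 hMg hsb
  have hWp := W_pos h
  have hLp := Lg_pos h
  have hMp := Mg_pos h
  have e1 : gI h = W h * Lg h := rfl
  have e2 : pb h = 16 * (W h * Lg h) := by unfold pb; ring
  have e3 : al h = 8 * (W h * Lg h) := by unfold al; ring
  have e4 : lB h = W h * Lg h + 4 * Lg h := by unfold lB; ring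
  have hWL : 48 * Lg h ≤ W h * Lg h := Nat.mul_le_mul_right _ hW
  have hnn : nn h ≤ Lg h := by omega
  have hn2 : nn h * II h ≤ h + nn h := hh.2.1
  have hn1 : h ≤ nn h * II h := hh.1
  have hlt := lt_two_pow_Lg h
  have hpow : ∀ n : ℕ, n < 2 ^ n := fun n => Nat.lt_two_pow_self
  have hmI : mI h = W h * h := rfl
  have hDI : DI h = 10 * Lg h := rfl
  have hWh : 48 * h ≤ W h * h := Nat.mul_le_mul_right _ hW
  have hB := B1P_le (h := h) (by omega)
  refine
    { W16 := by omega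
      Lg16 := hL
      gI_pos := by omega
      pI_ge := ?_
      init_m := by rw [hmI, hDI]; omega
      init_D := ?_
      hL := by omega
      B1_le := hB
      B1_lB := hB.trans (Nat.pow_le_pow_right (by norm_num) (by omega))
      top := ?_
      big := ?_
      K0_grd := by unfold K0P; omega
      K0_lt := ?_
      II_lt := ?_
      nb_le_gX := ?_
      sure := ?_
      δi_ge := ?_
      g_ge := ?_
      um_ge := ?_ }
  · calc 4 = 2 ^ 2 := by norm_num
      _ ≤ 2 ^ (8 * Lg h) := Nat.pow_le_pow_right (by norm_num) (by omega)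
  · intro i hi
    have a1 : nn h * i ≤ nn h * II h := Nat.mul_le_mul_left _ hi
    have a2 : 32 * (nn h * i + 2) ≤ 2 ^ (Lg h + Lg h) := by
      have b1 : nn h * i + 2 ≤ 3 * 2 ^ Lg h := by
        have := hpow (Lg h)
        omega
      calc 32 * (nn h * i + 2) ≤ 32 * (3 * 2 ^ Lg h) := Nat.mul_le_mul_left _ b1
        _ = 96 * 2 ^ Lg h := by ring
        _ ≤ 2 ^ Lg h * 2 ^ Lg h := by
          refine Nat.mul_le_mul_right _ ?_
          calc 96 ≤ 2 ^ 16 := by norm_num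
            _ ≤ 2 ^ Lg h := Nat.pow_le_pow_right (by norm_num) hL
        _ = 2 ^ (Lg h + Lg h) := by rw [pow_add]
    calc 32 * (nn h * i + 2) * pI h ≤ 2 ^ (Lg h + Lg h) * 2 ^ (8 * Lg h) := Nat.mul_le_mul_right _ a2
      _ = 2 ^ (10 * Lg h) := by rw [← pow_add]; congr 1; ring
  · have a1 : 2 ^ (nn h * II h) + 6 * 2 ^ (nn h * II h + 1) + 1 ≤ 2 ^ (nn h * II h + 4) := by
      have b1 : 1 ≤ 2 ^ (nn h * II h) := Nat.one_le_two_pow
      rw [pow_add, pow_add]
      omega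
    calc B1P h * (2 ^ (nn h * II h) + 6 * 2 ^ (nn h * II h + 1) + 1)
        ≤ 2 ^ (gI h + Lg h + 5) * 2 ^ (nn h * II h + 4) := Nat.mul_le_mul hB a1
      _ = 2 ^ (nn h * II h + gI h + Lg h + 9) := by rw [← pow_add]; congr 1; ring
      _ < 2 ^ (K0P h + 1 - a2) := by
        refine Nat.pow_lt_pow_right (by norm_num) ?_
        unfold K0P a2
        omega
  · calc 2 * B1P h ≤ 2 * 2 ^ (gI h + Lg h + 5) := Nat.mul_le_mul_left _ hB
      _ = 2 ^ (gI h + Lg h + 6) := by rw [← pow_succ']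
      _ ≤ 2 ^ (al h + pb h) := Nat.pow_le_pow_right (by norm_num) (by omega)
  · refine lt_of_lt_of_le ?_ (Nat.pow_le_pow_right (by norm_num) (Nat.le_succ_of_le hn1))
    have a1 : K0P h < 4 * h := by unfold K0P; omega
    have a2 : ∀ m : ℕ, 4 * (m + 8) ≤ 2 ^ (m + 8) := by
      intro m
      induction m with
      | zero => norm_num
      | succ m ih =>
        have e : 2 ^ (m + 1 + 8) = 2 * 2 ^ (m + 8) := by ring
        rw [e]
        omega
    have a3 := a2 (h - 8)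
    rw [show h - 8 + 8 = h by omega] at a3
    omega
  · have a1 := hpow (nn h * II h + 1)
    have a2 : II h ≤ h := hh.2.2
    omega
  · have a1 : sX h = W h * h := rfl
    have e5 : nb h = 8 * (W h * Lg h) := by unfold nb; ring
    rw [a1]
    omega
  · unfold K0P du a2
    have a1 : (nn h + 8 + 8 + 4) * II h = nn h * II h + 20 * II h := by ring
    rw [a1]
    omega
  · unfold δi
    calc 1024 ≤ 4 * 48 ^ 2 := by norm_num
      _ ≤ 4 * W h ^ 2 := by gcongr
  · unfold gg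
    calc 16 ≤ 48 ^ 12 * 1 ^ 3 := by norm_num
      _ ≤ W h ^ 12 * Lg h ^ 3 :=
        Nat.mul_le_mul (Nat.pow_le_pow_left hW _) (Nat.pow_le_pow_left (by omega) _)
  · unfold um Creg; ring

end Crest.Agent.R288.Par806
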