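import Crest.Agent.R288.AsmD_331
import Crest.Agent.R288.AnaLip_364
import Crest.Agent.R288.ParD_806

/-!
# R288, ANA block: `LipOk` at the concrete configuration `cfgO x y ε` (helper364)

`ζO h = 2^5 / 2^(8 Lg h)`; **`lipStm`** is literally `StmF616.LipStm ζO`.
-/

set_option autoImplicit false

namespace Crest.Agent.R288.LipO364

open Filter Crest.GraphRAM Crest.Agent.R288.Alg45
open Crest.Agent.R288.Asm331 Crest.Agent.R288.Asm12 Crest.Agent.R288.Par806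
open Crest.Agent.R288.ParO331 Crest.Agent.R288.AnaLip364

/-- the Lipschitz constant of the unit functions -/
noncomputable def ζO (h : ℕ) : ℝ := 2 ^ 5 / 2 ^ (8 * Lg h)

theorem ζO_nonneg (h : ℕ) : 0 ≤ ζO h := by unfold ζO; positivity

theorem ζO_le {h : ℕ} (hL : 16 ≤ Lg h) : ζO h ≤ 1 / 7 := by
  unfold ζO
  rw [div_le_div_iff₀ (by positivity) (by norm_num)]
  have h1 : (2 : ℝ) ^ 8 ≤ 2 ^ (8 * Lg h) := pow_le_pow_right₀ (by norm_num) (by omega)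
  have h2 : (2 : ℝ) ^ 5 * 7 ≤ 2 ^ 8 := by norm_num
  linarith

theorem eight_mul_le (m : ℕ) (hm : 6 ≤ m) : 8 * m ≤ 2 ^ m := by
  induction m, hm using Nat.le_induction with
  | base => norm_num
  | succ k hk ih =>
    rw [pow_succ]
    omega

/-- the line `al` -/
theorem al_line {h : ℕ} (H : ParN h) : (EE h : ℝ) * (2 / 2 ^ al h) ≤ ζO h / 4 := by
  have hW := H.W16
  have hL := H.Lg16
  have hWL : 16 * Lg h ≤ W h * Lg h := Nat.mul_le_mul_right _ hW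
  have e3 : al h = 8 * (W h * Lg h) := by unfold al; ring
  have h1 : EE h ≤ 2 ^ (W h * Lg h) := by
    refine le_trans ?_ (eight_mul_le _ (by omega))
    unfold EE
    have h2 : (W h + 4) * Lg h ≤ 2 * (W h * Lg h) := by
      have h3 : 4 * Lg h ≤ W h * Lg h := Nat.mul_le_mul_right _ (by omega)
      rw [add_mul]
      omega
    have h4 : 4 * (W h + 4) * Lg h = 4 * ((W h + 4) * Lg h) := by ring
    rw [h4]
    omega
  have h2 : (EE h : ℝ) ≤ 2 ^ (W h * Lg h) := by exact_mod_cast h1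
  unfold ζO
  rw [mul_div_assoc', div_div, div_le_div_iff₀ (by positivity) (by positivity)]
  have h5 : (2 : ℝ) ^ (W h * Lg h) * 2 ^ (8 * Lg h) ≤ 2 ^ al h := by
    rw [← pow_add]
    exact pow_le_pow_right₀ (by norm_num) (by omega)
  calc (EE h : ℝ) * 2 * (2 ^ (8 * Lg h) * 4) = 8 * (EE h * 2 ^ (8 * Lg h)) := by ring
    _ ≤ 8 * (2 ^ (W h * Lg h) * 2 ^ (8 * Lg h)) := by
        refine mul_le_mul_of_nonneg_left ?_ (by norm_num)
        exact mul_le_mul_of_nonneg_right h2 (by positivity)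
    _ ≤ 8 * 2 ^ al h := mul_le_mul_of_nonneg_left h5 (by norm_num)
    _ ≤ 2 ^ 5 * 2 ^ al h := mul_le_mul_of_nonneg_right (by norm_num) (by positivity)

/-- the line `start` -/
theorem start_line {h : ℕ} (H : ParN h) : 4 / (pI h : ℝ) +
    (2 + (1 + 4 / (pI h : ℝ)) * (2 + 2 * 2 ^ gI h)) *
      (8 / 2 ^ (al h + pb h) * (2 * B1 (gI h) h)) ≤ ζO h / 4 := by
  have hW := H.W16
  have hL := H.Lg16
  have hWL : 16 * Lg h ≤ W h * Lg h := Nat.mul_le_mul_right _ hW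
  have e1 : gI h = W h * Lg h := rfl
  have e2 : pb h = 16 * (W h * Lg h) := by unfold pb; ring
  have e3 : al h = 8 * (W h * Lg h) := by unfold al; ring
  have hp : (pI h : ℝ) = 2 ^ (8 * Lg h) := by unfold pI; push_cast; rfl
  have hB : (B1 (gI h) h : ℝ) ≤ 2 ^ (gI h + Lg h + 5) := by
    have : B1 (gI h) h ≤ 2 ^ (gI h + Lg h + 5) := H.B1_le
    exact_mod_cast this
  rw [hp]
  have hz : (0 : ℝ) < 2 ^ (8 * Lg h) := by positivity
  have h8 : (4 : ℝ) ≤ 2 ^ (8 * Lg h) := by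
    have h1 : (2 : ℝ) ^ 2 ≤ 2 ^ (8 * Lg h) := pow_le_pow_right₀ (by norm_num) (by omega)
    linarith
  have h4 : 4 / (2 : ℝ) ^ (8 * Lg h) ≤ 1 := by rw [div_le_one hz]; exact h8
  have hg : (1 : ℝ) ≤ 2 ^ gI h := one_le_pow₀ (by norm_num)
  have h5 : 2 + (1 + 4 / (2 : ℝ) ^ (8 * Lg h)) * (2 + 2 * 2 ^ gI h) ≤ 10 * 2 ^ gI h := by
    nlinarith
  have h6 : 8 / (2 : ℝ) ^ (al h + pb h) * (2 * B1 (gI h) h) ≤
      8 / (2 : ℝ) ^ (al h + pb h) * (2 * 2 ^ (gI h + Lg h + 5)) :=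
    mul_le_mul_of_nonneg_left (by linarith) (by positivity)
  have h7 : (2 + (1 + 4 / (2 : ℝ) ^ (8 * Lg h)) * (2 + 2 * 2 ^ gI h)) *
      (8 / (2 : ℝ) ^ (al h + pb h) * (2 * B1 (gI h) h)) ≤
      10 * 2 ^ gI h * (8 / (2 : ℝ) ^ (al h + pb h) * (2 * 2 ^ (gI h + Lg h + 5))) :=
    mul_le_mul h5 h6 (by positivity) (by positivity)
  have h9 : 10 * 2 ^ gI h * (8 / (2 : ℝ) ^ (al h + pb h) * (2 * 2 ^ (gI h + Lg h + 5))) ≤
      4 / 2 ^ (8 * Lg h) := by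
    rw [div_mul_eq_mul_div, mul_div_assoc', div_le_div_iff₀ (by positivity) hz]
    have h10 : (2 : ℝ) ^ gI h * 2 ^ (gI h + Lg h + 5) * 2 ^ (8 * Lg h) * 2 ^ 6 ≤
        2 ^ (al h + pb h) := by
      rw [← pow_add, ← pow_add, ← pow_add]
      exact pow_le_pow_right₀ (by norm_num) (by omega)
    have h11 : 10 * (2 : ℝ) ^ gI h * (8 * (2 * 2 ^ (gI h + Lg h + 5))) * 2 ^ (8 * Lg h) =
        160 / 64 * (2 ^ gI h * 2 ^ (gI h + Lg h + 5) * 2 ^ (8 * Lg h) * 2 ^ 6) := by ring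
    rw [h11]
    have h12 : (0 : ℝ) ≤ 2 ^ (al h + pb h) := by positivity
    nlinarith
  have h13 : ζO h / 4 = 4 / 2 ^ (8 * Lg h) + 4 / 2 ^ (8 * Lg h) := by unfold ζO; ring
  rw [h13]
  linarith

/-- the line `top` -/
theorem top_line {h : ℕ} (H : ParN h) :
    2 * (2 ^ (nn h * II h + 1) + 6 * DmO h) + 8 < 2 ^ (K0O h + 1 - a2) := by
  refine lt_of_le_of_lt ?_ H.top
  have h1 : 8 ≤ B1P h := by unfold B1P; omega
  have h2 : 8 * (2 ^ (nn h * II h) + 6 * 2 ^ (nn h * II h + 1) + 1) ≤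
      B1P h * (2 ^ (nn h * II h) + 6 * 2 ^ (nn h * II h + 1) + 1) := Nat.mul_le_mul_right _ h1
  refine le_trans ?_ h2
  have h3 : DmO h = 2 ^ (nn h * II h + 1) := rfl
  rw [h3, pow_succ]
  omega

/-- **`LipOk` at `cfgO`** -/
theorem lipOk {x y : List ℕ} {ε : ℚ} (hN : Num x y ε) (H : ParN (hh x y ε))
    (hK : 0 < KK (hh x y ε)) :
    LipOk (cfgO x y ε) x y (gI (hh x y ε)) (pI (hh x y ε)) (hh x y ε) (ζO (hh x y ε)) where
  GU := fun _ _ h => h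
  x_le := x_le_Dm hN
  y_le := y_le_Dm hN
  p4 := H.pI_ge
  g1 := H.gI_pos
  hL := H.hL
  a2 := by show 3 ≤ a2; unfold a2; omega
  K := hK
  top := top_line H
  big := H.big
  z0 := ζO_nonneg _
  z1 := (ζO_le H.Lg16).trans (by norm_num)
  al := al_line H
  start := start_line H

/-- **`StmF616.LipStm ζO`** -/
theorem lipStm : Ev fun x y ε =>
    (∃ p, LipOk (cfgO x y ε) x y (gI (hh x y ε)) p (hh x y ε) (ζO (hh x y ε))) ∧
      ζO (hh x y ε) ≤ 1 / 7 :=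
  Ev.of (P := fun h => ParN h ∧ 0 < KK h) (ev_ParN.and ev_KK_pos)
    fun _ _ _ hN h => ⟨⟨_, lipOk hN h.1 h.2⟩, ζO_le h.1.Lg16⟩

end Crest.Agent.R288.LipO364
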