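import Crest.Agent.R288.GoodR_829
import Crest.Agent.R288.AlgB_45

/-!
# R288 [RT.GOOD] (helper829): instance on the algorithm `Alg45` (ALG v2)

* locality: `lanePair_congr` (only the numbers of the ranks `i < k` matter), `FE_congr` (only the
  indices `< 1 + e K` matter), `FE_lo`.
* `sysA P leaf U`: the `Good829.Sys` of the algorithm, `tRT_sysA : tRT = tapeRT`.
* `Rk M P leaf X e k κ z`: exact mean of a lane of rank `k` of epoch `e` at the pair `(κ, z)` for the
  history `X`.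
* `GoodX P leaf M Λ Ω GU X`: the numbers of the indices `< Λ` are good = line (A3) of the SPEC.
* **`cnt_bad_alg`**: `GoodX` holds for the value functions of the tapes up to a small fraction.
-/

set_option autoImplicit false

namespace Crest.Agent.R288.Good829

open Finset
open Crest.Agent.R295 Crest.Agent.R295.Rnd627 Crest.Agent.R295.Prob791
open Crest.Agent.R288.Bridge331 Crest.Agent.R288.Tape829 Crest.Agent.R288.Alg45

variable (P : Par)

/-! ### locality -/

section congr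

theorem sumR_congr {n : ℕ} {f g : ℕ → ℕ} (h : ∀ i < n, f i = g i) : sumR n f = sumR n g := by
  unfold sumR
  congr 1
  exact List.map_congr_left fun i hi => h i (List.mem_range.1 hi)

theorem Wm_congr {F : ℕ} {V V' : ℕ → ℕ} {k : ℕ} (h : ∀ i < k, V i = V' i) :
    Wm F V k = Wm F V' k := by
  induction k with
  | zero => rfl
  | succ k ih =>
    show min (Wm F V k) (V k) = min (Wm F V' k) (V' k)
    rw [ih fun i hi => h i (by omega), h k (by omega)]

theorem wild_congr {F : St → ℕ} {X X' : ℕ → ℕ → St → ℕ} {κ : ℕ} {x : St} {k : ℕ}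
    (h : ∀ i < k, X i = X' i) : wild P F X κ x k = wild P F X' κ x k :=
  Wm_congr fun i hi => by rw [h i hi]

theorem calm_congr {F : St → ℕ} {X X' : ℕ → ℕ → St → ℕ} {k : ℕ} (S : ℕ → ℕ → St → ℕ) (κ : ℕ)
    (x : St) (i : ℕ) (h : ∀ i < k, X i = X' i) : calm P F X k S κ x i = calm P F X' k S κ x i := by
  unfold calm
  congr 1
  funext i q a b
  by_cases hi : i < k
  · rw [if_pos hi, if_pos hi, h i hi]
  · rw [if_neg hi, if_neg hi]

theorem wts_congr {gn gd B U : ℕ} {w0 : ℕ → ℕ} {us us' : ℕ → ℕ → ℕ} {i : ℕ}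
    (h : ∀ i' < i, us i' = us' i') : wts gn gd B U w0 us i = wts gn gd B U w0 us' i := by
  induction i with
  | zero => rfl
  | succ i ih =>
    funext z
    show wts gn gd B U w0 us i z * fac gn gd U (us i z - minR B (us i)) =
      wts gn gd B U w0 us' i z * fac gn gd U (us' i z - minR B (us' i))
    rw [ih fun j hj => h j (by omega), h i (by omega)]

theorem hv_congr {gn gd B U : ℕ} {w0 : ℕ → ℕ} {us us' : ℕ → ℕ → ℕ} {i : ℕ}
    (h : ∀ i' ≤ i, us i' = us' i') : hv gn gd B U w0 us i = hv gn gd B U w0 us' i := by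
  unfold hv
  rw [wts_congr fun j hj => h j (by omega), h i le_rfl]

theorem modal_congr {F : St → ℕ} {X X' : ℕ → ℕ → St → ℕ} {k : ℕ} (S : ℕ → ℕ → St → ℕ) (κ : ℕ)
    (x : St) (h : ∀ i < k, X i = X' i) : modal P F X k S κ x = modal P F X' k S κ x := by
  unfold modal
  refine hv_congr fun i hi => ?_
  funext z
  rw [calm_congr P S κ x i h, wild_congr P fun j hj => h j (by omega)]

theorem bodyNum_congr {leaf : St → Option ℕ} {F : St → ℕ} {X X' : ℕ → ℕ → St → ℕ} {k : ℕ}
    (S : ℕ → ℕ → St → ℕ) (κ : ℕ) (x : St) (h : ∀ i < k, X i = X' i) :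
    bodyNum P leaf F X k S κ x = bodyNum P leaf F X' k S κ x := by
  unfold bodyNum
  rw [modal_congr P S κ x h, wild_congr P h]

theorem bodyT_congr {leaf : St → Option ℕ} {F : St → ℕ} {X X' : ℕ → ℕ → St → ℕ} {k : ℕ}
    (sub : Cel → RT (List ℕ)) (c : Cel) (h : ∀ i < k, X i = X' i) :
    bodyT P leaf F X k sub c = bodyT P leaf F X' k sub c := by
  unfold bodyT
  have e : ∀ S : ℕ → ℕ → St → ℕ, (fun z => bodyNum P leaf F X k S c.κ z) =
      fun z => bodyNum P leaf F X' k S c.κ z := fun S => funext fun z => bodyNum_congr P S c.κ z h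
  simp only [e]

theorem arrT_congr {leaf : St → Option ℕ} {F : St → ℕ} {X X' : ℕ → ℕ → St → ℕ} {k : ℕ}
    (h : ∀ i < k, X i = X' i) (i : ℕ) (c : Cel) :
    arrT P leaf F X k i c = arrT P leaf F X' k i c := by
  induction i generalizing c with
  | zero => rfl
  | succ i ih =>
    have e : (fun c'' => arrT P leaf F X k i c'') = fun c'' => arrT P leaf F X' k i c'' :=
      funext ih
    have e2 : (fun c' => bodyT P leaf F X k (fun c'' => arrT P leaf F X k i c'') c') =
        fun c' => bodyT P leaf F X' k (fun c'' => arrT P leaf F X' k i c'') c' := by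
      funext c'
      rw [e]
      exact bodyT_congr P _ c' h
    exact congrArg (fun b => arrOf P F b c) e2

/-- **locality of a lane** -/
theorem lanePair_congr {leaf : St → Option ℕ} {F : St → ℕ} {X X' : ℕ → ℕ → St → ℕ} {k : ℕ}
    (h : ∀ i < k, X i = X' i) (κ : ℕ) (z : St) :
    lanePair P leaf F X k κ z = lanePair P leaf F X' k κ z := by
  unfold lanePair
  rw [arrT_congr P h]

theorem FNext_congr {F F' : St → ℕ} {X X' : ℕ → ℕ → St → ℕ} (hF : F = F')
    (h : ∀ i < P.K, X i = X' i) : FNext P F X = FNext P F' X' := by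
  subst hF
  have e : Xbar P X = Xbar P X' := by
    funext κ z
    unfold Xbar
    rw [sumR_congr fun i hi => by rw [h i hi]]
  funext y
  unfold FNext
  rw [e]

theorem FE_succ (X : ℕ → ℕ × St → ℕ) (e : ℕ) : FE P X (e + 1) =
    FNext P (FE P X e) (fun i κ z => X (idx P e i) (κ, z)) := by
  funext y
  rfl

/-- **the unit function of epoch `e` depends on the indices `< 1 + e K` only** -/
theorem FE_congr {X X' : ℕ → ℕ × St → ℕ} {e : ℕ} (h : ∀ l < 1 + e * P.K, X l = X' l) :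
    FE P X e = FE P X' e := by
  induction e with
  | zero =>
    have h0 := h 0 (by omega)
    funext y
    show hull P (fun z => X 0 (0, z)) (fun _ z => X 0 (0, z)) y = _
    rw [h0]
    rfl
  | succ e ih =>
    rw [FE_succ, FE_succ]
    have e1 : (e + 1) * P.K = e * P.K + P.K := Nat.succ_mul _ _
    refine FNext_congr P (ih fun l hl => h l (by omega)) fun i hi => ?_
    funext κ z
    rw [h (idx P e i) (by unfold idx; omega)]

theorem FE_lo {X : ℕ → ℕ × St → ℕ} {e l : ℕ} (h : 1 + e * P.K ≤ l) :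
    FE P (lo l X) e = FE P X e :=
  FE_congr P fun i hi => lo_lt (by omega) X

end congr

/-! ### the system -/

variable (leaf : St → Option ℕ) (U : St → RT ℕ)

/-- the algorithm as a system of numbers -/
def sysA : Sys (ℕ × St) where
  U s := U s.2
  lane l X s := lanePair P leaf (FE P X ((l - 1) / P.K))
    (fun i κ z => X (idx P ((l - 1) / P.K) i) (κ, z)) ((l - 1) % P.K) s.1 s.2
  adm l X s := adm P (FE P X ((l - 1) / P.K)) s.1 s.2
  alt l X s := FE P X ((l - 1) / P.K) s.2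
  q S := S / P.mX
  G := P.gX
  m := P.mX
  sh s := cdiv (2 ^ s.1) (2 ^ P.nb) + 1

theorem tRT_sysA : (sysA P leaf U).tRT = tapeRT P leaf U := by
  funext l X s
  cases l with
  | zero => rfl
  | succ l =>
    show (if adm P (FE P X ((l + 1 - 1) / P.K)) s.1 s.2 = true then _ else _) =
      numPair P leaf (FE P X ((l + 1 - 1) / P.K)) _ _ _ _
    unfold numPair
    cases h : adm P (FE P X ((l + 1 - 1) / P.K)) s.1 s.2 with
    | true =>
      rw [if_pos rfl, if_neg (by decide)]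
      rfl
    | false =>
      rw [if_neg (by decide), if_pos rfl]
      rfl

/-- **the exact mean** of a lane of rank `k` of epoch `e` at the pair `(κ, z)`, history `X` -/
noncomputable def Rk (M : ℕ) (X : ℕ → ℕ × St → ℕ) (e k κ : ℕ) (z : St) : ℝ :=
  (lanePair P leaf (FE P X e) (fun i κ z => X (idx P e i) (κ, z)) k κ z).Ev M fun a : ℕ => (a : ℝ)

/-- **good history / good tapes** (line (A3) of the SPEC): the numbers of the indices `< Λ`.
`Ω l` = the pairs `(κ, z)` of index `l`, `GU` = what INIT guarantees at its pairs -/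
structure GoodX (M Λ : ℕ) (Ω : ℕ → Finset (ℕ × St)) (GU : ℕ × St → ℕ → Prop)
    (X : ℕ → ℕ × St → ℕ) : Prop where
  init : ∀ s ∈ Ω 0, GU s (X 0 s)
  low : ∀ e k, k < P.K → idx P e k < Λ → ∀ κ z, (κ, z) ∈ Ω (idx P e k) →
    adm P (FE P X e) κ z = true → Rk P leaf M X e k κ z ≤ X (idx P e k) (κ, z)
  up : ∀ e k, k < P.K → idx P e k < Λ → ∀ κ z, (κ, z) ∈ Ω (idx P e k) →
    adm P (FE P X e) κ z = true →
    (X (idx P e k) (κ, z) : ℝ) ≤ Rk P leaf M X e k κ z + 2 * (2 ^ κ / 2 ^ P.nb) + 2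
  bad : ∀ e k, k < P.K → idx P e k < Λ → ∀ κ z, (κ, z) ∈ Ω (idx P e k) →
    adm P (FE P X e) κ z = false → X (idx P e k) (κ, z) = FE P X e z

variable {P leaf U}

theorem idx_div {e k : ℕ} (hk : k < P.K) : (idx P e k - 1) / P.K = e ∧ (idx P e k - 1) % P.K = k := by
  have h1 : idx P e k - 1 = k + e * P.K := by unfold idx; omega
  rw [h1, Nat.add_mul_div_right _ _ (by omega), Nat.add_mul_mod_self_right, Nat.div_eq_of_lt hk,
    Nat.mod_eq_of_lt hk]
  exact ⟨by omega, rfl⟩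

theorem idx_lt {e k E : ℕ} (he : e < E) (hk : k < P.K) : idx P e k < 1 + E * P.K := by
  have h1 : (e + 1) * P.K ≤ E * P.K := Nat.mul_le_mul_right _ he
  have h2 : (e + 1) * P.K = e * P.K + P.K := Nat.succ_mul _ _
  unfold idx
  omega

/-- the ceiling of the shift -/
theorem cdiv_bounds (a : ℕ) {b : ℕ} (hb : 0 < b) :
    (a : ℝ) / b ≤ cdiv a b ∧ (cdiv a b : ℝ) ≤ (a : ℝ) / b + 1 := by
  have h := q_ceil hb
  have e : cdiv a b = (a + b - 1) / b := by unfold cdiv; congr 1; omega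
  rw [e]
  exact ⟨by simpa using h.1 a, h.2 a⟩

/-- a lane does not see the numbers of its own and of higher indices -/
theorem Rk_lo {M : ℕ} {X : ℕ → ℕ × St → ℕ} {e k κ : ℕ} {z : St} (hk : k < P.K) :
    (sysA P leaf U).R M (idx P e k) (lo (idx P e k) X) (κ, z) = Rk P leaf M X e k κ z := by
  show (lanePair P leaf (FE P (lo (idx P e k) X) ((idx P e k - 1) / P.K))
    (fun i κ z => lo (idx P e k) X (idx P ((idx P e k - 1) / P.K) i) (κ, z))
    ((idx P e k - 1) % P.K) κ z).Ev M _ = _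
  rw [(idx_div hk).1, (idx_div hk).2, FE_lo P (by unfold idx; omega)]
  unfold Rk
  rw [lanePair_congr P (X' := fun i κ z => X (idx P e i) (κ, z)) (fun i hi => ?_)]
  funext κ z
  rw [lo_lt (by unfold idx; omega)]

section goodX

variable {M Λ E : ℕ} {Ω : ℕ → Finset (ℕ × St)} {GU : ℕ × St → ℕ → Prop} {X : ℕ → ℕ × St → ℕ}

/-- good events of the generic theorem -/
def GdA (P : Par) (leaf : St → Option ℕ) (U : St → RT ℕ) (M : ℕ) (GU : ℕ × St → ℕ → Prop) :
    ℕ → (ℕ → ℕ × St → ℕ) → ℕ × St → ℕ → Prop :=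
  (sysA P leaf U).Gd M GU (fun s => 2 ^ s.1 / 2 ^ P.nb) 0

theorem adm_lo {e k κ : ℕ} {z : St} (hk : k < P.K) :
    (sysA P leaf U).adm (idx P e k) (lo (idx P e k) X) (κ, z) = adm P (FE P X e) κ z := by
  show adm P (FE P (lo (idx P e k) X) ((idx P e k - 1) / P.K)) κ z = _
  rw [(idx_div hk).1, FE_lo P (by unfold idx; omega)]

/-- the events of the generic theorem give `GoodX` -/
theorem goodX_of_allGood (h : AllGood (Λ + 1) Ω (GdA P leaf U M GU) X) :
    GoodX P leaf M (Λ + 1) Ω GU X where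
  init s hs := Sys.good_init h hs
  low e k hk hl κ z hz ha := by
    have hi : idx P e k = (e * P.K + k) + 1 := by unfold idx; omega
    have h1 := Sys.good_num h (l := e * P.K + k) (by omega) (x := (κ, z)) (by rw [← hi]; exact hz)
    rw [← hi, adm_lo hk] at h1
    have h2 := (h1 ha).1
    rw [Rk_lo hk] at h2
    exact h2
  up e k hk hl κ z hz ha := by
    have hi : idx P e k = (e * P.K + k) + 1 := by unfold idx; omega
    have h1 := Sys.good_num h (l := e * P.K + k) (by omega) (x := (κ, z)) (by rw [← hi]; exact hz)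
    rw [← hi, adm_lo hk] at h1
    have h2 := (h1 ha).2
    rw [Rk_lo hk] at h2
    have h3 : (((sysA P leaf U).sh (κ, z) : ℕ) : ℝ) ≤ 2 ^ κ / 2 ^ P.nb + 1 + 1 := by
      show ((cdiv (2 ^ κ) (2 ^ P.nb) + 1 : ℕ) : ℝ) ≤ _
      have := (cdiv_bounds (2 ^ κ) (Nat.two_pow_pos P.nb)).2
      push_cast at this ⊢
      linarith
    have h4 : (X (idx P e k) (κ, z) : ℝ) ≤ Rk P leaf M X e k κ z + 2 ^ κ / 2 ^ P.nb + 0 +
      (((sysA P leaf U).sh (κ, z) : ℕ) : ℝ) := h2
    linarith
  bad e k hk hl κ z hz ha := by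
    have hi : idx P e k = (e * P.K + k) + 1 := by unfold idx; omega
    have h1 := Sys.good_alt h (l := e * P.K + k) (by omega) (x := (κ, z)) (by rw [← hi]; exact hz)
    rw [← hi, adm_lo hk] at h1
    rw [h1 ha]
    show FE P (lo (idx P e k) X) ((idx P e k - 1) / P.K) z = FE P X e z
    rw [(idx_div hk).1, FE_lo P (by unfold idx; omega)]

theorem GoodX.mono {Λ' : ℕ} (h : GoodX P leaf M Λ Ω GU X) (hΛ : Λ' ≤ Λ) :
    GoodX P leaf M Λ' Ω GU X :=
  ⟨h.init, fun e k hk hl => h.low e k hk (by omega), fun e k hk hl => h.up e k hk (by omega),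
    fun e k hk hl => h.bad e k hk (by omega)⟩

/-- every index `> 0` is the index of a rank of an epoch -/
theorem idx_surj (l : ℕ) : idx P (l / P.K) (l % P.K) = l + 1 := by
  unfold idx
  have := Nat.div_add_mod l P.K
  rw [Nat.mul_comm] at this
  omega

/-- **(A3): `GoodX` holds for the value functions of almost all tapes.**
`hV` = second moment of the lanes for good histories (leaf L7), `hS` = sure number of words,
`hU` = INIT -/
theorem cnt_bad_alg {N T d s : ℕ} (hM : 0 < M) (hN : 0 < N) (hMN : M ∣ N) {o : ℕ → ℕ}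
    {δ₀ v : ℝ} (ρ0 : ℕ → ℕ) (hK : 0 < P.K)
    (hG : P.gX = 12 * s + 1) (hm : 0 < P.mX) (hv : 3 * v * 4 ^ P.nb ≤ P.mX)
    (ho : ∀ l < Λ + 1, o l ≤ o (l + 1)) (hT : o (Λ + 1) ≤ T)
    (hS : ∀ l < Λ + 1, ∀ X, ∀ x ∈ Ω l,
      (tapeRT P leaf U l (lo l X) x).cnt.All M fun y => o l + y.2 ≤ o (l + 1))
    (hδ₀ : 0 ≤ δ₀) (hU : ∀ x ∈ Ω 0, (U x.2).Pr M (fun b => ¬ GU x b) ≤ δ₀)
    (hV : ∀ e k, k < P.K → idx P e k < Λ + 1 → ∀ X, GoodX P leaf M (idx P e k) Ω GU X →
      ∀ κ z, (κ, z) ∈ Ω (idx P e k) → adm P (FE P X e) κ z = true →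
      ((lanePair P leaf (FE P X e) (fun i κ z => X (idx P e i) (κ, z)) k κ z).Ev M
        fun a : ℕ => (a : ℝ) ^ 2) ≤ v * 4 ^ κ) :
    cnt N T d ρ0 (fun ρ => ¬ GoodX P leaf M (Λ + 1) Ω GU
        (Xv M o (res Ω (tapeRT P leaf U)) ρ d)) ≤
      ((Ω 0).card * δ₀ + ∑ l ∈ range Λ, (Ω (l + 1)).card * (1 / 2 : ℝ) ^ s) * (N : ℝ) ^ T := by
  have hq := q_floor hm
  rw [← tRT_sysA] at hS ⊢
  refine le_trans (cnt_mono fun tab h h2 => h (goodX_of_allGood (U := U) h2))
    (Sys.cnt_bad (A := sysA P leaf U) (GU := GU) (c := fun s => 2 ^ s.1 / 2 ^ P.nb) (eL := 1)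
      (eU := 0) hM hN hMN ρ0 hG hm hq.1 hq.2 (fun x => by positivity) (fun x => ?_) ho hT hS hδ₀ hU
      fun l hl X hX x hx ha => ?_)
  · have := (cdiv_bounds (2 ^ x.1) (Nat.two_pow_pos P.nb)).1
    show (2 : ℝ) ^ x.1 / 2 ^ P.nb + 1 ≤ ((cdiv (2 ^ x.1) (2 ^ P.nb) + 1 : ℕ) : ℝ)
    push_cast at this ⊢
    linarith
  · obtain ⟨κ, z⟩ := x
    have hkK : l % P.K < P.K := Nat.mod_lt _ hK
    have hi := idx_surj (P := P) l
    rw [← hi] at hx ha hX ⊢
    rw [adm_lo hkK] at ha
    have hX' : GoodX P leaf M (idx P (l / P.K) (l % P.K)) Ω GU X := by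
      rw [hi]
      rw [hi] at hX
      exact goodX_of_allGood (U := U) hX
    have h1 := hV _ _ hkK (by rw [hi]; omega) X hX' κ z hx ha
    have e1 : (sysA P leaf U).lane (idx P (l / P.K) (l % P.K))
        (lo (idx P (l / P.K) (l % P.K)) X) (κ, z) =
        lanePair P leaf (FE P X (l / P.K)) (fun i κ z => X (idx P (l / P.K) i) (κ, z))
          (l % P.K) κ z := by
      show lanePair P leaf (FE P (lo (idx P (l / P.K) (l % P.K)) X)
          ((idx P (l / P.K) (l % P.K) - 1) / P.K))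
        (fun i κ z => lo (idx P (l / P.K) (l % P.K)) X
          (idx P ((idx P (l / P.K) (l % P.K) - 1) / P.K) i) (κ, z))
        ((idx P (l / P.K) (l % P.K) - 1) % P.K) κ z = _
      rw [(idx_div hkK).1, (idx_div hkK).2, FE_lo P (by unfold idx; omega)]
      refine lanePair_congr P (fun i hi' => ?_) κ z
      funext κ z
      rw [lo_lt (by unfold idx; omega)]
    rw [e1]
    have h2 : (0 : ℝ) < 2 ^ P.nb := by positivity
    have h4 : ((2 : ℝ) ^ κ / 2 ^ P.nb) ^ 2 * 4 ^ P.nb = 4 ^ κ := by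
      rw [div_pow, ← pow_mul, ← pow_mul, show (4 : ℝ) = 2 ^ 2 by norm_num, ← pow_mul, ← pow_mul,
        Nat.mul_comm 2 κ, Nat.mul_comm 2 P.nb]
      field_simp
    have h5 : (0 : ℝ) ≤ ((2 : ℝ) ^ κ / 2 ^ P.nb) ^ 2 := by positivity
    show 3 * _ ≤ ((P.mX : ℕ) : ℝ) * ((2 : ℝ) ^ κ / 2 ^ P.nb) ^ 2
    have h6 : 3 * (v * 4 ^ κ) ≤ (P.mX : ℝ) * ((2 : ℝ) ^ κ / 2 ^ P.nb) ^ 2 := by
      have := mul_le_mul_of_nonneg_right hv h5
      calc 3 * (v * 4 ^ κ) = 3 * v * 4 ^ P.nb * ((2 : ℝ) ^ κ / 2 ^ P.nb) ^ 2 := by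
            rw [← h4]; ring
        _ ≤ _ := this
    linarith

end goodX

end Crest.Agent.R288.Good829
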