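import Crest.Agent.R288.ParB_806

/-!
# R288 leaf [PAR], part C (helper806): all side conditions of the table, `ParOK C h`

`ParOK C h` is true for all large `h`, for EVERY constant `C` (which is used as a factor and as an exponent).
-/

set_option autoImplicit false
set_option maxHeartbeats 200000

open Filter

namespace Crest.Agent.R288.Par806

open Crest.Agent.R288.Asy720

/-- basic comparisons; `C` = factor and exponent -/
structure Base (C h : ℕ) : Prop where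
  W_ge : C ≤ W h
  Mg_ge : C * W h ^ C ≤ Mg h
  Lg_ge : C * W h ^ C * Mg h ^ C ≤ Lg h
  exp_ge : C + C * nn h + C * Mg h ≤ Lg h
  /-- any polynomial in `Lg` is below a power of `2^Mg` -/
  two_Mg : ∀ b ≤ C, C * W h ^ C * Lg h ^ b * Mg h ^ C ≤ 2 ^ ((b + 1) * Mg h)
  KK_ge : C * W h ^ C * Lg h ^ C * Mg h ^ C * 2 ^ (C * nn h + C * Mg h) ≤ KK h
  h_ge : (C * W h ^ C * Lg h ^ C * Mg h ^ C * 2 ^ (C * nn h + C * Mg h)) ^ C ≤ h
  h_le : h ≤ 2 * KK h * (W h ^ 8 * Lg h ^ 3)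
  KK_le : KK h * (W h ^ 8 * Lg h ^ 3) ≤ h
  h_lt : h < 2 ^ Lg h
  Lg_le : Lg h ≤ 2 ^ Mg h
  Mg_le : Mg h ≤ 2 ^ W h
  two_Lg : 2 ^ Lg h ≤ 2 * h
  KK_pos : 0 < KK h

theorem ev_Base (C : ℕ) : ∀ᶠ h : ℕ in atTop, Base C h := by
  have hb : ∀ᶠ h : ℕ in atTop, ∀ b ≤ C, C * W h ^ C * Lg h ^ b * Mg h ^ C ≤ 2 ^ ((b + 1) * Mg h) := by
    have h1 : ∀ᶠ h : ℕ in atTop, ∀ b ∈ Set.Iic C,
        C * W h ^ C * Lg h ^ b * Mg h ^ C ≤ 2 ^ ((b + 1) * Mg h) :=
      (eventually_all_finite (Set.finite_Iic C)).2 fun b _ => ev_le_two_pow_Mg C C b C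
    filter_upwards [h1] with h h2 b hb
    exact h2 b hb
  filter_upwards [ev_le_W C, ev_le_Mg C C, ev_le_Lg C C C, ev_exp_le_Lg C C C, hb,
    ev_le_KK' C C C C C C, ev_pow_le_self C C C C C C C, ev_le_KK, ev_KK_pos,
    eventually_ge_atTop 1] with h a1 a2 a3 a4 a5 a6 a7 a8 a9 a10
  exact ⟨a1, a2, a3, a4, a5, a6, a7, a8, Nat.div_mul_le_self _ _, lt_two_pow_Lg h, Lg_le_two_pow_Mg h,
    Mg_le_two_pow_W h, two_pow_Lg_le a10, a9⟩

/-- all side conditions -/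
structure ParOK (C h : ℕ) : Prop extends Base C h where
  /-- (a) no flags: regret of the calm mode against the wild share -/
  noflag : C * W h ^ 2 * h ≤ gg h * KK h * nn h
  /-- (b) near letters: `h * ln (letters) / (γ K)` -/
  near : C * W h ^ 2 * (h * (pb h + nn h + Lg h + 1)) ≤ gam h * KK h
  /-- (c) oscillation against the clip -/
  osc : C * W h ^ 10 * Lg h ^ 2 * (gam h * gg h * (nn h + 1)) ≤ 2 ^ bb h
  osc' : C * W h ^ 10 * Lg h ^ 2 * (gam h * gg h * (nn h + 1)) * 4 ^ nn h ≤ 2 ^ sb h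
  osc'' : C * W h ^ 10 * Lg h * 4 ^ nn h * 2 ^ bb h ≤ 2 ^ sb h
  /-- (d) mode choice: the calm option -/
  mode : C * W h ^ 2 * (h * um h) ≤ pm h * KK h
  /-- (e) mode choice: the wild option, far progress -/
  far : C * (W h ^ C * Lg h ^ C) * (um h ^ 2 * δi h ^ 2 * 4 ^ sb h * 2 ^ (C * nn h)) ≤ KK h
  farK : KK h ≤ h
  /-- (f) lengths -/
  pb_ge : nb h + 2 * lB h + gI h + lam h + sb h + bb h + C * Lg h + C * nn h ≤ pb h
  nb_ge : lB h + lam h + 2 * sb h + C * Lg h + C * nn h ≤ nb h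
  dl_ge : 2 * lB h + lam h + 2 * sb h + bb h + C * Lg h + C * nn h ≤ dl h
  al_ge : 2 * lB h + lam h + 2 * sb h + bb h + C * Lg h + C * nn h ≤ al h
  lam_ge : 2 * sb h + 2 * bb h + C * Lg h + C * nn h ≤ lam h
  gI_ge : C * Lg h ≤ gI h
  lB_ge : gI h + 4 * Lg h ≤ lB h
  a1_ge : bb h + C ≤ a1 h
  c0_ge : C ≤ c0 h
  EE_ge : 2 * lB h + C * Lg h ≤ EE h
  /-- lengths against `h` -/
  len_le : C * (pb h + EE h + dl h + al h + nb h + lB h + W h * Lg h + nn h) ≤ h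
  nn_le : C * W h * nn h ≤ h
  nn_W : C ≤ nn h
  /-- (h) copies -/
  gJ_ge : C * (pb h + dl h + al h + nn h + Lg h + 1) ≤ gJ h
  mJ_ge : C * W h ^ 10 * Lg h * 4 ^ bb h ≤ mJ h
  gX_ge : C * h ≤ gX h
  mX_ge : C * W h ^ C * h ^ C * 4 ^ nb h ≤ mX h
  /-- copies from above -/
  mJ_le : mJ h ≤ 2 ^ (26 * Mg h)
  gJ_le : gJ h ≤ 2 ^ (2 * Mg h)
  gX_le : gX h ≤ 2 ^ (2 * Lg h)
  mX_le : mX h = 2 ^ (17 * W h * Lg h)
  /-- (g) work -/
  work_drop : (EE h * KK h + C) * (C * W h ^ 4 * Lg h) ≤ h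
  work_win : (II h + C) * (C * Mg h * W h) ≤ h
  /-- heights -/
  II_ge : h ≤ nn h * II h
  II_le : nn h * II h ≤ h + nn h
  II_le' : II h ≤ h

theorem sq_le_of (C h : ℕ) (hp : ParOK C h) : 0 < h := by
  have := hp.h_lt
  have h1 := hp.KK_pos
  have h2 := hp.farK
  omega

theorem ev_noflag (C : ℕ) : ∀ᶠ h : ℕ in atTop, C * W h ^ 2 * h ≤ gg h * KK h * nn h := by
  filter_upwards [ev_Base (2 * C + 1)] with h hb
  have hW := W_pos h
  have hL := Lg_pos h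
  have hM := Mg_pos h
  have e1 := hb.W_ge
  calc C * W h ^ 2 * h ≤ C * W h ^ 2 * (2 * KK h * (W h ^ 8 * Lg h ^ 3)) := by gcongr; exact hb.h_le
    _ = (2 * C) * W h ^ 10 * Lg h ^ 3 * KK h := by ring
    _ ≤ W h * W h ^ 10 * Lg h ^ 3 * KK h := by gcongr; omega
    _ ≤ (W h * W h ^ 10 * Lg h ^ 3 * KK h) * (Mg h * W h ^ 3) := Nat.le_mul_of_pos_right _ (by positivity)
    _ = gg h * KK h * nn h := by unfold gg nn; ring

theorem ev_lin (C : ℕ) : ∀ᶠ h : ℕ in atTop,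
    pb h + dl h + al h + nn h + Lg h + 1 + C ≤ 40 * W h * Lg h := by
  filter_upwards [ev_exp_le_Lg (C + 1) 1 0] with h h1
  have hW := W_pos h
  have h2 : Lg h ≤ W h * Lg h := Nat.le_mul_of_pos_left _ hW
  have e1 : pb h = 16 * (W h * Lg h) := by unfold pb; ring
  have e2 : dl h = 8 * (W h * Lg h) := by unfold dl; ring
  have e3 : al h = 8 * (W h * Lg h) := by unfold al; ring
  have e4 : 40 * W h * Lg h = 40 * (W h * Lg h) := by ring
  rw [e1, e2, e3, e4]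
  omega

theorem ev_near (C : ℕ) : ∀ᶠ h : ℕ in atTop,
    C * W h ^ 2 * (h * (pb h + nn h + Lg h + 1)) ≤ gam h * KK h := by
  filter_upwards [ev_Base (80 * C + 1), ev_lin 0] with h hb h1
  have hW := W_pos h
  have hL := Lg_pos h
  have e1 := hb.W_ge
  have h2 : pb h + nn h + Lg h + 1 ≤ 40 * W h * Lg h := by omega
  calc C * W h ^ 2 * (h * (pb h + nn h + Lg h + 1))
      ≤ C * W h ^ 2 * ((2 * KK h * (W h ^ 8 * Lg h ^ 3)) * (40 * W h * Lg h)) := by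
        gcongr; exact hb.h_le
    _ = (80 * C) * W h ^ 11 * Lg h ^ 4 * KK h := by ring
    _ ≤ W h * W h ^ 11 * Lg h ^ 4 * KK h := by gcongr; omega
    _ ≤ (W h * W h ^ 11 * Lg h ^ 4 * KK h) * W h ^ 2 := Nat.le_mul_of_pos_right _ (by positivity)
    _ = gam h * KK h := by unfold gam; ring

theorem nn_succ_le (h : ℕ) : nn h + 1 ≤ 2 * (Mg h * W h ^ 2) := by
  have h1 : 0 < Mg h * W h ^ 2 := Nat.mul_pos (Mg_pos h) (pow_pos (W_pos h) _)
  unfold nn
  omega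

theorem ev_osc (C : ℕ) : ∀ᶠ h : ℕ in atTop,
    C * W h ^ 10 * Lg h ^ 2 * (gam h * gg h * (nn h + 1)) ≤ 2 ^ bb h := by
  filter_upwards [ev_le_two_pow_Mg (2 * C) 38 9 1] with h h1
  have h2 := nn_succ_le h
  calc C * W h ^ 10 * Lg h ^ 2 * (gam h * gg h * (nn h + 1))
      ≤ C * W h ^ 10 * Lg h ^ 2 * (gam h * gg h * (2 * (Mg h * W h ^ 2))) := by gcongr
    _ = 2 * C * W h ^ 38 * Lg h ^ 9 * Mg h ^ 1 := by unfold gam gg; ring
    _ ≤ 2 ^ ((9 + 1) * Mg h) := h1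
    _ ≤ 2 ^ bb h := Nat.pow_le_pow_right (by norm_num) (by unfold bb; omega)

theorem ev_osc'' (C : ℕ) : ∀ᶠ h : ℕ in atTop,
    C * W h ^ 10 * Lg h * 4 ^ nn h * 2 ^ bb h ≤ 2 ^ sb h := by
  filter_upwards [ev_le_two_pow_Mg C 10 1 0] with h h1
  simp only [pow_zero, mul_one, pow_one] at h1
  have e : (2 : ℕ) ^ sb h = 2 ^ ((1 + 1) * Mg h) * 4 ^ nn h * 2 ^ bb h := by
    have e4 : (4 : ℕ) ^ nn h = 2 ^ (2 * nn h) := by
      rw [show (4 : ℕ) = 2 ^ 2 by norm_num, ← pow_mul]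
    rw [e4, ← pow_add, ← pow_add]
    congr 1
    unfold sb
    ring
  rw [e]
  gcongr

theorem um_le (h : ℕ) : um h ≤ 80 * W h ^ 14 * Lg h ^ 3 * Mg h := by
  have h2 := nn_succ_le h
  unfold um Creg
  calc gg h * (nn h + 1) * (4 * (8 + 2)) ≤ gg h * (2 * (Mg h * W h ^ 2)) * (4 * (8 + 2)) := by gcongr
    _ = 80 * W h ^ 14 * Lg h ^ 3 * Mg h := by unfold gg; ring

theorem ev_mode (C : ℕ) : ∀ᶠ h : ℕ in atTop, C * W h ^ 2 * (h * um h) ≤ pm h * KK h := by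
  filter_upwards [ev_le_KK' (80 * C) 16 3 1 0 0] with h h1
  simp only [pow_one, zero_mul, add_zero, pow_zero, mul_one] at h1
  calc C * W h ^ 2 * (h * um h) ≤ C * W h ^ 2 * (h * (80 * W h ^ 14 * Lg h ^ 3 * Mg h)) := by
        gcongr; exact um_le h
    _ = h * (80 * C * W h ^ 16 * Lg h ^ 3 * Mg h) := by ring
    _ ≤ (h + 1) * KK h := by gcongr; omega

theorem far_alg (C w l m A B u d s : ℕ) (hu : u ≤ 80 * w ^ 14 * l ^ 3 * m) (hd : d = 4 * w ^ 2) (hs : s = A) :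
    C * (w ^ C * l ^ C) * (u ^ 2 * d ^ 2 * s * B) ≤
      C * 102400 * w ^ (C + 32) * l ^ (C + 6) * m ^ 2 * (A * B) := by
  subst hd hs
  have h1 : u ^ 2 ≤ (80 * w ^ 14 * l ^ 3 * m) ^ 2 := Nat.pow_le_pow_left hu 2
  calc C * (w ^ C * l ^ C) * (u ^ 2 * (4 * w ^ 2) ^ 2 * s * B)
      ≤ C * (w ^ C * l ^ C) * ((80 * w ^ 14 * l ^ 3 * m) ^ 2 * (4 * w ^ 2) ^ 2 * s * B) := by gcongr
    _ = C * 102400 * w ^ (C + 32) * l ^ (C + 6) * m ^ 2 * (s * B) := by ring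

theorem ev_far (C : ℕ) : ∀ᶠ h : ℕ in atTop,
    C * (W h ^ C * Lg h ^ C) * (um h ^ 2 * δi h ^ 2 * 4 ^ sb h * 2 ^ (C * nn h)) ≤ KK h := by
  filter_upwards [ev_le_KK' (C * 102400) (C + 32) (C + 6) 2 (C + 4) 28] with h h1
  have e4 : (4 : ℕ) ^ sb h = 2 ^ (4 * nn h + 28 * Mg h) := by
    rw [show (4 : ℕ) = 2 ^ 2 by norm_num, ← pow_mul]
    congr 1
    unfold sb bb
    ring
  have e5 : (2 : ℕ) ^ ((C + 4) * nn h + 28 * Mg h) = 2 ^ (4 * nn h + 28 * Mg h) * 2 ^ (C * nn h) := by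
    rw [← pow_add]
    congr 1
    ring
  rw [e5] at h1
  exact (far_alg C _ _ _ _ _ _ _ _ (um_le h) rfl e4).trans h1

theorem KK_le_h (h : ℕ) : KK h ≤ h := Nat.div_le_self _ _

theorem ev_sb_le (C D : ℕ) : ∀ᶠ h : ℕ in atTop, D * (sb h + bb h + nn h + Mg h) + C ≤ Lg h := by
  filter_upwards [ev_exp_le_Lg C (3 * D) (27 * D)] with h h1
  have e : D * (sb h + bb h + nn h + Mg h) + C = C + 3 * D * nn h + 27 * D * Mg h := by
    unfold sb bb
    ring
  omega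

theorem WL_ge (h C : ℕ) (hC : C ≤ W h) : C * Lg h ≤ W h * Lg h := Nat.mul_le_mul_right _ hC

/-- all the length conditions -/
theorem ev_len (C : ℕ) : ∀ᶠ h : ℕ in atTop,
    nb h + 2 * lB h + gI h + lam h + sb h + bb h + C * Lg h + C * nn h ≤ pb h ∧
    lB h + lam h + 2 * sb h + C * Lg h + C * nn h ≤ nb h ∧
    2 * lB h + lam h + 2 * sb h + bb h + C * Lg h + C * nn h ≤ dl h ∧
    2 * lB h + lam h + 2 * sb h + bb h + C * Lg h + C * nn h ≤ al h ∧
    2 * sb h + 2 * bb h + C * Lg h + C * nn h ≤ lam h ∧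
    C * Lg h ≤ gI h ∧ gI h + 4 * Lg h ≤ lB h ∧ 2 * lB h + C * Lg h ≤ EE h := by
  filter_upwards [ev_sb_le 0 (C + 4), ev_le_W (C + 20)] with h h1 h2
  have a1 := WL_ge h (C + 20) h2
  have e0 : (C + 4) * (sb h + bb h + nn h + Mg h)
      = C * sb h + C * bb h + C * nn h + C * Mg h + 4 * sb h + 4 * bb h + 4 * nn h + 4 * Mg h := by ring
  have e1 : pb h = 16 * (W h * Lg h) := by unfold pb; ring
  have e2 : dl h = 8 * (W h * Lg h) := by unfold dl; ring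
  have e3 : al h = 8 * (W h * Lg h) := by unfold al; ring
  have e4 : nb h = 8 * (W h * Lg h) := by unfold nb; ring
  have e5 : lB h = W h * Lg h + 4 * Lg h := by unfold lB; ring
  have e6 : lam h = W h * Lg h := rfl
  have e7 : gI h = W h * Lg h := rfl
  have e8 : EE h = 4 * (W h * Lg h) + 16 * Lg h := by unfold EE; ring
  have e9 : (C + 20) * Lg h = C * Lg h + 20 * Lg h := by ring
  rw [e1, e2, e3, e4, e5, e6, e7, e8]
  rw [e9] at a1
  rw [e0] at h1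
  generalize W h * Lg h = X at *
  generalize C * Lg h = Y at *
  generalize C * nn h = Z at *
  generalize C * sb h = Z1 at *
  generalize C * bb h = Z2 at *
  generalize C * Mg h = Z3 at *
  refine ⟨?_, ?_, ?_, ?_, ?_, ?_, ?_, ?_⟩ <;> omega

theorem ev_len_le (C : ℕ) : ∀ᶠ h : ℕ in atTop,
    C * (pb h + EE h + dl h + al h + nb h + lB h + W h * Lg h + nn h) ≤ h := by
  filter_upwards [(sm_poly 1 1 0).mul_le (100 * C), ev_sb_le 0 1, ev_le_W 1] with h h1 h2 h3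
  simp only [pow_one, pow_zero, mul_one] at h1
  refine le_trans ?_ h1
  have e1 : pb h = 16 * (W h * Lg h) := by unfold pb; ring
  have e2 : dl h = 8 * (W h * Lg h) := by unfold dl; ring
  have e3 : al h = 8 * (W h * Lg h) := by unfold al; ring
  have e4 : nb h = 8 * (W h * Lg h) := by unfold nb; ring
  have e5 : lB h = W h * Lg h + 4 * Lg h := by unfold lB; ring
  have e8 : EE h = 4 * (W h * Lg h) + 16 * Lg h := by unfold EE; ring
  have a1 := WL_ge h 1 h3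
  have h4 : pb h + EE h + dl h + al h + nb h + lB h + W h * Lg h + nn h ≤ 100 * (W h * Lg h) := by
    rw [e1, e2, e3, e4, e5, e8]
    omega
  calc C * (pb h + EE h + dl h + al h + nb h + lB h + W h * Lg h + nn h)
      ≤ C * (100 * (W h * Lg h)) := Nat.mul_le_mul_left _ h4
    _ = 100 * C * (W h * Lg h) := by ring

theorem ev_copies (C : ℕ) : ∀ᶠ h : ℕ in atTop,
    C * (pb h + dl h + al h + nn h + Lg h + 1) ≤ gJ h ∧ C * W h ^ 10 * Lg h * 4 ^ bb h ≤ mJ h ∧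
    C * h ≤ gX h ∧ C * W h ^ C * h ^ C * 4 ^ nb h ≤ mX h := by
  filter_upwards [ev_lin 0, ev_le_W (40 * C + 2), ev_le_two_pow_Mg C 10 1 0, ev_le_Lg C C 0]
    with h h1 h2 h3 h4
  simp only [pow_zero, mul_one, pow_one] at h3 h4
  refine ⟨?_, ?_, ?_, ?_⟩
  · calc C * (pb h + dl h + al h + nn h + Lg h + 1) ≤ C * (40 * W h * Lg h) :=
        Nat.mul_le_mul_left _ (by omega)
      _ = (40 * C) * W h * Lg h := by ring
      _ ≤ W h * W h * Lg h := by gcongr; omega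
      _ = gJ h := by unfold gJ; ring
  · calc C * W h ^ 10 * Lg h * 4 ^ bb h ≤ 2 ^ ((1 + 1) * Mg h) * 4 ^ bb h := by gcongr
      _ = mJ h := by
        unfold mJ
        rw [pow_add, mul_comm]
        congr 1
        rw [show (4 : ℕ) = 2 ^ 2 by norm_num, ← pow_mul]
  · unfold gX
    gcongr
    omega
  · have e1 : C * W h ^ C ≤ 2 ^ Lg h := h4.trans Nat.lt_two_pow_self.le
    have e2 : h ^ C ≤ 2 ^ (C * Lg h) := by
      calc h ^ C ≤ (2 ^ Lg h) ^ C := Nat.pow_le_pow_left (lt_two_pow_Lg h).le _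
        _ = 2 ^ (C * Lg h) := by rw [← pow_mul, mul_comm]
    have e3 : (4 : ℕ) ^ nb h = 2 ^ (2 * nb h) := by
      rw [show (4 : ℕ) = 2 ^ 2 by norm_num, ← pow_mul]
    calc C * W h ^ C * h ^ C * 4 ^ nb h ≤ 2 ^ Lg h * 2 ^ (C * Lg h) * 2 ^ (2 * nb h) := by
          rw [e3]; gcongr
      _ = 2 ^ (2 * nb h + (C + 1) * Lg h) := by rw [← pow_add, ← pow_add]; congr 1; ring
      _ ≤ mX h := by
        unfold mX
        refine Nat.pow_le_pow_right (by norm_num) ?_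
        gcongr
        omega

theorem ev_copies_le : ∀ᶠ h : ℕ in atTop, mJ h ≤ 2 ^ (26 * Mg h) ∧ gJ h ≤ 2 ^ (2 * Mg h) ∧
    gX h ≤ 2 ^ (2 * Lg h) := by
  filter_upwards [ev_le_two_pow_Mg 1 2 1 0] with h h1
  simp only [pow_zero, mul_one, pow_one, one_mul] at h1
  refine ⟨?_, h1, ?_⟩
  · unfold mJ bb
    rw [show (4 : ℕ) = 2 ^ 2 by norm_num, ← pow_mul]
    exact Nat.pow_le_pow_right (by norm_num) (by omega)
  · unfold gX
    calc W h * h ≤ 2 ^ Lg h * 2 ^ Lg h :=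
          Nat.mul_le_mul ((W_le_Lg h).trans Nat.lt_two_pow_self.le) (lt_two_pow_Lg h).le
      _ = 2 ^ (2 * Lg h) := by rw [← pow_add]; congr 1; ring

theorem ev_nn_le (C : ℕ) : ∀ᶠ h : ℕ in atTop, C * W h * nn h ≤ h := by
  filter_upwards [(sm_poly 3 0 1).mul_le C] with h h1
  simp only [pow_one, pow_zero, mul_one] at h1
  calc C * W h * nn h = C * (W h ^ 3 * Mg h) := by unfold nn; ring
    _ ≤ h := h1

theorem ev_heights : ∀ᶠ h : ℕ in atTop, h ≤ nn h * II h ∧ nn h * II h ≤ h + nn h ∧ II h ≤ h := by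
  filter_upwards [ev_le_Mg 1 1, ev_le_W 2, eventually_ge_atTop 2] with h h1 h2 h0
  have hn : 2 ≤ nn h := by
    unfold nn
    have : 2 ≤ Mg h := by simp at h1; omega
    calc 2 ≤ Mg h := this
      _ ≤ Mg h * W h ^ 2 := Nat.le_mul_of_pos_right _ (pow_pos (W_pos h) _)
  have h3 := Nat.div_add_mod h (nn h)
  have h4 := Nat.mod_lt h (show 0 < nn h by omega)
  have e : nn h * II h = nn h * (h / nn h) + nn h := by unfold II; ring
  refine ⟨by omega, by omega, ?_⟩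
  have h5 : h / nn h ≤ h / 2 := Nat.div_le_div_left hn (by norm_num)
  unfold II
  omega

/-- **all side conditions hold for all large `h`, for every constant** -/
theorem ev_ParOK (C : ℕ) : ∀ᶠ h : ℕ in atTop, ParOK C h := by
  filter_upwards [ev_Base C, ev_noflag C, ev_near C, ev_osc C, ev_osc'' C, ev_mode C, ev_far C,
    ev_len C, ev_len_le C, ev_copies C, ev_copies_le, ev_nn_le C, ev_heights, ev_work C 4 (by norm_num),
    ev_work_window C, ev_le_Mg C 0, ev_le_W C] with h b1 b2 b3 b4 b5 b6 b7 b8 b9 b10 b11 b12 b13 b14 b15 b16 b17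
  simp only [pow_zero, mul_one] at b16
  refine
    { toBase := b1, noflag := b2, near := b3, osc := b4, osc' := ?_, osc'' := b5, mode := b6, far := b7
      farK := KK_le_h h, pb_ge := b8.1, nb_ge := b8.2.1, dl_ge := b8.2.2.1, al_ge := b8.2.2.2.1
      lam_ge := b8.2.2.2.2.1, gI_ge := b8.2.2.2.2.2.1, lB_ge := b8.2.2.2.2.2.2.1
      a1_ge := by unfold a1; omega, c0_ge := b16, EE_ge := b8.2.2.2.2.2.2.2, len_le := b9, nn_le := b12
      nn_W := ?_, gJ_ge := b10.1, mJ_ge := b10.2.1, gX_ge := b10.2.2.1, mX_ge := b10.2.2.2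
      mJ_le := b11.1, gJ_le := b11.2.1, gX_le := b11.2.2, mX_le := ?_
      work_drop := b14, work_win := b15, II_ge := b13.1, II_le := b13.2.1, II_le' := b13.2.2 }
  · calc C * W h ^ 10 * Lg h ^ 2 * (gam h * gg h * (nn h + 1)) * 4 ^ nn h ≤ 2 ^ bb h * 4 ^ nn h := by
          gcongr
      _ = 2 ^ (bb h + 2 * nn h) := by
          rw [show (4 : ℕ) = 2 ^ 2 by norm_num, ← pow_mul, ← pow_add]
      _ ≤ 2 ^ sb h := Nat.pow_le_pow_right (by norm_num) (by unfold sb; omega)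
  · unfold nn
    calc C ≤ W h := b17
      _ ≤ Mg h := W_le_Mg h
      _ ≤ Mg h * W h ^ 2 := Nat.le_mul_of_pos_right _ (pow_pos (W_pos h) _)
  · unfold mX nb
    congr 1
    ring

/-! ### thresholds -/

open Crest.Agent.R288.Top791 Crest.Agent.R288.Front327

/-- threshold form, with the precision -/
theorem exists_ParOK (C : ℕ) :
    ∃ j₀ : ℕ, ∀ L : ℕ, 2 ^ j₀ ≤ L → ParOK C (Nat.clog 2 L) := by
  exact exists_threshold (P := ParOK C) (ev_ParOK C)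

/-- in mode 2 with `km = 4`: `1/ε ≤ W` -/
theorem den_le_W {x y : List ℕ} {ε : ℚ} (hm : Mode2 4 x y ε)
    (hL : 1 ≤ il 3 (Nat.clog 2 (inp x y ε).length)) :
    ε.den ≤ W (Nat.clog 2 (inp x y ε).length) := by
  have h1 := mode2_den_le hm
  rw [slk_eq] at h1
  exact h1.trans ((two_pow_il_succ_le hL).trans (Nat.le_succ _))

end Crest.Agent.R288.Par806
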