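import Crest.Agent.R288.AlgA_45

/-!
# R288 [DOM] (helper20): the finite closed domain of ALG-U

* `InD N I D y`: macro height `≤ I`, number of the block `< N ^ (I - y.i)`, both diagonals in `[-D, D]`;
* `OmS N I D : Finset St` (`mem_OmS`), `card_OmS_le`;
* `OmP N I D K0 : Finset (ℕ × St)` = pairs `(κ, z)` with `κ ≤ K0` (`mem_OmP`), `card_OmP_le`.
-/

set_option autoImplicit false

namespace Crest.Agent.R288.Dom20

open Finset
open Crest.Agent.R288.Alg45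

/-- the domain of states -/
def InD (N I D : ℕ) (y : St) : Prop :=
  y.i ≤ I ∧ y.j < N ^ (I - y.i) ∧ (-(D : ℤ) ≤ y.u ∧ y.u ≤ D) ∧ (-(D : ℤ) ≤ y.v ∧ y.v ≤ D)

instance (N I D : ℕ) (y : St) : Decidable (InD N I D y) := by
  unfold InD; infer_instance

/-- all states of the domain -/
noncomputable def OmS (N I D : ℕ) : Finset St :=
  (((range (I + 1) ×ˢ range (N ^ I + 1)) ×ˢ
    (Finset.Icc (-(D : ℤ)) D ×ˢ Finset.Icc (-(D : ℤ)) D)).image
      fun p => (⟨p.1.1, p.1.2, p.2.1, p.2.2⟩ : St)).filter fun y => InD N I D y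

theorem mem_OmS {N I D : ℕ} (hN : 0 < N) {y : St} : y ∈ OmS N I D ↔ InD N I D y := by
  unfold OmS
  rw [mem_filter, mem_image]
  constructor
  · exact fun h => h.2
  · intro h
    refine ⟨⟨((y.i, y.j), (y.u, y.v)), ?_, rfl⟩, h⟩
    obtain ⟨h1, h2, h3, h4⟩ := h
    have h5 : N ^ (I - y.i) ≤ N ^ I := Nat.pow_le_pow_right hN (Nat.sub_le _ _)
    simp only [mem_product, mem_range, Finset.mem_Icc]
    exact ⟨⟨by omega, by omega⟩, h3, h4⟩

theorem card_OmS_le (N I D : ℕ) :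
    (OmS N I D).card ≤ (I + 1) * (N ^ I + 1) * (2 * D + 1) ^ 2 := by
  unfold OmS
  refine (card_filter_le _ _).trans (card_image_le.trans ?_)
  rw [card_product, card_product, card_product, card_range, card_range, Int.card_Icc]
  have h : ((D : ℤ) + 1 - -(D : ℤ)).toNat = 2 * D + 1 := by omega
  rw [h]
  exact le_of_eq (by ring)

/-- all pairs of the domain -/
noncomputable def OmP (N I D K0 : ℕ) : Finset (ℕ × St) := range (K0 + 1) ×ˢ OmS N I D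

theorem mem_OmP {N I D K0 : ℕ} (hN : 0 < N) {p : ℕ × St} :
    p ∈ OmP N I D K0 ↔ p.1 ≤ K0 ∧ InD N I D p.2 := by
  unfold OmP
  rw [mem_product, mem_range, mem_OmS hN, Nat.lt_succ_iff]

theorem card_OmP_le (N I D K0 : ℕ) :
    (OmP N I D K0).card ≤ (K0 + 1) * ((I + 1) * (N ^ I + 1) * (2 * D + 1) ^ 2) := by
  unfold OmP
  rw [card_product, card_range]
  exact Nat.mul_le_mul_left _ (card_OmS_le N I D)

/-- power form: with `N ^ I ≤ D`, `I + 1 ≤ D` and `K0 + 1 ≤ D` at most `18 D ^ 5` pairs -/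
theorem card_OmP_pow {N I D K0 : ℕ} (h1 : N ^ I ≤ D) (h2 : I + 1 ≤ D) (h3 : K0 + 1 ≤ D) :
    (OmP N I D K0).card ≤ 18 * D ^ 5 := by
  refine (card_OmP_le N I D K0).trans ?_
  have hD : 1 ≤ D := by omega
  have a1 : N ^ I + 1 ≤ 2 * D := by omega
  have a2 : (2 * D + 1) ^ 2 ≤ (3 * D) ^ 2 := Nat.pow_le_pow_left (by omega) 2
  calc (K0 + 1) * ((I + 1) * (N ^ I + 1) * (2 * D + 1) ^ 2)
      ≤ D * (D * (2 * D) * (3 * D) ^ 2) :=
        Nat.mul_le_mul h3 (Nat.mul_le_mul (Nat.mul_le_mul h2 a1) a2)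
    _ = 18 * D ^ 5 := by ring

/-! ### nodes -/

theorem InD.child {N I D : ℕ} {x : St} (h : InD N I D x) (hi : 1 ≤ x.i) {q : ℕ} (hq : q < N)
    {a b : ℤ} (ha : -(D : ℤ) ≤ a ∧ a ≤ D) (hb : -(D : ℤ) ≤ b ∧ b ≤ D) :
    InD N I D ⟨x.i - 1, N * x.j + q, a, b⟩ := by
  obtain ⟨h1, h2, -, -⟩ := h
  refine ⟨by show x.i - 1 ≤ I; omega, ?_, ha, hb⟩
  show N * x.j + q < N ^ (I - (x.i - 1))
  have e : I - (x.i - 1) = (I - x.i) + 1 := by omega
  rw [e, pow_succ]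
  calc N * x.j + q < N * x.j + N := by omega
    _ = N * (x.j + 1) := by ring
    _ ≤ N * N ^ (I - x.i) := Nat.mul_le_mul_left _ h2
    _ = N ^ (I - x.i) * N := by ring

/-- only the diagonals change -/
theorem InD.diag {N I D : ℕ} {x : St} (h : InD N I D x)
    {a b : ℤ} (ha : -(D : ℤ) ≤ a ∧ a ≤ D) (hb : -(D : ℤ) ≤ b ∧ b ≤ D) :
    InD N I D { x with u := a, v := b } := ⟨h.1, h.2.1, ha, hb⟩

/-- the root -/
theorem InD.root {N I D : ℕ} {b : ℤ} (hb : -(D : ℤ) ≤ b ∧ b ≤ D) :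
    InD N I D ⟨I, 0, 0, b⟩ := by
  refine ⟨le_rfl, ?_, ⟨by show -(D : ℤ) ≤ 0; omega, by show (0 : ℤ) ≤ D; omega⟩, hb⟩
  show 0 < N ^ (I - I)
  simp

/-! ### rounding -/

variable (P : Par)

theorem gst_pos (κ : ℕ) : 0 < gst P κ := Nat.two_pow_pos _

theorem gst_dvd {κ H : ℕ} (h : κ ≤ P.pb + H) : gst P κ ∣ 2 ^ H := by
  unfold gst
  exact pow_dvd_pow 2 (by omega)

theorem rd_le (κ : ℕ) (u : ℤ) : rd P κ u ≤ u := by
  unfold rd
  exact Int.ediv_mul_le _ (by have := gst_pos P κ; omega)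

theorem rd_gt (κ : ℕ) (u : ℤ) : u < rd P κ u + gst P κ := by
  unfold rd
  have h := Int.lt_ediv_add_one_mul_self u (b := (gst P κ : ℤ)) (by have := gst_pos P κ; omega)
  linarith

theorem dvd_rd (κ : ℕ) (u : ℤ) : (gst P κ : ℤ) ∣ rd P κ u := by
  unfold rd
  exact dvd_mul_left _ _

theorem rd_of_dvd {κ : ℕ} {u : ℤ} (h : (gst P κ : ℤ) ∣ u) : rd P κ u = u := by
  unfold rd
  exact Int.ediv_mul_cancel h

theorem le_rd {κ : ℕ} {u a : ℤ} (ha : (gst P κ : ℤ) ∣ a) (h : a ≤ u) : a ≤ rd P κ u := by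
  obtain ⟨b, rfl⟩ := ha
  unfold rd
  have hg : (0 : ℤ) < gst P κ := by have := gst_pos P κ; omega
  have h1 : b ≤ u / gst P κ := by
    rw [Int.le_ediv_iff_mul_le hg]
    linarith [mul_comm b (gst P κ : ℤ)]
  calc (gst P κ : ℤ) * b = b * gst P κ := mul_comm _ _
    _ ≤ u / gst P κ * gst P κ := mul_le_mul_of_nonneg_right h1 hg.le

/-- rounding stays in the box -/
theorem rd_box {κ D : ℕ} (hD : gst P κ ∣ D) {u : ℤ} (h : -(D : ℤ) ≤ u ∧ u ≤ D) :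
    -(D : ℤ) ≤ rd P κ u ∧ rd P κ u ≤ D :=
  ⟨le_rd P (by rw [dvd_neg]; exact_mod_cast hD) h.1, (rd_le P κ u).trans h.2⟩

theorem rdn_InD {N I D κ : ℕ} (hD : gst P κ ∣ D) {y : St} (h : InD N I D y) :
    InD N I D (rdn P κ y) := h.diag (rd_box P hD h.2.2.1) (rd_box P hD h.2.2.2)

end Crest.Agent.R288.Dom20
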