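import Crest.Agent.R288.Front_327

/-!
# R288 leaf [Fr], part 2 (helper327): S0433 from the main program only

`top433F`: the literal statement of S0433 from one HL command `main` which in mode `2`
(`x ≠ y`, at most `slk km L` words of `ε`, symbols with at most `slk km L * clog 2 L` bits) ends with
probability `≥ 2/3` within `fuel kf L` with a good answer in variable `0`.
-/

set_option autoImplicit false

namespace Crest.Agent.R288.Front327

open Crest.Agent.R295 Crest.Agent.R295.TopH791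
open Crest.GraphRAM Crest.Agent.R288.Num414 Crest.Agent.R288.Top791 Crest.Agent.R288.Quad235

/-- what is known about an input in mode `2` -/
structure Mode2 (km : ℕ) (x y : List ℕ) (ε : ℚ) : Prop where
  ne : x ≠ y
  short : (ratWords ε).length ≤ slk km (inp x y ε).length
  one_le : 1 ≤ slk km (inp x y ε).length
  small : ∀ s ∈ x ++ y, s < 2 ^ (slk km (inp x y ε).length * Nat.clog 2 (inp x y ε).length)

theorem mode2_of_md {km : ℕ} {x y : List ℕ} {ε : ℚ} (h : md km x y ε = 2) : Mode2 km x y ε :=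
  ⟨(md_two h).1, (md_two h).2.1, (md_two h).2.2.1, (md_two h).2.2.2⟩

/-- **S0433 from the main program.** `j₀` = any threshold. -/
theorem top433F (km kf j₀ : ℕ) (main : HL.Cmd)
    (Hmain : ∀ (a : ℕ) (ε : ℚ), 0 < ε → ε < 1 → ∀ x y, Symb a x y → Mode2 km x y ε →
      2 ^ j₀ ≤ (inp x y ε).length →
      HPR (wl a x y ε) (((inp x y ε).length + 2) ^ 2) main (HL.initState (inp x y ε))
        (fuel kf (inp x y ε).length) (fun s' => GoodD ε x y (s'.reg 0)) (1 / 3)) :
    ∃ P : Crest.WordRAM.Program, ∀ (a : ℕ) (ε : ℚ), 0 < ε → ε < 1 →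
      (∀ x y : List ℕ, (∀ s ∈ x ++ y, s < (x.length + y.length + 2) ^ a) →
        2 / 3 ≤ Crest.WordRAM.probHaltsWith P ((a + 3) * Nat.clog 2 ((stringsInput x y ++ ratWords ε).length + 2))
            (stringsInput x y ++ ratWords ε)
            (fun out => ∃ D : ℕ, out = [D] ∧ editDist x y ≤ D ∧
              (D : ℝ) ≤ (1 + (ε : ℝ)) * editDist x y)) ∧
      (∀ x y : List ℕ, (∀ s ∈ x ++ y, s < (x.length + y.length + 2) ^ a) → x = y →
        ∀ ρ : ℕ → ℕ, ∃ T : ℕ, Crest.WordRAM.HaltsWithin P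
            ((a + 3) * Nat.clog 2 ((stringsInput x y ++ ratWords ε).length + 2)) ρ
            (stringsInput x y ++ ratWords ε) T [0]) ∧
      ∀ δ : ℝ, 0 < δ → ∃ N₀ : ℕ, ∀ x y : List ℕ, N₀ ≤ x.length + y.length →
        (∀ s ∈ x ++ y, s < (x.length + y.length + 2) ^ a) →
        Crest.WordRAM.expectedTime P ((a + 3) * Nat.clog 2 ((stringsInput x y ++ ratWords ε).length + 2))
            (stringsInput x y ++ ratWords ε)
          ≤ ENNReal.ofReal (((x.length + y.length : ℕ) : ℝ) ^ (1 + δ)) := by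
  refine top433 (front km kf) quad main (K₀ := 2) (R₀ := 11)
    (HL.Cmd.ids_mono (by norm_num) (by norm_num) _ (front_ids km kf)) quad_ids (by norm_num)
    (front_det km kf) (md km) (tfr km kf) (fuel kf) j₀ (al_tfr km kf) (al_fuel' kf) (fuel_le kf)
    (md_le km) (md_zero km) (fun a ε _ _ => md_one km a ε) ?_ ?_ ?_
  · intro a ε _ _ x y _ ρ
    refine (front_runs km kf a x y ε ρ).post ?_
    rintro s' ⟨h1, h2⟩
    exact ⟨h1, fun h => h2 (md_two h).1⟩
  · intro a ε _ _ x y _
    refine ⟨_, fun ρ => quad_runs x y (ratWords ε) ?_ ?_⟩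
    · exact Nat.le_succ _
    · have := seventeen_lt a x y ε
      show (inp x y ε).length < 2 ^ wl a x y ε
      omega
  · intro a ε h0 h1 x y hs hm hj
    exact Hmain a ε h0 h1 x y hs (mode2_of_md hm) hj

/-- the same with a fuel `c * (L + 1) * 2 ^ (r * clog L / slk j L) * (clog L + 1) ^ k` for `main` -/
theorem top433G (km j c k r j₀ : ℕ) (hj : 1 ≤ j) (main : HL.Cmd)
    (Hmain : ∀ (a : ℕ) (ε : ℚ), 0 < ε → ε < 1 → ∀ x y, Symb a x y → Mode2 km x y ε →
      2 ^ j₀ ≤ (inp x y ε).length →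
      HPR (wl a x y ε) (((inp x y ε).length + 2) ^ 2) main (HL.initState (inp x y ε))
        (c * ((inp x y ε).length + 1) *
          2 ^ (r * Nat.clog 2 (inp x y ε).length / slk j (inp x y ε).length) *
          (Nat.clog 2 (inp x y ε).length + 1) ^ k) (fun s' => GoodD ε x y (s'.reg 0)) (1 / 3)) :
    ∃ P : Crest.WordRAM.Program, ∀ (a : ℕ) (ε : ℚ), 0 < ε → ε < 1 →
      (∀ x y : List ℕ, (∀ s ∈ x ++ y, s < (x.length + y.length + 2) ^ a) →
        2 / 3 ≤ Crest.WordRAM.probHaltsWith P ((a + 3) * Nat.clog 2 ((stringsInput x y ++ ratWords ε).length + 2))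
            (stringsInput x y ++ ratWords ε)
            (fun out => ∃ D : ℕ, out = [D] ∧ editDist x y ≤ D ∧
              (D : ℝ) ≤ (1 + (ε : ℝ)) * editDist x y)) ∧
      (∀ x y : List ℕ, (∀ s ∈ x ++ y, s < (x.length + y.length + 2) ^ a) → x = y →
        ∀ ρ : ℕ → ℕ, ∃ T : ℕ, Crest.WordRAM.HaltsWithin P
            ((a + 3) * Nat.clog 2 ((stringsInput x y ++ ratWords ε).length + 2)) ρ
            (stringsInput x y ++ ratWords ε) T [0]) ∧
      ∀ δ : ℝ, 0 < δ → ∃ N₀ : ℕ, ∀ x y : List ℕ, N₀ ≤ x.length + y.length →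
        (∀ s ∈ x ++ y, s < (x.length + y.length + 2) ^ a) →
        Crest.WordRAM.expectedTime P ((a + 3) * Nat.clog 2 ((stringsInput x y ++ ratWords ε).length + 2))
            (stringsInput x y ++ ratWords ε)
          ≤ ENNReal.ofReal (((x.length + y.length : ℕ) : ℝ) ^ (1 + δ)) := by
  obtain ⟨N, hN⟩ := Filter.eventually_atTop.1 (ev_fuel hj c k r)
  refine top433F km (j + 1) (max j₀ N) main fun a ε h0 h1 x y hs hm hj' => ?_
  have hN1 : N ≤ (inp x y ε).length := by
    have h2 : N < 2 ^ N := Nat.lt_two_pow_self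
    have h3 : 2 ^ N ≤ 2 ^ max j₀ N := Nat.pow_le_pow_right (by norm_num) (le_max_right _ _)
    omega
  have hj0 : 2 ^ j₀ ≤ (inp x y ε).length :=
    (Nat.pow_le_pow_right (by norm_num) (le_max_left _ _)).trans hj'
  exact (Hmain a ε h0 h1 x y hs hm hj0).mono (hN _ hN1) (fun _ h => h) le_rfl

end Crest.Agent.R288.Front327
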