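import Crest.Agent.R288.ShellB_12
import Crest.Agent.R288.FrontT_327

/-!
# R288, leaf [Sh]: the shell of the main program, part C (helper12)

`top433C`: the literal statement of S0433 from one HL command `core`, which is started only when
`D0 (|x| + |y|) < editDist x y`, in a state `AfterSt` (names table, logarithms, lengths in place),
with the fuel `c (L + 1) 2 ^ (r clog L / slk j L) (clog L + 1) ^ k`.
-/

set_option autoImplicit false

namespace Crest.Agent.R288.Shell12

open Crest.GraphRAM Crest.Agent.R288.Ed Crest.Agent.R295.HL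
open Crest.Agent.R288.Lv Crest.Agent.R288.Top791 Crest.Agent.R288.Front327
open Crest.Agent.R295.TopH791

/-- the standard fuel -/
def fuc (c k r j L : ℕ) : ℕ :=
  c * (L + 1) * 2 ^ (r * Nat.clog 2 L / slk j L) * (Nat.clog 2 L + 1) ^ k

theorem shFuel_add_le (c k r j L : ℕ) :
    shFuel L + fuc c k r j L ≤
      (c + 5000) * (L + 1) * 2 ^ (r * Nat.clog 2 L / slk j L) * (Nat.clog 2 L + 1) ^ (k + 3) := by
  unfold shFuel fuc
  have hT : 1 ≤ 2 ^ (r * Nat.clog 2 L / slk j L) := Nat.one_le_two_pow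
  generalize 2 ^ (r * Nat.clog 2 L / slk j L) = T at hT ⊢
  generalize Nat.clog 2 L = l
  have h1 : (l + 1) ^ 3 ≤ (l + 1) ^ (k + 3) := Nat.pow_le_pow_right (by omega) (by omega)
  have h2 : (l + 1) ^ k ≤ (l + 1) ^ (k + 3) := Nat.pow_le_pow_right (by omega) (by omega)
  have h3 : 5000 * (L + 1) * (l + 1) ^ 3 ≤ 5000 * (L + 1) * T * (l + 1) ^ (k + 3) :=
    Nat.mul_le_mul (Nat.le_mul_of_pos_right _ (by omega)) h1
  have h4 : c * (L + 1) * T * (l + 1) ^ k ≤ c * (L + 1) * T * (l + 1) ^ (k + 3) :=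
    Nat.mul_le_mul_left _ h2
  have e1 : (c + 5000) * (L + 1) * T * (l + 1) ^ (k + 3) =
      c * (L + 1) * T * (l + 1) ^ (k + 3) + 5000 * (L + 1) * T * (l + 1) ^ (k + 3) := by ring
  omega

/-- a long input with a short `ε` has long strings -/
theorem ten_le {km : ℕ} {x y : List ℕ} {ε : ℚ} (hm : Mode2 km x y ε)
    (hL : 2 ^ 6 ≤ (inp x y ε).length) : 10 ≤ x.length + y.length := by
  have h1 := hm.short
  have h2 := slk_le km (inp x y ε).length
  have h3 := inp_length x y ε
  have h4 : 2 * Nat.clog 2 (inp x y ε).length ≤ (inp x y ε).length := by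
    generalize (inp x y ε).length = L at hL ⊢
    have h5 : Nat.clog 2 L ≤ Nat.log 2 L + 1 := by
      rw [Nat.clog_le_iff_le_pow (by norm_num)]
      exact (Nat.lt_pow_succ_log_self (by norm_num) L).le
    have h6 : 6 ≤ Nat.log 2 L := (Nat.le_log_iff_pow_le (by norm_num) (by omega)).2 hL
    have h7 : 2 ^ Nat.log 2 L ≤ L := Nat.pow_log_le_self 2 (by omega)
    generalize Nat.log 2 L = g at h5 h6 h7
    have h8 : 4 * g ≤ 2 ^ g := by
      obtain ⟨t, rfl⟩ := Nat.exists_eq_add_of_le h6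
      clear h5 h6 h7
      induction t with
      | zero => norm_num
      | succ t ih =>
        rw [← add_assoc, pow_succ]
        omega
    omega
  omega

/-- **S0433 from the core** -/
theorem top433C (km j c k r j₀ : ℕ) (hj : 1 ≤ j) (core : Cmd)
    (Hcore : ∀ (a : ℕ) (ε : ℚ), 0 < ε → ε < 1 → ∀ x y, Symb a x y → Mode2 km x y ε →
      2 ^ j₀ ≤ (inp x y ε).length → D0 (x.length + y.length) < editDist x y →
      ∀ s, AfterSt x y (ratWords ε) s →
      HPR (wl a x y ε) (((inp x y ε).length + 2) ^ 2) core s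
        (fuc c k r j (inp x y ε).length) (fun s' => GoodD ε x y (s'.reg 0)) (1 / 3)) :
    ∃ P : Crest.WordRAM.Program, ∀ (a : ℕ) (ε : ℚ), 0 < ε → ε < 1 →
      (∀ x y : List ℕ, (∀ s ∈ x ++ y, s < (x.length + y.length + 2) ^ a) →
        2 / 3 ≤ Crest.WordRAM.probHaltsWith P ((a + 3) * Nat.clog 2 ((stringsInput x y ++ ratWords ε).length + 2))
            (stringsInput x y ++ ratWords ε)
            (fun out => ∃ D : ℕ, out = [D] ∧ editDist x y ≤ D ∧
              (D : ℝ) ≤ (1 + (ε : ℝ)) * editDist x y)) ∧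
      (∀ x y : List ℕ, (∀ s ∈ x ++ y, s < (x.length + y.length + 2) ^ a) → x = y →
        ∀ ρ : ℕ → ℕ, ∃ T : ℕ, Crest.WordRAM.HaltsWithin P
            ((a + 3) * Nat.clog 2 ((stringsInput x y ++ ratWords ε).length + 2)) ρ
            (stringsInput x y ++ ratWords ε) T [0]) ∧
      ∀ δ : ℝ, 0 < δ → ∃ N₀ : ℕ, ∀ x y : List ℕ, N₀ ≤ x.length + y.length →
        (∀ s ∈ x ++ y, s < (x.length + y.length + 2) ^ a) →
        Crest.WordRAM.expectedTime P ((a + 3) * Nat.clog 2 ((stringsInput x y ++ ratWords ε).length + 2))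
            (stringsInput x y ++ ratWords ε)
          ≤ ENNReal.ofReal (((x.length + y.length : ℕ) : ℝ) ^ (1 + δ)) := by
  refine top433G km j (c + 5000) (k + 3) r (max j₀ 6) hj (shell core) ?_
  intro a ε h0 h1 x y hs hm hj'
  have hj0 : 2 ^ j₀ ≤ (inp x y ε).length :=
    (Nat.pow_le_pow_right (by norm_num) (le_max_left _ _)).trans hj'
  have hj6 : 2 ^ 6 ≤ (inp x y ε).length :=
    (Nat.pow_le_pow_right (by norm_num) (le_max_right _ _)).trans hj'
  refine (shell_HPR h0 hs ?_ (ten_le hm hj6) (by norm_num) (fun s hA hD =>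
    Hcore a ε h0 h1 x y hs hm hj0 hD s hA)).mono (shFuel_add_le c k r j _) (fun _ h => h) le_rfl
  intro b hb
  exact lt_of_lt_of_le (hm.small b hb) (Nat.pow_le_pow_right (by norm_num)
    (Nat.mul_le_mul_right _ (slk_le _ _)))

end Crest.Agent.R288.Shell12
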