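import Crest.Agent.R288.Tape_829
import Crest.Agent.R288.ShellC_12

/-!
# R288, [ASM] part A: the final assembly over an abstract algorithm (helper331)

* `Dat`: the data of the algorithm on one input: `Λ` indices, tape offsets `o`, the computations `t`
  (index, lower value functions, argument), the sets `Ω` of arguments, the good values `Gd`, failure
  probabilities `δ`, the output `out` as a function of the value functions.
* `Dat.Prob` ([PROB]): draws, good with high probability. `Dat.G τ`: the tape `τ` is good;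
  `Dat.cnt_G`: almost all tapes are good; `Dat.res τ`: the output on the tape `τ`.
* `Cond`: the side conditions. `Stmt`: the literal S0433.
* `TopForm Run`: machine layer ([TOPPL]): S0433 from "on every good tape the program ends with a
  good result"; `Run x y ε τ r` = "in every machine environment for `x, y, ε` whose tape has the
  contents `τ` the program ends in time with result `r`".
* **`asm`**: TopForm + PROG + ANA + PROB give S0433.
-/

set_option autoImplicit false

namespace Crest.Agent.R288.Asm331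

open Finset Crest.GraphRAM Crest.Agent.R295.Rnd627 Crest.Agent.R288.Bridge331
open Crest.Agent.R295.Prob791 Crest.Agent.R288.Tape829 Crest.Agent.R288.Top791
open Crest.Agent.R288.Shell12 Crest.Agent.R288.Lv Crest.Agent.R288.Ed Crest.Agent.R288.Front327

/-- the algorithm on one input -/
structure Dat where
  /-- arguments of the value functions -/
  σ : Type
  /-- number of indices -/
  Λ : ℕ
  /-- words are read modulo `M` -/
  M : ℕ
  /-- tape `l` = positions `o l, …, o (l + 1) - 1` -/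
  o : ℕ → ℕ
  /-- index `l` as a computation, with the lower value functions as parameter -/
  t : ℕ → (ℕ → σ → ℕ) → σ → RT ℕ
  /-- the arguments at which the values must be good -/
  Ω : ℕ → Finset σ
  /-- good values -/
  Gd : ℕ → (ℕ → σ → ℕ) → σ → ℕ → Prop
  /-- failure probability at one argument -/
  δ : ℕ → ℝ
  /-- the output -/
  out : (ℕ → σ → ℕ) → ℕ

namespace Dat

variable (A : Dat)

/-- the value functions on the tape `τ` -/
def X (τ : ℕ → ℕ) : ℕ → A.σ → ℕ := Xv A.M A.o A.t τ 0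

/-- the output on the tape `τ` -/
def res (τ : ℕ → ℕ) : ℕ := A.out (A.X τ)

/-- the tape `τ` is good -/
def G (τ : ℕ → ℕ) : Prop := AllGood A.Λ A.Ω A.Gd (A.X τ)

/-- **[PROB]** -/
structure Prob : Prop where
  hM : 0 < A.M
  mono : ∀ l < A.Λ, A.o l ≤ A.o (l + 1)
  /-- index `l` draws at most `o (l + 1) - o l` words, for ALL lower functions and arguments -/
  draws : ∀ l < A.Λ, ∀ X x, (A.t l (lo l X) x).cnt.All A.M fun y => A.o l + y.2 ≤ A.o (l + 1)
  nonneg : ∀ l < A.Λ, 0 ≤ A.δ l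
  /-- for good lower functions the value is good with probability at least `1 - δ l` -/
  pr : ∀ l < A.Λ, ∀ X, AllGood l A.Ω A.Gd X → ∀ x ∈ A.Ω l,
    (A.t l (lo l X) x).Pr A.M (fun b => ¬ A.Gd l (lo l X) x b) ≤ A.δ l
  sum : ∑ l ∈ range A.Λ, ((A.Ω l).card : ℝ) * A.δ l ≤ 1 / 3

/-- **[ANA]** everything good implies a good output -/
def Sound (good : ℕ → Prop) : Prop := ∀ X, AllGood A.Λ A.Ω A.Gd X → good (A.out X)

variable {A}

/-- almost all tapes are good -/
theorem cnt_G (h : A.Prob) {N D : ℕ} (hN : 0 < N) (hMN : A.M ∣ N) (hD : A.o A.Λ ≤ D) (T d : ℕ)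
    (ρ0 : ℕ → ℕ) : cnt N (D + T) d ρ0 (fun ρ => ¬ A.G (fun i => ρ (d + i) % A.M)) ≤
      1 / 3 * (N : ℝ) ^ (D + T) := by
  have hmono : ∀ l ≤ A.Λ, ∀ i ≤ l, A.o i ≤ A.o l := by
    intro l
    induction l with
    | zero => intro _ i hi; rw [Nat.le_zero.1 hi]
    | succ l ih =>
      intro hl i hi
      rcases Nat.lt_or_ge i (l + 1) with h1 | h1
      · exact (ih (by omega) i (by omega)).trans (h.mono l (by omega))
      · rw [show i = l + 1 by omega]
  refine le_trans (cnt_mono (E' := fun ρ => ¬ AllGood A.Λ A.Ω A.Gd (Xv A.M A.o A.t ρ d)) ?_) ?_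
  · intro tab h1 h2
    refine h1 (h2.congr fun l hl => ?_)
    refine (Xv_congr (Λ := A.Λ) (T := A.o A.Λ) (fun l hl X x => (h.draws l hl X x).mono fun y hy =>
      hy.trans (hmono A.Λ le_rfl (l + 1) (by omega))) h.hM (fun i _ => ?_) l hl).symm
    rw [Nat.zero_add, Nat.mod_mod]
  · refine (cnt_bad h.hM hN hMN ρ0 h.mono (hD.trans (Nat.le_add_right D T)) h.draws h.nonneg
      h.pr).trans ?_
    exact mul_le_mul_of_nonneg_right h.sum (by positivity)

/-- the output depends only on the words of the tapes, modulo `M` -/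
theorem res_congr (h : A.Prob) (hout : ∀ X Y : ℕ → A.σ → ℕ, (∀ l < A.Λ, X l = Y l) →
    A.out X = A.out Y) {D : ℕ} (hD : A.o A.Λ ≤ D) {τ τ' : ℕ → ℕ}
    (hτ : ∀ i < D, τ' i % A.M = τ i % A.M) : A.res τ' = A.res τ := by
  have hmono : ∀ l ≤ A.Λ, ∀ i ≤ l, A.o i ≤ A.o l := by
    intro l
    induction l with
    | zero => intro _ i hi; rw [Nat.le_zero.1 hi]
    | succ l ih =>
      intro hl i hi
      rcases Nat.lt_or_ge i (l + 1) with h1 | h1
      · exact (ih (by omega) i (by omega)).trans (h.mono l (by omega))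
      · rw [show i = l + 1 by omega]
  refine hout _ _ fun l hl => ?_
  refine Xv_congr (Λ := A.Λ) (T := A.o A.Λ) (fun l hl X x => (h.draws l hl X x).mono fun y hy =>
    hy.trans (hmono A.Λ le_rfl (l + 1) (by omega))) h.hM (fun i hi => ?_) l hl
  rw [Nat.zero_add]
  exact hτ i (by omega)

end Dat

/-- the side conditions -/
structure Cond (km j₀ a : ℕ) (ε : ℚ) (x y : List ℕ) : Prop where
  pos : 0 < ε
  lt : ε < 1
  symb : Symb a x y
  mode : Mode2 km x y ε
  long : 2 ^ j₀ ≤ (inp x y ε).length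
  ten : 10 ≤ x.length + y.length
  far : D0 (x.length + y.length) < editDist x y

theorem Cond.mono {km j₀ j₁ a : ℕ} {ε : ℚ} {x y : List ℕ} (h : Cond km j₁ a ε x y) (hj : j₀ ≤ j₁) :
    Cond km j₀ a ε x y :=
  ⟨h.pos, h.lt, h.symb, h.mode, (Nat.pow_le_pow_right (by norm_num) hj).trans h.long, h.ten, h.far⟩

/-- the literal statement of S0433 -/
def Stmt : Prop :=
    ∃ P : Crest.WordRAM.Program, ∀ (a : ℕ) (ε : ℚ), 0 < ε → ε < 1 →
      (∀ x y : List ℕ, (∀ s ∈ x ++ y, s < (x.length + y.length + 2) ^ a) →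
        2 / 3 ≤ Crest.WordRAM.probHaltsWith P ((a + 3) * Nat.clog 2 ((stringsInput x y ++ ratWords ε).length + 2))
            (stringsInput x y ++ ratWords ε)
            (fun out => ∃ D : ℕ, out = [D] ∧ editDist x y ≤ D ∧
              (D : ℝ) ≤ (1 + (ε : ℝ)) * editDist x y)) ∧
      (∀ x y : List ℕ, (∀ s ∈ x ++ y, s < (x.length + y.length + 2) ^ a) → x = y →
        ∀ ρ : ℕ → ℕ, ∃ T : ℕ, Crest.WordRAM.HaltsWithin P
            ((a + 3) * Nat.clog 2 ((stringsInput x y ++ ratWords ε).length + 2)) ρ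
            (stringsInput x y ++ ratWords ε) T [0]) ∧
      ∀ δ : ℝ, 0 < δ → ∃ N₀ : ℕ, ∀ x y : List ℕ, N₀ ≤ x.length + y.length →
        (∀ s ∈ x ++ y, s < (x.length + y.length + 2) ^ a) →
        Crest.WordRAM.expectedTime P ((a + 3) * Nat.clog 2 ((stringsInput x y ++ ratWords ε).length + 2))
            (stringsInput x y ++ ratWords ε)
          ≤ ENNReal.ofReal (((x.length + y.length : ℕ) : ℝ) ^ (1 + δ))

/-- **machine layer** (`km`, threshold `j₀`): S0433 from a program that ends with a good result on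
every good tape. `W x y ε` = number of bits of a word of the tape, `D x y ε` = length of the tape -/
def TopForm (km j₀ : ℕ) (W D : List ℕ → List ℕ → ℚ → ℕ)
    (Run : List ℕ → List ℕ → ℚ → (ℕ → ℕ) → ℕ → Prop) : Prop :=
  (∀ (a : ℕ) (ε : ℚ) (x y : List ℕ), Cond km j₀ a ε x y → ∃ G : (ℕ → ℕ) → Prop,
    (∀ (T d : ℕ) (ρ0 : ℕ → ℕ), cnt (2 ^ W x y ε) (D x y ε + T) d ρ0
      (fun ρ => ¬ G (fun i => ρ (d + i) % 2 ^ W x y ε)) ≤
        1 / 3 * ((2 ^ W x y ε : ℕ) : ℝ) ^ (D x y ε + T)) ∧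
    ∀ τ : ℕ → ℕ, G τ → ∃ r, Run x y ε τ r ∧ GoodD ε x y r) → Stmt

/-- **ASSEMBLY.** -/
theorem asm (km j₀ : ℕ) (W D : List ℕ → List ℕ → ℚ → ℕ)
    (Run : List ℕ → List ℕ → ℚ → (ℕ → ℕ) → ℕ → Prop) (alg : List ℕ → List ℕ → ℚ → Dat)
    (hTop : TopForm km j₀ W D Run)
    (hM : ∀ x y ε, (alg x y ε).M = 2 ^ W x y ε)
    (hD : ∀ a ε x y, Cond km j₀ a ε x y → (alg x y ε).o (alg x y ε).Λ ≤ D x y ε)
    (hProg : ∀ a ε x y, Cond km j₀ a ε x y → ∀ τ, (alg x y ε).G τ →
      Run x y ε τ ((alg x y ε).res τ))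
    (hAna : ∀ a ε x y, Cond km j₀ a ε x y → (alg x y ε).Sound (GoodD ε x y))
    (hProb : ∀ a ε x y, Cond km j₀ a ε x y → (alg x y ε).Prob) : Stmt := by
  refine hTop fun a ε x y hc => ⟨(alg x y ε).G, fun T d ρ0 => ?_, fun τ hτ =>
    ⟨_, hProg a ε x y hc τ hτ, hAna a ε x y hc _ hτ⟩⟩
  have h1 := Dat.cnt_G (hProb a ε x y hc) (N := 2 ^ W x y ε) (Nat.two_pow_pos _)
    (by rw [hM]) (hD a ε x y hc) T d ρ0
  rw [hM] at h1
  exact_mod_cast h1

end Crest.Agent.R288.Asm331
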