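import Crest.Agent.R288.PltB_365
import Crest.Agent.R288.AsmA_331

/-!
# R288, [TOPPL] (helper365): `topPLT` in the form `TopForm` of `AsmA_331`

`Run x y ε τ r` : in every machine environment for `x, y, ε` whose tape (array `15`) has the
contents `τ`, the PL program ends in time with result `r`.
-/

set_option autoImplicit false

namespace Crest.Agent.R288.PltT365

open Crest.Agent.R295 HL Crest.GraphRAM Crest.Agent.R288.Ed Crest.Agent.R295.Rnd627
open Crest.Agent.R288.Lv Crest.Agent.R288.Top791 Crest.Agent.R288.Front327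
open Crest.Agent.R288.Shell12 Crest.Agent.R288.Bridge331 Crest.Agent.R288.Asm331
open Crest.Agent.R288.Pl726 Crest.Agent.R288.PltB365 Crest.Agent.R295.Prob791
open Crest.Agent.Lib.PT (PTF)

/-- the first environment of the PL program -/
def v0 (x y : List ℕ) (ε : ℚ) : List ℕ :=
  x.length :: y.length :: (inp x y ε).length :: ratWords ε

/-- number of bits of a word of the tape -/
def tapeW (x y : List ℕ) (_ : ℚ) : ℕ := 2 * Nat.size (x.length + y.length)

/-- number of words of the tape -/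
def tapeD (fR : List ℕ → ℕ) (x y : List ℕ) (ε : ℚ) : ℕ := fR (v0 x y ε)

/-- the PL program on the tape `τ` ends in time with result `res` -/
def RunPL (j c k r cS kS rS : ℕ) (fR : List ℕ → ℕ) (pr : List PS) (mn : PS) (x y : List ℕ)
    (ε : ℚ) (τ : ℕ → ℕ) (res : ℕ) : Prop :=
  ∀ pe : PEnv, PIn x y ε pe → pe.S = og cS kS rS j (inp x y ε).length →
    (∀ i < tapeD fR x y ε, pe.O 15 i = τ i % 2 ^ tapeW x y ε) → ∀ i,
    ∃ (u : List ℕ) (t d : ℕ), PEx pe pr mn (v0 x y ε) i u i t d ∧ u.headD 0 = res ∧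
      t ≤ fuc c k r j (inp x y ε).length ∧ d ≤ (inp x y ε).length

/-- **`topPLT` as `TopForm`.** -/
theorem topForm (km j c k r cS kS rS j₀ : ℕ) (hj : 1 ≤ j) (hcS : 4 ≤ cS) (hkS : 1 ≤ kS)
    (fR : List ℕ → ℕ) (hfR : PTF fR) (pr : List PS) (mn : PS)
    (hR2 : ∀ a ε x y, Cond km j₀ a ε x y → tapeD fR x y ε ≤ (x.length + y.length) ^ 2)
    (hRf : ∀ a ε x y, Cond km j₀ a ε x y → tapeD fR x y ε ≤ fuc c k r j (inp x y ε).length) :
    TopForm km j₀ tapeW (tapeD fR) (RunPL j c k r cS kS rS fR pr mn) := by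
  intro H
  refine topPLT km j c k r cS kS rS j₀ hj hcS hkS fR hfR pr mn ?_
  intro a ε h0 h1 x y hs hm hj0 h10 hD
  have hc : Cond km j₀ a ε x y := ⟨h0, h1, hs, hm, hj0, h10, hD⟩
  obtain ⟨G, hG, hrun⟩ := H a ε x y hc
  refine ⟨hR2 a ε x y hc, hRf a ε x y hc, fun τ => G (fun i => τ i % 2 ^ tapeW x y ε), ?_, ?_⟩
  · intro T ρ0
    have := hG T 0 ρ0
    simp only [Nat.zero_add] at this
    exact this
  · intro τ hτ pe h2 h3 h4 i
    obtain ⟨res, h5, h6⟩ := hrun _ hτ
    obtain ⟨u, t, d, h7, h8, h9, h11⟩ := h5 pe h2 h3 (fun i hi => by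
      rw [h4 i hi, Nat.mod_mod]
      rfl) i
    exact ⟨u, t, d, h7, by rw [h8]; exact h6, h9, h11⟩

end Crest.Agent.R288.PltT365
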