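import Crest.Agent.R288.AsmB_331
import Crest.Agent.R288.AlgB_45
import Crest.Agent.R288.Dom_20
import Crest.Agent.R288.PltT_365

/-!
# R288, [ASM] part C: the configuration of one input and the three blocks (helper331)

* `sysU P leaf U : Good829.Sys (ℕ × St)`: the indices of 45's algorithm; `tRT_sysU`: its `tRT` is
  `Alg45.tapeRT`.
* `Cfg`: parameters, leaf values, INIT, tape layout, domain, root. `Cfg.dat : Asm331.Dat`.
* `Cfg.good_num`, `Cfg.good_alt`, `Cfg.good_init`: what a good history says, in 45's names.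
* **`final`**: S0433 from the three blocks `prob_block`, `ana_block`, `prog_block` about a family
  `cfg x y ε : Cfg` (machine layer = 365's `topForm`).
-/

set_option autoImplicit false

namespace Crest.Agent.R288.Asm331

open Finset Crest.GraphRAM Crest.Agent.R295.Rnd627 Crest.Agent.R288.Bridge331
open Crest.Agent.R295.Prob791 Crest.Agent.R288.Tape829 Crest.Agent.R288.Good829
open Crest.Agent.R288.Alg45 Crest.Agent.R288.Dom20 Crest.Agent.R288.Top791
open Crest.Agent.R288.Shell12 Crest.Agent.R288.PltT365 Crest.Agent.R288.Pl726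
open Crest.Agent.Lib.PT (PTF)

/-! ### 45's algorithm as a system of indices -/

/-- epoch and rank of the index `l ≥ 1` -/
def epo (P : Par) (l : ℕ) : ℕ := (l - 1) / P.K
def rnk (P : Par) (l : ℕ) : ℕ := (l - 1) % P.K

/-- the numbers of the ranks of epoch `e` in the history `X` -/
def Xe (P : Par) (X : ℕ → ℕ × St → ℕ) (e : ℕ) : ℕ → ℕ → St → ℕ := fun i κ z => X (idx P e i) (κ, z)

/-- the indices of the algorithm -/
def sysU (P : Par) (leaf : St → Option ℕ) (U : St → RT ℕ) : Sys (ℕ × St) where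
  U := fun s => U s.2
  lane := fun l X s => lanePair P leaf (FE P X (epo P l)) (Xe P X (epo P l)) (rnk P l) s.1 s.2
  adm := fun l X s => adm P (FE P X (epo P l)) s.1 s.2
  alt := fun l X s => FE P X (epo P l) s.2
  q := fun S => S / P.mX
  G := P.gX
  m := P.mX
  sh := fun s => cdiv (2 ^ s.1) (2 ^ P.nb) + 1

theorem tRT_sysU (P : Par) (leaf : St → Option ℕ) (U : St → RT ℕ) :
    (sysU P leaf U).tRT = tapeRT P leaf U := by
  funext l X s
  cases l with
  | zero => rfl
  | succ l =>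
    show (if adm P (FE P X (epo P (l + 1))) s.1 s.2 then _ else _) = _
    unfold tapeRT numPair
    rw [if_neg (Nat.succ_ne_zero l)]
    cases h : adm P (FE P X (epo P (l + 1))) s.1 s.2 with
    | true =>
      have h' : adm P (FE P X ((l + 1 - 1) / P.K)) s.1 s.2 = true := h
      simp only [h', if_true, Bool.true_eq_false, if_false]
      rfl
    | false =>
      have h' : adm P (FE P X ((l + 1 - 1) / P.K)) s.1 s.2 = false := h
      simp only [h', if_true, Bool.false_eq_true, if_false]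
      rfl

/-! ### one input -/

/-- everything on one input -/
structure Cfg where
  /-- parameters -/
  P : Par
  /-- exact values of the cheap states -/
  leaf : St → Option ℕ
  /-- INIT -/
  U : St → RT ℕ
  /-- number of bits of a word of the tape -/
  W : ℕ
  /-- tape offsets -/
  o : ℕ → ℕ
  /-- macro height of the root -/
  I : ℕ
  /-- largest class -/
  K0 : ℕ
  /-- failure probability `2 ^ (-s)` of a number, `δ₀` of INIT -/
  s : ℕ
  δ₀ : ℝ
  /-- good values of INIT -/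
  GU : St → ℕ → Prop
  /-- the root -/
  root : St

namespace Cfg

variable (C : Cfg)

/-- the domain of the pairs -/
noncomputable def Om : ℕ → Finset (ℕ × St) := fun _ => OmP C.P.N C.I C.P.Dm C.K0

/-- deviation of a number of class `κ` -/
noncomputable def dev (s : ℕ × St) : ℝ := (2 : ℝ) ^ s.1 / 2 ^ C.P.nb

/-- the algorithm on this input -/
noncomputable def dat : Dat :=
  ofSys (sysU C.P C.leaf C.U) (C.P.E * C.P.K) (2 ^ C.W) C.o C.Om (fun s b => C.GU s.2 b) C.dev 0
    C.δ₀ C.s (fun X => outNum C.P C.leaf X C.root)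

/-- a good history -/
def Good (X : ℕ → ℕ × St → ℕ) : Prop :=
  AllGood (C.P.E * C.P.K + 1) C.Om
    ((sysU C.P C.leaf C.U).Gd (2 ^ C.W) (fun s b => C.GU s.2 b) C.dev 0) X

/-- **[PROB]** -/
def ProbBlock : Prop := C.dat.Prob

/-- **[ANA]** -/
def AnaBlock (good : ℕ → Prop) : Prop :=
  ∀ X, C.Good X → good (outNum C.P C.leaf X C.root)

theorem sound_iff (good : ℕ → Prop) : C.dat.Sound good ↔ C.AnaBlock good := Iff.rfl

/-- the histories of the tapes -/
noncomputable def X (τ : ℕ → ℕ) : ℕ → ℕ × St → ℕ :=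
  Xv (2 ^ C.W) C.o (res C.Om (sysU C.P C.leaf C.U).tRT) τ 0

theorem G_iff (τ : ℕ → ℕ) : C.dat.G τ ↔ C.Good (C.X τ) := Iff.rfl

theorem res_eq (τ : ℕ → ℕ) : C.dat.res τ = outNum C.P C.leaf (C.X τ) C.root := rfl

variable {C}

theorem mem_Om {l : ℕ} {p : ℕ × St} (h : p ∈ OmP C.P.N C.I C.P.Dm C.K0) : p ∈ C.Om l := h

/-- **the equations of the history of a tape** -/
theorem X_zero (τ : ℕ → ℕ) {s : ℕ × St} (hs : s ∈ OmP C.P.N C.I C.P.Dm C.K0) :
    C.X τ 0 s = (C.U s.2).val (2 ^ C.W) τ (C.o 0) := by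
  have h := Xv_res (M := 2 ^ C.W) (o := C.o) (t := (sysU C.P C.leaf C.U).tRT) (ρ := τ) (d := 0)
    (Ω := C.Om) (l := 0) (mem_Om hs)
  rw [Nat.zero_add] at h
  exact h

theorem X_succ (τ : ℕ → ℕ) {l : ℕ} {s : ℕ × St} (hs : s ∈ OmP C.P.N C.I C.P.Dm C.K0) :
    C.X τ l s = (tapeRT C.P C.leaf C.U l (lo l (C.X τ)) s).val (2 ^ C.W) τ (C.o l) := by
  have h := Xv_res (M := 2 ^ C.W) (o := C.o) (t := (sysU C.P C.leaf C.U).tRT) (ρ := τ) (d := 0)
    (Ω := C.Om) (l := l) (mem_Om hs)
  rw [Nat.zero_add] at h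
  have e1 : (sysU C.P C.leaf C.U).tRT l = tapeRT C.P C.leaf C.U l := by rw [tRT_sysU]
  rw [e1] at h
  exact h

theorem X_out (τ : ℕ → ℕ) {l : ℕ} {s : ℕ × St} (hs : s ∉ OmP C.P.N C.I C.P.Dm C.K0) :
    C.X τ l s = 0 :=
  Xv_res_out (M := 2 ^ C.W) (o := C.o) (t := (sysU C.P C.leaf C.U).tRT) (ρ := τ) (d := 0)
    (Ω := C.Om) (l := l) hs

end Cfg

/-! ### lower indices -/

section index

variable {P : Par}

theorem epo_idx {e k : ℕ} (hk : k < P.K) : epo P (idx P e k) = e := by
  unfold epo idx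
  have hK : 0 < P.K := by omega
  rw [show 1 + e * P.K + k - 1 = k + e * P.K by omega, Nat.add_mul_div_right _ _ hK,
    Nat.div_eq_of_lt hk, Nat.zero_add]

theorem rnk_idx {e k : ℕ} (hk : k < P.K) : rnk P (idx P e k) = k := by
  unfold rnk idx
  rw [show 1 + e * P.K + k - 1 = k + e * P.K by omega, Nat.add_mul_mod_self_right,
    Nat.mod_eq_of_lt hk]

theorem idx_lt {e k : ℕ} (he : e < P.E) (hk : k < P.K) : idx P e k < P.E * P.K + 1 := by
  unfold idx
  have : e * P.K + P.K ≤ P.E * P.K := by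
    calc e * P.K + P.K = (e + 1) * P.K := by ring
      _ ≤ P.E * P.K := Nat.mul_le_mul_right _ he
  omega

theorem idx_lt_idx {e k i : ℕ} (hi : i < k) : idx P e i < idx P e k := by
  unfold idx; omega

/-- the unit function of an epoch reads lower indices only -/
theorem FE_congr {X Y : ℕ → ℕ × St → ℕ} {e : ℕ} (h : ∀ l < 1 + e * P.K, X l = Y l) :
    FE P X e = FE P Y e := by
  induction e with
  | zero =>
    funext y
    show hull P (fun z => X 0 (0, z)) (fun _ z => X 0 (0, z)) y = _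
    rw [h 0 (by omega)]
    rfl
  | succ e ih =>
    have h1 : FE P X e = FE P Y e := ih fun l hl => h l (by
      have : e * P.K ≤ (e + 1) * P.K := Nat.mul_le_mul_right _ (Nat.le_succ e)
      omega)
    funext y
    show FNext P (FE P X e) (fun i κ z => X (idx P e i) (κ, z)) y =
      FNext P (FE P Y e) (fun i κ z => Y (idx P e i) (κ, z)) y
    have h2 : Xbar P (fun i κ z => X (idx P e i) (κ, z)) =
        Xbar P (fun i κ z => Y (idx P e i) (κ, z)) := by
      funext κ z
      unfold Xbar sumR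
      congr 2
      refine List.map_congr_left fun i hi => ?_
      rw [List.mem_range] at hi
      show X (idx P e i) (κ, z) = Y (idx P e i) (κ, z)
      rw [h (idx P e i) (by unfold idx; rw [Nat.add_mul, Nat.one_mul]; omega)]
    unfold FNext
    rw [h1, h2]

/-- the unit function of the epoch of `l`, read from the lower functions only -/
theorem FE_lo {X : ℕ → ℕ × St → ℕ} {e l : ℕ} (h : 1 + e * P.K ≤ l) :
    FE P (lo l X) e = FE P X e :=
  FE_congr fun i hi => lo_lt (by omega) X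

theorem Xe_lo {X : ℕ → ℕ × St → ℕ} {e k i : ℕ} (hi : i < k) :
    Xe P (lo (idx P e k) X) e i = Xe P X e i := by
  funext κ z
  unfold Xe
  rw [lo_lt (idx_lt_idx hi)]

end index

/-! ### what a good history says -/

section good

variable {C : Cfg} {X : ℕ → ℕ × St → ℕ}

/-- the mean of the lane of rank `k` of epoch `e` at a pair, for the history `X` -/
noncomputable def Cfg.R (C : Cfg) (X : ℕ → ℕ × St → ℕ) (e k κ : ℕ) (z : St) : ℝ :=
  (lanePair C.P C.leaf (FE C.P X e) (Xe C.P (lo (idx C.P e k) X) e) k κ z).Ev (2 ^ C.W)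
    fun a : ℕ => (a : ℝ)

theorem Cfg.good_init (h : C.Good X) {s : ℕ × St} (hs : s ∈ OmP C.P.N C.I C.P.Dm C.K0) :
    C.GU s.2 (X 0 s) := Sys.good_init h (x := s) hs

theorem Cfg.good_num (h : C.Good X) {e k κ : ℕ} {z : St} (he : e < C.P.E) (hk : k < C.P.K)
    (hs : (κ, z) ∈ OmP C.P.N C.I C.P.Dm C.K0) (ha : adm C.P (FE C.P X e) κ z = true) :
    C.R X e k κ z ≤ X (idx C.P e k) (κ, z) ∧
      (X (idx C.P e k) (κ, z) : ℝ) ≤ C.R X e k κ z + 2 ^ κ / 2 ^ C.P.nb +
        ((cdiv (2 ^ κ) (2 ^ C.P.nb) : ℕ) + 1) := by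
  have hl : e * C.P.K + k < C.P.E * C.P.K := by
    have := idx_lt (P := C.P) he hk
    unfold idx at this
    omega
  have e1 : idx C.P e k = e * C.P.K + k + 1 := by unfold idx; omega
  have e2 : FE C.P (lo (idx C.P e k) X) e = FE C.P X e := FE_lo (by unfold idx; omega)
  have h1 := Sys.good_num (A := sysU C.P C.leaf C.U) h hl (x := (κ, z)) hs (by
    show adm C.P (FE C.P (lo (e * C.P.K + k + 1) X) (epo C.P (e * C.P.K + k + 1))) κ z = true
    rw [← e1, epo_idx hk, e2]
    exact ha)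
  have e3 : (sysU C.P C.leaf C.U).R (2 ^ C.W) (e * C.P.K + k + 1) (lo (e * C.P.K + k + 1) X) (κ, z) =
      C.R X e k κ z := by
    show (lanePair C.P C.leaf (FE C.P (lo (e * C.P.K + k + 1) X) (epo C.P (e * C.P.K + k + 1)))
      (Xe C.P (lo (e * C.P.K + k + 1) X) (epo C.P (e * C.P.K + k + 1)))
      (rnk C.P (e * C.P.K + k + 1)) κ z).Ev (2 ^ C.W) _ = _
    rw [← e1, epo_idx hk, rnk_idx hk, e2]
    rfl
  rw [e3, ← e1] at h1
  refine ⟨h1.1, h1.2.trans (le_of_eq ?_)⟩
  show C.R X e k κ z + (2 : ℝ) ^ κ / 2 ^ C.P.nb + 0 +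
    ((cdiv (2 ^ κ) (2 ^ C.P.nb) + 1 : ℕ) : ℝ) = _
  push_cast
  ring

theorem Cfg.good_alt (h : C.Good X) {e k κ : ℕ} {z : St} (he : e < C.P.E) (hk : k < C.P.K)
    (hs : (κ, z) ∈ OmP C.P.N C.I C.P.Dm C.K0) (ha : adm C.P (FE C.P X e) κ z = false) :
    X (idx C.P e k) (κ, z) = FE C.P X e z := by
  have hl : e * C.P.K + k < C.P.E * C.P.K := by
    have := idx_lt (P := C.P) he hk
    unfold idx at this
    omega
  have e1 : idx C.P e k = e * C.P.K + k + 1 := by unfold idx; omega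
  have e2 : FE C.P (lo (idx C.P e k) X) e = FE C.P X e := FE_lo (by unfold idx; omega)
  have h1 := Sys.good_alt (A := sysU C.P C.leaf C.U) h hl (x := (κ, z)) hs (by
    show adm C.P (FE C.P (lo (e * C.P.K + k + 1) X) (epo C.P (e * C.P.K + k + 1))) κ z = false
    rw [← e1, epo_idx hk, e2]
    exact ha)
  have e3 : (sysU C.P C.leaf C.U).alt (e * C.P.K + k + 1) (lo (e * C.P.K + k + 1) X) (κ, z) =
      FE C.P X e z := by
    show FE C.P (lo (e * C.P.K + k + 1) X) (epo C.P (e * C.P.K + k + 1)) z = _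
    rw [← e1, epo_idx hk, e2]
  rw [e3, ← e1] at h1
  exact h1

end good

/-! ### the final theorem from the three blocks -/

/-- **S0433 from the three blocks.** -/
theorem final (km j c k r cS kS rS j₀ : ℕ) (hj : 1 ≤ j) (hcS : 4 ≤ cS) (hkS : 1 ≤ kS)
    (fR : List ℕ → ℕ) (hfR : PTF fR) (pr : List PS) (mn : PS)
    (hR2 : ∀ a ε x y, Cond km j₀ a ε x y → tapeD fR x y ε ≤ (x.length + y.length) ^ 2)
    (hRf : ∀ a ε x y, Cond km j₀ a ε x y → tapeD fR x y ε ≤ fuc c k r j (inp x y ε).length)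
    (cfg : List ℕ → List ℕ → ℚ → Cfg) (hW : ∀ x y ε, (cfg x y ε).W = tapeW x y ε)
    (hD : ∀ a ε x y, Cond km j₀ a ε x y →
      (cfg x y ε).o ((cfg x y ε).P.E * (cfg x y ε).P.K + 1) ≤ tapeD fR x y ε)
    (prob_block : ∀ a ε x y, Cond km j₀ a ε x y → (cfg x y ε).ProbBlock)
    (ana_block : ∀ a ε x y, Cond km j₀ a ε x y → (cfg x y ε).AnaBlock (GoodD ε x y))
    (prog_block : ∀ a ε x y, Cond km j₀ a ε x y → ∀ τ, (cfg x y ε).Good ((cfg x y ε).X τ) →
      RunPL j c k r cS kS rS fR pr mn x y ε τ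
        (outNum (cfg x y ε).P (cfg x y ε).leaf ((cfg x y ε).X τ) (cfg x y ε).root)) : Stmt :=
  asm km j₀ tapeW (tapeD fR) (RunPL j c k r cS kS rS fR pr mn) (fun x y ε => (cfg x y ε).dat)
    (topForm km j c k r cS kS rS j₀ hj hcS hkS fR hfR pr mn hR2 hRf)
    (fun x y ε => by show 2 ^ (cfg x y ε).W = _; rw [hW]) hD prog_block ana_block prob_block

end Crest.Agent.R288.Asm331
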