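import Crest.Agent.R288.AsmN_12
import Crest.Agent.R288.AsmC_331

/-!
# R288 (S0433), [ASM] part F (helper12): the final statement from the three blocks, in terms of `Num`

`Blocks`: one family `cfg x y ε : Cfg` (AsmC_331) with the three blocks [PROG], [ANA], [PROB], each only for
inputs with `Num x y ε` (AsmN_12) and `P (hh x y ε)`, `P` an eventual property of the height.
**`stmt_of_blocks`**: `Blocks` give the literal S0433 (`Asm331.final` with one threshold for everything).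
-/

set_option autoImplicit false

namespace Crest.Agent.R288.Asm12

open Filter Crest.GraphRAM
open Crest.Agent.R288.Asm331 Crest.Agent.R288.Top791 Crest.Agent.R288.Front327
open Crest.Agent.R288.Shell12 Crest.Agent.R288.Pl726 Crest.Agent.R288.PltT365
open Crest.Agent.R288.Alg45
open Crest.Agent.Lib.PT (PTF)

/-- **the three blocks** over one family `cfg`, for one PL program -/
structure Blocks (P : ℕ → Prop) (cfg : List ℕ → List ℕ → ℚ → Cfg) (j c k r cS kS rS : ℕ)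
    (fR : List ℕ → ℕ) (pr : List PS) (mn : PS) : Prop where
  /-- bits of a word of the tape -/
  W : ∀ x y ε, (cfg x y ε).W = tapeW x y ε
  /-- [PROG] number of words -/
  words : ∀ x y ε, Num x y ε → P (hh x y ε) →
    (cfg x y ε).o ((cfg x y ε).P.E * (cfg x y ε).P.K + 1) ≤ tapeD fR x y ε
  words_sq : ∀ x y ε, Num x y ε → P (hh x y ε) → tapeD fR x y ε ≤ (x.length + y.length) ^ 2
  words_fuc : ∀ x y ε, Num x y ε → P (hh x y ε) →
    tapeD fR x y ε ≤ fuc c k r j (inp x y ε).length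
  /-- [PROG], only for good tapes -/
  prog : ∀ x y ε, Num x y ε → P (hh x y ε) → ∀ τ, (cfg x y ε).Good ((cfg x y ε).X τ) →
    RunPL j c k r cS kS rS fR pr mn x y ε τ
      (outNum (cfg x y ε).P (cfg x y ε).leaf ((cfg x y ε).X τ) (cfg x y ε).root)
  /-- [ANA] -/
  ana : ∀ x y ε, Num x y ε → P (hh x y ε) → (cfg x y ε).AnaBlock (GoodD ε x y)
  /-- [PROB] -/
  prob : ∀ x y ε, Num x y ε → P (hh x y ε) → (cfg x y ε).ProbBlock

variable {P : ℕ → Prop} {cfg : List ℕ → List ℕ → ℚ → Cfg} {j c k r cS kS rS : ℕ}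
  {fR : List ℕ → ℕ} {pr : List PS} {mn : PS}

/-- **the final statement** -/
theorem stmt_of_blocks (hP : ∀ᶠ h : ℕ in atTop, P h) (hj : 1 ≤ j) (hcS : 4 ≤ cS) (hkS : 1 ≤ kS)
    (hfR : PTF fR) (B : Blocks P cfg j c k r cS kS rS fR pr mn) : Stmt := by
  obtain ⟨j₀, hj₀⟩ := exists_num hP
  refine final 4 j c k r cS kS rS j₀ hj hcS hkS fR hfR pr mn ?_ ?_ cfg B.W ?_ ?_ ?_ ?_
  all_goals
    intro a ε x y hc
    obtain ⟨h1, h2⟩ := hj₀ a ε x y hc
  · exact B.words_sq x y ε h2 h1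
  · exact B.words_fuc x y ε h2 h1
  · exact B.words x y ε h2 h1
  · exact B.prob x y ε h2 h1
  · exact B.ana x y ε h2 h1
  · exact B.prog x y ε h2 h1

/-- **S0433 from blocks**, each block with its own eventual property -/
theorem stmt_of_parts {Pw Pp Pa Pr : ℕ → Prop} (hw : ∀ᶠ h : ℕ in atTop, Pw h)
    (hp : ∀ᶠ h : ℕ in atTop, Pp h) (ha : ∀ᶠ h : ℕ in atTop, Pa h) (hr : ∀ᶠ h : ℕ in atTop, Pr h)
    (hj : 1 ≤ j) (hcS : 4 ≤ cS) (hkS : 1 ≤ kS) (hfR : PTF fR)
    (W : ∀ x y ε, (cfg x y ε).W = tapeW x y ε)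
    (words : ∀ x y ε, Num x y ε → Pw (hh x y ε) →
      (cfg x y ε).o ((cfg x y ε).P.E * (cfg x y ε).P.K + 1) ≤ tapeD fR x y ε ∧
      tapeD fR x y ε ≤ (x.length + y.length) ^ 2 ∧
      tapeD fR x y ε ≤ fuc c k r j (inp x y ε).length)
    (prog : ∀ x y ε, Num x y ε → Pp (hh x y ε) → ∀ τ, (cfg x y ε).Good ((cfg x y ε).X τ) →
      RunPL j c k r cS kS rS fR pr mn x y ε τ
        (outNum (cfg x y ε).P (cfg x y ε).leaf ((cfg x y ε).X τ) (cfg x y ε).root))
    (ana : ∀ x y ε, Num x y ε → Pa (hh x y ε) → (cfg x y ε).AnaBlock (GoodD ε x y))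
    (prob : ∀ x y ε, Num x y ε → Pr (hh x y ε) → (cfg x y ε).ProbBlock) : Stmt := by
  refine stmt_of_blocks (P := fun h => ((Pw h ∧ Pp h) ∧ Pa h) ∧ Pr h)
    (((hw.and hp).and ha).and hr) hj hcS hkS hfR (cfg := cfg) (mn := mn) (pr := pr) (c := c)
    (k := k) (r := r) (rS := rS) ?_
  exact ⟨W, fun x y ε hn h => (words x y ε hn h.1.1.1).1, fun x y ε hn h =>
    (words x y ε hn h.1.1.1).2.1, fun x y ε hn h => (words x y ε hn h.1.1.1).2.2,
    fun x y ε hn h => prog x y ε hn h.1.1.2, fun x y ε hn h => ana x y ε hn h.1.2,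
    fun x y ε hn h => prob x y ε hn h.2⟩

end Crest.Agent.R288.Asm12
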