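import Crest.Agent.R288.Cnt_308
import Crest.Agent.R288.AsmC_331

/-!
# R288, [PROB]/[PROG]: the draw bounds of the configuration (helper308)

* `dr_of_829`: 829's `Dr` (last pointer) from / to the count form of `Cnt_308`.
* **`hS_cfg`**: hypothesis `hS` of `Asm331.ofSys_prob` for `Cfg` (any offsets with
  `o l + (words of index l) ≤ o (l + 1)`), `hS_lin`: offsets `o l = l * S`.
* `S_ge`: closed bound of `S`.
-/

set_option autoImplicit false

namespace Crest.Agent.R288.Cnt308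

open Crest.Agent.R295.Rnd627 Crest.Agent.R288.Alg45 Crest.Agent.R288.Asm331
open Crest.Agent.R288.Dom20 Crest.Agent.R288.Tape829

/-- the two forms of a draw bound -/
theorem dr_of_829 {α : Type} {M A : ℕ} (hM : 0 < M) {t : RT α} :
    Tape829.Dr M t A ↔ Cnt308.Dr M A t := Tape829.dr_iff hM

theorem Dr.all_add {α : Type} {M A a b : ℕ} {t : RT α} (h : Cnt308.Dr M A t) (hab : a + A ≤ b) :
    t.cnt.All M fun y => a + y.2 ≤ b :=
  RT.All.mono h fun y (hy : y.2 ≤ A) => by omega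

/-- words of the index `l` (`wU` words for index `0`) -/
def wI (P : Par) (I wU l : ℕ) : ℕ := if l = 0 then wU else P.gX * P.mX * wd P I

/-- **draw bounds of the configuration** -/
theorem hS_cfg (C : Cfg) {wU : ℕ} (hU : ∀ y : St, y.i ≤ C.I → Cnt308.Dr (2 ^ C.W) wU (C.U y))
    (ho : ∀ l < C.P.E * C.P.K + 1, C.o l + wI C.P C.I wU l ≤ C.o (l + 1)) :
    ∀ l < C.P.E * C.P.K + 1, ∀ X, ∀ x ∈ C.Om l,
      ((sysU C.P C.leaf C.U).tRT l (lo l X) x).cnt.All (2 ^ C.W)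
        fun y => C.o l + y.2 ≤ C.o (l + 1) := by
  intro l hl X x hx
  rw [tRT_sysU]
  have hN : 0 < C.P.N := by unfold Alg45.Par.N; positivity
  have h1 : x.2.i ≤ C.I := ((mem_OmP hN).1 hx).2.1
  exact Dr.all_add (tapeRT_dr' (2 ^ C.W) C.leaf hU l (lo l X) x h1) (ho l hl)

/-- offsets `o l = l * S` -/
theorem hS_lin (C : Cfg) {wU S : ℕ} (hU : ∀ y : St, y.i ≤ C.I → Cnt308.Dr (2 ^ C.W) wU (C.U y))
    (ho : ∀ l, C.o l = l * S) (h0 : wU ≤ S) (h1 : C.P.gX * C.P.mX * wd C.P C.I ≤ S) :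
    ∀ l < C.P.E * C.P.K + 1, ∀ X, ∀ x ∈ C.Om l,
      ((sysU C.P C.leaf C.U).tRT l (lo l X) x).cnt.All (2 ^ C.W)
        fun y => C.o l + y.2 ≤ C.o (l + 1) := by
  refine hS_cfg C hU fun l _ => ?_
  rw [ho, ho, Nat.add_mul, Nat.one_mul]
  unfold wI
  split <;> omega

theorem ho_lin (C : Cfg) {S : ℕ} (ho : ∀ l, C.o l = l * S) :
    ∀ l < C.P.E * C.P.K + 1, C.o l ≤ C.o (l + 1) := by
  intro l _
  rw [ho, ho, Nat.add_mul]
  exact Nat.le_add_right _ _

/-- closed bound of the words of a lane index -/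
theorem S_ge (P : Par) (I : ℕ) :
    P.gX * P.mX * wd P I ≤ P.gX * P.mX * (nA P * (nD P + nB P)) ^ I :=
  Nat.mul_le_mul_left _ (wd_le P I)

/-- explicit bound of the branching: `nA (nD + nB) ≤ 2^n * c` with
`c = nA * ((dl + du + 1) * ((2 r + 5) 2^(c0 + du)))` -/
theorem branch_le (P : Par) : nA P * (nD P + nB P) ≤
    2 ^ P.n * (nA P * ((P.dl + P.du + 1) * ((2 * P.r + 5) * 2 ^ (P.c0 + P.du)))) := by
  have h1 : nD P + nB P ≤ 2 ^ P.n * ((P.dl + P.du + 1) * ((2 * P.r + 5) * 2 ^ (P.c0 + P.du))) := by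
    unfold nD nB Alg45.Par.N
    have h2 : 1 ≤ 2 ^ (P.c0 + P.du) := Nat.one_le_two_pow
    calc 2 ^ P.n * (P.dl + P.du + 1) +
          2 ^ P.n * ((P.dl + P.du + 1) * ((2 * P.r + 4) * 2 ^ (P.c0 + P.du)))
        = 2 ^ P.n * ((P.dl + P.du + 1) * (1 + (2 * P.r + 4) * 2 ^ (P.c0 + P.du))) := by ring
      _ ≤ 2 ^ P.n * ((P.dl + P.du + 1) * ((2 * P.r + 5) * 2 ^ (P.c0 + P.du))) := by
        refine Nat.mul_le_mul_left _ (Nat.mul_le_mul_left _ ?_)
        nlinarith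
  calc nA P * (nD P + nB P) ≤ nA P *
        (2 ^ P.n * ((P.dl + P.du + 1) * ((2 * P.r + 5) * 2 ^ (P.c0 + P.du)))) :=
        Nat.mul_le_mul_left _ h1
    _ = _ := by ring

end Crest.Agent.R288.Cnt308
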