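import Crest.Agent.R288.PgW_155
import Crest.Agent.R288.DrI_308
import Crest.Agent.R288.InitI_772
import Crest.Agent.R288.AsmF_12

/-!
# R288, [WORDS] part B (helper155): the part (words) of `AsmF_12.stmt_of_parts`, and the draw bounds

Offsets `o l = l * nW r h`, `h = hh x y ε`, `fR := fW r`.

* `Pw r h`, `ev_Pw`  : the eventual property of (words)
* **`words_of`**     : the three inequalities of (words) for every `Cfg` with these offsets
* `PwI K r h`, `exists_PwI` : the eventual property of the draw bounds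
* **`draws_of`**     : the hypotheses `ho`, `hS` of `Asm331.ofSys_prob`
-/

set_option autoImplicit false

namespace Crest.Agent.R288.PgW155

open Filter Crest.Agent.R288.Asy720 Crest.Agent.R288.Pl726 Crest.Agent.R288.Shell12
open Crest.Agent.R288.Front327 Crest.Agent.R288.Par806 Crest.Agent.R288.PgG8155
open Crest.Agent.R288.Cnt308 Crest.Agent.R288.Alg45 Crest.Agent.R295.Rnd627
open Crest.Agent.R288.InitN775 Crest.Agent.R288.Asm331 Crest.Agent.R288.Asm12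
open Crest.Agent.R288.PltT365 Crest.Agent.R288.Top791 Crest.Agent.R288.Tape829
open Crest.Agent.R288.Init772

/-- the eventual property of (words) -/
def Pw (r h : ℕ) : Prop :=
  (∀ L : ℕ, Nat.clog 2 L = h → (EE h * KK h + 1) * nW r h ≤ fuc 2 1 r 3 L) ∧
    ∀ L N : ℕ, Nat.clog 2 L = h → L ≤ 4 * N → (EE h * KK h + 1) * nW r h ≤ N ^ 2

theorem ev_Pw (r : ℕ) : ∀ᶠ h : ℕ in atTop, Pw r h := (fW_le_fuc r).and (fW_le_sq r)

theorem tapeD_fW (r : ℕ) (x y : List ℕ) (ε : ℚ) :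
    tapeD (fW r) x y ε = (EE (hh x y ε) * KK (hh x y ε) + 1) * nW r (hh x y ε) := rfl

/-- **(words)** of `AsmF_12.stmt_of_parts`, with `fR := fW r`, `j = 3`, `c = 2`, `k = 1` -/
theorem words_of {r : ℕ} {x y : List ℕ} {ε : ℚ} (hn : Num x y ε) (hw : Pw r (hh x y ε)) (C : Cfg)
    (ho : ∀ l, C.o l = l * nW r (hh x y ε)) (hE : C.P.E = EE (hh x y ε))
    (hK : C.P.K = KK (hh x y ε)) :
    C.o (C.P.E * C.P.K + 1) ≤ tapeD (fW r) x y ε ∧
      tapeD (fW r) x y ε ≤ (x.length + y.length) ^ 2 ∧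
      tapeD (fW r) x y ε ≤ fuc 2 1 r 3 (inp x y ε).length := by
  rw [tapeD_fW]
  refine ⟨by rw [ho, hE, hK], hw.2 _ _ rfl ?_, hw.1 _ rfl⟩
  have h1 := hn.L_le
  have h2 := hn.lt_N
  omega

/-- (words) with a larger fuel -/
theorem words_of' {r c k r' : ℕ} {x y : List ℕ} {ε : ℚ} (hn : Num x y ε) (hw : Pw r (hh x y ε))
    (C : Cfg) (ho : ∀ l, C.o l = l * nW r (hh x y ε)) (hE : C.P.E = EE (hh x y ε))
    (hK : C.P.K = KK (hh x y ε)) (hc : 2 ≤ c) (hk : 1 ≤ k) (hr : r ≤ r') :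
    C.o (C.P.E * C.P.K + 1) ≤ tapeD (fW r) x y ε ∧
      tapeD (fW r) x y ε ≤ (x.length + y.length) ^ 2 ∧
      tapeD (fW r) x y ε ≤ fuc c k r' 3 (inp x y ε).length := by
  obtain ⟨h1, h2, h3⟩ := words_of hn hw C ho hE hK
  exact ⟨h1, h2, h3.trans (fuc_mono hc hk hr _ _)⟩

/-! ### the draw bounds -/

/-- the eventual property of the draw bounds: `nW r h` words are enough for every index -/
def PwI (K r h : ℕ) : Prop := ∀ P : Alg45.Par, Szs K h P → ∀ D m hb : ℕ, D ≤ K * Lg h → m ≠ 0 →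
  m ≤ 2 ^ (K * Lg h) → hb ≤ nn h * II h →
    (hb + 3) * (2 ^ gI h * InitN775.K (par (gI h) D m)) ^ ((hb - 1) / gI h + 1) +
      P.gX * P.mX * wd P (II h) ≤ nW r h

theorem exists_PwI (K : ℕ) : ∃ r : ℕ, ∀ᶠ h : ℕ in atTop, PwI K r h := exists_nW K

/-- words of the number of one state at index `0` -/
theorem iniU_words {K r h D m p M : ℕ} {x y : List ℕ} (hM : 0 < M) (hw : PwI K r h)
    {P : Alg45.Par} (hS : Szs K h P) (hD : D ≤ K * Lg h) (hm0 : m ≠ 0) (hm : m ≤ 2 ^ (K * Lg h))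
    (s : St) (hs : s.i ≤ II h) :
    Cnt308.Dr M (nW r h) (iniU (par (gI h) D m) p x y (nn h) s) := by
  have hg : 1 ≤ gI h := Nat.mul_pos (W_pos h) (Lg_pos h)
  have h1 : Tape829.Dr M (iniU (par (gI h) D m) p x y (nn h) s) ((nn h * s.i + 3) *
      (2 ^ gI h * InitN775.K (par (gI h) D m)) ^ ((nn h * s.i - 1) / gI h + 1)) :=
    (par (gI h) D m).u0_dr' hM hg (show gI h + D + 4 ≤ 2 * D + 11 + Nat.clog 2 (gI h + D + 5) +
      Nat.clog 2 m + gI h by omega) p x y _ _ _ _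
  have h2 := hw P hS D m (nn h * s.i) hD hm0 hm (Nat.mul_le_mul_left _ hs)
  exact (dr_of_829 hM).1 (h1.mono (le_trans (Nat.le_add_right _ _) h2))

/-- **the hypotheses `ho` and `hS` of `Asm331.ofSys_prob`** -/
theorem draws_of {K r h D m p : ℕ} {x y : List ℕ} (C : Cfg) (hw : PwI K r h)
    (hS : Szs K h C.P) (hD : D ≤ K * Lg h) (hm0 : m ≠ 0) (hm : m ≤ 2 ^ (K * Lg h))
    (hI : C.I = II h) (hU : C.U = iniU (par (gI h) D m) p x y (nn h))
    (ho : ∀ l, C.o l = l * nW r h) :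
    (∀ l < C.P.E * C.P.K + 1, C.o l ≤ C.o (l + 1)) ∧
    ∀ l < C.P.E * C.P.K + 1, ∀ X, ∀ x ∈ C.Om l,
      ((sysU C.P C.leaf C.U).tRT l (lo l X) x).cnt.All (2 ^ C.W)
        fun y => C.o l + y.2 ≤ C.o (l + 1) := by
  refine ⟨ho_lin C ho, hS_lin C (wU := nW r h) (S := nW r h) ?_ ho le_rfl ?_⟩
  · intro s hs
    rw [hU]
    exact iniU_words (Nat.two_pow_pos _) hw hS hD hm0 hm s (by rw [← hI]; exact hs)
  · rw [hI]
    exact le_trans (Nat.le_add_left _ _) (hw C.P hS D m 0 hD hm0 hm (Nat.zero_le _))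

end Crest.Agent.R288.PgW155
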