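import Crest.Agent.R288.AsmF_12
import Crest.Agent.R288.ParC_806
import Crest.Agent.R288.ParO_331
import Crest.Agent.R288.InitI_772
import Crest.Agent.R288.LeafO_690
import Crest.Agent.R288.GoodI_829
import Crest.Agent.R288.DomB_20
import Crest.Agent.R288.PgWb_155

/-!
# R288, [ASM] part D: THE configuration of an input and the literal statements of the blocks (helper331)

* `cfgO x y ε : Cfg`: parameters `ParO331.parOf h`, `h = hh x y ε`; leaf = `leafO x y nn 2^lam`;
  INIT = `iniU (par gI DI mI) pI`; tape offsets `o l = l * fW h`, `fW = PgW155.nW rW` (`rW` = the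
  constant of `exists_PwI 200`); root `⟨II h, 0, 0, |y| - |x|⟩`.
* `Ev Q`: `Q x y ε` for all inputs of large height with `Num x y ε`.
* **`ProbStm`**, **`AnaStm`**, **`ProgStm`**: the three blocks. **`stmt_of_stms`**: they give S0433.
* `goodX`: a good history in the form of GoodI_829; facts about the domain and the root.
-/

set_option autoImplicit false

namespace Crest.Agent.R288.Asm331

open Filter Crest.GraphRAM Crest.Agent.R295.Rnd627
open Crest.Agent.R288.Alg45 Crest.Agent.R288.Dom20 Crest.Agent.R288.Top791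
open Crest.Agent.R288.Shell12 Crest.Agent.R288.PltT365 Crest.Agent.R288.Pl726
open Crest.Agent.R288.Par806 Crest.Agent.R288.ParO331 Crest.Agent.R288.Asm12
open Crest.Agent.R288.GSt442 Crest.Agent.R288.Good829
open Crest.Agent.Lib.PT (PTF)

/-- the failure probability of INIT at a state -/
noncomputable def dI (h : ℕ) : ℝ := ((nn h * II h + 3 : ℕ) : ℝ) * (1 / 2) ^ mI h

/-- the constant of the tape offsets -/
noncomputable def rW : ℕ := Classical.choose (PgW155.exists_PwI 200)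

theorem rW_spec : ∀ᶠ h : ℕ in atTop, PgW155.PwI 200 rW h :=
  Classical.choose_spec (PgW155.exists_PwI 200)

/-- words of one index -/
noncomputable def fW (h : ℕ) : ℕ := PgW155.nW rW h

/-- **the configuration of an input** -/
noncomputable def cfgO (x y : List ℕ) (ε : ℚ) : Cfg where
  P := parOf (hh x y ε)
  leaf := LeafO690.leafO x y (nn (hh x y ε)) (2 ^ lam (hh x y ε))
  U := Init772.iniU (InitN775.par (gI (hh x y ε)) (DI (hh x y ε)) (mI (hh x y ε)))
    (pI (hh x y ε)) x y (nn (hh x y ε))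
  W := tapeW x y ε
  o := fun l => l * fW (hh x y ε)
  I := II (hh x y ε)
  K0 := K0O (hh x y ε)
  s := sX (hh x y ε)
  δ₀ := dI (hh x y ε)
  GU := Init772.GdI x y (gI (hh x y ε)) (pI (hh x y ε)) (nn (hh x y ε))
  root := ⟨II (hh x y ε), 0, 0, (y.length : ℤ) - x.length⟩

/-! ### the statements -/

/-- `Q` for all inputs of large height -/
def Ev (Q : List ℕ → List ℕ → ℚ → Prop) : Prop :=
  ∀ᶠ h : ℕ in atTop, ∀ (x y : List ℕ) (ε : ℚ), hh x y ε = h → Num x y ε → Q x y ε

section Ev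

variable {Q R : List ℕ → List ℕ → ℚ → Prop}

theorem Ev.of {P : ℕ → Prop} (hP : ∀ᶠ h : ℕ in atTop, P h)
    (h : ∀ x y ε, Num x y ε → P (hh x y ε) → Q x y ε) : Ev Q := by
  filter_upwards [hP] with n hn x y ε e hN
  exact h x y ε hN (by rw [e]; exact hn)

theorem Ev.and (h1 : Ev Q) (h2 : Ev R) : Ev fun x y ε => Q x y ε ∧ R x y ε := by
  filter_upwards [h1, h2] with n a1 a2 x y ε e hN
  exact ⟨a1 x y ε e hN, a2 x y ε e hN⟩

theorem Ev.mono (h1 : Ev Q) (h : ∀ x y ε, Num x y ε → Q x y ε → R x y ε) : Ev R := by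
  filter_upwards [h1] with n a1 x y ε e hN
  exact h x y ε hN (a1 x y ε e hN)

end Ev

/-- **[PROB]** -/
def ProbStm : Prop := Ev fun x y ε => (cfgO x y ε).ProbBlock

/-- **[ANA]** -/
def AnaStm : Prop := Ev fun x y ε => (cfgO x y ε).AnaBlock (GoodD ε x y)

/-- **[PROG]** : number of words of the tape, and one PL program for all inputs and all good tapes -/
def ProgStm : Prop :=
  ∃ (j c k r cS kS rS : ℕ) (fR : List ℕ → ℕ) (pr : List PS) (mn : PS),
    1 ≤ j ∧ 4 ≤ cS ∧ 1 ≤ kS ∧ PTF fR ∧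
    (Ev fun x y ε => (cfgO x y ε).o ((cfgO x y ε).P.E * (cfgO x y ε).P.K + 1) ≤ tapeD fR x y ε ∧
      tapeD fR x y ε ≤ (x.length + y.length) ^ 2 ∧
      tapeD fR x y ε ≤ fuc c k r j (inp x y ε).length) ∧
    Ev fun x y ε => ∀ τ, (cfgO x y ε).Good ((cfgO x y ε).X τ) →
      RunPL j c k r cS kS rS fR pr mn x y ε τ
        (outNum (cfgO x y ε).P (cfgO x y ε).leaf ((cfgO x y ε).X τ) (cfgO x y ε).root)

/-- **S0433 from the three blocks** -/
theorem stmt_of_stms (h1 : ProbStm) (h2 : AnaStm) (h3 : ProgStm) : Stmt := by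
  obtain ⟨j, c, k, r, cS, kS, rS, fR, pr, mn, hj, hcS, hkS, hfR, hw, hp⟩ := h3
  exact stmt_of_parts (cfg := cfgO) hw hp h2 h1 hj hcS hkS hfR (fun _ _ _ => rfl)
    (fun x y ε hN h => h x y ε rfl hN) (fun x y ε hN h => h x y ε rfl hN)
    (fun x y ε hN h => h x y ε rfl hN) (fun x y ε hN h => h x y ε rfl hN)

/-! ### good histories in the form of GoodI_829 -/

theorem Cfg.Good.goodX {C : Cfg} {X : ℕ → ℕ × St → ℕ} (h : C.Good X) :
    GoodX C.P C.leaf (2 ^ C.W) (C.P.E * C.P.K + 1) C.Om (fun s b => C.GU s.2 b) X :=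
  goodX_of_allGood (U := C.U) h

/-! ### first facts -/

variable {x y : List ℕ} {ε : ℚ}

theorem two_pow_hh_le (hN : Num x y ε) :
    2 ^ hh x y ε ≤ 2 ^ (nn (hh x y ε) * II (hh x y ε)) :=
  Nat.pow_le_pow_right (by norm_num) hN.h_le

theorem x_le_Dm (hN : Num x y ε) : x.length ≤ (cfgO x y ε).P.Dm := by
  have h1 := two_pow_hh_le hN
  have h2 := hN.x_lt
  show x.length ≤ 2 ^ (nn (hh x y ε) * II (hh x y ε) + 1)
  rw [pow_succ]
  omega

theorem y_le_Dm (hN : Num x y ε) : y.length ≤ (cfgO x y ε).P.Dm := by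
  have h1 := two_pow_hh_le hN
  have h2 := hN.y_lt
  show y.length ≤ 2 ^ (nn (hh x y ε) * II (hh x y ε) + 1)
  rw [pow_succ]
  omega

/-- the exact cost -/
theorem exactO (hN : Num x y ε) :
    Exact (cfgO x y ε).P.N (cfgO x y ε).P.Dm (gst x y (nn (hh x y ε))) :=
  exact_gst x y _ (x_le_Dm hN) (y_le_Dm hN)

/-- the cost of the root -/
theorem gst_rootO (hN : Num x y ε) :
    gst x y (nn (hh x y ε)) (cfgO x y ε).root = editDist x y := by
  refine gst_root x y (?_ : x.length ≤ 2 ^ (nn (hh x y ε) * II (hh x y ε)))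
  exact hN.x_lt.le.trans (two_pow_hh_le hN)

/-- the root lies in the domain -/
theorem root_InD (hN : Num x y ε) :
    InD (cfgO x y ε).P.N (cfgO x y ε).I (cfgO x y ε).P.Dm (cfgO x y ε).root := by
  refine InD.root ⟨?_, ?_⟩
  · have := x_le_Dm hN
    omega
  · have := y_le_Dm hN
    omega

/-- the root is expensive: no leaf -/
theorem lam_lt_root (hN : Num x y ε) :
    2 ^ lam (hh x y ε) < gst x y (nn (hh x y ε)) (cfgO x y ε).root := by
  rw [gst_rootO hN]
  exact hN.lam_le.trans_lt hN.far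

theorem II_pos (h : ℕ) : 1 ≤ II h := Nat.le_add_left 1 _

theorem leaf_root (hN : Num x y ε) : (cfgO x y ε).leaf (cfgO x y ε).root = none :=
  LeafO690.leafO_eq_none_iff.2 ⟨lam_lt_root hN, II_pos _⟩

/-- all steps divide `Dm` -/
theorem grdOK_parOf {h : ℕ} (hp : gI h + Lg h + 32 ≤ pb h + 1) :
    GrdOK (parOf h) (K0O h) :=
  grdOK_of_pow (H := nn h * II h + 1) (parOf h) rfl (by
    show K0O h ≤ pb h + (nn h * II h + 1)
    unfold K0O HH
    omega)

theorem ev_grdOK : ∀ᶠ h : ℕ in atTop, GrdOK (parOf h) (K0O h) := by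
  filter_upwards [ev_W_ge 32] with h h1
  refine grdOK_parOf ?_
  have h2 := Lg_pos h
  unfold gI pb
  nlinarith

end Crest.Agent.R288.Asm331
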