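import Crest.Agent.R288.StmA_616
import Crest.Agent.R288.AsmD_331
import Crest.Agent.R288.AnaStart_364
import Crest.Agent.R288.AnaRoot_442

/-!
# R288, [ANA] at the concrete configuration `cfgO x y ε` (helper616)

`Gx x y ε` = exact cost, `C0O h = h ^ 2`, `B0O h = B1 (gI h) h` (364's start factor), `δO h = 1 / (6 W h)`,
`OkO x y ε` = whole domain. Statements of the parts:
* `LipStm` (866: 364's `LipOk`, `ζ ≤ 1/7`), `SoundStm` (548: `G ≤ FE e`), `EpStm aR qR` (330), `NumR aR qR`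
  (895/948).
Proved here: `ownStm` (own pairs), `startU`, `nums`, **`anaStm`** : `Asm331.AnaStm` from these four.
-/

set_option autoImplicit false

namespace Crest.Agent.R288.StmF616

open Filter Finset Crest.GraphRAM Crest.Agent.R288.Alg45
open Crest.Agent.R288.Asm331 Crest.Agent.R288.Asm12 Crest.Agent.R288.Dom20
open Crest.Agent.R288.Par806 Crest.Agent.R288.StmA616 Crest.Agent.R288.Top791
open Crest.Agent.R288.AnaLip364 Crest.Agent.R288.AnaStart364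

/-- exact cost of the input -/
def Gx (x y : List ℕ) (ε : ℚ) : St → ℕ := GSt442.gst x y (nn (hh x y ε))

/-- the additive constant -/
def C0O (h : ℕ) : ℕ := h ^ 2

/-- the start factor -/
noncomputable def B0O (h : ℕ) : ℝ := B1 (gI h) h

/-- the precision of the chain -/
noncomputable def δO (h : ℕ) : ℝ := 1 / (6 * W h)

/-- the domain of the analysis: all states -/
def OkO (x y : List ℕ) (ε : ℚ) (s : St) : Prop :=
  InD (cfgO x y ε).P.N (cfgO x y ε).I (cfgO x y ε).P.Dm s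

/-! ### the statements of the parts of [ANA] -/

/-- Lipschitz parameters (866) -/
def LipStm (ζ : ℕ → ℝ) : Prop := Ev fun x y ε =>
  (∃ p, LipOk (cfgO x y ε) x y (gI (hh x y ε)) p (hh x y ε) (ζ (hh x y ε))) ∧
    ζ (hh x y ε) ≤ 1 / 7

/-- [ANA.N1] (548) -/
def SoundStm : Prop := Ev fun x y ε => ∀ X, (cfgO x y ε).Good X → SoundF (cfgO x y ε) X (Gx x y ε)

/-- [ANA.W6] (330) -/
def EpStm (aR qR : ℕ → ℝ) : Prop := Ev fun x y ε => ∀ X, (cfgO x y ε).Good X →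
  StmA616.Ep (cfgO x y ε) X (Gx x y ε) (C0O (hh x y ε)) (OkO x y ε) (aR (hh x y ε)) (qR (hh x y ε))
    (B0O (hh x y ε))

/-- [ANA.W7] (895/948) the two numbers of the chain -/
def NumR (aR qR : ℕ → ℝ) : Prop := ∀ᶠ h : ℕ in atTop, 1 ≤ aR h ∧ 0 ≤ qR h ∧
  aR h + 5 / (C0O h : ℝ) ≤ 1 + δO h ∧ qR h + 2 / 2 ^ nb h ≤ δO h

/-! ### numbers -/

theorem W_le_lB (h : ℕ) : W h + 4 ≤ lB h := by
  unfold lB
  exact Nat.le_mul_of_pos_right _ (Lg_pos h)

theorem exp_le_lB (h : ℕ) : 6 * W h ≤ 2 ^ (3 * lB h) := by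
  have h2 : ∀ w : ℕ, 6 * w ≤ 2 ^ (3 * (w + 4)) := by
    intro w
    have h3 : w < 2 ^ w := Nat.lt_two_pow_self
    have h4 : 2 ^ (3 * (w + 4)) = 2 ^ w * (2 ^ (2 * w) * 2 ^ 12) := by
      rw [← pow_add, ← pow_add]
      congr 1
      ring
    have h5 : 1 ≤ 2 ^ (2 * w) := Nat.one_le_two_pow
    rw [h4]
    calc 6 * w ≤ 2 ^ w * 6 := by omega
      _ ≤ 2 ^ w * (2 ^ (2 * w) * 2 ^ 12) := Nat.mul_le_mul_left _ (by nlinarith)
  exact (h2 (W h)).trans (Nat.pow_le_pow_right (by norm_num) (by have := W_le_lB h; omega))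

/-- `B₀ ≤ 2 ^ lB` as soon as `32 ≤ h` -/
theorem B1_le {h : ℕ} (hh : 32 ≤ h) : B1 (gI h) h ≤ 2 ^ lB h := by
  have h0 : lB h = gI h + 4 * Lg h := by unfold lB gI; ring
  have hL : h < 2 ^ Lg h := lt_two_pow_Lg h
  have e : 2 ^ lB h = 2 ^ gI h * (2 ^ Lg h * 2 ^ Lg h * (2 ^ Lg h * 2 ^ Lg h)) := by
    rw [h0, ← pow_add, ← pow_add, ← pow_add]
    congr 1
    ring
  have h3 : 32 * 32 * (32 * h) ≤ 2 ^ Lg h * 2 ^ Lg h * (2 ^ Lg h * 2 ^ Lg h) :=
    Nat.mul_le_mul (Nat.mul_le_mul (by omega) (by omega)) (Nat.mul_le_mul (by omega) (by omega))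
  have hg : 1 ≤ 2 ^ gI h := Nat.one_le_two_pow
  rw [e]
  unfold B1
  calc 16 * 2 ^ gI h * h + 8 ≤ 2 ^ gI h * (16 * h + 8) := by nlinarith
    _ ≤ 2 ^ gI h * (2 ^ Lg h * 2 ^ Lg h * (2 ^ Lg h * 2 ^ Lg h)) :=
        Nat.mul_le_mul_left _ (le_trans (by omega) h3)

/-- `B₀ ≤ δ 4 ^ (2 lB)` -/
theorem B0_le {h : ℕ} (hh : 32 ≤ h) : B0O h ≤ δO h * 4 ^ (2 * lB h) := by
  have h1 : (B1 (gI h) h : ℝ) ≤ 2 ^ lB h := by exact_mod_cast B1_le hh
  have h2 : (6 * W h : ℝ) ≤ 2 ^ (3 * lB h) := by exact_mod_cast exp_le_lB h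
  have hW : (0 : ℝ) < 6 * W h := by
    have := W_pos h
    have : (0 : ℝ) < W h := by exact_mod_cast this
    positivity
  unfold B0O δO
  rw [one_div, inv_mul_eq_div, le_div_iff₀ hW]
  calc (B1 (gI h) h : ℝ) * (6 * W h) ≤ 2 ^ lB h * 2 ^ (3 * lB h) :=
        mul_le_mul h1 h2 hW.le (by positivity)
    _ = 4 ^ (2 * lB h) := by
        rw [← pow_add, show (4 : ℝ) = 2 ^ 2 by norm_num, ← pow_mul]
        congr 1
        ring

/-- **the numbers of the chain at `cfgO`** -/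
theorem nums {aR qR : ℕ → ℝ} (hR : NumR aR qR) : Ev fun x y ε =>
    Nums (cfgO x y ε) (C0O (hh x y ε)) (Gx x y ε (cfgO x y ε).root) (aR (hh x y ε))
      (qR (hh x y ε)) (B0O (hh x y ε)) (δO (hh x y ε)) (ε : ℝ) (2 * lB (hh x y ε)) := by
  refine Ev.of (P := fun h => (1 ≤ aR h ∧ 0 ≤ qR h ∧ aR h + 5 / (C0O h : ℝ) ≤ 1 + δO h ∧
      qR h + 2 / 2 ^ nb h ≤ δO h) ∧ 0 < KK h ∧ 32 ≤ h ∧ 6 * h ^ 2 * W h ≤ 2 ^ lam h) ?_ ?_
  · filter_upwards [hR, ev_KK_pos, eventually_ge_atTop 32, AnaRoot442.ev_C0 6 2] with h h1 h2 h3 h4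
    exact ⟨h1, h2, h3, h4⟩
  · rintro x y ε hN ⟨⟨h1, h2, h3, h4⟩, hK, hh, hC⟩
    have hW : (0 : ℝ) < W (Asm12.hh x y ε) := by exact_mod_cast W_pos _
    have hW1 : (1 : ℝ) ≤ W (Asm12.hh x y ε) := by exact_mod_cast W_pos _
    have hδ0 : 0 < δO (Asm12.hh x y ε) := by unfold δO; positivity
    refine
      { K0 := hK
        C0 := by unfold C0O; positivity
        δ0 := hδ0
        δ1 := ?_
        δε := ?_
        a1 := h1
        q0 := h2
        aδ := h3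
        qδ := h4
        B2 := ?_
        Bi := B0_le hh
        iE := ?_
        root := ?_ }
    · unfold δO
      rw [div_le_div_iff₀ (by positivity) (by norm_num)]
      linarith
    · have h5 := hN.eps
      unfold δO
      rw [mul_one_div, div_le_iff₀ (by positivity)]
      linarith
    · unfold B0O B1
      push_cast
      have : (0 : ℝ) ≤ 16 * 2 ^ gI (Asm12.hh x y ε) * (Asm12.hh x y ε : ℝ) := by positivity
      linarith
    · show 2 * (2 * lB (Asm12.hh x y ε)) ≤ EE (Asm12.hh x y ε)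
      unfold EE lB
      exact le_of_eq (by ring)
    · have h6 := AnaRoot442.C0_le hN (c := 6 * C0O (Asm12.hh x y ε))
        (δ := 1 / W (Asm12.hh x y ε)) (by rw [one_div_mul_cancel hW.ne']) (by
          unfold C0O
          exact hC)
      have h7 : Gx x y ε (cfgO x y ε).root = editDist x y := gst_rootO hN
      rw [h7]
      unfold δO
      push_cast at h6
      have h8 : 1 / (6 * (W (Asm12.hh x y ε) : ℝ)) * (editDist x y : ℝ) =
          (1 / W (Asm12.hh x y ε) * editDist x y) / 6 := by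
        field_simp
      rw [h8]
      linarith

/-! ### own pairs, start -/

/-- **own pairs** -/
theorem ownStm {ζ : ℕ → ℝ} (hL : LipStm ζ) (hS : SoundStm) :
    Ev fun x y ε => ∀ X, (cfgO x y ε).Good X → OwnAdm (cfgO x y ε) X (OkO x y ε) := by
  have hpb : Ev fun x y ε => 10 ≤ (cfgO x y ε).P.pb :=
    Ev.of (P := fun h => 10 ≤ pb h)
      (by
        filter_upwards [ev_W_ge 1] with h h1
        have := Lg_pos h
        unfold pb
        nlinarith)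
      fun _ _ _ _ h => h
  have hgr : Ev fun x y ε => GrdOK (cfgO x y ε).P (cfgO x y ε).K0 :=
    Ev.of ev_grdOK fun _ _ _ _ h => h
  refine ((hL.and hS).and (hpb.and hgr)).mono fun x y ε _ h X hX e he s hs => ?_
  obtain ⟨⟨⟨⟨p, h1⟩, h2⟩, h3⟩, h4, h5⟩ := h
  have hc : cls (FE (cfgO x y ε).P X e) s ≤ (cfgO x y ε).K0 :=
    (Nat.le_add_right _ _).trans (cls_le hX h1 e hs)
  exact ⟨hc, h5 _ hc, own_adm hX h1 h2 h4 h5 he.le (h3 X hX e he.le) hs⟩

/-- **start** -/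
theorem startU {ζ : ℕ → ℝ} (hL : LipStm ζ) : Ev fun x y ε =>
    StartU (cfgO x y ε) (Gx x y ε) (C0O (hh x y ε)) (B0O (hh x y ε)) := by
  have hh0 : Ev fun x y ε => 1 ≤ hh x y ε :=
    Ev.of (P := fun h => 1 ≤ h) (eventually_ge_atTop 1) fun _ _ _ _ h => h
  refine (hL.and hh0).mono fun x y ε _ h s w hs hG => ?_
  obtain ⟨⟨⟨p, h1⟩, -⟩, h2⟩ := h
  have h3 : w ≤ B1 (gI (hh x y ε)) (hh x y ε) * (Gx x y ε s + C0O (hh x y ε)) :=
    (h1.GU s w hG).le_gst h1.p4 h1.g1 (hL_of h1 hs) (by unfold C0O; exact Nat.one_le_pow _ _ h2)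
  unfold B0O Vf
  exact_mod_cast h3

/-! ### the block -/

/-- **[ANA]** -/
theorem anaStm {ζ aR qR : ℕ → ℝ} (hL : LipStm ζ) (hS : SoundStm) (hE : EpStm aR qR)
    (hR : NumR aR qR) : AnaStm := by
  refine ((((nums hR).and (startU hL)).and (ownStm hL hS)).and (hS.and hE)).mono
    fun x y ε hN h => ?_
  obtain ⟨⟨⟨h1, h2⟩, h3⟩, h4, h5⟩ := h
  exact ana_block (Ok := OkO x y ε) h1 (fun _ h => h) h2 h4 h3 h5 (root_InD hN) (leaf_root hN)
    (gst_rootO hN)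

end Crest.Agent.R288.StmF616
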