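import Crest.Agent.R288.SoundC_548
import Crest.Agent.R288.StmF_616
import Crest.Agent.R288.LipO_364

/-!
# R288 [SOUND], part D (helper548): (A4) at the concrete configuration `cfgO x y ε`

* `soundIn_of_lip` : the structure `SoundIn` from 364's `LipOk`, `leaf = leafO ..`, grid, numbers;
* **`sndO`** : `SoundIn (cfgO x y ε) (Gx x y ε) ..` for all inputs of large height;
* **`soundStm : StmF616.SoundStm`**.
-/

set_option autoImplicit false

namespace Crest.Agent.R288.SoundD548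

open Filter Finset Crest.GraphRAM Crest.Agent.R288.Alg45
open Crest.Agent.R288.Asm331 Crest.Agent.R288.Asm12 Crest.Agent.R288.Dom20
open Crest.Agent.R288.Par806 Crest.Agent.R288.StmA616 Crest.Agent.R288.Top791
open Crest.Agent.R288.AnaLip364 Crest.Agent.R288.SoundC548 Crest.Agent.R288.StmF616
open Crest.Agent.R288.GSt442 Crest.Agent.R288.LeafO690 Crest.Agent.R288.PltT365

/-- the structure `SoundIn` from `LipOk` -/
theorem soundIn_of_lip {C : Cfg} {x y : List ℕ} {g p L : ℕ} {ζ : ℝ} (hO : LipOk C x y g p L ζ)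
    (hgr : GrdOK C.P C.K0) (hdl : C.P.dl ≤ C.W) (hum : 0 < C.P.um) (hg : 0 < C.P.g)
    (hr : 1 ≤ C.P.r) {Lam : ℕ} (hl : C.leaf = leafO x y C.P.n Lam) :
    SoundIn C (gst x y C.P.n) C.P.Dm where
  E := exact_gst x y C.P.n hO.x_le hO.y_le
  grd := hgr
  dl := hdl
  um := hum
  g := hg
  r := hr
  a2 := by have := hO.a2; omega
  K := hO.K
  leaf := by
    intro s _ c hc
    rw [hl] at hc
    exact (leafO_le hc).1
  bot := by
    intro s _ hi hn
    rw [hl] at hn
    have := (leafO_none hn).2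
    omega
  init := fun s _ w hw => (hO.GU s w hw).gst_le
  init_le := by
    intro s hs w hw
    obtain ⟨h3, h4⟩ := inD_of hs
    have h2 : 2 ^ (C.P.n * s.i + 1) ≤ 2 ^ (C.P.n * C.I + 1) :=
      Nat.pow_le_pow_right (by norm_num) (Nat.succ_le_succ (Nat.mul_le_mul_left _ hs.1))
    have h1 : w < 2 ^ (C.K0 + 1 - C.P.a2) :=
      lt_of_le_of_lt ((GdI_le (hO.GU s w hw) hO.p4 hO.x_le h3 h4).trans (by omega)) hO.top
    have h5 : C.P.a2 ≤ C.K0 := by
      by_contra hc
      have h6 : C.K0 + 1 - C.P.a2 = 0 := by omega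
      have h7 := hO.top
      rw [h6, pow_zero] at h7
      omega
    rcases Nat.eq_zero_or_pos w with h0 | h0
    · rw [h0, Nat.log_zero_right]
      omega
    · have := Nat.log_lt_of_lt_pow h0.ne' h1
      omega

theorem gg_pos' (h : ℕ) : 0 < gg h := by
  unfold gg
  exact Nat.mul_pos (pow_pos (W_pos h) _) (pow_pos (Lg_pos h) _)

theorem um_pos' (h : ℕ) : 0 < um h := by
  unfold um
  exact Nat.mul_pos (Nat.mul_pos (gg_pos' h) (Nat.succ_pos _)) (by unfold Creg; norm_num)

/-- **at the concrete configuration** -/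
theorem sndO : Ev fun x y ε => SoundIn (cfgO x y ε) (Gx x y ε) (cfgO x y ε).P.Dm := by
  have h1 : Ev fun x y ε => GrdOK (cfgO x y ε).P (cfgO x y ε).K0 :=
    Ev.of ev_grdOK fun _ _ _ _ h => h
  have h2 : Ev fun x y ε => (cfgO x y ε).P.dl ≤ (cfgO x y ε).W := by
    refine Ev.of (P := fun h => 8 * W h * Lg h ≤ h ∧ 2 ≤ h) ?_ ?_
    · filter_upwards [ev_pow_le_self 8 1 1 0 0 0 1, eventually_ge_atTop 2] with h h1 h2
      refine ⟨?_, h2⟩
      simpa using h1
    · rintro x y ε hN ⟨h1, h2⟩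
      have h3 := hN.le_size
      show 8 * W (Asm12.hh x y ε) * Lg (Asm12.hh x y ε) ≤ 2 * Nat.size (x.length + y.length)
      omega
  refine ((LipO364.lipStm.and h1).and h2).mono fun x y ε hN h => ?_
  obtain ⟨⟨⟨⟨p, h3⟩, -⟩, h4⟩, h5⟩ := h
  refine soundIn_of_lip (Lam := 2 ^ lam (hh x y ε)) h3 h4 h5 ?_ ?_ (by show 1 ≤ 40; norm_num) rfl
  · show 0 < um (hh x y ε)
    exact um_pos' _
  · show 0 < gg (hh x y ε)
    exact gg_pos' _

/-- **[ANA.N1]** -/
theorem soundStm : SoundStm :=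
  sndO.mono fun _ _ _ _ S _ hX e he s hs => F_ge S hX e he s hs

end Crest.Agent.R288.SoundD548
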