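import Crest.Agent.R288.StmF_616
import Crest.Agent.R288.LipO_364
import Crest.Agent.R288.SoundD_548

/-!
# R288, [ANA] (helper616): the block from the epoch theorem and the numbers

`LipStm` (364) and `SoundStm` (548) are proved; **`ana_of`** : `Asm331.AnaStm` from `EpStm aR qR` and `NumR aR qR`.
-/

set_option autoImplicit false

namespace Crest.Agent.R288.AnaY616

open Crest.Agent.R288.StmF616

/-- **[ANA] from the epoch theorem and the numbers** -/
theorem ana_of {aR qR : ℕ → ℝ} (hE : EpStm aR qR) (hR : NumR aR qR) : Asm331.AnaStm :=
  anaStm LipO364.lipStm SoundD548.soundStm hE hR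

end Crest.Agent.R288.AnaY616
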