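import Crest.Agent.R288.NumW_895

/-!
# R288, block [ANA] (helper895): composition

* **`epStm : StmF616.EpStm LW.aR LW.qR`** from 974's `win_hyp`, 147's `hypZ`, `NumW895.ev_numW`;
* **`ana_block : Asm331.AnaStm`** = `StmF616.anaStm` at 364's `lipStm`, 734's `soundStm`, `epStm`, `numR`.
-/

set_option autoImplicit false

open Filter

namespace Crest.Agent.R288.AnaZ895

open Crest.Agent.R288.Alg45 Crest.Agent.R288.Asm331 Crest.Agent.R288.Asm12 Crest.Agent.R288.Dom20
open Crest.Agent.R288.Par806 Crest.Agent.R288.StmA616 Crest.Agent.R288.Top791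
open Crest.Agent.R288.StmF616 Crest.Agent.R288.NumW895 Crest.Agent.R288.WinNumG895

/-- the number facts of an epoch at the height `h` -/
structure Nh (h : ℕ) : Prop where
  ep : LW.Ep h
  num : WinHy974.NumW (ParO331.parOf h) (StmF616.C0O h) (2 ^ lam h)
    (StmF616.B0O h) (LipO364.ζO h) (LawN147.eta (ParO331.parOf h) (ParO331.sJ h)) (tW h)
    (WinNumL895.c8O h) (WinNumL895.sO h) (LW.k1 h) (LW.kd0 h)
    (LW.kd1 h) (LW.e4 h) (LW.e50 h) (LW.e51 h) (LW.b1 h) (LW.r1 h) (GcW h)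

theorem ev_Nh : ∀ᶠ h : ℕ in atTop, Nh h := by
  filter_upwards [NumW895.ev_ep, NumW895.ev_numW] with h h1 h2
  exact ⟨h1, h2⟩

/-- **[ANA.W6] at `cfgO`** -/
theorem epStm : StmF616.EpStm LW.aR LW.qR := by
  refine (LawO147.hypZ.and (Ev.of (P := Nh) ev_Nh fun _ _ _ _ h => h)).mono
    fun x y ε _ h X hX => ?_
  obtain ⟨h1, hn⟩ := h
  obtain ⟨p, H⟩ := h1 X hX
  intro e he B hB1 hBB hF hF' z hz
  have hW := WinHy974.win_hyp H (by rfl) hn.num he hB1 hBB (fun z hz => hF z hz) (fun z hz => hF' z hz)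
  have e1 : (((2 ^ lam (hh x y ε) : ℕ) : ℝ)) = WinNumL895.LamO (hh x y ε) := by
    unfold WinNumL895.LamO
    push_cast
    rfl
  unfold WinH330.Win at hW
  rw [e1] at hW
  exact hn.ep.ep hW (by linarith) hBB z hz

/-- **block [ANA]** -/
theorem ana_block : Asm331.AnaStm :=
  StmF616.anaStm LipO364.lipStm (SndO734.soundStm LipO364.lipStm) epStm NumW895.numR

end Crest.Agent.R288.AnaZ895
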