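import Crest.Agent.R288.SmpC_984

/-!
# R288: the same-rank jump (J2 / ARR of post 4533, T4 of post 4636), generic over the body draw

`t : RT β` = ONE joint draw of all BODY tables which a cell may read, `g : β → ι → ℕ` reads the pair
`i : ι` (for instance `ι` = (class, grid state)). An option is `none` (retire, the number `F`) or
`some i` (pay `dst i`, continue with the pair `i`).

* `Ev_comm` : independent draws commute.
* `opt F a o` : price of an option for prices `a : ι → _` of the pairs.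
* `jumpC`, `jumpC'` : the choice `z` is made from the table of estimates (`momTab`), the value is
  read from one fresh copy; `Ev_jump`, `Ev_jump'` : mean = mean of the true price of the choice.
* `le_jump`, `jump_le_stay`, `jump_le` : the law of the arrival value.
* `Ev_jump_sq`, `var_jump` : second moment.
* `selO` : a computable choice with the two properties which are used (`selO_choice`).
* `Cell`, `Cell.arr` : the arrival table of a cell; `Cell.Ok.low`, `le_stay`, `le_pair`, `le_retire`,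
  `lip` : its law; `Cell.sq_eq` : second moment.
-/

set_option autoImplicit false

namespace Crest.Agent.R288.Jump984

open Finset Real Crest.Agent.R295.Rnd627 Crest.Agent.R295.Rnd627.RT
  Crest.Agent.R288.Smp984 Crest.Agent.R288.SmpB984 Crest.Agent.R288.SmpC984

variable {β ι τ : Type}

/-- independent draws commute -/
theorem Ev_comm {α : Type} (W : ℕ) (t : RT α) (t' : RT β) (f : α → β → ℝ) :
    (t.Ev W fun a => t'.Ev W fun b => f a b) = t'.Ev W fun b => t.Ev W fun a => f a b := by
  induction t with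
  | ret a => rfl
  | rnd k ih =>
    simp only [Ev_rnd]
    rw [Ev_div, Ev_sum]
    congr 1
    exact sum_congr rfl fun v _ => ih v

/-- price of an option: `F` = retire -/
def opt {R : Type} (F : R) (a : ι → R) : Option ι → R
  | none => F
  | some i => a i

@[simp] theorem opt_none {R : Type} (F : R) (a : ι → R) : opt F a none = F := rfl
@[simp] theorem opt_some {R : Type} (F : R) (a : ι → R) (i : ι) : opt F a (some i) = a i := rfl

theorem opt_cast (F : ℕ) (a : ι → ℕ) (o : Option ι) :
    ((opt F a o : ℕ) : ℝ) = opt (F : ℝ) (fun i => (a i : ℝ)) o := by cases o <;> rfl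

/-- value of the option `o` on the sample `B` -/
def oval (F : ℕ) (dst : ι → ℕ) (g : β → ι → ℕ) (o : Option ι) (B : β) : ℕ :=
  opt F (fun i => dst i + g B i) o

@[simp] theorem oval_none (F : ℕ) (dst : ι → ℕ) (g : β → ι → ℕ) (B : β) :
    oval F dst g none B = F := rfl
@[simp] theorem oval_some (F : ℕ) (dst : ι → ℕ) (g : β → ι → ℕ) (i : ι) (B : β) :
    oval F dst g (some i) B = dst i + g B i := rfl

/-- mean of the read value -/
noncomputable def mn (W : ℕ) (t : RT β) (g : β → ι → ℕ) (i : ι) : ℝ := t.Ev W fun B => (g B i : ℝ)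

/-- variance of the read value -/
noncomputable def vr (W : ℕ) (t : RT β) (g : β → ι → ℕ) (i : ι) : ℝ :=
  t.Ev W fun B => ((g B i : ℝ) - mn W t g i) ^ 2

/-- true price of an option -/
noncomputable def pr (W : ℕ) (t : RT β) (g : β → ι → ℕ) (F : ℕ) (dst : ι → ℕ) (o : Option ι) : ℝ :=
  opt (F : ℝ) (fun i => dst i + mn W t g i) o

/-- variance of the value of an option -/
noncomputable def ovr (W : ℕ) (t : RT β) (g : β → ι → ℕ) (o : Option ι) : ℝ :=
  opt (0 : ℝ) (fun i => vr W t g i) o

theorem mn_nonneg (W : ℕ) (t : RT β) (g : β → ι → ℕ) (i : ι) : 0 ≤ mn W t g i :=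
  Ev_nonneg fun _ => Nat.cast_nonneg _

theorem vr_nonneg (W : ℕ) (t : RT β) (g : β → ι → ℕ) (i : ι) : 0 ≤ vr W t g i :=
  Ev_nonneg fun _ => sq_nonneg _

theorem pr_nonneg (W : ℕ) (t : RT β) (g : β → ι → ℕ) (F : ℕ) (dst : ι → ℕ) (o : Option ι) :
    0 ≤ pr W t g F dst o := by
  cases o with
  | none => exact Nat.cast_nonneg F
  | some i => exact add_nonneg (Nat.cast_nonneg _) (mn_nonneg _ _ _ _)

theorem ovr_nonneg (W : ℕ) (t : RT β) (g : β → ι → ℕ) (o : Option ι) : 0 ≤ ovr W t g o := by
  cases o with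
  | none => exact le_rfl
  | some i => exact vr_nonneg _ _ _ _

theorem Ev_oval {W : ℕ} (hW : 0 < W) (t : RT β) (g : β → ι → ℕ) (F : ℕ) (dst : ι → ℕ)
    (o : Option ι) : (t.Ev W fun B => (oval F dst g o B : ℝ)) = pr W t g F dst o := by
  cases o with
  | none => exact Ev_const hW t (F : ℝ)
  | some i =>
    have : (fun B => (oval F dst g (some i) B : ℝ)) = fun B => (dst i : ℝ) + (g B i : ℝ) := by
      funext B; simp
    rw [this, Ev_add, Ev_const hW]
    rfl

/-- second moment of a value = square of the mean + variance -/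
theorem Ev_sq_eq {W : ℕ} (hW : 0 < W) (t : RT β) (f : β → ℝ) (a : ℝ) :
    (t.Ev W fun B => (a + f B) ^ 2) = (a + t.Ev W f) ^ 2 + t.Ev W fun B => (f B - t.Ev W f) ^ 2 := by
  have e1 : (fun B => (a + f B) ^ 2) = fun B => (a + t.Ev W f) ^ 2 +
      ((2 * (a + t.Ev W f)) * (f B - t.Ev W f) + (f B - t.Ev W f) ^ 2) := by
    funext B; ring
  rw [e1, Ev_add, Ev_const hW, Ev_add, Ev_mul_left, Ev_sub, Ev_const hW, sub_self, mul_zero, zero_add]

theorem Ev_oval_sq {W : ℕ} (hW : 0 < W) (t : RT β) (g : β → ι → ℕ) (F : ℕ) (dst : ι → ℕ)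
    (o : Option ι) : (t.Ev W fun B => (oval F dst g o B : ℝ) ^ 2) =
      pr W t g F dst o ^ 2 + ovr W t g o := by
  cases o with
  | none => simpa [pr, ovr] using Ev_const hW t ((F : ℝ) ^ 2)
  | some i =>
    have : (fun B => (oval F dst g (some i) B : ℝ) ^ 2) =
        fun B => ((dst i : ℝ) + (g B i : ℝ)) ^ 2 := by
      funext B; simp
    rw [this, Ev_sq_eq hW]
    rfl

/-! ### the jump: estimates first, value copy last (or first) -/

/-- the jump program: a table `E` of estimates, then one fresh copy `B` -/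
def jump {ε : Type} (e : RT ε) (t : RT β) (f : ε → β → τ) : RT τ :=
  e.bind fun E => t.map fun B => f E B

/-- the same, value copy first -/
def jump' {ε : Type} (e : RT ε) (t : RT β) (f : ε → β → τ) : RT τ :=
  t.bind fun B => e.map fun E => f E B

theorem Ev_jump {ε : Type} (W : ℕ) (e : RT ε) (t : RT β) (f : ε → β → τ) (φ : τ → ℝ) :
    (jump e t f).Ev W φ = e.Ev W fun E => t.Ev W fun B => φ (f E B) := by
  rw [jump, Ev_bind]
  congr 1
  funext E
  rw [Ev_map]

theorem Ev_jump' {ε : Type} (W : ℕ) (e : RT ε) (t : RT β) (f : ε → β → τ) (φ : τ → ℝ) :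
    (jump' e t f).Ev W φ = e.Ev W fun E => t.Ev W fun B => φ (f E B) := by
  rw [jump', Ev_bind, Ev_comm]
  congr 1
  funext B
  rw [Ev_map]

/-- **mean of the arrival value** = mean of the true price of the choice -/
theorem Ev_val {ε : Type} {W : ℕ} (hW : 0 < W) (e : RT ε) (t : RT β) (g : β → ι → ℕ) (F : ℕ)
    (dst : ι → ℕ) (z : ε → Option ι) :
    (e.Ev W fun E => t.Ev W fun B => (oval F dst g (z E) B : ℝ)) =
      e.Ev W fun E => pr W t g F dst (z E) := by
  congr 1
  funext E
  exact Ev_oval hW t g F dst (z E)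

/-- **second moment of the arrival value** -/
theorem Ev_val_sq {ε : Type} {W : ℕ} (hW : 0 < W) (e : RT ε) (t : RT β) (g : β → ι → ℕ) (F : ℕ)
    (dst : ι → ℕ) (z : ε → Option ι) :
    (e.Ev W fun E => t.Ev W fun B => (oval F dst g (z E) B : ℝ) ^ 2) =
      e.Ev W fun E => pr W t g F dst (z E) ^ 2 + ovr W t g (z E) := by
  congr 1
  funext E
  exact Ev_oval_sq hW t g F dst (z E)

/-- **variance of the arrival value**, Lyapunov form of post 4545: if every option that may be
chosen has price at most `C'` and variance at most `A` times its price, then the variance is at most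
`(A + C')` times the mean -/
theorem var_val {ε : Type} {W : ℕ} (hW : 0 < W) (e : RT ε) (t : RT β) (g : β → ι → ℕ) (F : ℕ)
    (dst : ι → ℕ) (z : ε → Option ι) {A C' : ℝ}
    (h1 : e.All W fun E => pr W t g F dst (z E) ≤ C')
    (h2 : e.All W fun E => ovr W t g (z E) ≤ A * pr W t g F dst (z E)) :
    (e.Ev W fun E => t.Ev W fun B => (oval F dst g (z E) B : ℝ) ^ 2) ≤
      (A + C') * e.Ev W fun E => pr W t g F dst (z E) := by
  rw [Ev_val_sq hW, ← Ev_mul_left]
  refine Ev_mono_all ((h1.and h2).mono fun E h => ?_)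
  have := pr_nonneg W t g F dst (z E)
  nlinarith [h.1, h.2]

/-- a uniform bound for the second moment -/
theorem sq_val_le {ε : Type} {W : ℕ} (hW : 0 < W) (e : RT ε) (t : RT β) (g : β → ι → ℕ) (F : ℕ)
    (dst : ι → ℕ) (z : ε → Option ι) {S : ℝ}
    (h : e.All W fun E => (t.Ev W fun B => (oval F dst g (z E) B : ℝ) ^ 2) ≤ S) :
    (e.Ev W fun E => t.Ev W fun B => (oval F dst g (z E) B : ℝ) ^ 2) ≤ S :=
  Ev_le_const hW h

/-! ### the law -/

/-- estimated price of an option -/
def est (F : ℕ) (dst : ι → ℕ) (E : ι → ℕ) (o : Option ι) : ℕ := opt F (fun i => dst i + E i) o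

/-- the choice `z`, made from the estimates, is admissible for the menu `S` (options), with stay
option `o₀` and threshold `th` -/
structure Choice (S : Finset (Option ι)) (F : ℕ) (dst : ι → ℕ) (o₀ : Option ι) (th : ℕ)
    (z : (ι → ℕ) → Option ι) : Prop where
  mem : ∀ E, z E ∈ S
  stay : ∀ E, z E = o₀ ∨ est F dst E (z E) + th ≤ est F dst E o₀
  min : ∀ E, ∀ o ∈ S, est F dst E (z E) ≤ est F dst E o + th

/-- estimates within `δ` -/
def Close (S : Finset (Option ι)) (a : ι → ℝ) (δ : ℝ) (E : ι → ℕ) : Prop :=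
  ∀ i, some i ∈ S → |(E i : ℝ) - a i| ≤ δ

theorem Close.opt {S : Finset (Option ι)} {a : ι → ℝ} {δ : ℝ} {E : ι → ℕ} (h : Close S a δ E)
    (hδ : 0 ≤ δ) (F : ℕ) (dst : ι → ℕ) {o : Option ι} (ho : o ∈ S) :
    |(est F dst E o : ℝ) - opt (F : ℝ) (fun i => dst i + a i) o| ≤ δ := by
  cases o with
  | none => simpa [est] using hδ
  | some i =>
    have e : ((est F dst E (some i) : ℕ) : ℝ) = dst i + E i := by simp [est]
    rw [e, opt_some, add_sub_add_left_eq_sub]
    exact h i ho

section law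

variable {W : ℕ} {e : RT (ι → ℕ)} {t : RT β} {g : β → ι → ℕ} {F th : ℕ} {dst : ι → ℕ}
  {S : Finset (Option ι)} {o₀ : Option ι} {z : (ι → ℕ) → Option ι} {δ q D : ℝ}

/-- the arrival value is never below the minimum of the true prices -/
theorem le_jump (hW : 0 < W) (hz : Choice S F dst o₀ th z) {m : ℝ}
    (hm : ∀ o ∈ S, m ≤ pr W t g F dst o) : m ≤ e.Ev W fun E => pr W t g F dst (z E) :=
  const_le_Ev hW (All.of_forall fun E => hm _ (hz.mem E))

/-- never loses: stay -/
theorem jump_le_stay (hW : 0 < W) (hz : Choice S F dst o₀ th z) (h0 : o₀ ∈ S) (hδ : 0 ≤ δ)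
    (hth : 2 * δ ≤ th) (hD : 0 ≤ D) (hb : ∀ o ∈ S, pr W t g F dst o ≤ pr W t g F dst o₀ + D)
    (hq : e.Pr W (fun E => ¬ Close S (mn W t g) δ E) ≤ q) :
    (e.Ev W fun E => pr W t g F dst (z E)) ≤ pr W t g F dst o₀ + q * D := by
  classical
  have h1 : (e.Ev W fun E => pr W t g F dst (z E)) ≤ e.Ev W fun E =>
      pr W t g F dst o₀ + (if ¬ Close S (mn W t g) δ E then (1 : ℝ) else 0) * D := by
    refine Ev_mono fun E => ?_
    by_cases h : Close S (mn W t g) δ E
    · rw [if_neg (not_not.2 h), zero_mul, add_zero]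
      rcases hz.stay E with h2 | h2
      · rw [h2]
      · have h3 := (abs_le.1 (h.opt hδ F dst (hz.mem E))).1
        have h4 := (abs_le.1 (h.opt hδ F dst h0)).2
        have h5 : ((est F dst E (z E) : ℕ) : ℝ) + th ≤ (est F dst E o₀ : ℕ) := by exact_mod_cast h2
        unfold pr
        linarith
    · rw [if_pos h, one_mul]
      exact hb _ (hz.mem E)
  refine h1.trans ?_
  rw [Ev_add, Ev_const hW, Ev_mul_right, ← Pr_def]
  exact add_le_add le_rfl (mul_le_mul_of_nonneg_right hq hD)

/-- nearly minimal -/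
theorem jump_le (hW : 0 < W) (hz : Choice S F dst o₀ th z) (hδ : 0 ≤ δ) (hD : 0 ≤ D)
    {o : Option ι} (ho : o ∈ S) (hb : ∀ o' ∈ S, pr W t g F dst o' ≤ pr W t g F dst o + D)
    (hq : e.Pr W (fun E => ¬ Close S (mn W t g) δ E) ≤ q) :
    (e.Ev W fun E => pr W t g F dst (z E)) ≤ pr W t g F dst o + (th + 2 * δ) + q * D := by
  classical
  have h1 : (e.Ev W fun E => pr W t g F dst (z E)) ≤ e.Ev W fun E =>
      (pr W t g F dst o + (th + 2 * δ)) +
        (if ¬ Close S (mn W t g) δ E then (1 : ℝ) else 0) * D := by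
    refine Ev_mono fun E => ?_
    by_cases h : Close S (mn W t g) δ E
    · rw [if_neg (not_not.2 h), zero_mul, add_zero]
      have h3 := (abs_le.1 (h.opt hδ F dst (hz.mem E))).1
      have h4 := (abs_le.1 (h.opt hδ F dst ho)).2
      have h5 : ((est F dst E (z E) : ℕ) : ℝ) ≤ (est F dst E o : ℕ) + th := by
        exact_mod_cast hz.min E o ho
      unfold pr
      linarith
    · rw [if_pos h, one_mul]
      have := hb _ (hz.mem E)
      have h5 : (0 : ℝ) ≤ th := Nat.cast_nonneg _
      linarith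
  refine h1.trans ?_
  rw [Ev_add, Ev_const hW, Ev_mul_right, ← Pr_def]
  exact add_le_add le_rfl (mul_le_mul_of_nonneg_right hq hD)

end law

/-- **failure probability of the estimates by medians of means** -/
theorem Pr_close {W : ℕ} (hW : 0 < W) (t : RT β) (g : β → ι → ℕ) (S : Finset (Option ι)) {k : ℕ}
    (hk : 0 < k) {c : ℝ} (hc : 0 < c) (hV : ∀ i, some i ∈ S → 3 * vr W t g i ≤ k * c ^ 2) (s : ℕ) :
    (momTab k s t g).Pr W (fun E => ¬ Close S (mn W t g) (c + 1) E) ≤ S.card * (1 / 2) ^ s := by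
  classical
  have h1 := Pr_momTab hW g S.eraseNone hk (t := t) (c := fun _ => c) (V := vr W t g)
    (μ := mn W t g) (fun i _ => hc) (fun i _ => rfl) (fun i _ => le_rfl)
    (fun i hi => hV i (Finset.mem_eraseNone.1 hi)) s
  have h2 : (momTab k s t g).Pr W (fun E => ¬ Close S (mn W t g) (c + 1) E) =
      1 - (momTab k s t g).Pr W (fun E => Close S (mn W t g) (c + 1) E) := Pr_not hW _ _
  have h3 : (momTab k s t g).Pr W (fun v => ∀ i ∈ S.eraseNone,
      mn W t g i - c - 1 ≤ v i ∧ (v i : ℝ) ≤ mn W t g i + c) ≤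
      (momTab k s t g).Pr W (fun E => Close S (mn W t g) (c + 1) E) := by
    refine Pr_mono fun v hv i hi => ?_
    obtain ⟨a1, a2⟩ := hv i (Finset.mem_eraseNone.2 hi)
    rw [abs_le]
    constructor <;> linarith
  have h4 : (S.eraseNone.card : ℝ) ≤ S.card := by exact_mod_cast Finset.card_eraseNone_le S
  have h5 : (S.eraseNone.card : ℝ) * (1 / 2) ^ s ≤ S.card * (1 / 2) ^ s :=
    mul_le_mul_of_nonneg_right h4 (by positivity)
  rw [h2]
  linarith

/-! ### a computable choice -/

/-- stay unless the estimated gain is at least `th`; `c` = the best pair of the menu -/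
def selO (F th : ℕ) (dst : ι → ℕ) (E : ι → ℕ) (i₀ c : ι) : Option ι :=
  if dst i₀ + E i₀ < min F (dst c + E c) + th then some i₀
  else if F ≤ dst c + E c then none else some c

theorem selO_choice {F th : ℕ} {dst : ι → ℕ} {M : Finset ι} {i₀ : ι} (h0 : i₀ ∈ M)
    {c : (ι → ℕ) → ι} (hc : ∀ E, c E ∈ M) (hc' : ∀ E, ∀ i ∈ M, dst (c E) + E (c E) ≤ dst i + E i) :
    Choice (insertNone M) F dst (some i₀) th (fun E => selO F th dst E i₀ (c E)) where
  mem := by
    intro E
    unfold selO
    split_ifs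
    · exact some_mem_insertNone.2 h0
    · exact none_mem_insertNone
    · exact some_mem_insertNone.2 (hc E)
  stay := by
    intro E
    unfold selO
    split_ifs with h1 h2
    · exact Or.inl rfl
    · right
      simp only [est, opt_none, opt_some]
      rw [min_eq_left h2] at h1
      omega
    · right
      simp only [est, opt_some]
      rw [min_eq_right (by omega)] at h1
      omega
  min := by
    intro E o ho
    have hm : min F (dst (c E) + E (c E)) ≤ est F dst E o := by
      cases o with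
      | none => exact min_le_left _ _
      | some i => exact (min_le_right _ _).trans (hc' E i (some_mem_insertNone.1 ho))
    unfold selO
    split_ifs with h1 h2
    · simp only [est, opt_some] at hm ⊢
      omega
    · rw [min_eq_left h2] at hm
      simp only [est, opt_none] at hm ⊢
      omega
    · rw [min_eq_right (by omega)] at hm
      simp only [est, opt_some] at hm ⊢
      omega

/-! ### the whole cell -/

section cell

variable {σ : Type}

/-- data of a cell: states `y : σ`, menu, distances, stay pair, retire number, threshold, the best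
pair for the estimates -/
structure Cell (σ ι : Type) where
  /-- menu of pairs -/
  M : σ → Finset ι
  /-- distance to be paid -/
  dst : σ → ι → ℕ
  /-- the pair of the state itself -/
  i₀ : σ → ι
  /-- retire price -/
  F : σ → ℕ
  /-- threshold -/
  th : σ → ℕ
  /-- best pair -/
  c : σ → (ι → ℕ) → ι

/-- the arrival table -/
noncomputable def Cell.arr (C : Cell σ ι) (k s : ℕ) (t : RT β) (g : β → ι → ℕ) : RT (σ → ℕ) :=
  jump (momTab k s t g) t fun E B y =>
    oval (C.F y) (C.dst y) g (selO (C.F y) (C.th y) (C.dst y) E (C.i₀ y) (C.c y E)) B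

/-- the arrival value (mean) -/
noncomputable def Cell.R (C : Cell σ ι) (W k s : ℕ) (t : RT β) (g : β → ι → ℕ) (y : σ) : ℝ :=
  (C.arr k s t g).Ev W fun f => (f y : ℝ)

/-- the hypotheses at the state `y` -/
structure Cell.Ok (C : Cell σ ι) (W k : ℕ) (t : RT β) (g : β → ι → ℕ) (c D : ℝ) (y : σ) :
    Prop where
  stay : C.i₀ y ∈ C.M y
  mem : ∀ E, C.c y E ∈ C.M y
  best : ∀ E, ∀ i ∈ C.M y, C.dst y (C.c y E) + E (C.c y E) ≤ C.dst y i + E i
  c_pos : 0 < c
  k_pos : 0 < k
  th : 2 * (c + 1) ≤ C.th y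
  var : ∀ i ∈ C.M y, 3 * vr W t g i ≤ k * c ^ 2
  F_le : (C.F y : ℝ) ≤ D
  pr_le : ∀ i ∈ C.M y, C.dst y i + mn W t g i ≤ D

variable {C : Cell σ ι} {W k : ℕ} {t : RT β} {g : β → ι → ℕ} {c D : ℝ} {y : σ}

theorem Cell.Ok.choice (h : C.Ok W k t g c D y) : Choice (insertNone (C.M y)) (C.F y) (C.dst y)
    (some (C.i₀ y)) (C.th y) (fun E => selO (C.F y) (C.th y) (C.dst y) E (C.i₀ y) (C.c y E)) :=
  selO_choice h.stay h.mem h.best

theorem Cell.R_eq (hW : 0 < W) (C : Cell σ ι) (k s : ℕ) (t : RT β) (g : β → ι → ℕ) (y : σ) :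
    C.R W k s t g y = (momTab k s t g).Ev W fun E => pr W t g (C.F y) (C.dst y)
      (selO (C.F y) (C.th y) (C.dst y) E (C.i₀ y) (C.c y E)) := by
  unfold Cell.R Cell.arr
  rw [Ev_jump, ← Ev_val hW]

/-- second moment of the arrival value -/
theorem Cell.sq_eq (hW : 0 < W) (C : Cell σ ι) (k s : ℕ) (t : RT β) (g : β → ι → ℕ) (y : σ) :
    ((C.arr k s t g).Ev W fun f => (f y : ℝ) ^ 2) =
      (momTab k s t g).Ev W fun E => pr W t g (C.F y) (C.dst y)
        (selO (C.F y) (C.th y) (C.dst y) E (C.i₀ y) (C.c y E)) ^ 2 + ovr W t g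
        (selO (C.F y) (C.th y) (C.dst y) E (C.i₀ y) (C.c y E)) := by
  unfold Cell.arr
  rw [Ev_jump, ← Ev_val_sq hW]

theorem Cell.Ok.pr_le' (h : C.Ok W k t g c D y) {o : Option ι} (ho : o ∈ insertNone (C.M y)) :
    pr W t g (C.F y) (C.dst y) o ≤ D := by
  cases o with
  | none => exact h.F_le
  | some i => exact h.pr_le i (some_mem_insertNone.1 ho)

theorem Cell.Ok.pr_add (h : C.Ok W k t g c D y) {o o' : Option ι}
    (ho : o ∈ insertNone (C.M y)) : pr W t g (C.F y) (C.dst y) o ≤
      pr W t g (C.F y) (C.dst y) o' + D :=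
  (h.pr_le' ho).trans (le_add_of_nonneg_left (pr_nonneg _ _ _ _ _ _))

theorem Cell.Ok.D_nonneg (h : C.Ok W k t g c D y) : 0 ≤ D := (Nat.cast_nonneg _).trans h.F_le

theorem Cell.Ok.prob (hW : 0 < W) (h : C.Ok W k t g c D y) (s : ℕ) :
    (momTab k s t g).Pr W (fun E => ¬ Close (insertNone (C.M y)) (mn W t g) (c + 1) E) ≤
      ((C.M y).card + 1) * (1 / 2) ^ s := by
  have := Pr_close hW t g (insertNone (C.M y)) h.k_pos h.c_pos
    (fun i hi => h.var i (some_mem_insertNone.1 hi)) s
  rw [card_insertNone] at this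
  push_cast at this
  exact this

/-- **(low)** -/
theorem Cell.Ok.low (hW : 0 < W) (h : C.Ok W k t g c D y) (s : ℕ) {m : ℝ} (hF : m ≤ C.F y)
    (hm : ∀ i ∈ C.M y, m ≤ C.dst y i + mn W t g i) : m ≤ C.R W k s t g y := by
  rw [C.R_eq hW]
  refine le_jump hW h.choice fun o ho => ?_
  cases o with
  | none => exact hF
  | some i => exact hm i (some_mem_insertNone.1 ho)

/-- **(stay)** -/
theorem Cell.Ok.le_stay (hW : 0 < W) (h : C.Ok W k t g c D y) (s : ℕ) :
    C.R W k s t g y ≤ C.dst y (C.i₀ y) + mn W t g (C.i₀ y) +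
      ((C.M y).card + 1) * (1 / 2) ^ s * D := by
  rw [C.R_eq hW]
  have h1 := h.c_pos
  exact jump_le_stay hW h.choice (some_mem_insertNone.2 h.stay) (by linarith) h.th h.D_nonneg
    (fun o ho => h.pr_add ho) (h.prob hW s)

/-- **(jump)** -/
theorem Cell.Ok.le_opt (hW : 0 < W) (h : C.Ok W k t g c D y) (s : ℕ) {o : Option ι}
    (ho : o ∈ insertNone (C.M y)) : C.R W k s t g y ≤ pr W t g (C.F y) (C.dst y) o +
      (C.th y + 2 * (c + 1)) + ((C.M y).card + 1) * (1 / 2) ^ s * D := by
  rw [C.R_eq hW]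
  have h1 := h.c_pos
  exact jump_le hW h.choice (by linarith) h.D_nonneg ho (fun o ho => h.pr_add ho) (h.prob hW s)

theorem Cell.Ok.le_pair (hW : 0 < W) (h : C.Ok W k t g c D y) (s : ℕ) {i : ι} (hi : i ∈ C.M y) :
    C.R W k s t g y ≤ C.dst y i + mn W t g i +
      (C.th y + 2 * (c + 1)) + ((C.M y).card + 1) * (1 / 2) ^ s * D :=
  h.le_opt hW s (some_mem_insertNone.2 hi)

theorem Cell.Ok.le_retire (hW : 0 < W) (h : C.Ok W k t g c D y) (s : ℕ) :
    C.R W k s t g y ≤ C.F y + (C.th y + 2 * (c + 1)) + ((C.M y).card + 1) * (1 / 2) ^ s * D :=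
  h.le_opt hW s none_mem_insertNone

/-- **Lipschitz property of the arrival value**: `d` = distance of the states `y`, `y'`; a pair of
the menu of `y'` is in the menu of `y`, or is not better than the retire price `F y` up to `e'` -/
theorem Cell.Ok.lip (hW : 0 < W) (h : C.Ok W k t g c D y) (s : ℕ) {C' : Cell σ ι} {k' s' : ℕ}
    {D' c' : ℝ} {y' : σ} (h' : C'.Ok W k' t g c' D' y') {d e' : ℝ} (he' : 0 ≤ e')
    (hF : (C.F y : ℝ) ≤ d + C'.F y')
    (hM : ∀ i ∈ C'.M y', (i ∈ C.M y ∧ (C.dst y i : ℝ) ≤ d + C'.dst y' i) ∨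
      (C.F y : ℝ) ≤ d + C'.dst y' i + mn W t g i + e') :
    C.R W k s t g y ≤ C'.R W k' s' t g y' + d +
      (C.th y + 2 * (c + 1) + ((C.M y).card + 1) * (1 / 2) ^ s * D) + e' := by
  have hr := h.le_retire hW s
  have := h'.low hW s' (m := C.R W k s t g y - d -
    (C.th y + 2 * (c + 1) + ((C.M y).card + 1) * (1 / 2) ^ s * D) - e') (by linarith) ?_
  · linarith
  · intro i hi
    rcases hM i hi with ⟨h1, h2⟩ | h1
    · have := h.le_pair hW s h1
      linarith
    · linarith

end cell

end Crest.Agent.R288.Jump984
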