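import Crest.Agent.R288.AlgB_45
import Crest.Agent.R288.Jump_984

/-!
# Row 288, L6 of RT.LANE2, deterministic half (helper147), ALG v2

`arrNum` of `AlgA_45` on the candidate list of `arrOf` (`AlgB_45`) IS a choice of `Jump_984` over the
finite menu of the entries `(p, t)` = (number of the cell in `acells`, number of the grid state).

* `argR_succ`, `argR_le`, `argR_lt`, `argR_congr` : first argmin.
* `jks`, `zof`, `jval` : entries read by a cell, their states, the read value; `cds`, `jcand_eq`.
* `mnu`, `best`, `best_spec` : menu of a state, its best entry.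
* `arrNum_eq` : `arrNum = oval (selO ..)`; `sel`, `sel_choice` : the choice.
* `arrOf_eq`, `Ev_arrOf`, `Ev_arrOf_adm`, `Ev_arrOf_nadm` : `arrOf` in the form of `Jump984.jump`.
* `Ev_jval` : law of one entry of the joint draw.
-/

set_option autoImplicit false

namespace Crest.Agent.R288.ArrB147

open Finset Crest.Agent.R295.Rnd627 Crest.Agent.R288.Alg45 Crest.Agent.R288.Jump984

/-! ### first argmin -/

theorem argR_succ (n : ℕ) (f : ℕ → ℕ) :
    argR (n + 1) f = if f n < f (argR n f) then n else argR n f := by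
  unfold argR
  rw [List.range_succ, List.foldl_append]
  rfl

theorem argR_le (n : ℕ) (f : ℕ → ℕ) : ∀ a < n, f (argR n f) ≤ f a := by
  induction n with
  | zero => intro a ha; omega
  | succ n ih =>
    intro a ha
    rw [argR_succ]
    rcases Nat.lt_succ_iff_lt_or_eq.1 ha with h | h
    · have := ih a h
      split_ifs <;> omega
    · subst h
      split_ifs <;> omega

theorem argR_lt {n : ℕ} (hn : 0 < n) (f : ℕ → ℕ) : argR n f < n := by
  induction n with
  | zero => omega
  | succ n ih =>
    rw [argR_succ]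
    split_ifs
    · omega
    · rcases Nat.eq_zero_or_pos n with h | h
      · subst h; simp [argR]
      · exact (ih h).trans (Nat.lt_succ_self n)

theorem argR_congr {n : ℕ} {f g : ℕ → ℕ} (h : ∀ a < n, f a = g a) : argR n f = argR n g := by
  induction n with
  | zero => rfl
  | succ n ih =>
    rw [argR_succ, argR_succ, ih fun a ha => h a (by omega), h n (by omega)]
    rcases Nat.eq_zero_or_pos n with h0 | h0
    · subst h0
      rw [show argR 0 g = 0 from rfl, h 0 (by omega)]
    · rw [h _ ((argR_lt h0 g).trans (Nat.lt_succ_self n))]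

/-! ### the menu of a cell -/

variable (P : Par)

/-- an entry: number of the cell, number of the grid state -/
abbrev JK := ℕ × ℕ

/-- all entries read by the jump of the cell `c` -/
def jks (c : Cel) : List JK :=
  (List.range (acells P c.κ c.m).length).flatMap fun p =>
    (List.range (csz P (acell P c p).κ)).map fun t => (p, t)

/-- state of an entry -/
def zof (c : Cel) (i : JK) : St := cst P (acell P c i.1) i.2

/-- class of an entry -/
def kof (c : Cel) (i : JK) : ℕ := (acell P c i.1).κ

/-- value of an entry -/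
def jval (B : List (List ℕ)) (i : JK) : ℕ := jent B i.1 i.2

/-- estimate of an entry -/
def jes (Es : List (List (List ℕ))) (i : JK) : ℕ := jest P Es i.1 i.2

/-- the candidate list for estimates `E` and fresh values `B` -/
def cds (c : Cel) (E B : JK → ℕ) : List (St × ℕ × ℕ) :=
  (jks P c).map fun i => (zof P c i, E i, B i)

theorem jcand_eq (c : Cel) (Es : List (List (List ℕ))) (B : List (List ℕ)) :
    jcand P c Es B = cds P c (jes P Es) (jval B) := by
  unfold jcand cds jks
  rw [List.map_flatMap]
  congr 1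
  funext p
  rw [List.map_map]
  rfl

theorem mem_jks {c : Cel} {i : JK} :
    i ∈ jks P c ↔ i.1 < (acells P c.κ c.m).length ∧ i.2 < csz P (acell P c i.1).κ := by
  obtain ⟨p, t⟩ := i
  unfold jks
  simp only [List.mem_flatMap, List.mem_map, List.mem_range, Prod.mk.injEq]
  constructor
  · rintro ⟨a, ha, b, hb, rfl, rfl⟩
    exact ⟨ha, hb⟩
  · rintro ⟨h1, h2⟩
    exact ⟨p, h1, t, h2, rfl, rfl⟩

/-- menu of the state `y` -/
def mnu (c : Cel) (F : St → ℕ) (y : St) : Finset JK :=
  (jks P c).toFinset.filter fun i => Alg45.dist y (zof P c i) ≤ 2 * F y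

theorem mem_mnu {c : Cel} {F : St → ℕ} {y : St} {i : JK} :
    i ∈ mnu P c F y ↔ i ∈ jks P c ∧ Alg45.dist y (zof P c i) ≤ 2 * F y := by
  unfold mnu; simp

theorem card_mnu_le (c : Cel) (F : St → ℕ) (y : St) : (mnu P c F y).card ≤ (jks P c).length :=
  (Finset.card_filter_le _ _).trans (List.toFinset_card_le _)

/-- the price used by `arrNum` -/
def prc (c : Cel) (F : St → ℕ) (y : St) (E : JK → ℕ) (i : JK) : ℕ :=
  if Alg45.dist y (zof P c i) ≤ 2 * F y then Alg45.dist y (zof P c i) + E i else 3 * F y + 1

/-- the first entry of least price -/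
def bst (c : Cel) (F : St → ℕ) (y : St) (E : JK → ℕ) : JK :=
  (jks P c).getD (argR (jks P c).length fun n => prc P c F y E ((jks P c).getD n (0, 0))) (0, 0)

theorem bst_mem {c : Cel} (h : jks P c ≠ []) (F : St → ℕ) (y : St) (E : JK → ℕ) :
    bst P c F y E ∈ jks P c := by
  unfold bst
  have h1 := argR_lt (List.length_pos_iff.2 h) fun n => prc P c F y E ((jks P c).getD n (0, 0))
  rw [List.getD_eq_getElem _ _ h1]
  exact List.getElem_mem h1

theorem bst_le {c : Cel} (F : St → ℕ) (y : St) (E : JK → ℕ) {i : JK} (hi : i ∈ jks P c) :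
    prc P c F y E (bst P c F y E) ≤ prc P c F y E i := by
  obtain ⟨n, hn, rfl⟩ := List.getElem_of_mem hi
  have h1 := argR_le (jks P c).length (fun n => prc P c F y E ((jks P c).getD n (0, 0))) n hn
  unfold bst
  rwa [List.getD_eq_getElem _ _ hn] at h1

/-- the best entry of the menu (`i₀` = an entry of the menu; if all entries of the menu cost more
than `3F` any best entry will do, it is never chosen) -/
noncomputable def best (c : Cel) (F : St → ℕ) (y : St) (i₀ : JK) (E : JK → ℕ) : JK := by
  classical
  exact if Alg45.dist y (zof P c (bst P c F y E)) ≤ 2 * F y then bst P c F y E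
    else if h : (mnu P c F y).Nonempty then
      (exists_min_image (mnu P c F y) (fun i => Alg45.dist y (zof P c i) + E i) h).choose
    else i₀

variable {P}

theorem best_spec {c : Cel} {F : St → ℕ} {y : St} {i₀ : JK} (h0 : i₀ ∈ mnu P c F y) (E : JK → ℕ) :
    best P c F y i₀ E ∈ mnu P c F y ∧ ∀ i ∈ mnu P c F y,
      Alg45.dist y (zof P c (best P c F y i₀ E)) + E (best P c F y i₀ E) ≤
        Alg45.dist y (zof P c i) + E i := by
  have hne : jks P c ≠ [] := List.ne_nil_of_mem ((mem_mnu P).1 h0).1
  unfold best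
  split_ifs with h1 h2
  · refine ⟨(mem_mnu P).2 ⟨bst_mem P hne F y E, h1⟩, fun i hi => ?_⟩
    have h3 := bst_le P F y E ((mem_mnu P).1 hi).1
    unfold prc at h3
    rwa [if_pos h1, if_pos ((mem_mnu P).1 hi).2] at h3
  · have h3 := (exists_min_image (mnu P c F y)
      (fun i => Alg45.dist y (zof P c i) + E i) h2).choose_spec
    exact ⟨h3.1, fun i hi => h3.2 i hi⟩
  · exact absurd ⟨i₀, h0⟩ h2

/-- **the jump of `AlgA_45` = the choice of `Jump_984`** -/
theorem arrNum_eq {F : St → ℕ} {c : Cel} {y : St} {i₀ : JK} {κ : ℕ} (ha : adm P F κ y = true)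
    (h0 : i₀ ∈ jks P c) (hz : zof P c i₀ = y) (E B : JK → ℕ) :
    arrNum P F κ y (E i₀) (B i₀) (cds P c E B) =
      oval (F y) (fun i => Alg45.dist y (zof P c i)) (fun (_ : Unit) i => B i)
        (selO (F y) (2 ^ κ / 2 ^ P.bb) (fun i => Alg45.dist y (zof P c i)) E i₀
          (best P c F y i₀ E)) () := by
  classical
  have hd0 : Alg45.dist y (zof P c i₀) = 0 := by rw [hz]; simp [Alg45.dist]
  have h0' : i₀ ∈ mnu P c F y := (mem_mnu P).2 ⟨h0, by rw [hd0]; exact Nat.zero_le _⟩
  obtain ⟨hb1, hb2⟩ := best_spec h0' E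
  have hne : jks P c ≠ [] := List.ne_nil_of_mem h0
  have hlen : (cds P c E B).length = (jks P c).length := by unfold cds; rw [List.length_map]
  have hpr : ∀ n < (jks P c).length,
      jpr (F y) y (cds P c E B) n = prc P c F y E ((jks P c).getD n (0, 0)) := by
    intro n hn
    unfold jpr cds
    rw [List.getElem?_map, List.getElem?_eq_getElem hn, List.getD_eq_getElem _ _ hn]
    rfl
  have harg : argR (cds P c E B).length (jpr (F y) y (cds P c E B)) =
      argR (jks P c).length fun n => prc P c F y E ((jks P c).getD n (0, 0)) := by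
    rw [hlen]
    exact argR_congr hpr
  have hlt := argR_lt (List.length_pos_iff.2 hne)
    fun n => prc P c F y E ((jks P c).getD n (0, 0))
  unfold arrNum
  rw [if_neg (by rw [ha]; simp)]
  simp only
  rw [harg, hpr _ hlt]
  set n₀ := argR (jks P c).length fun n => prc P c F y E ((jks P c).getD n (0, 0)) with hn₀
  have hb : (jks P c).getD n₀ (0, 0) = bst P c F y E := rfl
  have hget : (cds P c E B)[n₀]? = some (zof P c (bst P c F y E),
      E (bst P c F y E), B (bst P c F y E)) := by
    unfold cds
    rw [List.getElem?_map, List.getElem?_eq_getElem hlt, ← hb, List.getD_eq_getElem _ _ hlt]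
    rfl
  rw [hget, hb]
  simp only
  set b := bst P c F y E with hbd
  have hbl : ∀ i ∈ mnu P c F y, prc P c F y E b ≤ Alg45.dist y (zof P c i) + E i := by
    intro i hi
    have h3 := bst_le P F y E ((mem_mnu P).1 hi).1
    rwa [show prc P c F y E i = Alg45.dist y (zof P c i) + E i from
      if_pos ((mem_mnu P).1 hi).2] at h3
  by_cases hnear : Alg45.dist y (zof P c b) ≤ 2 * F y
  · -- the first argmin is an entry of the menu
    have hbest : best P c F y i₀ E = b := by unfold best; rw [if_pos hnear]
    have hpb : prc P c F y E b = Alg45.dist y (zof P c b) + E b := if_pos hnear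
    rw [hbest, hpb]
    unfold selO
    simp only
    rw [hd0, zero_add]
    by_cases h2 : E i₀ < min (F y) (Alg45.dist y (zof P c b) + E b) + 2 ^ κ / 2 ^ P.bb
    · rw [if_pos h2, if_pos h2]
      simp [oval, hd0]
    · rw [if_neg h2, if_neg h2]
      by_cases h1 : F y ≤ Alg45.dist y (zof P c b) + E b
      · rw [if_pos h1, if_pos h1]; rfl
      · rw [if_neg h1, if_neg h1]; rfl
  · -- all entries of the menu cost at least `3F + 1`
    have hpb : prc P c F y E b = 3 * F y + 1 := if_neg hnear
    have h1 : F y ≤ Alg45.dist y (zof P c (best P c F y i₀ E)) + E (best P c F y i₀ E) := by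
      have := hbl _ hb1
      omega
    rw [hpb]
    unfold selO
    simp only
    rw [hd0, zero_add, min_eq_left h1, min_eq_left (show F y ≤ 3 * F y + 1 by omega)]
    by_cases h2 : E i₀ < F y + 2 ^ κ / 2 ^ P.bb
    · rw [if_pos h2, if_pos h2]
      simp [oval, hd0]
    · rw [if_neg h2, if_neg h2, if_pos (show F y ≤ 3 * F y + 1 by omega), if_pos h1]; rfl

/-! ### the choice -/

variable (P)

/-- the choice made by the algorithm at the state `y` of the cell `c` from the estimates `E` -/
noncomputable def sel (c : Cel) (F : St → ℕ) (y : St) (i₀ : JK) (E : JK → ℕ) : Option JK :=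
  selO (F y) (2 ^ c.κ / 2 ^ P.bb) (fun i => Alg45.dist y (zof P c i)) E i₀ (best P c F y i₀ E)

variable {P}

theorem stay_mnu {c : Cel} {F : St → ℕ} {y : St} {i₀ : JK} (h0 : i₀ ∈ jks P c)
    (hz : zof P c i₀ = y) : i₀ ∈ mnu P c F y :=
  (mem_mnu P).2 ⟨h0, by rw [hz]; simp [Alg45.dist]⟩

theorem sel_choice {c : Cel} {F : St → ℕ} {y : St} {i₀ : JK} (h0 : i₀ ∈ jks P c)
    (hz : zof P c i₀ = y) : Choice (insertNone (mnu P c F y)) (F y)
      (fun i => Alg45.dist y (zof P c i)) (some i₀) (2 ^ c.κ / 2 ^ P.bb) (sel P c F y i₀) :=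
  selO_choice (stay_mnu h0 hz) (fun E => (best_spec (stay_mnu h0 hz) E).1)
    fun E => (best_spec (stay_mnu h0 hz) E).2

/-! ### `arrOf` -/

variable (P)

/-- number of the own cell -/
def own (c : Cel) : ℕ := (acells P c.κ c.m).idxOf (c.κ, c.m)

/-- value of the arrival table of the cell `c`, entry `t`, from the table `E` of estimates and the
joint draw `B` -/
noncomputable def avl (F : St → ℕ) (c : Cel) (t : ℕ) (E : JK → ℕ) (B : List (List ℕ)) : ℕ :=
  if adm P F c.κ (cst P c t) = false then F (cst P c t)
  else oval (F (cst P c t)) (fun i => Alg45.dist (cst P c t) (zof P c i)) jval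
    (sel P c F (cst P c t) (own P c, t) E) B

variable {P}

theorem acell_own {c : Cel} (h : (c.κ, c.m) ∈ acells P c.κ c.m) : acell P c (own P c) = c := by
  unfold acell own
  rw [List.getD_eq_getElem _ _ (List.idxOf_lt_length_of_mem h), List.getElem_idxOf]

theorem own_mem {c : Cel} (h : (c.κ, c.m) ∈ acells P c.κ c.m) {t : ℕ} (ht : t < csz P c.κ) :
    (own P c, t) ∈ jks P c := by
  refine (mem_jks P).2 ⟨List.idxOf_lt_length_of_mem h, ?_⟩
  show t < csz P (acell P c (own P c)).κ
  rw [acell_own h]
  exact ht

theorem zof_own {c : Cel} (h : (c.κ, c.m) ∈ acells P c.κ c.m) (t : ℕ) :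
    zof P c (own P c, t) = cst P c t := by
  show cst P (acell P c (own P c)) t = _
  rw [acell_own h]

/-- **the jump of the algorithm** -/
theorem arrOf_eq (F : St → ℕ) (body : Cel → RT (List ℕ)) {c : Cel}
    (h : (c.κ, c.m) ∈ acells P c.κ c.m) :
    arrOf P F body c = (RT.reps (P.gJ * P.mJ) (jdraw P body c)).bind fun Es =>
      (jdraw P body c).bind fun B =>
        .ret ((List.range (csz P c.κ)).map fun t => avl P F c t (jes P Es) B) := by
  unfold arrOf
  congr 1
  funext Es
  congr 1
  funext B
  simp only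
  congr 1
  refine List.map_congr_left fun t ht => ?_
  have ht' := List.mem_range.1 ht
  unfold avl
  by_cases ha : adm P F c.κ (cst P c t) = false
  · rw [if_pos ha, arrNum, if_pos ha]
  · rw [if_neg ha, jcand_eq]
    exact arrNum_eq (by simpa using ha) (own_mem h ht') (zof_own h t) (jes P Es) (jval B)

/-- every functional of an entry -/
theorem Ev_arrOf (W : ℕ) (F : St → ℕ) (body : Cel → RT (List ℕ)) {c : Cel}
    (h : (c.κ, c.m) ∈ acells P c.κ c.m) {t : ℕ} (ht : t < csz P c.κ) (φ : ℕ → ℝ) :
    (arrOf P F body c).Ev W (fun T => φ (T.getD t 0)) =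
      (RT.reps (P.gJ * P.mJ) (jdraw P body c)).Ev W fun Es =>
        (jdraw P body c).Ev W fun B => φ (avl P F c t (jes P Es) B) := by
  rw [arrOf_eq F body h, RT.Ev_bind]
  congr 1
  funext Es
  rw [RT.Ev_bind]
  congr 1
  funext B
  show φ (((List.range (csz P c.κ)).map fun t => avl P F c t (jes P Es) B).getD t 0) = _
  rw [List.getD_eq_getElem _ _ (by simpa using ht), List.getElem_map, List.getElem_range]

/-- inadmissible states: the number `F` -/
theorem Ev_arrOf_nadm {W : ℕ} (hW : 0 < W) (F : St → ℕ) (body : Cel → RT (List ℕ)) {c : Cel}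
    (h : (c.κ, c.m) ∈ acells P c.κ c.m) {t : ℕ} (ht : t < csz P c.κ)
    (ha : adm P F c.κ (cst P c t) = false) (φ : ℕ → ℝ) :
    (arrOf P F body c).Ev W (fun T => φ (T.getD t 0)) = φ (F (cst P c t)) := by
  rw [Ev_arrOf W F body h ht]
  simp only [avl, if_pos ha]
  simp only [RT.Ev_const hW]

/-- admissible states: `Jump984.jump` with the estimates `jes` -/
theorem Ev_arrOf_adm (W : ℕ) (F : St → ℕ) (body : Cel → RT (List ℕ)) {c : Cel}
    (h : (c.κ, c.m) ∈ acells P c.κ c.m) {t : ℕ} (ht : t < csz P c.κ)
    (ha : adm P F c.κ (cst P c t) = true) (φ : ℕ → ℝ) :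
    (arrOf P F body c).Ev W (fun T => φ (T.getD t 0)) =
      ((RT.reps (P.gJ * P.mJ) (jdraw P body c)).map (jes P)).Ev W fun E =>
        (jdraw P body c).Ev W fun B => φ (oval (F (cst P c t))
          (fun i => Alg45.dist (cst P c t) (zof P c i)) jval
          (sel P c F (cst P c t) (own P c, t) E) B) := by
  rw [Ev_arrOf W F body h ht, RT.Ev_map]
  congr 1
  funext Es
  congr 1
  funext B
  unfold avl
  rw [if_neg (by rw [ha]; simp)]

/-! ### the law of one entry of a joint draw -/

theorem Ev_seqL_getD {W : ℕ} (hW : 0 < W) (ts : List (RT (List ℕ))) {p : ℕ} (hp : p < ts.length)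
    (f : List ℕ → ℝ) : (seqL ts).Ev W (fun l => f (l.getD p [])) = (ts[p]).Ev W f := by
  induction ts generalizing p with
  | nil => simp at hp
  | cons t ts ih =>
    unfold seqL
    rw [RT.Ev_bind]
    simp only [RT.Ev_bind, RT.Ev_ret]
    cases p with
    | zero =>
      simp only [List.getD_cons_zero, List.getElem_cons_zero]
      congr 1
      funext a
      exact RT.Ev_const hW _ _
    | succ p =>
      simp only [List.getD_cons_succ, List.getElem_cons_succ]
      rw [RT.Ev_const hW]
      exact ih (by simpa using hp)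

/-- one entry of the joint draw has the law of the entry of the body table of its cell -/
theorem Ev_jval {W : ℕ} (hW : 0 < W) (body : Cel → RT (List ℕ)) {c : Cel} {i : JK}
    (hi : i ∈ jks P c) (φ : ℕ → ℝ) :
    (jdraw P body c).Ev W (fun B => φ (jval B i)) =
      (body (acell P c i.1)).Ev W fun T => φ (T.getD i.2 0) := by
  have h := ((mem_jks P).1 hi).1
  have h1 := Ev_seqL_getD hW ((List.range (acells P c.κ c.m).length).map fun p =>
    body (acell P c p)) (p := i.1) (by simpa using h) (fun T : List ℕ => φ (T.getD i.2 0))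
  simp only [List.getElem_map, List.getElem_range] at h1
  exact h1

end Crest.Agent.R288.ArrB147
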