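import Crest.Agent.R288.DeltaC_222

/-!
# R288, [DELTA] (helper222), ARR: pure identities (Alg45 v2)

* `seqL_bind_congr`, `reps_eq_seqL`, `seqL_nest`, `reps_seqL`, `reps_seqL_bind` : repeated lists of
  computations as ONE list of computations, cut afterwards by `chunk`.
* `abod P c` : the cells of all body calls of `arrOf` in order; `arrFin P c us fs` : the table of
  `arrOf` from the answers; **`arrOf_fin`**.
* `botFin`, **`arrT_zero_fin`** : macro height `0`.
-/

set_option autoImplicit false

namespace Crest.Agent.R288.Delta222

open Crest.Agent.R295.Rnd627 Crest.Agent.R288.Alg45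

/-! ### lists of computations -/

section seq

variable {α β : Type}

/-- only lists of the right length come out of `seqL` -/
theorem seqL_bind_congr (L : List (RT α)) {g g' : List α → RT β}
    (h : ∀ a, a.length = L.length → g a = g' a) : (seqL L).bind g = (seqL L).bind g' := by
  induction L generalizing g g' with
  | nil => exact h [] rfl
  | cons t L ih =>
    rw [seqL, bind_assoc', bind_assoc']
    congr 1
    funext a
    rw [bind_assoc', bind_assoc']
    refine ih fun l hl => ?_
    rw [RT.ret_bind, RT.ret_bind]
    exact h _ (by simp [hl])

theorem reps_eq_seqL (k : ℕ) (t : RT α) : RT.reps k t = seqL (List.replicate k t) := by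
  induction k with
  | zero => rfl
  | succ k ih => rw [List.replicate_succ, seqL, RT.reps_succ, ih]

/-- a list of lists of computations -/
theorem seqL_nest {n : ℕ} (LL : List (List (RT α))) (h : ∀ L ∈ LL, L.length = n) :
    seqL (LL.map seqL) = (seqL LL.flatten).bind fun us => RT.ret (chunk n LL.length us) := by
  induction LL with
  | nil => rfl
  | cons L LL ih =>
    rw [List.map_cons, seqL, ih fun L' h' => h L' (by simp [h']), List.flatten_cons, seqL_append,
      bind_assoc']
    refine seqL_bind_congr L fun a ha => ?_
    rw [bind_assoc', bind_assoc']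
    congr 1
    funext b
    rw [RT.ret_bind, RT.ret_bind, List.length_cons, chunk]
    have hL : a.length = n := ha.trans (h L (by simp))
    rw [List.take_left' hL, List.drop_left' hL]

theorem reps_seqL (k : ℕ) (L : List (RT α)) :
    RT.reps k (seqL L) =
      (seqL (List.replicate k L).flatten).bind fun us => RT.ret (chunk L.length k us) := by
  have h := seqL_nest (n := L.length) (List.replicate k L) fun L' h' => by
    rw [List.eq_of_mem_replicate h']
  rw [List.map_replicate, ← reps_eq_seqL, List.length_replicate] at h
  exact h

theorem chunk_append {n m : ℕ} (l r : List α) (h : l.length = m * n) :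
    chunk n m (l ++ r) = chunk n m l := by
  rw [chunk_eq, chunk_eq]
  apply List.map_congr_left
  intro i hi
  have hi' := List.mem_range.1 hi
  have h1 : i * n + n ≤ m * n := by
    calc i * n + n = (i + 1) * n := by ring
      _ ≤ m * n := Nat.mul_le_mul_right n hi'
  rw [List.drop_append_of_le_length (by omega), List.take_append_of_le_length (by
    rw [List.length_drop]; omega)]

/-- `k` copies, then one more -/
theorem reps_seqL_bind (k : ℕ) (L : List (RT α)) (g : List (List α) → List α → RT β) :
    ((RT.reps k (seqL L)).bind fun Es => (seqL L).bind fun B => g Es B) =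
      (seqL (List.replicate (k + 1) L).flatten).bind fun us =>
        g (chunk L.length k us) (us.drop (k * L.length)) := by
  rw [List.replicate_succ', List.flatten_append, seqL_append, reps_seqL, bind_assoc', bind_assoc']
  have hlen : (List.replicate k L).flatten.length = k * L.length := by simp
  refine seqL_bind_congr _ fun a ha => ?_
  rw [hlen] at ha
  rw [RT.ret_bind, bind_assoc', List.flatten_cons, List.flatten_nil, List.append_nil]
  congr 1
  funext b
  rw [RT.ret_bind, chunk_append _ _ ha, List.drop_left' ha]

end seq

/-! ### the jump -/

variable (P : Par)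

/-- arrival number with the value of `F` at `y` only -/
theorem arrNum_pt (F : St → ℕ) (κ : ℕ) (y : St) (sE sV : ℕ) (cs : List (St × ℕ × ℕ)) :
    arrNum P F κ y sE sV cs = arrNum P (fun _ => F y) κ y sE sV cs := rfl

theorem botNum_pt (leaf : St → Option ℕ) (F : St → ℕ) (κ : ℕ) (y : St) :
    botNum P leaf F κ y = botNum P (fun _ => leaf y) (fun _ => F y) κ y := rfl

/-- the cells of one joint draw -/
def acs (c : Cel) : List Cel := (List.range (acells P c.κ c.m).length).map (acell P c)

/-- the cells of all body calls -/
def abod (c : Cel) : List Cel := (List.replicate (P.gJ * P.mJ + 1) (acs P c)).flatten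

/-- the states of a cell in the order of the table -/
def csts (c : Cel) : List St := (List.range (csz P c.κ)).map (cst P c)

/-- entry `t` of a list of answers, each a one word list -/
def hd1 (fs : List (List ℕ)) (t : ℕ) : ℕ := (fs.getD t []).headD 0

theorem hd1_map {ι : Type} (l : List ι) (f : ι → ℕ) (d : ι) {t : ℕ} (ht : t < l.length) :
    hd1 (l.map fun y => [f y]) t = f (l.getD t d) := by
  unfold hd1
  simp [List.getD_eq_getElem?_getD, List.getElem?_map, List.getElem?_eq_getElem ht]

/-- the table of `arrOf` from the answers `us` of the body calls and `fs` of the unit function -/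
def arrFin (c : Cel) (us fs : List (List ℕ)) : List ℕ :=
  let n := (acells P c.κ c.m).length
  let Es := chunk n (P.gJ * P.mJ) us
  let B := us.drop (P.gJ * P.mJ * n)
  let p0 := (acells P c.κ c.m).idxOf (c.κ, c.m)
  let cs := jcand P c Es B
  (List.range (csz P c.κ)).map fun t =>
    arrNum P (fun _ => hd1 fs t) c.κ (cst P c t) (jest P Es p0 t) (jent B p0 t) cs

/-- **`arrOf` as phases**: all body calls, then the unit function at the states of the cell -/
theorem arrOf_fin (F : St → ℕ) (body : Cel → RT (List ℕ)) (c : Cel) :
    arrOf P F body c = (seqL ((abod P c).map body)).bind fun us =>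
      (seqL ((csts P c).map fun y => RT.ret [F y])).bind fun fs =>
        RT.ret (arrFin P c us fs) := by
  have h1 : jdraw P body c = seqL ((acs P c).map body) := by
    rw [jdraw, acs, List.map_map]
    rfl
  have h2 : ((abod P c).map body) =
      (List.replicate (P.gJ * P.mJ + 1) ((acs P c).map body)).flatten := by
    rw [abod, List.map_flatten, List.map_replicate]
  have h3 : ((acs P c).map body).length = (acells P c.κ c.m).length := by simp [acs]
  rw [arrOf, h1, reps_seqL_bind, h2, h3]
  congr 1
  funext us
  rw [seqL_map_ret, RT.ret_bind]
  dsimp only [arrFin]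
  congr 1
  apply List.map_congr_left
  intro t ht
  have ht' := List.mem_range.1 ht
  have h4 : hd1 ((csts P c).map fun y => [F y]) t = F (cst P c t) := by
    rw [hd1_map _ _ default (by simpa [csts] using ht')]
    congr 1
    simp [csts, List.getD_eq_getElem?_getD, List.getElem?_map, List.getElem?_range ht']
  rw [h4]
  rfl

/-- the table of macro height `0` from the answers `fs` of the unit function, `gs` of the leaf
command; `lf g y` = leaf value of `y` from the answer `g` -/
def botFin (lf : ℕ → St → Option ℕ) (c : Cel) (fs gs : List (List ℕ)) : List ℕ :=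
  (List.range (csz P c.κ)).map fun t =>
    botNum P (fun y => lf (hd1 gs t) y) (fun _ => hd1 fs t) c.κ (cst P c t)

theorem arrT_zero_fin (leaf : St → Option ℕ) (lf : ℕ → St → Option ℕ) (g : St → ℕ)
    (hl : ∀ y, leaf y = lf (g y) y) (F : St → ℕ) (X : ℕ → ℕ → St → ℕ) (k : ℕ) (c : Cel) :
    arrT P leaf F X k 0 c = (seqL ((csts P c).map fun y => RT.ret [F y])).bind fun fs =>
      (seqL ((csts P c).map fun y => RT.ret [g y])).bind fun gs =>
        RT.ret (botFin P lf c fs gs) := by
  rw [arrT, seqL_map_ret, RT.ret_bind, seqL_map_ret, RT.ret_bind, tabC, botFin]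
  congr 1
  apply List.map_congr_left
  intro t ht
  have ht' := List.mem_range.1 ht
  have h4 : ∀ f : St → ℕ, hd1 ((csts P c).map fun y => [f y]) t = f (cst P c t) := by
    intro f
    rw [hd1_map _ _ default (by simpa [csts] using ht')]
    congr 1
    simp [csts, List.getD_eq_getElem?_getD, List.getElem?_map, List.getElem?_range ht']
  rw [h4, h4, botNum_pt]
  unfold botNum
  simp only [hl]

end Crest.Agent.R288.Delta222
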