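import Crest.Agent.R288.PheC_940
import Crest.Agent.R288.DeltaD_222

/-!
# R288, [DELTA] (helper222), ARR: realisation in the phase engine

* `all_seqL` : property and number of the results of a list of computations; `Blen Z M u` : a list
  of at most `Z` words `< M`; `szo_of` : a phase fits;
* `rz_one` : procedures with ONE phase of requests;
* `arrOf_one`, **`arr_rz`** : the frame of ARR realises `arrOf`; `bot_one`, **`bot_rz`** : macro
  height `0`.
-/

set_option autoImplicit false

namespace Crest.Agent.R288.Delta222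

open Crest.Agent.R295 HL Pt949 Crest.Agent.R295.Rnd627 Crest.Agent.R288.Alg45
  Crest.Agent.R288.Phe940

/-! ### results of a list of computations -/

theorem all_seqL {α : Type} {N : ℕ} {p : α → Prop} (l : List (RT α)) (h : ∀ t ∈ l, t.All N p) :
    (seqL l).All N fun us => us.length = l.length ∧ ∀ u ∈ us, p u := by
  induction l with
  | nil => exact ⟨rfl, by simp⟩
  | cons t l ih =>
    rw [seqL, RT.All_bind]
    refine (h t (by simp)).mono fun a ha => ?_
    rw [RT.All_bind]
    refine (ih fun t' ht' => h t' (by simp [ht'])).mono fun us hus => ?_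
    refine ⟨by simp [hus.1], fun u hu => ?_⟩
    rcases List.mem_cons.1 hu with rfl | hu
    · exact ha
    · exact hus.2 u hu

/-- at most `Z` words `< M` -/
def Blen (Z M : ℕ) (u : List ℕ) : Prop := u.length ≤ Z ∧ ∀ a ∈ u, a < M

theorem Blen.mono {Z Z' M : ℕ} {u : List ℕ} (h : Blen Z M u) (hZ : Z ≤ Z') : Blen Z' M u :=
  ⟨h.1.trans hZ, h.2⟩

theorem fl_len {Z : ℕ} {l : List (List ℕ)} (h : ∀ u ∈ l, u.length ≤ Z) :
    (fl l).length ≤ l.length * (Z + 1) := by
  induction l with
  | nil => simp
  | cons u l ih =>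
    rw [fl_cons, List.length_append, tow_list, List.length_cons, List.length_cons, Nat.add_mul,
      Nat.one_mul]
    have h1 := h u (by simp)
    have h2 := ih fun u' h' => h u' (by simp [h'])
    omega

/-- a phase fits: `m` requests and `m` answers of at most `Z` words each -/
theorem szo_of {W : Wld} {Z m : ℕ} {f : List ℕ} {reqs us : List (List ℕ)} (hf : Blen Z W.M f)
    (hq : ∀ q ∈ reqs, Blen Z W.M q) (hu : ∀ u ∈ us, Blen Z W.M u) (h1 : reqs.length ≤ m)
    (h2 : us.length ≤ m) (hS : 2 * (m + 1) * (Z + 1) + 16 ≤ W.S) : Szo W f reqs us where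
  len := by
    have e1 := fl_len fun u h => (hq u h).1
    have e2 := fl_len fun u h => (hu u h).1
    have e3 : reqs.length * (Z + 1) ≤ m * (Z + 1) := Nat.mul_le_mul_right _ h1
    have e4 : us.length * (Z + 1) ≤ m * (Z + 1) := Nat.mul_le_mul_right _ h2
    have e5 := hf.1
    have e6 : 2 * (m + 1) * (Z + 1) = 2 * (m * (Z + 1)) + 2 * (Z + 1) := by ring
    omega
  wf := hf.2
  wq := fun q h => (hq q h).2
  wu := fun u h => (hu u h).2

/-! ### one phase -/

section one

variable {pr : Prg} {W : Wld}

/-- **a procedure with one phase of requests** -/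
theorem rz_one (hSM : W.S < W.M) (hN : 0 < W.N) {n : ℕ} {f f' : List ℕ} {reqs : List (List ℕ)}
    {ts : RT (List (List ℕ))} {C : ℕ} {Q : List (List ℕ) → Prop} {g : List (List ℕ) → List ℕ}
    (h : pr.δ f [] = (f', reqs)) (hne : reqs ≠ []) (hts : Rqs pr W (n + 1) reqs ts C)
    (hQ : ts.All W.N Q) (hs : ∀ us, Q us → Szo W f' reqs us)
    (hfin : ∀ us, Q us → pr.δ f' us = (g us, []))
    (hall : (ts.bind fun us => RT.ret (g us)).All W.N W.okv) :
    Rz pr W (n + 2) f [] (ts.bind fun us => RT.ret (g us)) C := by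
  have h1 : ts.All W.N fun us => Q us ∧ W.okv (g us) := by
    rw [RT.All_bind] at hall
    exact hQ.and hall
  exact Rz.stepV (C' := 0) hSM h hne hts (fun p _ => hs _ (h1.val hN _ _).1) fun p _ =>
    Rz.stop (hfin _ (h1.val hN _ _).1) (h1.val hN _ _).2

end one

/-! ### the jump -/

variable (P : Par)

theorem arrOf_one (F : St → ℕ) (body : Cel → RT (List ℕ)) (c : Cel) :
    arrOf P F body c =
      (seqL ((abod P c).map body ++ (csts P c).map fun y => RT.ret [F y])).bind fun us =>
        RT.ret (arrFin P c (us.take (abod P c).length) (us.drop (abod P c).length)) := by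
  rw [arrOf_fin, seqL_append, bind_assoc']
  refine seqL_bind_congr _ fun a ha => ?_
  rw [List.length_map] at ha
  rw [bind_assoc']
  congr 1
  funext b
  rw [RT.ret_bind, List.take_left' ha, List.drop_left' ha]

theorem csts_ne (c : Cel) : csts P c ≠ [] := by
  unfold csts csz cu cv gpt
  rw [Ne, List.map_eq_nil_iff, List.range_eq_nil]
  positivity

theorem csts_length (c : Cel) : (csts P c).length = csz P c.κ := by simp [csts]

section rz

variable {P} {pr : Prg} {W : Wld} {n : ℕ} {f f' : List ℕ} {c : Cel}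

/-- **ARR**: the frame `f` asks all body tables and the unit function on the cell, and stops with
`arrFin` -/
theorem arr_rz (hSM : W.S < W.M) (hN : 0 < W.N) {encB : Cel → List ℕ} {encF : St → List ℕ}
    {F : St → ℕ} {body : Cel → RT (List ℕ)} {CB CF Z m : ℕ}
    (h0 : pr.δ f [] = (f', (abod P c).map encB ++ (csts P c).map encF))
    (h1 : ∀ us : List (List ℕ), us.length = (abod P c).length + (csts P c).length →
      pr.δ f' us =
        (arrFin P c (us.take (abod P c).length) (us.drop (abod P c).length), []))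
    (hB : ∀ c' ∈ abod P c, Rq pr W (n + 1) (encB c') (body c') CB)
    (hF : ∀ y ∈ csts P c, Rq pr W (n + 1) (encF y) (.ret [F y]) CF)
    (zB : ∀ c' ∈ abod P c, (body c').All W.N (Blen Z W.M)) (zF : ∀ y ∈ csts P c, F y < W.M)
    (zq : ∀ c' ∈ abod P c, Blen Z W.M (encB c')) (zr : ∀ y ∈ csts P c, Blen Z W.M (encF y))
    (zf : Blen Z W.M f') (hZ : 1 ≤ Z) (hm : (abod P c).length + (csts P c).length ≤ m)
    (hS : 2 * (m + 1) * (Z + 1) + 16 ≤ W.S) (hall : (arrOf P F body c).All W.N W.okv) :
    Rz pr W (n + 2) f [] (arrOf P F body c)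
      ((abod P c).length * (CB + 1) + (csts P c).length * (CF + 1)) := by
  rw [arrOf_one] at hall ⊢
  have hq : (seqL ((abod P c).map body ++ (csts P c).map fun y => RT.ret [F y])).All W.N
      fun us => us.length = ((abod P c).map body ++ (csts P c).map fun y =>
        (RT.ret [F y] : RT (List ℕ))).length ∧ ∀ u ∈ us, Blen Z W.M u := by
    refine all_seqL _ fun t ht => ?_
    rcases List.mem_append.1 ht with ht | ht
    · obtain ⟨c', hc', rfl⟩ := List.mem_map.1 ht
      exact zB c' hc'
    · obtain ⟨y, hy, rfl⟩ := List.mem_map.1 ht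
      exact ⟨hZ, by simpa using zF y hy⟩
  have hr : Rqs pr W (n + 1) ((abod P c).map encB ++ (csts P c).map encF)
      (seqL ((abod P c).map body ++ (csts P c).map fun y => RT.ret [F y]))
      ((abod P c).length * (CB + 1) + (csts P c).length * (CF + 1)) := by
    rw [seqL_append]
    exact Rqs.append (Rqs.map_le _ _ _ _ hB) (Rqs.map_le _ _ (fun y => RT.ret [F y]) _ hF)
  refine rz_one hSM hN h0 ?_ hr hq (fun us hus => ?_) (fun us hus => ?_) hall
  · intro h
    have := (List.append_eq_nil_iff.1 h).2
    exact csts_ne P c (List.map_eq_nil_iff.1 this)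
  · refine szo_of (m := m) zf (fun q hq' => ?_) hus.2 (by simpa using hm)
      (by rw [hus.1]; simpa using hm) hS
    rcases List.mem_append.1 hq' with h | h
    · obtain ⟨c', hc', rfl⟩ := List.mem_map.1 h
      exact zq c' hc'
    · obtain ⟨y, hy, rfl⟩ := List.mem_map.1 h
      exact zr y hy
  · exact h1 us (by rw [hus.1]; simp)

/-- macro height `0` as one phase -/
theorem bot_one (P : Par) (leaf : St → Option ℕ) (lf : ℕ → St → Option ℕ) (g : St → ℕ)
    (hl : ∀ y, leaf y = lf (g y) y) (F : St → ℕ) (X : ℕ → ℕ → St → ℕ) (k : ℕ) (c : Cel) :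
    arrT P leaf F X k 0 c =
      (seqL (((csts P c).map fun y => RT.ret [F y]) ++
        (csts P c).map fun y => RT.ret [g y])).bind fun us =>
        RT.ret (botFin P lf c (us.take (csts P c).length) (us.drop (csts P c).length)) := by
  rw [arrT_zero_fin P leaf lf g hl, seqL_append, bind_assoc']
  refine seqL_bind_congr _ fun a ha => ?_
  rw [List.length_map] at ha
  rw [bind_assoc']
  congr 1
  funext b
  rw [RT.ret_bind, List.take_left' ha, List.drop_left' ha]

/-- **ARR at macro height `0`** -/
theorem bot_rz (hSM : W.S < W.M) (hN : 0 < W.N) {encF encG : St → List ℕ}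
    {leaf : St → Option ℕ} {lf : ℕ → St → Option ℕ} {g : St → ℕ}
    (hl : ∀ y, leaf y = lf (g y) y) {F : St → ℕ} {X : ℕ → ℕ → St → ℕ} {k CF CG Z m : ℕ}
    (h0 : pr.δ f [] = (f', (csts P c).map encF ++ (csts P c).map encG))
    (h1 : ∀ us : List (List ℕ), us.length = (csts P c).length + (csts P c).length →
      pr.δ f' us =
        (botFin P lf c (us.take (csts P c).length) (us.drop (csts P c).length), []))
    (hF : ∀ y ∈ csts P c, Rq pr W (n + 1) (encF y) (.ret [F y]) CF)
    (hG : ∀ y ∈ csts P c, Rq pr W (n + 1) (encG y) (.ret [g y]) CG)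
    (zF : ∀ y ∈ csts P c, F y < W.M) (zG : ∀ y ∈ csts P c, g y < W.M)
    (zq : ∀ y ∈ csts P c, Blen Z W.M (encF y)) (zr : ∀ y ∈ csts P c, Blen Z W.M (encG y))
    (zf : Blen Z W.M f') (hZ : 1 ≤ Z) (hm : (csts P c).length + (csts P c).length ≤ m)
    (hS : 2 * (m + 1) * (Z + 1) + 16 ≤ W.S) (hall : (arrT P leaf F X k 0 c).All W.N W.okv) :
    Rz pr W (n + 2) f [] (arrT P leaf F X k 0 c)
      ((csts P c).length * (CF + 1) + (csts P c).length * (CG + 1)) := by
  rw [bot_one P leaf lf g hl] at hall ⊢
  have hq : (seqL (((csts P c).map fun y => RT.ret [F y]) ++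
      (csts P c).map fun y => RT.ret [g y])).All W.N
      fun us => us.length = (((csts P c).map fun y => (RT.ret [F y] : RT (List ℕ))) ++
        (csts P c).map fun y => RT.ret [g y]).length ∧ ∀ u ∈ us, Blen Z W.M u := by
    refine all_seqL _ fun t ht => ?_
    rcases List.mem_append.1 ht with ht | ht
    · obtain ⟨y, hy, rfl⟩ := List.mem_map.1 ht
      exact ⟨hZ, by simpa using zF y hy⟩
    · obtain ⟨y, hy, rfl⟩ := List.mem_map.1 ht
      exact ⟨hZ, by simpa using zG y hy⟩
  have hr : Rqs pr W (n + 1) ((csts P c).map encF ++ (csts P c).map encG)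
      (seqL (((csts P c).map fun y => RT.ret [F y]) ++ (csts P c).map fun y => RT.ret [g y]))
      ((csts P c).length * (CF + 1) + (csts P c).length * (CG + 1)) := by
    rw [seqL_append]
    exact Rqs.append (Rqs.map_le _ _ (fun y => RT.ret [F y]) _ hF)
      (Rqs.map_le _ _ (fun y => RT.ret [g y]) _ hG)
  refine rz_one hSM hN h0 ?_ hr hq (fun us hus => ?_) (fun us hus => ?_) hall
  · intro h
    have := (List.append_eq_nil_iff.1 h).2
    exact csts_ne P c (List.map_eq_nil_iff.1 this)
  · refine szo_of (m := m) zf (fun q hq' => ?_) hus.2 (by simpa using hm)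
      (by rw [hus.1]; simpa using hm) hS
    rcases List.mem_append.1 hq' with h | h
    · obtain ⟨y, hy, rfl⟩ := List.mem_map.1 h
      exact zq y hy
    · obtain ⟨y, hy, rfl⟩ := List.mem_map.1 h
      exact zr y hy
  · exact h1 us (by rw [hus.1]; simp)

end rz

end Crest.Agent.R288.Delta222
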