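import Crest.Agent.R288.PgY_583
import Crest.Agent.R288.ArrZ_222

/-!
# R288, [PROG] procedure ARR (helper222): the text

Conventions of `PgY_583`. `la y` = the five words of the leaf request of `y`, `lf g y` = leaf value
of `y` from the answer `g`, `l` = index, `e = (l - 1) / K` = epoch.

* `cOf ar` : the cell of the arguments; `qL la y` : leaf request (kind 3);
* **`phA`** (tag 5): ONE phase: macro height `0`: `F` and leaf at the states of the cell; otherwise
  the body tables `abod` and `F` at the states of the cell;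
* **`den_phA`** : its computation is `arrT`.
-/

set_option autoImplicit false

namespace Crest.Agent.R288.Delta222

open Crest.Agent.R295.Rnd627 Crest.Agent.R295.Rnd627.RT Crest.Agent.R288.Alg45
  Crest.Agent.R288.PgX583 Crest.Agent.R288.PgY583

/-- the cell of the arguments -/
def cOf (ar : Ar) : Cel := ⟨ar.2.2.1, ar.2.2.2.1, ar.2.1, ar.2.2.2.2.1⟩

@[simp] theorem cOf_arC (a : ℕ) (c : Cel) : cOf (arC a c) = c := rfl
@[simp] theorem arC_a (a : ℕ) (c : Cel) : (arC a c).1 = a := rfl

/-- leaf request -/
def qL (la : St → List ℕ) (y : St) : List ℕ := 3 :: la y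

variable (P : Par) (la : St → List ℕ) (lf : ℕ → St → Option ℕ)

/-- requests of ARR -/
def rqA (ar : Ar) : List (List ℕ) :=
  if (cOf ar).i = 0 then
    (csts P (cOf ar)).map (qF ((ar.1 - 1) / P.K)) ++ (csts P (cOf ar)).map (qL la)
  else (abod P (cOf ar)).map (qB ar.1) ++ (csts P (cOf ar)).map (qF ((ar.1 - 1) / P.K))

/-- result of ARR from the answers -/
def fnA (ar : Ar) (us : List (List ℕ)) : List ℕ :=
  if (cOf ar).i = 0 then
    botFin P lf (cOf ar) (us.take (csts P (cOf ar)).length) (us.drop (csts P (cOf ar)).length)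
  else arrFin P (cOf ar) (us.take (abod P (cOf ar)).length) (us.drop (abod P (cOf ar)).length)

/-- **procedure ARR** -/
def phA (ar : Ar) (sv : Svd) : PgY583.Out :=
  if sv.length = 0 then .inr (rqA P la ar) else .inl (fnA P lf ar (sv.getD 0 []))

theorem phA_zero (ar : Ar) : phA P la lf ar [] = .inr (rqA P la ar) := rfl

theorem phA_one (ar : Ar) (us : List (List ℕ)) : phA P la lf ar [us] = .inl (fnA P lf ar us) := rfl

theorem rqA_ne (ar : Ar) : rqA P la ar ≠ [] := by
  unfold rqA
  split_ifs
  · intro h
    exact csts_ne P _ (List.map_eq_nil_iff.1 (List.append_eq_nil_iff.1 h).1)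
  · intro h
    exact csts_ne P _ (List.map_eq_nil_iff.1 (List.append_eq_nil_iff.1 h).2)

theorem acell_i (c : Cel) (p : ℕ) : (acell P c p).i = c.i := rfl

theorem mem_abod {c c' : Cel} (h : c' ∈ abod P c) : c'.i = c.i ∧ c'.j = c.j := by
  unfold abod at h
  rw [List.mem_flatten] at h
  obtain ⟨l, hl, hc⟩ := h
  rw [List.eq_of_mem_replicate hl] at hc
  obtain ⟨p, -, rfl⟩ := List.mem_map.1 hc
  exact ⟨rfl, rfl⟩

variable {P la lf} {S : List ℕ → RT (List ℕ)}

/-- **the computation of ARR** -/
theorem den_phA {leaf : St → Option ℕ} {F : St → ℕ} {X : ℕ → ℕ → St → ℕ} {k l : ℕ} {c : Cel}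
    {g : St → ℕ} (hl : ∀ y, leaf y = lf (g y) y)
    (hF : ∀ y ∈ csts P c, S (qF ((l - 1) / P.K) y) = .ret [F y])
    (hL : c.i = 0 → ∀ y ∈ csts P c, S (qL la y) = .ret [g y])
    (hB : c.i ≠ 0 → ∀ c' ∈ abod P c,
      S (qB l c') = bodyT P leaf F X k (arrT P leaf F X k (c.i - 1)) c') :
    den S (phA P la lf (arC l c)) 2 [] = arrT P leaf F X k c.i c := by
  rw [den_inr (phA_zero P la lf _)]
  by_cases hi : c.i = 0
  · have e1 : rqA P la (arC l c) =
        (csts P c).map (qF ((l - 1) / P.K)) ++ (csts P c).map (qL la) := by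
      unfold rqA
      rw [cOf_arC, if_pos hi, arC_a]
    rw [e1, hi, bot_one P leaf lf g hl, List.map_append, List.map_map, List.map_map,
      List.map_congr_left (f := S ∘ qF ((l - 1) / P.K)) (g := fun y => RT.ret [F y])
        fun y hy => hF y hy,
      List.map_congr_left (f := S ∘ qL la) (g := fun y => RT.ret [g y])
        fun y hy => hL hi y hy]
    congr 1
    funext us
    rw [List.nil_append, den_inl (phA_one P la lf _ us)]
    unfold fnA
    rw [cOf_arC, if_pos hi]
  · have e1 : rqA P la (arC l c) =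
        (abod P c).map (qB l) ++ (csts P c).map (qF ((l - 1) / P.K)) := by
      unfold rqA
      rw [cOf_arC, if_neg hi, arC_a]
    obtain ⟨i, hi'⟩ := Nat.exists_eq_succ_of_ne_zero hi
    have e2 : arrT P leaf F X k c.i c =
        arrOf P F (fun c' => bodyT P leaf F X k (arrT P leaf F X k i) c') c := by
      rw [hi']
      rfl
    rw [e1, e2, arrOf_one, List.map_append, List.map_map, List.map_map,
      List.map_congr_left (f := S ∘ qF ((l - 1) / P.K)) (g := fun y => RT.ret [F y])
        fun y hy => hF y hy,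
      List.map_congr_left (f := S ∘ qB l)
        (g := fun c' => bodyT P leaf F X k (arrT P leaf F X k i) c')
        fun c' hc' => by
          rw [Function.comp_apply, hB hi c' hc', hi']
          rfl]
    congr 1
    funext us
    rw [List.nil_append, den_inl (phA_one P la lf _ us)]
    unfold fnA
    rw [cOf_arC, if_neg hi]

end Crest.Agent.R288.Delta222
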