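import Crest.Agent.R288.PgB_578
import Crest.Agent.R288.ArrY_222

/-!
# R288, [PROG] procedure ARR (helper222): realisation in the typed layer of `PgB_578`

* `cz_one` : a procedure with one phase of requests;
* **`arr_cz`** (macro height `> 0`), **`bot_cz`** (macro height `0`);
* **`phA_cz`** : the text `phA` realises `arrT`, both heights.
-/

set_option autoImplicit false

namespace Crest.Agent.R288.Delta222

open Crest.Agent.R295.Rnd627 Crest.Agent.R288.Alg45 Crest.Agent.R288.PrK690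
  Crest.Agent.R288.Pgb578 Crest.Agent.R288.PgY583
open Crest.Agent.R288.Phe940 (Prg Wld fl Rz Rq Rqs Szo kq)

section cz

variable {G : Prg} {W : Wld} {K : KN} {Z tg n : ℕ} {ph : Ph} {a : Pgb578.Ar}

/-- **a procedure with one phase of requests** -/
theorem cz_one (hG : Has G K ph tg) (hE : Env W K Z) (hN : 0 < W.N) {reqs : List (List ℕ)}
    {ts : RT (List (List ℕ))} {C : ℕ} {g : List (List ℕ) → List ℕ}
    (h0 : ph K tg a [] = .inr reqs) (hA : Rqs G W (n + 1) (reqs.map (wrapQ K)) ts C)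
    (hlen : reqs.length ≤ Z) (hq : ∀ q ∈ reqs, Wd W.M Z q) (ha : ArOk W.M tg a)
    (hQ : ts.All W.N fun us => us.length = reqs.length ∧ ∀ u ∈ us, Wd W.M Z u)
    (h1 : ∀ us : List (List ℕ), us.length = reqs.length → ph K tg a [us] = .inl (g us))
    (hall : (ts.bind fun us => RT.ret (g us)).All W.N (Wd W.M Z)) :
    Cz G W K tg (n + 2) a [] (ts.bind fun us => RT.ret (g us)) (C + 2) := by
  have h2 : ts.All W.N fun us => (us.length = reqs.length ∧ ∀ u ∈ us, Wd W.M Z u) ∧
      Wd W.M Z (g us) := by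
    rw [RT.All_bind] at hall
    exact hQ.and hall
  exact Cz.stepA (C' := 0) hG hE hN h0 hA hlen hq ha SvOk.nil h2
    (fun us h => ⟨h.1.1.trans_le hlen, h.1.2⟩)
    fun us h => Cz.stop hG hE (h1 us h.1.1) h.2

end cz

section arr

variable {G : Prg} {W : Wld} {K : KN} {Z tg n : ℕ} {ph : Ph} {a : Pgb578.Ar} {P : Par} {c : Cel}

/-- **ARR, macro height `> 0`** -/
theorem arr_cz (hG : Has G K ph tg) (hE : Env W K Z) (hN : 0 < W.N) {F : St → ℕ}
    {body : Cel → RT (List ℕ)} {encB : Cel → List ℕ} {encF : St → List ℕ} {CB CF : ℕ}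
    (h0 : ph K tg a [] = .inr ((abod P c).map encB ++ (csts P c).map encF))
    (h1 : ∀ us : List (List ℕ), us.length = (abod P c).length + (csts P c).length →
      ph K tg a [us] = .inl (arrFin P c (us.take (abod P c).length) (us.drop (abod P c).length)))
    (hB : ∀ c' ∈ abod P c, Rq G W (n + 1) (wrapQ K (encB c')) (body c') CB)
    (hF : ∀ y ∈ csts P c, Rq G W (n + 1) (wrapQ K (encF y)) (.ret [F y]) CF)
    (zB : ∀ c' ∈ abod P c, (body c').All W.N (Wd W.M Z)) (zF : ∀ y ∈ csts P c, F y < W.M)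
    (zq : ∀ c' ∈ abod P c, Wd W.M Z (encB c')) (zr : ∀ y ∈ csts P c, Wd W.M Z (encF y))
    (ha : ArOk W.M tg a) (hm : (abod P c).length + (csts P c).length ≤ Z)
    (hall : (arrOf P F body c).All W.N (Wd W.M Z)) :
    Cz G W K tg (n + 2) a [] (arrOf P F body c)
      ((abod P c).length * (CB + 1) + (csts P c).length * (CF + 1) + 2) := by
  rw [arrOf_one] at hall ⊢
  have hZ1 : 1 ≤ Z := by have := hE.Z8; omega
  have hq : (seqL ((abod P c).map body ++ (csts P c).map fun y => RT.ret [F y])).All W.N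
      fun us => us.length = ((abod P c).map body ++ (csts P c).map fun y =>
        (RT.ret [F y] : RT (List ℕ))).length ∧ ∀ u ∈ us, Wd W.M Z u := by
    refine all_seqL _ fun t ht => ?_
    rcases List.mem_append.1 ht with ht | ht
    · obtain ⟨c', hc', rfl⟩ := List.mem_map.1 ht
      exact zB c' hc'
    · obtain ⟨y, hy, rfl⟩ := List.mem_map.1 ht
      exact ⟨hZ1, by simpa using zF y hy⟩
  have hlen1 : ((abod P c).map body ++ (csts P c).map fun y =>
      (RT.ret [F y] : RT (List ℕ))).length =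
        ((abod P c).map encB ++ (csts P c).map encF).length := by simp
  have hr : Rqs G W (n + 1) (((abod P c).map encB ++ (csts P c).map encF).map (wrapQ K))
      (seqL ((abod P c).map body ++ (csts P c).map fun y => RT.ret [F y]))
      ((abod P c).length * (CB + 1) + (csts P c).length * (CF + 1)) := by
    rw [seqL_append, List.map_append, List.map_map, List.map_map]
    exact Rqs.append (Rqs.map_le _ _ _ _ hB) (Rqs.map_le _ _ (fun y => RT.ret [F y]) _ hF)
  refine cz_one hG hE hN h0 hr (by simpa using hm) (fun q hq' => ?_) ha ?_ (fun us hus => ?_) hall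
  · rcases List.mem_append.1 hq' with h | h
    · obtain ⟨c', hc', rfl⟩ := List.mem_map.1 h
      exact zq c' hc'
    · obtain ⟨y, hy, rfl⟩ := List.mem_map.1 h
      exact zr y hy
  · rw [hlen1] at hq
    exact hq
  · exact h1 us (by rw [hus]; simp)

/-- **ARR, macro height `0`** -/
theorem bot_cz (hG : Has G K ph tg) (hE : Env W K Z) (hN : 0 < W.N) {F g : St → ℕ}
    {leaf : St → Option ℕ} {lf : ℕ → St → Option ℕ} (hl : ∀ y, leaf y = lf (g y) y)
    {X : ℕ → ℕ → St → ℕ} {k : ℕ} {encF encG : St → List ℕ} {CF CG : ℕ}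
    (h0 : ph K tg a [] = .inr ((csts P c).map encF ++ (csts P c).map encG))
    (h1 : ∀ us : List (List ℕ), us.length = (csts P c).length + (csts P c).length →
      ph K tg a [us] =
        .inl (botFin P lf c (us.take (csts P c).length) (us.drop (csts P c).length)))
    (hF : ∀ y ∈ csts P c, Rq G W (n + 1) (wrapQ K (encF y)) (.ret [F y]) CF)
    (hL : ∀ y ∈ csts P c, Rq G W (n + 1) (wrapQ K (encG y)) (.ret [g y]) CG)
    (zF : ∀ y ∈ csts P c, F y < W.M) (zG : ∀ y ∈ csts P c, g y < W.M)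
    (zq : ∀ y ∈ csts P c, Wd W.M Z (encF y)) (zr : ∀ y ∈ csts P c, Wd W.M Z (encG y))
    (ha : ArOk W.M tg a) (hm : (csts P c).length + (csts P c).length ≤ Z)
    (hall : (arrT P leaf F X k 0 c).All W.N (Wd W.M Z)) :
    Cz G W K tg (n + 2) a [] (arrT P leaf F X k 0 c)
      ((csts P c).length * (CF + 1) + (csts P c).length * (CG + 1) + 2) := by
  rw [bot_one P leaf lf g hl] at hall ⊢
  have hZ1 : 1 ≤ Z := by have := hE.Z8; omega
  have hq : (seqL (((csts P c).map fun y => RT.ret [F y]) ++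
      (csts P c).map fun y => RT.ret [g y])).All W.N
      fun us => us.length = (((csts P c).map fun y => (RT.ret [F y] : RT (List ℕ))) ++
        (csts P c).map fun y => RT.ret [g y]).length ∧ ∀ u ∈ us, Wd W.M Z u := by
    refine all_seqL _ fun t ht => ?_
    rcases List.mem_append.1 ht with ht | ht
    · obtain ⟨y, hy, rfl⟩ := List.mem_map.1 ht
      exact ⟨hZ1, by simpa using zF y hy⟩
    · obtain ⟨y, hy, rfl⟩ := List.mem_map.1 ht
      exact ⟨hZ1, by simpa using zG y hy⟩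
  have hlen1 : (((csts P c).map fun y => (RT.ret [F y] : RT (List ℕ))) ++
      (csts P c).map fun y => RT.ret [g y]).length =
        ((csts P c).map encF ++ (csts P c).map encG).length := by simp
  have hr : Rqs G W (n + 1) (((csts P c).map encF ++ (csts P c).map encG).map (wrapQ K))
      (seqL (((csts P c).map fun y => RT.ret [F y]) ++ (csts P c).map fun y => RT.ret [g y]))
      ((csts P c).length * (CF + 1) + (csts P c).length * (CG + 1)) := by
    rw [seqL_append, List.map_append, List.map_map, List.map_map]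
    exact Rqs.append (Rqs.map_le _ _ (fun y => RT.ret [F y]) _ hF)
      (Rqs.map_le _ _ (fun y => RT.ret [g y]) _ hL)
  refine cz_one hG hE hN h0 hr (by simpa using hm) (fun q hq' => ?_) ha ?_ (fun us hus => ?_) hall
  · rcases List.mem_append.1 hq' with h | h
    · obtain ⟨y, hy, rfl⟩ := List.mem_map.1 h
      exact zq y hy
    · obtain ⟨y, hy, rfl⟩ := List.mem_map.1 h
      exact zr y hy
  · rw [hlen1] at hq
    exact hq
  · exact h1 us (by rw [hus]; simp)

end arr

section text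

variable {G : Prg} {W : Wld} {K : KN} {Z n : ℕ} {ph : Ph} {P : Par} {c : Cel} {l : ℕ}
  {la : St → List ℕ} {lf : ℕ → St → Option ℕ} {leaf : St → Option ℕ} {F g : St → ℕ}
  {X : ℕ → ℕ → St → ℕ} {k : ℕ}

theorem arrT_pos (hi : c.i ≠ 0) : arrT P leaf F X k c.i c =
    arrOf P F (bodyT P leaf F X k (arrT P leaf F X k (c.i - 1))) c := by
  obtain ⟨i, hi'⟩ := Nat.exists_eq_succ_of_ne_zero hi
  rw [hi']
  rfl

/-- **ARR (tag 5), macro height `> 0`**: `F` by calls of tag 4, bodies by calls of tag 6 -/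
theorem phA_cz_pos (hG : Has G K ph 5) (hE : Env W K Z) (hN : 0 < W.N) (hZ : 12 ≤ Z)
    (hph : ∀ sv : Pgb578.Svd, ph K 5 (arC l c) sv = phA P la lf (arC l c) sv) (hi : c.i ≠ 0)
    {CB CF : ℕ}
    (hB : ∀ c' ∈ abod P c, Cz G W K 6 (n + 1) (arC l c') []
      (bodyT P leaf F X k (arrT P leaf F X k (c.i - 1)) c') CB)
    (hF : ∀ y ∈ csts P c, Cz G W K 4 (n + 1) (arS ((l - 1) / P.K) 0 y) [] (.ret [F y]) CF)
    (hb : ∀ y ∈ csts P c, G.base (fr K 4 (arS ((l - 1) / P.K) 0 y) []) ≤ W.Pm)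
    (zB : ∀ c' ∈ abod P c,
      (bodyT P leaf F X k (arrT P leaf F X k (c.i - 1)) c').All W.N (Wd W.M Z))
    (zF : ∀ y ∈ csts P c, F y < W.M) (ha : ArOk W.M 5 (arC l c))
    (aB : ∀ c' ∈ abod P c, ArOk W.M 6 (arC l c'))
    (aF : ∀ y ∈ csts P c, ArOk W.M 4 (arS ((l - 1) / P.K) 0 y))
    (hm : (abod P c).length + (csts P c).length ≤ Z)
    (hall : (arrT P leaf F X k c.i c).All W.N (Wd W.M Z)) :
    Cz G W K 5 (n + 2) (arC l c) [] (arrT P leaf F X k c.i c)
      ((abod P c).length * (CB + 1) + (csts P c).length * (CF + 1) + 2) := by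
  rw [arrT_pos hi] at hall ⊢
  refine arr_cz (encB := fun c' => cal 4 6 (arC l c'))
    (encF := fun y => cal 5 4 (arS ((l - 1) / P.K) 0 y)) hG hE hN ?_ (fun us hus => ?_)
    (fun c' hc' => cal4 (hB c' hc')) (fun y hy => cal5_ret (hF y hy) (hb y hy)) zB zF
    (fun c' hc' => cal_wd hE hZ (by norm_num) (aB c' hc'))
    (fun y hy => cal_wd hE hZ (by norm_num) (aF y hy)) ha hm hall
  · rw [hph, phA_zero, rqA, cOf_arC, if_neg hi]
    rfl
  · rw [hph, phA_one, fnA, cOf_arC, if_neg hi]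

/-- **ARR (tag 5), macro height `0`**: `F` by calls of tag 4, leaf values by kind 3 -/
theorem phA_cz_zero (hG : Has G K ph 5) (hE : Env W K Z) (hN : 0 < W.N) (hZ : 12 ≤ Z)
    (hph : ∀ sv : Pgb578.Svd, ph K 5 (arC l c) sv = phA P la lf (arC l c) sv) (hi : c.i = 0)
    (hl : ∀ y, leaf y = lf (g y) y) {CF CG : ℕ}
    (hF : ∀ y ∈ csts P c, Cz G W K 4 (n + 1) (arS ((l - 1) / P.K) 0 y) [] (.ret [F y]) CF)
    (hb : ∀ y ∈ csts P c, G.base (fr K 4 (arS ((l - 1) / P.K) 0 y) []) ≤ W.Pm)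
    (hL : ∀ y ∈ csts P c, W.okE (la y) ∧ W.E (la y) = [g y] ∧ W.cE (la y) ≤ CG)
    (zF : ∀ y ∈ csts P c, F y < W.M) (zG : ∀ y ∈ csts P c, g y < W.M)
    (ha : ArOk W.M 5 (arC l c)) (aF : ∀ y ∈ csts P c, ArOk W.M 4 (arS ((l - 1) / P.K) 0 y))
    (aL : ∀ y ∈ csts P c, Wd W.M Z (3 :: la y))
    (hm : (csts P c).length + (csts P c).length ≤ Z)
    (hall : (arrT P leaf F X k c.i c).All W.N (Wd W.M Z)) :
    Cz G W K 5 (n + 2) (arC l c) [] (arrT P leaf F X k c.i c)
      ((csts P c).length * (CF + 1) + (csts P c).length * (CG + 1) + 2) := by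
  rw [hi] at hall ⊢
  refine bot_cz (encF := fun y => cal 5 4 (arS ((l - 1) / P.K) 0 y)) (encG := fun y => 3 :: la y)
    hG hE hN hl ?_ (fun us hus => ?_)
    (fun y hy => cal5_ret (hF y hy) (hb y hy)) (fun y hy => ?_) zF zG
    (fun y hy => cal_wd hE hZ (by norm_num) (aF y hy)) aL ha hm hall
  · rw [hph, phA_zero, rqA, cOf_arC, if_pos hi]
    rfl
  · rw [hph, phA_one, fnA, cOf_arC, if_pos hi]
  · obtain ⟨h1, h2, h3⟩ := hL y hy
    have h4 : Rq G W (n + 1) (3 :: la y) (.ret (W.E (la y))) (W.cE (la y)) :=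
      Phe940.Rq.ext (q := 3 :: la y) (by simp [kq]) h1
    rw [wrapQ_three, ← h2]
    exact h4.mono le_rfl h3

end text

end Crest.Agent.R288.Delta222
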