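import Crest.Agent.R288.ArrC_222

/-!
# R288, [PROG] procedure ARR (helper578): `phA_cz_pos`, `phA_cz_zero` of helper222 with the text
hypothesis only at the arguments of the call (`phAll` of `PgC_578` cuts the class).
-/

set_option autoImplicit false

namespace Crest.Agent.R288.Delta222

open Crest.Agent.R295.Rnd627 Crest.Agent.R288.Alg45 Crest.Agent.R288.PrK690
  Crest.Agent.R288.Pgb578 Crest.Agent.R288.PgY583
open Crest.Agent.R288.Phe940 (Prg Wld fl Rz Rq Rqs Szo kq)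

variable {G : Prg} {W : Wld} {K : KN} {Z n : ℕ} {ph : Ph} {P : Par} {c : Cel} {l : ℕ}
  {la : St → List ℕ} {lf : ℕ → St → Option ℕ} {leaf : St → Option ℕ} {F g : St → ℕ}
  {X : ℕ → ℕ → St → ℕ} {k : ℕ}

/-- **ARR (tag 5), macro height `> 0`**: `F` by calls of tag 4, bodies by calls of tag 6 -/
theorem phA_cz_pos' (hG : Has G K ph 5) (hE : Env W K Z) (hN : 0 < W.N) (hZ : 12 ≤ Z)
    (hph : ∀ sv : Pgb578.Svd, ph K 5 (arC l c) sv = phA P la lf (arC l c) sv) (hi : c.i ≠ 0)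
    {CB CF : ℕ}
    (hB : ∀ c' ∈ abod P c, Cz G W K 6 (n + 1) (arC l c') []
      (bodyT P leaf F X k (arrT P leaf F X k (c.i - 1)) c') CB)
    (hF : ∀ y ∈ csts P c, Cz G W K 4 (n + 1) (arS ((l - 1) / P.K) 0 y) [] (.ret [F y]) CF)
    (hb : ∀ y ∈ csts P c, G.base (fr K 4 (arS ((l - 1) / P.K) 0 y) []) ≤ W.Pm)
    (zB : ∀ c' ∈ abod P c,
      (bodyT P leaf F X k (arrT P leaf F X k (c.i - 1)) c').All W.N (Wd W.M Z))
    (zF : ∀ y ∈ csts P c, F y < W.M) (ha : ArOk W.M 5 (arC l c))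
    (aB : ∀ c' ∈ abod P c, ArOk W.M 6 (arC l c'))
    (aF : ∀ y ∈ csts P c, ArOk W.M 4 (arS ((l - 1) / P.K) 0 y))
    (hm : (abod P c).length + (csts P c).length ≤ Z)
    (hall : (arrT P leaf F X k c.i c).All W.N (Wd W.M Z)) :
    Cz G W K 5 (n + 2) (arC l c) [] (arrT P leaf F X k c.i c)
      ((abod P c).length * (CB + 1) + (csts P c).length * (CF + 1) + 2) := by
  rw [arrT_pos hi] at hall ⊢
  refine arr_cz (encB := fun c' => cal 4 6 (arC l c'))
    (encF := fun y => cal 5 4 (arS ((l - 1) / P.K) 0 y)) hG hE hN ?_ (fun us hus => ?_)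
    (fun c' hc' => cal4 (hB c' hc')) (fun y hy => cal5_ret (hF y hy) (hb y hy)) zB zF
    (fun c' hc' => cal_wd hE hZ (by norm_num) (aB c' hc'))
    (fun y hy => cal_wd hE hZ (by norm_num) (aF y hy)) ha hm hall
  · rw [hph, phA_zero, rqA, cOf_arC, if_neg hi]
    rfl
  · rw [hph, phA_one, fnA, cOf_arC, if_neg hi]

/-- **ARR (tag 5), macro height `0`**: `F` by calls of tag 4, leaf values by kind 3 -/
theorem phA_cz_zero' (hG : Has G K ph 5) (hE : Env W K Z) (hN : 0 < W.N) (hZ : 12 ≤ Z)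
    (hph : ∀ sv : Pgb578.Svd, ph K 5 (arC l c) sv = phA P la lf (arC l c) sv) (hi : c.i = 0)
    (hl : ∀ y, leaf y = lf (g y) y) {CF CG : ℕ}
    (hF : ∀ y ∈ csts P c, Cz G W K 4 (n + 1) (arS ((l - 1) / P.K) 0 y) [] (.ret [F y]) CF)
    (hb : ∀ y ∈ csts P c, G.base (fr K 4 (arS ((l - 1) / P.K) 0 y) []) ≤ W.Pm)
    (hL : ∀ y ∈ csts P c, W.okE (la y) ∧ W.E (la y) = [g y] ∧ W.cE (la y) ≤ CG)
    (zF : ∀ y ∈ csts P c, F y < W.M) (zG : ∀ y ∈ csts P c, g y < W.M)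
    (ha : ArOk W.M 5 (arC l c)) (aF : ∀ y ∈ csts P c, ArOk W.M 4 (arS ((l - 1) / P.K) 0 y))
    (aL : ∀ y ∈ csts P c, Wd W.M Z (3 :: la y))
    (hm : (csts P c).length + (csts P c).length ≤ Z)
    (hall : (arrT P leaf F X k c.i c).All W.N (Wd W.M Z)) :
    Cz G W K 5 (n + 2) (arC l c) [] (arrT P leaf F X k c.i c)
      ((csts P c).length * (CF + 1) + (csts P c).length * (CG + 1) + 2) := by
  rw [hi] at hall ⊢
  refine bot_cz (encF := fun y => cal 5 4 (arS ((l - 1) / P.K) 0 y)) (encG := fun y => 3 :: la y)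
    hG hE hN hl ?_ (fun us hus => ?_)
    (fun y hy => cal5_ret (hF y hy) (hb y hy)) (fun y hy => ?_) zF zG
    (fun y hy => cal_wd hE hZ (by norm_num) (aF y hy)) aL ha hm hall
  · rw [hph, phA_zero, rqA, cOf_arC, if_pos hi]
    rfl
  · rw [hph, phA_one, fnA, cOf_arC, if_pos hi]
  · obtain ⟨h1, h2, h3⟩ := hL y hy
    have h4 : Rq G W (n + 1) (3 :: la y) (.ret (W.E (la y))) (W.cE (la y)) :=
      Phe940.Rq.ext (q := 3 :: la y) (by simp [kq]) h1
    rw [wrapQ_three, ← h2]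
    exact h4.mono le_rfl h3

end Crest.Agent.R288.Delta222
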