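import Crest.Agent.R288.AlgB_45

/-!
# R288, [ALG]: cells and tables of `AlgB_45` (helper488)

* `rd_le`, `lt_rd_add`, `dvd_rd`, `rd_of_dvd`  : rounding of a diagonal
* `Gr κ y`      : the state `y` is on the grid of class `κ`;  `gr_rdn`, `dist_rdn`
* `InC c y`     : `y` is a grid state of the cell `c`
* `clp_*`        : clamping to the domain
* `cidx_lt`, `cst_cidx`, `gr_cst`, `inD_cst`     : enumeration of a cell
* `rdt_tabC`    : reading a tabulated function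
* `inC_celOf`   : a grid state with `|v - u| ≤ 8 * 2^κ` is in its cell
* `mem_cellsIn`, `length_cellsIn`, `nodup_cellsIn`
* `mem_menu`    : membership in the menu
-/

set_option autoImplicit false

namespace Crest.Agent.R288.Alg45.Cell488

open Crest.Agent.R288.Alg45

variable (P : Par) {κ κ' r : ℕ}

/-! ### grids -/

theorem gst_pos (κ : ℕ) : 0 < gst P κ := Nat.two_pow_pos _

theorem gst_posZ (κ : ℕ) : (0 : ℤ) < (gst P κ : ℤ) := by exact_mod_cast gst_pos P κ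

theorem gpt_pos (κ : ℕ) : 0 < gpt P κ := Nat.two_pow_pos _

/-- the grid has `gpt` points per `2^κ` -/
theorem gpt_mul_gst (κ : ℕ) : gpt P κ * gst P κ = 2 ^ κ := by
  unfold gpt gst
  rw [← pow_add]
  congr 1
  omega

theorem gpt_mul_gstZ (κ : ℕ) : (gpt P κ : ℤ) * (gst P κ : ℤ) = 2 ^ κ := by
  exact_mod_cast gpt_mul_gst P κ

theorem gst_dvd (κ : ℕ) : (gst P κ : ℤ) ∣ 2 ^ κ := ⟨_, by rw [mul_comm]; exact (gpt_mul_gstZ P κ).symm⟩

/-- grids are nested -/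
theorem gst_dvd_gst {κ κ' : ℕ} (h : κ ≤ κ') : (gst P κ : ℤ) ∣ (gst P κ' : ℤ) := by
  have : gst P κ ∣ gst P κ' := Nat.pow_dvd_pow 2 (by omega)
  exact_mod_cast this

theorem gst_mono {κ κ' : ℕ} (h : κ ≤ κ') : gst P κ ≤ gst P κ' :=
  Nat.pow_le_pow_right (by norm_num) (by omega)

theorem gst_le (κ : ℕ) : gst P κ ≤ 2 ^ κ := Nat.pow_le_pow_right (by norm_num) (by omega)

theorem rd_le (κ : ℕ) (u : ℤ) : rd P κ u ≤ u := Int.ediv_mul_le u (gst_posZ P κ).ne'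

theorem lt_rd_add (κ : ℕ) (u : ℤ) : u < rd P κ u + gst P κ := by
  have := Int.lt_ediv_add_one_mul_self u (gst_posZ P κ)
  unfold rd
  linarith

theorem dvd_rd (κ : ℕ) (u : ℤ) : (gst P κ : ℤ) ∣ rd P κ u := Dvd.intro_left _ rfl

theorem rd_of_dvd {u : ℤ} (h : (gst P κ : ℤ) ∣ u) : rd P κ u = u := Int.ediv_mul_cancel h

theorem rd_mono {u v : ℤ} (h : u ≤ v) : rd P κ u ≤ rd P κ v :=
  Int.mul_le_mul_of_nonneg_right (Int.ediv_le_ediv (gst_posZ P κ) h) (gst_posZ P κ).le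

theorem natAbs_sub_rd (κ : ℕ) (u : ℤ) : (u - rd P κ u).natAbs < gst P κ := by
  have h1 := rd_le P κ u
  have h2 := lt_rd_add P κ u
  omega

/-- `y` is on the grid of class `κ` -/
def Gr (κ : ℕ) (y : St) : Prop := (gst P κ : ℤ) ∣ y.u ∧ (gst P κ : ℤ) ∣ y.v

theorem gr_rdn (κ : ℕ) (y : St) : Gr P κ (rdn P κ y) := ⟨dvd_rd P κ _, dvd_rd P κ _⟩

theorem Gr.mono {y : St} {κ κ' : ℕ} (h : Gr P κ' y) (hk : κ ≤ κ') : Gr P κ y :=
  ⟨(gst_dvd_gst P hk).trans h.1, (gst_dvd_gst P hk).trans h.2⟩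

theorem rdn_of_gr {y : St} (h : Gr P κ y) : rdn P κ y = y := by
  unfold rdn
  rw [rd_of_dvd P h.1, rd_of_dvd P h.2]

@[simp] theorem rdn_i (κ : ℕ) (y : St) : (rdn P κ y).i = y.i := rfl
@[simp] theorem rdn_j (κ : ℕ) (y : St) : (rdn P κ y).j = y.j := rfl
@[simp] theorem rdn_u (κ : ℕ) (y : St) : (rdn P κ y).u = rd P κ y.u := rfl
@[simp] theorem rdn_v (κ : ℕ) (y : St) : (rdn P κ y).v = rd P κ y.v := rfl

theorem dist_comm (y z : St) : dist y z = dist z y := by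
  unfold dist
  omega

theorem dist_self (y : St) : dist y y = 0 := by simp [dist]

theorem dist_triangle (x y z : St) : dist x z ≤ dist x y + dist y z := by
  unfold dist
  omega

/-- rounding moves a state by less than two grid steps -/
theorem dist_rdn (κ : ℕ) (y : St) : dist y (rdn P κ y) ≤ 2 * (gst P κ - 1) := by
  have h1 := natAbs_sub_rd P κ y.u
  have h2 := natAbs_sub_rd P κ y.v
  unfold dist
  simp only [rdn_u, rdn_v]
  omega

theorem dist_rdn_lt (κ : ℕ) (y : St) : dist y (rdn P κ y) < 2 * gst P κ := by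
  have := dist_rdn P κ y
  have := gst_pos P κ
  omega

/-- the difference of the two diagonals after rounding -/
theorem natAbs_rdn (κ : ℕ) (y : St) :
    ((rdn P κ y).v - (rdn P κ y).u).natAbs < (y.v - y.u).natAbs + gst P κ := by
  have h1 := rd_le P κ y.u
  have h2 := lt_rd_add P κ y.u
  have h3 := rd_le P κ y.v
  have h4 := lt_rd_add P κ y.v
  simp only [rdn_u, rdn_v]
  omega

/-! ### the domain -/

theorem clp_of_le {u : ℤ} (h : u.natAbs ≤ P.Dm) : clp P u = u := by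
  unfold clp
  omega

theorem natAbs_clp_le (u : ℤ) : (clp P u).natAbs ≤ P.Dm := by
  unfold clp
  omega

theorem clp_mono {u v : ℤ} (h : u ≤ v) : clp P u ≤ clp P v := by
  unfold clp
  omega

/-- clamping does not increase distances -/
theorem natAbs_clp_sub (u v : ℤ) : (clp P u - clp P v).natAbs ≤ (u - v).natAbs := by
  unfold clp
  omega

theorem dvd_clp {g u : ℤ} (hD : g ∣ (P.Dm : ℤ)) (hu : g ∣ u) : g ∣ clp P u := by
  have h : clp P u = -(P.Dm : ℤ) ∨ clp P u = P.Dm ∨ clp P u = u := by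
    unfold clp
    omega
  rcases h with h | h | h <;> rw [h]
  · exact (dvd_neg).2 hD
  · exact hD
  · exact hu

/-- rounding stays in the domain -/
theorem inD_rdn {y : St} (hD : (gst P κ : ℤ) ∣ (P.Dm : ℤ)) (h : inD P y) : inD P (rdn P κ y) := by
  have key : ∀ u : ℤ, u.natAbs ≤ P.Dm → (rd P κ u).natAbs ≤ P.Dm := by
    intro u hu
    have h1 := rd_le P κ u
    have h2 : -(P.Dm : ℤ) ≤ rd P κ u := by
      have h3 : rd P κ (-(P.Dm : ℤ)) = -(P.Dm : ℤ) := rd_of_dvd P ((dvd_neg).2 hD)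
      rw [← h3]
      exact rd_mono P (by omega)
    omega
  exact ⟨key _ h.1, key _ h.2⟩

/-! ### cells -/

/-- `y` is a grid state of the cell `c`, in the domain -/
structure InC (c : Cel) (y : St) : Prop where
  hi : y.i = c.i
  hj : y.j = c.j
  gr : Gr P c.κ y
  dom : inD P y
  u1 : c.m * 2 ^ c.κ ≤ y.u
  u2 : y.u < (c.m + 1) * 2 ^ c.κ
  v1 : (c.m - 8) * 2 ^ c.κ ≤ y.v
  v2 : y.v ≤ (c.m + 9) * 2 ^ c.κ

theorem cu_pos (κ : ℕ) : 0 < cu P κ := gpt_pos P κ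
theorem cv_pos (κ : ℕ) : 0 < cv P κ := by unfold cv; omega

theorem cidx_eq {c : Cel} {y : St} {a b : ℕ}
    (hu : y.u = c.m * 2 ^ c.κ + (a : ℤ) * (gst P c.κ : ℤ))
    (hv : y.v = (c.m - 8) * 2 ^ c.κ + (b : ℤ) * (gst P c.κ : ℤ)) :
    cidx P c y = a * cv P c.κ + b := by
  have hg := gst_posZ P c.κ
  unfold cidx
  rw [hu, hv]
  simp only [add_sub_cancel_left, Int.mul_ediv_cancel _ hg.ne', Int.toNat_natCast]

theorem inD_cst (c : Cel) (t : ℕ) : inD P (cst P c t) :=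
  ⟨natAbs_clp_le P _, natAbs_clp_le P _⟩

/-- the states of a cell are grid states -/
theorem gr_cst {c : Cel} (hD : (gst P c.κ : ℤ) ∣ (P.Dm : ℤ)) (t : ℕ) : Gr P c.κ (cst P c t) :=
  ⟨dvd_clp P hD (dvd_add (dvd_mul_of_dvd_right (gst_dvd P c.κ) _) (Dvd.intro_left _ rfl)),
    dvd_clp P hD (dvd_add (dvd_mul_of_dvd_right (gst_dvd P c.κ) _) (Dvd.intro_left _ rfl))⟩

theorem InC.idx {c : Cel} {y : St} (h : InC P c y) :
    ∃ a b : ℕ, a < cu P c.κ ∧ b < cv P c.κ ∧ y.u = c.m * 2 ^ c.κ + (a : ℤ) * (gst P c.κ : ℤ) ∧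
      y.v = (c.m - 8) * 2 ^ c.κ + (b : ℤ) * (gst P c.κ : ℤ) := by
  have hg := gst_posZ P c.κ
  have hgg := gpt_mul_gstZ P c.κ
  obtain ⟨a, ha⟩ : (gst P c.κ : ℤ) ∣ y.u - c.m * 2 ^ c.κ :=
    dvd_sub h.gr.1 (dvd_mul_of_dvd_right (gst_dvd P c.κ) _)
  obtain ⟨b, hb⟩ : (gst P c.κ : ℤ) ∣ y.v - (c.m - 8) * 2 ^ c.κ :=
    dvd_sub h.gr.2 (dvd_mul_of_dvd_right (gst_dvd P c.κ) _)
  have h1 := h.u1
  have h2 := h.u2
  have h3 := h.v1
  have h4 := h.v2
  have ha0 : 0 ≤ a := by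
    by_contra hc
    have : (gst P c.κ : ℤ) * a < 0 := mul_neg_of_pos_of_neg hg (by omega)
    linarith
  have hb0 : 0 ≤ b := by
    by_contra hc
    have : (gst P c.κ : ℤ) * b < 0 := mul_neg_of_pos_of_neg hg (by omega)
    linarith
  have ha1 : a < (gpt P c.κ : ℤ) := by
    by_contra hc
    have h5 : (gst P c.κ : ℤ) * (gpt P c.κ : ℤ) ≤ (gst P c.κ : ℤ) * a :=
      mul_le_mul_of_nonneg_left (by omega) hg.le
    rw [mul_comm, hgg] at h5
    linarith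
  have hb1 : b ≤ 17 * (gpt P c.κ : ℤ) := by
    by_contra hc
    have h5 : (gst P c.κ : ℤ) * (17 * (gpt P c.κ : ℤ) + 1) ≤ (gst P c.κ : ℤ) * b :=
      mul_le_mul_of_nonneg_left (by omega) hg.le
    have h6 : (gst P c.κ : ℤ) * (17 * (gpt P c.κ : ℤ) + 1) =
        17 * ((gpt P c.κ : ℤ) * (gst P c.κ : ℤ)) + (gst P c.κ : ℤ) := by ring
    rw [h6, hgg] at h5
    linarith
  refine ⟨a.toNat, b.toNat, ?_, ?_, ?_, ?_⟩
  · unfold cu; omega
  · unfold cv; omega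
  · rw [Int.toNat_of_nonneg ha0]; linarith
  · rw [Int.toNat_of_nonneg hb0]; linarith

theorem cidx_lt {c : Cel} {y : St} (h : InC P c y) : cidx P c y < csz P c.κ := by
  have hg := gst_posZ P c.κ
  obtain ⟨a, b, ha, hb, hu, hv⟩ := h.idx P
  unfold cidx
  rw [hu, hv]
  simp only [add_sub_cancel_left, Int.mul_ediv_cancel _ hg.ne', Int.toNat_natCast]
  unfold csz
  calc a * cv P c.κ + b < a * cv P c.κ + cv P c.κ := by omega
    _ = (a + 1) * cv P c.κ := by ring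
    _ ≤ cu P c.κ * cv P c.κ := Nat.mul_le_mul_right _ ha

theorem cst_cidx {c : Cel} {y : St} (h : InC P c y) : cst P c (cidx P c y) = y := by
  obtain ⟨a, b, ha, hb, hu, hv⟩ := h.idx P
  have hi : cidx P c y = a * cv P c.κ + b := cidx_eq P hu hv
  have h1 : (a * cv P c.κ + b) / cv P c.κ = a := by
    rw [mul_comm, Nat.mul_add_div (cv_pos P c.κ), Nat.div_eq_of_lt hb, add_zero]
  have h2 : (a * cv P c.κ + b) % cv P c.κ = b := by
    rw [mul_comm, Nat.mul_add_mod, Nat.mod_eq_of_lt hb]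
  unfold cst
  rw [hi, h1, h2, ← hu, ← hv, ← h.hi, ← h.hj, clp_of_le P h.dom.1, clp_of_le P h.dom.2]

theorem length_tabC (c : Cel) (f : St → ℕ) : (tabC P c f).length = csz P c.κ := by
  simp [tabC]

/-- reading a tabulated function -/
theorem rdt_tabC {c : Cel} {y : St} (h : InC P c y) (f : St → ℕ) : rdt P c (tabC P c f) y = f y := by
  unfold rdt tabC
  rw [List.getD_eq_getElem?_getD, List.getElem?_map, List.getElem?_range (cidx_lt P h)]
  simp only [Option.map_some, Option.getD_some]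
  rw [cst_cidx P h]

/-- reading a mapped range -/
theorem rdt_map_range {c : Cel} {y : St} (h : InC P c y) (g : ℕ → ℕ) :
    rdt P c ((List.range (csz P c.κ)).map g) y = g (cidx P c y) := by
  unfold rdt
  rw [List.getD_eq_getElem?_getD, List.getElem?_map, List.getElem?_range (cidx_lt P h)]
  simp only [Option.map_some, Option.getD_some]

/-- a grid state with `|v - u| ≤ 8 * 2^κ` is in its cell -/
theorem inC_celOf {y : St} (hd : inD P y) (hg : Gr P κ y)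
    (h : (y.v - y.u).natAbs ≤ 8 * 2 ^ κ) : InC P (celOf κ y) y := by
  have hp : (0 : ℤ) < 2 ^ κ := by positivity
  have h1 : y.u / 2 ^ κ * 2 ^ κ ≤ y.u := Int.ediv_mul_le _ hp.ne'
  have h2 : y.u < (y.u / 2 ^ κ + 1) * 2 ^ κ := Int.lt_ediv_add_one_mul_self _ hp
  have h3 : |y.v - y.u| ≤ 8 * 2 ^ κ := by
    rw [Int.abs_eq_natAbs]
    exact_mod_cast h
  obtain ⟨h4, h5⟩ := abs_le.1 h3
  refine ⟨rfl, rfl, hg, hd, h1, h2, ?_, ?_⟩
  · show (y.u / 2 ^ κ - 8) * 2 ^ κ ≤ y.v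
    linarith
  · show y.v ≤ (y.u / 2 ^ κ + 9) * 2 ^ κ
    linarith

/-- the cell of a grid state of the cell `c` is `c` -/
theorem InC.celOf_eq {c : Cel} {y : St} (h : InC P c y) : celOf c.κ y = c := by
  have hp : (0 : ℤ) < 2 ^ c.κ := by positivity
  have h1 : y.u / 2 ^ c.κ = c.m := by
    rw [Int.ediv_eq_iff_of_pos hp]
    exact ⟨h.u1, by have := h.u2; linarith⟩
  unfold celOf
  rw [h1, h.hi, h.hj]

/-! ### cells of another class -/

theorem cellsIn_eq (r κ : ℕ) (m : ℤ) (κ' : ℕ) :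
    cellsIn r κ m κ' = (List.range ((m + 1 + r) * 2 ^ κ / 2 ^ κ' - (m - r) * 2 ^ κ / 2 ^ κ' + 1).toNat).map
      fun t : ℕ => (m - r) * 2 ^ κ / 2 ^ κ' + (t : ℤ) := by
  unfold cellsIn
  simp only [List.pure_def, List.bind_eq_flatMap, ← List.map_eq_flatMap, List.map_map]
  rfl

theorem mem_cellsIn {r κ κ' : ℕ} {m m' : ℤ} :
    m' ∈ cellsIn r κ m κ' ↔ (m - r) * 2 ^ κ / 2 ^ κ' ≤ m' ∧ m' ≤ (m + 1 + r) * 2 ^ κ / 2 ^ κ' := by
  rw [cellsIn_eq]
  simp only [List.mem_map, List.mem_range]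
  constructor
  · rintro ⟨t, ht, rfl⟩
    omega
  · rintro ⟨h1, h2⟩
    exact ⟨(m' - (m - r) * 2 ^ κ / 2 ^ κ').toNat, by omega, by omega⟩

theorem nodup_cellsIn (r κ : ℕ) (m : ℤ) (κ' : ℕ) : (cellsIn r κ m κ').Nodup := by
  rw [cellsIn_eq]
  refine List.Nodup.map ?_ List.nodup_range
  intro a b h
  simpa using h

/-- the cells of the states whose first diagonal is in the range -/
theorem mem_cellsIn_of {r κ κ' : ℕ} {m : ℤ} {u : ℤ} (h1 : (m - r) * 2 ^ κ ≤ u)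
    (h2 : u ≤ (m + 1 + r) * 2 ^ κ) : u / 2 ^ κ' ∈ cellsIn r κ m κ' := by
  rw [mem_cellsIn]
  have hp : (0 : ℤ) < 2 ^ κ' := by positivity
  exact ⟨Int.ediv_le_ediv hp h1, Int.ediv_le_ediv hp h2⟩

/-- number of cells of a smaller class -/
theorem length_cellsIn {r κ κ' : ℕ} {m : ℤ} (h : κ' ≤ κ) :
    (cellsIn r κ m κ').length = (2 * r + 1) * 2 ^ (κ - κ') + 1 := by
  have hp : (0 : ℤ) < 2 ^ κ' := by positivity
  have hk : (2 : ℤ) ^ κ = 2 ^ (κ - κ') * 2 ^ κ' := by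
    rw [← pow_add]; congr 1; omega
  have e1 : (m - r) * 2 ^ κ / 2 ^ κ' = (m - r) * 2 ^ (κ - κ') := by
    rw [hk, ← mul_assoc, Int.mul_ediv_cancel _ hp.ne']
  have e2 : (m + 1 + r) * 2 ^ κ / 2 ^ κ' = (m + 1 + r) * 2 ^ (κ - κ') := by
    rw [hk, ← mul_assoc, Int.mul_ediv_cancel _ hp.ne']
  rw [cellsIn_eq]
  simp only [List.length_map, List.length_range]
  rw [e1, e2]
  have e3 : (m + 1 + r) * 2 ^ (κ - κ') - (m - r) * 2 ^ (κ - κ') + 1 =
      (((2 * r + 1) * 2 ^ (κ - κ') + 1 : ℕ) : ℤ) := by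
    push_cast
    ring
  rw [e3, Int.toNat_natCast]

/-- number of cells of any class -/
theorem length_cellsIn_le {r κ κ' : ℕ} {m : ℤ} :
    (cellsIn r κ m κ').length ≤ (2 * r + 1) * 2 ^ (κ - κ') + 2 := by
  rcases Nat.le_total κ' κ with h | h
  · rw [length_cellsIn h]; omega
  · have hp : (0 : ℤ) < 2 ^ κ' := by positivity
    have hk : (2 : ℤ) ^ κ ≤ 2 ^ κ' := by exact_mod_cast Nat.pow_le_pow_right (by norm_num) h
    rw [cellsIn_eq]
    simp only [List.length_map, List.length_range]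
    have e0 : κ - κ' = 0 := by omega
    rw [e0, pow_zero, mul_one]
    have h1 : (m + 1 + r) * 2 ^ κ ≤ (m - r) * 2 ^ κ + (2 * r + 1) * 2 ^ κ' := by nlinarith
    have h2 : (m + 1 + r) * 2 ^ κ / 2 ^ κ' ≤ (m - r) * 2 ^ κ / 2 ^ κ' + (2 * r + 1) := by
      calc (m + 1 + r) * 2 ^ κ / 2 ^ κ' ≤ ((m - r) * 2 ^ κ + (2 * r + 1) * 2 ^ κ') / 2 ^ κ' :=
            Int.ediv_le_ediv hp h1
        _ = _ := Int.add_mul_ediv_right _ _ hp.ne'
    omega

/-! ### the menu -/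

theorem menu_eq (κ' ρ : ℕ) (y : St) : menu P κ' ρ y =
    (List.range (2 * (ρ / gst P κ') + 3)).flatMap fun a : ℕ =>
    (List.range (2 * (ρ / gst P κ') + 3)).map fun b : ℕ =>
      { y with
        u := clp P (rd P κ' y.u + ((a : ℤ) - (ρ / gst P κ' + 1 : ℕ)) * (gst P κ' : ℤ))
        v := clp P (rd P κ' y.v + ((b : ℤ) - (ρ / gst P κ' + 1 : ℕ)) * (gst P κ' : ℤ)) } := by
  unfold menu
  simp only [List.pure_def, List.bind_eq_flatMap, ← List.map_eq_flatMap, List.map_map,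
    List.flatMap_map]
  rfl

theorem mem_menu {κ' ρ : ℕ} {y z : St} :
    z ∈ menu P κ' ρ y ↔ ∃ a b : ℤ, a.natAbs ≤ ρ / gst P κ' + 1 ∧ b.natAbs ≤ ρ / gst P κ' + 1 ∧
      z = { y with
        u := clp P (rd P κ' y.u + a * gst P κ')
        v := clp P (rd P κ' y.v + b * gst P κ') } := by
  rw [menu_eq]
  simp only [List.mem_flatMap, List.mem_map, List.mem_range]
  generalize ρ / gst P κ' = w
  constructor
  · rintro ⟨a, ha, b, hb, rfl⟩
    exact ⟨(a : ℤ) - (w + 1 : ℕ), (b : ℤ) - (w + 1 : ℕ), by omega, by omega, rfl⟩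
  · rintro ⟨a, b, ha, hb, rfl⟩
    refine ⟨(a + (w + 1 : ℕ)).toNat, by omega, (b + (w + 1 : ℕ)).toNat, by omega, ?_⟩
    have e1 : (((a + (w + 1 : ℕ)).toNat : ℕ) : ℤ) - (w + 1 : ℕ) = a := by omega
    have e2 : (((b + (w + 1 : ℕ)).toNat : ℕ) : ℤ) - (w + 1 : ℕ) = b := by omega
    rw [e1, e2]

/-- all grid states of the block and of the domain at distance `≤ ρ` in each end are in the menu -/
theorem mem_menu_of {κ' ρ : ℕ} {y z : St} (hi : z.i = y.i) (hj : z.j = y.j) (hd : inD P z)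
    (hg : Gr P κ' z) (hu : (y.u - z.u).natAbs ≤ ρ) (hv : (y.v - z.v).natAbs ≤ ρ) :
    z ∈ menu P κ' ρ y := by
  have key : ∀ u w : ℤ, (gst P κ' : ℤ) ∣ w → (u - w).natAbs ≤ ρ →
      ∃ a : ℤ, a.natAbs ≤ ρ / gst P κ' + 1 ∧ w = rd P κ' u + a * gst P κ' := by
    intro u w hw h
    have hg := gst_pos P κ'
    obtain ⟨a, ha⟩ : (gst P κ' : ℤ) ∣ w - rd P κ' u := dvd_sub hw (dvd_rd P κ' u)
    refine ⟨a, ?_, by rw [mul_comm]; linarith⟩
    have h1 := rd_le P κ' u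
    have h2 := lt_rd_add P κ' u
    have h3 : (w - rd P κ' u).natAbs < ρ + gst P κ' := by omega
    rw [ha, Int.natAbs_mul, Int.natAbs_natCast] at h3
    have h4 : a.natAbs < (ρ + gst P κ') / gst P κ' + 1 := by
      rw [mul_comm] at h3
      have := (Nat.lt_div_mul_add (a := ρ + gst P κ') hg)
      by_contra hc
      have h5 : ((ρ + gst P κ') / gst P κ' + 1) * gst P κ' ≤ a.natAbs * gst P κ' :=
        Nat.mul_le_mul_right _ (by omega)
      rw [add_mul, one_mul] at h5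
      omega
    rw [Nat.add_div_right _ hg] at h4
    omega
  obtain ⟨a, ha, hua⟩ := key y.u z.u hg.1 hu
  obtain ⟨b, hb, hvb⟩ := key y.v z.v hg.2 hv
  rw [mem_menu]
  refine ⟨a, b, ha, hb, ?_⟩
  rw [← hua, ← hvb, clp_of_le P hd.1, clp_of_le P hd.2, ← hi, ← hj]

theorem gr_of_mem_menu {κ' ρ : ℕ} {y z : St} (hD : (gst P κ' : ℤ) ∣ (P.Dm : ℤ))
    (h : z ∈ menu P κ' ρ y) : Gr P κ' z ∧ inD P z ∧ z.i = y.i ∧ z.j = y.j := by
  obtain ⟨a, b, -, -, rfl⟩ := (mem_menu P).1 h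
  refine ⟨⟨?_, ?_⟩, ⟨natAbs_clp_le P _, natAbs_clp_le P _⟩, rfl, rfl⟩
  · exact dvd_clp P hD (dvd_add (dvd_rd P κ' _) (Dvd.intro_left _ rfl))
  · exact dvd_clp P hD (dvd_add (dvd_rd P κ' _) (Dvd.intro_left _ rfl))

end Crest.Agent.R288.Alg45.Cell488
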