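import Crest.Agent.R288.ArrB_147
import Crest.Agent.R288.CellA_488

/-!
# Row 288, geometry of the jump of ALG v2.1 (helper147)

Cells, entries and menus of `arrOf`:

* `Meets P c` : the cell meets the domain; `InC.meets`, `cst_inC` (every state of such a cell lies in it).
* `mem_acells`, `own_mem`, `acell_spec`, `zof_inC` : every entry of the jump is a grid state of the domain
  in its own cell.
* `exists_entry`, `mem_acells_near`, `exists_mnu` : every near grid state of an allowed class is in the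
  menu.
* `adm_inC`, `adm_F_lt`, `adm_le_F`, `pair_cases` : an admissible pair `(κ', z)` of the block is in the menu
  of `y`, or it is not better than retiring at `y`; `nadm_cases` : inadmissible entries.
* `Ev_body_entry`, `Ev_jval_body` : law of an entry = law of the body value at the pair.
-/

set_option autoImplicit false

namespace Crest.Agent.R288.ArrG147

open Finset Crest.Agent.R295.Rnd627 Crest.Agent.R288.Alg45 Crest.Agent.R288.Alg45.Cell488
  Crest.Agent.R288.ArrB147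

variable (P : Par)

/-! ### cells which meet the domain -/

/-- the cell meets the domain -/
def Meets (c : Cel) : Prop :=
  c.m * 2 ^ c.κ ≤ (P.Dm : ℤ) ∧ -(P.Dm : ℤ) < (c.m + 1) * 2 ^ c.κ

theorem meets_of_inC {c : Cel} {y : St} (h : InC P c y) : Meets P c := by
  have h1 := h.u1
  have h2 := h.u2
  have h3 := h.dom.1
  constructor
  · omega
  · omega

theorem pow2_pos (κ : ℕ) : (0 : ℤ) < 2 ^ κ := by positivity

/-- every state of a cell which meets the domain lies in the cell -/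
theorem cst_inC {c : Cel} (hm : Meets P c) (hD : (gst P c.κ : ℤ) ∣ (P.Dm : ℤ)) {t : ℕ}
    (ht : t < csz P c.κ) : InC P c (cst P c t) := by
  have hg := gst_posZ P c.κ
  have hgg := gpt_mul_gstZ P c.κ
  have hp := pow2_pos c.κ
  obtain ⟨hm1, hm2⟩ := hm
  have ha : t / cv P c.κ < gpt P c.κ := Nat.div_lt_of_lt_mul (by rw [mul_comm]; exact ht)
  have hb : t % cv P c.κ < 17 * gpt P c.κ + 1 := Nat.mod_lt _ (cv_pos P c.κ)
  have ha' : ((t / cv P c.κ : ℕ) : ℤ) * (gst P c.κ : ℤ) < 2 ^ c.κ := by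
    rw [← hgg]
    exact mul_lt_mul_of_pos_right (by exact_mod_cast ha) hg
  have ha0 : (0 : ℤ) ≤ ((t / cv P c.κ : ℕ) : ℤ) * (gst P c.κ : ℤ) := by positivity
  have hb' : ((t % cv P c.κ : ℕ) : ℤ) * (gst P c.κ : ℤ) ≤ 17 * 2 ^ c.κ := by
    rw [← hgg, ← mul_assoc]
    refine mul_le_mul_of_nonneg_right ?_ hg.le
    have : t % cv P c.κ ≤ 17 * gpt P c.κ := by omega
    exact_mod_cast this
  have hb0 : (0 : ℤ) ≤ ((t % cv P c.κ : ℕ) : ℤ) * (gst P c.κ : ℤ) := by positivity
  -- a common point of the cell and of the domain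
  have hw : ∃ w : ℤ, c.m * 2 ^ c.κ ≤ w ∧ w < (c.m + 1) * 2 ^ c.κ ∧ -(P.Dm : ℤ) ≤ w ∧ w ≤ P.Dm := by
    rcases le_total (-(P.Dm : ℤ)) (c.m * 2 ^ c.κ) with h | h
    · exact ⟨c.m * 2 ^ c.κ, le_rfl, by linarith, h, hm1⟩
    · exact ⟨-(P.Dm : ℤ), h, hm2, le_rfl, by omega⟩
  obtain ⟨w, hw1, hw2, hw3, hw4⟩ := hw
  refine ⟨rfl, rfl, gr_cst P hD t, inD_cst P c t, ?_, ?_, ?_, ?_⟩
  · show c.m * 2 ^ c.κ ≤ clp P (c.m * 2 ^ c.κ + ((t / cv P c.κ : ℕ) : ℤ) * (gst P c.κ : ℤ))
    unfold clp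
    generalize ((t / cv P c.κ : ℕ) : ℤ) * (gst P c.κ : ℤ) = a at *
    omega
  · show clp P (c.m * 2 ^ c.κ + ((t / cv P c.κ : ℕ) : ℤ) * (gst P c.κ : ℤ)) < (c.m + 1) * 2 ^ c.κ
    have e : (c.m + 1) * 2 ^ c.κ = c.m * 2 ^ c.κ + 2 ^ c.κ := by ring
    rw [e] at hw2 ⊢
    unfold clp
    generalize ((t / cv P c.κ : ℕ) : ℤ) * (gst P c.κ : ℤ) = a at *
    omega
  · show (c.m - 8) * 2 ^ c.κ ≤
      clp P ((c.m - 8) * 2 ^ c.κ + ((t % cv P c.κ : ℕ) : ℤ) * (gst P c.κ : ℤ))
    have e : (c.m - 8) * 2 ^ c.κ = c.m * 2 ^ c.κ - 8 * 2 ^ c.κ := by ring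
    rw [e]
    unfold clp
    generalize ((t % cv P c.κ : ℕ) : ℤ) * (gst P c.κ : ℤ) = a at *
    omega
  · show clp P ((c.m - 8) * 2 ^ c.κ + ((t % cv P c.κ : ℕ) : ℤ) * (gst P c.κ : ℤ)) ≤
      (c.m + 9) * 2 ^ c.κ
    have e : (c.m - 8) * 2 ^ c.κ = c.m * 2 ^ c.κ - 8 * 2 ^ c.κ := by ring
    have e' : (c.m + 9) * 2 ^ c.κ = c.m * 2 ^ c.κ + 9 * 2 ^ c.κ := by ring
    have e'' : (c.m + 1) * 2 ^ c.κ = c.m * 2 ^ c.κ + 2 ^ c.κ := by ring
    rw [e''] at hw2
    rw [e, e']
    unfold clp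
    generalize ((t % cv P c.κ : ℕ) : ℤ) * (gst P c.κ : ℤ) = a at *
    omega

/-! ### the list of cells -/

theorem mem_jCl {κ κ' : ℕ} : κ' ∈ jCl P κ ↔ κ - P.a1 ≤ κ' ∧ κ' ≤ κ + P.a2 := by
  unfold jCl rngC
  simp only [List.mem_map, List.mem_range]
  constructor
  · rintro ⟨t, ht, rfl⟩
    omega
  · rintro ⟨h1, h2⟩
    exact ⟨κ' - (κ - P.a1), by omega, by omega⟩

theorem mem_acells {κ : ℕ} {m : ℤ} {κ' : ℕ} {m' : ℤ} : (κ', m') ∈ acells P κ m ↔
    κ' ∈ jCl P κ ∧ m' ∈ cellsIn P.r κ m κ' ∧ m' * 2 ^ κ' ≤ (P.Dm : ℤ) ∧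
      -(P.Dm : ℤ) < (m' + 1) * 2 ^ κ' := by
  unfold acells
  simp only [List.mem_flatMap, List.mem_map, List.mem_filter, Prod.mk.injEq, Bool.and_eq_true,
    decide_eq_true_eq]
  constructor
  · rintro ⟨a, ha, b, ⟨hb, h1, h2⟩, rfl, rfl⟩
    exact ⟨ha, hb, h1, h2⟩
  · rintro ⟨h1, h2, h3, h4⟩
    exact ⟨κ', h1, m', ⟨h2, h3, h4⟩, rfl, rfl⟩

theorem own_mem_acells {c : Cel} (h : Meets P c) : (c.κ, c.m) ∈ acells P c.κ c.m := by
  refine (mem_acells P).2 ⟨(mem_jCl P).2 ⟨by omega, by omega⟩, mem_cellsIn.2 ⟨?_, ?_⟩, h.1, h.2⟩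
  · rw [Int.mul_ediv_cancel _ (pow2_pos c.κ).ne']
    have : (0 : ℤ) ≤ P.r := by positivity
    linarith
  · rw [Int.mul_ediv_cancel _ (pow2_pos c.κ).ne']
    have : (0 : ℤ) ≤ P.r := by positivity
    linarith

/-- cell number `p` of the list -/
theorem acell_spec {c : Cel} {p : ℕ} (hp : p < (acells P c.κ c.m).length) :
    ((acell P c p).κ, (acell P c p).m) ∈ acells P c.κ c.m ∧ (acell P c p).i = c.i ∧
      (acell P c p).j = c.j := by
  refine ⟨?_, rfl, rfl⟩
  unfold acell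
  rw [List.getD_eq_getElem _ _ hp]
  exact List.getElem_mem hp

theorem acell_meets {c : Cel} {p : ℕ} (hp : p < (acells P c.κ c.m).length) :
    Meets P (acell P c p) :=
  ((mem_acells P).1 (acell_spec P hp).1).2.2

theorem acell_idxOf {c c' : Cel} (h : (c'.κ, c'.m) ∈ acells P c.κ c.m) (hi : c'.i = c.i)
    (hj : c'.j = c.j) : acell P c ((acells P c.κ c.m).idxOf (c'.κ, c'.m)) = c' := by
  unfold acell
  rw [List.getD_eq_getElem _ _ (List.idxOf_lt_length_of_mem h), List.getElem_idxOf]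
  cases c'
  simp only at hi hj ⊢
  rw [hi, hj]

/-- the classes of the entries -/
theorem kof_mem {c : Cel} {i : JK} (hi : i ∈ jks P c) : kof P c i ∈ jCl P c.κ :=
  ((mem_acells P).1 (acell_spec P ((mem_jks P).1 hi).1).1).1

/-- **every entry of the jump is a grid state of the domain in its own cell** -/
theorem zof_inC {c : Cel} {i : JK} (hi : i ∈ jks P c)
    (hD : ∀ κ' ≤ c.κ + P.a2, (gst P κ' : ℤ) ∣ (P.Dm : ℤ)) : InC P (acell P c i.1) (zof P c i) :=
  cst_inC P (acell_meets P ((mem_jks P).1 hi).1) (hD _ ((mem_jCl P).1 (kof_mem P hi)).2)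
    ((mem_jks P).1 hi).2

theorem celOf_zof {c : Cel} {i : JK} (hi : i ∈ jks P c)
    (hD : ∀ κ' ≤ c.κ + P.a2, (gst P κ' : ℤ) ∣ (P.Dm : ℤ)) :
    celOf (kof P c i) (zof P c i) = acell P c i.1 :=
  (zof_inC P hi hD).celOf_eq

/-! ### coverage -/

/-- a grid state of a listed cell is an entry -/
theorem exists_entry {c c' : Cel} {z : St} (hz : InC P c' z)
    (h' : (c'.κ, c'.m) ∈ acells P c.κ c.m) (hi : c'.i = c.i) (hj : c'.j = c.j) :
    ∃ i ∈ jks P c, acell P c i.1 = c' ∧ zof P c i = z ∧ i.2 = cidx P c' z := by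
  have h1 := acell_idxOf P h' hi hj
  refine ⟨((acells P c.κ c.m).idxOf (c'.κ, c'.m), cidx P c' z), (mem_jks P).2
    ⟨List.idxOf_lt_length_of_mem h', ?_⟩, h1, ?_, rfl⟩
  · show cidx P c' z < csz P (acell P c ((acells P c.κ c.m).idxOf (c'.κ, c'.m))).κ
    rw [h1]
    exact cidx_lt P hz
  · show cst P (acell P c ((acells P c.κ c.m).idxOf (c'.κ, c'.m))) (cidx P c' z) = z
    rw [h1]
    exact cst_cidx P hz

/-- the cell of a near state of an allowed class is in the list -/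
theorem mem_acells_near {c c' : Cel} {y z : St} (hy : InC P c y) (hz : InC P c' z)
    (hc : c'.κ ∈ jCl P c.κ) (hd : (y.u - z.u).natAbs ≤ P.r * 2 ^ c.κ) :
    (c'.κ, c'.m) ∈ acells P c.κ c.m := by
  have h2 : |y.u - z.u| ≤ P.r * 2 ^ c.κ := by
    rw [Int.abs_eq_natAbs]
    exact_mod_cast hd
  obtain ⟨h3, h4⟩ := abs_le.1 h2
  have h5 := hy.u1
  have h6 := hy.u2
  have h7 := mem_cellsIn_of (r := P.r) (κ := c.κ) (m := c.m) (κ' := c'.κ) (u := z.u)
    (by nlinarith) (by nlinarith)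
  have h8 : z.u / 2 ^ c'.κ = c'.m := by
    have := hz.celOf_eq
    have h9 := congrArg Cel.m this
    exact h9
  rw [h8] at h7
  exact (mem_acells P).2 ⟨hc, h7, (meets_of_inC P hz).1, (meets_of_inC P hz).2⟩

/-- **a near grid state of an allowed class is in the menu** -/
theorem exists_mnu {c c' : Cel} {F : St → ℕ} {y z : St} (hy : InC P c y) (hz : InC P c' z)
    (hi : c'.i = c.i) (hj : c'.j = c.j) (hc : c'.κ ∈ jCl P c.κ) (hF : 2 * F y ≤ P.r * 2 ^ c.κ)
    (hd : Alg45.dist y z ≤ 2 * F y) :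
    ∃ i ∈ mnu P c F y, acell P c i.1 = c' ∧ zof P c i = z ∧ i.2 = cidx P c' z := by
  have h1 : (y.u - z.u).natAbs ≤ P.r * 2 ^ c.κ := by
    unfold Alg45.dist at hd
    omega
  obtain ⟨i, h2, h3, h4, h5⟩ := exists_entry P hz (mem_acells_near P hy hz hc h1) hi hj
  exact ⟨i, (mem_mnu P).2 ⟨h2, by rw [h4]; exact hd⟩, h3, h4, h5⟩

/-! ### admissible pairs -/

variable {P}

theorem adm_iff {F : St → ℕ} {κ : ℕ} {y : St} : adm P F κ y = true ↔
    rdn P κ y = y ∧ (y.v - y.u).natAbs ≤ 8 * 2 ^ κ ∧ κ ≤ cls F y + 1 ∧ cls F y ≤ κ + 1 := by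
  unfold adm
  simp only [Bool.and_eq_true, decide_eq_true_eq]
  tauto

theorem gr_of_rdn {κ : ℕ} {y : St} (h : rdn P κ y = y) : Gr P κ y := by
  rw [← h]
  exact gr_rdn P κ y

/-- an admissible pair of the domain lies in its cell -/
theorem adm_inC {F : St → ℕ} {κ : ℕ} {y : St} (h : adm P F κ y = true) (hd : inD P y) :
    InC P (celOf κ y) y :=
  inC_celOf P hd (gr_of_rdn (adm_iff.1 h).1) (adm_iff.1 h).2.1

theorem adm_F_lt {F : St → ℕ} {κ : ℕ} {y : St} (h : adm P F κ y = true) : F y < 2 ^ (κ + 2) := by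
  have h1 : F y < 2 ^ (cls F y + 1) := Nat.lt_pow_succ_log_self (by norm_num) _
  exact h1.trans_le (Nat.pow_le_pow_right (by norm_num) (by have := (adm_iff.1 h).2.2.2; omega))

/-- `2^κ ≤ 2 F + 1` (`F = 0` only for the classes `0`, `1`) -/
theorem adm_le_F {F : St → ℕ} {κ : ℕ} {y : St} (h : adm P F κ y = true) :
    2 ^ κ ≤ 2 * F y + 2 := by
  have h0 := (adm_iff.1 h).2.2.1
  rcases Nat.eq_zero_or_pos (F y) with h1 | h1
  · have h2 : cls F y = 0 := by unfold cls; rw [h1]; simp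
    have h3 : (2 : ℕ) ^ κ ≤ 2 ^ 1 := Nat.pow_le_pow_right (by norm_num) (by omega)
    omega
  · have h2 : 2 ^ cls F y ≤ F y := Nat.pow_log_le_self 2 (by omega)
    have h3 : (2 : ℕ) ^ κ ≤ 2 ^ (cls F y + 1) := Nat.pow_le_pow_right (by norm_num) (by omega)
    rw [pow_succ] at h3
    omega

/-- the window radius covers the menu -/
theorem two_F_le {F : St → ℕ} {κ : ℕ} {y : St} (h : adm P F κ y = true) (hr : 8 ≤ P.r) :
    2 * F y ≤ P.r * 2 ^ κ := by
  have h1 := adm_F_lt h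
  have h2 : (2 : ℕ) ^ (κ + 2) = 4 * 2 ^ κ := by rw [pow_add]; ring
  have h3 : 8 * 2 ^ κ ≤ P.r * 2 ^ κ := Nat.mul_le_mul_right _ hr
  omega

/-! ### all admissible pairs against the menu -/

section lip

variable {F : St → ℕ} {ζ c₀ : ℝ}

/-- **an admissible pair `(κ', z)` of the block and of the domain is in the menu of `y`, or it is not
better than retiring at `y`** up to `2ζF + 4·2^κ/2^a1 + c₀`; `F` approximately Lipschitz -/
theorem pair_cases (hr : 8 ≤ P.r) (ha2 : 6 ≤ P.a2) (hζ : 0 ≤ ζ) (hζ1 : ζ ≤ 1) (hc : 0 ≤ c₀)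
    (hc1 : c₀ ≤ 16) {κ κ' : ℕ} {y z : St} (hy : adm P F κ y = true) (hyd : inD P y)
    (hz : adm P F κ' z = true) (hzd : inD P z) (hi : z.i = y.i) (hj : z.j = y.j)
    (h1 : (F y : ℝ) ≤ (1 + ζ) * (F z + Alg45.dist y z) + c₀)
    (h2 : (F z : ℝ) ≤ (1 + ζ) * (F y + Alg45.dist y z) + c₀) :
    (∃ i ∈ mnu P (celOf κ y) F y, acell P (celOf κ y) i.1 = celOf κ' z ∧
      zof P (celOf κ y) i = z ∧ i.2 = cidx P (celOf κ' z) z) ∨
    (F y : ℝ) ≤ Alg45.dist y z + (2 * ζ * F y + 4 * (2 ^ κ / 2 ^ P.a1) + c₀) := by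
  have hFy : (0 : ℝ) ≤ F y := Nat.cast_nonneg _
  have hFz : (0 : ℝ) ≤ F z := Nat.cast_nonneg _
  have hp : (0 : ℝ) ≤ 4 * (2 ^ κ / 2 ^ P.a1) := by positivity
  have hζF : 0 ≤ 2 * ζ * F y := by positivity
  by_cases hd : Alg45.dist y z ≤ 2 * F y
  swap
  · right
    have h3 : 2 * (F y : ℝ) < Alg45.dist y z := by
      push Not at hd
      exact_mod_cast hd
    linarith
  have hdr : (Alg45.dist y z : ℝ) ≤ 2 * F y := by exact_mod_cast hd
  have hd0 : (0 : ℝ) ≤ Alg45.dist y z := Nat.cast_nonneg _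
  by_cases hk1 : κ + P.a2 < κ'
  · -- larger classes
    right
    have h3 : (2 : ℝ) ^ κ' ≤ 2 * F z + 2 := by exact_mod_cast adm_le_F hz
    have h4 : (F y : ℝ) < 2 ^ (κ + 2) := by exact_mod_cast adm_F_lt hy
    have h5 : (128 : ℝ) * 2 ^ κ ≤ 2 ^ κ' := by
      have : (128 : ℝ) * 2 ^ κ = 2 ^ (κ + 7) := by rw [pow_add]; norm_num; ring
      rw [this]
      exact pow_le_pow_right₀ (by norm_num) (by omega)
    have h6 : (2 : ℝ) ^ (κ + 2) = 4 * 2 ^ κ := by rw [pow_add]; norm_num; ring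
    have h7 : (1 : ℝ) ≤ 2 ^ κ := one_le_pow₀ (by norm_num)
    by_contra hcon
    push Not at hcon
    have h8 : (Alg45.dist y z : ℝ) < F y := by linarith
    have h9 : (1 + ζ) * ((F y : ℝ) + Alg45.dist y z) ≤ 2 * (F y + Alg45.dist y z) :=
      mul_le_mul_of_nonneg_right (by linarith) (by linarith)
    linarith
  by_cases hk2 : κ' < κ - P.a1
  · -- smaller classes
    right
    have h4 : (F z : ℝ) < 2 ^ (κ' + 2) := by exact_mod_cast adm_F_lt hz
    have h5 : (2 : ℝ) ^ (κ' + 2) ≤ 2 * (2 ^ κ / 2 ^ P.a1) := by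
      rw [mul_div_assoc', le_div_iff₀ (by positivity), ← pow_add, ← pow_succ']
      exact pow_le_pow_right₀ (by norm_num) (by omega)
    have h6 : (1 + ζ) * ((F z : ℝ) + Alg45.dist y z) ≤
        2 * F z + Alg45.dist y z + ζ * (2 * F y) := by
      have : ζ * (Alg45.dist y z : ℝ) ≤ ζ * (2 * F y) := mul_le_mul_of_nonneg_left hdr hζ
      have : ζ * (F z : ℝ) ≤ F z := by nlinarith
      linarith
    linarith
  · -- allowed classes
    left
    have h3 := exists_mnu P (F := F) (adm_inC hy hyd) (adm_inC hz hzd) hi hj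
      ((mem_jCl P).2 ⟨by show κ - P.a1 ≤ κ'; omega, by show κ' ≤ κ + P.a2; omega⟩)
      (two_F_le hy hr) hd
    exact h3

/-- inadmissible entries cost at least `F y` up to `2ζF + c₀` -/
theorem nadm_cases (hζ : 0 ≤ ζ) {y z : St} (hc : 0 ≤ c₀)
    (h1 : (F y : ℝ) ≤ (1 + ζ) * (F z + Alg45.dist y z) + c₀) :
    (F y : ℝ) ≤ Alg45.dist y z + F z + (2 * ζ * F y + c₀) := by
  have hFy : (0 : ℝ) ≤ F y := Nat.cast_nonneg _
  have hζF : 0 ≤ 2 * ζ * F y := by positivity
  by_cases hd : (F z : ℝ) + Alg45.dist y z ≤ 2 * F y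
  · have : ζ * ((F z : ℝ) + Alg45.dist y z) ≤ ζ * (2 * F y) := mul_le_mul_of_nonneg_left hd hζ
    linarith
  · linarith

end lip

/-! ### the law of an entry -/

/-- all positions of a sequence -/
theorem All_seqL {W : ℕ} {ts : List (RT (List ℕ))} {Q : ℕ → List ℕ → Prop}
    (h : ∀ p (hp : p < ts.length), (ts[p]).All W (Q p)) :
    (seqL ts).All W fun l => ∀ p < ts.length, Q p (l.getD p []) := by
  induction ts generalizing Q with
  | nil =>
    show ∀ p < _, _
    intro p hp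
    simp at hp
  | cons t ts ih =>
    unfold seqL
    rw [RT.All_bind]
    refine RT.All.mono (h 0 (by simp)) fun a ha => ?_
    rw [RT.All_bind]
    refine RT.All.mono (ih (Q := fun p => Q (p + 1)) fun p hp => ?_) fun l hl => ?_
    · exact h (p + 1) (by simpa using hp)
    · rw [RT.All_ret]
      intro p hp
      cases p with
      | zero => exact ha
      | succ p => exact hl p (by simpa using hp)

/-- a sure property of the entries of the body tables holds for the entries of the joint draw -/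
theorem All_jval {W : ℕ} {body : Cel → RT (List ℕ)} {c : Cel} {Q : JK → ℕ → Prop}
    (h : ∀ i ∈ jks P c, (body (acell P c i.1)).All W fun T => Q i (T.getD i.2 0)) :
    (jdraw P body c).All W fun B => ∀ i ∈ jks P c, Q i (jval B i) := by
  unfold jdraw
  have h1 := All_seqL (W := W) (ts := (List.range (acells P c.κ c.m).length).map fun p =>
    body (acell P c p)) (Q := fun p T => ∀ t < csz P (acell P c p).κ, Q (p, t) (T.getD t 0)) ?_
  · refine RT.All.mono h1 fun B hB i hi => ?_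
    obtain ⟨h2, h3⟩ := (mem_jks P).1 hi
    exact hB i.1 (by simpa using h2) i.2 h3
  · intro p hp
    have hp' : p < (acells P c.κ c.m).length := by simpa using hp
    simp only [List.getElem_map, List.getElem_range]
    -- finitely many entries
    have key : ∀ n ≤ csz P (acell P c p).κ, (body (acell P c p)).All W
        fun T => ∀ t < n, Q (p, t) (T.getD t 0) := by
      intro n
      induction n with
      | zero => exact fun _ => RT.All.of_forall fun T t ht => absurd ht (Nat.not_lt_zero t)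
      | succ n ih =>
        intro hn
        refine RT.All.mono ((ih (by omega)).and (h (p, n) ((mem_jks P).2 ⟨hp', by
          show n < csz P (acell P c p).κ; omega⟩))) fun T hT t ht => ?_
        rcases Nat.lt_succ_iff_lt_or_eq.1 ht with h5 | h5
        · exact hT.1 t h5
        · subst h5; exact hT.2
    exact key _ le_rfl

variable {leaf : St → Option ℕ} {F : St → ℕ} {X : ℕ → ℕ → St → ℕ} {k : ℕ}
  {sub : Cel → RT (List ℕ)}

/-- an entry of a body table = the entry at its state -/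
theorem Ev_body_entry (W : ℕ) {c : Cel} {t : ℕ} (ht : t < csz P c.κ)
    (hin : InC P c (cst P c t)) (φ : ℕ → ℝ) :
    (bodyT P leaf F X k sub c).Ev W (fun T => φ (T.getD t 0)) =
      (bodyT P leaf F X k sub c).Ev W fun T => φ (rdt P c T (cst P c t)) := by
  unfold bodyT
  rw [RT.Ev_bind, RT.Ev_bind]
  congr 1
  funext rs
  simp only
  rw [RT.Ev_bind, RT.Ev_bind]
  congr 1
  funext res
  rw [RT.Ev_ret, RT.Ev_ret, rdt_tabC P hin]
  unfold tabC
  rw [List.getD_eq_getElem _ _ (by simpa using ht), List.getElem_map, List.getElem_range]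

/-- a sure property of the body value at a state -/
theorem All_body_entry {W : ℕ} {c : Cel} {t : ℕ} (ht : t < csz P c.κ) {Q : ℕ → Prop}
    (h : ∀ S, Q (bodyNum P leaf F X k S c.κ (cst P c t))) :
    (bodyT P leaf F X k sub c).All W fun T => Q (T.getD t 0) := by
  unfold bodyT
  rw [RT.All_bind]
  refine RT.All.of_forall fun rs => ?_
  simp only
  rw [RT.All_bind]
  refine RT.All.of_forall fun res => ?_
  rw [RT.All_ret]
  unfold tabC
  rw [List.getD_eq_getElem _ _ (by simpa using ht), List.getElem_map, List.getElem_range]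
  exact h _

/-- **law of an entry of the joint draw = law of the body value at the pair `(kof i, zof i)`** -/
theorem Ev_jval_body {W : ℕ} (hW : 0 < W) {c : Cel} {i : JK} (hi : i ∈ jks P c)
    (hD : ∀ κ' ≤ c.κ + P.a2, (gst P κ' : ℤ) ∣ (P.Dm : ℤ)) (φ : ℕ → ℝ) :
    (jdraw P (bodyT P leaf F X k sub) c).Ev W (fun B => φ (jval B i)) =
      (bodyT P leaf F X k sub (celOf (kof P c i) (zof P c i))).Ev W
        fun T => φ (rdt P (celOf (kof P c i) (zof P c i)) T (zof P c i)) := by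
  rw [Ev_jval hW _ hi, celOf_zof P hi hD]
  exact Ev_body_entry W ((mem_jks P).1 hi).2 (zof_inC P hi hD) φ

/-- the body value of an inadmissible pair, of a cheap state -/
theorem bodyNum_nadm {S : ℕ → ℕ → St → ℕ} {κ : ℕ} {x : St} (h : adm P F κ x = false) :
    bodyNum P leaf F X k S κ x = F x := by
  unfold bodyNum
  rw [if_pos h]

theorem bodyNum_leaf {S : ℕ → ℕ → St → ℕ} {κ : ℕ} {x : St} {a : ℕ} (h : adm P F κ x = true)
    (hl : leaf x = some a) : bodyNum P leaf F X k S κ x = a := by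
  unfold bodyNum
  rw [if_neg (by rw [h]; simp), hl]

end Crest.Agent.R288.ArrG147
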