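import Mathlib

/-!
# R288, (G7) of the program side (helper776): cost, depth and tape length in closed form

Procedures of ALG-U: `X` (number of an index at a pair), `ARR`, `BODY` (tables of a cell, same index),
`F` (unit function of an epoch).  Index `l = 1 + e K + k` = rank `k` of epoch `e`, index `0` = INIT;
`i` = macro height.  Requests:
* `X l`        : `F e z` (lower), `nX` same-index requests `ARR l i`;
* `ARR l i`    : `nA` requests `BODY l i` (none at height `0`), `nc` times (`F e` and a leaf);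
* `BODY l (i+1)` : `nr` words, `nB` requests `ARR l i`, `nc` times (`F e (i+1)` and a leaf),
  `nW` times (`F e i` and a leaf), `nW (1+U)` times `X (1+eK+j) i` for all `j < k`;
* `F (e+1) i`  : `F e i`, `U` times `X (1+eK+j) i` for all `j < K`;  `F 0 i` : `U` times `X 0 i`.

`cX cArr cBody cF` are closed forms; `x_ok arr_ok arr0_ok body_ok f_ok f0_ok` say that the sum over
the requests (every request has an overhead `t1`) plus `t0` is at most the closed form.  The same for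
the depth (`dX dArr dBody dF`) and for the number of words (`SA SB`).
-/

set_option autoImplicit false

namespace Crest.Agent.R288.Pg7776

open Finset

/-- the numbers of requests and the overheads -/
structure CP where
  /-- ranks of an epoch -/
  K : ℕ
  /-- overhead of a procedure -/
  t0 : ℕ
  /-- overhead of a request -/
  t1 : ℕ
  /-- cost of a leaf request -/
  lf : ℕ
  /-- same-index requests of `X`, `ARR`, `BODY` -/
  nX : ℕ
  nA : ℕ
  nB : ℕ
  /-- states of a cell -/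
  nc : ℕ
  /-- random words of `BODY` -/
  nr : ℕ
  /-- end states read by `BODY` -/
  nW : ℕ
  /-- pairs of the menu of the hull -/
  U : ℕ
  /-- macro height of the root -/
  H : ℕ
  /-- INIT: a number costs at most `b0 Y^i` -/
  b0 : ℕ

namespace CP

variable (c : CP)

/-- growth per macro height -/
def Y : ℕ := c.nA * c.nB

/-- everything in `BODY` except the same-index requests, in units of a lower-index call -/
def T : ℕ :=
  c.t0 + c.nr * (1 + c.t1) + c.nc * (1 + c.lf + 2 * c.t1) + c.nW * (1 + c.lf + 2 * c.t1)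
    + c.nW * (1 + c.U) * (c.K * (1 + c.t1))

/-- local part of one `ARR` with its bodies -/
def M : ℕ := c.nA * (c.T + c.nB * c.t1 + c.t1) + c.nc * (1 + c.lf + 2 * c.t1) + c.t0

/-- factor per index -/
def V : ℕ :=
  1 + c.t0 + (1 + c.t1) + c.nX * (c.M * (c.H + 1) + c.t1) + (c.U + 1) * (c.K + 1) * (1 + c.t1)

/-- base cost -/
def B : ℕ := c.b0 + 1

/-- bound of all calls of index `< l` (and of `F e` for `l = 1 + e K + k`) at macro height `i` -/
def low (l i : ℕ) : ℕ := c.B * c.V ^ (2 * l) * c.Y ^ i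
/-- cost of `X l` at macro height `i` -/
def cX (l i : ℕ) : ℕ := c.B * c.V ^ (2 * l + 1) * c.Y ^ i
/-- cost of `F e` -/
def cF (e i : ℕ) : ℕ := c.B * c.V ^ (2 * (e * c.K) + 2) * c.Y ^ i
/-- cost of `ARR` -/
def cArr (l i : ℕ) : ℕ := c.M * (i + 1) * c.low l i
/-- cost of `BODY` at macro height `i`; only used for `1 ≤ i` -/
def cBody (l i : ℕ) : ℕ := c.nB * (c.cArr l (i - 1) + c.t1) + c.T * c.low l i

/-- the only hypotheses -/
structure Ok : Prop where
  nA : 1 ≤ c.nA
  nB : 1 ≤ c.nB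
  K : 1 ≤ c.K

variable {c}

theorem one_le_V : 1 ≤ c.V := by unfold V; omega

theorem one_le_B : 1 ≤ c.B := by unfold B; omega

theorem one_le_Y (h : c.Ok) : 1 ≤ c.Y := Nat.mul_pos h.nA h.nB

theorem one_le_low (h : c.Ok) (l i : ℕ) : 1 ≤ c.low l i :=
  Nat.mul_pos (Nat.mul_pos one_le_B (pow_pos one_le_V _)) (pow_pos (one_le_Y h) _)

theorem low_mono (h : c.Ok) {l l' i i' : ℕ} (hl : l ≤ l') (hi : i ≤ i') :
    c.low l i ≤ c.low l' i' := by
  unfold low
  have h1 : c.V ^ (2 * l) ≤ c.V ^ (2 * l') := Nat.pow_le_pow_right one_le_V (by omega)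
  have h2 : c.Y ^ i ≤ c.Y ^ i' := Nat.pow_le_pow_right (one_le_Y h) hi
  gcongr

theorem cX_mono (h : c.Ok) {l l' i i' : ℕ} (hl : l ≤ l') (hi : i ≤ i') :
    c.cX l i ≤ c.cX l' i' := by
  unfold cX
  have h1 : c.V ^ (2 * l + 1) ≤ c.V ^ (2 * l' + 1) := Nat.pow_le_pow_right one_le_V (by omega)
  have h2 : c.Y ^ i ≤ c.Y ^ i' := Nat.pow_le_pow_right (one_le_Y h) hi
  gcongr

theorem cF_mono (h : c.Ok) {e e' i i' : ℕ} (he : e ≤ e') (hi : i ≤ i') :
    c.cF e i ≤ c.cF e' i' := by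
  unfold cF
  have h0 : e * c.K ≤ e' * c.K := Nat.mul_le_mul_right _ he
  have h1 : c.V ^ (2 * (e * c.K) + 2) ≤ c.V ^ (2 * (e' * c.K) + 2) :=
    Nat.pow_le_pow_right one_le_V (by omega)
  have h2 : c.Y ^ i ≤ c.Y ^ i' := Nat.pow_le_pow_right (one_le_Y h) hi
  gcongr

theorem cX_eq (l i : ℕ) : c.cX l i = c.V * c.low l i := by
  unfold cX low; ring

/-- lower indices -/
theorem cX_le_low (h : c.Ok) {l l' i i' : ℕ} (hl : l < l') (hi : i ≤ i') :
    c.cX l i ≤ c.low l' i' := by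
  unfold cX low
  have h1 : c.V ^ (2 * l + 1) ≤ c.V ^ (2 * l') := Nat.pow_le_pow_right one_le_V (by omega)
  have h2 : c.Y ^ i ≤ c.Y ^ i' := Nat.pow_le_pow_right (one_le_Y h) hi
  gcongr

theorem cF_le_low (h : c.Ok) {e k i i' : ℕ} (hi : i ≤ i') :
    c.cF e i ≤ c.low (1 + e * c.K + k) i' := by
  unfold cF low
  have h1 : c.V ^ (2 * (e * c.K) + 2) ≤ c.V ^ (2 * (1 + e * c.K + k)) :=
    Nat.pow_le_pow_right one_le_V (by omega)
  have h2 : c.Y ^ i ≤ c.Y ^ i' := Nat.pow_le_pow_right (one_le_Y h) hi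
  gcongr

theorem one_le_cX (h : c.Ok) (l i : ℕ) : 1 ≤ c.cX l i := by
  rw [cX_eq]; exact Nat.mul_pos one_le_V (one_le_low h l i)

theorem one_le_cF (h : c.Ok) (e i : ℕ) : 1 ≤ c.cF e i :=
  Nat.mul_pos (Nat.mul_pos one_le_B (pow_pos one_le_V _)) (pow_pos (one_le_Y h) _)

/-- absorb a constant into a multiple -/
theorem const_le {a L : ℕ} (hL : 1 ≤ L) : a ≤ a * L := Nat.le_mul_of_pos_right a hL

/-- INIT: index `0` -/
theorem init_ok {i ci : ℕ} (hc : ci ≤ c.b0 * c.Y ^ i) : ci ≤ c.cX 0 i := by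
  unfold cX
  refine hc.trans ?_
  have h1 : c.b0 ≤ c.B * c.V ^ (2 * 0 + 1) := by
    calc c.b0 ≤ c.B * 1 := by unfold B; omega
      _ ≤ _ := Nat.mul_le_mul_left _ (Nat.one_le_pow _ _ one_le_V)
  exact Nat.mul_le_mul_right _ h1

/-- the sum over the lower ranks of one epoch -/
theorem sum_cX_le (h : c.Ok) {e k l i i' : ℕ} (hk : k ≤ c.K) (hl : e * c.K + k < l) (hi : i ≤ i') :
    ∑ j ∈ range k, (c.cX (1 + e * c.K + j) i + c.t1) ≤ c.K * (1 + c.t1) * c.low l i' := by
  calc ∑ j ∈ range k, (c.cX (1 + e * c.K + j) i + c.t1)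
      ≤ ∑ _j ∈ range k, ((1 + c.t1) * c.low l i') := by
        refine sum_le_sum fun j hj => ?_
        have hj' : j < k := mem_range.1 hj
        have h1 := cX_le_low (c := c) h (l := 1 + e * c.K + j) (l' := l) (by omega) hi
        have h2 := const_le (a := c.t1) (one_le_low h l i')
        calc c.cX (1 + e * c.K + j) i + c.t1 ≤ c.low l i' + c.t1 * c.low l i' :=
              add_le_add h1 h2
          _ = (1 + c.t1) * c.low l i' := by ring
    _ = k * ((1 + c.t1) * c.low l i') := by rw [sum_const, card_range, smul_eq_mul]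
    _ ≤ c.K * ((1 + c.t1) * c.low l i') := Nat.mul_le_mul_right _ hk
    _ = _ := by ring

/-- a request of the unit function and of a leaf -/
theorem fl_le (h : c.Ok) {e k i i' : ℕ} (hi : i ≤ i') :
    c.cF e i + c.lf + 2 * c.t1 ≤ (1 + c.lf + 2 * c.t1) * c.low (1 + e * c.K + k) i' := by
  have h1 := cF_le_low (c := c) h (e := e) (k := k) hi
  have h2 := const_le (a := c.lf + 2 * c.t1) (one_le_low h (1 + e * c.K + k) i')
  calc c.cF e i + c.lf + 2 * c.t1 = c.cF e i + (c.lf + 2 * c.t1) := by ring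
    _ ≤ c.low (1 + e * c.K + k) i' + (c.lf + 2 * c.t1) * c.low (1 + e * c.K + k) i' :=
        add_le_add h1 h2
    _ = _ := by ring

/-- **`BODY`** -/
theorem body_ok (h : c.Ok) {e k i : ℕ} (hk : k < c.K) :
    c.t0 + c.nr * (1 + c.t1) + c.nB * (c.cArr (1 + e * c.K + k) i + c.t1)
      + c.nc * (c.cF e (i + 1) + c.lf + 2 * c.t1) + c.nW * (c.cF e i + c.lf + 2 * c.t1)
      + c.nW * (1 + c.U) * ∑ j ∈ range k, (c.cX (1 + e * c.K + j) i + c.t1)
      ≤ c.cBody (1 + e * c.K + k) (i + 1) := by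
  set l := 1 + e * c.K + k with hl
  have hL := one_le_low h l (i + 1)
  have h1 := const_le (a := c.t0 + c.nr * (1 + c.t1)) hL
  have h2 := fl_le (c := c) h (e := e) (k := k) (le_refl (i + 1))
  have h3 := fl_le (c := c) h (e := e) (k := k) (show i ≤ i + 1 by omega)
  have h4 := sum_cX_le (c := c) h (e := e) (k := k) (l := l) hk.le (by omega)
    (show i ≤ i + 1 by omega)
  rw [← hl] at h2 h3
  have h5 := Nat.mul_le_mul_left c.nc h2
  have h6 := Nat.mul_le_mul_left c.nW h3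
  have h7 := Nat.mul_le_mul_left (c.nW * (1 + c.U)) h4
  have h8 : c.cBody l (i + 1) = c.nB * (c.cArr l i + c.t1) + c.T * c.low l (i + 1) := by
    unfold cBody; rw [Nat.add_sub_cancel]
  have h9 : c.T * c.low l (i + 1) = (c.t0 + c.nr * (1 + c.t1)) * c.low l (i + 1)
      + c.nc * ((1 + c.lf + 2 * c.t1) * c.low l (i + 1))
      + c.nW * ((1 + c.lf + 2 * c.t1) * c.low l (i + 1))
      + c.nW * (1 + c.U) * (c.K * (1 + c.t1) * c.low l (i + 1)) := by
    unfold T; ring
  rw [h8, h9]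
  omega

/-- **`ARR`** at a positive macro height -/
theorem arr_ok (h : c.Ok) {e k i : ℕ} :
    c.t0 + c.nA * (c.cBody (1 + e * c.K + k) (i + 1) + c.t1)
      + c.nc * (c.cF e (i + 1) + c.lf + 2 * c.t1) ≤ c.cArr (1 + e * c.K + k) (i + 1) := by
  set l := 1 + e * c.K + k with hl
  have hL := one_le_low h l (i + 1)
  have h2 := fl_le (c := c) h (e := e) (k := k) (le_refl (i + 1))
  rw [← hl] at h2
  have h5 := Nat.mul_le_mul_left c.nc h2
  have h8 : c.cBody l (i + 1) = c.nB * (c.cArr l i + c.t1) + c.T * c.low l (i + 1) := by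
    unfold cBody; rw [Nat.add_sub_cancel]
  have hY : c.nA * (c.nB * c.cArr l i) = c.M * (i + 1) * c.low l (i + 1) := by
    unfold cArr low Y; rw [pow_succ]; ring
  have h1 := const_le (a := c.t0 + c.nA * (c.nB * c.t1 + c.t1)) hL
  have h9 : c.cArr l (i + 1) = c.M * (i + 1) * c.low l (i + 1)
      + (c.nA * (c.T * c.low l (i + 1)) + (c.t0 + c.nA * (c.nB * c.t1 + c.t1)) * c.low l (i + 1)
      + c.nc * ((1 + c.lf + 2 * c.t1) * c.low l (i + 1))) := by
    unfold cArr M; ring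
  rw [h9, ← hY, h8]
  have h10 : c.nA * (c.nB * (c.cArr l i + c.t1) + c.T * c.low l (i + 1) + c.t1)
      = c.nA * (c.nB * c.cArr l i) + c.nA * (c.T * c.low l (i + 1))
        + c.nA * (c.nB * c.t1 + c.t1) := by ring
  rw [h10]
  omega

/-- **`ARR`** at macro height `0` -/
theorem arr0_ok (h : c.Ok) {e k i : ℕ} :
    c.t0 + c.nc * (c.cF e i + c.lf + 2 * c.t1) ≤ c.cArr (1 + e * c.K + k) i := by
  set l := 1 + e * c.K + k with hl
  have hL := one_le_low h l i
  have h2 := fl_le (c := c) h (e := e) (k := k) (le_refl i)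
  rw [← hl] at h2
  have h5 := Nat.mul_le_mul_left c.nc h2
  have h1 := const_le (a := c.t0) hL
  have h3 : c.t0 * c.low l i + c.nc * ((1 + c.lf + 2 * c.t1) * c.low l i)
      = (c.t0 + c.nc * (1 + c.lf + 2 * c.t1)) * c.low l i := by ring
  have h4 : c.t0 + c.nc * (1 + c.lf + 2 * c.t1) ≤ c.M * (i + 1) := by
    calc c.t0 + c.nc * (1 + c.lf + 2 * c.t1) ≤ c.M := by unfold M; omega
      _ = c.M * 1 := (mul_one _).symm
      _ ≤ c.M * (i + 1) := Nat.mul_le_mul_left _ (by omega)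
  calc c.t0 + c.nc * (c.cF e i + c.lf + 2 * c.t1)
      ≤ c.t0 * c.low l i + c.nc * ((1 + c.lf + 2 * c.t1) * c.low l i) := add_le_add h1 h5
    _ = (c.t0 + c.nc * (1 + c.lf + 2 * c.t1)) * c.low l i := h3
    _ ≤ c.M * (i + 1) * c.low l i := Nat.mul_le_mul_right _ h4

/-- **`X`** -/
theorem x_ok (h : c.Ok) {e k i : ℕ} (hi : i ≤ c.H) :
    c.t0 + (c.cF e i + c.t1) + c.nX * (c.cArr (1 + e * c.K + k) i + c.t1)
      ≤ c.cX (1 + e * c.K + k) i := by
  set l := 1 + e * c.K + k with hl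
  have hL := one_le_low h l i
  have h1 := cF_le_low (c := c) h (e := e) (k := k) (le_refl i)
  rw [← hl] at h1
  have h2 := const_le (a := c.t0 + c.t1 + c.nX * c.t1) hL
  have h3 : c.nX * c.cArr l i ≤ c.nX * (c.M * (c.H + 1)) * c.low l i := by
    unfold cArr
    have h4 : c.M * (i + 1) ≤ c.M * (c.H + 1) := Nat.mul_le_mul_left _ (by omega)
    calc c.nX * (c.M * (i + 1) * c.low l i) ≤ c.nX * (c.M * (c.H + 1) * c.low l i) :=
          Nat.mul_le_mul_left _ (Nat.mul_le_mul_right _ h4)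
      _ = _ := by ring
  rw [cX_eq]
  have h5 : c.t0 + c.t1 + c.nX * c.t1 + 1 + c.nX * (c.M * (c.H + 1)) ≤ c.V := by
    unfold V
    have : c.nX * (c.M * (c.H + 1) + c.t1) = c.nX * (c.M * (c.H + 1)) + c.nX * c.t1 := by ring
    omega
  calc c.t0 + (c.cF e i + c.t1) + c.nX * (c.cArr l i + c.t1)
      = (c.t0 + c.t1 + c.nX * c.t1) + c.cF e i + c.nX * c.cArr l i := by ring
    _ ≤ (c.t0 + c.t1 + c.nX * c.t1) * c.low l i + c.low l i
        + c.nX * (c.M * (c.H + 1)) * c.low l i := add_le_add (add_le_add h2 h1) h3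
    _ = (c.t0 + c.t1 + c.nX * c.t1 + 1 + c.nX * (c.M * (c.H + 1))) * c.low l i := by ring
    _ ≤ c.V * c.low l i := Nat.mul_le_mul_right _ h5

/-- **`F (e+1)`** -/
theorem f_ok (h : c.Ok) {e i : ℕ} :
    c.t0 + (c.cF e i + c.t1) + c.U * ∑ j ∈ range c.K, (c.cX (1 + e * c.K + j) i + c.t1)
      ≤ c.cF (e + 1) i := by
  -- everything is at most `W = B V^(2(e+1)K+1) Y^i`
  set W := c.cX ((e + 1) * c.K) i with hW
  have hK := h.K
  have heK : (e + 1) * c.K = e * c.K + c.K := by ring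
  have hW1 : 1 ≤ W := one_le_cX h _ _
  have h1 : c.cF e i ≤ W := by
    have := cF_le_low (c := c) h (e := e) (k := c.K - 1) (le_refl i)
    refine this.trans ?_
    have h2 : 1 + e * c.K + (c.K - 1) = (e + 1) * c.K := by omega
    rw [h2, hW, cX_eq]
    exact Nat.le_mul_of_pos_left _ one_le_V
  have h2 : ∑ j ∈ range c.K, (c.cX (1 + e * c.K + j) i + c.t1) ≤ c.K * ((1 + c.t1) * W) := by
    calc ∑ j ∈ range c.K, (c.cX (1 + e * c.K + j) i + c.t1)
        ≤ ∑ _j ∈ range c.K, ((1 + c.t1) * W) := by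
          refine sum_le_sum fun j hj => ?_
          have hj' : j < c.K := mem_range.1 hj
          have h3 : c.cX (1 + e * c.K + j) i ≤ W := cX_mono h (by omega) le_rfl
          have h4 := const_le (a := c.t1) hW1
          calc _ ≤ W + c.t1 * W := add_le_add h3 h4
            _ = _ := by ring
      _ = _ := by rw [sum_const, card_range, smul_eq_mul]
  have h3 := Nat.mul_le_mul_left c.U h2
  have h4 := const_le (a := c.t0 + c.t1) hW1
  have h5 : c.cF (e + 1) i = c.V * W := by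
    rw [hW]; unfold cF cX; ring
  have h6 : c.t0 + c.t1 + 1 + c.U * c.K * (1 + c.t1) ≤ c.V := by
    unfold V
    have : (c.U + 1) * (c.K + 1) * (1 + c.t1) =
        c.U * c.K * (1 + c.t1) + (c.U + c.K + 1) * (1 + c.t1) := by ring
    omega
  rw [h5]
  calc c.t0 + (c.cF e i + c.t1) + c.U * ∑ j ∈ range c.K, (c.cX (1 + e * c.K + j) i + c.t1)
      = (c.t0 + c.t1) + c.cF e i
        + c.U * ∑ j ∈ range c.K, (c.cX (1 + e * c.K + j) i + c.t1) := by ring
    _ ≤ (c.t0 + c.t1) * W + W + c.U * (c.K * ((1 + c.t1) * W)) :=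
        add_le_add (add_le_add h4 h1) h3
    _ = (c.t0 + c.t1 + 1 + c.U * c.K * (1 + c.t1)) * W := by ring
    _ ≤ c.V * W := Nat.mul_le_mul_right _ h6

/-- **`F 0`** -/
theorem f0_ok (h : c.Ok) {i : ℕ} : c.t0 + c.U * (c.cX 0 i + c.t1) ≤ c.cF 0 i := by
  have hW1 : 1 ≤ c.cX 0 i := one_le_cX h _ _
  have h4 := const_le (a := c.t0 + c.U * c.t1) hW1
  have h5 : c.cF 0 i = c.V * c.cX 0 i := by unfold cF cX; ring
  have h6 : c.t0 + c.U * c.t1 + c.U ≤ c.V := by
    unfold V
    have : (c.U + 1) * (c.K + 1) * (1 + c.t1) =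
        (c.U + c.U * c.t1) + ((c.U + 1) * c.K * (1 + c.t1) + 1 + c.t1) := by ring
    omega
  rw [h5]
  calc c.t0 + c.U * (c.cX 0 i + c.t1) = (c.t0 + c.U * c.t1) + c.U * c.cX 0 i := by ring
    _ ≤ (c.t0 + c.U * c.t1) * c.cX 0 i + c.U * c.cX 0 i := Nat.add_le_add_right h4 _
    _ = (c.t0 + c.U * c.t1 + c.U) * c.cX 0 i := by ring
    _ ≤ c.V * c.cX 0 i := Nat.mul_le_mul_right _ h6

/-! ### depth -/

variable (c)

/-- depth per index; `p` = depth of the phases of one procedure -/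
def R (p : ℕ) : ℕ := p * (2 * c.H + 4)
/-- depth below an index -/
def dLow (p l : ℕ) : ℕ := 2 * l * c.R p
def dX (p l : ℕ) : ℕ := (2 * l + 1) * c.R p
def dF (p e : ℕ) : ℕ := (2 * (e * c.K) + 2) * c.R p
def dArr (p l i : ℕ) : ℕ := c.dLow p l + p * (2 * i + 1)
def dBody (p l i : ℕ) : ℕ := c.dLow p l + p * (2 * i)

variable {c}

theorem dF_le_low {p e k : ℕ} : c.dF p e ≤ c.dLow p (1 + e * c.K + k) := by
  unfold dF dLow
  exact Nat.mul_le_mul_right _ (by omega)

theorem dX_le_low {p l l' : ℕ} (hl : l < l') : c.dX p l ≤ c.dLow p l' := by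
  unfold dX dLow
  exact Nat.mul_le_mul_right _ (by omega)

theorem dBody_ok {p l i : ℕ} : c.dArr p l i + p ≤ c.dBody p l (i + 1) := by
  unfold dArr dBody
  have : p * (2 * (i + 1)) = p * (2 * i + 1) + p := by ring
  omega

theorem dBody_low {p l i : ℕ} : c.dLow p l + p ≤ c.dBody p l (i + 1) := by
  unfold dBody
  have : p * (2 * (i + 1)) = p * (2 * i + 1) + p := by ring
  omega

theorem dArr_ok {p l i : ℕ} : c.dBody p l i + p ≤ c.dArr p l i := by
  unfold dArr dBody
  have : p * (2 * i + 1) = p * (2 * i) + p := by ring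
  omega

theorem dArr_low {p l i : ℕ} : c.dLow p l + p ≤ c.dArr p l i := by
  unfold dArr
  have : p * (2 * i + 1) = p * (2 * i) + p := by ring
  omega

theorem dX_ok {p l i : ℕ} (hi : i ≤ c.H) : c.dArr p l i + p ≤ c.dX p l := by
  unfold dArr dX dLow R
  have h1 : (2 * l + 1) * (p * (2 * c.H + 4)) = 2 * l * (p * (2 * c.H + 4)) + p * (2 * c.H + 4) := by
    ring
  have h2 : p * (2 * c.H + 4) = p * (2 * c.H + 1) + p + 2 * p := by ring
  have h3 : p * (2 * i + 1) ≤ p * (2 * c.H + 1) := Nat.mul_le_mul_left _ (by omega)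
  omega

theorem dX_low {p l : ℕ} : c.dLow p l + p ≤ c.dX p l := by
  unfold dX dLow R
  have h1 : (2 * l + 1) * (p * (2 * c.H + 4)) = 2 * l * (p * (2 * c.H + 4)) + p * (2 * c.H + 4) := by
    ring
  have h2 : p * (2 * c.H + 4) = p * (2 * c.H + 1) + p + 2 * p := by ring
  omega

theorem p_le_R (p : ℕ) : p ≤ c.R p := by
  unfold R
  exact Nat.le_mul_of_pos_right _ (by omega)

theorem dF_ok (h : c.Ok) {p e : ℕ} : c.dF p e + p ≤ c.dF p (e + 1) := by
  unfold dF
  have hK := h.K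
  have hR := p_le_R (c := c) p
  calc (2 * (e * c.K) + 2) * c.R p + p ≤ (2 * (e * c.K) + 2) * c.R p + 2 * c.K * c.R p := by
        have h2 : p ≤ 2 * c.K * c.R p := hR.trans (Nat.le_mul_of_pos_left _ (by omega))
        omega
    _ = (2 * ((e + 1) * c.K) + 2) * c.R p := by ring

theorem dF_x {p e j : ℕ} (hj : j < c.K) : c.dX p (1 + e * c.K + j) + p ≤ c.dF p (e + 1) := by
  unfold dX dF
  have hR := p_le_R (c := c) p
  calc (2 * (1 + e * c.K + j) + 1) * c.R p + p
      ≤ (2 * (e * c.K + c.K) + 1) * c.R p + c.R p :=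
        add_le_add (Nat.mul_le_mul_right _ (by omega)) hR
    _ = (2 * ((e + 1) * c.K) + 2) * c.R p := by ring

theorem dF0_x {p : ℕ} : c.dX p 0 + p ≤ c.dF p 0 := by
  unfold dX dF
  have hR := p_le_R (c := c) p
  calc (2 * 0 + 1) * c.R p + p ≤ (2 * 0 + 1) * c.R p + c.R p := Nat.add_le_add_left hR _
    _ = (2 * (0 * c.K) + 2) * c.R p := by ring

/-- all depths are at most the depth of `F E` -/
theorem dF_le {p e E : ℕ} (he : e ≤ E) : c.dF p e ≤ c.dF p E := by
  unfold dF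
  have : e * c.K ≤ E * c.K := Nat.mul_le_mul_right _ he
  exact Nat.mul_le_mul_right _ (by omega)

end CP

/-! ### number of words (pads of #4719 (8)) -/

/-- words of one `ARR` at macro height `i` (padded) -/
def SA (nA nB nr : ℕ) : ℕ → ℕ
  | 0 => 0
  | i + 1 => nA * (nr + nB * SA nA nB nr i)

/-- words of one `BODY` at macro height `i` (padded) -/
def SB (nA nB nr : ℕ) : ℕ → ℕ
  | 0 => 0
  | i + 1 => nr + nB * SA nA nB nr i

theorem SA_succ (nA nB nr i : ℕ) : SA nA nB nr (i + 1) = nA * SB nA nB nr (i + 1) := rfl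

theorem SB_succ (nA nB nr i : ℕ) : SB nA nB nr (i + 1) = nr + nB * SA nA nB nr i := rfl

/-- closed bound -/
theorem SA_le (nA nB nr : ℕ) (hA : 1 ≤ nA) (hB : 1 ≤ nB) (i : ℕ) :
    SA nA nB nr i ≤ i * (nA * nr) * (nA * nB) ^ i := by
  induction i with
  | zero => simp [SA]
  | succ i ih =>
    have hY : 1 ≤ (nA * nB) ^ (i + 1) := pow_pos (Nat.mul_pos hA hB) _
    have h1 : nA * nr ≤ nA * nr * (nA * nB) ^ (i + 1) := Nat.le_mul_of_pos_right _ hY
    have h2 : nA * (nB * SA nA nB nr i) ≤ i * (nA * nr) * (nA * nB) ^ (i + 1) := by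
      calc nA * (nB * SA nA nB nr i) = (nA * nB) * SA nA nB nr i := by ring
        _ ≤ (nA * nB) * (i * (nA * nr) * (nA * nB) ^ i) := Nat.mul_le_mul_left _ ih
        _ = _ := by rw [pow_succ]; ring
    show nA * (nr + nB * SA nA nB nr i) ≤ _
    calc nA * (nr + nB * SA nA nB nr i) = nA * nr + nA * (nB * SA nA nB nr i) := by ring
      _ ≤ nA * nr * (nA * nB) ^ (i + 1) + i * (nA * nr) * (nA * nB) ^ (i + 1) :=
          add_le_add h1 h2
      _ = (i + 1) * (nA * nr) * (nA * nB) ^ (i + 1) := by ring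

theorem SA_mono (nA nB nr : ℕ) (hA : 1 ≤ nA) (hB : 1 ≤ nB) : Monotone (SA nA nB nr) := by
  refine monotone_nat_of_le_succ fun i => ?_
  show SA nA nB nr i ≤ nA * (nr + nB * SA nA nB nr i)
  calc SA nA nB nr i ≤ nB * SA nA nB nr i := Nat.le_mul_of_pos_left _ hB
    _ ≤ nr + nB * SA nA nB nr i := Nat.le_add_left _ _
    _ ≤ nA * (nr + nB * SA nA nB nr i) := Nat.le_mul_of_pos_left _ hA

end Crest.Agent.R288.Pg7776
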