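import Crest.Agent.R288.PgX_583
import Crest.Agent.R288.PtY_949

/-!
# R288, [PROG] procedures X and F/H (helper583), part B: the texts

Conventions of #4937 / #4985: arguments `ar = (a, k, i, j, u, v)`, `a` = index `l` or epoch `e`,
`k` = class; saved answers `sv` (one list of answers per finished phase, the phase is `sv.length`);
a text is a function `ar sv ↦ .inl result` or `.inr requests`.

* `Ar`, `Svd`, `Out`, `ent`, `arS`, `arC`, `zOf`, requests `qU qX qF qH` (kind 5), `qA qB` (kind 4);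
* `phX` (tag 3), `phF` (tag 4), `phH` (tag 7: the hull of index `l` at `y`), `phG` the common scheme;
* equation lemmas;
* `den S ph n sv` : the computation of `n` phases when the requests are realised by `S`;
  `den_phX`, `den_phF_zero`, `den_phF_succ`, `den_phH`.
-/

set_option autoImplicit false

namespace Crest.Agent.R288.PgY583

open Crest.Agent.R295.Rnd627 Crest.Agent.R295.Rnd627.RT Crest.Agent.R288.Alg45
  Crest.Agent.R288.Delta222 Crest.Agent.R288.PgX583 Crest.Agent.R295.Pt949 Crest.Agent.R288.PtY949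

/-- arguments of a procedure -/
abbrev Ar : Type := ℕ × ℕ × ℕ × ℕ × ℤ × ℤ
/-- answers of the finished phases -/
abbrev Svd : Type := List (List (List ℕ))
/-- result or requests -/
abbrev Out : Type := List ℕ ⊕ List (List ℕ)

/-- entry frame of procedure `tg` -/
def ent (tg : ℕ) (ar : Ar) : List ℕ := tg :: tow ((ar, []) : Ar × Svd)

/-- arguments: index / epoch, class, state -/
def arS (a k : ℕ) (y : St) : Ar := (a, k, y.i, y.j, y.u, y.v)
/-- arguments: index, cell -/
def arC (a : ℕ) (c : Cel) : Ar := (a, c.κ, c.i, c.j, c.m, 0)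
/-- the state of the arguments -/
def zOf (ar : Ar) : St := ⟨ar.2.2.1, ar.2.2.2.1, ar.2.2.2.2.1, ar.2.2.2.2.2⟩

@[simp] theorem zOf_arS (a k : ℕ) (y : St) : zOf (arS a k y) = y := rfl
@[simp] theorem arS_a (a k : ℕ) (y : St) : (arS a k y).1 = a := rfl
@[simp] theorem arS_k (a k : ℕ) (y : St) : (arS a k y).2.1 = k := rfl

/-- INIT number of `y` -/
def qU (y : St) : List ℕ := 5 :: ent 2 (arS 0 0 y)
/-- number of index `l` at the pair `(κ, z)` -/
def qX (l κ : ℕ) (z : St) : List ℕ := if l = 0 then qU z else 5 :: ent 3 (arS l κ z)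
/-- unit function of epoch `e` -/
def qF (e : ℕ) (y : St) : List ℕ := 5 :: ent 4 (arS e 0 y)
/-- hull of index `l` -/
def qH (l : ℕ) (y : St) : List ℕ := 5 :: ent 7 (arS l 0 y)
/-- arrival table -/
def qA (l : ℕ) (c : Cel) : List ℕ := 4 :: ent 5 (arC l c)
/-- body table -/
def qB (l : ℕ) (c : Cel) : List ℕ := 4 :: ent 6 (arC l c)

/-- the one word of the first answer of phase `p` -/
def ans (sv : Svd) (p : ℕ) : ℕ := ((sv.getD p []).headD []).headD 0

variable (P : Par)

/-- **procedure X** -/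
def phX (ar : Ar) (sv : Svd) : Out :=
  if sv.length = 0 then .inr [qF ((ar.1 - 1) / P.K) (zOf ar)]
  else if sv.length = 1 then
    if admV P (ans sv 0) ar.2.1 (zOf ar) = false then .inl [ans sv 0]
    else .inr (List.replicate (P.gX * P.mX) (qA ar.1 (celOf ar.2.1 (zOf ar))))
  else .inl [xfin P ar.2.1 (zOf ar) (sv.getD 1 [])]

/-- the hull of the mean of the indices `ls`; `q0` asks the value of the unit function at `y` -/
def phG (q0 : List ℕ) (ls : List ℕ) (y : St) (sv : Svd) : Out :=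
  if sv.length = 0 then .inr [q0]
  else if sv.length = 1 then
    .inr ((hkeys P (ans sv 0) y ls).map fun k => qX k.1 k.2.1 k.2.2)
  else .inl [hfin P (ans sv 0) y ls ((sv.getD 1 []).map fun r => r.headD 0)]

/-- **procedure F** -/
def phF (ar : Ar) (sv : Svd) : Out :=
  phG P (if ar.1 = 0 then qX 0 0 (zOf ar) else qF (ar.1 - 1) (zOf ar))
    (if ar.1 = 0 then [0] else rks P (ar.1 - 1)) (zOf ar) sv

/-- **procedure H** -/
def phH (ar : Ar) (sv : Svd) : Out :=
  phG P (qF ((ar.1 - 1) / P.K) (zOf ar)) [ar.1] (zOf ar) sv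

/-! ### the computation of a text -/

/-- at most `n` phases; `S q` = the computation which answers the request `q` -/
def den (S : List ℕ → RT (List ℕ)) (ph : Svd → Out) : ℕ → Svd → RT (List ℕ)
  | 0, _ => .ret []
  | n + 1, sv =>
    match ph sv with
    | .inl r => .ret r
    | .inr reqs => (seqL (reqs.map S)).bind fun us => den S ph n (sv ++ [us])

variable {P} {S : List ℕ → RT (List ℕ)}

theorem den_inl {ph : Svd → Out} {n : ℕ} {sv : Svd} {r : List ℕ} (h : ph sv = .inl r) :
    den S ph (n + 1) sv = .ret r := by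
  rw [den, h]

theorem den_inr {ph : Svd → Out} {n : ℕ} {sv : Svd} {reqs : List (List ℕ)}
    (h : ph sv = .inr reqs) :
    den S ph (n + 1) sv = (seqL (reqs.map S)).bind fun us => den S ph n (sv ++ [us]) := by
  rw [den, h]

theorem seqL_single {α : Type} (a : α) : seqL [RT.ret a] = RT.ret [a] := rfl

@[simp] theorem ans_one (v : ℕ) : ans [[[v]]] 0 = v := rfl
@[simp] theorem ans_two (v : ℕ) (us : List (List ℕ)) : ans [[[v]], us] 0 = v := rfl

/-! ### X -/

theorem phX_zero (ar : Ar) : phX P ar [] = .inr [qF ((ar.1 - 1) / P.K) (zOf ar)] := rfl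

theorem phX_one (ar : Ar) (v : ℕ) : phX P ar [[[v]]] =
    if admV P v ar.2.1 (zOf ar) = false then .inl [v]
    else .inr (List.replicate (P.gX * P.mX) (qA ar.1 (celOf ar.2.1 (zOf ar)))) := rfl

theorem phX_two (ar : Ar) (v : ℕ) (us : List (List ℕ)) :
    phX P ar [[[v]], us] = .inl [xfin P ar.2.1 (zOf ar) us] := rfl

/-- **the computation of X** -/
theorem den_phX {leaf : St → Option ℕ} {F : St → ℕ} {X : ℕ → ℕ → St → ℕ} {k l κ : ℕ} {z : St}
    (hF : S (qF ((l - 1) / P.K) z) = .ret [F z])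
    (hA : S (qA l (celOf κ z)) = arrT P leaf F X k z.i (celOf κ z)) :
    den S (phX P (arS l κ z)) 3 [] = (numPair P leaf F X k κ z).map fun v => [v] := by
  rw [den_inr (phX_zero _)]
  simp only [arS_a, zOf_arS, List.map_cons, List.map_nil, hF, seqL_single, ret_bind,
    List.nil_append]
  rw [numPair_eq]
  by_cases h : admV P (F z) κ z = false
  · rw [if_pos h, den_inl (r := [F z])]
    · rfl
    · rw [phX_one, arS_k, zOf_arS, if_pos h]
  · rw [if_neg h, den_inr (reqs := List.replicate (P.gX * P.mX) (qA l (celOf κ z)))]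
    · rw [List.map_replicate, hA]
      unfold RT.map
      rw [RT.bind_assoc]
      congr 1
    · rw [phX_one, arS_k, zOf_arS, if_neg h]
      rfl

/-! ### the hulls -/

theorem phG_zero (q0 : List ℕ) (ls : List ℕ) (y : St) : phG P q0 ls y [] = .inr [q0] := rfl

theorem phG_one (q0 : List ℕ) (ls : List ℕ) (y : St) (v : ℕ) : phG P q0 ls y [[[v]]] =
    .inr ((hkeys P v y ls).map fun k => qX k.1 k.2.1 k.2.2) := rfl

theorem phG_two (q0 : List ℕ) (ls : List ℕ) (y : St) (v : ℕ) (us : List (List ℕ)) :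
    phG P q0 ls y [[[v]], us] = .inl [hfin P v y ls (us.map fun r => r.headD 0)] := rfl

/-- the computation of the common scheme: `X l (κ, z)` = the number -/
theorem den_phG {X : ℕ → ℕ × St → ℕ} {q0 : List ℕ} {ls : List ℕ} {y : St} {v : ℕ}
    (h0 : S q0 = .ret [v])
    (hX : ∀ k ∈ hkeys P v y ls, S (qX k.1 k.2.1 k.2.2) = .ret [X k.1 k.2]) :
    den S (phG P q0 ls y) 3 [] =
      .ret [hfin P v y ls ((hkeys P v y ls).map fun k => X k.1 k.2)] := by
  rw [den_inr (phG_zero _ _ _)]
  simp only [List.map_cons, List.map_nil, h0, seqL_single, ret_bind, List.nil_append]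
  rw [den_inr (phG_one _ _ _ _), List.map_map]
  rw [seqL_congr (t' := fun k => RT.ret [X k.1 k.2]) _ fun k hk => by
    rw [Function.comp_apply]; exact hX k hk]
  rw [seqL_map_ret, ret_bind]
  simp only [List.cons_append, List.nil_append]
  rw [den_inl (phG_two _ _ _ _ _), List.map_map]
  rfl

/-- **the computation of F, epoch 0** -/
theorem den_phF_zero {X : ℕ → ℕ × St → ℕ} {y : St}
    (h0 : S (qU y) = .ret [X 0 (0, y)])
    (hX : ∀ k ∈ hkeys P (X 0 (0, y)) y [0], S (qX k.1 k.2.1 k.2.2) = .ret [X k.1 k.2]) :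
    den S (phF P (arS 0 0 y)) 3 [] = .ret [FE P X 0 y] := by
  unfold phF
  simp only [arS_a, zOf_arS, if_true]
  rw [den_phG (X := X) (v := X 0 (0, y)) (by unfold qX; rw [if_pos rfl]; exact h0) hX, FE_zero_eq]

/-- **the computation of F, epoch `e + 1`** -/
theorem den_phF_succ {X : ℕ → ℕ × St → ℕ} {e : ℕ} {y : St}
    (h0 : S (qF e y) = .ret [FE P X e y])
    (hX : ∀ k ∈ hkeys P (FE P X e y) y (rks P e), S (qX k.1 k.2.1 k.2.2) = .ret [X k.1 k.2]) :
    den S (phF P (arS (e + 1) 0 y)) 3 [] = .ret [FE P X (e + 1) y] := by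
  unfold phF
  simp only [arS_a, zOf_arS, Nat.succ_ne_zero, if_false, Nat.add_sub_cancel]
  rw [den_phG (X := X) (v := FE P X e y) h0 hX, FE_succ_eq]

/-- **the computation of H** -/
theorem den_phH {X : ℕ → ℕ × St → ℕ} {l : ℕ} (hl : l ≠ 0) {F : St → ℕ} {y : St}
    (h0 : S (qF ((l - 1) / P.K) y) = .ret [F y])
    (hX : ∀ k ∈ hkeys P (F y) y [l], S (qX k.1 k.2.1 k.2.2) = .ret [X k.1 k.2]) :
    den S (phH P (arS l 0 y)) 3 [] = .ret [hull P F (fun κ z => X l (κ, z)) y] := by
  unfold phH
  simp only [arS_a, zOf_arS]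
  rw [den_phG (X := X) (v := F y) h0 hX, hull_one_eq P X hl]

/-- the keys of the hull have the indices `ls` -/
theorem mem_hkeys {Fy : ℕ} {y : St} {ls : List ℕ} {k : ℕ × ℕ × St} (h : k ∈ hkeys P Fy y ls) :
    k.1 ∈ ls ∧ ∃ p ∈ hprs P Fy y, k.2 = harg k.1 p := by
  unfold hkeys HK at h
  rw [List.mem_flatMap] at h
  obtain ⟨p, hp, h⟩ := h
  rw [List.mem_map] at h
  obtain ⟨l, hl, rfl⟩ := h
  exact ⟨hl, p, hp, rfl⟩

/-- number of keys -/
theorem length_hkeys (Fy : ℕ) (y : St) (ls : List ℕ) :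
    (hkeys P Fy y ls).length = (hprs P Fy y).length * ls.length := by
  unfold hkeys HK
  rw [List.length_flatMap]
  simp only [List.length_map, List.map_const', List.sum_replicate, smul_eq_mul]

end Crest.Agent.R288.PgY583
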