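import Crest.Agent.R288.ArrZ_222
import Crest.Agent.R288.PgY_583

/-!
# R288, [PROG] procedure X (helper583), part C: realisation in the phase engine

**`x_rz`**: the frame of X realises `numPair`; `num_all` : the number fits into a word.
-/

set_option autoImplicit false

namespace Crest.Agent.R288.PgX583

open Crest.Agent.R295 HL Pt949 Crest.Agent.R295.Rnd627 Crest.Agent.R288.Alg45
  Crest.Agent.R288.Phe940 Crest.Agent.R288.Delta222

variable {P : Par} {pr : Prg} {W : Wld}

/-- **X**: the frame `f` asks the unit function at `z`, then (if the pair is admissible) the lanes -/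
theorem x_rz (hSM : W.S < W.M) (hN : 0 < W.N) {n : ℕ} {f f1 f2 qf qa : List ℕ}
    {leaf : St → Option ℕ} {F : St → ℕ} {X : ℕ → ℕ → St → ℕ} {k κ : ℕ} {z : St} {CF CA Z m : ℕ}
    (h0 : pr.δ f [] = (f1, [qf]))
    (h1 : admV P (F z) κ z = false → pr.δ f1 [[F z]] = ([F z], []))
    (h2 : ¬ admV P (F z) κ z = false →
      pr.δ f1 [[F z]] = (f2, List.replicate (P.gX * P.mX) qa))
    (h3 : ¬ admV P (F z) κ z = false → ∀ us : List (List ℕ), us.length = P.gX * P.mX →
      pr.δ f2 us = ([xfin P κ z us], []))
    (hF : Rq pr W (n + 2) qf (.ret [F z]) CF)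
    (hA : ¬ admV P (F z) κ z = false →
      Rq pr W (n + 1) qa (arrT P leaf F X k z.i (celOf κ z)) CA)
    (zA : ¬ admV P (F z) κ z = false →
      (arrT P leaf F X k z.i (celOf κ z)).All W.N (Blen Z W.M))
    (zF : F z < W.M) (zq : Blen Z W.M qf) (zr : ¬ admV P (F z) κ z = false → Blen Z W.M qa)
    (z1 : Blen Z W.M f1) (z2 : ¬ admV P (F z) κ z = false → Blen Z W.M f2) (hZ : 1 ≤ Z)
    (hm : P.gX * P.mX ≤ m) (hm1 : 1 ≤ m) (hg : 0 < P.gX * P.mX)
    (hS : 2 * (m + 1) * (Z + 1) + 16 ≤ W.S)
    (hall : (numPair P leaf F X k κ z).All W.N fun v => v < W.M) :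
    Rz pr W (n + 3) f [] ((numPair P leaf F X k κ z).map fun v => [v])
      (CF + 1 + P.gX * P.mX * (CA + 1)) := by
  have hS13 : 13 ≤ W.S := by omega
  have hr0 : Rqs pr W (n + 2) [qf] (.ret [[F z]]) (CF + 1) := by
    have h := Rqs.map_ret_le (P := pr) (W := W) (n := n + 2) [()] (fun _ => qf)
      (fun _ => [F z]) CF (fun _ _ => hF)
    simpa using h
  have hs0 : Szo W f1 [qf] [[F z]] := by
    refine szo_of (m := m) z1 (fun q hq => ?_) (fun u hu => ?_) (by simpa using hm1)
      (by simpa using hm1) hS
    · rw [List.mem_singleton] at hq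
      subst hq
      exact zq
    · rw [List.mem_singleton] at hu
      subst hu
      exact ⟨hZ, by simpa using zF⟩
  have hv : ∀ v, v < W.M → W.okv [v] := fun v hv => ⟨by simpa using hS13, by simpa using hv⟩
  rw [numPair_eq] at hall ⊢
  by_cases ha : admV P (F z) κ z = false
  · rw [if_pos ha] at hall ⊢
    have hst : Rz pr W (n + 1 + 1) f1 [[F z]] (.ret [F z]) 0 := Rz.stop (h1 ha) (hv _ zF)
    exact (Rz.step_ret hSM h0 (by simp) hr0 hs0 hst).mono le_rfl (by omega)
  · rw [if_neg ha] at hall ⊢
    have hqs : (seqL (List.replicate (P.gX * P.mX)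
        (arrT P leaf F X k z.i (celOf κ z)))).All W.N fun us =>
          us.length = P.gX * P.mX ∧ ∀ u ∈ us, Blen Z W.M u := by
      have h := all_seqL (N := W.N) (p := Blen Z W.M) (List.replicate (P.gX * P.mX)
        (arrT P leaf F X k z.i (celOf κ z))) (fun t ht => by
          rw [List.eq_of_mem_replicate ht]; exact zA ha)
      rwa [List.length_replicate] at h
    have hrs : Rqs pr W (n + 1) (List.replicate (P.gX * P.mX) qa)
        (seqL (List.replicate (P.gX * P.mX) (arrT P leaf F X k z.i (celOf κ z))))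
        (P.gX * P.mX * (CA + 1)) := by
      have h := Rqs.map_le (P := pr) (W := W) (n := n + 1) (List.replicate (P.gX * P.mX) ())
        (fun _ => qa) (fun _ => arrT P leaf F X k z.i (celOf κ z)) CA (fun _ _ => hA ha)
      simpa [List.map_replicate] using h
    have hxf : (seqL (List.replicate (P.gX * P.mX)
        (arrT P leaf F X k z.i (celOf κ z)))).All W.N fun us => xfin P κ z us < W.M := by
      rw [RT.All_bind] at hall
      exact hall.mono fun us hus => by simpa using hus
    have hne : List.replicate (P.gX * P.mX) qa ≠ [] := by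
      rw [Ne, List.replicate_eq_nil_iff]
      omega
    have hk : Rz pr W (n + 1 + 1) f1 [[F z]]
        ((seqL (List.replicate (P.gX * P.mX) (arrT P leaf F X k z.i (celOf κ z)))).bind
          fun us => RT.ret [xfin P κ z us]) (P.gX * P.mX * (CA + 1) + 0) := by
      refine Rz.step hSM hN (h2 ha) hne hrs (hqs.and hxf) (fun us hus => ?_) fun us hus => ?_
      · refine szo_of (m := m) (z2 ha) (fun q hq => ?_) hus.1.2 (by simpa using hm)
          (by rw [hus.1.1]; exact hm) hS
        rw [List.eq_of_mem_replicate hq]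
        exact zr ha
      · exact Rz.stop (h3 ha us hus.1.1) (hv _ hus.2)
    have h := Rz.step_ret hSM h0 (by simp) hr0 hs0 hk
    have e : ((seqL (List.replicate (P.gX * P.mX) (arrT P leaf F X k z.i (celOf κ z)))).bind
        fun res => RT.ret (xfin P κ z res)).map (fun v => [v]) =
        (seqL (List.replicate (P.gX * P.mX) (arrT P leaf F X k z.i (celOf κ z)))).bind
          fun us => RT.ret [xfin P κ z us] := by
      unfold RT.map
      rw [RT.bind_assoc]
      rfl
    rw [e]
    exact h.mono le_rfl (by omega)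

end Crest.Agent.R288.PgX583
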