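import Crest.Agent.R288.PgB_578
import Crest.Agent.R288.PgXr_583

/-!
# R288, [PROG] procedure X (helper583), part D: the `Cz` form (typed layer of PgB_578)

**`x_cz`** : the procedure X at the pair `(κ, z)` realises `numPair`, from the unit function (tag 4)
and the arrival table (tag 5).
-/

set_option autoImplicit false

namespace Crest.Agent.R288.PgX583

open Crest.Agent.R295 HL Pt949 Crest.Agent.R295.Rnd627 Crest.Agent.R288.Alg45
  Crest.Agent.R288.Phe940 Crest.Agent.R288.Delta222 Crest.Agent.R288.PrK690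
  Crest.Agent.R288.Pgb578

variable {P : Par} {G : Prg} {W : Wld} {K : KN} {Z : ℕ} {ph : Ph}

theorem qF_eq (e : ℕ) (y : St) : PgY583.qF e y = cal 5 4 (PgY583.arS e 0 y) := rfl
theorem qA_eq (l : ℕ) (c : Cel) : PgY583.qA l c = cal 4 5 (PgY583.arC l c) := rfl
theorem qU_eq (y : St) : PgY583.qU y = cal 5 2 (PgY583.arS 0 0 y) := rfl
theorem qX_eq {l : ℕ} (hl : l ≠ 0) (κ : ℕ) (z : St) :
    PgY583.qX l κ z = cal 5 3 (PgY583.arS l κ z) := by
  unfold PgY583.qX
  rw [if_neg hl]
  rfl

theorem wd_one {M Z v : ℕ} (hZ : 1 ≤ Z) (hv : v < M) : Wd M Z [v] :=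
  ⟨by simpa using hZ, by simpa using hv⟩

/-- **procedure X** -/
theorem x_cz (hG : Has G K ph 3) (hE : Env W K Z) (hZ : 12 ≤ Z) (hN : 0 < W.N) {n : ℕ}
    {leaf : St → Option ℕ} {F : St → ℕ} {X : ℕ → ℕ → St → ℕ} {k l κ : ℕ} {z : St} {CF CA : ℕ}
    (hph : ∀ sv, ph K 3 (PgY583.arS l κ z) sv = PgY583.phX P (PgY583.arS l κ z) sv)
    (hF : Cz G W K 4 (n + 2) (PgY583.arS ((l - 1) / P.K) 0 z) [] (.ret [F z]) CF)
    (hFb : G.base (fr K 4 (PgY583.arS ((l - 1) / P.K) 0 z) []) ≤ W.Pm)
    (hA : ¬ admV P (F z) κ z = false →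
      Cz G W K 5 (n + 1) (PgY583.arC l (celOf κ z)) [] (arrT P leaf F X k z.i (celOf κ z)) CA)
    (zA : ¬ admV P (F z) κ z = false →
      (arrT P leaf F X k z.i (celOf κ z)).All W.N (Wd W.M Z))
    (zF : F z < W.M) (ha : ArOk W.M 3 (PgY583.arS l κ z))
    (haF : ArOk W.M 4 (PgY583.arS ((l - 1) / P.K) 0 z))
    (haA : ¬ admV P (F z) κ z = false → ArOk W.M 5 (PgY583.arC l (celOf κ z)))
    (hm : P.gX * P.mX ≤ Z)
    (hall : (numPair P leaf F X k κ z).All W.N fun v => v < W.M) :
    Cz G W K 3 (n + 3) (PgY583.arS l κ z) [] ((numPair P leaf F X k κ z).map fun v => [v])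
      (CF + P.gX * P.mX * (CA + 1) + 5) := by
  have hq0 : ph K 3 (PgY583.arS l κ z) [] =
      .inr [PgY583.qF ((l - 1) / P.K) z] := by rw [hph]; rfl
  have hr0 : Rqs G W (n + 2) ([PgY583.qF ((l - 1) / P.K) z].map (wrapQ K)) (.ret [[F z]])
      (CF + 1) := by
    have h := Rqs.map_ret_le (P := G) (W := W) (n := n + 2) [()]
      (fun _ => wrapQ K (PgY583.qF ((l - 1) / P.K) z)) (fun _ => [F z]) CF
      (fun _ _ => by rw [qF_eq]; exact cal5_ret hF hFb)
    simpa using h
  have hz0 : ∀ q ∈ [PgY583.qF ((l - 1) / P.K) z], Wd W.M Z q := fun q hq => by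
    rw [List.mem_singleton] at hq
    subst hq
    rw [qF_eq]
    exact cal_wd hE hZ (by omega) haF
  have hu0 : ∀ u ∈ ([[F z]] : List (List ℕ)), Wd W.M Z u := fun u hu => by
    rw [List.mem_singleton] at hu
    subst hu
    exact wd_one (by omega) zF
  have hsv : SvOk W.M Z ([] ++ [[[F z]]]) :=
    SvOk.nil.snoc (by simp) (by simp; omega) hu0
  have h1 : ph K 3 (PgY583.arS l κ z) ([] ++ [[[F z]]]) =
      if admV P (F z) κ z = false then .inl [F z]
      else .inr (List.replicate (P.gX * P.mX) (PgY583.qA l (celOf κ z))) := by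
    rw [hph]; exact PgY583.phX_one _ _
  rw [numPair_eq] at hall ⊢
  by_cases hadm : admV P (F z) κ z = false
  · rw [if_pos hadm] at hall ⊢ h1
    have hst : Cz G W K 3 (n + 1 + 1) (PgY583.arS l κ z) ([] ++ [[[F z]]]) (.ret [F z]) 0 :=
      Cz.stop hG hE h1 (wd_one (by omega) zF)
    exact (Cz.step_ret hG hE hq0 hr0 (by simp; omega) hz0 ha SvOk.nil (by simp; omega) hu0
      hst).mono le_rfl (by omega)
  · rw [if_neg hadm] at hall ⊢ h1
    have hqs : (seqL (List.replicate (P.gX * P.mX)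
        (arrT P leaf F X k z.i (celOf κ z)))).All W.N fun us =>
          us.length = P.gX * P.mX ∧ ∀ u ∈ us, Wd W.M Z u := by
      have h := all_seqL (N := W.N) (p := Wd W.M Z) (List.replicate (P.gX * P.mX)
        (arrT P leaf F X k z.i (celOf κ z))) (fun t ht => by
          rw [List.eq_of_mem_replicate ht]; exact zA hadm)
      rwa [List.length_replicate] at h
    have hrs : Rqs G W (n + 1)
        ((List.replicate (P.gX * P.mX) (PgY583.qA l (celOf κ z))).map (wrapQ K))
        (seqL (List.replicate (P.gX * P.mX) (arrT P leaf F X k z.i (celOf κ z))))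
        (P.gX * P.mX * (CA + 1)) := by
      have h := Rqs.map_le (P := G) (W := W) (n := n + 1) (List.replicate (P.gX * P.mX) ())
        (fun _ => wrapQ K (PgY583.qA l (celOf κ z)))
        (fun _ => arrT P leaf F X k z.i (celOf κ z)) CA
        (fun _ _ => by rw [qA_eq]; exact cal4 (hA hadm))
      simpa [List.map_replicate] using h
    have hxf : (seqL (List.replicate (P.gX * P.mX)
        (arrT P leaf F X k z.i (celOf κ z)))).All W.N fun us => xfin P κ z us < W.M := by
      rw [RT.All_bind] at hall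
      exact hall.mono fun us hus => by simpa using hus
    have hk : Cz G W K 3 (n + 1 + 1) (PgY583.arS l κ z) ([] ++ [[[F z]]])
        ((seqL (List.replicate (P.gX * P.mX) (arrT P leaf F X k z.i (celOf κ z)))).bind
          fun us => RT.ret [xfin P κ z us]) (P.gX * P.mX * (CA + 1) + 0 + 2) := by
      refine Cz.stepA (C := P.gX * P.mX * (CA + 1)) (C' := 0) hG hE hN h1 hrs
        (by simpa using hm) (fun q hq => ?_) ha hsv
        (hqs.and hxf) (fun us hus => ⟨by rw [hus.1.1]; exact hm, hus.1.2⟩) fun us hus => ?_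
      · rw [List.eq_of_mem_replicate hq, qA_eq]
        exact cal_wd hE hZ (by omega) (haA hadm)
      · refine Cz.stop hG hE ?_ (wd_one (by omega) hus.2)
        rw [hph]
        exact PgY583.phX_two _ _ _
    have h := Cz.step_ret hG hE hq0 hr0 (by simp; omega) hz0 ha SvOk.nil (by simp; omega) hu0 hk
    have e : ((seqL (List.replicate (P.gX * P.mX) (arrT P leaf F X k z.i (celOf κ z)))).bind
        fun res => RT.ret (xfin P κ z res)).map (fun v => [v]) =
        (seqL (List.replicate (P.gX * P.mX) (arrT P leaf F X k z.i (celOf κ z)))).bind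
          fun us => RT.ret [xfin P κ z us] := by
      unfold RT.map
      rw [RT.bind_assoc]
      rfl
    rw [e]
    exact h.mono le_rfl (by omega)

end Crest.Agent.R288.PgX583
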