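import Crest.Agent.R288.BodyC_72
import Crest.Agent.R288.ArrC_222
import Crest.Agent.R288.PgXc_583

/-!
# R288, [PROG] procedure BODY (helper72): the text and its realisation

Conventions of `PgY_583`, `ArrY_222` (`la y` = the words of the leaf request of `y`, `lf g y` = leaf
value of `y` from the answer `g`, `l` = index, `e = (l - 1) / K` = epoch, `kOf P l` = rank of `l`).

* **`phB`** (tag 6), two phases: `rqB0` words of the tape and `F` at `bst`; `rqB1` arrival tables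
  (tag 5) of the keys, pair numbers (tag 3) of lower rank at `xkeys`, leaf command at `cells`; stop
  with `bodyEnd`;
* **`phB_cz`** : the text `phB` realises `bodyT`.
-/

set_option autoImplicit false

namespace Crest.Agent.R288.Delta72

open Crest.Agent.R295.Rnd627 Crest.Agent.R288.Alg45 Crest.Agent.R288.PrK690
open Crest.Agent.R288.Phe940 (Prg Wld fl Rz Rq Rqs Szo kq)
open Crest.Agent.R288.Delta222 Crest.Agent.R288.PgA172 Crest.Agent.R288.Pgb578
open Crest.Agent.R288.PgY583 (arS arC qX qF qA)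

/-- the rank of the index `l` (cut at `K`: unary) -/
def kOf (P : Par) (l : ℕ) : ℕ := min ((l - 1) % P.K) P.K

theorem kOf_eq {P : Par} (hK : 0 < P.K) (l : ℕ) : kOf P l = (l - 1) % P.K :=
  min_eq_left (Nat.mod_lt _ hK).le

variable (P : Par) (la : St → List ℕ) (lf : ℕ → St → Option ℕ)

/-- requests of phase 0 of BODY -/
def rqB0 (ar : Ar) : List (List ℕ) :=
  (List.range (nwd P)).map (fun _ => [0]) ++
    (bst P (cOf ar)).map (qF ((ar.1 - 1) / P.K))

/-- requests of phase 1 of BODY -/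
def rqB1 (ar : Ar) (u0 : List (List ℕ)) : List (List ℕ) :=
  (bkeysOf P (cOf ar) (u0.take (nwd P))).map (fun key => qA ar.1 (bcel P (cOf ar) key)) ++
    ((xkeys P (cOf ar) (kOf P ar.1) (u0.drop (nwd P))).map
        (fun a => qX (idx P ((ar.1 - 1) / P.K) a.1) a.2.1 a.2.2) ++
      (cells P (cOf ar)).map (qL la))

/-- **procedure BODY** -/
def phB (ar : Ar) (sv : Svd) : PgY583.Out :=
  if sv.length = 0 then .inr (rqB0 P ar)
  else if sv.length = 1 then .inr (rqB1 P la ar (sv.getD 0 []))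
  else .inl (bodyEnd P lf (cOf ar) (kOf P ar.1) (sv.getD 0 []) (sv.getD 1 []))

theorem phB_zero (ar : Ar) : phB P la lf ar [] = .inr (rqB0 P ar) := rfl

theorem phB_one (ar : Ar) (u0 : List (List ℕ)) :
    phB P la lf ar [u0] = .inr (rqB1 P la ar u0) := rfl

theorem phB_two (ar : Ar) (u0 u1 : List (List ℕ)) :
    phB P la lf ar [u0, u1] = .inl (bodyEnd P lf (cOf ar) (kOf P ar.1) u0 u1) := rfl

theorem idx_ne (e i : ℕ) : idx P e i ≠ 0 := by
  unfold idx
  omega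

section cz

variable {P la lf} {G : Prg} {W : Wld} {K : KN} {Z n : ℕ} {ph : Ph} {c : Cel} {l : ℕ}
  {leaf : St → Option ℕ} {F g : St → ℕ} {X : ℕ → ℕ → St → ℕ} {sub : Cel → RT (List ℕ)}

/-- **BODY (tag 6)**: `F` by calls of tag 4, arrival tables by calls of tag 5, pair numbers of
lower rank by calls of tag 3, leaf command by kind 3 -/
theorem phB_cz (hG : Has G K ph 6) (hE : Env W K Z) (hN : 0 < W.N) (hNM : W.N ≤ W.M)
    (hZ : 12 ≤ Z) (hK : 0 < P.K)
    (hph : ∀ sv : Pgb578.Svd, ph K 6 (arC l c) sv = phB P la lf (arC l c) sv)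
    (hl : ∀ y ∈ cells P c, leaf y = lf (g y) y) {CA CF CX CG nB : ℕ}
    (hF : ∀ y ∈ bst P c, Cz G W K 4 (n + 2) (arS ((l - 1) / P.K) 0 y) [] (.ret [F y]) CF)
    (bF : ∀ y ∈ bst P c, G.base (fr K 4 (arS ((l - 1) / P.K) 0 y) []) ≤ W.Pm)
    (hA : ∀ ρ, ∀ key ∈ bkeys P c.κ c.m ρ,
      Cz G W K 5 (n + 1) (arC l (bcel P c key)) [] (sub (bcel P c key)) CA)
    (hX : ∀ a ∈ rpr ((l - 1) % P.K) (bpr P F c),
      Cz G W K 3 (n + 1) (arS (idx P ((l - 1) / P.K) a.1) a.2.1 a.2.2) []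
        (.ret [X a.1 a.2.1 a.2.2]) CX)
    (bX : ∀ a ∈ rpr ((l - 1) % P.K) (bpr P F c),
      G.base (fr K 3 (arS (idx P ((l - 1) / P.K) a.1) a.2.1 a.2.2) []) ≤ W.Pm)
    (hL : ∀ y ∈ cells P c, W.okE (la y) ∧ W.E (la y) = [g y] ∧ W.cE (la y) ≤ CG)
    (zA : ∀ ρ, ∀ key ∈ bkeys P c.κ c.m ρ, (sub (bcel P c key)).All W.N (Wd W.M Z))
    (zF : ∀ y ∈ bst P c, F y < W.M) (zG : ∀ y ∈ cells P c, g y < W.M)
    (zX : ∀ a ∈ rpr ((l - 1) % P.K) (bpr P F c), X a.1 a.2.1 a.2.2 < W.M)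
    (ha : ArOk W.M 6 (arC l c))
    (aA : ∀ ρ, ∀ key ∈ bkeys P c.κ c.m ρ, ArOk W.M 5 (arC l (bcel P c key)))
    (aF : ∀ y ∈ bst P c, ArOk W.M 4 (arS ((l - 1) / P.K) 0 y))
    (aX : ∀ a ∈ rpr ((l - 1) % P.K) (bpr P F c),
      ArOk W.M 3 (arS (idx P ((l - 1) / P.K) a.1) a.2.1 a.2.2))
    (aL : ∀ y ∈ cells P c, Wd W.M Z (3 :: la y))
    (hB : ∀ ρ, (bkeys P c.κ c.m ρ).length ≤ nB)
    (hm0 : nwd P + (bst P c).length ≤ Z)
    (hm1 : nB + ((rpr ((l - 1) % P.K) (bpr P F c)).length + (cells P c).length) ≤ Z)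
    (hall : (bodyT P leaf F X ((l - 1) % P.K) sub c).All W.N (Wd W.M Z)) :
    Cz G W K 6 (n + 3) (arC l c) [] (bodyT P leaf F X ((l - 1) % P.K) sub c)
      (nwd P * 2 + (bst P c).length * (CF + 1) + (nB * (CA + 1) +
        ((rpr ((l - 1) % P.K) (bpr P F c)).length * (CX + 1) +
          (cells P c).length * (CG + 1)) + 2) + 2) := by
  refine body_cz (encA := qA l) (encF := qF ((l - 1) / P.K)) (encG := qL la)
    (encX := fun a => qX (idx P ((l - 1) / P.K) a.1) a.2.1 a.2.2) (lf := lf) (g := g)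
    hG hE hN hNM hl ?_ (fun u0 hu0 => ?_) (fun u0 hu0 u1 hu1 => ?_)
    (fun y hy => cal5_ret (hF y hy) (bF y hy)) (fun ρ key hkey => cal4 (hA ρ key hkey))
    (fun a ha' => ?_) (fun y hy => ?_) zA zF zG zX
    (fun ρ key hkey => cal_wd hE hZ (by norm_num) (aA ρ key hkey))
    (fun y hy => cal_wd hE hZ (by norm_num) (aF y hy)) aL (fun a ha' => ?_) ha hB hm0 hm1 hall
  · rw [hph, phB_zero, rqB0, cOf_arC, arC_a]
  · rw [hph, phB_one, rqB1, cOf_arC, arC_a, kOf_eq hK]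
  · rw [hph, phB_two, cOf_arC, arC_a, kOf_eq hK]
  · rw [PgX583.qX_eq (idx_ne P _ _)]
    exact cal5_ret (hX a ha') (bX a ha')
  · obtain ⟨h1, h2, h3⟩ := hL y hy
    have h4 : Rq G W (n + 1) (3 :: la y) (.ret (W.E (la y))) (W.cE (la y)) :=
      Phe940.Rq.ext (q := 3 :: la y) (by simp [kq]) h1
    rw [qL, wrapQ_three, ← h2]
    exact h4.mono le_rfl h3
  · rw [PgX583.qX_eq (idx_ne P _ _)]
    exact cal_wd hE hZ (by norm_num) (aX a ha')

end cz

end Crest.Agent.R288.Delta72
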