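import Crest.Agent.R288.PtbC_964
import Crest.Agent.R288.DeltaD_222

/-!
# R288 (G3): certificates on ALG v2 (helper964)

`F`, `f`, `X` are functions of the context, certified on pairs (context, state). Everything else is
`hP : PTF P`, `PTU κ`.

* `ptf_adm`, `ptf_numSt`, `hullPairs` (the pairs of the menu in order) and `ptf_hull`, `ptf_Xbar`,
  `ptf_FNext`;
* `ptf_arrNum`, `ptf_botNum` (only the VALUES of `F`, `leaf` at the state);
* `ptf_csts`, `ptf_acell`, `ptf_acs`, `ptf_abod`, `ptf_jent`, `ptf_jest`, `ptf_jcand`,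
  `ptf_arrFin`, `ptf_botFin` (names of `DeltaD_222`).
-/

set_option autoImplicit false

namespace Crest.Agent.R288.PtbD964

open Crest.Agent.Lib.PT Crest.Agent.R288.Alg45 Crest.Agent.R288.PtX949
  Crest.Agent.R288.StPT569 Crest.Agent.R288.PtSt966 Crest.Agent.R288.PtSub964
  Crest.Agent.R288.PtbC964

variable {α β γ δ : Type} [PTCode α] [PTCode β] [PTCode γ] [PTCode δ]

section adm

variable {P : γ → Par}

/-- `adm` sees only the value of `F` at the state -/
theorem ptf_adm {F : γ → St → ℕ} {κ : γ → ℕ} {y : γ → St} (hP : PTF P)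
    (hF : PTF (fun c => F c (y c))) (hκ : PTU κ) (hy : PTF y) :
    PTF (fun c => adm (P c) (F c) (κ c) (y c)) := by
  have h1 : PTPred (fun c => rdn (P c) (κ c) (y c) = y c) :=
    PTPred.eq (ptf_rdn hP hκ hy) hy
  have h2 : PTPred (fun c => ((y c).v - (y c).u).natAbs ≤ 8 * 2 ^ κ c) :=
    PTPred.natLe (PTF.intNatAbs (PTF.intSub (ptf_stV hy) (ptf_stU hy)))
      (PTF.natMul (PTF.const 8) (PTF.natTwoPow hκ))
  have h3 : PTU (fun c => Nat.log 2 (F c (y c))) := PtX949.ptu_log (PTF.const 2) hF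
  have h4 : PTPred (fun c => κ c ≤ Nat.log 2 (F c (y c)) + 1) :=
    PTPred.natLe hκ.toPTF (PTF.natAdd h3.toPTF (PTF.const 1))
  have h5 : PTPred (fun c => Nat.log 2 (F c (y c)) ≤ κ c + 1) :=
    PTPred.natLe h3.toPTF (PTF.natAdd hκ.toPTF (PTF.const 1))
  exact PTF.and (PTF.and (PTF.and h1.toPTF h2.toPTF) h4.toPTF) h5.toPTF

end adm

/-! ### hull -/

section hull

/-- the pairs of the hull menu of `y`, in order; `Fy = F y` -/
def hullPairs (P : Par) (Fy : ℕ) (y : St) : List (ℕ × St) :=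
  (rngC (Nat.log 2 Fy - P.al) (Nat.log 2 Fy + P.a2)).flatMap fun κ' =>
    (menu P κ' (2 * Fy) y).map fun z => (κ', z)

theorem hull_eq (P : Par) (F : St → ℕ) (f : ℕ → St → ℕ) (y : St) :
    hull P F f y = lmin (F y) ((hullPairs P (F y) y).map fun q => dist y q.2 + f q.1 q.2) := by
  unfold hull hullPairs cls
  rw [List.map_flatMap]
  congr 1
  refine List.flatMap_congr fun κ' _ => ?_
  rw [List.map_map]
  rfl

theorem mem_hullPairs {P : Par} {Fy : ℕ} {y : St} {q : ℕ × St} (h : q ∈ hullPairs P Fy y) :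
    Nat.log 2 Fy - P.al ≤ q.1 ∧ q.1 ≤ Nat.log 2 Fy + P.a2 ∧ q.2 ∈ menu P q.1 (2 * Fy) y := by
  obtain ⟨κ', hκ, h⟩ := List.mem_flatMap.1 h
  obtain ⟨z, hz, rfl⟩ := List.mem_map.1 h
  exact ⟨(mem_rngC hκ).1, (mem_rngC hκ).2, hz⟩

/-- the number of steps of a hull menu is bounded by `4 * 2 ^ al * 2 ^ pb` -/
theorem menu_steps_le (P : Par) (Fy κ' : ℕ) (h : Nat.log 2 Fy - P.al ≤ κ') :
    2 * Fy / gst P κ' ≤ 4 * 2 ^ P.al * 2 ^ P.pb := by
  unfold gst
  have h1 : Fy < 2 ^ (Nat.log 2 Fy + 1) := Nat.lt_pow_succ_log_self (by norm_num) _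
  refine Nat.div_le_of_le_mul ?_
  have h2 : 2 ^ (Nat.log 2 Fy + 2) ≤ 2 ^ (κ' - P.pb) * (4 * 2 ^ P.al * 2 ^ P.pb) := by
    have e : 2 ^ (κ' - P.pb) * (4 * 2 ^ P.al * 2 ^ P.pb) = 2 ^ (κ' - P.pb + (2 + P.al + P.pb)) := by
      rw [pow_add, pow_add, pow_add]; norm_num
    rw [e]
    exact Nat.pow_le_pow_right (by norm_num) (by omega)
  have h3 : 2 * Fy ≤ 2 ^ (Nat.log 2 Fy + 2) := by
    have e : 2 ^ (Nat.log 2 Fy + 2) = 2 * 2 ^ (Nat.log 2 Fy + 1) := by
      rw [show Nat.log 2 Fy + 2 = (Nat.log 2 Fy + 1) + 1 by ring, pow_succ]; ring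
    omega
  exact h3.trans h2

variable {P : γ → Par}

theorem ptf_menu_mem {l : γ → List ℕ} {Fy : γ → ℕ} {y : γ → St} (hP : PTF P) (hF : PTF Fy)
    (hy : PTF y) (h1 : ∀ a : MemCtx l, a.1.2 ≤ Nat.log 2 (Fy a.1.1) + (P a.1.1).a2)
    (h2 : ∀ a : MemCtx l, Nat.log 2 (Fy a.1.1) - (P a.1.1).al ≤ a.1.2) :
    PTF (fun a : MemCtx l => menu (P a.1.1) a.1.2 (2 * Fy a.1.1) (y a.1.1)) := by
  have hl : PTU (fun c => Nat.log 2 (Fy c)) := PtX949.ptu_log (PTF.const 2) hF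
  have e1 : PTF (fun a : MemCtx l => a.1.1) := ptf_memCtx_fst
  have hk : PTU (fun a : MemCtx l => a.1.2) :=
    PtSub964.ptu_of_le (b := fun a : MemCtx l => Nat.log 2 (Fy a.1.1) + (P a.1.1).a2)
      ptf_memCtx_snd
      (PTU.comp (n := fun c => Nat.log 2 (Fy c) + (P c).a2) (PTU.add hl (ptu_a2 hP)) e1) h1
  have hb : PTU (fun a : MemCtx l => 4 * 2 ^ (P a.1.1).al * 2 ^ (P a.1.1).pb) := by
    refine PTU.mul (PTU.mul (PTU.const 4) ?_) ?_
    · exact PTU.comp (n := fun c => 2 ^ (P c).al) (ptu_two_al hP) e1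
    · exact PTU.comp (n := fun c => 2 ^ (P c).pb) (ptu_two_pb hP) e1
  exact ptf_menu (P := fun a : MemCtx l => P a.1.1) (κ' := fun a : MemCtx l => a.1.2)
    (ρ := fun a : MemCtx l => 2 * Fy a.1.1) (y := fun a : MemCtx l => y a.1.1)
    (PTF.comp hP e1) hk (PTF.natMul (PTF.const 2) (PTF.comp hF e1)) (PTF.comp hy e1) hb
    fun a => menu_steps_le _ _ _ (h2 a)

@[fun_prop]
theorem ptf_hullPairs {Fy : γ → ℕ} {y : γ → St} (hP : PTF P) (hF : PTF Fy) (hy : PTF y) :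
    PTF (fun c => hullPairs (P c) (Fy c) (y c)) := by
  have hl : PTU (fun c => Nat.log 2 (Fy c)) := PtX949.ptu_log (PTF.const 2) hF
  have hr : PTF (fun c => rngC (Nat.log 2 (Fy c) - (P c).al) (Nat.log 2 (Fy c) + (P c).a2)) :=
    ptf_rngC (PTF.natSub hl.toPTF (ptf_al hP)) (PTU.add hl (ptu_a2 hP))
  unfold hullPairs
  refine ptf_flatMap_mem (f := fun c κ' => (menu (P c) κ' (2 * Fy c) (y c)).map fun z => (κ', z))
    hr ?_
  refine PTF.map (f := fun (a : MemCtx (fun c => rngC (Nat.log 2 (Fy c) - (P c).al)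
    (Nat.log 2 (Fy c) + (P c).a2))) z => (a.1.2, z))
    (ptf_menu_mem hP hF hy (fun a => (mem_rngC a.2).2) (fun a => (mem_rngC a.2).1)) ?_
  exact PTF.prodMk (PTF.comp (g := fun a : MemCtx (fun c => rngC (Nat.log 2 (Fy c) - (P c).al)
      (Nat.log 2 (Fy c) + (P c).a2)) => a.1.2) ptf_memCtx_snd PTF.fst) PTF.snd

/-- `f` is certified on all (context, class, state) -/
theorem ptf_hull {F : γ → St → ℕ} {f : γ → ℕ → St → ℕ} {y : γ → St} (hP : PTF P)
    (hF : PTF (fun c => F c (y c))) (hf : PTF (fun q : γ × ℕ × St => f q.1 q.2.1 q.2.2))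
    (hy : PTF y) : PTF (fun c => hull (P c) (F c) (f c) (y c)) := by
  refine PTF.of_eq (f := fun c => lmin (F c (y c)) ((hullPairs (P c) (F c (y c)) (y c)).map
    fun q => dist (y c) q.2 + f c q.1 q.2)) ?_ fun c => (hull_eq _ _ _ _).symm
  refine ptf_lmin hF (PTF.map (f := fun c (q : ℕ × St) => dist (y c) q.2 + f c q.1 q.2)
    (ptf_hullPairs hP hF hy) ?_)
  refine PTF.natAdd (ptf_dist (PTF.comp hy PTF.fst) (PTF.comp PTF.snd PTF.snd)) hf

/-- the value of the hull from the list of the values of `f` at `hullPairs` -/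
def hullFin (P : Par) (Fy : ℕ) (y : St) (vs : List ℕ) : ℕ :=
  lmin Fy (((hullPairs P Fy y).zip vs).map fun q => dist y q.1.2 + q.2)

theorem hullFin_eq (P : Par) (F : St → ℕ) (f : ℕ → St → ℕ) (y : St) :
    hullFin P (F y) y ((hullPairs P (F y) y).map fun q => f q.1 q.2) = hull P F f y := by
  rw [hull_eq, hullFin]
  congr 1
  generalize hullPairs P (F y) y = l
  induction l with
  | nil => rfl
  | cons a l ih => simp [ih]

@[fun_prop]
theorem ptf_hullFin {Fy : γ → ℕ} {y : γ → St} {vs : γ → List ℕ} (hP : PTF P) (hF : PTF Fy)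
    (hy : PTF y) (hv : PTF vs) : PTF (fun c => hullFin (P c) (Fy c) (y c) (vs c)) := by
  unfold hullFin
  refine ptf_lmin hF (PTF.map (f := fun c (q : (ℕ × St) × ℕ) => dist (y c) q.1.2 + q.2)
    (PTF.zip (ptf_hullPairs hP hF hy) hv) ?_)
  refine PTF.natAdd (ptf_dist (PTF.comp hy PTF.fst) ?_) ?_
  · exact PTF.comp (g := fun q : (ℕ × St) × ℕ => q.1.2) (by fun_prop) PTF.snd
  · exact PTF.comp (g := fun q : (ℕ × St) × ℕ => q.2) (by fun_prop) PTF.snd

theorem ptf_Xbar {X : γ → ℕ → ℕ → St → ℕ} {κ : γ → ℕ} {z : γ → St} (hP : PTF P)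
    (hX : PTF (fun q : γ × ℕ × ℕ × St => X q.1 q.2.1 q.2.2.1 q.2.2.2)) (hκ : PTF κ) (hz : PTF z) :
    PTF (fun c => Xbar (P c) (X c) (κ c) (z c)) := by
  unfold Xbar
  refine ptf_cdiv (ptf_sumR (n := fun c => (P c).K) (f := fun c i => X c i (κ c) (z c)) (ptu_K hP) ?_)
    (ptf_K hP)
  exact PTF.comp (g := fun q : γ × ℕ × ℕ × St => X q.1 q.2.1 q.2.2.1 q.2.2.2)
    (f := fun p : γ × ℕ => (p.1, p.2, κ p.1, z p.1)) hX
    (PTF.prodMk PTF.fst (PTF.prodMk PTF.snd (PTF.prodMk (PTF.comp hκ PTF.fst)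
      (PTF.comp hz PTF.fst))))

theorem ptf_FNext {F : γ → St → ℕ} {X : γ → ℕ → ℕ → St → ℕ} {y : γ → St} (hP : PTF P)
    (hF : PTF (fun c => F c (y c)))
    (hX : PTF (fun q : γ × ℕ × ℕ × St => X q.1 q.2.1 q.2.2.1 q.2.2.2)) (hy : PTF y) :
    PTF (fun c => FNext (P c) (F c) (X c) (y c)) := by
  unfold FNext
  refine ptf_hull (f := fun c => Xbar (P c) (X c)) hP hF ?_ hy
  refine ptf_Xbar (P := fun q : γ × ℕ × St => P q.1) (X := fun q : γ × ℕ × St => X q.1)
    (κ := fun q => q.2.1) (z := fun q => q.2.2) (PTF.comp hP PTF.fst) ?_ (by fun_prop) (by fun_prop)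
  exact PTF.comp (g := fun q : γ × ℕ × ℕ × St => X q.1 q.2.1 q.2.2.1 q.2.2.2)
    (f := fun q : (γ × ℕ × St) × ℕ × ℕ × St => (q.1.1, q.2)) hX (by fun_prop)

end hull

/-! ### the number of a state -/

section numSt

variable {P : γ → Par}

theorem ptf_numSt {F : γ → St → ℕ} {κ : γ → ℕ} {f : γ → ℕ → St → ℕ} {y : γ → St} (hP : PTF P)
    (hF : PTF (fun c => F c (y c))) (hκ : PTF κ)
    (hf : PTF (fun q : γ × ℕ × St => f q.1 q.2.1 q.2.2)) (hy : PTF y) :
    PTF (fun c => numSt (P c) (F c) (κ c) (f c) (y c)) := by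
  have hl : PTU (fun c => Nat.log 2 (F c (y c))) := PtX949.ptu_log (PTF.const 2) hF
  have hl' := hl.toPTF
  have h1 : PTPred (fun c => Nat.log 2 (F c (y c)) + (P c).dl < κ c ∨
      κ c + (P c).du < Nat.log 2 (F c (y c))) :=
    PTPred.or (PTPred.natLt (PTF.natAdd hl' (ptf_dl hP)) hκ)
      (PTPred.natLt (PTF.natAdd hκ (ptf_du hP)) hl')
  have h2 : PTF (fun c => rdn (P c) (Nat.log 2 (F c (y c))) (y c)) := ptf_rdn hP hl hy
  have h3 : PTF (fun c => f c (Nat.log 2 (F c (y c))) (rdn (P c) (Nat.log 2 (F c (y c))) (y c))) :=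
    PTF.comp (g := fun q : γ × ℕ × St => f q.1 q.2.1 q.2.2)
      (f := fun c => (c, Nat.log 2 (F c (y c)), rdn (P c) (Nat.log 2 (F c (y c))) (y c))) hf
      (PTF.prodMk PTF.id (PTF.prodMk hl' h2))
  exact PTF.ite h1 hF (PTF.natAdd (ptf_dist hy h2) h3)

end numSt

/-! ### the jump, one state -/

section arrNum

theorem jpr_eq (F : ℕ) (y : St) (cands : List (St × ℕ × ℕ)) (i : ℕ) :
    jpr F y cands i = (cands[i]?).elim (3 * F + 1)
      fun q => if dist y q.1 ≤ 2 * F then dist y q.1 + q.2.1 else 3 * F + 1 := by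
  unfold jpr
  rcases cands[i]? with _ | ⟨z, e, w⟩ <;> rfl

@[fun_prop]
theorem ptf_jpr {F i : γ → ℕ} {y : γ → St} {cands : γ → List (St × ℕ × ℕ)} (hF : PTF F)
    (hy : PTF y) (hc : PTF cands) (hi : PTF i) :
    PTF (fun c => jpr (F c) (y c) (cands c) (i c)) := by
  refine PTF.of_eq (f := fun c => ((cands c)[i c]?).elim (3 * F c + 1)
    fun q => if dist (y c) q.1 ≤ 2 * F c then dist (y c) q.1 + q.2.1 else 3 * F c + 1) ?_
    fun c => (jpr_eq _ _ _ _).symm
  have h1 : PTF (fun c => 3 * F c + 1) := PTF.natAdd (PTF.natMul (PTF.const 3) hF) (PTF.const 1)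
  have h2 : PTF (fun p : γ × (St × ℕ × ℕ) => dist (y p.1) p.2.1) :=
    ptf_dist (PTF.comp hy PTF.fst) (by fun_prop)
  refine PtX949.optionElim (g := fun c (q : St × ℕ × ℕ) =>
    if dist (y c) q.1 ≤ 2 * F c then dist (y c) q.1 + q.2.1 else 3 * F c + 1)
    (PtX949.getElem? hi hc) h1 ?_
  refine PTF.ite (PTPred.natLe h2 (PTF.natMul (PTF.const 2) (PTF.comp hF PTF.fst)))
    (PTF.natAdd h2 (by fun_prop)) (PTF.comp (g := fun c => 3 * F c + 1)
      (f := fun p : γ × (St × ℕ × ℕ) => p.1) h1 PTF.fst)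

theorem arrNum_eq (P : Par) (F : St → ℕ) (κ : ℕ) (y : St) (sE sV : ℕ)
    (cands : List (St × ℕ × ℕ)) : arrNum P F κ y sE sV cands =
    if adm P F κ y = false then F y
    else if sE < min (F y) (jpr (F y) y cands (argR cands.length (jpr (F y) y cands))) +
        2 ^ κ / 2 ^ P.bb then sV
    else if F y ≤ jpr (F y) y cands (argR cands.length (jpr (F y) y cands)) then F y
    else (cands[argR cands.length (jpr (F y) y cands)]?).elim sV fun q => dist y q.1 + q.2.2 := by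
  unfold arrNum
  simp only
  rcases cands[argR cands.length (jpr (F y) y cands)]? with _ | ⟨z, e, w⟩ <;> rfl

variable {P : γ → Par}

/-- only the value of `F` at `y` is needed -/
theorem ptf_arrNum {F : γ → St → ℕ} {κ sE sV : γ → ℕ} {y : γ → St}
    {cands : γ → List (St × ℕ × ℕ)} (hP : PTF P) (hF : PTF (fun c => F c (y c))) (hκ : PTU κ)
    (hy : PTF y) (hE : PTF sE) (hV : PTF sV) (hc : PTF cands) :
    PTF (fun c => arrNum (P c) (F c) (κ c) (y c) (sE c) (sV c) (cands c)) := by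
  refine PTF.of_eq (f := fun c => if adm (P c) (F c) (κ c) (y c) = false then F c (y c)
    else if sE c < min (F c (y c)) (jpr (F c (y c)) (y c) (cands c)
        (argR (cands c).length (jpr (F c (y c)) (y c) (cands c)))) + 2 ^ κ c / 2 ^ (P c).bb then sV c
    else if F c (y c) ≤ jpr (F c (y c)) (y c) (cands c)
        (argR (cands c).length (jpr (F c (y c)) (y c) (cands c))) then F c (y c)
    else ((cands c)[argR (cands c).length (jpr (F c (y c)) (y c) (cands c))]?).elim (sV c)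
      fun q => dist (y c) q.1 + q.2.2) ?_ fun c => (arrNum_eq _ _ _ _ _ _ _).symm
  have hi : PTF (fun c => argR (cands c).length (jpr (F c (y c)) (y c) (cands c))) := by
    refine ptf_argR (n := fun c => (cands c).length)
      (f := fun c => jpr (F c (y c)) (y c) (cands c)) (PTU.length hc) ?_
    exact ptf_jpr (PTF.comp (g := fun c => F c (y c)) hF PTF.fst) (PTF.comp hy PTF.fst)
      (PTF.comp hc PTF.fst) PTF.snd
  have hb : PTF (fun c => jpr (F c (y c)) (y c) (cands c)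
      (argR (cands c).length (jpr (F c (y c)) (y c) (cands c)))) := ptf_jpr hF hy hc hi
  have ha : PTPred (fun c => adm (P c) (F c) (κ c) (y c) = false) :=
    (PTF.toPTPred (ptf_adm hP hF hκ hy)).not.of_iff fun c => by simp
  have ht : PTF (fun c => 2 ^ κ c / 2 ^ (P c).bb) :=
    PTF.natDiv (PTF.natTwoPow hκ) (PTF.natTwoPow (ptu_bb hP))
  refine PTF.ite ha hF (PTF.ite (PTPred.natLt hE (PTF.natAdd (PTF.natMin hF hb) ht)) hV
    (PTF.ite (PTPred.natLe hF hb) hF ?_))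
  refine PtX949.optionElim (g := fun c (q : St × ℕ × ℕ) => dist (y c) q.1 + q.2.2)
    (PtX949.getElem? hi hc) hV ?_
  exact PTF.natAdd (ptf_dist (PTF.comp hy PTF.fst) (by fun_prop)) (by fun_prop)

/-- only the values of `F` and `leaf` at `y` are needed -/
theorem ptf_botNum {leaf : γ → St → Option ℕ} {F : γ → St → ℕ} {κ : γ → ℕ} {y : γ → St}
    (hP : PTF P) (hl : PTF (fun c => leaf c (y c))) (hF : PTF (fun c => F c (y c))) (hκ : PTU κ)
    (hy : PTF y) : PTF (fun c => botNum (P c) (leaf c) (F c) (κ c) (y c)) := by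
  have ha : PTPred (fun c => adm (P c) (F c) (κ c) (y c) = false) :=
    (PTF.toPTPred (ptf_adm hP hF hκ hy)).not.of_iff fun c => by simp
  unfold botNum
  refine PTF.ite ha hF (PTF.optionGetD hl ?_)
  exact PTF.natAdd (PTF.const 1) (PTF.intNatAbs (PTF.intSub (ptf_stV hy) (ptf_stU hy)))

end arrNum

/-! ### the jump, tables -/

section arr

variable {P : γ → Par}

theorem ptf_acells' {κ : γ → ℕ} {m : γ → ℤ} (hP : PTF P) (hκ : PTU κ) (hm : PTF m) :
    PTF (fun c => acells (P c) (κ c) (m c)) := by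
  have hj : PTF (fun c => jCl (P c) (κ c)) :=
    ptf_rngC (PTF.natSub hκ.toPTF (ptf_a1 hP)) (PTU.add hκ (ptu_a2 hP))
  unfold acells
  refine ptf_flatMap_mem (f := fun c κ' => ((cellsIn (P c).r (κ c) (m c) κ').filter fun m' =>
      decide (m' * 2 ^ κ' ≤ ((P c).Dm : ℤ)) &&
        decide (-((P c).Dm : ℤ) < (m' + 1) * 2 ^ κ')).map fun m' => (κ', m')) hj ?_
  have e1 : PTF (fun a : MemCtx (fun c => jCl (P c) (κ c)) => a.1.1) := ptf_memCtx_fst
  have e2 : PTF (fun a : MemCtx (fun c => jCl (P c) (κ c)) => a.1.2) := ptf_memCtx_snd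
  have hκ1 : PTU (fun a : MemCtx (fun c => jCl (P c) (κ c)) => κ a.1.1) := PTU.comp hκ e1
  have hk : PTU (fun a : MemCtx (fun c => jCl (P c) (κ c)) => a.1.2) :=
    PtSub964.ptu_of_le (b := fun a : MemCtx (fun c => jCl (P c) (κ c)) => κ a.1.1 + (P a.1.1).a2)
      e2 (PTU.comp (n := fun c => κ c + (P c).a2) (PTU.add hκ (ptu_a2 hP)) e1)
      fun a => (mem_rngC a.2).2
  have h1 : PTF (fun a : MemCtx (fun c => jCl (P c) (κ c)) =>
      cellsIn (P a.1.1).r (κ a.1.1) (m a.1.1) a.1.2) := by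
    refine ptf_cellsIn (r := fun a : MemCtx (fun c => jCl (P c) (κ c)) => (P a.1.1).r)
      (κ := fun a : MemCtx (fun c => jCl (P c) (κ c)) => κ a.1.1)
      (κ' := fun a : MemCtx (fun c => jCl (P c) (κ c)) => a.1.2)
      (m := fun a : MemCtx (fun c => jCl (P c) (κ c)) => m a.1.1)
      (b := fun a : MemCtx (fun c => jCl (P c) (κ c)) => 2 ^ (P a.1.1).a1)
      (PTU.comp (n := fun c => (P c).r) (ptu_r hP) e1) hκ1 (PTF.comp hm e1) hk
      (PTU.comp (n := fun c => 2 ^ (P c).a1) (ptu_two_a1 hP) e1) fun a => ?_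
    have := (mem_rngC a.2).1
    exact Nat.pow_le_pow_right (by norm_num) (by omega)
  have hD : PTF (fun a : MemCtx (fun c => jCl (P c) (κ c)) => ((P a.1.1).Dm : ℤ)) :=
    PTF.intNatCast (PTF.comp (g := fun c => (P c).Dm) (ptf_Dm hP) e1)
  have hp : PTF (fun a : MemCtx (fun c => jCl (P c) (κ c)) => (2 : ℤ) ^ a.1.2) :=
    PTF.intPow (PTF.const 2) hk
  have h2 : PTF (fun a : MemCtx (fun c => jCl (P c) (κ c)) =>
      (cellsIn (P a.1.1).r (κ a.1.1) (m a.1.1) a.1.2).filter fun m' =>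
      decide (m' * 2 ^ a.1.2 ≤ ((P a.1.1).Dm : ℤ)) &&
        decide (-((P a.1.1).Dm : ℤ) < (m' + 1) * 2 ^ a.1.2)) := by
    refine PTF.filter (p := fun (a : MemCtx (fun c => jCl (P c) (κ c))) m' =>
      decide (m' * 2 ^ a.1.2 ≤ ((P a.1.1).Dm : ℤ)) &&
        decide (-((P a.1.1).Dm : ℤ) < (m' + 1) * 2 ^ a.1.2)) h1 ?_
    have hp' := PTF.comp (f := fun q : (MemCtx (fun c => jCl (P c) (κ c))) × ℤ => q.1) hp PTF.fst
    have hD' := PTF.comp (f := fun q : (MemCtx (fun c => jCl (P c) (κ c))) × ℤ => q.1) hD PTF.fst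
    refine PTF.and (PTPred.toPTF (PTPred.intLe (PTF.intMul PTF.snd hp') hD')) (PTPred.toPTF
      (PTPred.intLt (PTF.intNeg hD') (PTF.intMul (PTF.intAdd PTF.snd (PTF.const 1)) hp')))
  refine PTF.map (f := fun (a : MemCtx (fun c => jCl (P c) (κ c))) m' => (a.1.2, m')) h2 ?_
  exact PTF.prodMk (PTF.comp (g := fun a : MemCtx (fun c => jCl (P c) (κ c)) => a.1.2)
    (f := fun q : (MemCtx (fun c => jCl (P c) (κ c))) × ℤ => q.1) e2 PTF.fst) PTF.snd

theorem acells_le {P : Par} {κ : ℕ} {m : ℤ} {q : ℕ × ℤ} (h : q ∈ acells P κ m) :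
    q.1 ≤ κ + P.a2 ∧ κ ≤ q.1 + P.a1 := by
  obtain ⟨κ', h1, h2⟩ := List.mem_flatMap.1 h
  obtain ⟨m', -, rfl⟩ := List.mem_map.1 h2
  have := mem_rngC h1
  simp only
  omega

theorem acell_κ_le (P : Par) (c : Cel) (p : ℕ) : (acell P c p).κ ≤ c.κ + P.a2 := by
  unfold acell
  simp only
  rcases Nat.lt_or_ge p (acells P c.κ c.m).length with h | h
  · rw [List.getD_eq_getElem _ _ h]
    exact (acells_le (List.getElem_mem h)).1
  · rw [List.getD_eq_default _ _ h]
    simp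

variable {x : γ → Cel}

theorem ptf_acells_x (hP : PTF P) (hκ : PTU (fun c => (x c).κ)) (hx : PTF x) :
    PTF (fun c => acells (P c) (x c).κ (x c).m) :=
  ptf_acells' (κ := fun c => (x c).κ) (m := fun c => (x c).m) hP hκ (ptf_celM hx)

theorem ptf_acell {p : γ → ℕ} (hP : PTF P) (hκ : PTU (fun c => (x c).κ)) (hx : PTF x)
    (hp : PTF p) : PTF (fun c => acell (P c) (x c) (p c)) := by
  have h : PTF (fun c => (acells (P c) (x c).κ (x c).m).getD (p c) (0, 0)) :=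
    PtX949.getD hp (ptf_acells_x hP hκ hx) (PTF.const _)
  exact ptf_celMk (ptf_celI hx) (ptf_celJ hx) (PTF.comp PTF.fst h) (PTF.comp PTF.snd h)

theorem ptu_acell_κ {p : γ → ℕ} (hP : PTF P) (hκ : PTU (fun c => (x c).κ)) (hx : PTF x)
    (hp : PTF p) : PTU (fun c => (acell (P c) (x c) (p c)).κ) :=
  PtSub964.ptu_of_le (b := fun c => (x c).κ + (P c).a2) (ptf_celκ (ptf_acell hP hκ hx hp))
    (PTU.add hκ (ptu_a2 hP)) fun _ => acell_κ_le _ _ _

@[fun_prop]
theorem ptf_jent {B : γ → List (List ℕ)} {p t : γ → ℕ} (hB : PTF B) (hp : PTF p) (ht : PTF t) :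
    PTF (fun c => jent (B c) (p c) (t c)) := by
  unfold jent
  exact PtX949.getD ht (PtX949.getD hp hB (PTF.const [])) (PTF.const 0)

theorem ptf_jest {Es : γ → List (List (List ℕ))} {p t : γ → ℕ} (hP : PTF P) (hE : PTF Es)
    (hp : PTF p) (ht : PTF t) : PTF (fun c => jest (P c) (Es c) (p c) (t c)) := by
  unfold jest
  refine ptf_medMean (G := fun c => (P c).gJ) (M := fun c => (P c).mJ)
    (x := fun c a b => jent ((Es c).getD (a * (P c).mJ + b) []) (p c) (t c)) (ptu_gJ hP)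
    (ptu_mJ hP) ?_
  have e : PTF (fun q : γ × ℕ × ℕ => q.1) := PTF.fst
  have h1 : PTF (fun q : γ × ℕ × ℕ => q.2.1 * (P q.1).mJ + q.2.2) :=
    PTF.natAdd (PTF.natMul (by fun_prop) (PTF.comp (g := fun c => (P c).mJ) (ptf_mJ hP) e))
      (by fun_prop)
  exact ptf_jent (PtX949.getD h1 (PTF.comp hE e) (PTF.const [])) (PTF.comp hp e) (PTF.comp ht e)

@[fun_prop]
theorem ptf_csts (hP : PTF P) (hκ : PTU (fun c => (x c).κ)) (hx : PTF x) :
    PTF (fun c => Delta222.csts (P c) (x c)) := by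
  unfold Delta222.csts
  refine PTF.map (f := fun c t => cst (P c) (x c) t) (PTF.range (ptu_csz hP hκ)) ?_
  exact ptf_cst (PTF.comp hP PTF.fst) (PTU.comp (n := fun c => (x c).κ) hκ PTF.fst)
    (PTF.comp hx PTF.fst) PTF.snd

theorem ptf_jcand {Es : γ → List (List (List ℕ))} {B : γ → List (List ℕ)} (hP : PTF P)
    (hκ : PTU (fun c => (x c).κ)) (hx : PTF x) (hE : PTF Es) (hB : PTF B) :
    PTF (fun c => jcand (P c) (x c) (Es c) (B c)) := by
  unfold jcand
  have ha := ptf_acells_x hP hκ hx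
  refine PTF.flatMap (f := fun c p => (List.range (csz (P c) (acell (P c) (x c) p).κ)).map fun t =>
    (cst (P c) (acell (P c) (x c) p) t, jest (P c) (Es c) p t, jent (B c) p t))
    (PTF.range (PTU.length ha)) ?_
  have e1 : PTF (fun q : γ × ℕ => q.1) := PTF.fst
  have hP1 : PTF (fun q : γ × ℕ => P q.1) := PTF.comp hP e1
  have hx1 : PTF (fun q : γ × ℕ => x q.1) := PTF.comp hx e1
  have hκ1 : PTU (fun q : γ × ℕ => (x q.1).κ) := PTU.comp (n := fun c => (x c).κ) hκ e1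
  have hc : PTF (fun q : γ × ℕ => acell (P q.1) (x q.1) q.2) := ptf_acell hP1 hκ1 hx1 PTF.snd
  have hck : PTU (fun q : γ × ℕ => (acell (P q.1) (x q.1) q.2).κ) :=
    ptu_acell_κ hP1 hκ1 hx1 PTF.snd
  refine PTF.map (l := fun q : γ × ℕ => List.range (csz (P q.1) (acell (P q.1) (x q.1) q.2).κ))
    (f := fun q t => (cst (P q.1) (acell (P q.1) (x q.1) q.2) t, jest (P q.1) (Es q.1) q.2 t,
      jent (B q.1) q.2 t)) (PTF.range (ptu_csz hP1 hck)) ?_
  have e2 : PTF (fun r : (γ × ℕ) × ℕ => r.1) := PTF.fst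
  have hP2 : PTF (fun r : (γ × ℕ) × ℕ => P r.1.1) :=
    PTF.comp (g := fun q : γ × ℕ => P q.1) (f := fun r : (γ × ℕ) × ℕ => r.1) hP1 e2
  refine PTF.prodMk ?_ (PTF.prodMk ?_ ?_)
  · exact ptf_cst (x := fun r : (γ × ℕ) × ℕ => acell (P r.1.1) (x r.1.1) r.1.2) hP2
      (PTU.comp (n := fun q : γ × ℕ => (acell (P q.1) (x q.1) q.2).κ) hck e2)
      (PTF.comp (g := fun q : γ × ℕ => acell (P q.1) (x q.1) q.2) hc e2) PTF.snd
  · exact ptf_jest (Es := fun r : (γ × ℕ) × ℕ => Es r.1.1) hP2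
      (PTF.comp hE (PTF.comp e1 e2)) (PTF.comp (g := fun q : γ × ℕ => q.2) PTF.snd e2) PTF.snd
  · exact ptf_jent (PTF.comp hB (PTF.comp e1 e2)) (PTF.comp (g := fun q : γ × ℕ => q.2) PTF.snd e2)
      PTF.snd

omit [PTCode α] in
theorem beq_inst_ext (b1 b2 : BEq α) (h : ∀ a b, @BEq.beq _ b1 a b = @BEq.beq _ b2 a b) :
    b1 = b2 := by
  obtain ⟨b1⟩ := b1
  obtain ⟨b2⟩ := b2
  congr
  funext a b
  exact h a b

theorem beqProd_eq : (instBEqProd : BEq (ℕ × ℤ)) = instBEqOfDecidableEq := by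
  refine beq_inst_ext _ _ fun a b => ?_
  have h1 : (@BEq.beq _ instBEqProd a b) = decide (a = b) := by
    rw [Bool.eq_iff_iff, beq_iff_eq, decide_eq_true_iff]
  rw [h1]
  rfl

@[fun_prop]
theorem ptf_chunk {n m : γ → ℕ} {l : γ → List α} (hn : PTF n) (hm : PTU m) (hl : PTF l) :
    PTF (fun c => Delta222.chunk (n c) (m c) (l c)) := by
  refine PTF.of_eq (f := fun c => (List.range (m c)).map fun i => ((l c).drop (i * n c)).take (n c))
    ?_ fun c => (Delta222.chunk_eq _ _ _).symm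
  refine PTF.map (f := fun c i => ((l c).drop (i * n c)).take (n c)) (PTF.range hm) ?_
  have h1 : PTF (fun q : γ × ℕ => n q.1) := PTF.comp hn PTF.fst
  exact PtX949.take h1 (PtX949.drop (PTF.natMul PTF.snd h1) (PTF.comp hl PTF.fst))

@[fun_prop]
theorem ptf_hd1 {fs : γ → List (List ℕ)} {t : γ → ℕ} (hf : PTF fs) (ht : PTF t) :
    PTF (fun c => Delta222.hd1 (fs c) (t c)) := by
  unfold Delta222.hd1
  exact PtX949.headD (PtX949.getD ht hf (PTF.const [])) (PTF.const 0)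

theorem ptf_acs (hP : PTF P) (hκ : PTU (fun c => (x c).κ)) (hx : PTF x) :
    PTF (fun c => Delta222.acs (P c) (x c)) := by
  unfold Delta222.acs
  refine PTF.map (f := fun c p => acell (P c) (x c) p)
    (PTF.range (PTU.length (ptf_acells_x hP hκ hx))) ?_
  exact ptf_acell (PTF.comp hP PTF.fst) (PTU.comp (n := fun c => (x c).κ) hκ PTF.fst)
    (PTF.comp hx PTF.fst) PTF.snd

theorem ptf_abod (hP : PTF P) (hκ : PTU (fun c => (x c).κ)) (hx : PTF x) :
    PTF (fun c => Delta222.abod (P c) (x c)) := by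
  unfold Delta222.abod
  refine PTF.flatten (PTF.replicate ?_ (ptf_acs hP hκ hx))
  exact PTU.add (PTU.mul (ptu_gJ hP) (ptu_mJ hP)) (PTU.const 1)

/-- all cells of the body calls have class `≤ κ + a2` -/
theorem acs_κ_le {P : Par} {c d : Cel} (h : d ∈ Delta222.acs P c) : d.κ ≤ c.κ + P.a2 := by
  obtain ⟨p, -, rfl⟩ := List.mem_map.1 h
  exact acell_κ_le _ _ _

theorem abod_κ_le {P : Par} {c d : Cel} (h : d ∈ Delta222.abod P c) : d.κ ≤ c.κ + P.a2 := by
  obtain ⟨l, hl, h⟩ := List.mem_flatten.1 h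
  rw [List.eq_of_mem_replicate hl] at h
  exact acs_κ_le h

theorem ptf_arrFin {us fs : γ → List (List ℕ)} (hP : PTF P) (hκ : PTU (fun c => (x c).κ))
    (hx : PTF x) (hu : PTF us) (hf : PTF fs) :
    PTF (fun c => Delta222.arrFin (P c) (x c) (us c) (fs c)) := by
  have ha := ptf_acells_x hP hκ hx
  have hn : PTF (fun c => (acells (P c) (x c).κ (x c).m).length) := PTU.toPTF (PTU.length ha)
  have hEs : PTF (fun c => Delta222.chunk (acells (P c) (x c).κ (x c).m).length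
      ((P c).gJ * (P c).mJ) (us c)) := ptf_chunk hn (PTU.mul (ptu_gJ hP) (ptu_mJ hP)) hu
  have hB : PTF (fun c => (us c).drop ((P c).gJ * (P c).mJ *
      (acells (P c) (x c).κ (x c).m).length)) :=
    PtX949.drop (PTF.natMul (PTF.natMul (ptf_gJ hP) (ptf_mJ hP)) hn) hu
  have hp0 : PTF (fun c => (acells (P c) (x c).κ (x c).m).idxOf ((x c).κ, (x c).m)) := by
    rw [beqProd_eq]
    exact PTU.toPTF (PtX949.idxOf ha (PTF.prodMk hκ.toPTF (ptf_celM hx)))
  have hcs := ptf_jcand hP hκ hx hEs hB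
  set CS : γ → List (St × ℕ × ℕ) := fun c => jcand (P c) (x c)
    (Delta222.chunk (acells (P c) (x c).κ (x c).m).length ((P c).gJ * (P c).mJ) (us c))
    ((us c).drop ((P c).gJ * (P c).mJ * (acells (P c) (x c).κ (x c).m).length)) with hCS
  unfold Delta222.arrFin
  refine PTF.map (f := fun c t => arrNum (P c) (fun _ => Delta222.hd1 (fs c) t) (x c).κ
    (cst (P c) (x c) t)
    (jest (P c) (Delta222.chunk (acells (P c) (x c).κ (x c).m).length ((P c).gJ * (P c).mJ) (us c))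
      ((acells (P c) (x c).κ (x c).m).idxOf ((x c).κ, (x c).m)) t)
    (jent ((us c).drop ((P c).gJ * (P c).mJ * (acells (P c) (x c).κ (x c).m).length))
      ((acells (P c) (x c).κ (x c).m).idxOf ((x c).κ, (x c).m)) t)
    (CS c)) (PTF.range (ptu_csz hP hκ)) ?_
  have e1 : PTF (fun q : γ × ℕ => q.1) := PTF.fst
  have hP1 : PTF (fun q : γ × ℕ => P q.1) := PTF.comp hP e1
  have hx1 : PTF (fun q : γ × ℕ => x q.1) := PTF.comp hx e1
  have hκ1 : PTU (fun q : γ × ℕ => (x q.1).κ) := PTU.comp (n := fun c => (x c).κ) hκ e1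
  refine ptf_arrNum (P := fun q : γ × ℕ => P q.1)
    (F := fun (q : γ × ℕ) (_ : St) => Delta222.hd1 (fs q.1) q.2) hP1
    (ptf_hd1 (PTF.comp hf e1) PTF.snd) hκ1 (ptf_cst hP1 hκ1 hx1 PTF.snd) ?_ ?_
    (PTF.comp (g := CS) (f := fun q : γ × ℕ => q.1) hcs e1)
  · exact ptf_jest hP1 (PTF.comp hEs e1) (PTF.comp hp0 e1) PTF.snd
  · exact ptf_jent (PTF.comp hB e1) (PTF.comp hp0 e1) PTF.snd

/-- `lf c n y` = leaf value from the answer `n` at the state `y` -/
theorem ptf_botFin {lf : γ → ℕ → St → Option ℕ} {fs gs : γ → List (List ℕ)} (hP : PTF P)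
    (hκ : PTU (fun c => (x c).κ)) (hx : PTF x)
    (hl : PTF (fun q : γ × ℕ × St => lf q.1 q.2.1 q.2.2)) (hf : PTF fs) (hg : PTF gs) :
    PTF (fun c => Delta222.botFin (P c) (lf c) (x c) (fs c) (gs c)) := by
  unfold Delta222.botFin
  refine PTF.map (f := fun c t => botNum (P c) (fun y => lf c (Delta222.hd1 (gs c) t) y)
    (fun _ => Delta222.hd1 (fs c) t) (x c).κ (cst (P c) (x c) t)) (PTF.range (ptu_csz hP hκ)) ?_
  have e1 : PTF (fun q : γ × ℕ => q.1) := PTF.fst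
  have hP1 : PTF (fun q : γ × ℕ => P q.1) := PTF.comp hP e1
  have hx1 : PTF (fun q : γ × ℕ => x q.1) := PTF.comp hx e1
  have hκ1 : PTU (fun q : γ × ℕ => (x q.1).κ) := PTU.comp (n := fun c => (x c).κ) hκ e1
  have hc := ptf_cst hP1 hκ1 hx1 (t := fun q : γ × ℕ => q.2) PTF.snd
  refine ptf_botNum (P := fun q : γ × ℕ => P q.1)
    (leaf := fun (q : γ × ℕ) (y : St) => lf q.1 (Delta222.hd1 (gs q.1) q.2) y)
    (F := fun (q : γ × ℕ) (_ : St) => Delta222.hd1 (fs q.1) q.2) hP1 ?_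
    (ptf_hd1 (PTF.comp hf e1) PTF.snd) hκ1 hc
  exact PTF.comp (g := fun q : γ × ℕ × St => lf q.1 q.2.1 q.2.2)
    (f := fun q : γ × ℕ => (q.1, Delta222.hd1 (gs q.1) q.2, cst (P q.1) (x q.1) q.2)) hl
    (PTF.prodMk e1 (PTF.prodMk (ptf_hd1 (PTF.comp hg e1) PTF.snd) hc))

end arr

/-! ### the numbers -/

section num

variable {P : γ → Par}

/-- the number of a pair from the list `l` of the values of the lanes -/
def numFin (P : Par) (κ : ℕ) (l : List ℕ) : ℕ :=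
  medMean P.gX P.mX (fun a b => l.getD (a * P.mX + b) 0) + (cdiv (2 ^ κ) (2 ^ P.nb) + 1)

theorem ptf_numFin {κ : γ → ℕ} {l : γ → List ℕ} (hP : PTF P) (hκ : PTU κ) (hl : PTF l) :
    PTF (fun c => numFin (P c) (κ c) (l c)) := by
  unfold numFin
  refine PTF.natAdd ?_ (PTF.natAdd (ptf_cdiv (PTF.natTwoPow hκ) (PTF.natTwoPow (ptu_nb hP)))
    (PTF.const 1))
  refine ptf_medMean (G := fun c => (P c).gX) (M := fun c => (P c).mX)
    (x := fun c a b => (l c).getD (a * (P c).mX + b) 0) (ptu_gX hP) (ptu_mX hP) ?_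
  have e : PTF (fun q : γ × ℕ × ℕ => q.1) := PTF.fst
  exact PtX949.getD (PTF.natAdd (PTF.natMul (by fun_prop)
    (PTF.comp (g := fun c => (P c).mX) (ptf_mX hP) e)) (by fun_prop)) (PTF.comp hl e) (PTF.const 0)

theorem numPair_eq (P : Par) (leaf : St → Option ℕ) (F : St → ℕ) (X : ℕ → ℕ → St → ℕ) (k κ : ℕ)
    (z : St) : numPair P leaf F X k κ z = if adm P F κ z = false then .ret (F z) else
      (Crest.Agent.R295.Rnd627.RT.reps (P.gX * P.mX) (lanePair P leaf F X k κ z)).bind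
        fun l => .ret (numFin P κ l) := rfl

end num

end Crest.Agent.R288.PtbD964
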