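import Crest.Agent.R288.PgY_583
import Crest.Agent.R288.PtbD_964

/-!
# R288 [PROG], procedures X, F, H: certificates of the texts of PgY_583 (helper333)

* `ptf_admV` : the guard of a number (the class is binary);
* `ptf_xfin` : the number of a pair from the tables of the lanes (class unary);
* frames: `ptf_ent`, `ptf_arS`, `ptf_arC`, `ptf_zOf`, `ptf_qU`, `ptf_qX`, `ptf_qF`, `ptf_qH`, `ptf_qA`,
  `ptf_qB`, `ptf_ans`;
* `ptf_phX` (class unary); `capA b ar` = the arguments with the class cut at `b`,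
  `capA_of_le`, `capA_arS`, `capA_arC`, `ptf_phX_cap` (`b` unary, class binary);
* `ptf_hprs`, `ptf_hkeys`, `ptf_hmean`, `ptf_hfin`, `ptf_rks`, `ptf_phG`, `ptf_phF`, `ptf_phH`
  (no condition: they never use the class).
-/

set_option autoImplicit false

namespace Crest.Agent.R288.PtfX333

open Crest.Agent.Lib.PT Crest.Agent.R288.Alg45 Crest.Agent.R288.PgX583 Crest.Agent.R288.PtX949
  Crest.Agent.R288.PgY583 Crest.Agent.R295.Pt949 Crest.Agent.R288.PtY949
  Crest.Agent.R288.StPT569 Crest.Agent.R288.PtSt966 Crest.Agent.R288.PtSub964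
  Crest.Agent.R288.PtbC964 Crest.Agent.R288.PtbD964 Crest.Agent.R288.Delta222

variable {α β γ δ : Type} [PTCode α] [PTCode β] [PTCode γ] [PTCode δ]

section

variable {P : γ → Par} {κ Fz : γ → ℕ} {z : γ → St} {res : γ → List (List ℕ)}

@[fun_prop]
theorem ptf_xfin (hP : PTF P) (hκ : PTU κ) (hz : PTF z) (hr : PTF res) :
    PTF (fun c => xfin (P c) (κ c) (z c) (res c)) := by
  unfold xfin
  have hm : PTF (fun c => (res c).map fun T => rdt (P c) (celOf (κ c) (z c)) T (z c)) := by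
    refine PTF.map hr ?_
    have h1 : PTU (fun q : γ × List ℕ => κ q.1) := PTU.comp hκ PTF.fst
    have h2 : PTU (fun q : γ × List ℕ => (celOf (κ q.1) (z q.1)).κ) := h1
    have h3 : PTF (fun q : γ × List ℕ => P q.1) := PTF.comp hP PTF.fst
    have h4 : PTF (fun q : γ × List ℕ => z q.1) := PTF.comp hz PTF.fst
    exact ptf_rdt (P := fun q : γ × List ℕ => P q.1)
      (x := fun q : γ × List ℕ => celOf (κ q.1) (z q.1)) (T := fun q : γ × List ℕ => q.2)
      (y := fun q : γ × List ℕ => z q.1) h3 h2 (ptf_celOf h1 h4) PTF.snd h4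
  have h5 : PTF (fun c => medMean (P c).gX (P c).mX
      (fun a b => ((res c).map fun T => rdt (P c) (celOf (κ c) (z c)) T (z c)).getD
        (a * (P c).mX + b) 0)) := by
    refine ptf_medMean (ptu_gX hP) (ptu_mX hP) ?_
    have h6 : PTF (fun p : γ × ℕ × ℕ =>
        (res p.1).map fun T => rdt (P p.1) (celOf (κ p.1) (z p.1)) T (z p.1)) :=
      PTF.comp (g := fun c => (res c).map fun T => rdt (P c) (celOf (κ c) (z c)) T (z c))
        (f := fun p : γ × ℕ × ℕ => p.1) hm PTF.fst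
    have h7 : PTF (fun p : γ × ℕ × ℕ => (P p.1).mX) :=
      PTF.comp (g := fun c => (P c).mX) (f := fun p : γ × ℕ × ℕ => p.1) (ptf_mX hP) PTF.fst
    fun_prop
  have h8 : PTF (fun c => 2 ^ κ c) := PTF.natTwoPow hκ
  have h9 : PTF (fun c => 2 ^ (P c).nb) := PTF.natTwoPow (ptu_nb hP)
  exact PTF.natAdd h5 (PTF.natAdd (ptf_cdiv h8 h9) (PTF.const 1))

/-- below the guard the class is unary -/
theorem ptu_cls_sub (hF : PTF Fz) (hκ : PTF κ) :
    PTU (fun a : {c // κ c ≤ Nat.log 2 (Fz c) + 1} => κ a.1) := by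
  have h1 : PTU (fun a : {c // κ c ≤ Nat.log 2 (Fz c) + 1} => Nat.log 2 (Fz a.1) + 1) := by
    have h2 : PTF (fun a : {c // κ c ≤ Nat.log 2 (Fz c) + 1} => Fz a.1) := ptf_sub hF
    have h3 : PTU (fun a : {c // κ c ≤ Nat.log 2 (Fz c) + 1} => Nat.log 2 (Fz a.1)) :=
      ptu_log (PTF.const 2) h2
    fun_prop
  exact PtSub964.ptu_of_le (ptf_sub hκ) h1 fun a => a.2

/-- the guard of a number; the class is binary -/
@[fun_prop]
theorem ptf_admV (hP : PTF P) (hF : PTF Fz) (hκ : PTF κ) (hz : PTF z) :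
    PTF (fun c => admV (P c) (Fz c) (κ c) (z c)) := by
  have hW : PTPred (fun c => κ c ≤ Nat.log 2 (Fz c) + 1) := by
    have h3 : PTU (fun c => Nat.log 2 (Fz c)) := ptu_log (PTF.const 2) hF
    exact PTPred.natLe hκ (PTF.natAdd h3.toPTF (PTF.const 1))
  have hg : PTF (fun a : {c // κ c ≤ Nat.log 2 (Fz c) + 1} =>
      decide (rdn (P a.1) (κ a.1) (z a.1) = z a.1) &&
        decide (((z a.1).v - (z a.1).u).natAbs ≤ 8 * 2 ^ κ a.1) &&
        decide (Nat.log 2 (Fz a.1) ≤ κ a.1 + 1)) := by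
    have h1 := ptu_cls_sub hF hκ
    have hP' : PTF (fun a : {c // κ c ≤ Nat.log 2 (Fz c) + 1} => P a.1) := ptf_sub hP
    have hz' : PTF (fun a : {c // κ c ≤ Nat.log 2 (Fz c) + 1} => z a.1) := ptf_sub hz
    have hF' : PTF (fun a : {c // κ c ≤ Nat.log 2 (Fz c) + 1} => Fz a.1) := ptf_sub hF
    have hκ' : PTF (fun a : {c // κ c ≤ Nat.log 2 (Fz c) + 1} => κ a.1) := ptf_sub hκ
    have h2 : PTF (fun a : {c // κ c ≤ Nat.log 2 (Fz c) + 1} => 2 ^ κ a.1) := PTF.natTwoPow h1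
    have h3 : PTU (fun a : {c // κ c ≤ Nat.log 2 (Fz c) + 1} => Nat.log 2 (Fz a.1)) :=
      ptu_log (PTF.const 2) hF'
    have a1 : PTPred (fun a : {c // κ c ≤ Nat.log 2 (Fz c) + 1} =>
        rdn (P a.1) (κ a.1) (z a.1) = z a.1) := PTPred.eq (ptf_rdn hP' h1 hz') hz'
    have a2 : PTPred (fun a : {c // κ c ≤ Nat.log 2 (Fz c) + 1} =>
        ((z a.1).v - (z a.1).u).natAbs ≤ 8 * 2 ^ κ a.1) :=
      PTPred.natLe (by fun_prop) (PTF.natMul (PTF.const 8) h2)
    have a3 : PTPred (fun a : {c // κ c ≤ Nat.log 2 (Fz c) + 1} =>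
        Nat.log 2 (Fz a.1) ≤ κ a.1 + 1) := PTPred.natLe h3.toPTF (PTF.natAdd hκ' (PTF.const 1))
    exact (a1.toPTF.and a2.toPTF).and a3.toPTF
  refine (ptf_ite_sub (g := fun c => decide (rdn (P c) (κ c) (z c) = z c) &&
    decide (((z c).v - (z c).u).natAbs ≤ 8 * 2 ^ κ c) &&
    decide (Nat.log 2 (Fz c) ≤ κ c + 1)) hW hg (PTF.const false)).of_eq fun c => ?_
  unfold admV
  by_cases h : κ c ≤ Nat.log 2 (Fz c) + 1
  · simp [h]
  · simp [h]

end

/-! ### frames -/

section frames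

@[fun_prop]
theorem ptf_ent {tg : γ → ℕ} {ar : γ → Ar} (ht : PTF tg) (ha : PTF ar) :
    PTF (fun c => ent (tg c) (ar c)) := by
  unfold ent
  fun_prop

@[fun_prop]
theorem ptf_arS {a k : γ → ℕ} {y : γ → St} (ha : PTF a) (hk : PTF k) (hy : PTF y) :
    PTF (fun c => arS (a c) (k c) (y c)) := by
  unfold arS
  fun_prop

@[fun_prop]
theorem ptf_arC {a : γ → ℕ} {x : γ → Cel} (ha : PTF a) (hx : PTF x) :
    PTF (fun c => arC (a c) (x c)) := by
  unfold arC
  fun_prop

@[fun_prop]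
theorem ptf_zOf {ar : γ → Ar} (ha : PTF ar) : PTF (fun c => zOf (ar c)) := by
  unfold zOf
  exact ptf_stMk (by fun_prop) (by fun_prop) (by fun_prop) (by fun_prop)

@[fun_prop]
theorem ptf_qU {y : γ → St} (hy : PTF y) : PTF (fun c => qU (y c)) := by
  unfold qU
  fun_prop

@[fun_prop]
theorem ptf_qX {l k : γ → ℕ} {y : γ → St} (hl : PTF l) (hk : PTF k) (hy : PTF y) :
    PTF (fun c => qX (l c) (k c) (y c)) := by
  unfold qX
  fun_prop

@[fun_prop]
theorem ptf_qF {e : γ → ℕ} {y : γ → St} (he : PTF e) (hy : PTF y) :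
    PTF (fun c => qF (e c) (y c)) := by
  unfold qF
  fun_prop

@[fun_prop]
theorem ptf_qH {l : γ → ℕ} {y : γ → St} (hl : PTF l) (hy : PTF y) :
    PTF (fun c => qH (l c) (y c)) := by
  unfold qH
  fun_prop

@[fun_prop]
theorem ptf_qA {l : γ → ℕ} {x : γ → Cel} (hl : PTF l) (hx : PTF x) :
    PTF (fun c => qA (l c) (x c)) := by
  unfold qA
  fun_prop

@[fun_prop]
theorem ptf_qB {l : γ → ℕ} {x : γ → Cel} (hl : PTF l) (hx : PTF x) :
    PTF (fun c => qB (l c) (x c)) := by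
  unfold qB
  fun_prop

@[fun_prop]
theorem ptf_ans {sv : γ → Svd} {p : γ → ℕ} (hs : PTF sv) (hp : PTF p) :
    PTF (fun c => ans (sv c) (p c)) := by
  unfold ans
  fun_prop

end frames

/-! ### X -/

section phX

variable {P : γ → Par} {ar : γ → Ar} {sv : γ → Svd}

/-- certificate of X when the class is unary -/
theorem ptf_phX (hP : PTF P) (har : PTF ar) (hk : PTU (fun c => (ar c).2.1)) (hsv : PTF sv) :
    PTF (fun c => phX (P c) (ar c) (sv c)) := by
  have hz : PTF (fun c => zOf (ar c)) := ptf_zOf har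
  have hkt : PTF (fun c => (ar c).2.1) := hk.toPTF
  have ha : PTF (fun c => ans (sv c) 0) := by fun_prop
  have h1 : PTF (fun c => admV (P c) (ans (sv c) 0) (ar c).2.1 (zOf (ar c))) :=
    ptf_admV hP ha hkt hz
  have h2 : PTF (fun c => xfin (P c) (ar c).2.1 (zOf (ar c)) ((sv c).getD 1 [])) :=
    ptf_xfin hP hk hz (by fun_prop)
  have h3 : PTF (fun c => celOf (ar c).2.1 (zOf (ar c))) := ptf_celOf hk hz
  have h4 : PTU (fun c => (P c).gX * (P c).mX) := PTU.mul (ptu_gX hP) (ptu_mX hP)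
  have h5 : PTF (fun c => List.replicate ((P c).gX * (P c).mX)
      (qA (ar c).1 (celOf (ar c).2.1 (zOf (ar c))))) :=
    PTF.replicate h4 (ptf_qA (by fun_prop) h3)
  have h6 : PTF (fun c => qF (((ar c).1 - 1) / (P c).K) (zOf (ar c))) := by
    have := ptf_K hP
    exact ptf_qF (by fun_prop) hz
  unfold phX
  refine PTF.ite (by fun_prop) (by fun_prop) (PTF.ite (by fun_prop) (PTF.ite ?_ (by fun_prop)
    (by fun_prop)) (by fun_prop))
  fun_prop

end phX

/-! ### bounded class -/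

section cap

/-- the arguments with the class cut at `b` -/
def capA (b : ℕ) (ar : Ar) : Ar := (ar.1, min ar.2.1 b, ar.2.2)

theorem capA_of_le {b : ℕ} {ar : Ar} (h : ar.2.1 ≤ b) : capA b ar = ar := by
  obtain ⟨a, k, r⟩ := ar
  simp only [capA, Prod.mk.injEq, true_and, and_true]
  exact min_eq_left h

@[simp] theorem capA_arS {b a k : ℕ} {y : St} (h : k ≤ b) : capA b (arS a k y) = arS a k y :=
  capA_of_le h

theorem capA_arC {b a : ℕ} {x : Cel} (h : x.κ ≤ b) : capA b (arC a x) = arC a x := capA_of_le h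

@[fun_prop]
theorem ptf_capA {b : γ → ℕ} {ar : γ → Ar} (hb : PTF b) (ha : PTF ar) :
    PTF (fun c => capA (b c) (ar c)) := by
  unfold capA
  fun_prop

@[fun_prop]
theorem ptu_capA {b : γ → ℕ} {ar : γ → Ar} (hb : PTU b) (ha : PTF ar) :
    PTU (fun c => (capA (b c) (ar c)).2.1) :=
  PtX949.ptu_min_left (f := fun c => (ar c).2.1) (by fun_prop) hb

variable {P : γ → Par} {ar : γ → Ar} {sv : γ → Svd} {b : γ → ℕ}

/-- X with the class cut at a unary number -/
theorem ptf_phX_cap (hP : PTF P) (hb : PTU b) (har : PTF ar) (hsv : PTF sv) :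
    PTF (fun c => phX (P c) (capA (b c) (ar c)) (sv c)) :=
  ptf_phX hP (ptf_capA hb.toPTF har) (ptu_capA hb har) hsv

end cap

/-! ### the hulls -/

section hulls

variable {P : γ → Par} {Fy : γ → ℕ} {y : γ → St} {ls : γ → List ℕ}

@[fun_prop]
theorem ptf_hprs (hP : PTF P) (hF : PTF Fy) (hy : PTF y) :
    PTF (fun c => hprs (P c) (Fy c) (y c)) := ptf_hullPairs hP hF hy

@[fun_prop]
theorem ptf_harg {l : γ → ℕ} {p : γ → ℕ × St} (hl : PTF l) (hp : PTF p) :
    PTF (fun c => harg (l c) (p c)) := by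
  unfold harg
  fun_prop

@[fun_prop]
theorem ptf_HK {p : γ → ℕ × St} (hl : PTF ls) (hp : PTF p) :
    PTF (fun c => HK (ls c) (p c)) := by
  unfold HK
  refine PTF.map (f := fun c l => (l, harg l (p c))) hl ?_
  exact PTF.prodMk PTF.snd (ptf_harg (l := fun q : γ × ℕ => q.2) (p := fun q : γ × ℕ => p q.1)
    PTF.snd (PTF.comp hp PTF.fst))

@[fun_prop]
theorem ptf_hkeys (hP : PTF P) (hF : PTF Fy) (hy : PTF y) (hl : PTF ls) :
    PTF (fun c => hkeys (P c) (Fy c) (y c) (ls c)) := by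
  unfold hkeys
  refine PTF.flatMap (f := fun c p => HK (ls c) p) (ptf_hprs hP hF hy) ?_
  exact ptf_HK (ls := fun q : γ × (ℕ × St) => ls q.1) (p := fun q : γ × (ℕ × St) => q.2)
    (PTF.comp hl PTF.fst) PTF.snd

@[fun_prop]
theorem ptf_hmean {T : γ → List ((ℕ × ℕ × St) × ℕ)} {p : γ → ℕ × St} (hl : PTF ls) (hT : PTF T)
    (hp : PTF p) : PTF (fun c => hmean (ls c) (T c) (p c)) := by
  unfold hmean
  have h1 : PTF (fun c => (HK (ls c) (p c)).map fun k => asc (T c) k 0) := by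
    refine PTF.map (f := fun c k => asc (T c) k 0) (ptf_HK hl hp) ?_
    exact Delta222.ptf_asc (PTF.comp hT PTF.fst) PTF.snd (PTF.const 0)
  refine ptf_cdiv ?_ (PTU.toPTF (PTU.length hl))
  exact PTF.natListSum h1

@[fun_prop]
theorem ptf_hfin {r : γ → List ℕ} (hP : PTF P) (hF : PTF Fy) (hy : PTF y) (hl : PTF ls)
    (hr : PTF r) : PTF (fun c => hfin (P c) (Fy c) (y c) (ls c) (r c)) := by
  unfold hfin hullV
  have hT : PTF (fun c => (hkeys (P c) (Fy c) (y c) (ls c)).zip (r c)) :=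
    PTF.zip (ptf_hkeys hP hF hy hl) hr
  refine ptf_lmin hF (PTF.map (f := fun c p => dist (y c) p.2 +
    hmean (ls c) ((hkeys (P c) (Fy c) (y c) (ls c)).zip (r c)) p) (ptf_hprs hP hF hy) ?_)
  refine PTF.natAdd (ptf_dist (PTF.comp hy PTF.fst) (PTF.comp PTF.snd PTF.snd)) ?_
  exact ptf_hmean (ls := fun q : γ × (ℕ × St) => ls q.1)
    (T := fun q : γ × (ℕ × St) => (hkeys (P q.1) (Fy q.1) (y q.1) (ls q.1)).zip (r q.1))
    (p := fun q : γ × (ℕ × St) => q.2) (PTF.comp hl PTF.fst) (PTF.comp hT PTF.fst) PTF.snd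

@[fun_prop]
theorem ptf_rks {e : γ → ℕ} (hP : PTF P) (he : PTF e) : PTF (fun c => rks (P c) (e c)) := by
  unfold rks idx
  have hK := ptf_K hP
  refine PTF.map (f := fun c i => 1 + e c * (P c).K + i) (PTF.range (ptu_K hP)) ?_
  have h1 : PTF (fun q : γ × ℕ => (P q.1).K) := PTF.comp (g := fun c => (P c).K) hK PTF.fst
  have h2 : PTF (fun q : γ × ℕ => e q.1) := PTF.comp he PTF.fst
  exact PTF.natAdd (PTF.natAdd (PTF.const 1) (PTF.natMul h2 h1)) PTF.snd

theorem ptf_phG {q0 : γ → List ℕ} {sv : γ → Svd} (hP : PTF P) (hq : PTF q0) (hl : PTF ls)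
    (hy : PTF y) (hsv : PTF sv) :
    PTF (fun c => phG (P c) (q0 c) (ls c) (y c) (sv c)) := by
  have ha : PTF (fun c => ans (sv c) 0) := by fun_prop
  have h1 : PTF (fun c => (hkeys (P c) (ans (sv c) 0) (y c) (ls c)).map
      fun k => qX k.1 k.2.1 k.2.2) := by
    refine PTF.map (f := fun _ k => qX k.1 k.2.1 k.2.2) (ptf_hkeys hP ha hy hl) ?_
    exact ptf_qX (by fun_prop) (by fun_prop) (by fun_prop)
  have h2 : PTF (fun c => hfin (P c) (ans (sv c) 0) (y c) (ls c)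
      (((sv c).getD 1 []).map fun r => r.headD 0)) := by
    refine ptf_hfin hP ha hy hl ?_
    exact PTF.map (f := fun _ (r : List ℕ) => r.headD 0) (by fun_prop)
      (PtX949.headD PTF.snd (PTF.const 0))
  unfold phG
  refine PTF.ite (by fun_prop) (by fun_prop) (PTF.ite (by fun_prop) (by fun_prop) (by fun_prop))

theorem ptf_phF {ar : γ → Ar} {sv : γ → Svd} (hP : PTF P) (har : PTF ar) (hsv : PTF sv) :
    PTF (fun c => phF (P c) (ar c) (sv c)) := by
  unfold phF
  refine ptf_phG hP ?_ ?_ (ptf_zOf har) hsv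
  · fun_prop
  · have h := ptf_rks (e := fun c => (ar c).1 - 1) hP (by fun_prop)
    refine PTF.ite (by fun_prop) (by fun_prop) h

theorem ptf_phH {ar : γ → Ar} {sv : γ → Svd} (hP : PTF P) (har : PTF ar) (hsv : PTF sv) :
    PTF (fun c => phH (P c) (ar c) (sv c)) := by
  unfold phH
  have hK := ptf_K hP
  refine ptf_phG hP ?_ ?_ (ptf_zOf har) hsv
  · fun_prop
  · fun_prop

end hulls

end Crest.Agent.R288.PtfX333
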