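import Crest.Agent.R288.PgB_578
import Crest.Agent.R288.PgY_583
import Crest.Agent.R288.ArrY_222
import Crest.Agent.R288.PgBo_72
import Crest.Agent.R288.PtfX_333
import Crest.Agent.R288.Pg7_776

/-!
# R288, leaf RAM.PROG, part C (helper578): the text of the program, the hypotheses `Hyp`

(text of BODY, tag 6: `Delta72.phB`, text of ARR, tag 5: `Delta222.phA`, X and F: `PgY583.phX phF`)
* `Txt` : parameters, class bound, leaf request, decoding of the leaf answer as functions of the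
  constants; **`phAll D : Ph`** = tags 3 (X), 4 (F), 5 (ARR), 6 (BODY), class cut at `D.b K`;
  `phAll_X/F/A/B`, `ptf_phAll`;
* `Cx` : the mathematical data of a run (parameters, leaf, numbers `X`, leaf requests, domain);
  `ep`, `rk`, `Fl`, `Xl`, `tA`, `tB`, `tX` : the computations of the procedures;
* **`Hyp c D G W K Z lfc`** : all hypotheses of the realisation theorems.
-/

set_option autoImplicit false

namespace Crest.Agent.R288.Pgc578

open Crest.Agent.Lib.PT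
open Crest.Agent.R295.Rnd627 Crest.Agent.R295.Pt949 Crest.Agent.R288.PtY949
open Crest.Agent.R288.Alg45 Crest.Agent.R288.PrK690 Crest.Agent.R288.Pgb578
open Crest.Agent.R288.PgA172 Crest.Agent.R288.Delta222 Crest.Agent.R288.Delta72
open Crest.Agent.R288.PgX583 Crest.Agent.R288.PtfX333
open Crest.Agent.R288.PgY583 (ent arS arC zOf qU qX qF qA qB phX phF)
open Crest.Agent.R288.Phe940 (Prg Wld Rz Rq Rqs)

/-- epoch of an index -/
def ep (P : Par) (l : ℕ) : ℕ := (l - 1) / P.K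
/-- rank of an index -/
def rk (P : Par) (l : ℕ) : ℕ := (l - 1) % P.K

/-- what the texts read from the constants -/
structure Txt where
  /-- parameters -/
  PK : KN → Par
  /-- bound of the classes -/
  b : KN → ℕ
  /-- leaf request -/
  la : KN → St → List ℕ
  /-- decoding of its answer -/
  lf : KN → ℕ → St → Option ℕ

/-- **the text of the program**: tags 3, 4, 5, 6 -/
def phAll (D : Txt) : Ph := fun K tg ar sv =>
  if tg = 3 then phX (D.PK K) (capA (D.b K) ar) sv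
  else if tg = 4 then phF (D.PK K) (capA (D.b K) ar) sv
  else if tg = 5 then phA (D.PK K) (D.la K) (D.lf K) (capA (D.b K) ar) sv
  else if tg = 6 then phB (D.PK K) (D.la K) (D.lf K) (capA (D.b K) ar) sv
  else .inl []

section

variable (D : Txt) (K : KN)

theorem phAll_X {l κ : ℕ} {z : St} (h : κ ≤ D.b K) (sv : Svd) :
    phAll D K 3 (arS l κ z) sv = phX (D.PK K) (arS l κ z) sv := by
  rw [phAll, if_pos rfl, capA_arS h]

theorem phAll_F {e : ℕ} {y : St} (sv : Svd) :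
    phAll D K 4 (arS e 0 y) sv = phF (D.PK K) (arS e 0 y) sv := by
  rw [phAll, if_neg (by norm_num), if_pos rfl, capA_arS (Nat.zero_le _)]

theorem phAll_A {l : ℕ} {d : Cel} (h : d.κ ≤ D.b K) (sv : Svd) :
    phAll D K 5 (arC l d) sv = phA (D.PK K) (D.la K) (D.lf K) (arC l d) sv := by
  rw [phAll, if_neg (by norm_num), if_neg (by norm_num), if_pos rfl, capA_arC h]

theorem phAll_B {l : ℕ} {d : Cel} (h : d.κ ≤ D.b K) (sv : Svd) :
    phAll D K 6 (arC l d) sv = phB (D.PK K) (D.la K) (D.lf K) (arC l d) sv := by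
  rw [phAll, if_neg (by norm_num), if_neg (by norm_num), if_neg (by norm_num), if_pos rfl,
    capA_arC h]

/-- certificate of the text from the certificates of the four parts -/
theorem ptf_phAll (hX : PTF (fun p : KN × Ar × Svd => phX (D.PK p.1) (capA (D.b p.1) p.2.1) p.2.2))
    (hF : PTF (fun p : KN × Ar × Svd => phF (D.PK p.1) (capA (D.b p.1) p.2.1) p.2.2))
    (hA : PTF (fun p : KN × Ar × Svd =>
      phA (D.PK p.1) (D.la p.1) (D.lf p.1) (capA (D.b p.1) p.2.1) p.2.2))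
    (hB : PTF (fun p : KN × Ar × Svd =>
      phB (D.PK p.1) (D.la p.1) (D.lf p.1) (capA (D.b p.1) p.2.1) p.2.2)) :
    PTF (fun p : KN × ℕ × Ar × Svd => phAll D p.1 p.2.1 p.2.2.1 p.2.2.2) := by
  have hp : PTF (fun p : KN × ℕ × Ar × Svd => ((p.1, p.2.2.1, p.2.2.2) : KN × Ar × Svd)) := by
    fun_prop
  have gX := PTF.comp hX hp
  have gF := PTF.comp hF hp
  have gA := PTF.comp hA hp
  have gB := PTF.comp hB hp
  unfold phAll
  fun_prop

end

/-- the mathematical data of a run -/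
structure Cx where
  P : Par
  leaf : St → Option ℕ
  U : St → RT ℕ
  /-- the numbers: index, pair -/
  X : ℕ → ℕ × St → ℕ
  /-- leaf request of a state, decoding, answer -/
  la : St → List ℕ
  lf : ℕ → St → Option ℕ
  lg : St → ℕ
  /-- start of the tape of an index -/
  o : ℕ → ℕ
  /-- states, pairs, cells of ARR, cells of BODY which occur -/
  DS : St → Prop
  DP : ℕ → St → Prop
  DA : Cel → Prop
  DB : Cel → Prop

namespace Cx

variable (c : Cx)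

/-- number of indices `1 .. EK` -/
def EK : ℕ := c.P.E * c.P.K
/-- unit function of an epoch -/
def F (e : ℕ) : St → ℕ := FE c.P c.X e
/-- unit function of the epoch of the index `l` -/
def Fl (l : ℕ) : St → ℕ := FE c.P c.X (ep c.P l)
/-- numbers of the epoch of the index `l` -/
def Xl (l : ℕ) : ℕ → ℕ → St → ℕ := fun i κ z => c.X (idx c.P (ep c.P l) i) (κ, z)
/-- ARR -/
def tA (l : ℕ) (d : Cel) : RT (List ℕ) := arrT c.P c.leaf (c.Fl l) (c.Xl l) (rk c.P l) d.i d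
/-- BODY -/
def tB (l : ℕ) (d : Cel) : RT (List ℕ) :=
  bodyT c.P c.leaf (c.Fl l) (c.Xl l) (rk c.P l)
    (fun d' => arrT c.P c.leaf (c.Fl l) (c.Xl l) (rk c.P l) (d.i - 1) d') d
/-- the number of an index `l > 0` -/
def tX (l κ : ℕ) (z : St) : RT ℕ := numPair c.P c.leaf (c.Fl l) (c.Xl l) (rk c.P l) κ z

theorem tA_zero {l : ℕ} {d : Cel} (h : d.i = 0) :
    c.tA l d = .ret (tabC c.P d fun y => botNum c.P c.leaf (c.Fl l) d.κ y) := by
  unfold tA
  rw [h]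
  rfl

theorem tA_succ {l : ℕ} {d : Cel} (h : 0 < d.i) :
    c.tA l d = arrOf c.P (c.Fl l) (fun d' => bodyT c.P c.leaf (c.Fl l) (c.Xl l) (rk c.P l)
      (fun d'' => arrT c.P c.leaf (c.Fl l) (c.Xl l) (rk c.P l) (d.i - 1) d'') d') d := by
  unfold tA
  obtain ⟨i, hi⟩ : ∃ i, d.i = i + 1 := ⟨d.i - 1, by omega⟩
  rw [hi]
  rfl

/-- on the cells of the joint draw the sub-computation of `tA` is `tB` -/
theorem tB_of {l : ℕ} {d d' : Cel} (h : d'.i = d.i) :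
    bodyT c.P c.leaf (c.Fl l) (c.Xl l) (rk c.P l)
      (fun d'' => arrT c.P c.leaf (c.Fl l) (c.Xl l) (rk c.P l) (d.i - 1) d'') d' = c.tB l d' := by
  unfold tB
  rw [h]

end Cx

/-- **all hypotheses of the realisation theorems** (`lfc` = cost of a leaf request) -/
structure Hyp (c : Cx) (D : Txt) (G : Prg) (W : Wld) (K : KN) (Z lfc : ℕ) : Prop where
  env : Env W K Z
  Z12 : 12 ≤ Z
  N : 0 < W.N
  NM : W.N ≤ W.M
  Kpos : 0 < c.P.K
  /-- the program -/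
  gX : Has G K (phAll D) 3
  gF : Has G K (phAll D) 4
  gA : Has G K (phAll D) 5
  gB : Has G K (phAll D) 6
  dP : D.PK K = c.P
  dla : D.la K = c.la
  dlf : D.lf K = c.lf
  /-- base -/
  bX : ∀ l κ z, G.base (fr K 3 (arS l κ z) []) = c.o l
  bF : ∀ e y, G.base (fr K 4 (arS e 0 y) []) ≤ W.Pm
  /-- the numbers are the values of the computations on their tapes -/
  X_eq : ∀ l, 0 < l → l ≤ c.EK → ∀ κ z, c.DP κ z →
    c.X l (κ, z) = (c.tX l κ z).val W.N W.Z (c.o l)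
  X_nxt : ∀ l, 0 < l → l ≤ c.EK → ∀ κ z, c.DP κ z → (c.tX l κ z).nxt W.N W.Z (c.o l) ≤ W.Pm
  /-- leaf command -/
  la_ok : ∀ y, c.DS y → W.okE (c.la y)
  la_E : ∀ y, c.DS y → W.E (c.la y) = [c.lg y]
  la_c : ∀ y, c.DS y → W.cE (c.la y) ≤ lfc
  la_wd : ∀ y, c.DS y → Wd W.M Z (3 :: c.la y)
  lg_lt : ∀ y, c.DS y → c.lg y < W.M
  leaf_eq : ∀ y, c.leaf y = c.lf (c.lg y) y
  /-- classes -/
  P_b : ∀ κ z, c.DP κ z → κ ≤ D.b K
  A_b : ∀ d, c.DA d → d.κ ≤ D.b K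
  B_b : ∀ d, c.DB d → d.κ ≤ D.b K
  /-- closure of the domain -/
  P_S : ∀ κ z, c.DP κ z → c.DS z
  P_A : ∀ l, 0 < l → l ≤ c.EK → ∀ κ z, c.DP κ z → adm c.P (c.Fl l) κ z = true →
    c.DA (celOf κ z)
  S_0 : ∀ y, c.DS y → c.DP 0 y
  S_h : ∀ e, e ≤ c.P.E → ∀ y, c.DS y → ∀ p ∈ hmenu c.P (c.F e) y, c.DP p.1 p.2
  S_h0 : ∀ y, c.DS y → ∀ p ∈ hmenu c.P (fun z => c.X 0 (0, z)) y, c.DS p.2
  A_S : ∀ d, c.DA d → ∀ y ∈ csts c.P d, c.DS y
  A_B : ∀ d, c.DA d → 0 < d.i → ∀ d' ∈ abod c.P d, c.DB d'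
  B_i : ∀ d, c.DB d → 0 < d.i
  B_S : ∀ d, c.DB d → ∀ y ∈ bst c.P d, c.DS y
  B_P : ∀ l, 0 < l → l ≤ c.EK → ∀ d, c.DB d → ∀ p ∈ bpr c.P (c.Fl l) d, c.DP p.1 p.2
  B_A : ∀ d, c.DB d → ∀ ρ, ∀ key ∈ bkeys c.P d.κ d.m ρ, c.DA (bcel c.P d key)
  /-- the arguments are words -/
  wU : ∀ z, c.DS z → ArOk W.M 2 (arS 0 0 z)
  wX : ∀ l, l ≤ c.EK → ∀ κ z, c.DP κ z → ArOk W.M 3 (arS l κ z)
  wF : ∀ e, e ≤ c.P.E → ∀ y, c.DS y → ArOk W.M 4 (arS e 0 y)
  wA : ∀ l, l ≤ c.EK → ∀ d, c.DA d → ArOk W.M 5 (arC l d)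
  wB : ∀ l, l ≤ c.EK → ∀ d, c.DB d → ArOk W.M 6 (arC l d)
  /-- the values are words -/
  vX : ∀ l, l ≤ c.EK → ∀ κ z, c.DP κ z → c.X l (κ, z) < W.M
  vF : ∀ e, e ≤ c.P.E → ∀ y, c.DS y → c.F e y < W.M
  vA : ∀ l, 0 < l → l ≤ c.EK → ∀ d, c.DA d → (c.tA l d).All W.N (Wd W.M Z)
  vB : ∀ l, 0 < l → l ≤ c.EK → ∀ d, c.DB d → (c.tB l d).All W.N (Wd W.M Z)
  /-- numbers of requests -/
  zX : c.P.gX * c.P.mX ≤ Z
  zF : ∀ e, e < c.P.E → ∀ y, c.DS y → (hkeys c.P (c.F e y) y (rks c.P e)).length ≤ Z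
  z0 : ∀ y, c.DS y → (hkeys c.P (c.X 0 (0, y)) y [0]).length ≤ Z
  zA : ∀ d, c.DA d → (abod c.P d).length + (csts c.P d).length ≤ Z
  zA0 : ∀ d, c.DA d → (csts c.P d).length + (csts c.P d).length ≤ Z
  zB0 : ∀ d, c.DB d → nwd c.P + (bst c.P d).length ≤ Z
  zB1 : ∀ l, 0 < l → l ≤ c.EK → ∀ d, c.DB d → ∀ ρ, (bkeys c.P d.κ d.m ρ).length +
    ((rpr (rk c.P l) (bpr c.P (c.Fl l) d)).length + (cells c.P d).length) ≤ Z

end Crest.Agent.R288.Pgc578
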