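import Crest.Agent.R288.ArrC_222
import Crest.Agent.R288.PgC_578

/-!
# R288, [PROG] procedure ARR (helper222) from the structure `Hyp` of `PgC_578`

**`arr_hyp`** (`0 < d.i`), **`arr0_hyp`** (`d.i = 0`): the arrival table `c.tA l d` is realised, from
the body tables of the same index and the unit function of its epoch.
-/

set_option autoImplicit false

namespace Crest.Agent.R288.Delta222

open Crest.Agent.R295.Rnd627 Crest.Agent.R288.Alg45 Crest.Agent.R288.PrK690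
  Crest.Agent.R288.Pgb578 Crest.Agent.R288.Pgc578
open Crest.Agent.R288.PgY583 (arS arC)
open Crest.Agent.R288.Phe940 (Prg Wld)

section hyp

variable {c : Cx} {D : Txt} {G : Prg} {W : Wld} {K : KN} {Z lfc : ℕ} {l n CB CF : ℕ} {d : Cel}

theorem ep_le (H : Hyp c D G W K Z lfc) (hl : l ≤ c.EK) : ep c.P l ≤ c.P.E := by
  unfold ep
  refine Nat.div_le_of_le_mul ?_
  have h1 : c.EK = c.P.E * c.P.K := rfl
  have h2 : c.P.K * c.P.E = c.P.E * c.P.K := Nat.mul_comm _ _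
  omega

/-- **ARR, macro height `> 0`** -/
theorem arr_hyp (H : Hyp c D G W K Z lfc) (h0 : 0 < l) (hl : l ≤ c.EK) (hd : c.DA d)
    (hi : 0 < d.i)
    (hB : ∀ d' ∈ abod c.P d, Cz G W K 6 (n + 1) (arC l d') [] (c.tB l d') CB)
    (hF : ∀ y ∈ csts c.P d, Cz G W K 4 (n + 1) (arS (ep c.P l) 0 y) [] (.ret [c.Fl l y]) CF) :
    Cz G W K 5 (n + 2) (arC l d) [] (c.tA l d)
      ((abod c.P d).length * (CB + 1) + (csts c.P d).length * (CF + 1) + 2) := by
  have hsub : ∀ d' ∈ abod c.P d, bodyT c.P c.leaf (c.Fl l) (c.Xl l) (rk c.P l)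
      (arrT c.P c.leaf (c.Fl l) (c.Xl l) (rk c.P l) (d.i - 1)) d' = c.tB l d' := fun d' hd' =>
    Cx.tB_of c (mem_abod c.P hd').1
  have hS : ∀ y ∈ csts c.P d, c.DS y := H.A_S d hd
  have hDB : ∀ d' ∈ abod c.P d, c.DB d' := H.A_B d hd hi
  refine phA_cz_pos (la := c.la) (lf := c.lf) H.gA H.env H.N H.Z12 (fun sv => ?_) (by omega)
    (fun d' hd' => ?_) hF (fun y _ => H.bF _ y) (fun d' hd' => ?_)
    (fun y hy => H.vF _ (ep_le H hl) y (hS y hy)) (H.wA l hl d hd)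
    (fun d' hd' => H.wB l hl d' (hDB d' hd'))
    (fun y hy => H.wF _ (ep_le H hl) y (hS y hy)) (H.zA d hd) (H.vA l h0 hl d hd)
  · rw [phAll_A D K (H.A_b d hd), H.dP, H.dla, H.dlf]
  · rw [hsub d' hd']
    exact hB d' hd'
  · rw [hsub d' hd']
    exact H.vB l h0 hl d' (hDB d' hd')

/-- **ARR, macro height `0`** -/
theorem arr0_hyp (H : Hyp c D G W K Z lfc) (h0 : 0 < l) (hl : l ≤ c.EK) (hd : c.DA d)
    (hi : d.i = 0)
    (hF : ∀ y ∈ csts c.P d, Cz G W K 4 (n + 1) (arS (ep c.P l) 0 y) [] (.ret [c.Fl l y]) CF) :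
    Cz G W K 5 (n + 2) (arC l d) [] (c.tA l d)
      ((csts c.P d).length * (CF + 1) + (csts c.P d).length * (lfc + 1) + 2) := by
  have hS : ∀ y ∈ csts c.P d, c.DS y := H.A_S d hd
  refine phA_cz_zero (la := c.la) (lf := c.lf) (g := c.lg) H.gA H.env H.N H.Z12 (fun sv => ?_) hi
    H.leaf_eq hF (fun y _ => H.bF _ y)
    (fun y hy => ⟨H.la_ok y (hS y hy), H.la_E y (hS y hy), H.la_c y (hS y hy)⟩)
    (fun y hy => H.vF _ (ep_le H hl) y (hS y hy)) (fun y hy => H.lg_lt y (hS y hy))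
    (H.wA l hl d hd) (fun y hy => H.wF _ (ep_le H hl) y (hS y hy))
    (fun y hy => H.la_wd y (hS y hy)) (H.zA0 d hd) (H.vA l h0 hl d hd)
  rw [phAll_A D K (H.A_b d hd), H.dP, H.dla, H.dlf]

end hyp

end Crest.Agent.R288.Delta222
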