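/-
# Row 288, [CNT] (helper308): sure number of requests and of words of ALG-U (names of AlgB_45)

* `Dr M T t`                 : the computation `t` reads at most `T` words on every tape
* `cellsIn_len`, `active_len`: number of cells around a cell, number of active ones (residues)
* `bkeys_len`, `acells_len`  : number of requests of a window / of a joint draw, EVERY residue choice
* `bodyT_dr`, `arrT_dr`, `lanePair_dr`, `numPair_dr`, `tapeRT_dr` : number of words
* `wd_le`                    : closed form `wd i ≤ (A (B + D)) ^ i`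
-/
import Crest.Agent.R288.AlgB_45

set_option autoImplicit false

namespace Crest.Agent.R288.Cnt308

open Crest.Agent.R295.Rnd627 Crest.Agent.R288.Alg45

/-! ## Number of words -/

section draws

variable {α β : Type} {M S T : ℕ}

theorem cnt_bind (t : RT α) (g : α → RT β) :
    (t.bind g).cnt = t.cnt.bind fun y => (g y.1).cnt.map fun z => (z.1, y.2 + z.2) := by
  induction t with
  | ret a =>
    show (g a).cnt = (g a).cnt.map fun z => (z.1, 0 + z.2)
    simp only [zero_add]
    exact (RT.bind_ret _).symm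
  | rnd k ih =>
    show (RT.rnd fun v => ((k v).bind g).cnt.map fun x => (x.1, x.2 + 1)) = _
    simp only [RT.cnt, RT.rnd_bind, ih, RT.map, RT.bind_assoc, RT.ret_bind]
    congr 1
    funext v
    congr 1
    funext y
    congr 1
    funext z
    congr 2
    omega

/-- at most `T` words on every tape -/
def Dr (M T : ℕ) (t : RT α) : Prop := t.cnt.All M fun y => y.2 ≤ T

theorem Dr.mono {t : RT α} (h : Dr M S t) (hST : S ≤ T) : Dr M T t :=
  RT.All.mono h fun _ hy => hy.trans hST

theorem Dr.ret (a : α) : Dr M T (RT.ret a) := Nat.zero_le _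

theorem Dr.draw : Dr M 1 RT.draw := by
  intro v hv
  show ((RT.ret v : RT ℕ).cnt.map fun x => (x.1, x.2 + 1)).All M _
  exact le_rfl

theorem Dr.bind {t : RT α} {g : α → RT β} (h : Dr M S t) (hg : ∀ a, Dr M T (g a)) :
    Dr M (S + T) (t.bind g) := by
  unfold Dr
  rw [cnt_bind, RT.All_bind]
  refine RT.All.mono h fun y hy => ?_
  rw [RT.map, RT.All_bind]
  refine RT.All.mono (hg y.1) fun z hz => ?_
  rw [RT.All_ret]
  exact add_le_add hy hz

theorem Dr.bind_ret {t : RT α} {f : α → β} (h : Dr M S t) :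
    Dr M S (t.bind fun a => .ret (f a)) :=
  Dr.bind (T := 0) h fun _ => Dr.ret _

theorem Dr.map {t : RT α} {f : α → β} (h : Dr M S t) : Dr M S (t.map f) := h.bind_ret

theorem Dr.reps {t : RT α} (h : Dr M S t) (k : ℕ) : Dr M (k * S) (RT.reps k t) := by
  induction k with
  | zero => exact Dr.ret _
  | succ k ih =>
    rw [RT.reps_succ]
    have := Dr.bind h (g := fun a => (RT.reps k t).bind fun l => .ret (a :: l))
      fun a => ih.bind_ret
    exact this.mono (by rw [Nat.succ_mul]; omega)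

theorem Dr.seqL {ts : List (RT α)} (h : ∀ t ∈ ts, Dr M S t) : Dr M (ts.length * S) (seqL ts) := by
  induction ts with
  | nil => exact Dr.ret _
  | cons t ts ih =>
    have := Dr.bind (h t List.mem_cons_self)
      (g := fun a => (Alg45.seqL ts).bind fun l => .ret (a :: l))
      fun a => (ih fun t ht => h t (List.mem_cons_of_mem _ ht)).bind_ret
    exact this.mono (by rw [List.length_cons, Nat.succ_mul]; omega)

end draws

/-! ## Number of cells -/

theorem cellsIn_eq (r κ : ℕ) (m : ℤ) (κ' : ℕ) :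
    cellsIn r κ m κ' = (List.range ((m + 1 + r) * 2 ^ κ / 2 ^ κ' -
      (m - r) * 2 ^ κ / 2 ^ κ' + 1).toNat).map fun t : ℕ => (m - r) * 2 ^ κ / 2 ^ κ' + (t : ℤ) := by
  unfold cellsIn
  simp only [bind_pure_comp, List.map_eq_map, List.map_map]
  rfl

theorem cellsIn_len (r κ : ℕ) (m : ℤ) (κ' : ℕ) :
    (cellsIn r κ m κ').length ≤ (2 * r + 1) * 2 ^ (κ - κ') + 2 := by
  rw [cellsIn_eq, List.length_map, List.length_range]
  set D : ℤ := 2 ^ κ' with hD
  have hDpos : 0 < D := by positivity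
  have e1 : (m + 1 + r) * 2 ^ κ ≤ (m - r) * 2 ^ κ + D * ((2 * r + 1) * 2 ^ (κ - κ')) := by
    have e2 : (2 : ℤ) ^ κ ≤ D * 2 ^ (κ - κ') := by
      rw [hD, ← pow_add]
      exact pow_le_pow_right₀ (by norm_num) (by omega)
    nlinarith [e2, show (0 : ℤ) ≤ 2 * r + 1 by positivity]
  have e3 : (m + 1 + r) * 2 ^ κ / D ≤ (m - r) * 2 ^ κ / D + (2 * r + 1) * 2 ^ (κ - κ') := by
    refine (Int.ediv_le_ediv hDpos e1).trans ?_
    rw [Int.add_mul_ediv_left _ _ hDpos.ne']
  have e4 : ((m + 1 + r) * 2 ^ κ / D - (m - r) * 2 ^ κ / D + 1) ≤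
      (((2 * r + 1) * 2 ^ (κ - κ') + 1 : ℕ) : ℤ) := by
    push_cast
    linarith
  have := Int.toNat_le.2 e4
  omega

/-- consecutive integers in one residue class -/
theorem residue_len (lo : ℤ) (n M : ℕ) (hM : 0 < M) (ρ : ℤ) :
    (((List.range n).map fun t : ℕ => lo + t).filter
      fun m' => decide (m' % (M : ℤ) = ρ)).length ≤ n / M + 1 := by
  rw [List.filter_map, List.length_map]
  set l := (List.range n).filter ((fun m' : ℤ => decide (m' % (M : ℤ) = ρ)) ∘ fun t : ℕ => lo + t)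
    with hl
  have hnd : l.Nodup := List.Nodup.filter _ List.nodup_range
  rw [← List.toFinset_card_of_nodup hnd, ← Finset.card_range (n / M + 1)]
  refine Finset.card_le_card_of_injOn (fun t => t / M) ?_ ?_
  · intro t ht
    have h1 : t < n := by
      have := List.mem_toFinset.1 (Finset.mem_coe.1 ht)
      rw [hl, List.mem_filter, List.mem_range] at this
      exact this.1
    have := Nat.div_le_div_right (c := M) h1.le
    simp only [Finset.coe_range, Set.mem_Iio]
    omega
  · intro t ht t' ht' h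
    have h1 := List.mem_toFinset.1 (Finset.mem_coe.1 ht)
    have h2 := List.mem_toFinset.1 (Finset.mem_coe.1 ht')
    rw [hl, List.mem_filter] at h1 h2
    have h3 : (lo + t) % (M : ℤ) = ρ := by simpa using h1.2
    have h4 : (lo + t') % (M : ℤ) = ρ := by simpa using h2.2
    have h5 : ((t : ℤ) - t') % M = 0 := by
      have := Int.emod_emod_of_dvd (lo + t - (lo + t')) (dvd_refl (M : ℤ))
      have h6 : (lo + (t : ℤ) - (lo + t')) % M = 0 := by
        rw [Int.sub_emod, h3, h4]; simp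
      rwa [show lo + (t : ℤ) - (lo + t') = t - t' by ring] at h6
    have h7 : (M : ℤ) ∣ (t : ℤ) - t' := Int.dvd_of_emod_eq_zero h5
    have h8 : t / M = t' / M := h
    obtain ⟨c, hc⟩ := h7
    have h9 := Nat.div_add_mod t M
    have h10 := Nat.div_add_mod t' M
    have h11 := Nat.mod_lt t hM
    have h12 := Nat.mod_lt t' hM
    rw [h8] at h9
    have h13 : ((t : ℤ) - t') < M ∧ -(M : ℤ) < (t : ℤ) - t' := by
      generalize M * (t' / M) = q at h9 h10
      generalize t % M = a at h9 h11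
      generalize t' % M = b at h10 h12
      omega
    have h14 : c = 0 := by
      rw [hc] at h13
      have hMz : (0 : ℤ) < M := by exact_mod_cast hM
      by_contra hne
      rcases lt_or_gt_of_ne hne with hlt | hgt
      · nlinarith [h13.2]
      · nlinarith [h13.1]
    rw [h14, mul_zero] at hc
    omega

variable (P : Par)

theorem modu_pos (κ κ' : ℕ) : 0 < modu P κ κ' := by unfold modu; positivity

theorem active_len (κ : ℕ) (m : ℤ) (κ' : ℕ) (ρ : ℤ) (h : κ' ≤ κ + P.du) :
    ((cellsIn P.r κ m κ').filter fun m' => decide (m' % (modu P κ κ' : ℤ) = ρ)).length *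
      copies P κ κ' ≤ (2 * P.r + 4) * 2 ^ (P.c0 + P.du) := by
  have h1 := residue_len ((m - P.r) * 2 ^ κ / 2 ^ κ') ((m + 1 + P.r) * 2 ^ κ / 2 ^ κ' -
    (m - P.r) * 2 ^ κ / 2 ^ κ' + 1).toNat (modu P κ κ') (modu_pos P κ κ') ρ
  have h2 := cellsIn_len P.r κ m κ'
  have h3 : (cellsIn P.r κ m κ').length = ((m + 1 + P.r) * 2 ^ κ / 2 ^ κ' -
    (m - P.r) * 2 ^ κ / 2 ^ κ' + 1).toNat := by
    rw [cellsIn_eq, List.length_map, List.length_range]
  rw [← cellsIn_eq, ← h3] at h1
  have h4 : ((cellsIn P.r κ m κ').filter fun m' => decide (m' % (modu P κ κ' : ℤ) = ρ)).length ≤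
      ((2 * P.r + 1) * 2 ^ (κ - κ') + 2) / modu P κ κ' + 1 :=
    le_trans h1 (Nat.add_le_add_right (Nat.div_le_div_right h2) 1)
  refine (Nat.mul_le_mul_right _ h4).trans ?_
  unfold modu copies
  rcases le_total (P.c0 + κ') κ with hc | hc
  · rw [show P.c0 + κ' - κ = 0 by omega, pow_zero, mul_one]
    have e1 : κ - κ' = P.c0 + (κ - (P.c0 + κ')) := by omega
    set q := κ - (P.c0 + κ') with hq
    rw [e1, pow_add]
    have e2 : ((2 * P.r + 1) * (2 ^ P.c0 * 2 ^ q) + 2) / 2 ^ q ≤ (2 * P.r + 1) * 2 ^ P.c0 + 2 := by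
      rw [show (2 * P.r + 1) * (2 ^ P.c0 * 2 ^ q) + 2 = 2 + 2 ^ q * ((2 * P.r + 1) * 2 ^ P.c0) by
        ring, Nat.add_mul_div_left _ _ (by positivity)]
      have := Nat.div_le_self 2 (2 ^ q)
      omega
    have e3 : 1 ≤ 2 ^ P.c0 := Nat.one_le_two_pow
    have e4 : 2 ^ P.c0 ≤ 2 ^ (P.c0 + P.du) := Nat.pow_le_pow_right (by norm_num) (by omega)
    have e5 : (2 * P.r + 4) * 2 ^ P.c0 ≤ (2 * P.r + 4) * 2 ^ (P.c0 + P.du) :=
      Nat.mul_le_mul_left _ e4
    have e6 : (2 * P.r + 1) * 2 ^ P.c0 + 3 ≤ (2 * P.r + 4) * 2 ^ P.c0 := by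
      nlinarith
    omega
  · rw [show κ - (P.c0 + κ') = 0 by omega, pow_zero, Nat.div_one]
    rcases le_total κ' κ with h5 | h5
    · have e1 : 2 ^ (κ - κ') * 2 ^ (P.c0 + κ' - κ) = 2 ^ P.c0 := by
        rw [← pow_add]; congr 1; omega
      have e2 : 2 ^ (P.c0 + κ' - κ) ≤ 2 ^ P.c0 := Nat.pow_le_pow_right (by norm_num) (by omega)
      have e4 : 2 ^ P.c0 ≤ 2 ^ (P.c0 + P.du) := Nat.pow_le_pow_right (by norm_num) (by omega)
      calc ((2 * P.r + 1) * 2 ^ (κ - κ') + 2 + 1) * 2 ^ (P.c0 + κ' - κ)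
          = (2 * P.r + 1) * (2 ^ (κ - κ') * 2 ^ (P.c0 + κ' - κ)) + 3 * 2 ^ (P.c0 + κ' - κ) := by ring
        _ ≤ (2 * P.r + 1) * 2 ^ P.c0 + 3 * 2 ^ P.c0 := by rw [e1]; omega
        _ = (2 * P.r + 4) * 2 ^ P.c0 := by ring
        _ ≤ _ := Nat.mul_le_mul_left _ e4
    · rw [show κ - κ' = 0 by omega, pow_zero, mul_one]
      have e4 : 2 ^ (P.c0 + κ' - κ) ≤ 2 ^ (P.c0 + P.du) :=
        Nat.pow_le_pow_right (by norm_num) (by omega)
      exact Nat.mul_le_mul (by omega) e4

/-- number of requests of a window -/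
def nB : ℕ := P.N * ((P.dl + P.du + 1) * ((2 * P.r + 4) * 2 ^ (P.c0 + P.du)))

/-- number of cells of one joint draw of a jump -/
def nJ : ℕ := (P.a1 + P.a2 + 1) * ((2 * P.r + 1) * 2 ^ P.a1 + 2)

/-- number of requests of a jump -/
def nA : ℕ := nJ P * (P.gJ * P.mJ + 1)

theorem flatMap_len {α β : Type} (l : List α) (f : α → List β) (c : ℕ)
    (h : ∀ a ∈ l, (f a).length ≤ c) : (l.flatMap f).length ≤ l.length * c := by
  induction l with
  | nil => simp
  | cons a l ih =>
    rw [List.flatMap_cons, List.length_append, List.length_cons, Nat.succ_mul]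
    have h1 := h a List.mem_cons_self
    have h2 := ih fun b hb => h b (List.mem_cons_of_mem _ hb)
    omega

theorem rngC_len (lo hi : ℕ) : (rngC lo hi).length = hi + 1 - lo := by
  unfold rngC; rw [List.length_map, List.length_range]

theorem mem_rngC {lo hi a : ℕ} : a ∈ rngC lo hi ↔ lo ≤ a ∧ a ≤ hi := by
  unfold rngC
  rw [List.mem_map]
  constructor
  · rintro ⟨t, ht, rfl⟩
    rw [List.mem_range] at ht
    omega
  · rintro ⟨h1, h2⟩
    exact ⟨a - lo, by rw [List.mem_range]; omega, by omega⟩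

theorem bkeys_len (κ : ℕ) (m : ℤ) (ρ : ℕ → ℕ → ℕ) : (bkeys P κ m ρ).length ≤ nB P := by
  unfold bkeys nB
  refine (flatMap_len _ _ ((P.dl + P.du + 1) * ((2 * P.r + 4) * 2 ^ (P.c0 + P.du)))
    fun q _ => ?_).trans (by rw [List.length_range])
  refine (flatMap_len _ _ ((2 * P.r + 4) * 2 ^ (P.c0 + P.du)) fun κ' hκ => ?_).trans
    (Nat.mul_le_mul_right _ (by unfold spCl; rw [rngC_len]; omega))
  refine (flatMap_len _ _ (copies P κ κ') fun m' _ => ?_).trans
    (active_len P κ m κ' _ ?_)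
  · rw [List.length_map, List.length_range]
  · unfold spCl at hκ
    exact (mem_rngC.1 hκ).2

theorem acells_len (κ : ℕ) (m : ℤ) : (acells P κ m).length ≤ nJ P := by
  unfold acells nJ
  refine (flatMap_len _ _ ((2 * P.r + 1) * 2 ^ P.a1 + 2)
    fun κ' hκ => ?_).trans (Nat.mul_le_mul_right _ (by unfold jCl; rw [rngC_len]; omega))
  refine le_trans (b := (cellsIn P.r κ m κ').length) ?_ ((cellsIn_len P.r κ m κ').trans ?_)
  · simp only [List.length_map]
    first
      | exact le_rfl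
      | exact List.length_filter_le _ _
  have h1 := mem_rngC.1 hκ
  have : 2 ^ (κ - κ') ≤ 2 ^ P.a1 := Nat.pow_le_pow_right (by norm_num) (by omega)
  have := Nat.mul_le_mul_left (2 * P.r + 1) this
  omega

/-! ## Number of words -/

/-- words of the residues of one window -/
def nD : ℕ := P.N * (P.dl + P.du + 1)

/-- number of words of an arrival table at macro height `i` -/
def wd : ℕ → ℕ
  | 0 => 0
  | i + 1 => nA P * (nD P + nB P * wd i)

theorem wd_le (i : ℕ) : wd P i ≤ (nA P * (nD P + nB P)) ^ i := by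
  have hA : 1 ≤ nA P := by unfold nA nJ; exact Nat.one_le_iff_ne_zero.2 (by positivity)
  have hD : 1 ≤ nD P := by
    unfold nD Alg45.Par.N; exact Nat.one_le_iff_ne_zero.2 (by positivity)
  induction i with
  | zero => exact Nat.zero_le _
  | succ i ih =>
    have h1 : 1 ≤ (nA P * (nD P + nB P)) ^ i := Nat.one_le_pow _ _ (by positivity)
    calc wd P (i + 1) = nA P * (nD P * 1 + nB P * wd P i) := by rw [mul_one]; rfl
      _ ≤ nA P * (nD P * (nA P * (nD P + nB P)) ^ i + nB P * (nA P * (nD P + nB P)) ^ i) := by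
        gcongr
      _ = (nA P * (nD P + nB P)) ^ (i + 1) := by rw [pow_succ]; ring

variable {P}
variable (M : ℕ) (leaf : St → Option ℕ) (F : St → ℕ) (X : ℕ → ℕ → St → ℕ) (k : ℕ)

theorem bodyT_dr {sub : Cel → RT (List ℕ)} {w : ℕ} (h : ∀ c, Dr M w (sub c)) (c : Cel) :
    Dr M (nD P + nB P * w) (bodyT P leaf F X k sub c) := by
  unfold bodyT
  refine Dr.bind ?_ fun rs => ?_
  · have := Dr.reps (Dr.draw (M := M)) (P.N * (P.dl + P.du + 1))
    rw [mul_one] at this
    exact this
  · simp only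
    refine Dr.bind_ret ?_
    refine (Dr.seqL (S := w) fun t ht => ?_).mono ?_
    · rw [List.mem_map] at ht
      obtain ⟨key, _, rfl⟩ := ht
      exact h _
    · rw [List.length_map]
      exact Nat.mul_le_mul_right _ (bkeys_len P _ _ _)

theorem jdraw_dr {body : Cel → RT (List ℕ)} {w : ℕ} (h : ∀ c, Dr M w (body c)) (c : Cel) :
    Dr M (nJ P * w) (jdraw P body c) := by
  unfold jdraw
  refine (Dr.seqL (S := w) fun t ht => ?_).mono ?_
  · rw [List.mem_map] at ht
    obtain ⟨key, _, rfl⟩ := ht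
    exact h _
  · rw [List.length_map, List.length_range]
    exact Nat.mul_le_mul_right _ (acells_len P _ _)

theorem arrOf_dr {body : Cel → RT (List ℕ)} {w : ℕ} (h : ∀ c, Dr M w (body c)) (c : Cel) :
    Dr M (nA P * w) (arrOf P F body c) := by
  unfold arrOf
  have h1 := Dr.bind (Dr.reps (jdraw_dr (P := P) M h c) (P.gJ * P.mJ))
    (g := fun Es => (jdraw P body c).bind fun B =>
      let p0 := (acells P c.κ c.m).idxOf (c.κ, c.m)
      .ret ((List.range (csz P c.κ)).map fun t =>
        arrNum P F c.κ (cst P c t) (jest P Es p0 t) (jent B p0 t) (jcand P c Es B)))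
    fun Es => Dr.bind_ret (jdraw_dr M h c)
  refine h1.mono (le_of_eq ?_)
  unfold nA
  ring

theorem arrT_dr (i : ℕ) (c : Cel) : Dr M (wd P i) (arrT P leaf F X k i c) := by
  induction i generalizing c with
  | zero => exact Dr.ret _
  | succ i ih => exact arrOf_dr M F (fun c' => bodyT_dr M leaf F X k ih c') c

theorem lanePair_dr (κ : ℕ) (z : St) : Dr M (wd P z.i) (lanePair P leaf F X k κ z) :=
  Dr.bind_ret (arrT_dr M leaf F X k z.i _)

theorem numPair_dr (κ : ℕ) (z : St) :
    Dr M (P.gX * P.mX * wd P z.i) (numPair P leaf F X k κ z) := by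
  unfold numPair
  split
  · exact Dr.ret _
  · exact Dr.bind_ret (Dr.reps (lanePair_dr M leaf F X k κ z) _)

theorem nJ_pos : 1 ≤ nJ P := by unfold nJ; exact Nat.one_le_iff_ne_zero.2 (by positivity)

theorem nA_pos : 1 ≤ nA P := Nat.mul_pos nJ_pos (Nat.succ_pos _)

theorem nB_pos : 1 ≤ nB P := by
  unfold nB Alg45.Par.N; exact Nat.one_le_iff_ne_zero.2 (by positivity)

theorem wd_mono {i j : ℕ} (h : i ≤ j) : wd P i ≤ wd P j := by
  refine monotone_nat_of_le_succ (fun i => ?_) h
  calc wd P i = 1 * (1 * wd P i) := by ring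
    _ ≤ nA P * (nB P * wd P i) := Nat.mul_le_mul nA_pos (Nat.mul_le_mul_right _ nB_pos)
    _ ≤ wd P (i + 1) := Nat.mul_le_mul_left _ (Nat.le_add_left _ _)

/-- **number of words of one index** (states of macro height at most `H`) -/
theorem tapeRT_dr {U : St → RT ℕ} {wU H : ℕ} (hU : ∀ y : St, y.i ≤ H → Dr M wU (U y)) (l : ℕ)
    (Xs : ℕ → ℕ × St → ℕ) (s : ℕ × St) (hs : s.2.i ≤ H) :
    Dr M (wU + P.gX * P.mX * wd P H) (tapeRT P leaf U l Xs s) := by
  unfold tapeRT
  split
  · exact (hU _ hs).mono (Nat.le_add_right _ _)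
  · exact (numPair_dr M leaf _ _ _ _ _).mono
      ((Nat.mul_le_mul_left _ (wd_mono hs)).trans (Nat.le_add_left _ _))

/-- the words of one index, separately for index `0` and for the lanes -/
theorem tapeRT_dr' {U : St → RT ℕ} {wU H : ℕ} (hU : ∀ y : St, y.i ≤ H → Dr M wU (U y)) (l : ℕ)
    (Xs : ℕ → ℕ × St → ℕ) (s : ℕ × St) (hs : s.2.i ≤ H) :
    Dr M (if l = 0 then wU else P.gX * P.mX * wd P H) (tapeRT P leaf U l Xs s) := by
  unfold tapeRT
  split
  · exact hU _ hs
  · exact (numPair_dr M leaf _ _ _ _ _).mono (Nat.mul_le_mul_left _ (wd_mono hs))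

end Crest.Agent.R288.Cnt308
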