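import Crest.Agent.R288.PgG8c_155

/-!
# R288, leaf G8, the cost of index `0` (INIT) against the budget (helper654)

INIT has branching `2 ^ gI`, `gI = W Lg`, and overhead `K ≤ 2 ^ (C Lg)` per `gI` binary levels, so its cost at
macro height `i` is `2 ^ (nn i) * 2 ^ (C nn i / W)`; the excess is `2 ^ (O (h / W))`, which is in the budget of
`fuc` (`W = il 3 + 1`) but is not `≤ sub C h`.

* `sui C h = sub C h * 2 ^ (C * (h / W h))`, closed under products (`sui_mul`), `sub_le_sui`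
* `time_ev_i`   : `PgG8155.time_ev` with `G ≤ sui C h`
* `fuc_mul_sui` : `sui C h * fuc c k r 3 L ≤ fuc c' k' r' 3 L`
* `init_le`     : `K ≤ 2 ^ (C Lg)`, `i ≤ II + C`, `q ≤ nn i / gI + 1` give `(2 ^ gI * K) ^ q ≤ 2 ^ (nn i) * sui C' h`
* `init_b0`     : the form `ci ≤ b0 * Y ^ i` of Pg7_776
* `K_ev`        : the bound `K_le` of InitN_775 is `≤ 2 ^ ((2 C + 4) Lg)`
-/

set_option autoImplicit false

namespace Crest.Agent.R288.PgG8i654

open Filter Crest.Agent.R288.Asy720 Crest.Agent.R288.Pl726 Crest.Agent.R288.Shell12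
open Crest.Agent.R288.Front327 Crest.Agent.R288.Par806 Crest.Agent.R288.PgG8155

/-- quasi-polynomial in `Lg`, times `2 ^ (O (h / W))` -/
def sui (C h : ℕ) : ℕ := sub C h * 2 ^ (C * (h / W h))

theorem sui_mono {C C' : ℕ} (hC : C ≤ C') (h : ℕ) : sui C h ≤ sui C' h := by
  unfold sui
  exact Nat.mul_le_mul (sub_mono hC h)
    (Nat.pow_le_pow_right (by norm_num) (Nat.mul_le_mul_right _ hC))

theorem sui_mul (C C' h : ℕ) : sui C h * sui C' h ≤ sui (C + C') h := by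
  unfold sui
  calc sub C h * 2 ^ (C * (h / W h)) * (sub C' h * 2 ^ (C' * (h / W h)))
      = sub C h * sub C' h * 2 ^ ((C + C') * (h / W h)) := by
        rw [Nat.add_mul, pow_add]; ring
    _ ≤ _ := Nat.mul_le_mul_right _ (sub_mul C C' h)

theorem sub_le_sui (C h : ℕ) : sub C h ≤ sui C h :=
  Nat.le_mul_of_pos_right _ (Nat.two_pow_pos _)

theorem one_le_sub (C h : ℕ) : 1 ≤ sub C h := Nat.one_le_two_pow

theorem one_le_sui (C h : ℕ) : 1 ≤ sui C h := (one_le_sub C h).trans (sub_le_sui C h)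

theorem sui_eq (C h : ℕ) :
    sui C h = 2 ^ (C * W h ^ C * Lg h ^ C * Mg h ^ C + C * (h / W h)) := by
  unfold sui sub
  rw [pow_add]

/-- numbers whose exponent is small enough -/
theorem two_pow_le_sui {e C h : ℕ}
    (he : e ≤ C * W h ^ C * Lg h ^ C * Mg h ^ C + C * (h / W h)) : 2 ^ e ≤ sui C h := by
  rw [sui_eq]
  exact Nat.pow_le_pow_right (by norm_num) he

theorem bu_hW (C : ℕ) : Bu 3 (fun h => C * (h / W h)) := by
  refine ⟨C, Eventually.of_forall fun h => ?_⟩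
  have h2 : il 3 h ≤ W h := Nat.le_succ _
  calc C * (h / W h) * il 3 h ≤ C * (h / W h) * W h := Nat.mul_le_mul_left _ h2
    _ = C * (h / W h * W h) := by ring
    _ ≤ C * h := Nat.mul_le_mul_left _ (Nat.div_mul_le_self _ _)

theorem bu_sui (C : ℕ) : Bu 3 (fun h => C * W h ^ C * Lg h ^ C * Mg h ^ C + C * (h / W h)) :=
  (bu_sub C).add (bu_hW C)

/-- **time and tape words with the table of ParB_806**, with the larger factor `G` -/
theorem time_tab_i (C a : ℕ) (ha : a ≤ 4) : ∃ c r j₀ : ℕ, ∀ L : ℕ, 2 ^ j₀ ≤ L →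
    ∀ AS V T κ G : ℕ, AS ≤ 2 ^ nn (Nat.clog 2 L) * pol C (Nat.clog 2 L) →
      1 ≤ V → V ≤ 2 ^ (C * W (Nat.clog 2 L) ^ a * Lg (Nat.clog 2 L)) →
      T ≤ II (Nat.clog 2 L) + C → κ ≤ EE (Nat.clog 2 L) * KK (Nat.clog 2 L) + C →
      G ≤ sui C (Nat.clog 2 L) →
      G * (AS ^ T * V ^ κ) ≤ fuc c 0 r 3 L := by
  obtain ⟨r, j₀, hj⟩ := fuel_ev (j := 3) (c := C + 1) (cq := 2 * C + 1) 1 (n := nn)
    (q := fun h => (2 * C + 1) * Mg h) (b := fun h => C * W h ^ a * Lg h)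
    (κ := fun h => EE h * KK h + C) (H := fun h => h) (e := fun _ => 0)
    (g := fun h => C * W h ^ C * Lg h ^ C * Mg h ^ C + C * (h / W h))
    (Eventually.of_forall fun h => by
      have h1 : il 3 h ≤ W h := Nat.le_succ _
      have h2 := W_pos h
      calc (2 * C + 1) * Mg h * il 3 h ≤ (2 * C + 1) * Mg h * W h ^ 2 := by
            refine Nat.mul_le_mul_left _ (h1.trans ?_)
            calc W h = W h ^ 1 := (pow_one _).symm
              _ ≤ W h ^ 2 := Nat.pow_le_pow_right h2 (by norm_num)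
        _ = (2 * C + 1) * nn h := by unfold nn; ring)
    bu_nn (fun h => by simp) (Bu.of_sm (by norm_num) (Sm.const 0 0)) (bu_sui C) (bu_index C a ha)
  obtain ⟨j₁, hj1⟩ := exists_threshold (pol_ev C)
  refine ⟨2 * 1, r, max j₀ j₁, fun L hL AS V T κ G h1 h2 h3 h4 h5 h6 => ?_⟩
  have hL0 : 2 ^ j₀ ≤ L := (Nat.pow_le_pow_right (by norm_num) (le_max_left _ _)).trans hL
  have hL1 : 2 ^ j₁ ≤ L := (Nat.pow_le_pow_right (by norm_num) (le_max_right _ _)).trans hL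
  have h7 := hj1 L hL1
  have h8 := hj L hL0 AS V T (by
    refine h1.trans ?_
    rw [pow_add]
    exact Nat.mul_le_mul_left _ h7) h3 (by
    refine h4.trans (le_of_eq ?_)
    unfold II
    ring)
  refine le_trans ?_ h8
  rw [one_mul]
  rw [sui_eq] at h6
  exact Nat.mul_le_mul h6 (Nat.mul_le_mul_left _ (Nat.pow_le_pow_right h2 h5))

/-- **time, tape words**, `∀ᶠ h` form -/
theorem time_ev_i (C a : ℕ) (ha : a ≤ 4) : ∃ c r : ℕ, ∀ᶠ h : ℕ in atTop, ∀ L : ℕ,
    Nat.clog 2 L = h →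
    ∀ AS V T κ G : ℕ, AS ≤ 2 ^ nn h * pol C h → 1 ≤ V → V ≤ 2 ^ (C * W h ^ a * Lg h) →
      T ≤ II h + C → κ ≤ EE h * KK h + C → G ≤ sui C h →
      G * (AS ^ T * V ^ κ) ≤ fuc c 0 r 3 L := by
  obtain ⟨c, r, h1⟩ := time_tab_i C a ha
  refine ⟨c, r, ?_⟩
  filter_upwards [ev_of_threshold h1] with h h2 L hL
  have h3 := h2 L hL
  rw [hL] at h3
  exact h3

/-- `sui C h ≤ og` -/
theorem sui_le_og (C : ℕ) : ∃ r : ℕ, ∀ᶠ h : ℕ in atTop, ∀ L : ℕ, Nat.clog 2 L = h →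
    sui C h ≤ og 1 0 r 3 L := by
  obtain ⟨r, j₀, h1⟩ := two_pow_ev (bu_sui C)
  refine ⟨r, ?_⟩
  filter_upwards [ev_of_threshold ⟨j₀, h1⟩] with h h2 L hL
  have h3 := h2 L hL
  rw [hL] at h3
  rw [sui_eq]
  exact h3

/-- products of `fuc` with `sui C h` -/
theorem fuc_mul_sui (C c k r : ℕ) : ∃ c' k' r' : ℕ, ∀ᶠ h : ℕ in atTop, ∀ L : ℕ,
    Nat.clog 2 L = h → sui C h * fuc c k r 3 L ≤ fuc c' k' r' 3 L := by
  obtain ⟨r1, h1⟩ := sui_le_og C
  refine ⟨1 * c, 0 + k, r1 + r, ?_⟩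
  filter_upwards [h1] with h h2 L hL
  rw [fuc_eq, fuc_eq]
  calc sui C h * ((L + 1) * og c k r 3 L) ≤ og 1 0 r1 3 L * ((L + 1) * og c k r 3 L) :=
        Nat.mul_le_mul_right _ (h2 L hL)
    _ = (L + 1) * (og 1 0 r1 3 L * og c k r 3 L) := by ring
    _ ≤ _ := Nat.mul_le_mul_left _ (og_mul _ _ _ _ _ _ _ _)

/-! ### INIT -/

theorem nn_mul_le {i C h : ℕ} (hi : i ≤ II h + C) : nn h * i ≤ h + (C + 1) * nn h := by
  calc nn h * i ≤ nn h * (II h + C) := Nat.mul_le_mul_left _ hi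
    _ = nn h * (h / nn h) + (C + 1) * nn h := by unfold II; ring
    _ ≤ h + (C + 1) * nn h := Nat.add_le_add_right (Nat.mul_div_le _ _) _

/-- exponent of the overhead: `Lg * (X / gI) ≤ X / W` -/
theorem lg_mul_div_le (X h : ℕ) : Lg h * (X / gI h) ≤ X / W h := by
  rw [Nat.le_div_iff_mul_le (W_pos h)]
  calc Lg h * (X / gI h) * W h = gI h * (X / gI h) := by unfold gI; ring
    _ ≤ X := Nat.mul_div_le _ _

/-- **INIT against the budget** -/
theorem init_le (C : ℕ) {h i q K : ℕ} (hi : i ≤ II h + C) (hK : K ≤ 2 ^ (C * Lg h))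
    (hq : q ≤ nn h * i / gI h + 1) :
    (2 ^ gI h * K) ^ q ≤ 2 ^ (nn h * i) * sui ((C + 2) ^ 2) h := by
  have hW := W_pos h
  have hL := Lg_pos h
  have hM := Mg_pos h
  have h1 : (2 ^ gI h * K) ^ q ≤ 2 ^ ((gI h + C * Lg h) * q) := by
    calc (2 ^ gI h * K) ^ q ≤ (2 ^ gI h * 2 ^ (C * Lg h)) ^ q := by gcongr
      _ = _ := by rw [← pow_add, ← pow_mul]
  have h2 : (gI h + C * Lg h) * q ≤
      nn h * i + (C * (h / W h) + (gI h + C * (C + 1) * nn h + C + C * Lg h)) := by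
    have h3 : gI h * (nn h * i / gI h) ≤ nn h * i := Nat.mul_div_le _ _
    have h4 : Lg h * (nn h * i / gI h) ≤ h / W h + (C + 1) * nn h + 1 := by
      refine (lg_mul_div_le _ h).trans ?_
      refine (Nat.div_le_div_right (nn_mul_le hi)).trans ?_
      have h5 : (h + (C + 1) * nn h) / W h ≤ h / W h + (C + 1) * nn h / W h + 1 := by
        rw [Nat.div_le_iff_le_mul_add_pred hW]
        have e1 := Nat.div_add_mod h (W h)
        have e2 := Nat.div_add_mod ((C + 1) * nn h) (W h)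
        have e3 := Nat.mod_lt h hW
        have e4 := Nat.mod_lt ((C + 1) * nn h) hW
        have e5 : W h * (h / W h + (C + 1) * nn h / W h + 1) =
          W h * (h / W h) + W h * ((C + 1) * nn h / W h) + W h := by ring
        omega
      have h6 : (C + 1) * nn h / W h ≤ (C + 1) * nn h := Nat.div_le_self _ _
      omega
    calc (gI h + C * Lg h) * q ≤ (gI h + C * Lg h) * (nn h * i / gI h + 1) :=
          Nat.mul_le_mul_left _ hq
      _ = gI h * (nn h * i / gI h) + C * (Lg h * (nn h * i / gI h)) + (gI h + C * Lg h) := by ring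
      _ ≤ nn h * i + C * (h / W h + (C + 1) * nn h + 1) + (gI h + C * Lg h) := by gcongr
      _ = _ := by ring
  refine h1.trans ?_
  rw [sui_eq, ← pow_add]
  refine Nat.pow_le_pow_right (by norm_num) (h2.trans (Nat.add_le_add_left ?_ _))
  set D := (C + 2) ^ 2 with hD
  have hD4 : 4 ≤ D := by
    calc 4 = 2 ^ 2 := by norm_num
      _ ≤ (C + 2) ^ 2 := Nat.pow_le_pow_left (by omega) 2
  have hCD : C * C + 3 * C + 1 ≤ D := by rw [hD]; nlinarith
  have hCD' : C ≤ D := by nlinarith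
  have t1 : 1 ≤ W h ^ D * Lg h ^ D * Mg h ^ D :=
    Nat.mul_pos (Nat.mul_pos (pow_pos hW _) (pow_pos hL _)) (pow_pos hM _)
  have tL : Lg h ≤ W h ^ D * Lg h ^ D * Mg h ^ D := by
    calc Lg h = 1 * Lg h ^ 1 * 1 := by ring
      _ ≤ W h ^ D * Lg h ^ D * Mg h ^ D := by
        gcongr
        · exact Nat.one_le_pow _ _ hW
        · omega
        · exact Nat.one_le_pow _ _ hM
  have tg : gI h ≤ W h ^ D * Lg h ^ D * Mg h ^ D := by
    calc gI h = W h ^ 1 * Lg h ^ 1 * 1 := by unfold gI; ring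
      _ ≤ W h ^ D * Lg h ^ D * Mg h ^ D := by
        gcongr
        · omega
        · omega
        · exact Nat.one_le_pow _ _ hM
  have tn : nn h ≤ W h ^ D * Lg h ^ D * Mg h ^ D := by
    calc nn h = W h ^ 2 * 1 * Mg h ^ 1 := by unfold nn; ring
      _ ≤ W h ^ D * Lg h ^ D * Mg h ^ D := by
        gcongr
        · omega
        · exact Nat.one_le_pow _ _ hL
        · omega
  set T := W h ^ D * Lg h ^ D * Mg h ^ D with hT
  have e1 : gI h + C * (C + 1) * nn h + C + C * Lg h ≤ D * T := by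
    calc gI h + C * (C + 1) * nn h + C + C * Lg h
        ≤ T + C * (C + 1) * T + C * T + C * T := by
          have := Nat.mul_le_mul_left C t1
          gcongr
          simpa using this
      _ = (C * C + 3 * C + 1) * T := by ring
      _ ≤ D * T := Nat.mul_le_mul_right _ hCD
  have e2 : D * W h ^ D * Lg h ^ D * Mg h ^ D = D * T := by rw [hT]; ring
  rw [e2, Nat.add_comm (D * T)]
  exact Nat.add_le_add (Nat.mul_le_mul_right _ hCD') e1

/-- the form `ci ≤ b0 * Y ^ i` of Pg7_776, `b0 = A * sui ..` -/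
theorem init_b0 (C : ℕ) {h i q K A Y ci : ℕ} (hi : i ≤ II h + C) (hK : K ≤ 2 ^ (C * Lg h))
    (hq : q ≤ nn h * i / gI h + 1) (hY : 2 ^ nn h ≤ Y) (hc : ci ≤ A * (2 ^ gI h * K) ^ q) :
    ci ≤ A * sui ((C + 2) ^ 2) h * Y ^ i := by
  refine hc.trans ?_
  calc A * (2 ^ gI h * K) ^ q ≤ A * (2 ^ (nn h * i) * sui ((C + 2) ^ 2) h) :=
        Nat.mul_le_mul_left _ (init_le C hi hK hq)
    _ = A * sui ((C + 2) ^ 2) h * (2 ^ nn h) ^ i := by rw [pow_mul]; ring
    _ ≤ _ := Nat.mul_le_mul_left _ (Nat.pow_le_pow_left hY i)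

/-- the number of macro levels of INIT: `q = (H - 1) / gI + 1` at binary height `H = nn i` -/
theorem q_le (h H : ℕ) : (H - 1) / gI h + 1 ≤ H / gI h + 1 :=
  Nat.add_le_add_right (Nat.div_le_div_right (Nat.sub_le _ _)) 1

/-- the bound `K_le` of InitN_775 (`D = O(Lg)`, `m = O(W h)`) -/
theorem K_ev (C : ℕ) : ∀ᶠ h : ℕ in atTop, ∀ D m : ℕ, D ≤ C * Lg h → m ≤ C * W h * h →
    2 ^ (2 * D + 15) * (gI h + D + 5) ^ 2 * m ≤ 2 ^ ((2 * C + 4) * Lg h) := by
  filter_upwards [ev_pow_le_self (C + 6) 1 1 0 0 0 2, ev_pow_le_self C 1 0 0 0 0 1,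
    ev_exp_le_Lg 15 0 0] with h h1 h2 h3 D m hD hm
  simp only [pow_zero, mul_one, pow_one, zero_mul, add_zero] at h1 h2 h3
  have hW := W_pos h
  have hL := Lg_pos h
  have hh := (lt_two_pow_Lg h).le
  have a1 : gI h + D + 5 ≤ (C + 6) * W h * Lg h := by
    have b1 : 1 ≤ W h * Lg h := Nat.mul_pos hW hL
    have b2 : Lg h ≤ W h * Lg h := Nat.le_mul_of_pos_left _ hW
    calc gI h + D + 5 ≤ W h * Lg h + C * (W h * Lg h) + 5 * (W h * Lg h) := by
          unfold gI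
          refine Nat.add_le_add (Nat.add_le_add_left (hD.trans (Nat.mul_le_mul_left _ b2)) _) ?_
          omega
      _ = _ := by ring
  have a2 : (gI h + D + 5) ^ 2 ≤ 2 ^ Lg h :=
    ((Nat.pow_le_pow_left a1 2).trans h1).trans hh
  have a3 : m ≤ 2 ^ Lg h * 2 ^ Lg h :=
    hm.trans (Nat.mul_le_mul (h2.trans hh) hh)
  have a4 : 2 ^ (2 * D + 15) ≤ 2 ^ (2 * (C * Lg h) + Lg h) :=
    Nat.pow_le_pow_right (by norm_num) (by omega)
  calc 2 ^ (2 * D + 15) * (gI h + D + 5) ^ 2 * m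
      ≤ 2 ^ (2 * (C * Lg h) + Lg h) * 2 ^ Lg h * (2 ^ Lg h * 2 ^ Lg h) := by gcongr
    _ = 2 ^ ((2 * C + 4) * Lg h) := by
        rw [← pow_add, ← pow_add, ← pow_add]
        congr 1
        ring

end Crest.Agent.R288.PgG8i654
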