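import Crest.Agent.R288.Pg7_776
import Crest.Agent.R288.Cnt_308
import Crest.Agent.R288.PgG8i_654

/-!
# R288, cost closing of the program side (helper776)

Part 1 (any parameters `P`): `cpOf P Z t0 lf H b0 : Pg7776.CP`, where every list of requests of lower
index has length `≤ Z` (`≤ K Z` for the pair numbers), a leaf costs `≤ lf`, every procedure has a free
overhead `t0` (dummy requests), a request costs one more (PheC_940), a number of INIT costs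
`≤ b0 * Y ^ i`, `H` = macro height of the root.  `x_req arr_req arr0_req body_req f_req f0_req` = the
sums of the requests of the procedures of #4985 (3) are at most `cX cArr cBody cF`.

Part 2 (table of ParB_806, `h = clog 2 L`): `root_time`: `x + 40 * (cF E H + x') + 25 ≤ fuc c 0 r 3 L`,
`root_depth`: `dF p E + x ≤ L`.
-/

set_option autoImplicit false

namespace Crest.Agent.R288.CpU776

open Filter Finset Crest.Agent.R288.Alg45 Crest.Agent.R288.Pg7776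

/-! ## part 1: the numbers of requests of the procedures -/

/-- all numbers of requests -/
def cpOf (P : Par) (Z t0 lf H b0 : ℕ) : CP where
  K := P.K
  t0 := t0
  t1 := 1
  lf := lf
  nX := P.gX * P.mX
  nA := Cnt308.nA P
  nB := Cnt308.nB P
  nc := Z
  nr := Cnt308.nD P
  nW := Z
  U := Z
  H := H
  b0 := b0

section part1

variable {P : Par} {Z t0 lf H b0 : ℕ}

local notation "cc" => cpOf P Z t0 lf H b0

theorem ok (hK : 1 ≤ P.K) : (cc).Ok := ⟨Cnt308.nA_pos, Cnt308.nB_pos, hK⟩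

/-- **`X`** at rank `k` of epoch `e`: phase 0 one request `F e`, phase 1 the lanes -/
theorem x_req (hK : 1 ≤ P.K) {e k i n : ℕ} (hi : i ≤ H) (hn : n ≤ P.gX * P.mX) :
    t0 + ((cc).cF e i + 1) + n * ((cc).cArr (1 + e * P.K + k) i + 1) ≤
      (cc).cX (1 + e * P.K + k) i :=
  le_trans (Nat.add_le_add_left (Nat.mul_le_mul_right _ hn) _)
    (CP.x_ok (c := cc) (ok hK) (e := e) (k := k) hi)

/-- **`ARR`** at a positive macro height: `n` body requests, `m` requests `F e` -/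
theorem arr_req (hK : 1 ≤ P.K) {e k i n m : ℕ} (hn : n ≤ Cnt308.nA P) (hm : m ≤ Z) :
    t0 + n * ((cc).cBody (1 + e * P.K + k) (i + 1) + 1) + m * ((cc).cF e (i + 1) + 1) ≤
      (cc).cArr (1 + e * P.K + k) (i + 1) := by
  refine le_trans ?_ (CP.arr_ok (c := cc) (ok hK) (e := e) (k := k) (i := i))
  refine Nat.add_le_add (Nat.add_le_add_left (Nat.mul_le_mul_right _ hn) _)
    (Nat.mul_le_mul hm ?_)
  show (cc).cF e (i + 1) + 1 ≤ (cc).cF e (i + 1) + lf + 2 * 1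
  omega

/-- **`ARR`** at macro height `0`: `m` requests `F e`, `m'` leaf requests -/
theorem arr0_req (hK : 1 ≤ P.K) {e k i m m' : ℕ} (hm : m ≤ Z) (hm' : m' ≤ Z) :
    t0 + m * ((cc).cF e i + 1) + m' * (lf + 1) ≤ (cc).cArr (1 + e * P.K + k) i := by
  refine le_trans ?_ (CP.arr0_ok (c := cc) (ok hK) (e := e) (k := k) (i := i))
  show _ ≤ t0 + Z * ((cc).cF e i + lf + 2 * 1)
  have h1 : m * ((cc).cF e i + 1) ≤ Z * ((cc).cF e i + 1) := Nat.mul_le_mul_right _ hm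
  have h2 : m' * (lf + 1) ≤ Z * (lf + 1) := Nat.mul_le_mul_right _ hm'
  have h3 : Z * ((cc).cF e i + lf + 2 * 1) = Z * ((cc).cF e i + 1) + Z * (lf + 1) := by ring
  omega

/-- every call of a lower index inside index `l = 1 + e K + k` -/
theorem cF_low (hK : 1 ≤ P.K) {e k i i' : ℕ} (hi : i ≤ i') :
    (cc).cF e i ≤ (cc).low (1 + e * P.K + k) i' :=
  CP.cF_le_low (c := cc) (ok hK) (e := e) (k := k) hi

theorem cX_low (hK : 1 ≤ P.K) {l l' i i' : ℕ} (hl : l < l') (hi : i ≤ i') :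
    (cc).cX l i ≤ (cc).low l' i' := CP.cX_le_low (c := cc) (ok hK) hl hi

theorem low_pos (hK : 1 ≤ P.K) (l i : ℕ) : 1 ≤ (cc).low l i := CP.one_le_low (ok hK) l i

/-- **`BODY`**: `nD` words, `nb` same-index requests, `nf` unit function values, `nl` leaves, `nx`
numbers of lower ranks (`cF_low`, `cX_low` bound every call of lower index by `low`) -/
theorem body_req (hK : 1 ≤ P.K) {l i nw nb nf nl nx : ℕ} (hw : nw ≤ Cnt308.nD P)
    (hb : nb ≤ Cnt308.nB P) (hf : nf ≤ Z) (hl : nl ≤ Z) (hx : nx ≤ P.K * Z) :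
    t0 + nw * 2 + nb * ((cc).cArr l i + 1) + nf * ((cc).low l (i + 1) + 1) + nl * (lf + 1) +
      nx * ((cc).low l (i + 1) + 1) ≤ (cc).cBody l (i + 1) := by
  have h8 : (cc).cBody l (i + 1) =
      Cnt308.nB P * ((cc).cArr l i + 1) + (cc).T * (cc).low l (i + 1) := by
    unfold CP.cBody; rw [Nat.add_sub_cancel]; rfl
  have hT : (cc).T = t0 + Cnt308.nD P * (1 + 1) + Z * (1 + lf + 2 * 1) + Z * (1 + lf + 2 * 1) +
      Z * (1 + Z) * (P.K * (1 + 1)) := rfl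
  rw [h8, hT]
  have hL : 1 ≤ (cc).low l (i + 1) := low_pos hK _ _
  set L := (cc).low l (i + 1)
  have e1 : t0 + nw * 2 ≤ (t0 + Cnt308.nD P * (1 + 1)) * L := by
    calc t0 + nw * 2 ≤ (t0 + Cnt308.nD P * (1 + 1)) * 1 := by omega
      _ ≤ _ := Nat.mul_le_mul_left _ hL
  have e2 : nb * ((cc).cArr l i + 1) ≤ Cnt308.nB P * ((cc).cArr l i + 1) :=
    Nat.mul_le_mul_right _ hb
  have e3 : nf * (L + 1) ≤ Z * (1 + lf + 2 * 1) * L := by
    calc nf * (L + 1) ≤ Z * (L + L) := Nat.mul_le_mul hf (by omega)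
      _ = Z * 2 * L := by ring
      _ ≤ _ := Nat.mul_le_mul_right _ (Nat.mul_le_mul_left _ (by omega))
  have e4 : nl * (lf + 1) ≤ Z * (1 + lf + 2 * 1) * L := by
    calc nl * (lf + 1) ≤ Z * (1 + lf + 2 * 1) := Nat.mul_le_mul hl (by omega)
      _ = Z * (1 + lf + 2 * 1) * 1 := (mul_one _).symm
      _ ≤ _ := Nat.mul_le_mul_left _ hL
  have e5 : nx * (L + 1) ≤ Z * (1 + Z) * (P.K * (1 + 1)) * L := by
    calc nx * (L + 1) ≤ P.K * Z * (L + L) := Nat.mul_le_mul hx (by omega)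
      _ = Z * 1 * (P.K * (1 + 1)) * L := by ring
      _ ≤ _ := by gcongr; omega
  have e6 : (t0 + Cnt308.nD P * (1 + 1) + Z * (1 + lf + 2 * 1) + Z * (1 + lf + 2 * 1) +
      Z * (1 + Z) * (P.K * (1 + 1))) * L = (t0 + Cnt308.nD P * (1 + 1)) * L +
      Z * (1 + lf + 2 * 1) * L + Z * (1 + lf + 2 * 1) * L + Z * (1 + Z) * (P.K * (1 + 1)) * L := by
    ring
  rw [e6]
  omega

/-- **`F (e+1)`**: one request `F e`, `n` numbers of epoch `e` -/
theorem f_req (hK : 1 ≤ P.K) {e i n : ℕ} (hn : n ≤ P.K * Z) :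
    t0 + ((cc).cF e i + 1) + n * ((cc).cX ((e + 1) * P.K) i + 1) ≤ (cc).cF (e + 1) i := by
  set W := (cc).cX ((e + 1) * P.K) i with hW
  have hW1 : 1 ≤ W := CP.one_le_cX (ok hK) _ _
  have heK : (e + 1) * P.K = e * P.K + P.K := by ring
  have h1 : (cc).cF e i ≤ W := by
    have := cF_low (P := P) (Z := Z) (t0 := t0) (lf := lf) (H := H) (b0 := b0) hK (e := e)
      (k := P.K - 1) (le_refl i)
    refine this.trans ?_
    have h2 : 1 + e * P.K + (P.K - 1) = (e + 1) * P.K := by omega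
    rw [h2, hW, CP.cX_eq]
    exact Nat.le_mul_of_pos_left _ CP.one_le_V
  have h5 : (cc).cF (e + 1) i = (cc).V * W := by
    rw [hW]; unfold CP.cF CP.cX; ring_nf; rfl
  have h6 : t0 + 2 + P.K * Z * 2 ≤ (cc).V := by
    have hV : (cc).V = 1 + t0 + (1 + 1) + P.gX * P.mX * ((cc).M * (H + 1) + 1) +
      (Z + 1) * (P.K + 1) * (1 + 1) := rfl
    rw [hV]
    have : (Z + 1) * (P.K + 1) * (1 + 1) = P.K * Z * 2 + (Z + P.K + 1) * 2 := by ring
    omega
  rw [h5]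
  have e1 : n * (W + 1) ≤ P.K * Z * 2 * W := by
    calc n * (W + 1) ≤ P.K * Z * (W + W) := Nat.mul_le_mul hn (by omega)
      _ = _ := by ring
  have e2 : t0 + 1 ≤ (t0 + 1) * W := Nat.le_mul_of_pos_right _ hW1
  calc t0 + ((cc).cF e i + 1) + n * (W + 1) = (t0 + 1) + (cc).cF e i + n * (W + 1) := by ring
    _ ≤ (t0 + 1) * W + W + P.K * Z * 2 * W := by omega
    _ = (t0 + 2 + P.K * Z * 2) * W := by ring
    _ ≤ (cc).V * W := Nat.mul_le_mul_right _ h6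

/-- the numbers of epoch `e` inside `F (e+1)` -/
theorem cX_f (hK : 1 ≤ P.K) {e j i : ℕ} (hj : j < P.K) :
    (cc).cX (1 + e * P.K + j) i ≤ (cc).cX ((e + 1) * P.K) i := by
  have heK : (e + 1) * P.K = e * P.K + P.K := by ring
  exact CP.cX_mono (ok hK) (by omega) le_rfl

/-- **`F 0`**: `n ≤ Z + 1` numbers of index `0` -/
theorem f0_req (hK : 1 ≤ P.K) {i n : ℕ} (hn : n ≤ Z + 1) :
    t0 + n * ((cc).cX 0 i + 1) ≤ (cc).cF 0 i := by
  set W := (cc).cX 0 i with hW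
  have hW1 : 1 ≤ W := CP.one_le_cX (ok hK) _ _
  have h5 : (cc).cF 0 i = (cc).V * W := by
    rw [hW]; unfold CP.cF CP.cX; ring_nf
  have h6 : t0 + (Z + 1) * 2 ≤ (cc).V := by
    have hV : (cc).V = 1 + t0 + (1 + 1) + P.gX * P.mX * ((cc).M * (H + 1) + 1) +
      (Z + 1) * (P.K + 1) * (1 + 1) := rfl
    rw [hV]
    have : (Z + 1) * (P.K + 1) * (1 + 1) = (Z + 1) * 2 + (Z + 1) * P.K * 2 := by ring
    omega
  rw [h5]
  have e1 : n * (W + 1) ≤ (Z + 1) * 2 * W := by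
    calc n * (W + 1) ≤ (Z + 1) * (W + W) := Nat.mul_le_mul hn (by omega)
      _ = _ := by ring
  have e2 : t0 ≤ t0 * W := Nat.le_mul_of_pos_right _ hW1
  calc t0 + n * (W + 1) ≤ t0 * W + (Z + 1) * 2 * W := Nat.add_le_add e2 e1
    _ = (t0 + (Z + 1) * 2) * W := by ring
    _ ≤ (cc).V * W := Nat.mul_le_mul_right _ h6

/-- INIT -/
theorem init_req {i ci : ℕ} (hc : ci ≤ b0 * (cc).Y ^ i) : ci ≤ (cc).cX 0 i := CP.init_ok hc

end part1

/-! ## part 2: the table of ParB_806 -/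

section part2

open Crest.Agent.R288.Asy720 Crest.Agent.R288.Par806 Crest.Agent.R288.PgG8155
open Crest.Agent.R288.PgG8i654 Crest.Agent.R288.Shell12

/-- growth of the parameters that enter the cost; the table of ParB_806 satisfies it (`tb_table`) -/
structure Tb (C : ℕ) (P : Par) (h : ℕ) : Prop where
  n : P.n ≤ nn h
  r : P.r ≤ C
  a1 : P.a1 ≤ C * Mg h
  a2 : P.a2 ≤ C
  dl : P.dl ≤ C * (W h * Lg h)
  du : P.du ≤ C
  c0 : P.c0 ≤ C * Mg h
  gJ : P.gJ ≤ C * W h ^ C * Lg h ^ C * Mg h ^ C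
  mJ : P.mJ ≤ 2 ^ (C * Mg h)
  gX : P.gX ≤ 2 ^ (C * W h * Lg h)
  mX : P.mX ≤ 2 ^ (C * W h * Lg h)
  K : P.K ≤ KK h
  E : P.E ≤ EE h
  K1 : 1 ≤ P.K

theorem Tb.mono {C C' : ℕ} {P : Par} {h : ℕ} (t : Tb C P h) (hC : C ≤ C') : Tb C' P h where
  n := t.n
  r := t.r.trans hC
  a1 := t.a1.trans (Nat.mul_le_mul_right _ hC)
  a2 := t.a2.trans hC
  dl := t.dl.trans (Nat.mul_le_mul_right _ hC)
  du := t.du.trans hC
  c0 := t.c0.trans (Nat.mul_le_mul_right _ hC)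
  gJ := by
    have h1 := W_pos h
    have h2 := Lg_pos h
    have h3 := Mg_pos h
    refine t.gJ.trans ?_
    gcongr
  mJ := t.mJ.trans (Nat.pow_le_pow_right (by norm_num) (Nat.mul_le_mul_right _ hC))
  gX := t.gX.trans (Nat.pow_le_pow_right (by norm_num)
    (Nat.mul_le_mul_right _ (Nat.mul_le_mul_right _ hC)))
  mX := t.mX.trans (Nat.pow_le_pow_right (by norm_num)
    (Nat.mul_le_mul_right _ (Nat.mul_le_mul_right _ hC)))
  K := t.K
  E := t.E
  K1 := t.K1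

theorem le_pol {k a b c e C : ℕ} (hk : k ≤ C) (ha : a ≤ C) (hb : b ≤ C) (hc : c ≤ C) (he : e ≤ C)
    (h : ℕ) : k * W h ^ a * Lg h ^ b * Mg h ^ c * 2 ^ (e * Mg h) ≤ pol C h := by
  unfold pol
  have h1 := W_pos h
  have h2 := Lg_pos h
  have h3 := Mg_pos h
  gcongr
  norm_num

/-- constants of `Y_le` -/
def cY (C : ℕ) : ℕ :=
  (2 * C + 1) * ((2 * C + 3) * (C + 1)) * ((2 * C + 1) * ((2 * C + 4) * 2 ^ C)) + 4 * C + 4

theorem nJ_le {C : ℕ} {P : Par} {h : ℕ} (t : Tb C P h) :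
    Cnt308.nJ P ≤ (2 * C + 1) * Mg h * ((2 * C + 3) * 2 ^ (C * Mg h)) := by
  have h3 := Mg_pos h
  unfold Cnt308.nJ
  refine Nat.mul_le_mul ?_ ?_
  · have h4 := t.a1
    have h5 := t.a2
    have h6 : C ≤ C * Mg h := Nat.le_mul_of_pos_right _ h3
    have h7 : (2 * C + 1) * Mg h = C * Mg h + C * Mg h + Mg h := by ring
    omega
  · have h4 : 2 ^ P.a1 ≤ 2 ^ (C * Mg h) := Nat.pow_le_pow_right (by norm_num) t.a1
    have h5 : 1 ≤ 2 ^ (C * Mg h) := Nat.one_le_two_pow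
    have h6 := t.r
    calc (2 * P.r + 1) * 2 ^ P.a1 + 2 ≤ (2 * C + 1) * 2 ^ (C * Mg h) + 2 * 2 ^ (C * Mg h) := by
          refine Nat.add_le_add (Nat.mul_le_mul (by omega) h4) (by omega)
      _ = _ := by ring

theorem nA_le {C : ℕ} {P : Par} {h : ℕ} (t : Tb C P h) : Cnt308.nA P ≤
    (2 * C + 1) * ((2 * C + 3) * (C + 1)) * W h ^ C * Lg h ^ C * Mg h ^ (C + 1) *
      2 ^ (2 * C * Mg h) := by
  have h1 := W_pos h
  have h2 := Lg_pos h
  have h3 := Mg_pos h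
  have h4 : P.gJ * P.mJ + 1 ≤
      (C + 1) * W h ^ C * Lg h ^ C * Mg h ^ C * 2 ^ (C * Mg h) := by
    have h5 : P.gJ * P.mJ ≤ C * W h ^ C * Lg h ^ C * Mg h ^ C * 2 ^ (C * Mg h) :=
      Nat.mul_le_mul t.gJ t.mJ
    have h6 : 1 ≤ W h ^ C * Lg h ^ C * Mg h ^ C * 2 ^ (C * Mg h) := by
      have : 0 < W h ^ C * Lg h ^ C * Mg h ^ C * 2 ^ (C * Mg h) := by positivity
      omega
    calc P.gJ * P.mJ + 1 ≤ C * W h ^ C * Lg h ^ C * Mg h ^ C * 2 ^ (C * Mg h) +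
          W h ^ C * Lg h ^ C * Mg h ^ C * 2 ^ (C * Mg h) := Nat.add_le_add h5 h6
      _ = _ := by ring
  unfold Cnt308.nA
  calc Cnt308.nJ P * (P.gJ * P.mJ + 1)
      ≤ ((2 * C + 1) * Mg h * ((2 * C + 3) * 2 ^ (C * Mg h))) *
        ((C + 1) * W h ^ C * Lg h ^ C * Mg h ^ C * 2 ^ (C * Mg h)) :=
        Nat.mul_le_mul (nJ_le t) h4
    _ = _ := by
        rw [show 2 * C * Mg h = C * Mg h + C * Mg h by ring, pow_add, pow_succ]
        ring

theorem nB_le {C : ℕ} {P : Par} {h : ℕ} (t : Tb C P h) : Cnt308.nB P ≤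
    2 ^ nn h * (((2 * C + 1) * ((2 * C + 4) * 2 ^ C)) * W h * Lg h * 2 ^ (C * Mg h)) := by
  have h1 := W_pos h
  have h2 := Lg_pos h
  have hWL : 1 ≤ W h * Lg h := Nat.mul_pos h1 h2
  unfold Cnt308.nB Par.N
  have h4 : P.dl + P.du + 1 ≤ (2 * C + 1) * (W h * Lg h) := by
    have h5 := t.dl
    have h6 := t.du
    have h7 : C ≤ C * (W h * Lg h) := Nat.le_mul_of_pos_right _ hWL
    have h8 : (2 * C + 1) * (W h * Lg h) = C * (W h * Lg h) + C * (W h * Lg h) + W h * Lg h := by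
      ring
    omega
  have h5 : (2 * P.r + 4) * 2 ^ (P.c0 + P.du) ≤ (2 * C + 4) * (2 ^ (C * Mg h) * 2 ^ C) := by
    have h6 := t.r
    rw [pow_add]
    exact Nat.mul_le_mul (by omega) (Nat.mul_le_mul
      (Nat.pow_le_pow_right (by norm_num) t.c0) (Nat.pow_le_pow_right (by norm_num) t.du))
  calc 2 ^ P.n * ((P.dl + P.du + 1) * ((2 * P.r + 4) * 2 ^ (P.c0 + P.du)))
      ≤ 2 ^ nn h * (((2 * C + 1) * (W h * Lg h)) * ((2 * C + 4) * (2 ^ (C * Mg h) * 2 ^ C))) :=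
        Nat.mul_le_mul (Nat.pow_le_pow_right (by norm_num) t.n) (Nat.mul_le_mul h4 h5)
    _ = _ := by ring

/-- **growth per macro height** -/
theorem Y_le {C : ℕ} {P : Par} {h : ℕ} (t : Tb C P h) :
    Cnt308.nA P * Cnt308.nB P ≤ 2 ^ nn h * pol (cY C) h := by
  calc Cnt308.nA P * Cnt308.nB P
      ≤ ((2 * C + 1) * ((2 * C + 3) * (C + 1)) * W h ^ C * Lg h ^ C * Mg h ^ (C + 1) *
          2 ^ (2 * C * Mg h)) *
        (2 ^ nn h * (((2 * C + 1) * ((2 * C + 4) * 2 ^ C)) * W h * Lg h * 2 ^ (C * Mg h))) :=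
        Nat.mul_le_mul (nA_le t) (nB_le t)
    _ = 2 ^ nn h * (((2 * C + 1) * ((2 * C + 3) * (C + 1)) *
          ((2 * C + 1) * ((2 * C + 4) * 2 ^ C))) * W h ^ (C + 1) * Lg h ^ (C + 1) *
          Mg h ^ (C + 1) * 2 ^ ((3 * C) * Mg h)) := by
        rw [show 3 * C * Mg h = 2 * C * Mg h + C * Mg h by ring, pow_add, pow_succ, pow_succ]
        ring
    _ ≤ _ := Nat.mul_le_mul_left _ (le_pol (by unfold cY; omega) (by unfold cY; omega)
        (by unfold cY; omega) (by unfold cY; omega) (by unfold cY; omega) h)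

/-- all ingredients below one bound `D` -/
theorem V_le {c : CP} {D : ℕ} (hD : 1 ≤ D) (h1 : c.t1 = 1) (h2 : c.t0 ≤ D) (h3 : c.lf ≤ D)
    (h4 : c.nX ≤ D) (h5 : c.nA ≤ D) (h6 : c.nB ≤ D) (h7 : c.nc ≤ D) (h8 : c.nr ≤ D)
    (h9 : c.nW ≤ D) (h10 : c.U ≤ D) (h11 : c.H + 1 ≤ D) (h12 : c.K ≤ D) :
    c.V ≤ 64 * D ^ 6 := by
  have hT : c.T ≤ 15 * D ^ 3 := by
    unfold CP.T
    rw [h1]
    calc c.t0 + c.nr * (1 + 1) + c.nc * (1 + c.lf + 2 * 1) + c.nW * (1 + c.lf + 2 * 1) +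
          c.nW * (1 + c.U) * (c.K * (1 + 1))
        ≤ D + D * (1 + 1) + D * (D + D + 2 * D) + D * (D + D + 2 * D) +
          D * (D + D) * (D * (1 + 1)) := by gcongr
      _ = 3 * D * 1 * 1 + 8 * D * D * 1 + 4 * D * D * D := by ring
      _ ≤ 3 * D * D * D + 8 * D * D * D + 4 * D * D * D := by gcongr
      _ = 15 * D ^ 3 := by ring
  have hM : c.M ≤ 24 * D ^ 4 := by
    unfold CP.M
    rw [h1]
    calc c.nA * (c.T + c.nB * 1 + 1) + c.nc * (1 + c.lf + 2 * 1) + c.t0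
        ≤ D * (15 * D ^ 3 + D * 1 + D) + D * (D + D + 2 * D) + D := by gcongr
      _ = 15 * D ^ 4 + 6 * (D * D) * 1 * 1 + D * 1 * 1 * 1 := by ring
      _ ≤ 15 * D ^ 4 + 6 * (D * D) * D * D + D * D * D * D := by gcongr
      _ = 22 * D ^ 4 := by ring
      _ ≤ 24 * D ^ 4 := by gcongr; norm_num
  unfold CP.V
  rw [h1]
  calc 1 + c.t0 + (1 + 1) + c.nX * (c.M * (c.H + 1) + 1) + (c.U + 1) * (c.K + 1) * (1 + 1)
      ≤ D + D + (D + D) + D * (24 * D ^ 4 * D + D) + (D + D) * (D + D) * (1 + 1) := by gcongr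
    _ = 4 * D * 1 * 1 * 1 * 1 * 1 + 24 * D ^ 6 + 9 * (D * D) * 1 * 1 * 1 * 1 := by ring
    _ ≤ 4 * D * D * D * D * D * D + 24 * D ^ 6 + 9 * (D * D) * D * D * D * D := by gcongr
    _ = 37 * D ^ 6 := by ring
    _ ≤ 64 * D ^ 6 := by gcongr; norm_num

/-- **`V ^ 2` and `Y` of `cpOf` with the table** (`Z t0 lf` of class `PQ` of ParW_951) -/
theorem VY_ev (C : ℕ) : ∃ C', C ≤ C' ∧ ∀ᶠ h : ℕ in atTop, ∀ P : Par, Tb C P h →
    ∀ Z t0 lf H b0 : ℕ, Z ≤ 2 ^ (C * (W h ^ 4 * Lg h)) → t0 ≤ 2 ^ (C * (W h ^ 4 * Lg h)) →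
      lf ≤ 2 ^ (C * (W h ^ 4 * Lg h)) → H ≤ II h + C →
      (cpOf P Z t0 lf H b0).Y ≤ 2 ^ nn h * pol C' h ∧
      (cpOf P Z t0 lf H b0).V ^ 2 ≤ 2 ^ (C' * W h ^ 4 * Lg h) := by
  refine ⟨max (cY C) (24 * (C + 4) + 12), ?_, ?_⟩
  · have : C ≤ cY C := by unfold cY; omega
    omega
  filter_upwards [pol_ev (cY C), ev_exp_le_Lg 0 1 (2 * cY C + 1)] with h hp he P t Z t0 lf H b0
    hZ ht hl hH
  have hW := W_pos h
  have hL := Lg_pos h
  have hM := Mg_pos h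
  have hW4 : W h ≤ W h ^ 4 := Nat.le_self_pow (by norm_num) _
  set q := W h ^ 4 * Lg h with hq
  have hWq : W h * Lg h ≤ q := Nat.mul_le_mul_right _ hW4
  have hWL : 1 ≤ q := Nat.mul_pos (pow_pos hW 4) hL
  have hY := Y_le t
  refine ⟨hY.trans (Nat.mul_le_mul_left _ (pol_mono (le_max_left _ _) h)), ?_⟩
  -- everything is at most `D`
  set D := 2 ^ (2 * (C + 4) * q) with hD
  have hD1 : 1 ≤ D := Nat.one_le_two_pow
  have hp2 : ∀ {a : ℕ}, a ≤ 2 * (C + 4) * q → 2 ^ a ≤ D := fun {a} ha =>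
    Nat.pow_le_pow_right (by norm_num) ha
  have hCD : 2 ^ (C * q) ≤ D := hp2 (Nat.mul_le_mul_right _ (by omega))
  have hLW : Lg h ≤ q := (Nat.le_mul_of_pos_left _ hW).trans hWq
  have hYD : Cnt308.nA P * Cnt308.nB P ≤ D := by
    refine hY.trans ?_
    calc 2 ^ nn h * pol (cY C) h ≤ 2 ^ nn h * 2 ^ ((2 * cY C + 1) * Mg h) :=
          Nat.mul_le_mul_left _ hp
      _ = 2 ^ (nn h + (2 * cY C + 1) * Mg h) := by rw [pow_add]
      _ ≤ D := hp2 (by
          have : Lg h ≤ 2 * (C + 4) * q :=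
            hLW.trans (Nat.le_mul_of_pos_left _ (by omega))
          omega)
  have hA := Cnt308.nA_pos (P := P)
  have hB := Cnt308.nB_pos (P := P)
  have hAD : Cnt308.nA P ≤ D := le_trans (Nat.le_mul_of_pos_right _ hB) hYD
  have hBD : Cnt308.nB P ≤ D := le_trans (Nat.le_mul_of_pos_left _ hA) hYD
  have hrD : Cnt308.nD P ≤ D := by
    refine le_trans ?_ hBD
    unfold Cnt308.nD Cnt308.nB
    refine Nat.mul_le_mul_left _ (Nat.le_mul_of_pos_right _ (by positivity))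
  have hXD : P.gX * P.mX ≤ D := by
    calc P.gX * P.mX ≤ 2 ^ (C * W h * Lg h) * 2 ^ (C * W h * Lg h) := Nat.mul_le_mul t.gX t.mX
      _ = 2 ^ (C * W h * Lg h + C * W h * Lg h) := by rw [pow_add]
      _ ≤ D := hp2 (by
          have e1 : C * W h * Lg h + C * W h * Lg h = 2 * C * (W h * Lg h) := by ring
          rw [e1]
          exact Nat.mul_le_mul (by omega) hWq)
  have hh := (lt_two_pow_Lg h).le
  have hHD : H + 1 ≤ D := by
    have h1 : II h ≤ h + 1 := Nat.add_le_add_right (Nat.div_le_self _ _) 1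
    have h2 : 1 ≤ 2 ^ Lg h := Nat.one_le_two_pow
    calc H + 1 ≤ 2 ^ Lg h + (C + 2) := by omega
      _ ≤ 2 ^ Lg h * (C + 3) := by nlinarith
      _ ≤ 2 ^ Lg h * 2 ^ (C + 3) := Nat.mul_le_mul_left _ (Nat.lt_two_pow_self (n := C + 3)).le
      _ = 2 ^ (Lg h + (C + 3)) := by rw [← pow_add]
      _ ≤ D := hp2 (by
          have h3 : C + 3 ≤ (C + 3) * q := Nat.le_mul_of_pos_right _ hWL
          have h4 : 2 * (C + 4) * q = (C + 3) * q + q + (C + 4) * q := by ring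
          omega)
  have hKD : P.K ≤ D := by
    have h1 : KK h ≤ h := Nat.div_le_self _ _
    refine (t.K.trans (h1.trans hh)).trans (hp2 ?_)
    exact hLW.trans (Nat.le_mul_of_pos_left _ (by omega))
  have hV : (cpOf P Z t0 lf H b0).V ≤ 64 * D ^ 6 :=
    V_le (c := cpOf P Z t0 lf H b0) hD1 rfl (ht.trans hCD) (hl.trans hCD) hXD hAD hBD
      (hZ.trans hCD) hrD (hZ.trans hCD) (hZ.trans hCD) hHD hKD
  calc (cpOf P Z t0 lf H b0).V ^ 2 ≤ (64 * D ^ 6) ^ 2 := Nat.pow_le_pow_left hV 2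
    _ = 2 ^ 12 * D ^ 12 := by ring
    _ = 2 ^ (12 + 24 * (C + 4) * q) := by
        rw [hD, ← pow_mul, pow_add]
        congr 2
        ring
    _ ≤ _ := by
        refine Nat.pow_le_pow_right (by norm_num) ?_
        calc 12 + 24 * (C + 4) * q ≤ 12 * q + 24 * (C + 4) * q := by omega
          _ = (24 * (C + 4) + 12) * q := by ring
          _ ≤ max (cY C) (24 * (C + 4) + 12) * q :=
              Nat.mul_le_mul_right _ (le_max_right _ _)
          _ = _ := by rw [hq, mul_assoc]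

/-- **fuel of the root call**: `x` = prelude, `x'` = the leaf request of MAIN and further calls -/
theorem root_time (C : ℕ) : ∃ c r : ℕ, ∀ᶠ h : ℕ in atTop, ∀ L : ℕ, Nat.clog 2 L = h →
    ∀ P : Par, Tb C P h → ∀ Z t0 lf H b0 x x' : ℕ, Z ≤ 2 ^ (C * (W h ^ 4 * Lg h)) →
      t0 ≤ 2 ^ (C * (W h ^ 4 * Lg h)) → lf ≤ 2 ^ (C * (W h ^ 4 * Lg h)) → H ≤ II h + C →
      b0 ≤ sui C h → x ≤ sui C h → x' ≤ sui C h →
      x + 40 * ((cpOf P Z t0 lf H b0).cF P.E H + x') + 25 ≤ fuc c 0 r 3 L := by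
  obtain ⟨C', hCC, hVY⟩ := VY_ev C
  obtain ⟨c, r, hT⟩ := time_ev_i (C' + 2 * C + 8) 4 (by norm_num)
  refine ⟨c, r, ?_⟩
  filter_upwards [hVY, hT] with h h1 h2 L hL P t Z t0 lf H b0 x x' hZ ht hl hH hb hx hx'
  obtain ⟨hY, hV⟩ := h1 P t Z t0 lf H b0 hZ ht hl hH
  set cc := cpOf P Z t0 lf H b0 with hcc
  have hcF : 1 ≤ cc.cF P.E H := CP.one_le_cF (ok t.K1) _ _
  have hW := W_pos h
  have hLg := Lg_pos h
  have hV1 : 1 ≤ cc.V ^ 2 := Nat.one_le_pow _ _ CP.one_le_V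
  have e1 : cc.cF P.E H = (b0 + 1) * (cc.Y ^ H * (cc.V ^ 2) ^ (P.E * P.K + 1)) := by
    unfold CP.cF CP.B
    rw [← pow_mul, show 2 * (P.E * P.K + 1) = 2 * (P.E * cc.K) + 2 by
      show _ = 2 * (P.E * P.K) + 2
      ring]
    show (b0 + 1) * _ * _ = _
    ring
  have h3 := h2 L hL cc.Y (cc.V ^ 2) H (P.E * P.K + 1) ((x + 40 * x' + 65) * (b0 + 1))
    (hY.trans (Nat.mul_le_mul_left _ (pol_mono (by omega) h))) hV1
    (hV.trans (Nat.pow_le_pow_right (by norm_num)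
      (Nat.mul_le_mul_right _ (Nat.mul_le_mul_right _ (by omega)))))
    (by omega)
    (by
      have h4 : P.E * P.K ≤ EE h * KK h := Nat.mul_le_mul t.E t.K
      omega)
    (by
      have h5 := one_le_sui C h
      have h6 : (256 : ℕ) ≤ sui 8 h := by
        have : (256 : ℕ) = 2 ^ 8 := by norm_num
        rw [this]
        refine two_pow_le_sui ?_
        have h7 : 1 ≤ W h ^ 8 * Lg h ^ 8 * Mg h ^ 8 := by
          have h9 := Mg_pos h
          have : 0 < W h ^ 8 * Lg h ^ 8 * Mg h ^ 8 := by positivity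
          omega
        calc 8 = 8 * 1 := by norm_num
          _ ≤ 8 * (W h ^ 8 * Lg h ^ 8 * Mg h ^ 8) := Nat.mul_le_mul_left _ h7
          _ = 8 * W h ^ 8 * Lg h ^ 8 * Mg h ^ 8 := by ring
          _ ≤ _ := Nat.le_add_right _ _
      calc (x + 40 * x' + 65) * (b0 + 1)
          ≤ (sui C h + 40 * sui C h + 65 * sui C h) * (sui C h + sui C h) := by
            gcongr
            omega
        _ = 212 * (sui C h * sui C h) := by ring
        _ ≤ sui 8 h * (sui C h * sui C h) := Nat.mul_le_mul_right _ (by omega)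
        _ ≤ sui 8 h * sui (C + C) h := Nat.mul_le_mul_left _ (sui_mul _ _ _)
        _ ≤ sui (8 + (C + C)) h := sui_mul _ _ _
        _ ≤ _ := sui_mono (by omega) h)
  refine le_trans ?_ h3
  calc x + 40 * (cc.cF P.E H + x') + 25 ≤ (x + 40 * x' + 65) * cc.cF P.E H := by
        have h4 : x + 40 * x' + 25 ≤ (x + 40 * x' + 25) * cc.cF P.E H :=
          Nat.le_mul_of_pos_right _ hcF
        have h5 : (x + 40 * x' + 65) * cc.cF P.E H = (x + 40 * x' + 25) * cc.cF P.E H +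
          40 * cc.cF P.E H := by ring
        omega
    _ = _ := by rw [e1]; ring

/-- **depth of the root call**; `p` = bound of the phases of a procedure and of the depth of INIT -/
theorem root_depth (C : ℕ) : ∀ᶠ h : ℕ in atTop, ∀ L : ℕ, Nat.clog 2 L = h →
    ∀ P : Par, Tb C P h → ∀ Z t0 lf H b0 p x : ℕ, H ≤ II h + C → p ≤ sub C h →
      x ≤ sub C h → (cpOf P Z t0 lf H b0).dF p P.E + x ≤ L := by
  obtain ⟨r, hr⟩ := size_ev' (2 * C + 6 + 8)
  filter_upwards [hr, og_le 1 0 r, ev_work 1 0 (by norm_num), ev_pow_le_self (2 * C + 6) 0 0 0 0 0 1]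
    with h h1 h1' h2 h6 L hL P t Z t0 lf H b0 p x hH hp hx
  refine le_trans ?_ ((h1 L hL).trans (h1' L hL))
  have hW := W_pos h
  have hLg := Lg_pos h
  have hMg := Mg_pos h
  simp only [pow_zero, mul_one, zero_mul, add_zero, pow_one] at h6
  have h3 : EE h * KK h ≤ h := by
    refine le_trans ?_ h2
    simp only [pow_zero, mul_one, one_mul]
    calc EE h * KK h ≤ (EE h * KK h + 1) * 1 := by omega
      _ ≤ _ := Nat.mul_le_mul_left _ hLg
  have h4 : P.E * P.K ≤ h := (Nat.mul_le_mul t.E t.K).trans h3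
  have h5 : II h ≤ h + 1 := Nat.add_le_add_right (Nat.div_le_self _ _) 1
  have e1 : (cpOf P Z t0 lf H b0).dF p P.E = (2 * (P.E * P.K) + 2) * (p * (2 * H + 4)) := rfl
  rw [e1]
  have hh := (lt_two_pow_Lg h).le
  have hs : 1 ≤ sub C h := Nat.one_le_two_pow
  have h7 : (2 * (P.E * P.K) + 2) * (2 * H + 4) + 1 ≤ 2 ^ (3 * Lg h + 5) := by
    have a1 : 2 * (P.E * P.K) + 2 ≤ 2 * 2 ^ Lg h + 2 := by omega
    have a2 : 2 * H + 4 ≤ 2 * 2 ^ Lg h + 2 ^ Lg h := by omega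
    have a3 : 1 ≤ 2 ^ Lg h := Nat.one_le_two_pow
    calc (2 * (P.E * P.K) + 2) * (2 * H + 4) + 1
        ≤ (4 * 2 ^ Lg h) * (3 * 2 ^ Lg h) + 2 ^ Lg h * 2 ^ Lg h := by
          refine Nat.add_le_add (Nat.mul_le_mul (by omega) (by omega)) ?_
          nlinarith
      _ = 13 * (2 ^ Lg h * 2 ^ Lg h) := by ring
      _ ≤ 2 ^ 5 * (2 ^ Lg h * 2 ^ Lg h * 2 ^ Lg h) := by nlinarith [Nat.mul_le_mul a3 a3]
      _ = 2 ^ (3 * Lg h + 5) := by rw [pow_add, pow_mul']; ring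
  have h8 : (2 : ℕ) ^ (3 * Lg h + 5) ≤ sub 8 h := by
    unfold sub
    refine Nat.pow_le_pow_right (by norm_num) ?_
    calc 3 * Lg h + 5 ≤ 8 * (1 * Lg h ^ 1 * 1) := by rw [pow_one]; omega
      _ ≤ 8 * (W h ^ 8 * Lg h ^ 8 * Mg h ^ 8) := by
          gcongr
          · exact Nat.one_le_pow _ _ hW
          · norm_num
          · exact Nat.one_le_pow _ _ hMg
      _ = _ := by ring
  calc (2 * (P.E * P.K) + 2) * (p * (2 * H + 4)) + x
      = p * ((2 * (P.E * P.K) + 2) * (2 * H + 4)) + x := by ring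
    _ ≤ sub C h * ((2 * (P.E * P.K) + 2) * (2 * H + 4)) + sub C h :=
        Nat.add_le_add (Nat.mul_le_mul_right _ hp) hx
    _ = sub C h * ((2 * (P.E * P.K) + 2) * (2 * H + 4) + 1) := by ring
    _ ≤ sub C h * sub 8 h := Nat.mul_le_mul_left _ (h7.trans h8)
    _ ≤ sub (C + 8) h := sub_mul _ _ _
    _ ≤ _ := sub_mono (by omega) h

/-- the table of ParB_806 -/
theorem tb_table : ∀ᶠ h : ℕ in atTop, ∀ P : Par, P.n ≤ nn h → P.r ≤ rr → P.a1 ≤ Par806.a1 h →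
    P.a2 ≤ Par806.a2 → P.dl ≤ Par806.dl h → P.du ≤ Par806.du → P.c0 ≤ Par806.c0 h →
    P.gJ ≤ Par806.gJ h → P.mJ ≤ Par806.mJ h → P.gX ≤ Par806.gX h → P.mX ≤ Par806.mX h →
    P.K = KK h → P.E ≤ EE h → Tb 40 P h := by
  filter_upwards [ev_KK_pos] with h hK P hn hr ha1 ha2 hdl hdu hc0 hgJ hmJ hgX hmX hPK hE
  have hW := W_pos h
  have hL := Lg_pos h
  have hM := Mg_pos h
  have hWL : 1 ≤ W h * Lg h := Nat.mul_pos hW hL
  have hLW : Lg h ≤ W h * Lg h := Nat.le_mul_of_pos_left _ hW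
  refine ⟨hn, hr, ha1.trans ?_, ha2.trans (by norm_num [Par806.a2]), hdl.trans ?_,
    hdu.trans (by norm_num [Par806.du]), hc0.trans ?_, hgJ.trans ?_, hmJ.trans ?_, hgX.trans ?_,
    hmX.trans ?_, hPK.le, hE, by omega⟩
  · unfold Par806.a1 bb
    omega
  · unfold Par806.dl
    calc 8 * W h * Lg h = 8 * (W h * Lg h) := by ring
      _ ≤ _ := Nat.mul_le_mul_right _ (by norm_num)
  · unfold Par806.c0
    omega
  · unfold Par806.gJ
    calc W h ^ 2 * Lg h = 1 * W h ^ 2 * Lg h ^ 1 * Mg h ^ 0 := by ring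
      _ ≤ 40 * W h ^ 40 * Lg h ^ 40 * Mg h ^ 40 := by gcongr <;> norm_num
  · unfold Par806.mJ bb
    rw [show (4 : ℕ) = 2 ^ 2 by norm_num, ← pow_mul]
    exact Nat.pow_le_pow_right (by norm_num) (by omega)
  · unfold Par806.gX
    calc W h * h ≤ 2 ^ Lg h * 2 ^ Lg h :=
          Nat.mul_le_mul ((W_le_Lg h).trans (Nat.lt_two_pow_self (n := Lg h)).le)
            (lt_two_pow_Lg h).le
      _ = 2 ^ (Lg h + Lg h) := by rw [pow_add]
      _ ≤ _ := Nat.pow_le_pow_right (by norm_num) (by rw [mul_assoc]; omega)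
  · unfold Par806.mX nb
    refine Nat.pow_le_pow_right (by norm_num) ?_
    calc 2 * (8 * W h * Lg h) + W h * Lg h = 17 * (W h * Lg h) := by ring
      _ ≤ 40 * (W h * Lg h) := Nat.mul_le_mul_right _ (by norm_num)
      _ = _ := by ring

/-- `2 ^ nn ≤ Y` (for the cost of INIT) -/
theorem two_pow_le_Y (P : Par) (Z t0 lf H b0 : ℕ) : 2 ^ P.n ≤ (cpOf P Z t0 lf H b0).Y := by
  show 2 ^ P.n ≤ Cnt308.nA P * Cnt308.nB P
  calc 2 ^ P.n ≤ Cnt308.nB P := by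
        unfold Cnt308.nB Par.N
        exact Nat.le_mul_of_pos_right _ (by positivity)
    _ ≤ _ := Nat.le_mul_of_pos_left _ Cnt308.nA_pos

end part2

end Crest.Agent.R288.CpU776
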