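import Crest.Agent.R288.PtY_949

/-!
# R288, program side (helper690): the constant part `kon` of all frames of the phase engine

`dl : KN → List ℕ → List (List ℕ) → List ℕ × List (List ℕ)` = step function whose frames do not
contain the constants; `wrapK dl` = the step function with frames `tow (kon, g)`:
* `wrapK_eq` : `wrapK dl (tow (K, g)) rs` from `dl K g rs`;
* `wrapK_stop`, `wrapK_step`;
* `ptf_wrapK` : certificate from the certificate of `dl`;
* `wrapB`, `wrapB_eq`, `ptf_wrapB` : the same for functions of a request argument (`base`).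
-/

set_option autoImplicit false

namespace Crest.Agent.R288.PrK690

open Crest.Agent.Lib.PT Crest.Agent.R295.Pt949 Crest.Agent.R288.PtY949

/-- the constants of a run: parameters and pad -/
abbrev KN : Type := List ℕ × List ℕ

/-- constants and frame -/
abbrev KG : Type := KN × List ℕ

/-- the frame with constants -/
def jn (K : KN) (g : List ℕ) : List ℕ := tow ((K, g) : KG)

/-- decode -/
def un (f : List ℕ) : KG := (frw f).1

@[simp] theorem un_jn (K : KN) (g : List ℕ) : un (jn K g) = (K, g) := by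
  unfold un jn
  have h := Flat.frw_tow (α := KG) (K, g) []
  rw [List.append_nil] at h
  rw [h]

/-- requests with constants: the kinds `4`, `5` (recursive calls) -/
def wrapQ (K : KN) (q : List ℕ) : List ℕ :=
  if q.headD 0 = 4 ∨ q.headD 0 = 5 then q.headD 0 :: jn K q.tail else q

@[simp] theorem wrapQ_zero (K : KN) (q : List ℕ) : wrapQ K (0 :: q) = 0 :: q := rfl
@[simp] theorem wrapQ_one (K : KN) (q : List ℕ) : wrapQ K (1 :: q) = 1 :: q := rfl
@[simp] theorem wrapQ_two (K : KN) (q : List ℕ) : wrapQ K (2 :: q) = 2 :: q := rfl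
@[simp] theorem wrapQ_three (K : KN) (q : List ℕ) : wrapQ K (3 :: q) = 3 :: q := rfl
@[simp] theorem wrapQ_four (K : KN) (q : List ℕ) : wrapQ K (4 :: q) = 4 :: jn K q := rfl
@[simp] theorem wrapQ_five (K : KN) (q : List ℕ) : wrapQ K (5 :: q) = 5 :: jn K q := rfl

variable (dl : KN → List ℕ → List (List ℕ) → List ℕ × List (List ℕ))

/-- the step function with constants in the frames -/
def wrapK (f : List ℕ) (rs : List (List ℕ)) : List ℕ × List (List ℕ) :=
  if (dl (un f).1 (un f).2 rs).2 = [] then ((dl (un f).1 (un f).2 rs).1, [])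
  else (jn (un f).1 (dl (un f).1 (un f).2 rs).1,
    (dl (un f).1 (un f).2 rs).2.map (wrapQ (un f).1))

variable {dl} {K : KN} {g : List ℕ} {rs : List (List ℕ)}

theorem wrapK_stop {r : List ℕ} (h : dl K g rs = (r, [])) : wrapK dl (jn K g) rs = (r, []) := by
  unfold wrapK
  simp only [un_jn, h, if_true]

theorem wrapK_step {g' : List ℕ} {reqs : List (List ℕ)} (h : dl K g rs = (g', reqs))
    (hne : reqs ≠ []) : wrapK dl (jn K g) rs = (jn K g', reqs.map (wrapQ K)) := by
  unfold wrapK
  simp only [un_jn, h, if_neg hne]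

theorem wrapK_nil_iff : (wrapK dl (jn K g) rs).2 = [] ↔ (dl K g rs).2 = [] := by
  unfold wrapK
  simp only [un_jn]
  split_ifs with h
  · simp [h]
  · simp [h]

/-- a function of a request argument -/
def wrapB (b : KN → List ℕ → ℕ) (f : List ℕ) : ℕ := b (un f).1 (un f).2

@[simp] theorem wrapB_jn (b : KN → List ℕ → ℕ) (K : KN) (g : List ℕ) :
    wrapB b (jn K g) = b K g := by
  unfold wrapB
  rw [un_jn]

/-! ### length and words -/

theorem jn_eq (K : KN) (g : List ℕ) :
    jn K g = (K.1.length :: K.1) ++ (K.2.length :: K.2) ++ (g.length :: g) := by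
  obtain ⟨K1, K2⟩ := K
  unfold jn
  simp only [tow_prod, tow_list]

theorem jn_length (K : KN) (g : List ℕ) :
    (jn K g).length = K.1.length + K.2.length + g.length + 3 := by
  rw [jn_eq]
  simp only [List.length_append, List.length_cons]
  omega

theorem jn_lt {B : ℕ} (hK : ∀ a ∈ K.1, a < B) (hK' : ∀ a ∈ K.2, a < B) (h1 : K.1.length < B)
    (h2 : K.2.length < B) (h3 : g.length < B) (hg : ∀ a ∈ g, a < B) : ∀ a ∈ jn K g, a < B := by
  intro a ha
  rw [jn_eq] at ha
  simp only [List.mem_append, List.mem_cons] at ha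
  rcases ha with ((rfl | ha) | (rfl | ha)) | (rfl | ha)
  · exact h1
  · exact hK a ha
  · exact h2
  · exact hK' a ha
  · exact h3
  · exact hg a ha

/-! ### certificates -/

section ptf

theorem ptf_un : PTF un := by
  show PTF (fun f : List ℕ => (frw f : KG × List ℕ).1)
  exact PTF.comp (g := fun p : KG × List ℕ => p.1) PTF.fst (Flat.ptf_frw (α := KG))

theorem ptf_jn {γ : Type} [PTCode γ] {K : γ → KN} {g : γ → List ℕ} (hK : PTF K) (hg : PTF g) :
    PTF (fun c => jn (K c) (g c)) := by
  unfold jn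
  exact PTF.comp (Flat.ptf_tow (α := KG)) (PTF.prodMk hK hg)

attribute [fun_prop] ptf_jn

theorem ptf_wrapQ {γ : Type} [PTCode γ] {K : γ → KN} {q : γ → List ℕ} (hK : PTF K) (hq : PTF q) :
    PTF (fun c => wrapQ (K c) (q c)) := by
  unfold wrapQ
  fun_prop

attribute [fun_prop] ptf_wrapQ

theorem ptf_wrapK
    (h : PTF (fun p : KN × List ℕ × List (List ℕ) => dl p.1 p.2.1 p.2.2)) :
    PTF (fun p : List ℕ × List (List ℕ) => wrapK dl p.1 p.2) := by
  have hu : PTF (fun p : List ℕ × List (List ℕ) => un p.1) := PTF.comp ptf_un PTF.fst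
  have hd : PTF (fun p : List ℕ × List (List ℕ) => dl (un p.1).1 (un p.1).2 p.2) :=
    PTF.comp (g := fun p : KN × List ℕ × List (List ℕ) => dl p.1 p.2.1 p.2.2) h
      (PTF.prodMk (PTF.comp PTF.fst hu) (PTF.prodMk (PTF.comp PTF.snd hu) PTF.snd))
  unfold wrapK
  have hu1 : PTF (fun p : List ℕ × List (List ℕ) => (un p.1).1) :=
    PTF.comp (g := fun q : KG => q.1) PTF.fst hu
  have hd1 : PTF (fun p : List ℕ × List (List ℕ) => (dl (un p.1).1 (un p.1).2 p.2).1) :=
    PTF.comp (g := fun q : List ℕ × List (List ℕ) => q.1) PTF.fst hd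
  have hd2 : PTF (fun p : List ℕ × List (List ℕ) => (dl (un p.1).1 (un p.1).2 p.2).2) :=
    PTF.comp (g := fun q : List ℕ × List (List ℕ) => q.2) PTF.snd hd
  have hu2 : PTF (fun p : (List ℕ × List (List ℕ)) × List ℕ => (un p.1.1).1) :=
    PTF.comp (g := fun p : List ℕ × List (List ℕ) => (un p.1).1) hu1 PTF.fst
  have hm : PTF (fun p : List ℕ × List (List ℕ) =>
      (dl (un p.1).1 (un p.1).2 p.2).2.map (wrapQ (un p.1).1)) :=
    PTF.map hd2 (ptf_wrapQ hu2 PTF.snd)
  refine PTF.ite (p := fun p : List ℕ × List (List ℕ) =>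
    (dl (un p.1).1 (un p.1).2 p.2).2 = []) ?_ (PTF.prodMk hd1 (PTF.const []))
    (PTF.prodMk (ptf_jn hu1 hd1) hm)
  fun_prop

theorem ptf_wrapB {b : KN → List ℕ → ℕ} (h : PTF (fun p : KN × List ℕ => b p.1 p.2)) :
    PTF (wrapB b) := PTF.comp (g := fun p : KN × List ℕ => b p.1 p.2) h ptf_un

end ptf

end Crest.Agent.R288.PrK690
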