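import Crest.Agent.R288.PheC_940
import Crest.Agent.R288.PrK_690

/-!
# R288, leaf RAM.PROG, part B (helper578): typed procedures with saved answers over PheC_940

A program is a family `ph : KN → ℕ → Ar → Svd → List ℕ ⊕ List (List ℕ)`: constants, tag, arguments,
answers of the finished phases; `inl r` = stop with `r`, `inr reqs` = ask (`reqs` may be empty).
Frame: `fr K tg a sv = jn K (tg :: tow (a, sv))`. Requests: `[0]` word, `3 :: q` leaf,
`cal 4 tg a`, `cal 5 tg a` calls (`wrapQ K` puts the constants in).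

* `dlp ph` : the step function, `ptf_dlp`; `Has G K tg ph` : the program `G` runs the family at the
  tag `tg` (`has_of_wrap`);
* `Env` : constants (one size number `Z`); `Wd M Z u` : at most `Z` words `< M`;
* `Cz G W K tg n a sv t C` : the procedure realises `t : RT (List ℕ)`, fuel `n`, cost `≤ C`;
* **`Cz.stop`, `Cz.step`, `Cz.stepA`, `Cz.step_ret`**, `Cz.mono`, `Cz.congr`, `cal4`, `cal5`, `cal5_ret`.
-/

set_option autoImplicit false

namespace Crest.Agent.R288.Pgb578

open Crest.Agent.Lib.PT Crest.Agent.R295.Pt949 Crest.Agent.R288.PtY949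
open Crest.Agent.R295.Rnd627 Crest.Agent.R288.Alg45 Crest.Agent.R288.PrK690
open Crest.Agent.R288.Phe940 (Prg Wld fl Rz Rq Rqs Szo kq)

/-- arguments: index or epoch, class, macro height, block, two diagonals (cell: number, `0`) -/
abbrev Ar := ℕ × ℕ × ℕ × ℕ × ℤ × ℤ
/-- answers of the finished phases -/
abbrev Svd := List (List (List ℕ))
/-- one phase of a procedure -/
abbrev Ph := KN → ℕ → Ar → Svd → List ℕ ⊕ List (List ℕ)

/-- the answers after the answers `rs` of the last phase (its last answer is a dummy) -/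
def upd (sv : Svd) (rs : List (List ℕ)) : Svd := if rs = [] then sv else sv ++ [rs.dropLast]

@[simp] theorem upd_nil (sv : Svd) : upd sv [] = sv := by simp [upd]
@[simp] theorem upd_concat (sv : Svd) (us : List (List ℕ)) (d : List ℕ) :
    upd sv (us ++ [d]) = sv ++ [us] := by simp [upd]

/-- arguments of a frame -/
def dA (g : List ℕ) : Ar := (PtY949.un (Ar × Svd) g.tail).1
/-- saved answers of a frame -/
def dS (g : List ℕ) : Svd := (PtY949.un (Ar × Svd) g.tail).2

/-- frame without constants -/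
def fr0 (tg : ℕ) (a : Ar) (sv : Svd) : List ℕ := tg :: tow ((a, sv) : Ar × Svd)

@[simp] theorem dA_mk (g : ℕ) (a : Ar) (sv : Svd) : dA (fr0 g a sv) = a := by
  rw [dA, fr0, List.tail_cons, un_tow]
@[simp] theorem dS_mk (g : ℕ) (a : Ar) (sv : Svd) : dS (fr0 g a sv) = sv := by
  rw [dS, fr0, List.tail_cons, un_tow]

/-- the step function of a family (without constants in the frames) -/
def dlp (ph : Ph) (K : KN) (g : List ℕ) (rs : List (List ℕ)) : List ℕ × List (List ℕ) :=
  Sum.elim (fun r => (r, []))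
    (fun reqs => (fr0 (g.headD 0) (dA g) (upd (dS g) rs), reqs ++ [[1, 0]]))
    (ph K (g.headD 0) (dA g) (upd (dS g) rs))

section ptf

variable {γ : Type} [PTCode γ]

@[fun_prop]
theorem ptf_upd {f : γ → Svd} {g : γ → List (List ℕ)} (hf : PTF f)
    (hg : PTF g) : PTF (fun c => upd (f c) (g c)) := by
  unfold upd
  fun_prop

@[fun_prop]
theorem ptf_dA {f : γ → List ℕ} (hf : PTF f) : PTF (fun c => dA (f c)) :=
  PTF.comp (g := fun q : Ar × Svd => q.1) PTF.fst
    (ptf_un (α := Ar × Svd) (f := fun c => (f c).tail) (by fun_prop))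

@[fun_prop]
theorem ptf_dS {f : γ → List ℕ} (hf : PTF f) : PTF (fun c => dS (f c)) :=
  PTF.comp (g := fun q : Ar × Svd => q.2) PTF.snd
    (ptf_un (α := Ar × Svd) (f := fun c => (f c).tail) (by fun_prop))

@[fun_prop]
theorem ptf_fr0 {g : γ → ℕ} {a : γ → Ar} {sv : γ → Svd} (hg : PTF g) (ha : PTF a) (hs : PTF sv) :
    PTF (fun c => fr0 (g c) (a c) (sv c)) := by
  unfold fr0
  fun_prop

/-- certificate of the step function from the one of the family -/
theorem ptf_dlp {ph : Ph}
    (h : PTF (fun p : KN × ℕ × Ar × Svd => ph p.1 p.2.1 p.2.2.1 p.2.2.2)) :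
    PTF (fun p : KN × List ℕ × List (List ℕ) => dlp ph p.1 p.2.1 p.2.2) := by
  have h0 : PTF (fun p : KN × List ℕ × List (List ℕ) =>
      ((p.1, p.2.1.headD 0, dA p.2.1, upd (dS p.2.1) p.2.2) : KN × ℕ × Ar × Svd)) := by
    fun_prop
  have h1 : PTF (fun p : KN × List ℕ × List (List ℕ) =>
      ph p.1 (p.2.1.headD 0) (dA p.2.1) (upd (dS p.2.1) p.2.2)) :=
    PTF.comp (g := fun p : KN × ℕ × Ar × Svd => ph p.1 p.2.1 p.2.2.1 p.2.2.2) h h0
  unfold dlp
  fun_prop

end ptf

/-- frame -/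
def fr (K : KN) (tg : ℕ) (a : Ar) (sv : Svd) : List ℕ := jn K (fr0 tg a sv)

/-- call request (`kd = 4`: same index, `kd = 5`: own tape position) -/
def cal (kd tg : ℕ) (a : Ar) : List ℕ := kd :: fr0 tg a []

@[simp] theorem wrapQ_cal4 (K : KN) (tg : ℕ) (a : Ar) :
    wrapQ K (cal 4 tg a) = 4 :: fr K tg a [] := rfl
@[simp] theorem wrapQ_cal5 (K : KN) (tg : ℕ) (a : Ar) :
    wrapQ K (cal 5 tg a) = 5 :: fr K tg a [] := rfl

/-- the program `G` runs the family `ph` at the tag `tg` with the constants `K` -/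
def Has (G : Prg) (K : KN) (ph : Ph) (tg : ℕ) : Prop := ∀ (a : Ar) (sv : Svd)
  (rs : List (List ℕ)), G.δ (fr K tg a sv) rs =
    Sum.elim (fun r => (r, []))
      (fun reqs => (fr K tg a (upd sv rs), reqs.map (wrapQ K) ++ [[1, 0]]))
      (ph K tg a (upd sv rs))

theorem has_of_wrap {G : Prg} {K : KN} {ph : Ph} {tg : ℕ}
    {dl : KN → List ℕ → List (List ℕ) → List ℕ × List (List ℕ)} (h : G.δ = wrapK dl)
    (h2 : ∀ a sv rs, dl K (fr0 tg a sv) rs = dlp ph K (fr0 tg a sv) rs) :
    Has G K ph tg := by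
  intro a sv rs
  have h4 := h2 a sv rs
  have hd : (fr0 tg a sv).headD 0 = tg := rfl
  have h3 : dlp ph K (fr0 tg a sv) rs = Sum.elim (fun r => (r, []))
      (fun reqs => (fr0 tg a (upd sv rs), reqs ++ [[1, 0]])) (ph K tg a (upd sv rs)) := by
    unfold dlp
    rw [hd, dA_mk, dS_mk]
  rw [h3] at h4
  rw [h, fr]
  cases hp : ph K tg a (upd sv rs) with
  | inl r =>
    rw [hp] at h4
    exact wrapK_stop h4
  | inr reqs =>
    rw [hp] at h4
    have := wrapK_step h4 (by simp)
    simp only [List.map_append, List.map_cons, List.map_nil, wrapQ_one] at this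
    exact this

/-! ### sizes -/

/-- at most `Z` words, all `< M` -/
def Wd (M Z : ℕ) (u : List ℕ) : Prop := u.length ≤ Z ∧ ∀ x ∈ u, x < M

/-- saved answers of the right size -/
structure SvOk (M Z : ℕ) (sv : Svd) : Prop where
  len : sv.length ≤ 8
  wid : ∀ rs ∈ sv, rs.length ≤ Z
  wd : ∀ rs ∈ sv, ∀ u ∈ rs, Wd M Z u

/-- constants of a run, size number `Z` -/
structure Env (W : Wld) (K : KN) (Z : ℕ) : Prop where
  S : 16 * (Z + 2) ^ 2 ≤ W.S
  SM : W.S < W.M
  L : 0 < W.L
  O1 : W.O1 0 < W.M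
  Z8 : 8 ≤ Z
  K1 : Wd W.M Z K.1
  K2 : Wd W.M Z K.2

theorem tow_nat_list (u : List ℕ) : tow u = u.length :: u := rfl

theorem length_flatMap_le {α : Type} {l : List α} {f : α → List ℕ} {c : ℕ}
    (h : ∀ a ∈ l, (f a).length ≤ c) : (l.flatMap f).length ≤ l.length * c := by
  induction l with
  | nil => simp
  | cons u l ih =>
    have h1 := h u List.mem_cons_self
    have h2 := ih fun v hv => h v (List.mem_cons_of_mem _ hv)
    rw [List.flatMap_cons, List.length_append, List.length_cons]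
    have : (l.length + 1) * c = l.length * c + c := by ring
    omega

theorem SvOk.nil {M Z : ℕ} : SvOk M Z [] := ⟨by simp, by simp, by simp⟩

theorem SvOk.snoc {M Z : ℕ} {sv : Svd} (h : SvOk M Z sv) {us : List (List ℕ)}
    (h8 : sv.length < 8) (h1 : us.length ≤ Z) (h2 : ∀ u ∈ us, Wd M Z u) :
    SvOk M Z (sv ++ [us]) := by
  refine ⟨by simp; omega, fun rs hrs => ?_, fun rs hrs => ?_⟩
  · rcases List.mem_append.1 hrs with hrs | hrs
    · exact h.wid rs hrs
    · rw [List.mem_singleton] at hrs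
      exact hrs ▸ h1
  · rcases List.mem_append.1 hrs with hrs | hrs
    · exact h.wd rs hrs
    · rw [List.mem_singleton] at hrs
      exact hrs ▸ h2

theorem fl_le {M Z : ℕ} {rs : List (List ℕ)} (h2 : ∀ u ∈ rs, Wd M Z u) :
    (fl rs).length ≤ rs.length * (Z + 1) :=
  length_flatMap_le fun u hu => by
    rw [tow_nat_list, List.length_cons]
    have := (h2 u hu).1
    omega

theorem tow_res_le {M Z : ℕ} {rs : List (List ℕ)} (h1 : rs.length ≤ Z)
    (h2 : ∀ u ∈ rs, Wd M Z u) : (tow rs).length ≤ Z * (Z + 1) + 1 := by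
  have h := fl_le h2
  have h3 : rs.length * (Z + 1) ≤ Z * (Z + 1) := Nat.mul_le_mul_right _ h1
  rw [show tow rs = rs.length :: fl rs from rfl, List.length_cons]
  omega

theorem tow_res_lt {M Z : ℕ} (hZ : Z < M) {rs : List (List ℕ)}
    (h1 : rs.length ≤ Z) (h2 : ∀ u ∈ rs, Wd M Z u) : ∀ x ∈ tow rs, x < M := by
  intro x hx
  rw [show tow rs = rs.length :: fl rs from rfl, List.mem_cons] at hx
  rcases hx with rfl | hx
  · exact h1.trans_lt hZ
  · obtain ⟨u, hu, hx⟩ := List.mem_flatMap.1 hx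
    rw [tow_nat_list, List.mem_cons] at hx
    have h3 := h2 u hu
    rcases hx with rfl | hx
    · exact h3.1.trans_lt hZ
    · exact h3.2 x hx

theorem tow_svd_le {M Z : ℕ} {sv : Svd} (h : SvOk M Z sv) :
    (tow sv).length ≤ 8 * (Z * (Z + 1) + 1) + 1 := by
  have h1 : (sv.flatMap fun u => tow u).length ≤ sv.length * (Z * (Z + 1) + 1) :=
    length_flatMap_le fun rs hrs => tow_res_le (h.wid rs hrs) (h.wd rs hrs)
  have h3 : sv.length * (Z * (Z + 1) + 1) ≤ 8 * (Z * (Z + 1) + 1) :=
    Nat.mul_le_mul_right _ h.len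
  rw [show tow sv = sv.length :: sv.flatMap fun u => tow u from rfl, List.length_cons]
  omega

theorem tow_svd_lt {M Z : ℕ} (hZ : Z < M) (h8 : 8 < M) {sv : Svd} (h : SvOk M Z sv) :
    ∀ x ∈ tow sv, x < M := by
  intro x hx
  rw [show tow sv = sv.length :: sv.flatMap fun u => tow u from rfl, List.mem_cons] at hx
  rcases hx with rfl | hx
  · have := h.len
    omega
  · obtain ⟨rs, hrs, hx⟩ := List.mem_flatMap.1 hx
    exact tow_res_lt hZ (h.wid rs hrs) (h.wd rs hrs) x hx

/-- the arguments fit: tag and six small numbers -/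
structure ArOk (M tg : ℕ) (a : Ar) : Prop where
  tg : tg < M
  a1 : a.1 < M
  a2 : a.2.1 < M
  a3 : a.2.2.1 < M
  a4 : a.2.2.2.1 < M
  a5 : a.2.2.2.2.1.natAbs < M
  a6 : a.2.2.2.2.2.natAbs < M

theorem tow_ar (a : Ar) : tow a = [a.1, a.2.1, a.2.2.1, a.2.2.2.1,
    if a.2.2.2.2.1 < 0 then 1 else 0, a.2.2.2.2.1.natAbs,
    if a.2.2.2.2.2 < 0 then 1 else 0, a.2.2.2.2.2.natAbs] := rfl

theorem tow_ar_length (a : Ar) : (tow a).length = 8 := rfl

theorem ArOk.lt {M tg : ℕ} {a : Ar} (h : ArOk M tg a) (h2 : 2 ≤ M) : ∀ x ∈ tow a, x < M := by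
  intro x hx
  rw [tow_ar] at hx
  simp only [List.mem_cons, List.not_mem_nil, or_false] at hx
  rcases hx with rfl | rfl | rfl | rfl | rfl | rfl | rfl | rfl
  · exact h.a1
  · exact h.a2
  · exact h.a3
  · exact h.a4
  · split <;> omega
  · exact h.a5
  · split <;> omega
  · exact h.a6

section rules

variable {G : Prg} {W : Wld} {K : KN} {Z tg : ℕ} {ph : Ph}

theorem fr_length (K : KN) (tg : ℕ) (a : Ar) (sv : Svd) :
    (fr K tg a sv).length = K.1.length + K.2.length + (tow sv).length + 12 := by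
  rw [fr, jn_length, fr0, List.length_cons,
    show tow ((a, sv) : Ar × Svd) = tow a ++ tow sv from rfl, List.length_append, tow_ar_length]
  omega

theorem Env.Zlt (hE : Env W K Z) : 16 * (Z + 2) ^ 2 < W.M := hE.S.trans_lt hE.SM

theorem Env.num (hE : Env W K Z) : 16 * (Z * (Z + 1)) + 48 * Z + 64 ≤ W.S := by
  have h := hE.S
  have h2 : 16 * (Z + 2) ^ 2 = 16 * (Z * (Z + 1)) + 48 * Z + 64 := by ring
  omega

theorem fr_lt (hE : Env W K Z) {a : Ar} (ha : ArOk W.M tg a) {sv : Svd} (h : SvOk W.M Z sv) :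
    ∀ x ∈ fr K tg a sv, x < W.M := by
  have h1 := hE.num
  have h2 := hE.SM
  have h3 := tow_svd_le h
  have hg : (fr0 tg a sv).length = (tow sv).length + 9 := by
    rw [fr0, List.length_cons, show tow ((a, sv) : Ar × Svd) = tow a ++ tow sv from rfl,
      List.length_append, tow_ar_length]
    omega
  refine jn_lt hE.K1.2 hE.K2.2 (hE.K1.1.trans_lt (by omega)) (hE.K2.1.trans_lt (by omega))
    (by omega) fun x hx => ?_
  rw [fr0, show tow ((a, sv) : Ar × Svd) = tow a ++ tow sv from rfl, List.mem_cons,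
    List.mem_append] at hx
  rcases hx with rfl | hx | hx
  · exact ha.tg
  · exact ha.lt (by omega) x hx
  · exact tow_svd_lt (by omega) (by omega) h x hx

/-- size of a wrapped request -/
theorem wrapQ_wd (hE : Env W K Z) {q : List ℕ} (hq : Wd W.M Z q) :
    Wd W.M (3 * Z + 3) (wrapQ K q) := by
  have h1 := hE.num
  have h2 := hE.SM
  have h3 := hE.K1.1
  have h4 := hE.K2.1
  have h5 := hq.1
  unfold wrapQ
  split
  · rename_i hk
    cases q with
    | nil => simp at hk
    | cons a q =>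
      simp only [List.headD_cons, List.tail_cons, List.length_cons] at hk h5 ⊢
      refine ⟨?_, ?_⟩
      · rw [List.length_cons, jn_length]
        omega
      · intro x hx
        rw [List.mem_cons] at hx
        rcases hx with rfl | hx
        · exact hq.2 _ List.mem_cons_self
        · exact jn_lt hE.K1.2 hE.K2.2 (by omega) (by omega) (by omega)
            (fun y hy => hq.2 y (List.mem_cons_of_mem _ hy)) x hx
  · exact ⟨by omega, hq.2⟩

/-- the procedure `a` with saved answers `sv` realises `t` -/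
def Cz (G : Prg) (W : Wld) (K : KN) (tg n : ℕ) (a : Ar) (sv : Svd) (t : RT (List ℕ))
    (C : ℕ) : Prop := ∀ sv0 rs, upd sv0 rs = sv → Rz G W n (fr K tg a sv0) rs t C

variable {n m C C' : ℕ} {a : Ar} {sv : Svd} {t t' : RT (List ℕ)}

theorem Cz.mono (h : Cz G W K tg n a sv t C) (hn : n ≤ m) (hC : C ≤ C') :
    Cz G W K tg m a sv t C' := fun sv0 rs h1 => (h sv0 rs h1).mono hn hC

theorem Cz.congr (h : Cz G W K tg n a sv t C) (ht : t' = t) : Cz G W K tg n a sv t' C := ht ▸ h

theorem Cz.congr_run (h : Cz G W K tg n a sv t C)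
    (ht : ∀ p, t'.run W.N W.Z p = t.run W.N W.Z p) : Cz G W K tg n a sv t' C :=
  fun sv0 rs h1 => (h sv0 rs h1).congr ht

/-- stop -/
theorem Cz.stop (hG : Has G K ph tg) (hE : Env W K Z) {r : List ℕ} (h : ph K tg a sv = .inl r)
    (hr : Wd W.M Z r) : Cz G W K tg (n + 1) a sv (.ret r) 0 := by
  intro sv0 rs h1
  have h2 := hE.num
  refine Rz.stop ?_ ⟨by have := hr.1; omega, hr.2⟩
  rw [hG a sv0 rs, h1, h]
  rfl

/-- **one phase** (`P us` = a property of the answers on the tape) -/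
theorem Cz.step (hG : Has G K ph tg) (hE : Env W K Z) {reqs : List (List ℕ)}
    {ts : RT (List (List ℕ))} {k : List (List ℕ) → RT (List ℕ)} (h : ph K tg a sv = .inr reqs)
    (hA : Rqs G W n (reqs.map (wrapQ K)) ts C) (hlen : reqs.length ≤ Z)
    (hq : ∀ q ∈ reqs, Wd W.M Z q) (ha : ArOk W.M tg a) (hsv : SvOk W.M Z sv)
    (hu : ∀ p, ts.nxt W.N W.Z p ≤ W.Pm → (ts.val W.N W.Z p).length ≤ Z ∧
      ∀ u ∈ ts.val W.N W.Z p, Wd W.M Z u)
    (hk : ∀ p, ts.nxt W.N W.Z p ≤ W.Pm →
      Cz G W K tg n a (sv ++ [ts.val W.N W.Z p]) (k (ts.val W.N W.Z p)) C') :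
    Cz G W K tg (n + 1) a sv (ts.bind k) (C + C' + 2) := by
  intro sv0 rs h1
  have hnum := hE.num
  have hSM := hE.SM
  have hd : Rqs G W n [[1, 0]] (.ret [[W.O1 0]]) 2 :=
    (Rqs.nil.cons_ret (Rq.rd1 (q := [1, 0]) rfl hE.L)).mono le_rfl (by omega)
  have hA2 := Rqs.append hA hd
  have heq : ts.bind k = (ts.bind fun us => (RT.ret [[W.O1 0]] : RT (List (List ℕ))).bind
      fun us' => .ret (us ++ us')).bind fun l => k l.dropLast := by
    rw [RT.bind_assoc]
    congr 1
    funext us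
    rw [RT.ret_bind, RT.ret_bind, List.dropLast_concat]
  have hval : ∀ p, (ts.bind fun us => (RT.ret [[W.O1 0]] : RT (List (List ℕ))).bind
      fun us' => .ret (us ++ us')).run W.N W.Z p =
        (ts.val W.N W.Z p ++ [[W.O1 0]], ts.nxt W.N W.Z p) := by
    intro p
    rw [RT.run_bind]
    rfl
  rw [heq]
  have hC : C + C' + 2 = (C + 2) + C' := by ring
  rw [hC]
  refine Rz.stepV hSM (f' := fr K tg a sv) (reqs := reqs.map (wrapQ K) ++ [[1, 0]]) ?_ (by simp)
    hA2 ?_ ?_
  · rw [hG a sv0 rs, h1, h]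
    rfl
  · intro p hp
    have e1 : (ts.bind fun us => (RT.ret [[W.O1 0]] : RT (List (List ℕ))).bind
      fun us' => .ret (us ++ us')).nxt W.N W.Z p = ts.nxt W.N W.Z p := by
      unfold RT.nxt
      rw [hval]
      rfl
    have e2 : (ts.bind fun us => (RT.ret [[W.O1 0]] : RT (List (List ℕ))).bind
      fun us' => .ret (us ++ us')).val W.N W.Z p = ts.val W.N W.Z p ++ [[W.O1 0]] := by
      unfold RT.val
      rw [hval]
      rfl
    rw [e1] at hp
    rw [e2]
    obtain ⟨u1, u2⟩ := hu p hp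
    have h3 := tow_svd_le hsv
    have h4 := fr_length K tg a sv
    have h5 := hE.K1.1
    have h6 := hE.K2.1
    have h7 : (fl (reqs.map (wrapQ K))).length ≤ (reqs.map (wrapQ K)).length * (3 * Z + 3 + 1) :=
      fl_le (M := W.M) fun u hu => by
        obtain ⟨q, hq', rfl⟩ := List.mem_map.1 hu
        exact wrapQ_wd hE (hq q hq')
    have h8 := fl_le u2
    have h9 : (reqs.map (wrapQ K)).length * (3 * Z + 3 + 1) ≤ Z * (3 * Z + 3 + 1) :=
      Nat.mul_le_mul_right _ (by rw [List.length_map]; exact hlen)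
    have h10 : (ts.val W.N W.Z p).length * (Z + 1) ≤ Z * (Z + 1) := Nat.mul_le_mul_right _ u1
    have h11 : Z * (3 * Z + 3 + 1) = 3 * (Z * (Z + 1)) + Z := by ring
    refine ⟨?_, fr_lt hE ha hsv, ?_, ?_⟩
    · rw [Phe940.fl_append, Phe940.fl_append, List.length_append, List.length_append]
      simp only [Phe940.fl_cons, Phe940.fl_nil, List.append_nil, tow_nat_list, List.length_cons,
        List.length_nil]
      omega
    · intro q hq' x hx
      rcases List.mem_append.1 hq' with hq' | hq'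
      · obtain ⟨q', hq'', rfl⟩ := List.mem_map.1 hq'
        exact (wrapQ_wd hE (hq q' hq'')).2 x hx
      · rw [List.mem_singleton] at hq'
        subst hq'
        simp only [List.mem_cons, List.not_mem_nil, or_false] at hx
        omega
    · intro q hq' x hx
      rcases List.mem_append.1 hq' with hq' | hq'
      · exact (u2 q hq').2 x hx
      · rw [List.mem_singleton] at hq'
        subst hq'
        rw [List.mem_singleton] at hx
        exact hx ▸ hE.O1
  · intro p hp
    have e1 : (ts.bind fun us => (RT.ret [[W.O1 0]] : RT (List (List ℕ))).bind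
      fun us' => .ret (us ++ us')).nxt W.N W.Z p = ts.nxt W.N W.Z p := by
      unfold RT.nxt
      rw [hval]
      rfl
    have e2 : (ts.bind fun us => (RT.ret [[W.O1 0]] : RT (List (List ℕ))).bind
      fun us' => .ret (us ++ us')).val W.N W.Z p = ts.val W.N W.Z p ++ [[W.O1 0]] := by
      unfold RT.val
      rw [hval]
      rfl
    rw [e1] at hp
    rw [e2, List.dropLast_concat]
    exact hk p hp sv _ (upd_concat _ _ _)

/-- one phase, with a property of all possible answers -/
theorem Cz.stepA (hG : Has G K ph tg) (hE : Env W K Z) (hN : 0 < W.N) {reqs : List (List ℕ)}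
    {ts : RT (List (List ℕ))} {k : List (List ℕ) → RT (List ℕ)} {Q : List (List ℕ) → Prop}
    (h : ph K tg a sv = .inr reqs)
    (hA : Rqs G W n (reqs.map (wrapQ K)) ts C) (hlen : reqs.length ≤ Z)
    (hq : ∀ q ∈ reqs, Wd W.M Z q) (ha : ArOk W.M tg a) (hsv : SvOk W.M Z sv)
    (hQ : ts.All W.N Q)
    (hu : ∀ us, Q us → us.length ≤ Z ∧ ∀ u ∈ us, Wd W.M Z u)
    (hk : ∀ us, Q us → Cz G W K tg n a (sv ++ [us]) (k us) C') :
    Cz G W K tg (n + 1) a sv (ts.bind k) (C + C' + 2) :=
  Cz.step hG hE h hA hlen hq ha hsv (fun _ _ => hu _ (hQ.val hN _ _))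
    fun _ _ => hk _ (hQ.val hN _ _)

/-- one phase with fixed answers -/
theorem Cz.step_ret (hG : Has G K ph tg) (hE : Env W K Z) {reqs us : List (List ℕ)}
    (h : ph K tg a sv = .inr reqs)
    (hA : Rqs G W n (reqs.map (wrapQ K)) (.ret us) C) (hlen : reqs.length ≤ Z)
    (hq : ∀ q ∈ reqs, Wd W.M Z q) (ha : ArOk W.M tg a) (hsv : SvOk W.M Z sv)
    (hu1 : us.length ≤ Z) (hu : ∀ u ∈ us, Wd W.M Z u)
    (hk : Cz G W K tg n a (sv ++ [us]) t C') :
    Cz G W K tg (n + 1) a sv t (C + C' + 2) := by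
  have := Cz.step (k := fun _ => t) hG hE h hA hlen hq ha hsv (fun _ _ => ⟨hu1, hu⟩)
    fun _ _ => hk
  rwa [RT.ret_bind] at this

/-! ### requests -/

/-- size of a call request -/
theorem cal_wd (hE : Env W K Z) (hZ : 12 ≤ Z) {kd : ℕ} (hk : kd ≤ 5) {a : Ar}
    (ha : ArOk W.M tg a) : Wd W.M Z (cal kd tg a) := by
  have h1 := hE.num
  have h2 := hE.SM
  have h3 : (cal kd tg a).length = 11 := by
    rw [cal, fr0, List.length_cons, List.length_cons,
      show tow ((a, ([] : Svd)) : Ar × Svd) = tow a ++ tow ([] : Svd) from rfl,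
      List.length_append, tow_ar_length]
    rfl
  refine ⟨by omega, fun x hx => ?_⟩
  rw [cal, fr0, List.mem_cons, List.mem_cons,
    show tow ((a, ([] : Svd)) : Ar × Svd) = tow a ++ tow ([] : Svd) from rfl,
    List.mem_append] at hx
  rcases hx with rfl | rfl | hx | hx
  · omega
  · exact ha.tg
  · exact ha.lt (by omega) x hx
  · have : x = 0 := by simpa [show tow ([] : Svd) = [0] from rfl] using hx
    omega

/-- a call of the same index -/
theorem cal4 (h : Cz G W K tg n a [] t C) : Rq G W n (wrapQ K (cal 4 tg a)) t C :=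
  Rq.call (q := 4 :: fr K tg a []) (by simp [kq]) (by simp [kq]) (h [] [] rfl)

/-- a call with its own tape position -/
theorem cal5 (h : Cz G W K tg n a [] t C)
    (hp : t.nxt W.N W.Z (G.base (fr K tg a [])) ≤ W.Pm) :
    Rq G W n (wrapQ K (cal 5 tg a)) (.ret (t.val W.N W.Z (G.base (fr K tg a [])))) C :=
  Rq.low (q := 5 :: fr K tg a []) (by simp [kq]) (h [] [] rfl) hp

/-- a call of a deterministic procedure -/
theorem cal5_ret {v : List ℕ} (h : Cz G W K tg n a [] (.ret v) C)
    (hp : G.base (fr K tg a []) ≤ W.Pm) :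
    Rq G W n (wrapQ K (cal 5 tg a)) (.ret v) C := cal5 h hp

end rules

end Crest.Agent.R288.Pgb578
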