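import Crest.Agent.R288.PgF_380
import Crest.Agent.R288.PgY_583
import Crest.Agent.R288.PgB_578
import Crest.Agent.R288.Pg7_776

/-!
# R288, [PROG] procedure F (helper380), part B: the realisation of F

* `hf_cz` : the common scheme `phG` of 583 (F and H) over 578's `Cz`, exact cost
* `F_zero_cz`, `F_succ_cz` : procedure F at one state
* `FH` : the numbers; `F_zero_gen`, `F_succ_gen` (any fuel, any costs)
* **`F_zero`, `F_succ`** : `RF 0` from `RX 0`, `RF (e+1)` from `RF e` and `RX (1 + e K + j)`,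
  `j < K`, costs and fuel of 776 (`cF`, `cX`, `dF`, `dX`)
* the text enters at the real arguments only: `hph : ∀ e y sv, ph K 4 (arS e 0 y) sv = phF P ..`
-/

set_option autoImplicit false

namespace Crest.Agent.R288.PgF380

open Crest.Agent.R295.Pt949 Crest.Agent.R295.Rnd627 Crest.Agent.R288.Alg45
open Crest.Agent.R288.Dom20 Crest.Agent.R288.PgX583 Crest.Agent.R288.PgY583
open Crest.Agent.R288.Pgb578 Crest.Agent.R288.PrK690
open Crest.Agent.R288.Phe940 (Prg Wld Rz Rq Rqs)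
open Crest.Agent.R288.Pg7776 (CP)

/-! ### the common scheme -/

section scheme

variable {G : Prg} {W : Wld} {K : KN} {Z tg : ℕ} {ph : Ph} {n : ℕ} {P : Par} {a : Pgb578.Ar}

theorem wd_single {M Z v : ℕ} (hZ : 1 ≤ Z) (hv : v < M) : Wd M Z [v] := by
  refine ⟨by simpa using hZ, fun x hx => ?_⟩
  rw [List.mem_singleton] at hx
  exact hx ▸ hv

/-- **the common scheme of F and H**: exact cost (bound of the number of keys) -/
theorem hf_cz' (hG : Has G K ph tg) (hE : Env W K Z) {q0 : List ℕ} {ls : List ℕ} {y : St}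
    (hph : ∀ sv, ph K tg a sv = phG P q0 ls y sv) (ha : ArOk W.M tg a)
    {X : ℕ → ℕ × St → ℕ} {v C0 : ℕ} {c : ℕ → ℕ}
    (hq0 : Wd W.M Z q0)
    (h0 : Rq G W (n + 2) (wrapQ K q0) (.ret [v]) C0)
    (hv : v < W.M)
    (hX : ∀ k ∈ hkeys P v y ls, Rq G W (n + 1) (wrapQ K (qX k.1 k.2.1 k.2.2))
      (.ret [X k.1 k.2]) (c k.1))
    (hXv : ∀ k ∈ hkeys P v y ls, X k.1 k.2 < W.M)
    (hq : ∀ k ∈ hkeys P v y ls, Wd W.M Z (qX k.1 k.2.1 k.2.2))
    (hlen : (hkeys P v y ls).length ≤ Z)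
    (hr : hfin P v y ls ((hkeys P v y ls).map fun k => X k.1 k.2) < W.M) :
    Cz G W K tg (n + 3) a []
      (.ret [hfin P v y ls ((hkeys P v y ls).map fun k => X k.1 k.2)])
      (4 + (C0 + 1) + uP P * (ls.map fun l => c l + 1).sum) := by
  have hZ8 := hE.Z8
  -- phase 2
  have s2 : Cz G W K tg (n + 1) a ([[[v]], (hkeys P v y ls).map fun k => [X k.1 k.2]] : Pgb578.Svd)
      (.ret [hfin P v y ls ((hkeys P v y ls).map fun k => X k.1 k.2)]) 0 := by
    refine Cz.stop hG hE ?_ (wd_single (by omega) hr)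
    rw [hph, phG_two, List.map_map]
    rfl
  -- phase 1
  have hA : Rqs G W (n + 1)
      (((hkeys P v y ls).map fun k => qX k.1 k.2.1 k.2.2).map (wrapQ K))
      (.ret ((hkeys P v y ls).map fun k => [X k.1 k.2]))
      ((hkeys P v y ls).map fun k => c k.1 + 1).sum := by
    rw [List.map_map]
    exact Rqs.map_ret (hkeys P v y ls) _ (fun k => [X k.1 k.2]) (fun k => c k.1) hX
  have s1 := Cz.step_ret (a := a) (sv := ([[[v]]] : Pgb578.Svd)) hG hE (by rw [hph, phG_one]) hA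
    (by rw [List.length_map]; exact hlen)
    (fun q hq' => by
      obtain ⟨k, hk, rfl⟩ := List.mem_map.1 hq'
      exact hq k hk) ha
    (SvOk.nil.snoc (us := [[v]]) (by simp) (by simp; omega) (fun u hu => by
      rw [List.mem_singleton] at hu
      exact hu ▸ wd_single (by omega) hv))
    (by rw [List.length_map]; exact hlen)
    (fun u hu => by
      obtain ⟨k, hk, rfl⟩ := List.mem_map.1 hu
      exact wd_single (by omega) (hXv k hk)) s2
  -- phase 0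
  have hA0 : Rqs G W (n + 2) ([q0].map (wrapQ K)) (.ret [[v]]) (C0 + 0 + 1) := by
    rw [List.map_cons, List.map_nil]
    exact Rqs.cons_ret h0 Rqs.nil
  have s0 := Cz.step_ret (a := a) (sv := ([] : Pgb578.Svd)) hG hE (by rw [hph, phG_zero]) hA0
    (by simp; omega)
    (fun q hq' => by
      rw [List.mem_singleton] at hq'
      exact hq' ▸ hq0) ha SvOk.nil (by simp; omega)
    (fun u hu => by
      rw [List.mem_singleton] at hu
      exact hu ▸ wd_single (by omega) hv) s1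
  refine s0.mono le_rfl ?_
  have h3 : ((hkeys P v y ls).map fun k => c k.1 + 1).sum ≤
      uP P * (ls.map fun l => c l + 1).sum := hkeys_sum_le v y ls fun l => c l + 1
  omega

/-- **the common scheme of F and H**: exact cost -/
theorem hf_cz (hG : Has G K ph tg) (hE : Env W K Z) {q0 : List ℕ} {ls : List ℕ} {y : St}
    (hph : ∀ sv, ph K tg a sv = phG P q0 ls y sv) (ha : ArOk W.M tg a)
    {X : ℕ → ℕ × St → ℕ} {v C0 : ℕ} {c : ℕ → ℕ}
    (hq0 : Wd W.M Z q0)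
    (h0 : Rq G W (n + 2) (wrapQ K q0) (.ret [v]) C0)
    (hv : v < W.M)
    (hX : ∀ k ∈ hkeys P v y ls, Rq G W (n + 1) (wrapQ K (qX k.1 k.2.1 k.2.2))
      (.ret [X k.1 k.2]) (c k.1))
    (hXv : ∀ k ∈ hkeys P v y ls, X k.1 k.2 < W.M)
    (hq : ∀ k ∈ hkeys P v y ls, Wd W.M Z (qX k.1 k.2.1 k.2.2))
    (hZ : uP P * ls.length ≤ Z)
    (hr : hfin P v y ls ((hkeys P v y ls).map fun k => X k.1 k.2) < W.M) :
    Cz G W K tg (n + 3) a []
      (.ret [hfin P v y ls ((hkeys P v y ls).map fun k => X k.1 k.2)])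
      (4 + (C0 + 1) + uP P * (ls.map fun l => c l + 1).sum) :=
  hf_cz' hG hE hph ha hq0 h0 hv hX hXv hq ((hkeys_length_le v y ls).trans hZ) hr

end scheme

/-! ### numbers -/

/-- the numbers of the procedure F -/
structure FH (M Z : ℕ) (P : Par) (I K0 : ℕ) (X : ℕ → ℕ × St → ℕ) : Prop where
  hI : I < M
  hJ : P.N ^ I ≤ M
  hD : P.Dm < M
  hL : P.E * P.K < M
  hEM : P.E < M
  hK0 : K0 < M
  h8 : 8 ≤ M
  hZ : uP P * (P.K + 1) ≤ Z
  hZ12 : 12 ≤ Z
  /-- classes of the INIT numbers -/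
  top : ∀ y, Dom P I y → Nat.log 2 (X 0 (0, y)) + P.a2 ≤ K0
  /-- values -/
  val : ∀ l ≤ P.E * P.K, ∀ p ∈ Om P I K0, X l p < M

section real

variable {G : Prg} {W : Wld} {K : KN} {Z : ℕ} {ph : Ph} {P : Par} {I K0 : ℕ}
  {X : ℕ → ℕ × St → ℕ}

/-- the arguments of a state of the domain are small -/
theorem arOk_arS {M tg a k : ℕ} (hI : I < M) (hJ : P.N ^ I ≤ M) (hD : P.Dm < M) (htg : tg < M)
    (ha : a < M) (hk : k < M) {y : St} (hy : Dom P I y) : ArOk M tg (arS a k y) := by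
  obtain ⟨h1, h2, h3, h4⟩ := (dom_iff P).1 hy
  refine ⟨htg, ha, hk, h1.trans_lt hI, ?_, h3.trans_lt hD, h4.trans_lt hD⟩
  exact (h2.trans_le (Nat.pow_le_pow_right (N_pos P) (Nat.sub_le _ _))).trans_le hJ

theorem FH.arOk (H : FH W.M Z P I K0 X) {tg a k : ℕ} (htg : tg < 8) (ha : a < W.M)
    (hk : k ≤ K0) {y : St} (hy : Dom P I y) : ArOk W.M tg (arS a k y) :=
  arOk_arS H.hI H.hJ H.hD (htg.trans_le H.h8) ha (hk.trans_lt H.hK0) hy

/-- a request of a number is small -/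
theorem FH.qX_wd (H : FH W.M Z P I K0 X) (hE : Env W K Z) {l κ : ℕ} {z : St} (hl : l < W.M)
    (hp : (κ, z) ∈ Om P I K0) : Wd W.M Z (qX l κ z) := by
  have h1 := mem_Om.1 hp
  unfold qX
  split_ifs with h0
  · exact cal_wd (tg := 2) hE H.hZ12 (kd := 5) le_rfl
      (H.arOk (by norm_num) (by have := H.h8; omega) (Nat.zero_le _) h1.2)
  · exact cal_wd (tg := 3) hE H.hZ12 (kd := 5) le_rfl (H.arOk (by norm_num) hl h1.1 h1.2)

theorem FH.qF_wd (H : FH W.M Z P I K0 X) (hE : Env W K Z) {e : ℕ} {y : St} (he : e < W.M)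
    (hy : Dom P I y) : Wd W.M Z (qF e y) :=
  cal_wd (tg := 4) hE H.hZ12 (kd := 5) le_rfl (H.arOk (by norm_num) he (Nat.zero_le _) hy)

theorem FH.FE_lt (H : FH W.M Z P I K0 X) {e : ℕ} {y : St} (hy : Dom P I y) :
    FE P X e y < W.M :=
  (FE_le_init X e y).trans_lt (H.val 0 (Nat.zero_le _) _ (pair_zero hy))

theorem FH.log_FE (H : FH W.M Z P I K0 X) {e : ℕ} {y : St} (hy : Dom P I y) :
    Nat.log 2 (FE P X e y) + P.a2 ≤ K0 :=
  (Nat.add_le_add_right (Nat.log_mono_right (FE_le_init X e y)) _).trans (H.top y hy)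

theorem mem_rks {e l : ℕ} : l ∈ rks P e ↔ ∃ j < P.K, l = 1 + e * P.K + j := by
  unfold rks idx
  rw [List.mem_map]
  constructor
  · rintro ⟨j, hj, rfl⟩
    exact ⟨j, List.mem_range.1 hj, rfl⟩
  · rintro ⟨j, hj, rfl⟩
    exact ⟨j, List.mem_range.2 hj, rfl⟩

theorem idx_le {e j : ℕ} (he : e < P.E) (hj : j < P.K) : 1 + e * P.K + j ≤ P.E * P.K := by
  have h1 : (e + 1) * P.K ≤ P.E * P.K := Nat.mul_le_mul_right _ he
  have h2 : (e + 1) * P.K = e * P.K + P.K := by ring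
  omega

theorem list_sum_range (f : ℕ → ℕ) (n : ℕ) :
    ((List.range n).map f).sum = ∑ j ∈ Finset.range n, f j := by
  induction n with
  | zero => simp
  | succ n ih => rw [List.range_succ, List.map_append, List.sum_append, ih,
      Finset.sum_range_succ]; simp

/-! ### one state -/

/-- **F at epoch `0`**: exact cost -/
theorem F_zero_cz (hG : Has G K ph 4) (hE : Env W K Z)
    (hph : ∀ e y sv, ph K 4 (arS e 0 y) sv = phF P (arS e 0 y) sv)
    (H : FH W.M Z P I K0 X) {n C0 c : ℕ} {y : St}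
    (hy : Dom P I y)
    (h0 : Rq G W (n + 2) (wrapQ K (qX 0 0 y)) (.ret [X 0 (0, y)]) C0)
    (hX : ∀ z, Dom P I z → z.i = y.i → z.j = y.j →
      Rq G W (n + 1) (wrapQ K (qX 0 0 z)) (.ret [X 0 (0, z)]) c) :
    Cz G W K 4 (n + 3) (arS 0 0 y) [] (.ret [FE P X 0 y])
      (4 + (C0 + 1) + uP P * (c + 1)) := by
  have h8 := H.h8
  have key : ∀ k ∈ hkeys P (X 0 (0, y)) y [0], k.1 = 0 ∧ k.2.1 = 0 ∧ Dom P I k.2.2 ∧
      k.2 ∈ Om P I K0 := by
    intro k hk
    have h1 := hkeys_Om hy (H.top y hy) hk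
    obtain ⟨h2, p, -, h3⟩ := mem_hkeys.1 hk
    rw [List.mem_singleton] at h2
    refine ⟨h2, ?_, (mem_Om.1 h1).2, h1⟩
    rw [h3, h2]
    rfl
  have h := hf_cz (ls := [0]) (y := y) (X := X) (v := X 0 (0, y)) (c := fun _ => c)
    (a := arS 0 0 y) (q0 := qX 0 0 y) hG hE (fun sv => by rw [hph]; rfl)
    (H.arOk (by norm_num) (by omega) (Nat.zero_le _) hy)
    (H.qX_wd hE (by omega) (pair_zero hy)) h0 (H.val 0 (Nat.zero_le _) _ (pair_zero hy))
    (fun k hk => by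
      obtain ⟨e1, e2, h3, -⟩ := key k hk
      obtain ⟨h4, h5⟩ := hkeys_ij hk
      have h6 := hX k.2.2 h3 h4 h5
      obtain ⟨k1, k2, k3⟩ := k
      simp only at e1 e2 h6 ⊢
      subst e1 e2
      exact h6)
    (fun k hk => by
      obtain ⟨e1, -, -, h4⟩ := key k hk
      rw [e1]
      exact H.val 0 (Nat.zero_le _) _ h4)
    (fun k hk => by
      obtain ⟨e1, -, -, h4⟩ := key k hk
      rw [e1]
      exact H.qX_wd hE (by omega) h4)
    (by
      have h1 := H.hZ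
      have h2 : uP P * 1 ≤ uP P * (P.K + 1) := Nat.mul_le_mul_left _ (by omega)
      simp only [List.length_singleton]
      omega)
    (by rw [← FE_zero_eq]; exact H.FE_lt hy)
  rw [← FE_zero_eq] at h
  simpa using h

/-- **F at epoch `e + 1`**: exact cost -/
theorem F_succ_cz (hG : Has G K ph 4) (hE : Env W K Z)
    (hph : ∀ e y sv, ph K 4 (arS e 0 y) sv = phF P (arS e 0 y) sv)
    (H : FH W.M Z P I K0 X) {n C0 e : ℕ}
    (he : e < P.E) {c : ℕ → ℕ} {y : St} (hy : Dom P I y)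
    (h0 : Rq G W (n + 2) (wrapQ K (qF e y)) (.ret [FE P X e y]) C0)
    (hX : ∀ j < P.K, ∀ κ z, (κ, z) ∈ Om P I K0 → z.i = y.i → z.j = y.j →
      Rq G W (n + 1) (wrapQ K (qX (1 + e * P.K + j) κ z)) (.ret [X (1 + e * P.K + j) (κ, z)])
        (c (1 + e * P.K + j))) :
    Cz G W K 4 (n + 3) (arS (e + 1) 0 y) [] (.ret [FE P X (e + 1) y])
      (4 + (C0 + 1) + uP P * ∑ j ∈ Finset.range P.K, (c (1 + e * P.K + j) + 1)) := by
  have h8 := H.h8
  have key : ∀ k ∈ hkeys P (FE P X e y) y (rks P e), (∃ j < P.K, k.1 = 1 + e * P.K + j) ∧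
      k.2 ∈ Om P I K0 := by
    intro k hk
    exact ⟨mem_rks.1 (mem_hkeys.1 hk).1, hkeys_Om hy (H.log_FE hy) hk⟩
  have h := hf_cz (ls := rks P e) (y := y) (X := X) (v := FE P X e y) (c := c)
    (a := arS (e + 1) 0 y) (q0 := qF e y) hG hE (fun sv => by rw [hph]; rfl)
    (H.arOk (by norm_num) (by have := H.hEM; omega) (Nat.zero_le _) hy)
    (H.qF_wd hE (by have := H.hEM; omega) hy) h0 (H.FE_lt hy)
    (fun k hk => by
      obtain ⟨⟨j, hj, e1⟩, h3⟩ := key k hk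
      obtain ⟨h4, h5⟩ := hkeys_ij hk
      rw [e1]
      exact hX j hj k.2.1 k.2.2 h3 h4 h5)
    (fun k hk => by
      obtain ⟨⟨j, hj, e1⟩, h3⟩ := key k hk
      rw [e1]
      exact H.val _ (idx_le he hj) _ h3)
    (fun k hk => by
      obtain ⟨⟨j, hj, e1⟩, h3⟩ := key k hk
      rw [e1]
      exact H.qX_wd hE ((idx_le he hj).trans_lt H.hL) h3)
    (by
      have h1 := H.hZ
      have h2 : uP P * P.K ≤ uP P * (P.K + 1) := Nat.mul_le_mul_left _ (by omega)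
      unfold rks
      rw [List.length_map, List.length_range]
      omega)
    (by rw [← FE_succ_eq]; exact H.FE_lt hy)
  rw [← FE_succ_eq] at h
  have e2 : ((rks P e).map fun l => c l + 1).sum =
      ∑ j ∈ Finset.range P.K, (c (1 + e * P.K + j) + 1) := by
    unfold rks
    rw [List.map_map, ← list_sum_range]
    rfl
  rw [e2] at h
  exact h

/-! ### all states -/

/-- the numbers of index `l` are realised (kind 5 requests) -/
def RX (G : Prg) (W : Wld) (K : KN) (P : Par) (I K0 : ℕ) (X : ℕ → ℕ × St → ℕ) (l n : ℕ)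
    (c : ℕ → ℕ) : Prop := ∀ κ z, (κ, z) ∈ Om P I K0 →
  Rq G W n (wrapQ K (qX l κ z)) (.ret [X l (κ, z)]) (c z.i)

/-- the unit function of epoch `e` is realised -/
def RF (G : Prg) (W : Wld) (K : KN) (P : Par) (I : ℕ) (X : ℕ → ℕ × St → ℕ) (e n : ℕ)
    (c : ℕ → ℕ) : Prop := ∀ y, Dom P I y →
  Cz G W K 4 n (arS e 0 y) [] (.ret [FE P X e y]) (c y.i)

/-- the same as a request -/
theorem RF.rq {e n : ℕ} {c : ℕ → ℕ} (h : RF G W K P I X e n c)
    (hb : ∀ a, G.base (fr K 4 a []) ≤ W.Pm) {y : St} (hy : Dom P I y) :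
    Rq G W n (wrapQ K (qF e y)) (.ret [FE P X e y]) (c y.i) :=
  cal5_ret (h y hy) (hb _)

theorem RX.mono {l n m : ℕ} {c d : ℕ → ℕ} (h : RX G W K P I K0 X l n c) (hn : n ≤ m)
    (hc : ∀ i, c i ≤ d i) : RX G W K P I K0 X l m d :=
  fun κ z hz => (h κ z hz).mono hn (hc _)

theorem RF.mono {e n m : ℕ} {c d : ℕ → ℕ} (h : RF G W K P I X e n c) (hn : n ≤ m)
    (hc : ∀ i, c i ≤ d i) : RF G W K P I X e m d :=
  fun y hy => (h y hy).mono hn (hc _)

/-- **`F_0`**, any fuel and any costs -/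
theorem F_zero_gen (hG : Has G K ph 4) (hE : Env W K Z)
    (hph : ∀ e y sv, ph K 4 (arS e 0 y) sv = phF P (arS e 0 y) sv)
    (H : FH W.M Z P I K0 X) {n m : ℕ} {c d : ℕ → ℕ}
    (hn : n + 2 ≤ m) (hm : 3 ≤ m) (hd : ∀ i ≤ I, 4 + (uP P + 1) * (c i + 1) ≤ d i)
    (hX : RX G W K P I K0 X 0 n c) : RF G W K P I X 0 m d := by
  intro y hy
  obtain ⟨k, rfl⟩ : ∃ k, m = k + 3 := ⟨m - 3, by omega⟩
  have h1 := F_zero_cz (n := k) (C0 := c y.i) (c := c y.i) hG hE hph H hy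
    ((hX 0 y (pair_zero hy)).mono (by omega) le_rfl)
    (fun z hz hi hj => ((hX 0 z (pair_zero hz)).mono (by omega) (by rw [hi])))
  refine h1.mono le_rfl ?_
  have h3 := hd y.i (Dom.i_le hy)
  have h5 : (uP P + 1) * (c y.i + 1) = uP P * (c y.i + 1) + (c y.i + 1) := by ring
  omega

/-- **`F_(e+1)`**, any fuel and any costs -/
theorem F_succ_gen (hG : Has G K ph 4) (hE : Env W K Z)
    (hph : ∀ e y sv, ph K 4 (arS e 0 y) sv = phF P (arS e 0 y) sv)
    (H : FH W.M Z P I K0 X)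
    (hb : ∀ a, G.base (fr K 4 a []) ≤ W.Pm) {e n₀ m : ℕ} {n : ℕ → ℕ} {c₀ d : ℕ → ℕ}
    {c : ℕ → ℕ → ℕ} (he : e < P.E) (hn₀ : n₀ + 1 ≤ m)
    (hn : ∀ j < P.K, n (1 + e * P.K + j) + 2 ≤ m) (hm : 3 ≤ m)
    (hd : ∀ i ≤ I, 4 + (c₀ i + 1) +
      uP P * ∑ j ∈ Finset.range P.K, (c (1 + e * P.K + j) i + 1) ≤ d i)
    (hF : RF G W K P I X e n₀ c₀)
    (hX : ∀ j < P.K, RX G W K P I K0 X (1 + e * P.K + j) (n (1 + e * P.K + j))
      (c (1 + e * P.K + j))) :
    RF G W K P I X (e + 1) m d := by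
  intro y hy
  obtain ⟨k, rfl⟩ : ∃ k, m = k + 3 := ⟨m - 3, by omega⟩
  have h1 := F_succ_cz (n := k) (C0 := c₀ y.i) (c := fun l => c l y.i) hG hE hph H he hy
    ((hF.rq hb hy).mono (by omega) le_rfl)
    (fun j hj κ z hz hi _ => (hX j hj κ z hz).mono (by
      have := hn j hj
      omega) (by rw [hi]))
  exact h1.mono le_rfl (hd y.i (Dom.i_le hy))

/-- **`F_0`** with the costs of 776 -/
theorem F_zero (hG : Has G K ph 4) (hE : Env W K Z)
    (hph : ∀ e y sv, ph K 4 (arS e 0 y) sv = phF P (arS e 0 y) sv)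
    (H : FH W.M Z P I K0 X) {cp : CP} (hcp : cp.Ok)
    (hU : uP P + 1 ≤ cp.U) (ht0 : 4 ≤ cp.t0) (ht1 : 1 ≤ cp.t1) {p : ℕ}
    (hp : 3 ≤ p) (hX : RX G W K P I K0 X 0 (cp.dX p 0) (cp.cX 0)) :
    RF G W K P I X 0 (cp.dF p 0) (cp.cF 0) := by
  intro y hy
  have h1 := F_zero_cz (n := cp.dX p 0) (C0 := cp.cX 0 y.i) (c := cp.cX 0 y.i) hG hE hph H hy
    ((hX 0 y (pair_zero hy)).mono (by omega) le_rfl)
    (fun z hz hi hj => ((hX 0 z (pair_zero hz)).mono (by omega) (by rw [hi])))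
  refine h1.mono ((Nat.add_le_add_left hp _).trans CP.dF0_x) ?_
  have h3 := CP.f0_ok (c := cp) hcp (i := y.i)
  have h4 : (uP P + 1) * (cp.cX 0 y.i + 1) ≤ cp.U * (cp.cX 0 y.i + cp.t1) :=
    Nat.mul_le_mul hU (by omega)
  have h5 : (uP P + 1) * (cp.cX 0 y.i + 1) = uP P * (cp.cX 0 y.i + 1) + (cp.cX 0 y.i + 1) := by
    ring
  omega

/-- **`F_(e+1)`** with the costs of 776 -/
theorem F_succ (hG : Has G K ph 4) (hE : Env W K Z)
    (hph : ∀ e y sv, ph K 4 (arS e 0 y) sv = phF P (arS e 0 y) sv)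
    (H : FH W.M Z P I K0 X)
    (hb : ∀ a, G.base (fr K 4 a []) ≤ W.Pm) {cp : CP} (hcp : cp.Ok) (hK : cp.K = P.K)
    (hU : uP P ≤ cp.U) (ht0 : 4 ≤ cp.t0) (ht1 : 1 ≤ cp.t1) {p e : ℕ}
    (hp : 3 ≤ p) (he : e < P.E) (hF : RF G W K P I X e (cp.dF p e) (cp.cF e))
    (hX : ∀ j < P.K, RX G W K P I K0 X (1 + e * P.K + j) (cp.dX p (1 + e * P.K + j))
      (cp.cX (1 + e * P.K + j))) :
    RF G W K P I X (e + 1) (cp.dF p (e + 1)) (cp.cF (e + 1)) := by
  intro y hy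
  have hpp : 3 ≤ cp.dF p (e + 1) := by
    have := CP.dF_ok (c := cp) hcp (p := p) (e := e)
    omega
  obtain ⟨n, hn⟩ : ∃ n, cp.dF p (e + 1) = n + 3 := ⟨cp.dF p (e + 1) - 3, by omega⟩
  have h1 := F_succ_cz (n := n) (C0 := cp.cF e y.i) (c := fun l => cp.cX l y.i) hG hE hph H he hy
    ((hF.rq hb hy).mono (by have := CP.dF_ok (c := cp) hcp (p := p) (e := e); omega) le_rfl)
    (fun j hj κ z hz hi _ => (hX j hj κ z hz).mono (by
      have := CP.dF_x (c := cp) (p := p) (e := e) (j := j) (by omega)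
      rw [hK] at this
      omega) (by rw [hi]))
  rw [hn]
  refine h1.mono le_rfl ?_
  have h3 := CP.f_ok (c := cp) hcp (e := e) (i := y.i)
  rw [hK] at h3
  have h4 : ∑ j ∈ Finset.range P.K, (cp.cX (1 + e * P.K + j) y.i + 1) ≤
      ∑ j ∈ Finset.range P.K, (cp.cX (1 + e * P.K + j) y.i + cp.t1) :=
    Finset.sum_le_sum fun j _ => by omega
  have h5 := Nat.mul_le_mul hU h4
  omega

end real

end Crest.Agent.R288.PgF380
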