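import Crest.Agent.R288.PgZb_692
import Crest.Agent.R288.PgB_578
import Crest.Agent.R288.LeafO_690

/-!
# R288, [SIZE] part c (helper692): invariants of the calls, words of the requests (letters of PgB_578)

* `kM P I K0 i = K0 + (I - i) (a2 + du)` : bound of the class of an ARR cell at macro height `i`;
* `ArrI`, `BodI` : invariants of the cells of ARR / BODY calls; `ArrI.body`, `BodI.arr`, `ArrI.of_state`,
  `ArrI.of_adm`;
* `Fit P I Lx K0 M` : the numbers fit into words; `arOk_st`, `ArrI.arOk`, `BodI.arOk`;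
* `wd_word`, `wd_leaf`, `wd_st`, `ArrI.wd`, `BodI.wd` : sizes of the requests;
* request lists: `reqs_arr_wd`, `reqs_body_wd`, ...
-/

set_option autoImplicit false

namespace Crest.Agent.R288.PgZ692

open Crest.Agent.R288.Alg45 Crest.Agent.R288.PgA172 Crest.Agent.R288.Cnt308 Crest.Agent.R288.Dom20
open Crest.Agent.R288.Pgb578
open Crest.Agent.R288.PrK690 (KN)
open Crest.Agent.R288.Phe940 (Wld)

variable {P : Par}

/-! ## Invariants of the calls -/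

/-- bound of the class of a cell of an ARR call at macro height `i` -/
def kM (P : Par) (I K0 i : ℕ) : ℕ := K0 + (I - i) * (P.a2 + P.du)

theorem kM_le (I K0 i : ℕ) : kM P I K0 i ≤ K0 + I * (P.a2 + P.du) :=
  Nat.add_le_add_left (Nat.mul_le_mul_right _ (Nat.sub_le _ _)) _

theorem kM_pred {I K0 i : ℕ} (h1 : 1 ≤ i) (h2 : i ≤ I) :
    kM P I K0 (i - 1) = kM P I K0 i + (P.a2 + P.du) := by
  unfold kM
  rw [show I - (i - 1) = I - i + 1 by omega]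
  ring

/-- cells of ARR calls -/
structure ArrI (P : Par) (I K0 : ℕ) (c : Cel) : Prop where
  nd : Nd P I c.i c.j
  m : ArrC P c
  κ : c.κ ≤ kM P I K0 c.i

/-- cells of BODY calls -/
structure BodI (P : Par) (I K0 : ℕ) (c : Cel) : Prop where
  nd : Nd P I c.i c.j
  m : BodC P c
  κ : c.κ ≤ kM P I K0 c.i + P.a2

theorem BodI.m' {I K0 : ℕ} {c : Cel} (h : BodI P I K0 c) : c.m.natAbs ≤ mA P := arrC_of_bodC h.m

/-- the cells of the body calls of a jump -/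
theorem ArrI.body {I K0 : ℕ} {c c' : Cel} (h : ArrI P I K0 c) (hc : c' ∈ Delta222.abod P c) :
    BodI P I K0 c' := by
  obtain ⟨h1, h2, -, h4, h5⟩ := abod_mem hc
  refine ⟨?_, h5, ?_⟩
  · rw [h1, h2]; exact h.nd
  · rw [h1]; exact h4.trans (Nat.add_le_add_right h.κ _)

/-- the cells of the requests of a window -/
theorem BodI.arr {I K0 : ℕ} {c : Cel} (h : BodI P I K0 c) (hi : 1 ≤ c.i) {ρ : ℕ → ℕ → ℕ} {key : Key}
    (hk : key ∈ bkeys P c.κ c.m ρ) :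
    ArrI P I K0 ⟨c.i - 1, P.N * c.j + key.q, key.κ, key.m⟩ := by
  have h1 := bkeys_mem hk
  refine ⟨h.nd.child hi h1.1, bkeys_arrC h.m hk _ _, ?_⟩
  show key.κ ≤ kM P I K0 (c.i - 1)
  rw [kM_pred hi h.nd.1]
  have h2 := h.κ
  have h3 := h1.2.2.1
  omega

theorem nd_of {I : ℕ} {y : St} (h : InD P.N I P.Dm y) : Nd P I y.i y.j := ⟨h.1, h.2.1⟩

/-- the cell of a state of the domain -/
theorem ArrI.of_state {I K0 κ : ℕ} {z : St} (hz : InD P.N I P.Dm z) (hκ : κ ≤ K0) :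
    ArrI P I K0 (celOf κ z) :=
  ⟨nd_of hz, arrC_celOf hz.2.2.1, hκ.trans (Nat.le_add_right _ _)⟩

theorem ArrI.of_OmP (hN : 0 < P.N) {I K0 : ℕ} {s : ℕ × St} (h : s ∈ OmP P.N I P.Dm K0) :
    ArrI P I K0 (celOf s.1 s.2) :=
  have h1 := (mem_OmP hN).1 h
  ArrI.of_state h1.2 h1.1

/-! ## The numbers fit into words -/

/-- the numbers of the run fit into words `< M`: `Lx` = largest index / epoch -/
structure Fit (P : Par) (I Lx K0 M : ℕ) : Prop where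
  mA : mA P < M
  N0 : 0 < P.N
  nd : P.N ^ I < M
  ht : I < M
  lx : Lx < M
  κ : K0 + I * (P.a2 + P.du) + P.a2 < M
  tg : 8 ≤ M

section fit

variable {I Lx K0 M : ℕ}

theorem Fit.dm (h : Fit P I Lx K0 M) : P.Dm < M := by
  have := h.mA; unfold PgZ692.mA at this; omega

theorem box_natAbs {u : ℤ} (h : -(P.Dm : ℤ) ≤ u ∧ u ≤ P.Dm) : u.natAbs ≤ P.Dm := by omega

/-- arguments: a state of the domain -/
theorem arOk_st (hF : Fit P I Lx K0 M) {tg l κ : ℕ} (ht : tg < 8) (hl : l ≤ Lx) (hκ : κ ≤ K0) {y : St}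
    (hy : InD P.N I P.Dm y) : ArOk M tg (l, κ, y.i, y.j, y.u, y.v) where
  tg := by have := hF.tg; omega
  a1 := by have := hF.lx; show l < M; omega
  a2 := by have := hF.κ; show κ < M; omega
  a3 := by have := hF.ht; have := hy.1; show y.i < M; omega
  a4 := by
    have := hF.nd
    have h1 := (nd_of (P := P) hy).j_lt hF.N0
    show y.j < M; omega
  a5 := by have := hF.dm; have := box_natAbs hy.2.2.1; show y.u.natAbs < M; omega
  a6 := by have := hF.dm; have := box_natAbs hy.2.2.2; show y.v.natAbs < M; omega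

theorem arOk_cel (hF : Fit P I Lx K0 M) {tg l : ℕ} (ht : tg < 8) (hl : l ≤ Lx) {c : Cel}
    (h1 : Nd P I c.i c.j) (h2 : c.m.natAbs ≤ mA P) (h3 : c.κ ≤ kM P I K0 c.i + P.a2) :
    ArOk M tg (l, c.κ, c.i, c.j, c.m, 0) where
  tg := by have := hF.tg; omega
  a1 := by have := hF.lx; show l < M; omega
  a2 := by have := hF.κ; have := kM_le (P := P) I K0 c.i; show c.κ < M; omega
  a3 := by have := hF.ht; have := h1.1; show c.i < M; omega
  a4 := by have := hF.nd; have := h1.j_lt hF.N0; show c.j < M; omega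
  a5 := by have := hF.mA; show c.m.natAbs < M; omega
  a6 := by have := hF.tg; show (0 : ℤ).natAbs < M; rw [Int.natAbs_zero]; omega

theorem ArrI.arOk (hF : Fit P I Lx K0 M) {tg l : ℕ} (ht : tg < 8) (hl : l ≤ Lx) {c : Cel}
    (h : ArrI P I K0 c) : ArOk M tg (l, c.κ, c.i, c.j, c.m, 0) :=
  arOk_cel hF ht hl h.nd h.m (h.κ.trans (Nat.le_add_right _ _))

theorem BodI.arOk (hF : Fit P I Lx K0 M) {tg l : ℕ} (ht : tg < 8) (hl : l ≤ Lx) {c : Cel}
    (h : BodI P I K0 c) : ArOk M tg (l, c.κ, c.i, c.j, c.m, 0) :=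
  arOk_cel hF ht hl h.nd h.m' h.κ

end fit

/-! ## Sizes of the requests -/

section wd

variable {I Lx K0 Z : ℕ} {W : Wld} {K : KN}

theorem wd_word (hE : Env W K Z) : Wd W.M Z [0] := by
  have h1 := hE.Z8
  have h2 := hE.num
  have h3 := hE.SM
  refine ⟨by simp only [List.length_cons, List.length_nil]; omega, fun x hx => ?_⟩
  rw [List.mem_singleton] at hx
  omega

/-- the leaf command -/
theorem wd_leaf (hE : Env W K Z) {n m k Lam : ℕ} (hn : n < W.M) (hm : m < W.M) (hL : Lam < W.M)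
    (s : St) : Wd W.M Z (3 :: LeafO690.leafArg n m k Lam s) := by
  have h1 := hE.Z8
  have h2 := hE.num
  have h3 := hE.SM
  refine ⟨?_, fun x hx => ?_⟩
  · rw [List.length_cons, LeafO690.leafArg_length]; omega
  · rcases List.mem_cons.1 hx with rfl | hx
    · omega
    · exact LeafO690.leafArg_lt hn hm hL x hx

/-- calls at a state of the domain: X, F, U, H -/
theorem wd_st (hE : Env W K Z) (hZ : 12 ≤ Z) (hF : Fit P I Lx K0 W.M) {kd tg l κ : ℕ} (hk : kd ≤ 5)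
    (ht : tg < 8) (hl : l ≤ Lx) (hκ : κ ≤ K0) {y : St} (hy : InD P.N I P.Dm y) :
    Wd W.M Z (cal kd tg (l, κ, y.i, y.j, y.u, y.v)) := cal_wd hE hZ hk (arOk_st hF ht hl hκ hy)

/-- ARR calls -/
theorem ArrI.wd (hE : Env W K Z) (hZ : 12 ≤ Z) (hF : Fit P I Lx K0 W.M) {kd tg l : ℕ} (hk : kd ≤ 5)
    (ht : tg < 8) (hl : l ≤ Lx) {c : Cel} (h : ArrI P I K0 c) :
    Wd W.M Z (cal kd tg (l, c.κ, c.i, c.j, c.m, 0)) := cal_wd hE hZ hk (h.arOk hF ht hl)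

/-- BODY calls -/
theorem BodI.wd (hE : Env W K Z) (hZ : 12 ≤ Z) (hF : Fit P I Lx K0 W.M) {kd tg l : ℕ} (hk : kd ≤ 5)
    (ht : tg < 8) (hl : l ≤ Lx) {c : Cel} (h : BodI P I K0 c) :
    Wd W.M Z (cal kd tg (l, c.κ, c.i, c.j, c.m, 0)) := cal_wd hE hZ hk (h.arOk hF ht hl)

/-- the request lists of the procedures, one statement per list: every request is `Wd` -/
theorem wd_abod (hE : Env W K Z) (hZ : 12 ≤ Z) (hF : Fit P I Lx K0 W.M) {kd tg l : ℕ} (hk : kd ≤ 5)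
    (ht : tg < 8) (hl : l ≤ Lx) {c : Cel} (h : ArrI P I K0 c) :
    ∀ q ∈ (Delta222.abod P c).map (fun c' => cal kd tg (l, c'.κ, c'.i, c'.j, c'.m, 0)), Wd W.M Z q := by
  intro q hq
  obtain ⟨c', hc, rfl⟩ := List.mem_map.1 hq
  exact (h.body hc).wd hE hZ hF hk ht hl

theorem wd_csts (hE : Env W K Z) (hZ : 12 ≤ Z) (hF : Fit P I Lx K0 W.M) {kd tg l κ : ℕ} (hk : kd ≤ 5)
    (ht : tg < 8) (hl : l ≤ Lx) (hκ : κ ≤ K0) {c : Cel} (h : Nd P I c.i c.j) :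
    ∀ q ∈ (Delta222.csts P c).map (fun y => cal kd tg (l, κ, y.i, y.j, y.u, y.v)), Wd W.M Z q := by
  intro q hq
  obtain ⟨y, hy, rfl⟩ := List.mem_map.1 hq
  exact wd_st hE hZ hF hk ht hl hκ (csts_InD h hy)

theorem wd_bkeys (hE : Env W K Z) (hZ : 12 ≤ Z) (hF : Fit P I Lx K0 W.M) {kd tg l : ℕ} (hk : kd ≤ 5)
    (ht : tg < 8) (hl : l ≤ Lx) {c : Cel} (h : BodI P I K0 c) (hi : 1 ≤ c.i) (ρ : ℕ → ℕ → ℕ) :
    ∀ q ∈ (bkeys P c.κ c.m ρ).map
      (fun key => cal kd tg (l, key.κ, c.i - 1, P.N * c.j + key.q, key.m, 0)), Wd W.M Z q := by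
  intro q hq
  obtain ⟨key, hk', rfl⟩ := List.mem_map.1 hq
  exact (h.arr hi hk').wd hE hZ hF hk ht hl

theorem wd_bst (hE : Env W K Z) (hZ : 12 ≤ Z) (hF : Fit P I Lx K0 W.M) (hr : 1 ≤ P.r)
    {kd tg l κ : ℕ} (hk : kd ≤ 5) (ht : tg < 8) (hl : l ≤ Lx) (hκ : κ ≤ K0) {c : Cel}
    (h : Nd P I c.i c.j) (hi : 1 ≤ c.i) :
    ∀ q ∈ (bst P c).map (fun y => cal kd tg (l, κ, y.i, y.j, y.u, y.v)), Wd W.M Z q := by
  intro q hq
  obtain ⟨y, hy, rfl⟩ := List.mem_map.1 hq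
  exact wd_st hE hZ hF hk ht hl hκ (bst_InD hr h hi hy)

/-- the pairs read by a body table, ranks `i < k` of the epoch of the index `l` -/
theorem wd_bpr (hE : Env W K Z) (hZ : 12 ≤ Z) (hF : Fit P I Lx K0 W.M) (hr : 1 ≤ P.r)
    {kd tg k K1 : ℕ} {ix : ℕ → ℕ} (hk : kd ≤ 5) (ht : tg < 8) (hl : ∀ i < k, ix i ≤ Lx)
    {F : St → ℕ} (hC : ClsOk P I K1 F) (h01 : K1 + P.a2 ≤ K0) {c : Cel}
    (h : Nd P I c.i c.j) (hi : 1 ≤ c.i) :
    ∀ q ∈ (rpr k (bpr P F c)).map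
      (fun s => cal kd tg (ix s.1, s.2.1, s.2.2.i, s.2.2.j, s.2.2.u, s.2.2.v)), Wd W.M Z q := by
  intro q hq
  obtain ⟨s, hs, rfl⟩ := List.mem_map.1 hq
  obtain ⟨h1, h2⟩ := mem_rpr' hs
  obtain ⟨h3, h4⟩ := bpr_dom hr hC h hi h2
  exact wd_st hE hZ hF hk ht (hl _ h1) (by omega) h4

/-- the pairs read by a hull -/
theorem wd_hmenu (hE : Env W K Z) (hZ : 12 ≤ Z) (hF : Fit P I Lx K0 W.M)
    {kd tg k K1 : ℕ} {ix : ℕ → ℕ} (hk : kd ≤ 5) (ht : tg < 8) (hl : ∀ i < k, ix i ≤ Lx)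
    {F : St → ℕ} (h01 : K1 + P.a2 ≤ K0) {y : St} (hC : cls F y ≤ K1) (hy : InD P.N I P.Dm y) :
    ∀ q ∈ (rpr k (hmenu P F y)).map
      (fun s => cal kd tg (ix s.1, s.2.1, s.2.2.i, s.2.2.j, s.2.2.u, s.2.2.v)), Wd W.M Z q := by
  intro q hq
  obtain ⟨s, hs, rfl⟩ := List.mem_map.1 hq
  obtain ⟨h1, h2⟩ := mem_rpr' hs
  obtain ⟨h3, h4⟩ := hmenu_dom hy h2
  exact wd_st hE hZ hF hk ht (hl _ h1) (by omega) h4

end wd

end Crest.Agent.R288.PgZ692
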