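import Crest.Agent.R288.PgZ_692

/-!
# R288, [SIZE] part d (helper692): all counts below `ZP P`, and `ZP P ≤ 2 ^ (..)`

* `abod_ZP`, `abod_csts_ZP`, `bkeys_ZP`, `words_ZP`, `lanes_ZP`, `bst_ZP`, `bst_cells_ZP`, `bpr_ZP`, `rpr_bpr_ZP`,
  `hmenu_ZP`, `rpr_hmenu_ZP`, `csz_ZP`;
* `SzE` : exponents of the parameters; **`ZP_le_two_pow`**.
-/

set_option autoImplicit false

namespace Crest.Agent.R288.PgZ692

open Crest.Agent.R288.Alg45 Crest.Agent.R288.PgA172 Crest.Agent.R288.Cnt308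

variable (P : Par)

/-! ## Counts below `ZP` -/

theorem abod_csts_ZP (c : Cel) : (Delta222.abod P c).length + csz P c.κ ≤ ZP P := by
  have h1 := abod_len P c
  have h2 := csz_le P c.κ
  unfold ZP
  omega

theorem abod_ZP (c : Cel) : (Delta222.abod P c).length ≤ ZP P := by
  have := abod_csts_ZP P c; omega

theorem csz_ZP (κ : ℕ) : csz P κ ≤ ZP P := by
  have := csz_le P κ; unfold ZP; omega

theorem csts2_ZP (c : Cel) : csz P c.κ + csz P c.κ ≤ 2 * ZP P := by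
  have := csz_ZP P c.κ; omega

theorem bkeys_ZP (κ : ℕ) (m : ℤ) (ρ : ℕ → ℕ → ℕ) : (bkeys P κ m ρ).length ≤ ZP P := by
  have := bkeys_len P κ m ρ; unfold ZP; omega

theorem words_ZP : P.N * (P.dl + P.du + 1) ≤ ZP P := by
  show nD P ≤ ZP P
  unfold ZP; omega

theorem lanes_ZP : P.gX * P.mX ≤ ZP P := by unfold ZP; omega

theorem bst_cells_ZP (c : Cel) : (bst P c).length + csz P c.κ ≤ ZP P := by
  have h1 := bst_len P c
  have h2 := csz_le P c.κ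
  unfold ZP nS
  omega

theorem bst_ZP (c : Cel) : (bst P c).length ≤ ZP P := by
  have := bst_cells_ZP P c; omega

theorem rpr_bpr_ZP {k : ℕ} (hk : k ≤ P.K) (F : St → ℕ) (c : Cel) :
    (rpr k (bpr P F c)).length ≤ ZP P := by
  rw [rpr_len]
  have h1 := bpr_len P F c
  have h2 : k * (bpr P F c).length ≤ (P.K + 1) * nQ P := Nat.mul_le_mul (by omega) h1
  unfold ZP
  omega

theorem bpr_ZP (F : St → ℕ) (c : Cel) : (bpr P F c).length ≤ ZP P := by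
  have h1 := bpr_len P F c
  have h2 : nQ P ≤ (P.K + 1) * nQ P := Nat.le_mul_of_pos_left _ (by omega)
  unfold ZP nQ at *
  omega

theorem rpr_hmenu_ZP {k : ℕ} (hk : k ≤ P.K) (F : St → ℕ) (y : St) :
    (rpr k (hmenu P F y)).length ≤ ZP P := by
  rw [rpr_len]
  have h1 := hmenu_len P F y
  have h2 : k * (hmenu P F y).length ≤ (P.K + 1) * nH P := Nat.mul_le_mul (by omega) h1
  unfold ZP
  omega

theorem hmenu_ZP (F : St → ℕ) (y : St) : (hmenu P F y).length ≤ ZP P := by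
  have h1 := hmenu_len P F y
  have h2 : nH P ≤ (P.K + 1) * nH P := Nat.le_mul_of_pos_left _ (by omega)
  unfold ZP
  omega

theorem ZP_pos : 0 < ZP P := by unfold ZP; omega

/-! ## The exponent -/

/-- exponents of the parameters: `r ≤ 2^ρ`, the numbers of classes `≤ 2^s`, `K + 1 ≤ 2^kk`,
`gJ mJ + 1 ≤ 2^j`, `gX mX ≤ 2^x` -/
structure SzE (ρ s kk j x : ℕ) : Prop where
  r : P.r ≤ 2 ^ ρ
  s1 : P.al + P.a2 + 1 ≤ 2 ^ s
  s2 : P.dl + P.du + 1 ≤ 2 ^ s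
  s3 : P.a1 + P.a2 + 1 ≤ 2 ^ s
  kk : P.K + 1 ≤ 2 ^ kk
  j : P.gJ * P.mJ + 1 ≤ 2 ^ j
  x : P.gX * P.mX ≤ 2 ^ x

variable {P} {ρ s kk j x : ℕ}

theorem two_le {a b : ℕ} (h : a ≤ b) : 2 ^ a ≤ 2 ^ b := Nat.pow_le_pow_right (by norm_num) h

theorem SzE.r4 (h : SzE P ρ s kk j x) : 2 * P.r + 4 ≤ 2 ^ (ρ + 3) := by
  have h1 := h.r
  have h2 : 1 ≤ 2 ^ ρ := Nat.one_le_two_pow
  have h3 : 2 ^ (ρ + 3) = 8 * 2 ^ ρ := by ring
  omega

theorem nB_le (h : SzE P ρ s kk j x) : nB P ≤ 2 ^ (P.n + s + (ρ + 3) + (P.c0 + P.du)) := by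
  unfold nB Alg45.Par.N
  calc 2 ^ P.n * ((P.dl + P.du + 1) * ((2 * P.r + 4) * 2 ^ (P.c0 + P.du)))
      ≤ 2 ^ P.n * (2 ^ s * (2 ^ (ρ + 3) * 2 ^ (P.c0 + P.du))) :=
        Nat.mul_le_mul_left _ (Nat.mul_le_mul h.s2 (Nat.mul_le_mul_right _ h.r4))
    _ = 2 ^ (P.n + s + (ρ + 3) + (P.c0 + P.du)) := by rw [← pow_add, ← pow_add, ← pow_add]; ring_nf

theorem nJ_le (h : SzE P ρ s kk j x) : nJ P ≤ 2 ^ (s + (ρ + 3) + P.a1) := by
  unfold nJ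
  have h1 : (2 * P.r + 1) * 2 ^ P.a1 + 2 ≤ (2 * P.r + 4) * 2 ^ P.a1 := by
    have : 1 ≤ 2 ^ P.a1 := Nat.one_le_two_pow
    nlinarith
  calc (P.a1 + P.a2 + 1) * ((2 * P.r + 1) * 2 ^ P.a1 + 2)
      ≤ 2 ^ s * (2 ^ (ρ + 3) * 2 ^ P.a1) :=
        Nat.mul_le_mul h.s3 (h1.trans (Nat.mul_le_mul_right _ h.r4))
    _ = 2 ^ (s + (ρ + 3) + P.a1) := by rw [← pow_add, ← pow_add]; ring_nf

theorem nA_le (h : SzE P ρ s kk j x) : nA P ≤ 2 ^ (s + (ρ + 3) + P.a1 + j) := by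
  unfold nA
  rw [pow_add _ (s + (ρ + 3) + P.a1) j]
  exact Nat.mul_le_mul (nJ_le h) h.j

theorem nD_le (h : SzE P ρ s kk j x) : nD P ≤ 2 ^ (P.n + s) := by
  unfold nD Alg45.Par.N
  rw [pow_add]
  exact Nat.mul_le_mul_left _ h.s2

theorem nW_le (h : SzE P ρ s kk j x) : nW P ≤ 2 ^ (ρ + 3 + P.pb) := by
  unfold nW
  rw [pow_add _ (ρ + 3)]
  have h1 := h.r4
  have h2 : 1 ≤ 2 ^ P.pb := Nat.one_le_two_pow
  have h3 : 2 * P.r * 2 ^ P.pb + 1 ≤ (2 * P.r + 4) * 2 ^ P.pb := by nlinarith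
  exact h3.trans (Nat.mul_le_mul_right _ h1)

theorem nT_le : nT P ≤ 2 ^ (2 * P.pb + 5) := by
  unfold nT
  have h2 : 1 ≤ 2 ^ P.pb := Nat.one_le_two_pow
  have h3 : 2 ^ (2 * P.pb + 5) = 2 ^ P.pb * (32 * 2 ^ P.pb) := by ring
  rw [h3]
  exact Nat.mul_le_mul_left _ (by omega)

theorem nP_le (h : SzE P ρ s kk j x) : nP P ≤ 2 ^ (P.n + 2 * (ρ + 3 + P.pb)) := by
  unfold nP Alg45.Par.N
  rw [pow_add, pow_mul']
  exact Nat.mul_le_mul_left _ (Nat.pow_le_pow_left (nW_le h) 2)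

theorem nH_le (h : SzE P ρ s kk j x) : nH P ≤ 2 ^ (s + 2 * (P.al + P.pb + 4)) := by
  unfold nH
  rw [pow_add _ s, pow_mul']
  refine Nat.mul_le_mul h.s1 (Nat.pow_le_pow_left ?_ 2)
  have h1 : 1 ≤ 2 ^ (P.al + P.pb) := Nat.one_le_two_pow
  have h2 : 2 ^ (P.al + P.pb + 2) = 4 * 2 ^ (P.al + P.pb) := by ring
  have h3 : 2 ^ (P.al + P.pb + 4) = 16 * 2 ^ (P.al + P.pb) := by ring
  omega

theorem succ_le_two {a n : ℕ} (h : a ≤ 2 ^ n) : a + 1 ≤ 2 ^ (n + 1) := by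
  have : 1 ≤ 2 ^ n := Nat.one_le_two_pow
  rw [pow_succ]; omega

theorem nS_le (h : SzE P ρ s kk j x) :
    nS P ≤ 2 ^ ((2 * P.pb + 5) + (P.n + 2 * (ρ + 3 + P.pb) + 1)) := by
  unfold nS
  rw [pow_add _ (2 * P.pb + 5)]
  exact Nat.mul_le_mul nT_le (succ_le_two (nP_le h))

theorem nQ_le (h : SzE P ρ s kk j x) :
    nQ P ≤ 2 ^ ((2 * P.pb + 5) + ((P.n + 2 * (ρ + 3 + P.pb)) + (s + 2 * (P.al + P.pb + 4) + 1))) := by
  unfold nQ
  rw [pow_add _ (2 * P.pb + 5), pow_add _ (P.n + 2 * (ρ + 3 + P.pb))]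
  exact Nat.mul_le_mul nT_le (Nat.mul_le_mul (nP_le h) (succ_le_two (nH_le h)))

/-- the exponent of `ZP` -/
def eZ (P : Par) (ρ s kk j x : ℕ) : ℕ :=
  P.n + s + 3 * ρ + P.c0 + P.du + P.a1 + j + x + kk + 6 * P.pb + 2 * P.al + 40

/-- **closed form** -/
theorem ZP_le_two_pow (h : SzE P ρ s kk j x) : ZP P ≤ 2 ^ eZ P ρ s kk j x := by
  set E := P.n + s + 3 * ρ + P.c0 + P.du + P.a1 + j + x + kk + 6 * P.pb + 2 * P.al + 36 with hE
  have e1 : 2 ^ eZ P ρ s kk j x = 16 * 2 ^ E := by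
    rw [show eZ P ρ s kk j x = E + 4 by rw [hE]; unfold eZ; ring, pow_add]; ring
  have a1 : nA P ≤ 2 ^ E := (nA_le h).trans (two_le (by omega))
  have a2 : nB P ≤ 2 ^ E := (nB_le h).trans (two_le (by omega))
  have a3 : nD P ≤ 2 ^ E := (nD_le h).trans (two_le (by omega))
  have a4 : P.gX * P.mX ≤ 2 ^ E := h.x.trans (two_le (by omega))
  have a5 : nS P ≤ 2 ^ E := (nS_le h).trans (two_le (by omega))
  have a6 : (P.K + 1) * nQ P ≤ 2 ^ E := by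
    refine (Nat.mul_le_mul h.kk (nQ_le h)).trans ?_
    rw [← pow_add]
    exact two_le (by omega)
  have a7 : (P.K + 1) * nH P ≤ 2 ^ E := by
    refine (Nat.mul_le_mul h.kk (nH_le h)).trans ?_
    rw [← pow_add]
    exact two_le (by omega)
  have a8 : nT P ≤ 2 ^ E := nT_le.trans (two_le (by omega))
  have a9 : 1 ≤ 2 ^ E := Nat.one_le_two_pow
  rw [e1]
  unfold ZP
  omega

end Crest.Agent.R288.PgZ692
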