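import Crest.Agent.R288.ArrC_222
import Crest.Agent.R288.PgZc_692
import Crest.Agent.R288.PgZd_692
import Crest.Agent.R288.CpU_776
import Crest.Agent.R288.PgG_380

/-!
# R288, [PROG] procedure ARR (helper222): the induction step, with the domains of 692 and the costs
of 776

* `RA`, `RB` : the arrival / body tables of the index `l` at macro height `i` are realised, on the
  cells of `ArrI` / `BodI`;
* **`arr_zero`** : `RA l 0` from `RF e`; **`arr_succ`** : `RA l (i+1)` from `RF e` and `RB l (i+1)`,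
  `l = 1 + e K + k`.
-/

set_option autoImplicit false

namespace Crest.Agent.R288.Delta222

open Crest.Agent.R295.Rnd627 Crest.Agent.R288.Alg45 Crest.Agent.R288.PrK690
  Crest.Agent.R288.Pgb578 Crest.Agent.R288.PgY583 Crest.Agent.R288.PgZ692
  Crest.Agent.R288.PgF380 Crest.Agent.R288.CpU776 Crest.Agent.R288.Dom20
open Crest.Agent.R288.Phe940 (Prg Wld)
open Crest.Agent.R288.Pg7776 (CP)

/-- arrival tables of the index `l`, macro height `i` -/
def RA (G : Prg) (W : Wld) (K : KN) (P : Par) (I K0 : ℕ) (leaf : St → Option ℕ) (F : St → ℕ)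
    (X : ℕ → ℕ → St → ℕ) (k l i n c : ℕ) : Prop :=
  ∀ x : Cel, ArrI P I K0 x → x.i = i → Cz G W K 5 n (arC l x) [] (arrT P leaf F X k i x) c

/-- body tables of the index `l`, macro height `i` -/
def RB (G : Prg) (W : Wld) (K : KN) (P : Par) (I K0 : ℕ) (leaf : St → Option ℕ) (F : St → ℕ)
    (X : ℕ → ℕ → St → ℕ) (k l i n c : ℕ) : Prop :=
  ∀ x : Cel, BodI P I K0 x → x.i = i → Cz G W K 6 n (arC l x) []
    (bodyT P leaf F X k (arrT P leaf F X k (i - 1)) x) c

section step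

variable {G : Prg} {W : Wld} {K : KN} {Z : ℕ} {ph : Ph} {P : Par} {I Lx K0 : ℕ}
  {la : St → List ℕ} {lf : ℕ → St → Option ℕ} {leaf : St → Option ℕ} {g : St → ℕ}
  {Xh : ℕ → ℕ × St → ℕ} {X : ℕ → ℕ → St → ℕ}

theorem epoch_of {K e k : ℕ} (hk : k < K) : (1 + e * K + k - 1) / K = e := by
  have h : 1 + e * K + k - 1 = k + e * K := by omega
  rw [h, Nat.add_mul_div_right _ _ (by omega), Nat.div_eq_of_lt hk, Nat.zero_add]

theorem two_csz_ZP (c : Cel) : csz P c.κ + csz P c.κ ≤ ZP P := by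
  have h1 := csz_le P c.κ
  have h2 : nT P ≤ nS P := by
    unfold nS
    exact Nat.le_mul_of_pos_right _ (Nat.succ_pos _)
  unfold ZP
  omega

theorem dom_csts {c : Cel} (h : Nd P I c.i c.j) {y : St} (hy : y ∈ csts P c) : Dom P I y :=
  csts_InD h hy

/-- **ARR at a positive macro height**: the step -/
theorem arr_succ (hG : Has G K ph 5) (hE : Env W K Z) (hN : 0 < W.N) (hZ : 12 ≤ Z)
    (hph : ∀ (l : ℕ) (c : Cel), ArrI P I K0 c → ∀ sv : Pgb578.Svd,
      ph K 5 (arC l c) sv = phA P la lf (arC l c) sv)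
    (hb : ∀ a, G.base (fr K 4 a []) ≤ W.Pm) (hF : Fit P I Lx K0 W.M) (hZP : ZP P ≤ Z)
    {Zc t0 lc H b0 p e k i : ℕ} (hk : k < P.K) (hZc : ZP P ≤ Zc) (ht0 : 2 ≤ t0) (hp : 2 ≤ p)
    (hl : 1 + e * P.K + k ≤ Lx)
    (hRF : RF G W K P I Xh e ((cpOf P Zc t0 lc H b0).dF p e) ((cpOf P Zc t0 lc H b0).cF e))
    (hRB : RB G W K P I K0 leaf (FE P Xh e) X k (1 + e * P.K + k) (i + 1)
      ((cpOf P Zc t0 lc H b0).dBody p (1 + e * P.K + k) (i + 1))
      ((cpOf P Zc t0 lc H b0).cBody (1 + e * P.K + k) (i + 1)))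
    (vB : ∀ x, BodI P I K0 x → x.i = i + 1 →
      (bodyT P leaf (FE P Xh e) X k (arrT P leaf (FE P Xh e) X k i) x).All W.N (Wd W.M Z))
    (vA : ∀ x, ArrI P I K0 x → x.i = i + 1 →
      (arrT P leaf (FE P Xh e) X k (i + 1) x).All W.N (Wd W.M Z))
    (vF : ∀ y, Dom P I y → FE P Xh e y < W.M) :
    RA G W K P I K0 leaf (FE P Xh e) X k (1 + e * P.K + k) (i + 1)
      ((cpOf P Zc t0 lc H b0).dArr p (1 + e * P.K + k) (i + 1))
      ((cpOf P Zc t0 lc H b0).cArr (1 + e * P.K + k) (i + 1)) := by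
  intro c hc hi
  have hK : 1 ≤ P.K := by omega
  set cc := cpOf P Zc t0 lc H b0 with hcc
  set l := 1 + e * P.K + k with hle
  have hel : (l - 1) / P.K = e := epoch_of hk
  have hci : c.i ≠ 0 := by omega
  have d1 : cc.dBody p l (i + 1) + p ≤ cc.dArr p l (i + 1) := CP.dArr_ok
  have d2 : cc.dF p e ≤ cc.dLow p l := CP.dF_le_low (c := cc) (p := p) (e := e) (k := k)
  have d3 : cc.dLow p l + p ≤ cc.dArr p l (i + 1) := CP.dArr_low
  obtain ⟨n, hn⟩ : ∃ n, cc.dArr p l (i + 1) = n + 2 := ⟨cc.dArr p l (i + 1) - 2, by omega⟩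
  have hyD : ∀ y ∈ csts P c, Dom P I y ∧ y.i = i + 1 := fun y hy =>
    ⟨dom_csts hc.nd hy, by
      obtain ⟨t, -, rfl⟩ := List.mem_map.1 hy
      exact hi⟩
  have hcost : (abod P c).length * (cc.cBody l (i + 1) + 1) +
      (csts P c).length * (cc.cF e (i + 1) + 1) + 2 ≤ cc.cArr l (i + 1) := by
    have h1 := arr_req (P := P) (Z := Zc) (t0 := t0) (lf := lc) (H := H) (b0 := b0) hK (e := e)
      (k := k) (i := i) (n := (abod P c).length) (m := (csts P c).length) (abod_len P c)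
      (by rw [csts_length]; exact (csz_ZP P c.κ).trans hZc)
    rw [← hcc, ← hle] at h1
    omega
  have key := phA_cz_pos (n := n) (l := l) (k := k) (leaf := leaf) (X := X) (F := FE P Xh e) hG hE
    hN hZ (hph l c hc) hci (CB := cc.cBody l (i + 1)) (CF := cc.cF e (i + 1))
    (fun c' hc' => by
      have h1 := hRB c' (hc.body hc') ((mem_abod P hc').1.trans hi)
      rw [Nat.add_sub_cancel] at h1
      rw [show c.i - 1 = i by omega]
      exact h1.mono (by omega) le_rfl)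
    (fun y hy => by
      rw [hel]
      obtain ⟨h1, h2⟩ := hyD y hy
      have h3 := hRF y h1
      rw [h2] at h3
      exact h3.mono (by omega) le_rfl)
    (fun y _ => hb _)
    (fun c' hc' => by
      rw [show c.i - 1 = i by omega]
      exact vB c' (hc.body hc') ((mem_abod P hc').1.trans hi))
    (fun y hy => vF y (hyD y hy).1)
    (hc.arOk hF (by norm_num) hl)
    (fun c' hc' => (hc.body hc').arOk hF (by norm_num) hl)
    (fun y hy => arOk_st hF (by norm_num) (by
      rw [hel]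
      have : e ≤ e * P.K := Nat.le_mul_of_pos_right _ hK
      omega) (Nat.zero_le _) (hyD y hy).1)
    (by
      rw [csts_length]
      exact (abod_csts_ZP P c).trans hZP)
    (by
      rw [hi]
      exact vA c hc hi)
  rw [hn]
  rw [hi] at key
  exact key.mono le_rfl hcost

/-- **ARR at macro height `0`**: the step -/
theorem arr_zero (hG : Has G K ph 5) (hE : Env W K Z) (hN : 0 < W.N) (hZ : 12 ≤ Z)
    (hph : ∀ (l : ℕ) (c : Cel), ArrI P I K0 c → ∀ sv : Pgb578.Svd,
      ph K 5 (arC l c) sv = phA P la lf (arC l c) sv)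
    (hb : ∀ a, G.base (fr K 4 a []) ≤ W.Pm) (hF : Fit P I Lx K0 W.M) (hZP : ZP P ≤ Z)
    (hl0 : ∀ y, leaf y = lf (g y) y)
    {Zc t0 lc H b0 p e k : ℕ} (hk : k < P.K) (hZc : ZP P ≤ Zc) (ht0 : 2 ≤ t0) (hp : 2 ≤ p)
    (hl : 1 + e * P.K + k ≤ Lx)
    (hRF : RF G W K P I Xh e ((cpOf P Zc t0 lc H b0).dF p e) ((cpOf P Zc t0 lc H b0).cF e))
    (hL : ∀ y, Dom P I y → W.okE (la y) ∧ W.E (la y) = [g y] ∧ W.cE (la y) ≤ lc)
    (vA : ∀ x, ArrI P I K0 x → x.i = 0 →
      (arrT P leaf (FE P Xh e) X k 0 x).All W.N (Wd W.M Z))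
    (vF : ∀ y, Dom P I y → FE P Xh e y < W.M) (vG : ∀ y, Dom P I y → g y < W.M)
    (vL : ∀ y, Dom P I y → Wd W.M Z (3 :: la y)) :
    RA G W K P I K0 leaf (FE P Xh e) X k (1 + e * P.K + k) 0
      ((cpOf P Zc t0 lc H b0).dArr p (1 + e * P.K + k) 0)
      ((cpOf P Zc t0 lc H b0).cArr (1 + e * P.K + k) 0) := by
  intro c hc hi
  have hK : 1 ≤ P.K := by omega
  set cc := cpOf P Zc t0 lc H b0 with hcc
  set l := 1 + e * P.K + k with hle
  have hel : (l - 1) / P.K = e := epoch_of hk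
  have d2 : cc.dF p e ≤ cc.dLow p l := CP.dF_le_low (c := cc) (p := p) (e := e) (k := k)
  have d3 : cc.dLow p l + p ≤ cc.dArr p l 0 := CP.dArr_low
  obtain ⟨n, hn⟩ : ∃ n, cc.dArr p l 0 = n + 2 := ⟨cc.dArr p l 0 - 2, by omega⟩
  have hyD : ∀ y ∈ csts P c, Dom P I y ∧ y.i = 0 := fun y hy =>
    ⟨dom_csts hc.nd hy, by
      obtain ⟨t, -, rfl⟩ := List.mem_map.1 hy
      exact hi⟩
  have hcost : (csts P c).length * (cc.cF e 0 + 1) + (csts P c).length * (lc + 1) + 2 ≤
      cc.cArr l 0 := by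
    have h0 : (csts P c).length ≤ Zc := by
      rw [csts_length]
      exact (csz_ZP P c.κ).trans hZc
    have h1 := arr0_req (P := P) (Z := Zc) (t0 := t0) (lf := lc) (H := H) (b0 := b0) hK (e := e)
      (k := k) (i := 0) (m := (csts P c).length) (m' := (csts P c).length) h0 h0
    rw [← hcc, ← hle] at h1
    omega
  have key := phA_cz_zero (n := n) (l := l) (k := k) (leaf := leaf) (X := X) (F := FE P Xh e)
    (g := g) hG hE hN hZ (hph l c hc) hi hl0 (CF := cc.cF e 0) (CG := lc)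
    (fun y hy => by
      rw [hel]
      obtain ⟨h1, h2⟩ := hyD y hy
      have h3 := hRF y h1
      rw [h2] at h3
      exact h3.mono (by omega) le_rfl)
    (fun y _ => hb _)
    (fun y hy => hL y (hyD y hy).1)
    (fun y hy => vF y (hyD y hy).1) (fun y hy => vG y (hyD y hy).1)
    (hc.arOk hF (by norm_num) hl)
    (fun y hy => arOk_st hF (by norm_num) (by
      rw [hel]
      have : e ≤ e * P.K := Nat.le_mul_of_pos_right _ hK
      omega) (Nat.zero_le _) (hyD y hy).1)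
    (fun y hy => vL y (hyD y hy).1)
    (by
      rw [csts_length]
      exact (two_csz_ZP c).trans hZP)
    (by
      rw [hi]
      exact vA c hc hi)
  rw [hn]
  rw [hi] at key
  exact key.mono le_rfl hcost

end step

end Crest.Agent.R288.Delta222
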