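import Crest.Agent.R288.AlgB_45
import Crest.Agent.R288.Med_559

/-!
# R288: medians of means in the form of AlgB_45 (`isort`, `med`, groups read by index)

* `med_eq` : the median of AlgB_45 is the median of Med_559.
* `Ev_reps_mul` : `G * M` repetitions = `G` repetitions of `M` repetitions.
* `medG G M r x` : median of the rounded sums of groups, `x a b` = value `b` of group `a`.
* `Pr_medG` : **median of means**, entries of one list of `G * M` independent values, any rounding of
  the group means with error at most `1`.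
-/

set_option autoImplicit false

namespace Crest.Agent.R288.MedL984

open Finset Crest.Agent.R295.Rnd627 Crest.Agent.R295.Rnd627.RT Crest.Agent.R288.Alg45
  Crest.Agent.R288.Med559

/-! ### the sorted list -/

theorem ins_perm (a : ℕ) (l : List ℕ) : (ins a l).Perm (a :: l) := by
  induction l with
  | nil => exact List.Perm.refl _
  | cons b l ih =>
    unfold ins
    split_ifs
    · exact List.Perm.refl _
    · exact (List.Perm.cons b ih).trans (List.Perm.swap a b l)

theorem isort_perm (l : List ℕ) : (isort l).Perm l := by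
  induction l with
  | nil => exact List.Perm.refl _
  | cons a l ih => exact (ins_perm a (isort l)).trans (List.Perm.cons a ih)

theorem ins_sorted (a : ℕ) {l : List ℕ} (h : l.Pairwise (· ≤ ·)) : (ins a l).Pairwise (· ≤ ·) := by
  induction l with
  | nil => simp [ins]
  | cons b l ih =>
    rw [List.pairwise_cons] at h
    unfold ins
    split_ifs with hab
    · rw [List.pairwise_cons]
      refine ⟨fun c hc => ?_, by rw [List.pairwise_cons]; exact h⟩
      rcases List.mem_cons.1 hc with rfl | hc
      · exact hab
      · exact hab.trans (h.1 c hc)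
    · rw [List.pairwise_cons]
      refine ⟨fun c hc => ?_, ih h.2⟩
      rcases List.mem_cons.1 ((ins_perm a l).mem_iff.1 hc) with rfl | hc
      · omega
      · exact h.1 c hc

theorem isort_sorted (l : List ℕ) : (isort l).Pairwise (· ≤ ·) := by
  induction l with
  | nil => exact List.Pairwise.nil
  | cons a l ih => exact ins_sorted a ih

theorem med_eq_sorted {s : List ℕ} (hs : s.Pairwise (· ≤ ·)) :
    Med559.med s = s.getD (s.length / 2) 0 := by
  rcases Nat.eq_zero_or_pos s.length with h0 | h0
  · have : s = [] := List.length_eq_zero_iff.1 h0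
    subst this
    have : {v : ℕ | ([] : List ℕ).length < 2 * cle [] v} = ∅ := by
      ext v; simp [cle]
    unfold Med559.med
    rw [this, Nat.sInf_empty]
    rfl
  · set k := s.length / 2 with hk
    have hk' : k < s.length := by omega
    rw [List.getD_eq_getElem _ _ hk']
    refine Med559.med_eq ?_ ?_
    · -- the first `k + 1` entries are at most `s[k]`
      have h1 : (s.take (k + 1)).countP (fun x => decide (x ≤ s[k])) = k + 1 := by
        rw [List.countP_eq_length.2, List.length_take, Nat.min_eq_left (by omega)]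
        intro x hx
        rw [decide_eq_true_eq]
        obtain ⟨i, hi, rfl⟩ := List.mem_iff_getElem.1 hx
        rw [List.getElem_take]
        rw [List.length_take] at hi
        rcases Nat.lt_or_ge i k with h | h
        · exact List.pairwise_iff_getElem.1 hs i k _ _ h
        · have : i = k := by omega
          subst this
          exact le_rfl
      have h2 : (s.take (k + 1)).countP (fun x => decide (x ≤ s[k])) ≤ cle s s[k] :=
        (List.take_sublist _ _).countP_le
      omega
    · intro v' hv'
      have h1 : cle s v' ≤ k := by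
        unfold cle
        rw [← List.take_append_drop k s, List.countP_append]
        have h3 : (s.drop k).countP (fun x => decide (x ≤ v')) = 0 := by
          rw [List.countP_eq_zero]
          intro x hx
          rw [decide_eq_true_eq]
          obtain ⟨i, hi, rfl⟩ := List.mem_iff_getElem.1 hx
          rw [List.getElem_drop]
          rw [List.length_drop] at hi
          have h4 : s[k] ≤ s[k + i] := by
            rcases Nat.eq_zero_or_pos i with h | h
            · subst h; exact le_rfl
            · exact List.pairwise_iff_getElem.1 hs k (k + i) _ _ (by omega)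
          omega
        have h5 : (s.take k).countP (fun x => decide (x ≤ v')) ≤ k :=
          List.countP_le_length.trans (by rw [List.length_take]; omega)
        omega
      omega

/-- the two medians agree -/
theorem med_eq (l : List ℕ) : Alg45.med l = Med559.med l := by
  unfold Alg45.med
  rw [← med_perm (isort_perm l), med_eq_sorted (isort_sorted l), (isort_perm l).length_eq]

/-! ### regrouping repetitions -/

variable {α : Type}

theorem Ev_reps_append (W m n : ℕ) (t : RT α) (f : List α → ℝ) :
    (reps (m + n) t).Ev W f = (reps m t).Ev W fun l => (reps n t).Ev W fun l' => f (l ++ l') := by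
  induction m generalizing f with
  | zero => rw [Nat.zero_add]; rfl
  | succ m ih =>
    rw [Nat.succ_add_eq_add_succ, Nat.add_succ, Ev_reps_succ, Ev_reps_succ]
    congr 1
    funext a
    rw [ih]
    rfl

/-- `G * M` repetitions = `G` groups of `M` repetitions -/
theorem Ev_reps_mul (W G M : ℕ) (t : RT α) (f : List α → ℝ) :
    (reps (G * M) t).Ev W f = (reps G (reps M t)).Ev W fun ls => f ls.flatten := by
  induction G generalizing f with
  | zero => rw [Nat.zero_mul]; rfl
  | succ G ih =>
    rw [Nat.succ_mul, Nat.add_comm, Ev_reps_append, Ev_reps_succ]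
    congr 1
    funext l
    rw [ih]
    rfl

theorem All_reps_reps_length (W G M : ℕ) (t : RT α) :
    (reps G (reps M t)).All W fun ls => ls.length = G ∧ ∀ l ∈ ls, l.length = M :=
  All_reps (All_reps_length W M t) G

theorem getElem?_flatten {M : ℕ} : ∀ (ls : List (List α)) (_ : ∀ l ∈ ls, l.length = M) (a b : ℕ)
    (ha : a < ls.length) (_ : b < M), ls.flatten[a * M + b]? = ls[a][b]?
  | [], _, a, _, ha, _ => by simp at ha
  | l :: ls, h, a, b, ha, hb => by
    have hl : l.length = M := h l (by simp)
    rw [List.flatten_cons]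
    cases a with
    | zero =>
      rw [Nat.zero_mul, Nat.zero_add, List.getElem?_append_left (by omega)]
      rfl
    | succ a =>
      rw [List.getElem?_append_right (by rw [hl, Nat.succ_mul]; omega), hl]
      have e : (a + 1) * M + b - M = a * M + b := by rw [Nat.succ_mul]; omega
      rw [e]
      have := getElem?_flatten ls (fun l hl => h l (by simp [hl])) a b
        (by simpa using ha) hb
      rw [this]
      rfl

/-- median of the rounded sums of the groups -/
def medG (G M : ℕ) (r : ℕ → ℕ) (x : ℕ → ℕ → ℕ) : ℕ :=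
  Alg45.med ((List.range G).map fun a => r (sumR M (x a)))

theorem medMean_eq (G M : ℕ) (x : ℕ → ℕ → ℕ) : medMean G M x = medG G M (· / M) x := rfl

theorem medG_congr {G M : ℕ} {r : ℕ → ℕ} {x y : ℕ → ℕ → ℕ}
    (h : ∀ a < G, ∀ b < M, x a b = y a b) : medG G M r x = medG G M r y := by
  unfold medG sumR
  congr 1
  refine List.map_congr_left fun a ha => ?_
  congr 2
  exact List.map_congr_left fun b hb => h a (List.mem_range.1 ha) b (List.mem_range.1 hb)

/-- the median of the groups of a flattened list -/
theorem medG_flatten {G M : ℕ} (r : ℕ → ℕ) (g : α → ℕ) (d : α) {ls : List (List α)}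
    (h : ls.length = G) (h' : ∀ l ∈ ls, l.length = M) :
    medG G M r (fun a b => g (ls.flatten.getD (a * M + b) d)) =
      Med559.med (ls.map fun l => r (l.map g).sum) := by
  unfold medG
  rw [med_eq]
  congr 1
  refine List.ext_getElem (by simp [h]) fun a h1 h2 => ?_
  rw [List.getElem_map, List.getElem_map, List.getElem_range]
  congr 1
  unfold sumR
  congr 1
  have ha : a < ls.length := by simpa using h2
  have hl : (ls[a]).length = M := h' _ (List.getElem_mem ha)
  refine List.ext_getElem (by simp [hl]) fun b h3 h4 => ?_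
  rw [List.getElem_map, List.getElem_map, List.getElem_range]
  have hb : b < M := by simpa using h3
  have e := getElem?_flatten ls h' a b ha hb
  show g (ls.flatten.getD (a * M + b) d) = g ls[a][b]
  rw [List.getD_eq_getElem?_getD, e, List.getElem?_eq_getElem (by omega), Option.getD_some]

/-- **median of means, entries read by index from one list of repetitions**; `r` = rounding of the
group means -/
theorem Pr_medG {W : ℕ} (hW : 0 < W) {t : RT α} (g : α → ℕ) (d : α) {M : ℕ} (hM : 0 < M)
    {r : ℕ → ℕ} (hr : ∀ S : ℕ, |(r S : ℝ) - S / M| ≤ 1) {c V : ℝ} (hc : 0 < c)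
    (hV : (t.Ev W fun a => ((g a : ℝ) - t.Ev W fun a => (g a : ℝ)) ^ 2) ≤ V)
    (h3 : 3 * V ≤ M * c ^ 2) (s : ℕ) :
    (reps ((2 * (6 * s) + 1) * M) t).Pr W (fun l =>
      ¬ |(medG (2 * (6 * s) + 1) M r (fun a b => g (l.getD (a * M + b) d)) : ℝ) -
        t.Ev W fun a => (g a : ℝ)| ≤ c + 1) ≤ (1 / 2) ^ s := by
  classical
  set μ := t.Ev W fun a => (g a : ℝ) with hμ
  set G := 2 * (6 * s) + 1 with hG
  have e1 : (reps (G * M) t).Pr W (fun l =>
      ¬ |(medG G M r (fun a b => g (l.getD (a * M + b) d)) : ℝ) - μ| ≤ c + 1) =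
      (reps G (reps M t)).Pr W (fun ls =>
        ¬ |((Med559.med (ls.map fun l => r (l.map g).sum) : ℕ) : ℝ) - μ| ≤ c + 1) := by
    unfold Pr
    rw [Ev_reps_mul]
    refine Ev_congr_all ((All_reps_reps_length W G M t).mono fun ls hls => ?_)
    beta_reduce
    rw [medG_flatten r g d hls.1 hls.2]
  rw [e1]
  have h1 : (reps M t).Pr W (fun l => ¬ |((r (l.map g).sum : ℕ) : ℝ) - μ| ≤ c + 1) ≤ 1 / 3 := by
    have h2 := Pr_reps_mean hW t (fun a => (g a : ℝ)) hM hc hV
    have h4 : V / (M * c ^ 2) ≤ 1 / 3 := by
      have hM' : (0 : ℝ) < M := Nat.cast_pos.2 hM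
      rw [div_le_iff₀ (by positivity)]; linarith
    refine le_trans (Pr_mono fun l hl => ?_) (h2.trans h4)
    by_contra hc'
    push Not at hc'
    apply hl
    have e0 : (l.map fun a => (g a : ℝ)).sum = (((l.map g).sum : ℕ) : ℝ) := by
      rw [Nat.cast_list_sum, List.map_map]; rfl
    rw [e0] at hc'
    have h5 := hr (l.map g).sum
    calc |((r (l.map g).sum : ℕ) : ℝ) - μ| ≤
        |((r (l.map g).sum : ℕ) : ℝ) - ((l.map g).sum : ℕ) / M| +
          |(((l.map g).sum : ℕ) : ℝ) / M - μ| := abs_sub_le _ _ _
      _ ≤ 1 + c := add_le_add h5 hc'.le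
      _ = c + 1 := add_comm _ _
  have h6 := Pr_reps_half (fun l : List α => ¬ |((r (l.map g).sum : ℕ) : ℝ) - μ| ≤ c + 1) hW
    (q := 1 / 3) (by norm_num) (by norm_num) h1 (6 * s)
  refine (Pr_mono_all ((All_reps_length W _ (reps M t)).mono fun ls hls hm => ?_)).trans
    (h6.trans (third_pow s))
  by_contra hcnt
  apply hm
  refine med_mem (fun v : ℕ => |(v : ℝ) - μ| ≤ c + 1) ?_ ?_
  · intro x y z hx hz hxy hyz
    rw [abs_le] at hx hz ⊢
    have e1 : (x : ℝ) ≤ y := by exact_mod_cast hxy
    have e2 : (y : ℝ) ≤ z := by exact_mod_cast hyz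
    constructor <;> linarith
  · have h4 := countP_add_not (ls.map fun l => r (l.map g).sum) (fun v : ℕ => |(v : ℝ) - μ| ≤ c + 1)
    rw [List.length_map] at h4 ⊢
    have h5 : (ls.map fun l => r (l.map g).sum).countP
        (fun x => decide (¬ |((x : ℕ) : ℝ) - μ| ≤ c + 1)) =
        ls.countP (fun l => decide (¬ |((r (l.map g).sum : ℕ) : ℝ) - μ| ≤ c + 1)) := by
      rw [List.countP_map]; rfl
    omega

theorem div_round {M : ℕ} (hM : 0 < M) (S : ℕ) : |((S / M : ℕ) : ℝ) - S / M| ≤ 1 := by
  have hM' : (0 : ℝ) < M := Nat.cast_pos.2 hM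
  have e1 : ((S / M : ℕ) : ℝ) ≤ (S : ℝ) / M := Nat.cast_div_le
  have e2 : (S : ℝ) / M ≤ ((S / M : ℕ) : ℝ) + 1 := by
    rw [div_le_iff₀ hM']
    have := (Nat.lt_div_mul_add (a := S) hM).le
    have h6 : (S : ℝ) ≤ (S / M : ℕ) * M + M := by exact_mod_cast this
    linarith
  rw [abs_le]
  constructor <;> linarith

theorem ceil_round {M : ℕ} (hM : 0 < M) (S : ℕ) : |(((S + M - 1) / M : ℕ) : ℝ) - S / M| ≤ 1 := by
  have hM' : (0 : ℝ) < M := Nat.cast_pos.2 hM
  have e1 : (S : ℝ) / M ≤ ((S + M - 1) / M : ℕ) := by
    rw [div_le_iff₀ hM']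
    have h := Nat.lt_div_mul_add (a := S + M - 1) hM
    have : S ≤ (S + M - 1) / M * M := by omega
    exact_mod_cast this
  have e2 : (((S + M - 1) / M : ℕ) : ℝ) ≤ (S : ℝ) / M + 1 := by
    have h := Nat.div_mul_le_self (S + M - 1) M
    have h7 : (S + M - 1) / M * M ≤ S + M := by omega
    have h8 : (((S + M - 1) / M : ℕ) : ℝ) * M ≤ S + M := by exact_mod_cast h7
    have h9 : (((S + M - 1) / M : ℕ) : ℝ) ≤ ((S : ℝ) + M) / M := by
      rw [le_div_iff₀ hM']; exact h8
    rwa [add_div, div_self hM'.ne'] at h9
  rw [abs_le]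
  constructor <;> linarith

end Crest.Agent.R288.MedL984
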