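import Crest.Agent.R288.SeqL_891
import Crest.Agent.R288.MedL_984

/-!
# R288, leaf L6 (law of the arrival value), keyed form

A request is a `Key`; `t : Key → RT τ` runs it, `rd x T` reads the entry of the pair `x : ι` in the
table `T` of the cell of `x`; the copy number `0` is the value copy, the copies `1 .. G * M` are for
the estimates.

* `ent`, `estm` : entry of copy `s`, median of means of the copies `1 .. G * M`.
* `Keys` : what is needed about the list of requests.
* `Ev_arr` : **the value computed from one assignment has the law of "estimates first, then a fresh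
  value copy"** of Jump_984.
* `mean`, `var`, `price`, `arrEv` : mean, variance of an entry; true price of an option; mean of a
  function of the arrival value.
* `Pr_est` : one estimate fails with probability at most `2 ^ (-s)`, `Pr_closeK` : all of a finite set,
  `Pr_close_const` : if all entries of the menu are constants, the estimates are exact.
* `StOk` with constructors `of_var`, `of_const`; `StOk.low`, `le_stay`, `le_opt`, `le_opt'`, `sq_le`,
  `sq_le_mul`, `lip`; `All_arr`; `Ev_seq_arr`, `All_seq_arr` (the program `seqL (ks.map t)`).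
-/

set_option autoImplicit false

namespace Crest.Agent.R288.ArrL984

open Finset Crest.Agent.R295.Rnd627 Crest.Agent.R295.Rnd627.RT Crest.Agent.R288.Alg45
  Crest.Agent.R288.Jump984 Crest.Agent.R288.MedL984 Crest.Agent.R288.SeqL891
  Crest.Agent.R288.Med559

variable {τ ι κ : Type} [DecidableEq κ]

/-- how the pairs are read: `key x s` = request of copy `s` of the cell of the pair `x` -/
structure Rdr (τ ι κ : Type) where
  key : ι → ℕ → κ
  rd : ι → τ → ℕ

/-- entry of copy `s` (`0` if there is no result) -/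
def ent (Q : Rdr τ ι κ) (m : κ → Option τ) (x : ι) (s : ℕ) : ℕ :=
  match m (Q.key x s) with
  | some T => Q.rd x T
  | none => 0

/-- estimate: median of `G` rounded means of `M` copies -/
def estm (Q : Rdr τ ι κ) (G M : ℕ) (r : ℕ → ℕ) (m : κ → Option τ) (x : ι) : ℕ :=
  medG G M r fun a b => ent Q m x (1 + a * M + b)

/-- the requests: `cp k` = copy number of `k`; the law of `t k` does not depend on the copy -/
structure Keys (Q : Rdr τ ι κ) (ks : List κ) (t : κ → RT τ) (cp : κ → ℕ) (n : ℕ) (ok : ι → Prop) :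
    Prop where
  nodup : ks.Nodup
  cp_key : ∀ x s, cp (Q.key x s) = s
  mem : ∀ x, ok x → ∀ s ≤ n, Q.key x s ∈ ks
  law : ∀ x s, t (Q.key x s) = t (Q.key x 0)

variable {Q : Rdr τ ι κ} {ks : List κ} {t : κ → RT τ} {cp : κ → ℕ} {n G M : ℕ} {ok : ι → Prop}
  {r : ℕ → ℕ} {W : ℕ}

/-- the requests of the estimates -/
def ksE (ks : List κ) (cp : κ → ℕ) : List κ := ks.filter fun k => decide (cp k ≠ 0)
/-- the requests of the value copies -/
def ksV (ks : List κ) (cp : κ → ℕ) : List κ := ks.filter fun k => !decide (cp k ≠ 0)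

omit [DecidableEq κ] in
theorem ent_congr {m m' : κ → Option τ} {x : ι} {s : ℕ} (h : m (Q.key x s) = m' (Q.key x s)) :
    ent Q m x s = ent Q m' x s := by
  unfold ent
  rw [h]

omit [DecidableEq κ] in
theorem estm_congr {m m' : κ → Option τ} {x : ι} (h : ∀ s, 1 ≤ s → m (Q.key x s) = m' (Q.key x s)) :
    estm Q G M r m x = estm Q G M r m' x :=
  medG_congr fun a _ b _ => ent_congr (h _ (by omega))

/-- the reader of the value copy -/
def rdV (Q : Rdr τ ι κ) (m : κ → Option τ) (x : ι) : ℕ := ent Q m x 0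

/-- **the value computed from one assignment = estimates first, then a fresh value copy** -/
theorem Ev_arr (h : Keys Q ks t cp n ok) (F : ℕ) (dst : ι → ℕ) (z : (ι → ℕ) → Option ι)
    (φ : ℕ → ℝ) :
    ((asg ks t).Ev W fun m => φ (oval F dst (rdV Q) (z (estm Q G M r m)) m)) =
      ((asg (ksE ks cp) t).map (estm Q G M r)).Ev W fun E =>
        (asg (ksV ks cp) t).Ev W fun B => φ (oval F dst (rdV Q) (z E) B) := by
  rw [Ev_asg_split ks h.nodup (fun k => decide (cp k ≠ 0)) t, Ev_map]
  refine Ev_congr_all ((All_asg_none (M := W) (ksE ks cp) t).mono fun m hm => ?_)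
  refine Ev_congr_all ((All_asg_none (M := W) (ksV ks cp) t).mono fun m' hm' => ?_)
  have e1 : estm Q G M r (mrg m m') = estm Q G M r m := by
    funext x
    refine estm_congr fun s hs => ?_
    unfold mrg
    rw [hm' (Q.key x s) (by
      unfold ksV
      rw [List.mem_filter, h.cp_key]
      simp only [ne_eq, decide_not, Bool.not_not, decide_eq_true_eq, not_and]
      intro _
      omega)]
    cases m (Q.key x s) <;> rfl
  have e2 : ∀ o : Option ι, oval F dst (rdV Q) o (mrg m m') = oval F dst (rdV Q) o m' := by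
    intro o
    cases o with
    | none => rfl
    | some x =>
      rw [oval_some, oval_some]
      congr 1
      refine ent_congr ?_
      unfold mrg
      rw [hm (Q.key x 0) (by
        unfold ksE
        rw [List.mem_filter, h.cp_key]
        simp)]
      rfl
  rw [e1, e2]

/-- mean of an entry of a table -/
noncomputable def mean (W : ℕ) (Q : Rdr τ ι κ) (t : κ → RT τ) (x : ι) : ℝ :=
  (t (Q.key x 0)).Ev W fun T => (Q.rd x T : ℝ)

/-- variance of an entry of a table -/
noncomputable def var (W : ℕ) (Q : Rdr τ ι κ) (t : κ → RT τ) (x : ι) : ℝ :=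
  (t (Q.key x 0)).Ev W fun T => ((Q.rd x T : ℝ) - mean W Q t x) ^ 2

theorem Ev_val0 (hW : 0 < W) (h : Keys Q ks t cp n ok) {x : ι} (hx : ok x) (f : ℕ → ℝ) :
    ((asg (ksV ks cp) t).Ev W fun m => f (rdV Q m x)) =
      (t (Q.key x 0)).Ev W fun T => f (Q.rd x T) := by
  have hk : Q.key x 0 ∈ ksV ks cp := by
    unfold ksV
    rw [List.mem_filter, h.cp_key]
    exact ⟨h.mem x hx 0 (Nat.zero_le _), by simp⟩
  have := Ev_asg_one hW (h.nodup.filter _) hk t fun o => f (match o with
    | some T => Q.rd x T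
    | none => 0)
  exact this

theorem mn_val (hW : 0 < W) (h : Keys Q ks t cp n ok) {x : ι} (hx : ok x) :
    mn W (asg (ksV ks cp) t) (rdV Q) x = mean W Q t x :=
  Ev_val0 hW h hx fun a => (a : ℝ)

theorem vr_val (hW : 0 < W) (h : Keys Q ks t cp n ok) {x : ι} (hx : ok x) :
    vr W (asg (ksV ks cp) t) (rdV Q) x = var W Q t x := by
  unfold vr var
  rw [mn_val hW h hx]
  exact Ev_val0 hW h hx fun a => ((a : ℝ) - mean W Q t x) ^ 2

/-! ### one estimate -/

theorem seqL_replicate (k : ℕ) (t : RT τ) : seqL (List.replicate k t) = reps k t := by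
  induction k with
  | zero => rfl
  | succ k ih => rw [List.replicate_succ, seqL, reps_succ, ih]

theorem look_getElem [Inhabited τ] : ∀ (ls : List κ) (res : List τ), ls.Nodup →
    res.length = ls.length → ∀ (s : ℕ) (hs : s < ls.length), look ls res ls[s] = res[s]?
  | [], _, _, _, s, hs => by simp at hs
  | k :: ls, [], _, hl, _, _ => by simp at hl
  | k :: ls, a :: res, hn, hl, s, hs => by
    rw [look_cons]
    cases s with
    | zero => rw [List.getElem_cons_zero, upd_self]; rfl
    | succ s =>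
      have hs' : s < ls.length := by simpa using hs
      rw [List.getElem_cons_succ, upd_ne]
      · rw [look_getElem ls res (List.nodup_cons.1 hn).2 (by simpa using hl) s hs']
        rfl
      · intro he
        exact (List.nodup_cons.1 hn).1 (he ▸ List.getElem_mem hs')

/-- **one estimate**: within `c + 1` of the mean, except with probability `2 ^ (-s)` -/
theorem Pr_est [Inhabited τ] (hW : 0 < W) {s : ℕ}
    (h : Keys Q ks t cp ((2 * (6 * s) + 1) * M) ok) (hM : 0 < M)
    (hr : ∀ S : ℕ, |(r S : ℝ) - S / M| ≤ 1) {c : ℝ} (hc : 0 < c) {x : ι} (hx : ok x)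
    (h3 : 3 * var W Q t x ≤ M * c ^ 2) :
    ((asg (ksE ks cp) t).map (estm Q (2 * (6 * s) + 1) M r)).Pr W (fun E =>
      ¬ |(E x : ℝ) - mean W Q t x| ≤ c + 1) ≤ (1 / 2) ^ s := by
  classical
  set G := 2 * (6 * s) + 1 with hG
  set N := G * M with hN
  let ls : List κ := (List.range N).map fun i => Q.key x (1 + i)
  have hinj : ∀ i j : ℕ, Q.key x (1 + i) = Q.key x (1 + j) → i = j := by
    intro i j hij
    have := h.cp_key x (1 + i)
    rw [hij, h.cp_key] at this
    omega
  have hln : ls.Nodup := by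
    refine List.Nodup.map_on ?_ List.nodup_range
    intro i _ j _ hij
    exact hinj i j hij
  have hsub : ∀ k ∈ ls, k ∈ ksE ks cp := by
    intro k hk
    obtain ⟨i, hi, rfl⟩ := List.mem_map.1 hk
    have hi' := List.mem_range.1 hi
    unfold ksE
    rw [List.mem_filter, h.cp_key]
    exact ⟨h.mem x hx _ (by omega), by simp⟩
  rw [Pr_map]
  have e1 : (asg (ksE ks cp) t).Pr W (fun m => ¬ |(estm Q G M r m x : ℝ) - mean W Q t x| ≤ c + 1) =
      (asg ls t).Pr W (fun m => ¬ |(estm Q G M r m x : ℝ) - mean W Q t x| ≤ c + 1) := by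
    unfold Pr
    refine Ev_asg_sub hW (h.nodup.filter _) hln hsub t _ fun m m' hm => ?_
    have : estm Q G M r m x = estm Q G M r m' x := by
      refine medG_congr fun a ha b hb => ent_congr (hm _ ?_)
      refine List.mem_map.2 ⟨a * M + b, List.mem_range.2 ?_, by rw [Nat.add_assoc]⟩
      calc a * M + b < a * M + M := by omega
        _ = (a + 1) * M := by ring
        _ ≤ G * M := Nat.mul_le_mul_right M ha
    beta_reduce
    rw [this]
  have e2 : (asg ls t).Pr W (fun m => ¬ |(estm Q G M r m x : ℝ) - mean W Q t x| ≤ c + 1) =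
      (reps N (t (Q.key x 0))).Pr W (fun res =>
        ¬ |(estm Q G M r (look ls res) x : ℝ) - mean W Q t x| ≤ c + 1) := by
    unfold Pr
    rw [← Ev_seqL_look]
    congr 1
    have : ls.map t = List.replicate N (t (Q.key x 0)) := by
      rw [List.eq_replicate_iff]
      refine ⟨by simp [ls], fun u hu => ?_⟩
      obtain ⟨k, hk, rfl⟩ := List.mem_map.1 hu
      obtain ⟨i, -, rfl⟩ := List.mem_map.1 hk
      exact h.law x _
    rw [this, seqL_replicate]
  rw [e1, e2]
  have e3 : (reps N (t (Q.key x 0))).Pr W (fun res =>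
        ¬ |(estm Q G M r (look ls res) x : ℝ) - mean W Q t x| ≤ c + 1) =
      (reps (G * M) (t (Q.key x 0))).Pr W (fun l =>
      ¬ |(medG G M r (fun a b => Q.rd x (l.getD (a * M + b) default)) : ℝ) -
        (t (Q.key x 0)).Ev W fun a => (Q.rd x a : ℝ)| ≤ c + 1) := by
    unfold Pr
    refine Ev_congr_all ((All_reps_length W N (t (Q.key x 0))).mono fun res hres => ?_)
    have : estm Q G M r (look ls res) x =
        medG G M r (fun a b => Q.rd x (res.getD (a * M + b) default)) := by
      refine medG_congr fun a ha b hb => ?_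
      have hab : a * M + b < N := by
        calc a * M + b < a * M + M := by omega
          _ = (a + 1) * M := by ring
          _ ≤ G * M := Nat.mul_le_mul_right M ha
      have hlen : ls.length = N := by simp [ls]
      have e4 : look ls res (Q.key x (1 + a * M + b)) = res[a * M + b]? := by
        have e5 := look_getElem ls res hln (by rw [hres, hlen]) (a * M + b) (by rw [hlen]; exact hab)
        have e6 : ls[a * M + b]'(by rw [hlen]; exact hab) = Q.key x (1 + a * M + b) := by
          simp only [ls, List.getElem_map, List.getElem_range, Nat.add_assoc]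
        rw [e6] at e5
        exact e5
      unfold ent
      rw [e4, List.getD_eq_getElem?_getD, List.getElem?_eq_getElem (by rw [hres]; exact hab)]
      rfl
    beta_reduce
    rw [this]
    rfl
  rw [e3]
  exact Pr_medG hW (fun a => Q.rd x a) default hM hr hc le_rfl h3 s

/-- **all estimates of a finite set of options** -/
theorem Pr_closeK [Inhabited τ] (hW : 0 < W) {s : ℕ}
    (h : Keys Q ks t cp ((2 * (6 * s) + 1) * M) ok) (hM : 0 < M)
    (hr : ∀ S : ℕ, |(r S : ℝ) - S / M| ≤ 1) {c : ℝ} (hc : 0 < c) (S : Finset (Option ι))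
    (hS : ∀ x, some x ∈ S → ok x) (h3 : ∀ x, some x ∈ S → 3 * var W Q t x ≤ M * c ^ 2) :
    ((asg (ksE ks cp) t).map (estm Q (2 * (6 * s) + 1) M r)).Pr W (fun E =>
      ¬ Close S (mn W (asg (ksV ks cp) t) (rdV Q)) (c + 1) E) ≤ S.card * (1 / 2) ^ s := by
  classical
  set e := (asg (ksE ks cp) t).map (estm Q (2 * (6 * s) + 1) M r) with he
  have h1 : e.Pr W (fun E => ¬ Close S (mn W (asg (ksV ks cp) t) (rdV Q)) (c + 1) E) ≤
      e.Pr W (fun E => ∃ x ∈ S.eraseNone, ¬ |(E x : ℝ) - mean W Q t x| ≤ c + 1) := by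
    refine Pr_mono fun E hE => ?_
    by_contra hc'
    push Not at hc'
    refine hE fun x hx => ?_
    rw [mn_val hW h (hS x hx)]
    exact hc' x (Finset.mem_eraseNone.2 hx)
  refine h1.trans ((Pr_exists_le W e S.eraseNone fun x E =>
    ¬ |(E x : ℝ) - mean W Q t x| ≤ c + 1).trans ?_)
  have h2 : ∀ x ∈ S.eraseNone, e.Pr W (fun E => ¬ |(E x : ℝ) - mean W Q t x| ≤ c + 1) ≤
      (1 / 2) ^ s := fun x hx => Pr_est hW h hM hr hc (hS x (Finset.mem_eraseNone.1 hx))
        (h3 x (Finset.mem_eraseNone.1 hx))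
  refine (sum_le_card_nsmul _ _ _ h2).trans ?_
  rw [nsmul_eq_mul]
  refine mul_le_mul_of_nonneg_right ?_ (by positivity)
  exact_mod_cast Finset.card_eraseNone_le S

/-! ### the law of the arrival value -/

/-- true price of an option -/
noncomputable def price (W : ℕ) (Q : Rdr τ ι κ) (t : κ → RT τ) (F : ℕ) (dst : ι → ℕ)
    (o : Option ι) : ℝ :=
  opt (F : ℝ) (fun x => dst x + mean W Q t x) o

omit [DecidableEq κ] in
theorem mean_nonneg (W : ℕ) (Q : Rdr τ ι κ) (t : κ → RT τ) (x : ι) : 0 ≤ mean W Q t x :=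
  Ev_nonneg fun _ => Nat.cast_nonneg _

omit [DecidableEq κ] in
theorem var_nonneg (W : ℕ) (Q : Rdr τ ι κ) (t : κ → RT τ) (x : ι) : 0 ≤ var W Q t x :=
  Ev_nonneg fun _ => sq_nonneg _

omit [DecidableEq κ] in
theorem price_nonneg (W : ℕ) (Q : Rdr τ ι κ) (t : κ → RT τ) (F : ℕ) (dst : ι → ℕ)
    (o : Option ι) : 0 ≤ price W Q t F dst o := by
  cases o with
  | none => exact Nat.cast_nonneg F
  | some x => exact add_nonneg (Nat.cast_nonneg _) (mean_nonneg _ _ _ _)

/-- mean of `φ` of the arrival value of one state; `z` = the choice from the estimates -/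
noncomputable def arrEv (W : ℕ) (Q : Rdr τ ι κ) (ks : List κ) (t : κ → RT τ) (G M : ℕ) (r : ℕ → ℕ)
    (F : ℕ) (dst : ι → ℕ) (z : (ι → ℕ) → Option ι) (φ : ℕ → ℝ) : ℝ :=
  (asg ks t).Ev W fun m => φ (oval F dst (rdV Q) (z (estm Q G M r m)) m)


theorem All_all {α γ : Type} {M : ℕ} (u : RT α) {P : γ → α → Prop} (h : ∀ x, u.All M (P x)) :
    u.All M fun a => ∀ x, P x a := by
  induction u with
  | ret a => exact fun x => h x
  | rnd k ih => exact fun v hv => ih v fun x => h x v hv

/-- what holds for all copies of all pairs -/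
theorem All_asg_key {M' : ℕ} {P : ι → ℕ → τ → Prop} {ks' : List κ}
    (h : ∀ x s, Q.key x s ∈ ks' → (t (Q.key x s)).All M' (P x s)) :
    (asg ks' t).All M' fun m => ∀ x s, Q.key x s ∈ ks' → ∃ T, m (Q.key x s) = some T ∧ P x s T := by
  have h1 := All_asg (M := M') ks' t (fun k T => ∀ x s, Q.key x s = k → P x s T) fun k hk => by
    refine All_all _ fun x => All_all _ fun s => ?_
    by_cases he : Q.key x s = k
    · subst he
      exact (h x s hk).mono fun T hT _ => hT
    · exact All.of_forall fun T he' => absurd he' he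
  refine h1.mono fun m hm x s hk => ?_
  obtain ⟨T, hT, hP⟩ := hm _ hk
  exact ⟨T, hT, hP x s rfl⟩

theorem cle_replicate (n v w : ℕ) : cle (List.replicate n v) w = if v ≤ w then n else 0 := by
  unfold cle
  rw [List.countP_replicate]
  simp

theorem med_replicate {n : ℕ} (hn : 0 < n) (v : ℕ) : Med559.med (List.replicate n v) = v := by
  unfold Med559.med
  have hv : v ∈ {w | (List.replicate n v).length < 2 * cle (List.replicate n v) w} := by
    show (List.replicate n v).length < 2 * cle (List.replicate n v) v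
    rw [cle_replicate, if_pos le_rfl, List.length_replicate]
    omega
  refine le_antisymm (Nat.sInf_le hv) (le_csInf ⟨v, hv⟩ fun w hw => ?_)
  · by_contra hvw
    have hw' : (List.replicate n v).length < 2 * cle (List.replicate n v) w := hw
    rw [cle_replicate, if_neg hvw] at hw'
    omega

/-- the median of means of equal numbers -/
theorem medG_const {x : ℕ → ℕ → ℕ} {v : ℕ} (hG : 0 < G) (hr : r (M * v) = v)
    (h : ∀ a < G, ∀ b < M, x a b = v) : medG G M r x = v := by
  rw [medG_congr (y := fun _ _ => v) h]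
  unfold medG sumR
  rw [MedL984.med_eq]
  simp only [List.map_const', List.length_range, List.sum_replicate, smul_eq_mul, hr]
  exact med_replicate hG v

/-- **if all entries of the menu are constants, the estimates are exact** -/
theorem Pr_close_const (hW : 0 < W) (h : Keys Q ks t cp (G * M) ok) (hG0 : 0 < G)
    (hr : ∀ v, r (M * v) = v) (S : Finset (Option ι)) (hS : ∀ x, some x ∈ S → ok x)
    (g : ι → ℕ) (hg : ∀ x, some x ∈ S → (t (Q.key x 0)).All W fun T => Q.rd x T = g x) :
    ((asg (ksE ks cp) t).map (estm Q G M r)).Pr W (fun E =>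
      ¬ Close S (mn W (asg (ksV ks cp) t) (rdV Q)) 0 E) ≤ 0 := by
  classical
  rw [Pr_map]
  have h1 : (asg (ksE ks cp) t).All W fun m => ∀ x s, Q.key x s ∈ ksE ks cp →
      ∃ T, m (Q.key x s) = some T ∧ (some x ∈ S → Q.rd x T = g x) := by
    refine All_asg_key fun x s _ => ?_
    rw [h.law]
    by_cases hx : some x ∈ S
    · exact (hg x hx).mono fun T hT _ => hT
    · exact All.of_forall fun T hx' => absurd hx' hx
  have h2 : (asg (ksE ks cp) t).All W fun m => Close S (mn W (asg (ksV ks cp) t) (rdV Q)) 0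
      (estm Q G M r m) := by
    refine h1.mono fun m hm x hx => ?_
    have e1 : estm Q G M r m x = g x := by
      have e2 : ∀ a < G, ∀ b < M, ent Q m x (1 + a * M + b) = g x := by
        intro a ha b hb
        have hk : Q.key x (1 + a * M + b) ∈ ksE ks cp := by
          unfold ksE
          rw [List.mem_filter, h.cp_key]
          refine ⟨h.mem x (hS x hx) _ ?_, by simp⟩
          have : a * M + M ≤ G * M := by
            calc a * M + M = (a + 1) * M := by ring
              _ ≤ G * M := Nat.mul_le_mul_right M ha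
          omega
        obtain ⟨T, hT, hP⟩ := hm _ _ hk
        unfold ent
        rw [hT]
        exact hP hx
      exact medG_const hG0 (hr _) e2
    rw [e1, mn_val hW h (hS x hx)]
    have e3 : mean W Q t x = g x := by
      unfold mean
      rw [Ev_congr_all ((hg x hx).mono fun T hT => by rw [hT] : (t (Q.key x 0)).All W fun T =>
        ((Q.rd x T : ℕ) : ℝ) = (g x : ℝ)), Ev_const hW]
    rw [e3, sub_self, abs_zero]
  unfold Pr
  refine Ev_le_const hW (h2.mono fun m hm => ?_)
  rw [if_neg (not_not.2 hm)]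

/-! ### one state -/

/-- everything needed for one state: with probability at least `1 - q` all estimates are within `δ`
of the means, `2 * δ ≤ th` -/
structure StOk (W : ℕ) (Q : Rdr τ ι κ) (ks : List κ) (t : κ → RT τ) (cp : κ → ℕ) (G M : ℕ)
    (r : ℕ → ℕ) (F : ℕ) (dst : ι → ℕ) (z : (ι → ℕ) → Option ι) (ok : ι → Prop)
    (S : Finset (Option ι)) (o₀ : Option ι) (th : ℕ) (δ q D : ℝ) : Prop where
  keys : Keys Q ks t cp (G * M) ok
  W_pos : 0 < W
  δ_nonneg : 0 ≤ δ
  thr : 2 * δ ≤ th
  choice : Choice S F dst o₀ th z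
  stay : o₀ ∈ S
  isok : ∀ x, some x ∈ S → ok x
  close : ((asg (ksE ks cp) t).map (estm Q G M r)).Pr W (fun E =>
      ¬ Close S (mn W (asg (ksV ks cp) t) (rdV Q)) δ E) ≤ q
  D_le : ∀ o ∈ S, price W Q t F dst o ≤ D

section law

variable {s : ℕ} {F th : ℕ} {dst : ι → ℕ} {z : (ι → ℕ) → Option ι} {S : Finset (Option ι)}
  {o₀ : Option ι} {c δ q D : ℝ}

/-- constructor: small variances -/
theorem StOk.of_var [Inhabited τ] (hW : 0 < W) (h : Keys Q ks t cp ((2 * (6 * s) + 1) * M) ok)
    (hM : 0 < M) (hr : ∀ a : ℕ, |(r a : ℝ) - a / M| ≤ 1) (hc : 0 < c) (hth : 2 * (c + 1) ≤ th)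
    (hz : Choice S F dst o₀ th z) (h0 : o₀ ∈ S) (hS : ∀ x, some x ∈ S → ok x)
    (h3 : ∀ x, some x ∈ S → 3 * var W Q t x ≤ M * c ^ 2)
    (hD : ∀ o ∈ S, price W Q t F dst o ≤ D) :
    StOk W Q ks t cp (2 * (6 * s) + 1) M r F dst z ok S o₀ th (c + 1) (S.card * (1 / 2) ^ s) D where
  keys := h
  W_pos := hW
  δ_nonneg := by linarith
  thr := hth
  choice := hz
  stay := h0
  isok := hS
  close := Pr_closeK hW h hM hr hc S hS h3
  D_le := hD

/-- constructor: all entries are constants -/
theorem StOk.of_const (hW : 0 < W) (h : Keys Q ks t cp (G * M) ok) (hG0 : 0 < G)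
    (hr : ∀ v, r (M * v) = v) (hz : Choice S F dst o₀ th z) (h0 : o₀ ∈ S)
    (hS : ∀ x, some x ∈ S → ok x) (g : ι → ℕ)
    (hg : ∀ x, some x ∈ S → (t (Q.key x 0)).All W fun T => Q.rd x T = g x)
    (hD : ∀ o ∈ S, price W Q t F dst o ≤ D) :
    StOk W Q ks t cp G M r F dst z ok S o₀ th 0 0 D where
  keys := h
  W_pos := hW
  δ_nonneg := le_rfl
  thr := by simp
  choice := hz
  stay := h0
  isok := hS
  close := Pr_close_const hW h hG0 hr S hS g hg
  D_le := hD

variable (h : StOk W Q ks t cp G M r F dst z ok S o₀ th δ q D)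

include h

theorem StOk.pr_eq {o : Option ι} (ho : o ∈ S) :
    pr W (asg (ksV ks cp) t) (rdV Q) F dst o = price W Q t F dst o := by
  cases o with
  | none => rfl
  | some x =>
    show (dst x : ℝ) + mn W _ _ x = dst x + mean W Q t x
    rw [mn_val h.W_pos h.keys (h.isok x ho)]

theorem StOk.ovr_eq {o : Option ι} (ho : o ∈ S) : ovr W (asg (ksV ks cp) t) (rdV Q) o =
      opt (0 : ℝ) (fun x => var W Q t x) o := by
  cases o with
  | none => rfl
  | some x => exact vr_val h.W_pos h.keys (h.isok x ho)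

theorem StOk.mean_eq : arrEv W Q ks t G M r F dst z (fun a => (a : ℝ)) =
      ((asg (ksE ks cp) t).map (estm Q G M r)).Ev W fun E =>
        pr W (asg (ksV ks cp) t) (rdV Q) F dst (z E) := by
  unfold arrEv
  rw [Ev_arr h.keys F dst z fun a => (a : ℝ), Ev_val h.W_pos]

theorem StOk.D_nonneg : 0 ≤ D :=
  (price_nonneg _ _ _ _ _ _).trans (h.D_le _ h.stay)

/-- **(low)** -/
theorem StOk.low {m : ℝ} (hm : ∀ o ∈ S, m ≤ price W Q t F dst o) :
    m ≤ arrEv W Q ks t G M r F dst z (fun a => (a : ℝ)) := by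
  rw [h.mean_eq]
  exact le_jump h.W_pos h.choice fun o ho => by rw [h.pr_eq ho]; exact hm o ho

/-- **(stay)** -/
theorem StOk.le_stay : arrEv W Q ks t G M r F dst z (fun a => (a : ℝ)) ≤
      price W Q t F dst o₀ + q * D := by
  rw [h.mean_eq, ← h.pr_eq h.stay]
  refine jump_le_stay h.W_pos h.choice h.stay h.δ_nonneg h.thr h.D_nonneg ?_ h.close
  intro o ho
  rw [h.pr_eq ho]
  exact (h.D_le o ho).trans (le_add_of_nonneg_left (pr_nonneg _ _ _ _ _ _))

/-- **(jump)** -/
theorem StOk.le_opt {o : Option ι} (ho : o ∈ S) :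
    arrEv W Q ks t G M r F dst z (fun a => (a : ℝ)) ≤
      price W Q t F dst o + (th + 2 * δ) + q * D := by
  rw [h.mean_eq, ← h.pr_eq ho]
  refine jump_le h.W_pos h.choice h.δ_nonneg h.D_nonneg ho ?_ h.close
  intro o' ho'
  rw [h.pr_eq ho']
  exact (h.D_le o' ho').trans (le_add_of_nonneg_left (pr_nonneg _ _ _ _ _ _))

/-- **(jump)**, with twice the threshold -/
theorem StOk.le_opt' {o : Option ι} (ho : o ∈ S) :
    arrEv W Q ks t G M r F dst z (fun a => (a : ℝ)) ≤ price W Q t F dst o + 2 * th + q * D := by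
  have h1 := h.le_opt ho
  have h2 := h.thr
  linarith

/-- **(second moment)** if every option has second moment at most `B` -/
theorem StOk.sq_le {B : ℝ}
    (hB : ∀ o ∈ S, price W Q t F dst o ^ 2 + opt (0 : ℝ) (fun x => var W Q t x) o ≤ B) :
    arrEv W Q ks t G M r F dst z (fun a => (a : ℝ) ^ 2) ≤ B := by
  unfold arrEv
  rw [Ev_arr h.keys F dst z fun a => (a : ℝ) ^ 2, Ev_val_sq h.W_pos]
  refine Ev_le_const h.W_pos (All.of_forall fun E => ?_)
  rw [h.pr_eq (h.choice.mem E), h.ovr_eq (h.choice.mem E)]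
  exact hB _ (h.choice.mem E)

/-- **(variance)** if every option has variance at most `A * price` and price at most `C'` -/
theorem StOk.sq_le_mul {A C' : ℝ} (hA : ∀ o ∈ S, opt (0 : ℝ) (fun x => var W Q t x) o ≤
      A * price W Q t F dst o) (hC : ∀ o ∈ S, price W Q t F dst o ≤ C') :
    arrEv W Q ks t G M r F dst z (fun a => (a : ℝ) ^ 2) ≤
      (A + C') * arrEv W Q ks t G M r F dst z (fun a => (a : ℝ)) := by
  rw [h.mean_eq]
  unfold arrEv
  rw [Ev_arr h.keys F dst z fun a => (a : ℝ) ^ 2]
  refine var_val h.W_pos _ _ _ F dst z (All.of_forall fun E => ?_) (All.of_forall fun E => ?_)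
  · rw [h.pr_eq (h.choice.mem E)]
    exact hC _ (h.choice.mem E)
  · rw [h.pr_eq (h.choice.mem E), h.ovr_eq (h.choice.mem E)]
    exact hA _ (h.choice.mem E)

omit h

/-- **Lipschitz property of the arrival value**: `d` = distance of the states; an option of the menu
of the second state is an option of the first, or is not better than the retire price `F` up to `e'` -/
theorem StOk.lip {Q' : Rdr τ ι κ} {ks' : List κ} {t' : κ → RT τ} {cp' : κ → ℕ} {G' M' : ℕ}
    {r' : ℕ → ℕ} {F' : ℕ} {dst' : ι → ℕ} {z' : (ι → ℕ) → Option ι} {ok' : ι → Prop}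
    {S' : Finset (Option ι)} {o₀' : Option ι} {th' : ℕ} {δ' q' D' : ℝ}
    (h : StOk W Q ks t cp G M r F dst z ok S o₀ th δ q D)
    (h' : StOk W Q' ks' t' cp' G' M' r' F' dst' z' ok' S' o₀' th' δ' q' D')
    {d : ℝ}
    (hM : ∀ o ∈ S', ∃ o' ∈ S, price W Q t F dst o' ≤ d + price W Q' t' F' dst' o) :
    arrEv W Q ks t G M r F dst z (fun a => (a : ℝ)) ≤
      arrEv W Q' ks' t' G' M' r' F' dst' z' (fun a => (a : ℝ)) + d + 2 * th + q * D := by
  have h1 := h'.low (m := arrEv W Q ks t G M r F dst z (fun a => (a : ℝ)) - d - 2 * th - q * D)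
    fun o ho => by
      obtain ⟨o', ho', hp⟩ := hM o ho
      have := h.le_opt' ho'
      linarith
  linarith

/-- the same for the program: the requests are made in the order of `ks` -/
theorem Ev_seq_arr [Inhabited τ] (W : ℕ) (Q : Rdr τ ι κ) (ks : List κ) (t : κ → RT τ) (G M : ℕ)
    (r : ℕ → ℕ) (F : ℕ) (dst : ι → ℕ) (z : (ι → ℕ) → Option ι) (φ : ℕ → ℝ) :
    ((seqL (ks.map t)).Ev W fun res =>
      φ (oval F dst (rdV Q) (z (estm Q G M r (look ks res))) (look ks res))) =
      arrEv W Q ks t G M r F dst z φ :=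
  Ev_seqL_look W ks t fun m => φ (oval F dst (rdV Q) (z (estm Q G M r m)) m)

/-- what holds for every value of every option holds for the arrival value -/
theorem All_arr {P : ℕ → Prop} (hz : ∀ E, z E ∈ S) (hF : none ∈ S → P F)
    (h0 : ∀ x, some x ∈ S → Q.key x 0 ∈ ks ∧
      (t (Q.key x 0)).All W fun T => P (dst x + Q.rd x T)) :
    (asg ks t).All W fun m => P (oval F dst (rdV Q) (z (estm Q G M r m)) m) := by
  have h1 : (asg ks t).All W fun m => ∀ x s, Q.key x s ∈ ks →
      ∃ T, m (Q.key x s) = some T ∧ (s = 0 → some x ∈ S → P (dst x + Q.rd x T)) := by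
    refine All_asg_key fun x s _ => ?_
    by_cases hs : s = 0 ∧ some x ∈ S
    · obtain ⟨rfl, hx⟩ := hs
      exact (h0 x hx).2.mono fun T hT _ _ => hT
    · exact All.of_forall fun T hs' hx' => absurd ⟨hs', hx'⟩ hs
  refine h1.mono fun m hm => ?_
  cases hzm : z (estm Q G M r m) with
  | none => exact hF (hzm ▸ hz _)
  | some x =>
    have hx : some x ∈ S := hzm ▸ hz _
    obtain ⟨T, hT, hP⟩ := hm _ _ (h0 x hx).1
    rw [oval_some]
    unfold rdV ent
    rw [hT]
    exact hP rfl hx

theorem All_seq_arr [Inhabited τ] {P : ℕ → Prop} (hz : ∀ E, z E ∈ S) (hF : none ∈ S → P F)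
    (h0 : ∀ x, some x ∈ S → Q.key x 0 ∈ ks ∧
      (t (Q.key x 0)).All W fun T => P (dst x + Q.rd x T)) :
    (seqL (ks.map t)).All W fun res =>
      P (oval F dst (rdV Q) (z (estm Q G M r (look ks res))) (look ks res)) :=
  (All_seqL_look W ks t fun m => P (oval F dst (rdV Q) (z (estm Q G M r m)) m)).2
    (All_arr hz hF h0)

end law

end Crest.Agent.R288.ArrL984
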