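import Crest.Agent.R288.ArrZ_222
import Crest.Agent.R288.Cnt_308

/-!
# R288, program side, sizes of the procedure ARR (helper588)

* `abod_length`, `abod_len`, `csz_le`, `csts_len`, **`arr_len`** : numbers of requests of ARR
  (`nA` of Cnt_308, `nC P = 2^pb (17 * 2^pb + 1)`);
* `mem_acells`, **`mem_abod`**, `mem_csts` : the cells and states asked by ARR (`κ - a1 ≤ κ' ≤ κ + a2`,
  `|m'| ≤ Dm`, `|u|, |v| ≤ Dm`);
* `bodyT_all_len`, `arrOf_all_len`, `arrT_all_len` : the tables have `csz` entries for ALL draws;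
-/

set_option autoImplicit false

namespace Crest.Agent.R288.ArrLen588

open Crest.Agent.R295.Rnd627 Crest.Agent.R288.Alg45 Crest.Agent.R288.Delta222
  Crest.Agent.R288.Cnt308

variable (P : Par)

/-! ### numbers -/

theorem acs_length (c : Cel) : (acs P c).length = (acells P c.κ c.m).length := by simp [acs]

theorem abod_length (c : Cel) :
    (abod P c).length = (P.gJ * P.mJ + 1) * (acells P c.κ c.m).length := by
  unfold abod
  rw [List.length_flatten, List.map_replicate, List.sum_replicate, acs_length, smul_eq_mul]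

theorem abod_len (c : Cel) : (abod P c).length ≤ nA P := by
  rw [abod_length, nA, Nat.mul_comm]
  exact Nat.mul_le_mul_right _ (acells_len P c.κ c.m)

/-- bound of the number of entries of a cell -/
def nC : ℕ := 2 ^ P.pb * (17 * 2 ^ P.pb + 1)

theorem gpt_le (κ : ℕ) : gpt P κ ≤ 2 ^ P.pb := by
  unfold gpt
  exact Nat.pow_le_pow_right (by norm_num) (min_le_right _ _)

theorem csz_le (κ : ℕ) : csz P κ ≤ nC P := by
  unfold csz cu cv nC
  have := gpt_le P κ
  exact Nat.mul_le_mul this (by omega)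

theorem csts_len (c : Cel) : (csts P c).length ≤ nC P := by
  rw [csts_length]
  exact csz_le P c.κ

/-- **number of requests of ARR** -/
theorem arr_len (c : Cel) : (abod P c).length + (csts P c).length ≤ nA P + nC P :=
  Nat.add_le_add (abod_len P c) (csts_len P c)

/-- number of requests of ARR at macro height `0` -/
theorem bot_len (c : Cel) : (csts P c).length + (csts P c).length ≤ 2 * nC P := by
  have := csts_len P c
  omega

theorem nC_pos : 1 ≤ nC P := by
  unfold nC
  exact Nat.one_le_iff_ne_zero.2 (by positivity)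

/-! ### the cells and states -/

theorem mem_acells {κ : ℕ} {m : ℤ} {κ' : ℕ} {m' : ℤ} (h : (κ', m') ∈ acells P κ m) :
    κ - P.a1 ≤ κ' ∧ κ' ≤ κ + P.a2 ∧ m' ∈ cellsIn P.r κ m κ' ∧ m' * 2 ^ κ' ≤ (P.Dm : ℤ) ∧
      -(P.Dm : ℤ) < (m' + 1) * 2 ^ κ' := by
  unfold acells at h
  simp only [List.mem_flatMap, List.mem_map, List.mem_filter, Bool.and_eq_true,
    decide_eq_true_eq] at h
  obtain ⟨k, hk, m1, ⟨hm, h1, h2⟩, he⟩ := h
  simp only [Prod.mk.injEq] at he
  obtain ⟨rfl, rfl⟩ := he
  have h3 := mem_rngC.1 hk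
  exact ⟨h3.1, h3.2, hm, h1, h2⟩

/-- a cell which meets the domain has a small number -/
theorem natAbs_m {κ D : ℕ} {m : ℤ} (h1 : m * 2 ^ κ ≤ (D : ℤ)) (h2 : -(D : ℤ) < (m + 1) * 2 ^ κ) :
    m.natAbs ≤ D := by
  have hp : (1 : ℤ) ≤ 2 ^ κ := by exact_mod_cast Nat.one_le_two_pow
  rcases le_or_gt 0 m with hm | hm
  · have : m ≤ m * 2 ^ κ := by nlinarith
    omega
  · have : (m + 1) * 2 ^ κ ≤ m + 1 := by nlinarith
    omega

/-- **the cells asked by ARR** -/
theorem mem_abod {c c' : Cel} (h : c' ∈ abod P c) :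
    c'.i = c.i ∧ c'.j = c.j ∧ (c'.κ, c'.m) ∈ acells P c.κ c.m ∧ c.κ - P.a1 ≤ c'.κ ∧
      c'.κ ≤ c.κ + P.a2 ∧ c'.m * 2 ^ c'.κ ≤ (P.Dm : ℤ) ∧ -(P.Dm : ℤ) < (c'.m + 1) * 2 ^ c'.κ ∧
      c'.m.natAbs ≤ P.Dm := by
  unfold abod at h
  rw [List.mem_flatten] at h
  obtain ⟨l, hl, h⟩ := h
  rw [List.eq_of_mem_replicate hl, acs, List.mem_map] at h
  obtain ⟨p, hp, rfl⟩ := h
  rw [List.mem_range] at hp
  have hm : (acells P c.κ c.m).getD p (0, 0) ∈ acells P c.κ c.m := by
    rw [List.getD_eq_getElem _ _ hp]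
    exact List.getElem_mem hp
  have h1 : (((acell P c p).κ, (acell P c p).m)) ∈ acells P c.κ c.m := hm
  obtain ⟨h2, h3, -, h5, h6⟩ := mem_acells P h1
  exact ⟨rfl, rfl, h1, h2, h3, h5, h6, natAbs_m h5 h6⟩

theorem natAbs_clp (u : ℤ) : (clp P u).natAbs ≤ P.Dm := by
  unfold clp
  omega

/-- the states of a cell -/
theorem mem_csts {c : Cel} {y : St} (h : y ∈ csts P c) :
    y.i = c.i ∧ y.j = c.j ∧ y.u.natAbs ≤ P.Dm ∧ y.v.natAbs ≤ P.Dm := by
  unfold csts at h
  rw [List.mem_map] at h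
  obtain ⟨t, -, rfl⟩ := h
  exact ⟨rfl, rfl, natAbs_clp P _, natAbs_clp P _⟩

/-! ### lengths of the tables, for all draws -/

section all

variable {N : ℕ} (leaf : St → Option ℕ) (F : St → ℕ) (X : ℕ → ℕ → St → ℕ) (k : ℕ)

theorem all_bind_ret {α β : Type} {p : β → Prop} (t : RT α) (g : α → β) (h : ∀ a, p (g a)) :
    (t.bind fun a => RT.ret (g a)).All N p := by
  induction t with
  | ret a => exact h a
  | rnd q ih => exact fun v _ => ih v

theorem all_bind {α β : Type} {p : β → Prop} (t : RT α) (g : α → RT β)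
    (h : ∀ a, (g a).All N p) : (t.bind g).All N p := by
  induction t with
  | ret a => exact h a
  | rnd q ih => exact fun v _ => ih v

theorem bodyT_all_len (sub : Cel → RT (List ℕ)) (c : Cel) :
    (bodyT P leaf F X k sub c).All N fun l => l.length = csz P c.κ := by
  unfold bodyT
  refine all_bind _ _ fun rs => ?_
  refine all_bind _ _ fun res => ?_
  show (tabC P c _).length = _
  simp [tabC]

theorem arrOf_all_len (body : Cel → RT (List ℕ)) (c : Cel) :
    (arrOf P F body c).All N fun l => l.length = csz P c.κ := by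
  unfold arrOf
  refine all_bind _ _ fun Es => ?_
  refine all_bind _ _ fun B => ?_
  show (List.map _ _).length = _
  simp

theorem arrT_all_len (i : ℕ) (c : Cel) :
    (arrT P leaf F X k i c).All N fun l => l.length = csz P c.κ := by
  cases i with
  | zero =>
    show (tabC P c _).length = _
    simp [tabC]
  | succ i => exact arrOf_all_len P F _ c

end all

end Crest.Agent.R288.ArrLen588
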