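import Crest.Agent.R288.ArrLip_195
import Crest.Agent.R288.AlgA_45

/-!
# R288, leaf ARRLIP, instance on ALG v2 (helper195)

* `FL P F ζ i j` : the unit function `F` on one block `(i, j)`: almost Lipschitz, coercive.
* `own_adm` : the own pair `(cls F y, rdn (cls F y) y)` is admissible, in the domain, and close to `y`.
* `JA P F A R e i j` : (J) for one rank on one block in the names of `Alg45`
  (`A κ z` = mean body value, `R κ y` = mean arrival value, `e κ` = error of the jump).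
* `JA.up_all` : (A5), upper bound by ALL admissible pairs.
* `JA.lip`, `JA.own`, `JA.abs` : (A6), arrival Lipschitz for `numR y = dist y ŷ + R (cls F y) ŷ`.
-/

set_option autoImplicit false

namespace Crest.Agent.R288.ArrLip195

open Crest.Agent.R288.Alg45

/-! ### elementary facts (as in AlgS_125; repeated to depend on AlgA_45 only) -/

section elem

private theorem dist_self (y : St) : Alg45.dist y y = 0 := by simp [Alg45.dist]

private theorem dist_comm (y z : St) : Alg45.dist y z = Alg45.dist z y := by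
  unfold Alg45.dist
  omega

private theorem dist_tri (x y z : St) : Alg45.dist x z ≤ Alg45.dist x y + Alg45.dist y z := by
  unfold Alg45.dist
  omega

variable (P : Par)

private theorem gst_pos (κ : ℕ) : 0 < gst P κ := by unfold gst; positivity

private theorem gst_le_pow (κ : ℕ) : gst P κ ≤ 2 ^ κ := Nat.pow_le_pow_right (by norm_num) (by omega)

private theorem gst_mul_le (κ : ℕ) (h : P.pb ≤ κ) : gst P κ * 2 ^ P.pb = 2 ^ κ := by
  unfold gst
  rw [← pow_add]
  congr 1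
  omega

private theorem gst_dvd_rd (κ : ℕ) (u : ℤ) : (gst P κ : ℤ) ∣ rd P κ u := by
  unfold rd; exact dvd_mul_left _ _

private theorem rd_le (κ : ℕ) (u : ℤ) : rd P κ u ≤ u := by
  unfold rd
  exact Int.ediv_mul_le u (by have := gst_pos P κ; omega)

private theorem lt_rd (κ : ℕ) (u : ℤ) : u < rd P κ u + gst P κ := by
  unfold rd
  have h := Int.lt_ediv_add_one_mul_self u (by have := gst_pos P κ; omega : (0 : ℤ) < gst P κ)
  nlinarith [h]

private theorem rd_eq {κ : ℕ} {u : ℤ} (h : (gst P κ : ℤ) ∣ u) : rd P κ u = u := by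
  unfold rd
  exact Int.ediv_mul_cancel h

private theorem rd_mono (κ : ℕ) {u v : ℤ} (h : u ≤ v) : rd P κ u ≤ rd P κ v := by
  unfold rd
  exact mul_le_mul_of_nonneg_right (Int.ediv_le_ediv (by have := gst_pos P κ; omega) h)
    (by positivity)

private theorem natAbs_rd (κ : ℕ) (u : ℤ) : (u - rd P κ u).natAbs < gst P κ := by
  have h1 := rd_le P κ u
  have h2 := lt_rd P κ u
  omega

private theorem dist_rdn (κ : ℕ) (y : St) : Alg45.dist y (rdn P κ y) < 2 * gst P κ := by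
  unfold Alg45.dist rdn
  have h1 := natAbs_rd P κ y.u
  have h2 := natAbs_rd P κ y.v
  simp only
  omega

private theorem rdn_eq {κ : ℕ} {y : St} (h : (gst P κ : ℤ) ∣ y.u ∧ (gst P κ : ℤ) ∣ y.v) :
    rdn P κ y = y := by
  unfold rdn
  rw [rd_eq P h.1, rd_eq P h.2]

private theorem rdn_rdn (κ : ℕ) (y : St) : rdn P κ (rdn P κ y) = rdn P κ y :=
  rdn_eq P ⟨gst_dvd_rd P κ _, gst_dvd_rd P κ _⟩

end elem

variable {P : Par} {F : St → ℕ} {ζ : ℝ} {i j : ℕ}

/-- states of the block `(i, j)` inside the domain -/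
def Blk (P : Par) (i j : ℕ) (y : St) : Prop := y.i = i ∧ y.j = j ∧ inD P y

/-- what is used of the unit function on the block `(i, j)` -/
structure FL (P : Par) (F : St → ℕ) (ζ : ℝ) (i j : ℕ) : Prop where
  pb : 5 ≤ P.pb
  ζ0 : 0 ≤ ζ
  ζ1 : ζ ≤ 1 / 8
  lip : ∀ x z, Blk P i j x → Blk P i j z → (F x : ℝ) ≤ (1 + ζ) * (F z + Alg45.dist x z)
  coer : ∀ y, Blk P i j y → (y.v - y.u).natAbs ≤ F y
  dvd : ∀ y, Blk P i j y → gst P (cls F y) ∣ P.Dm

theorem adm_iff {κ : ℕ} {y : St} : adm P F κ y = true ↔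
    rdn P κ y = y ∧ (y.v - y.u).natAbs ≤ 8 * 2 ^ κ ∧ κ ≤ cls F y + 1 ∧ cls F y ≤ κ + 1 := by
  unfold adm
  simp only [Bool.and_eq_true, decide_eq_true_eq, and_assoc]

theorem adm_lo {κ : ℕ} {y : St} (h : adm P F κ y = true) : 2 ^ κ ≤ 2 * (F y + 1) := by
  obtain ⟨_, _, h1, _⟩ := adm_iff.1 h
  have h2 : 2 ^ κ ≤ 2 ^ (cls F y + 1) := Nat.pow_le_pow_right (by norm_num) h1
  have h3 : 2 ^ (cls F y) ≤ F y + 1 := by
    rcases Nat.eq_zero_or_pos (F y) with h0 | h0
    · unfold cls; rw [h0]; simp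
    · exact (Nat.pow_log_le_self 2 h0.ne').trans (Nat.le_succ _)
  have h4 : 2 ^ (cls F y + 1) = 2 * 2 ^ cls F y := by rw [pow_succ, mul_comm]
  omega

theorem lt_two_pow_cls (F : St → ℕ) (y : St) : F y < 2 ^ (cls F y + 1) :=
  Nat.lt_pow_succ_log_self (by norm_num) _

theorem two_pow_cls_le (F : St → ℕ) (y : St) : 2 ^ cls F y ≤ F y + 1 := by
  rcases Nat.eq_zero_or_pos (F y) with h0 | h0
  · unfold cls; rw [h0]; simp
  · exact (Nat.pow_log_le_self 2 h0.ne').trans (Nat.le_succ _)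

theorem adm_hi {κ : ℕ} {y : St} (h : adm P F κ y = true) : F y < 2 ^ (κ + 2) := by
  obtain ⟨_, _, _, h1⟩ := adm_iff.1 h
  exact (lt_two_pow_cls F y).trans_le (Nat.pow_le_pow_right (by norm_num) (by omega))

theorem inD_rdn {κ : ℕ} {y : St} (hD : gst P κ ∣ P.Dm) (h : inD P y) : inD P (rdn P κ y) := by
  have key : ∀ u : ℤ, u.natAbs ≤ P.Dm → (rd P κ u).natAbs ≤ P.Dm := by
    intro u hu
    have h1 := rd_le P κ u
    have h2 : (-(P.Dm : ℤ)) ≤ rd P κ u := by
      have h3 : (gst P κ : ℤ) ∣ -(P.Dm : ℤ) := (by exact_mod_cast hD : (gst P κ : ℤ) ∣ (P.Dm : ℤ)).neg_right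
      have h4 := rd_eq P h3
      rw [← h4]
      exact rd_mono P κ (by omega)
    omega
  exact ⟨key y.u h.1, key y.v h.2⟩

/-- small classes are not rounded -/
theorem gst_one {κ : ℕ} (h : κ ≤ P.pb) : gst P κ = 1 := by
  unfold gst; rw [Nat.sub_eq_zero_of_le h]; rfl

theorem rdn_small {κ : ℕ} (h : κ ≤ P.pb) (y : St) : rdn P κ y = y := by
  refine rdn_eq P ⟨?_, ?_⟩ <;> rw [gst_one h] <;> simp

/-- the rounding of a state at its own class costs at most `2 F / 2^pb` -/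
theorem dist_own (y : St) : (Alg45.dist y (rdn P (cls F y) y) : ℝ) ≤ 2 / 2 ^ P.pb * F y := by
  rcases le_or_gt (cls F y) P.pb with hk | hk
  · rw [rdn_small hk, dist_self]
    have : (0 : ℝ) ≤ 2 / 2 ^ P.pb * F y := by positivity
    simpa using this
  · have h1 := dist_rdn P (cls F y) y
    have h2 := gst_mul_le P (cls F y) hk.le
    have h0 : F y ≠ 0 := by
      intro h0
      have : cls F y = 0 := by unfold cls; rw [h0]; simp
      omega
    have h3 : 2 ^ cls F y ≤ F y := Nat.pow_log_le_self 2 h0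
    have h4 : (Alg45.dist y (rdn P (cls F y) y) : ℝ) ≤ 2 * gst P (cls F y) := by
      exact_mod_cast h1.le
    have h5 : (gst P (cls F y) : ℝ) * 2 ^ P.pb ≤ F y := by exact_mod_cast h2.le.trans h3
    rw [div_mul_eq_mul_div, le_div_iff₀ (by positivity)]
    nlinarith [show (0 : ℝ) < 2 ^ P.pb by positivity]

/-- **the own pair is admissible** -/
theorem FL.own_adm (h : FL P F ζ i j) {y : St} (hy : Blk P i j y) :
    Blk P i j (rdn P (cls F y) y) ∧ adm P F (cls F y) (rdn P (cls F y) y) = true := by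
  have hB : Blk P i j (rdn P (cls F y) y) := ⟨hy.1, hy.2.1, inD_rdn (h.dvd y hy) hy.2.2⟩
  refine ⟨hB, adm_iff.2 ⟨rdn_rdn P _ y, ?_, ?_⟩⟩
  · have h1 := h.coer y hy
    have h2 := lt_two_pow_cls F y
    have h3 := natAbs_rd P (cls F y) y.u
    have h4 := natAbs_rd P (cls F y) y.v
    have h5 := gst_le_pow P (cls F y)
    have h6 : 2 ^ (cls F y + 1) = 2 * 2 ^ cls F y := by rw [pow_succ, mul_comm]
    have h7 : ((rdn P (cls F y) y).v - (rdn P (cls F y) y).u).natAbs ≤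
        (y.v - y.u).natAbs + (y.u - rd P (cls F y) y.u).natAbs + (y.v - rd P (cls F y) y.v).natAbs := by
      show (rd P (cls F y) y.v - rd P (cls F y) y.u).natAbs ≤ _
      omega
    omega
  · rcases le_or_gt (cls F y) P.pb with hk | hk
    · rw [rdn_small hk]
      omega
    · set κ := cls F y with hκ
      set z := rdn P κ y with hz
      have hd : (Alg45.dist y z : ℝ) ≤ 2 / 2 ^ P.pb * F y := dist_own y
      have h1 := h.lip y z hy hB
      have h2 := h.lip z y hB hy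
      rw [dist_comm] at h2
      have hpb : (2 : ℝ) / 2 ^ P.pb ≤ 1 / 16 := by
        have : (2 : ℝ) ^ 5 ≤ 2 ^ P.pb := pow_le_pow_right₀ (by norm_num) h.pb
        rw [div_le_div_iff₀ (by positivity) (by norm_num)]
        linarith
      have hF0 : (0 : ℝ) ≤ F y := Nat.cast_nonneg _
      have hd' : (Alg45.dist y z : ℝ) ≤ 1 / 16 * F y := hd.trans (mul_le_mul_of_nonneg_right hpb hF0)
      have z0 := h.ζ0
      have z1 := h.ζ1
      have hlt : (F y : ℝ) < 2 ^ (κ + 1) := by exact_mod_cast lt_two_pow_cls F y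
      have h0 : F y ≠ 0 := by
        intro h0
        have : cls F y = 0 := by unfold cls; rw [h0]; simp
        omega
      have hge : (2 : ℝ) ^ κ ≤ F y := by exact_mod_cast Nat.pow_log_le_self 2 h0
      have hzF0 : (0 : ℝ) ≤ F z := Nat.cast_nonneg _
      have hD0 : (0 : ℝ) ≤ Alg45.dist y z := Nat.cast_nonneg _
      have a1 : (F z : ℝ) < 2 ^ (κ + 2) := by
        have : (1 + ζ) * ((F y : ℝ) + Alg45.dist y z) ≤ (9 / 8) * (17 / 16 * F y) :=
          mul_le_mul (by linarith) (by linarith) (by positivity) (by norm_num)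
        rw [pow_succ] at hlt ⊢
        rw [pow_succ]
        nlinarith [show (0 : ℝ) < 2 ^ κ by positivity]
      have a2 : (2 : ℝ) ^ κ ≤ 2 * F z := by
        have : (1 + ζ) * ((F z : ℝ) + Alg45.dist y z) ≤ (9 / 8) * (F z + 1 / 16 * F y) :=
          mul_le_mul (by linarith) (by linarith) (by positivity) (by norm_num)
        nlinarith
      have a1' : F z < 2 ^ (κ + 2) := by exact_mod_cast a1
      have a2' : 2 ^ κ ≤ 2 * F z := by exact_mod_cast a2
      constructor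
      · rcases Nat.eq_zero_or_pos κ with hk0 | hk0
        · omega
        · have : 2 ^ (κ - 1) ≤ F z := by
            have e : 2 ^ κ = 2 * 2 ^ (κ - 1) := by
              rw [← pow_succ']
              congr 1; omega
            omega
          have := Nat.le_log_of_pow_le (by norm_num : 1 < 2) this
          show κ ≤ Nat.log 2 (F z) + 1
          omega
      · show Nat.log 2 (F z) ≤ κ + 1
        have : Nat.log 2 (F z) < κ + 2 := Nat.log_lt_of_lt_pow' (by omega) a1'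
        omega

/-- **(J) for one rank on one block**: the jump menu of `(κ, y)` = grid states `z` of the classes
`κ - a1 .. κ + a2` with `dist y z ≤ 2 F y` -/
structure JA (P : Par) (F : St → ℕ) (A R : ℕ → St → ℝ) (e : ℕ → ℝ) (i j : ℕ) : Prop where
  A0 : ∀ κ z, Blk P i j z → adm P F κ z = true → 0 ≤ A κ z
  e0 : ∀ κ, 0 ≤ e κ
  low : ∀ κ y, Blk P i j y → adm P F κ y = true → ∀ m : ℝ, m ≤ F y →
    (∀ z, Blk P i j z → m ≤ Alg45.dist y z + F z) →
    (∀ κ' z, Blk P i j z → adm P F κ' z = true → κ - P.a1 ≤ κ' → κ' ≤ κ + P.a2 →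
      Alg45.dist y z ≤ 2 * F y → m ≤ Alg45.dist y z + A κ' z) → m ≤ R κ y
  upF : ∀ κ y, Blk P i j y → adm P F κ y = true → R κ y ≤ F y + e κ
  upM : ∀ κ y, Blk P i j y → adm P F κ y = true → ∀ κ' z, Blk P i j z → adm P F κ' z = true →
    κ - P.a1 ≤ κ' → κ' ≤ κ + P.a2 → Alg45.dist y z ≤ 2 * F y → R κ y ≤ Alg45.dist y z + A κ' z + e κ

variable {A R : ℕ → St → ℝ} {e : ℕ → ℝ}

/-- the abstract data -/
def jin (P : Par) (F : St → ℕ) (A R : ℕ → St → ℝ) (e : ℕ → ℝ) (i j : ℕ) (ζ : ℝ) : JIn St where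
  Dom := Blk P i j
  D := Alg45.dist
  F := F
  Pr := fun κ z => adm P F κ z = true
  A := A
  R := R
  e := e
  a1 := P.a1
  a2 := P.a2
  ζ := ζ
  C := 0

theorem JA.ok (h : JA P F A R e i j) (hF : FL P F ζ i j) (ha2 : 5 ≤ P.a2) :
    (jin P F A R e i j ζ).Ok where
  symm := dist_comm
  tri := dist_tri
  F_lip := fun x z hx hz => by
    have := hF.lip x z hx hz
    simpa [jin] using this
  Pr_lo := fun κ z hz => adm_lo hz
  Pr_hi := fun κ z hz => adm_hi hz
  A0 := h.A0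
  e0 := h.e0
  ζ0 := hF.ζ0
  ζ1 := hF.ζ1.trans (by norm_num)
  C0 := le_rfl
  C1 := by norm_num [jin]
  a2 := ha2
  low := fun κ y hy p m h1 h2 => h.low κ y hy p m
    (by have := h1 y hy; simpa [jin, dist_self] using this) h1
    (fun κ' z hz pz k1 k2 d => h2 κ' z ⟨hz, pz, by show κ ≤ κ' + P.a1; omega, k2, d⟩)
  upF := h.upF
  upM := fun κ y hy p κ' z hM => h.upM κ y hy p κ' z hM.1 hM.2.1
    (by have := hM.2.2.1; simp only [jin] at this; omega) hM.2.2.2.1 hM.2.2.2.2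

/-- **(A5)**: the arrival value against ALL admissible pairs of the block -/
theorem JA.up_all (h : JA P F A R e i j) (hF : FL P F ζ i j) (ha2 : 5 ≤ P.a2) {κ κ' : ℕ} {y z : St}
    (hy : Blk P i j y) (p : adm P F κ y = true) (hz : Blk P i j z) (pz : adm P F κ' z = true) :
    R κ y ≤ (1 + ζ) * (Alg45.dist y z + A κ' z) + e κ + (1 + ζ) * (2 ^ (κ + 1) / 2 ^ P.a1) := by
  have := (h.ok hF ha2).up_all (κ := κ) (κ₂ := κ') (y := y) (z := z) hy p hz pz
  simpa [jin] using this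

/-- the number of a state: round to the own grid, then arrive -/
noncomputable def numR (P : Par) (F : St → ℕ) (R : ℕ → St → ℝ) (y : St) : ℝ :=
  Alg45.dist y (rdn P (cls F y) y) + R (cls F y) (rdn P (cls F y) y)

theorem JA.ownD (hF : FL P F ζ i j) {b c : ℝ} (hb : 0 ≤ b) (hc : 0 ≤ c)
    (he : ∀ κ, e κ ≤ b * 2 ^ κ + c) :
    (jin P F A R e i j ζ).Own (cls F) (fun y => rdn P (cls F y) y) b c (2 / 2 ^ P.pb) where
  dom := fun y hy => (hF.own_adm hy).1
  pr := fun y hy => (hF.own_adm hy).2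
  near := fun y _ => dist_own y
  cl_le := fun y _ => two_pow_cls_le F y
  e_le := he
  b0 := hb
  c0 := hc
  β0 := by positivity

/-- **(A6), relative form** -/
theorem JA.own (h : JA P F A R e i j) (hF : FL P F ζ i j) (ha2 : 5 ≤ P.a2) {b c : ℝ} (hb : 0 ≤ b)
    (hc : 0 ≤ c) (he : ∀ κ, e κ ≤ b * 2 ^ κ + c) {y y' : St} (hy : Blk P i j y) (hy' : Blk P i j y') :
    numR P F R y ≤ (1 + ζ) * (numR P F R y' + Alg45.dist y y') +
      ((b + 4 / 2 ^ P.a1 + 6 / 2 ^ P.pb) * (F y + 1) + c) := by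
  have := (h.ok hF ha2).own (JA.ownD hF hb hc he) hy hy'
  have e1 : 3 * ((2 : ℝ) / 2 ^ P.pb) = 6 / 2 ^ P.pb := by ring
  simp only [jin, JIn.Rn, zero_add, e1] at this
  exact this

/-- **(A6), absolute form** for near states = hypothesis `hR` of `OscW283.piece` -/
theorem JA.abs (h : JA P F A R e i j) (hF : FL P F ζ i j) (ha2 : 5 ≤ P.a2) {b c : ℝ} (hb : 0 ≤ b)
    (hc : 0 ≤ c) (he : ∀ κ, e κ ≤ b * 2 ^ κ + c) (hb1 : b + 6 / 2 ^ P.pb ≤ 1) {y y' : St} (hy : Blk P i j y)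
    (hy' : Blk P i j y') {m : ℝ} (hm : (F y : ℝ) ≤ m) (hm' : (F y' : ℝ) ≤ m)
    (hd : (Alg45.dist y y' : ℝ) ≤ 2 * m) :
    |numR P F R y - numR P F R y'| ≤ Alg45.dist y y' +
      (b + 4 / 2 ^ P.a1 + 6 / 2 ^ P.pb + 5 * ζ) * (m + 1) + (1 + ζ) * c := by
  have e1 : 3 * ((2 : ℝ) / 2 ^ P.pb) = 6 / 2 ^ P.pb := by ring
  have := (h.ok hF ha2).abs (JA.ownD hF hb hc he) (by rw [e1]; exact hb1) hy hy' hm hm' hd
  simp only [jin, JIn.Rn, zero_add, e1] at this
  exact this

/-- **(A6), weak absolute form for EVERY pair of states** (field `lipR` of `OscI283.OscR`) -/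
theorem JA.abs2 (h : JA P F A R e i j) (hF : FL P F ζ i j) (ha2 : 5 ≤ P.a2) {b c : ℝ} (hb : 0 ≤ b)
    (hc : 0 ≤ c) (he : ∀ κ, e κ ≤ b * 2 ^ κ + c)
    (hb1 : b + 4 / 2 ^ P.a1 + 6 / 2 ^ P.pb + 5 * ζ ≤ 1) {y y' : St} (hy : Blk P i j y)
    (hy' : Blk P i j y') :
    |numR P F R y - numR P F R y'| ≤ 2 * Alg45.dist y y' +
      (b + 4 / 2 ^ P.a1 + 6 / 2 ^ P.pb + 5 * ζ) * max (F y : ℝ) (F y') + (1 + (1 + ζ) * c) := by
  have hD0 : (0 : ℝ) ≤ Alg45.dist y y' := Nat.cast_nonneg _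
  have z0 := hF.ζ0
  have q1 : (0 : ℝ) ≤ 4 / 2 ^ P.a1 := by positivity
  have q2 : (0 : ℝ) ≤ 6 / 2 ^ P.pb := by positivity
  have m0 : (0 : ℝ) ≤ max (F y : ℝ) (F y') := le_max_of_le_left (Nat.cast_nonneg _)
  have h1 := h.abs hF ha2 hb hc he (by linarith) hy hy' (m := max (F y : ℝ) (F y') + Alg45.dist y y')
    (by linarith [le_max_left (F y : ℝ) (F y')]) (by linarith [le_max_right (F y : ℝ) (F y')])
    (by linarith)
  refine h1.trans ?_
  set β := b + 4 / 2 ^ P.a1 + 6 / 2 ^ P.pb + 5 * ζ with hβ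
  have hβ0 : 0 ≤ β := by rw [hβ]; linarith
  have e1 : β * (Alg45.dist y y' : ℝ) ≤ 1 * Alg45.dist y y' := mul_le_mul_of_nonneg_right hb1 hD0
  nlinarith

/-- size of the number of a state -/
theorem JA.numR_le (h : JA P F A R e i j) (hF : FL P F ζ i j) (ha2 : 5 ≤ P.a2) {b c : ℝ} (hb : 0 ≤ b)
    (hc : 0 ≤ c) (he : ∀ κ, e κ ≤ b * 2 ^ κ + c) {y : St} (hy : Blk P i j y) :
    numR P F R y ≤ (1 + ζ) * F y + (b + 6 / 2 ^ P.pb) * (F y + 1) + c := by
  have e1 : 3 * ((2 : ℝ) / 2 ^ P.pb) = 6 / 2 ^ P.pb := by ring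
  have := (h.ok hF ha2).Rn_le (JA.ownD hF hb hc he) hy
  simp only [jin, JIn.Rn, zero_add, e1] at this
  exact this

end Crest.Agent.R288.ArrLip195
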