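import Mathlib

/-!
# R288, leaf ARRLIP (helper195): the arrival value after the jump J2 is almost Lipschitz

Abstract states `σ` with distances `D`, unit function `F : σ → ℕ`, pair predicate `Pr κ z` (grid state and
guard), body values `A κ z`, arrival values `R κ y`.

* `JIn` : the data of (J): a lower and an upper bound of `R κ y` by the jump menu of `(κ, y)`;
* `leaf_J` : an exact state (leaf) which is its own grid state satisfies (J) without error;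
* `JIn.Ok.up_all` : upper bound of `R κ y` by all pairs of the domain, in the menu or not;
* `JIn.Ok.lip` : `R κ y ≤ (1+ζ) (R κ' y' + D y y') + e κ + 2 * 2^(κ+3) / 2^a1 + C` for any two pairs;
* `JIn.Ok.own`, `JIn.Ok.abs` : the same for the own-class numbers of arbitrary states, and the absolute form
  (hypothesis `hR` of `OscW283.piece`).
-/

set_option autoImplicit false

namespace Crest.Agent.R288.ArrLip195

/-- (J) at all pairs. `Dom` = domain, `Pr κ z` = `z` is a grid state of class `κ` inside the guard,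
`R`, `A` = mean values of the arrival and of the body, `e κ` = error of the jump, `C` = additive constant and
`ζ` = relative error of the Lipschitz property of `F`. -/
structure JIn (σ : Type*) where
  Dom : σ → Prop
  D : σ → σ → ℕ
  F : σ → ℕ
  Pr : ℕ → σ → Prop
  A : ℕ → σ → ℝ
  R : ℕ → σ → ℝ
  e : ℕ → ℝ
  a1 : ℕ
  a2 : ℕ
  ζ : ℝ
  C : ℝ

variable {σ : Type*}

/-- the jump menu of the pair `(κ, y)` -/
def JIn.M (J : JIn σ) (κ : ℕ) (y : σ) (κ' : ℕ) (z : σ) : Prop :=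
  J.Dom z ∧ J.Pr κ' z ∧ κ ≤ κ' + J.a1 ∧ κ' ≤ κ + J.a2 ∧ J.D y z ≤ 2 * J.F y

/-- the hypotheses -/
structure JIn.Ok (J : JIn σ) : Prop where
  symm : ∀ x y, J.D x y = J.D y x
  tri : ∀ x y z, J.D x z ≤ J.D x y + J.D y z
  F_lip : ∀ x z, J.Dom x → J.Dom z → (J.F x : ℝ) ≤ (1 + J.ζ) * (J.F z + J.D x z) + J.C
  Pr_lo : ∀ κ z, J.Pr κ z → 2 ^ κ ≤ 2 * (J.F z + 1)
  Pr_hi : ∀ κ z, J.Pr κ z → J.F z < 2 ^ (κ + 2)
  A0 : ∀ κ z, J.Dom z → J.Pr κ z → 0 ≤ J.A κ z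
  e0 : ∀ κ, 0 ≤ J.e κ
  ζ0 : 0 ≤ J.ζ
  ζ1 : J.ζ ≤ 1
  C0 : 0 ≤ J.C
  C1 : J.C ≤ 6
  a2 : 5 ≤ J.a2
  /-- every common lower bound of the retire values and of the values of the menu is a lower bound -/
  low : ∀ κ y, J.Dom y → J.Pr κ y → ∀ m : ℝ, (∀ z, J.Dom z → m ≤ J.D y z + J.F z) →
    (∀ κ' z, J.M κ y κ' z → m ≤ J.D y z + J.A κ' z) → m ≤ J.R κ y
  /-- up to the error of the jump the arrival value is at most the retire value of the state -/
  upF : ∀ κ y, J.Dom y → J.Pr κ y → J.R κ y ≤ J.F y + J.e κ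
  /-- and at most every value of the menu -/
  upM : ∀ κ y, J.Dom y → J.Pr κ y → ∀ κ' z, J.M κ y κ' z → J.R κ y ≤ J.D y z + J.A κ' z + J.e κ

variable {J : JIn σ}

/-- **upper bound by ALL pairs**, in the menu or not (form (A5) of the SPEC) -/
theorem JIn.Ok.up_all (h : J.Ok) {κ κ₂ : ℕ} {y z : σ} (hy : J.Dom y) (p : J.Pr κ y) (dz : J.Dom z)
    (pz : J.Pr κ₂ z) : J.R κ y ≤ (1 + J.ζ) * (J.D y z + J.A κ₂ z) + J.e κ +
      (1 + J.ζ) * (2 ^ (κ + 1) / 2 ^ J.a1) + J.C := by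
  have z0 := h.ζ0
  have e0 := h.e0 κ
  have c0 := h.C0
  have hq : (0 : ℝ) ≤ (1 + J.ζ) * (2 ^ (κ + 1) / 2 ^ J.a1) := by positivity
  have hD0 : ∀ a b, (0 : ℝ) ≤ J.D a b := fun a b => Nat.cast_nonneg _
  have hF := h.upF κ y hy p
  have hA := h.A0 κ₂ z dz pz
  have h2 := h.F_lip y z hy dz
  have hX2 : (J.D y z : ℝ) + J.A κ₂ z ≤ (1 + J.ζ) * (J.D y z + J.A κ₂ z) := by
    nlinarith [mul_nonneg z0 (add_nonneg (hD0 y z) hA)]
  by_cases d1 : J.D y z ≤ 2 * J.F y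
  · by_cases k1 : κ ≤ κ₂ + J.a1
    · by_cases k2 : κ₂ ≤ κ + J.a2
      · -- the pair is in the menu of `(κ, y)`
        have h4 := h.upM κ y hy p κ₂ z ⟨dz, pz, k1, k2, d1⟩
        linarith
      · -- the class of the pair is too high: impossible
        exfalso
        have h5 := h.Pr_lo κ₂ z pz
        have h6 := h.Pr_hi κ y p
        have h7 : (2 : ℝ) ^ (κ + 6) ≤ 2 ^ κ₂ := pow_le_pow_right₀ (by norm_num) (by have := h.a2; omega)
        have h8 : ((2 : ℝ)) ^ κ₂ ≤ 2 * (J.F z + 1) := by exact_mod_cast h5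
        have h9 : (J.F y : ℝ) < 2 ^ (κ + 2) := by exact_mod_cast h6
        have h10 := h.F_lip z y dz hy
        have h11 : (J.D y z : ℝ) ≤ 2 * J.F y := by exact_mod_cast d1
        have h11' : (J.D z y : ℝ) ≤ 2 * J.F y := by rw [h.symm]; exact h11
        have h12 : (1 : ℝ) ≤ 2 ^ κ := one_le_pow₀ (by norm_num)
        have h13 : (1 + J.ζ) * ((J.F y : ℝ) + J.D z y) ≤ 2 * (3 * J.F y) := by
          have : (0 : ℝ) ≤ J.F y := Nat.cast_nonneg _
          have := h.ζ1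
          nlinarith [hD0 z y]
        have h14 := h.C1
        rw [pow_add] at h7 h9
        norm_num at h7 h9
        linarith
    · -- the class of the pair is too low: the pair is cheap
      have h6 : (J.F z : ℝ) < 2 ^ (κ₂ + 2) := by exact_mod_cast h.Pr_hi κ₂ z pz
      have h7 : (2 : ℝ) ^ (κ₂ + 2) ≤ 2 ^ (κ + 1) / 2 ^ J.a1 := by
        rw [le_div_iff₀ (by positivity), ← pow_add]
        exact pow_le_pow_right₀ (by norm_num) (by omega)
      have h8 : (1 + J.ζ) * ((J.F z : ℝ) + J.D y z) ≤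
          (1 + J.ζ) * (2 ^ (κ + 1) / 2 ^ J.a1 + (J.D y z + J.A κ₂ z)) :=
        mul_le_mul_of_nonneg_left (by linarith) (by linarith)
      have h9 : (1 + J.ζ) * (2 ^ (κ + 1) / 2 ^ J.a1 + (J.D y z + J.A κ₂ z)) =
        (1 + J.ζ) * (J.D y z + J.A κ₂ z) + (1 + J.ζ) * (2 ^ (κ + 1) / 2 ^ J.a1) := by ring
      linarith
  · -- the target is far away
    have d2 : (2 * J.F y : ℝ) ≤ J.D y z := by exact_mod_cast (not_le.1 d1).le
    have : (0 : ℝ) ≤ J.F y := Nat.cast_nonneg _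
    linarith

/-- **arrival Lipschitz, pair form** -/
theorem JIn.Ok.lip (h : J.Ok) {κ κ' : ℕ} {y y' : σ} (hy : J.Dom y) (hy' : J.Dom y')
    (p : J.Pr κ y) (p' : J.Pr κ' y') :
    J.R κ y ≤ (1 + J.ζ) * (J.R κ' y' + J.D y y') + J.e κ + (1 + J.ζ) * (2 ^ (κ + 1) / 2 ^ J.a1) + J.C := by
  have z0 := h.ζ0
  have z1 : (0 : ℝ) < 1 + J.ζ := by linarith
  have hq : (0 : ℝ) ≤ (1 + J.ζ) * (2 ^ (κ + 1) / 2 ^ J.a1) := by positivity
  have hF := h.upF κ y hy p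
  have hm : (J.R κ y - (J.e κ + (1 + J.ζ) * (2 ^ (κ + 1) / 2 ^ J.a1) + J.C)) / (1 + J.ζ) - J.D y y' ≤
      J.R κ' y' := by
    refine h.low κ' y' hy' p' _ (fun z hz => ?_) (fun κ₂ z hM => ?_)
    · have h2 := h.F_lip y z hy hz
      have h3 : (J.D y z : ℝ) ≤ J.D y y' + J.D y' z := by exact_mod_cast h.tri y y' z
      rw [sub_le_iff_le_add, div_le_iff₀ z1]
      have h4 : ((J.F z : ℝ) + J.D y z) * (1 + J.ζ) ≤ (J.D y' z + J.F z + J.D y y') * (1 + J.ζ) :=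
        mul_le_mul_of_nonneg_right (by linarith) z1.le
      linarith
    · have h2 := h.up_all hy p hM.1 hM.2.1
      have h3 : (J.D y z : ℝ) ≤ J.D y y' + J.D y' z := by exact_mod_cast h.tri y y' z
      rw [sub_le_iff_le_add, div_le_iff₀ z1]
      have h4 : ((J.D y z : ℝ) + J.A κ₂ z) * (1 + J.ζ) ≤ (J.D y' z + J.A κ₂ z + J.D y y') * (1 + J.ζ) :=
        mul_le_mul_of_nonneg_right (by linarith) z1.le
      linarith
  rw [sub_le_iff_le_add, div_le_iff₀ z1] at hm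
  linarith

/-- own-class numbers: `cl y` = class, `rn y` = grid state of `y`; error of the jump `≤ b 2^κ + c` -/
structure JIn.Own (J : JIn σ) (cl : σ → ℕ) (rn : σ → σ) (b c β : ℝ) : Prop where
  dom : ∀ y, J.Dom y → J.Dom (rn y)
  pr : ∀ y, J.Dom y → J.Pr (cl y) (rn y)
  near : ∀ y, J.Dom y → (J.D y (rn y) : ℝ) ≤ β * J.F y
  cl_le : ∀ y, J.Dom y → 2 ^ cl y ≤ J.F y + 1
  e_le : ∀ κ, J.e κ ≤ b * 2 ^ κ + c
  b0 : 0 ≤ b
  c0 : 0 ≤ c
  β0 : 0 ≤ β

/-- the arrival value of an arbitrary state: round to the own grid, then arrive -/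
noncomputable def JIn.Rn (J : JIn σ) (cl : σ → ℕ) (rn : σ → σ) (y : σ) : ℝ :=
  J.D y (rn y) + J.R (cl y) (rn y)

variable {cl : σ → ℕ} {rn : σ → σ} {b c β : ℝ}

/-- **arrival Lipschitz for arbitrary states** (relative form) -/
theorem JIn.Ok.own (h : J.Ok) (o : J.Own cl rn b c β) {y y' : σ} (hy : J.Dom y) (hy' : J.Dom y') :
    J.Rn cl rn y ≤ (1 + J.ζ) * (J.Rn cl rn y' + J.D y y') +
      ((b + 4 / 2 ^ J.a1 + 3 * β) * (J.F y + 1) + (J.C + c)) := by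
  have h1 := h.lip (o.dom y hy) (o.dom y' hy') (o.pr y hy) (o.pr y' hy')
  have z0 := h.ζ0
  have z1 := h.ζ1
  have tr : ∀ a b c, (J.D a c : ℝ) ≤ J.D a b + J.D b c := fun a b c => by exact_mod_cast h.tri a b c
  have h2 : (J.D (rn y) (rn y') : ℝ) ≤ J.D y (rn y) + J.D y y' + J.D y' (rn y') := by
    have a1 := tr (rn y) y (rn y')
    have a2 := tr y y' (rn y')
    have a3 : (J.D (rn y) y : ℝ) = J.D y (rn y) := by rw [h.symm]
    linarith
  have h3 := o.near y hy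
  have h4 : (2 : ℝ) ^ cl y ≤ J.F y + 1 := by exact_mod_cast o.cl_le y hy
  have h5 := o.e_le (cl y)
  have h6 : J.e (cl y) ≤ b * (J.F y + 1) + c := by
    have := mul_le_mul_of_nonneg_left h4 o.b0
    linarith
  have h7 : (1 + J.ζ) * ((2 : ℝ) ^ (cl y + 1) / 2 ^ J.a1) ≤ 4 / 2 ^ J.a1 * (J.F y + 1) := by
    have e1 : (1 + J.ζ) * ((2 : ℝ) ^ (cl y + 1) / 2 ^ J.a1) = (1 + J.ζ) * (2 / 2 ^ J.a1 * 2 ^ cl y) := by
      rw [pow_add]; ring
    rw [e1]
    have e2 : (2 : ℝ) / 2 ^ J.a1 * 2 ^ cl y ≤ 2 / 2 ^ J.a1 * (J.F y + 1) :=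
      mul_le_mul_of_nonneg_left h4 (by positivity)
    have e3 : (0 : ℝ) ≤ 2 / 2 ^ J.a1 * 2 ^ cl y := by positivity
    calc (1 + J.ζ) * (2 / 2 ^ J.a1 * 2 ^ cl y) ≤ 2 * (2 / 2 ^ J.a1 * 2 ^ cl y) :=
          mul_le_mul_of_nonneg_right (by linarith) e3
      _ ≤ 2 * (2 / 2 ^ J.a1 * (J.F y + 1)) := by linarith
      _ = 4 / 2 ^ J.a1 * (J.F y + 1) := by ring
  have h8 : β * (J.F y : ℝ) ≤ β * (J.F y + 1) := mul_le_mul_of_nonneg_left (by linarith) o.β0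
  have h9 : (1 + J.ζ) * (J.R (cl y') (rn y') + J.D (rn y) (rn y')) ≤
      (1 + J.ζ) * (J.Rn cl rn y' + J.D y y') + 2 * (β * (J.F y + 1)) := by
    unfold JIn.Rn
    have e1 : (1 + J.ζ) * (J.R (cl y') (rn y') + J.D (rn y) (rn y')) ≤
        (1 + J.ζ) * (J.D y' (rn y') + J.R (cl y') (rn y') + J.D y y' + β * (J.F y + 1)) :=
      mul_le_mul_of_nonneg_left (by linarith) (by linarith)
    have e2 : (0 : ℝ) ≤ β * (J.F y + 1) := mul_nonneg o.β0 (by positivity)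
    nlinarith
  have h10 : J.Rn cl rn y = J.D y (rn y) + J.R (cl y) (rn y) := rfl
  rw [h10]
  have h11 : (b + 4 / 2 ^ J.a1 + 3 * β) * ((J.F y : ℝ) + 1) =
    b * (J.F y + 1) + 4 / 2 ^ J.a1 * (J.F y + 1) + 3 * (β * (J.F y + 1)) := by ring
  linarith

/-- the arrival value is at most the unit function up to errors -/
theorem JIn.Ok.Rn_le (h : J.Ok) (o : J.Own cl rn b c β) {y : σ} (hy : J.Dom y) :
    J.Rn cl rn y ≤ (1 + J.ζ) * J.F y + (b + 3 * β) * (J.F y + 1) + (J.C + c) := by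
  have h1 := h.upF (cl y) (rn y) (o.dom y hy) (o.pr y hy)
  have h2 := h.F_lip (rn y) y (o.dom y hy) hy
  have h3 := o.near y hy
  have h4 : (2 : ℝ) ^ cl y ≤ J.F y + 1 := by exact_mod_cast o.cl_le y hy
  have h6 : J.e (cl y) ≤ b * (J.F y + 1) + c := by
    have := mul_le_mul_of_nonneg_left h4 o.b0
    have := o.e_le (cl y)
    linarith
  have z0 := h.ζ0
  have z1 := h.ζ1
  have h7 : (J.D (rn y) y : ℝ) = J.D y (rn y) := by rw [h.symm]
  have h8 : (J.D (rn y) y : ℝ) ≤ β * (J.F y + 1) := by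
    rw [h7]
    exact h3.trans (mul_le_mul_of_nonneg_left (by linarith) o.β0)
  have h9 : (0 : ℝ) ≤ β * (J.F y + 1) := mul_nonneg o.β0 (by positivity)
  unfold JIn.Rn
  nlinarith [mul_nonneg z0 (by linarith : (0 : ℝ) ≤ β * (J.F y + 1) - J.D (rn y) y)]

/-- **absolute form** for near states: the hypothesis `hR` of `OscW283.piece` (with the unit
`F + C₁ / b'` instead of `F` if the additive constant is to be absorbed) -/
theorem JIn.Ok.abs (h : J.Ok) (o : J.Own cl rn b c β) (hb : b + 3 * β ≤ 1) {y y' : σ} (hy : J.Dom y)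
    (hy' : J.Dom y') {m : ℝ} (hm : (J.F y : ℝ) ≤ m) (hm' : (J.F y' : ℝ) ≤ m)
    (hd : (J.D y y' : ℝ) ≤ 2 * m) :
    |J.Rn cl rn y - J.Rn cl rn y'| ≤ J.D y y' + (b + 4 / 2 ^ J.a1 + 3 * β + 5 * J.ζ) * (m + 1) +
      (1 + J.ζ) * (J.C + c) := by
  have h1 := h.own o hy hy'
  have h2 := h.own o hy' hy
  have h3 := h.Rn_le o hy
  have h4 := h.Rn_le o hy'
  have z0 := h.ζ0
  have z1 := h.ζ1
  have m0 : (0 : ℝ) ≤ m := le_trans (Nat.cast_nonneg _) hm
  have c0 := h.C0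
  have c1 := o.c0
  have q0 : (0 : ℝ) ≤ b + 3 * β := add_nonneg o.b0 (mul_nonneg (by norm_num) o.β0)
  have q1 : (0 : ℝ) ≤ b + 4 / 2 ^ J.a1 + 3 * β := by
    have : (0 : ℝ) ≤ 4 / 2 ^ J.a1 := by positivity
    linarith
  have hRm : ∀ x : σ, J.Dom x → (J.F x : ℝ) ≤ m → J.Rn cl rn x ≤ 3 * (m + 1) + (J.C + c) := by
    intro x hx hxm
    have e1 := h.Rn_le o hx
    have e2 : (1 + J.ζ) * (J.F x : ℝ) ≤ 2 * m := by
      have : (0 : ℝ) ≤ J.F x := Nat.cast_nonneg _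
      nlinarith
    have e3 : (b + 3 * β) * ((J.F x : ℝ) + 1) ≤ 1 * (m + 1) :=
      mul_le_mul hb (by linarith) (by positivity) (by norm_num)
    linarith
  have key : ∀ x x' : σ, J.Dom x → J.Dom x' → (J.F x : ℝ) ≤ m → (J.F x' : ℝ) ≤ m →
      J.D x x' = J.D y y' → J.Rn cl rn x - J.Rn cl rn x' ≤ J.D y y' +
        (b + 4 / 2 ^ J.a1 + 3 * β + 5 * J.ζ) * (m + 1) + (1 + J.ζ) * (J.C + c) := by
    intro x x' hx hx' hxm hxm' hD
    have e1 := h.own o hx hx'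
    rw [hD] at e1
    have e2 := hRm x' hx' hxm'
    have e3 : (b + 4 / 2 ^ J.a1 + 3 * β) * ((J.F x : ℝ) + 1) ≤
        (b + 4 / 2 ^ J.a1 + 3 * β) * (m + 1) := mul_le_mul_of_nonneg_left (by linarith) q1
    have e4 : J.ζ * (J.Rn cl rn x' + J.D y y') ≤ J.ζ * (5 * (m + 1) + (J.C + c)) :=
      mul_le_mul_of_nonneg_left (by linarith) z0
    nlinarith
  rw [abs_le]
  constructor
  · have := key y' y hy' hy hm' hm (h.symm _ _)
    linarith
  · exact key y y' hy hy' hm hm' rfl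

/-! ### Leaves -/

/-- **(J) holds at an exact state without error** (only needed if the arrival tests the leaf):
`R κ y = A κ y = G y`, `y` is its own grid state -/
theorem leaf_J {G : σ → ℝ} (D0 : ∀ x, J.D x x = 0) (hF : ∀ z, J.Dom z → G z ≤ J.F z)
    (hlip : ∀ x z, J.Dom x → J.Dom z → G x ≤ J.D x z + G z)
    (hA : ∀ κ z, J.Dom z → J.Pr κ z → G z ≤ J.A κ z) {κ : ℕ} {y : σ} (hy : J.Dom y) (p : J.Pr κ y)
    (he : 0 ≤ J.e κ) (hR : J.R κ y = G y) (hAy : J.A κ y = G y) :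
    (∀ m : ℝ, (∀ z, J.Dom z → m ≤ J.D y z + J.F z) →
      (∀ κ' z, J.M κ y κ' z → m ≤ J.D y z + J.A κ' z) → m ≤ J.R κ y) ∧ J.R κ y ≤ J.F y + J.e κ ∧
      ∀ κ' z, J.M κ y κ' z → J.R κ y ≤ J.D y z + J.A κ' z + J.e κ := by
  refine ⟨fun m _ hm => ?_, ?_, ?_⟩
  · have := hm κ y ⟨hy, p, by omega, by omega, by rw [D0]; omega⟩
    rw [D0, hAy] at this
    rw [hR]
    simpa using this
  · rw [hR]; linarith [hF y hy]
  · intro κ' z hM
    rw [hR]
    have := hlip y z hy hM.1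
    have := hA κ' z hM.1 hM.2.1
    linarith

end Crest.Agent.R288.ArrLip195
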