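import Crest.Agent.R288.ArrX_984

/-!
# R288, leaf L6: number of the candidates of a jump

* `length_acells_le`, `csz_le`, `length_jks_le` : number of tables / entries.
* `JPar.of_num` : the parameter lines of `ArrX984.JPar` from numbers of `P` only.
-/

set_option autoImplicit false

namespace Crest.Agent.R288.ArrN984

open Crest.Agent.R288.Alg45 Crest.Agent.R288.ArrB147 Crest.Agent.R288.ArrX984

variable {P : Par}

theorem length_rngC (lo hi : ℕ) : (rngC lo hi).length = hi + 1 - lo := by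
  unfold rngC
  simp

theorem length_flatMap_le {α β : Type} (l : List α) (f : α → List β) {n : ℕ}
    (h : ∀ a ∈ l, (f a).length ≤ n) : (l.flatMap f).length ≤ l.length * n := by
  induction l with
  | nil => simp
  | cons a l ih =>
    rw [List.flatMap_cons, List.length_append, List.length_cons, Nat.add_mul, Nat.one_mul,
      Nat.add_comm]
    exact Nat.add_le_add (ih fun b hb => h b (List.mem_cons_of_mem _ hb)) (h a (by simp))

theorem length_acells_le (κ : ℕ) (m : ℤ) : (acells P κ m).length ≤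
    (P.a1 + P.a2 + 1) * ((2 * P.r + 1) * 2 ^ P.a1 + 2) := by
  unfold acells
  refine (length_flatMap_le _ _ (n := (2 * P.r + 1) * 2 ^ P.a1 + 2) fun κ' hκ' => ?_).trans
    (Nat.mul_le_mul_right _ ?_)
  · rw [List.length_map]
    refine (List.length_filter_le _ _).trans ?_
    refine Cell488.length_cellsIn_le.trans ?_
    have h1 := (ArrG147.mem_jCl P).1 hκ'
    have h2 : 2 ^ (κ - κ') ≤ 2 ^ P.a1 := Nat.pow_le_pow_right (by norm_num) (by omega)
    have h3 := Nat.mul_le_mul_left (2 * P.r + 1) h2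
    omega
  · unfold jCl
    rw [length_rngC]
    omega

theorem csz_le (κ : ℕ) : csz P κ ≤ 18 * 4 ^ P.pb := by
  have h1 : gpt P κ ≤ 2 ^ P.pb := Nat.pow_le_pow_right (by norm_num) (by omega)
  have h2 : 0 < gpt P κ := Cell488.gpt_pos P κ
  have h4 : (4 : ℕ) ^ P.pb = 2 ^ P.pb * 2 ^ P.pb := by rw [← mul_pow]; norm_num
  unfold csz cu cv
  rw [h4]
  calc gpt P κ * (17 * gpt P κ + 1) ≤ gpt P κ * (18 * gpt P κ) := Nat.mul_le_mul_left _ (by omega)
    _ = 18 * (gpt P κ * gpt P κ) := by ring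
    _ ≤ 18 * (2 ^ P.pb * 2 ^ P.pb) := Nat.mul_le_mul_left _ (Nat.mul_le_mul h1 h1)

/-- number of entries read by one jump -/
def nJ (P : Par) : ℕ := (P.a1 + P.a2 + 1) * ((2 * P.r + 1) * 2 ^ P.a1 + 2) * (18 * 4 ^ P.pb)

theorem length_jks_le (c : Cel) : (jks P c).length ≤ nJ P := by
  unfold jks
  refine (length_flatMap_le _ _ (n := 18 * 4 ^ P.pb) fun p _ => ?_).trans
    (Nat.mul_le_mul_right _ ?_)
  · rw [List.length_map, List.length_range]
    exact csz_le _
  · rw [List.length_range]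
    exact length_acells_le _ _

/-- the parameter lines from numbers -/
theorem jpar_of_num {b w d η : ℝ} {s : ℕ} (r : 8 ≤ P.r) (gJ : P.gJ = 2 * (6 * s) + 1)
    (mJ : 0 < P.mJ) (b0 : 0 ≤ b) (w0 : 0 ≤ w) (d1 : 8 + b * 2 ^ P.a2 ≤ d) (d2 : 32 ≤ d)
    (m3 : 3 * w * 4 ^ (P.a2 + P.bb + 2) ≤ P.mJ) (η0 : 0 ≤ η)
    (q : ((nJ P : ℝ) + 1) * d ≤ η * 2 ^ s) : JPar P b w d η s where
  r := r
  gJ := gJ
  mJ := mJ
  b0 := b0
  w0 := w0
  d1 := d1
  d2 := d2
  m3 := m3
  η0 := η0
  q := by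
    intro c
    have h1 : ((jks P c).length : ℝ) ≤ nJ P := by exact_mod_cast length_jks_le c
    have hd0 : (0 : ℝ) ≤ d := by linarith
    have h2 : (0 : ℝ) < 2 ^ s := by positivity
    have h3 : (((jks P c).length : ℝ) + 1) * d ≤ η * 2 ^ s :=
      (mul_le_mul_of_nonneg_right (by linarith) hd0).trans q
    calc (((jks P c).length : ℝ) + 1) * (1 / 2) ^ s * d
        = ((((jks P c).length : ℝ) + 1) * d) / 2 ^ s := by
          rw [one_div, inv_pow]; field_simp
      _ ≤ η := by rw [div_le_iff₀ h2]; exact h3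

end Crest.Agent.R288.ArrN984
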