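import Crest.Agent.R288.ArrC_222
import Crest.Agent.R288.PtbD_964

/-!
# R288, [PROG] procedure ARR (helper222): certificates of the text

`ptf_cOf ptf_arS ptf_arC ptf_ent ptf_qU ptf_qX ptf_qF ptf_qA ptf_qB` (requests of `PgY_583`),
`ptf_rqA ptf_fnA ptf_phA` (hypotheses `hP : PTF P`, class of the cell unary, `la`, `lf` certified).
-/

set_option autoImplicit false

namespace Crest.Agent.R288.Delta222

open Crest.Agent.Lib.PT Crest.Agent.R288.Alg45 Crest.Agent.R288.PtX949 Crest.Agent.R288.StPT569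
  Crest.Agent.R288.PtSt966 Crest.Agent.R288.PtbD964
open Crest.Agent.R288.PgY583 (arS arC ent qU qX qF qA qB)

variable {γ : Type} [PTCode γ]

@[fun_prop]
theorem ptf_cOf {ar : γ → PgY583.Ar} (har : PTF ar) : PTF (fun c => cOf (ar c)) := by
  unfold cOf
  fun_prop

@[fun_prop]
theorem ptf_arS {a k : γ → ℕ} {y : γ → St} (ha : PTF a) (hk : PTF k) (hy : PTF y) :
    PTF (fun c => arS (a c) (k c) (y c)) := by
  unfold arS
  fun_prop

@[fun_prop]
theorem ptf_arC {a : γ → ℕ} {x : γ → Cel} (ha : PTF a) (hx : PTF x) :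
    PTF (fun c => arC (a c) (x c)) := by
  unfold arC
  fun_prop

theorem ent_eq (tg : ℕ) (ar : PgY583.Ar) : ent tg ar = Pgb578.fr0 tg ar [] := rfl

@[fun_prop]
theorem ptf_ent {tg : γ → ℕ} {ar : γ → PgY583.Ar} (ht : PTF tg) (ha : PTF ar) :
    PTF (fun c => ent (tg c) (ar c)) := by
  simp only [ent_eq]
  exact Pgb578.ptf_fr0 ht ha (PTF.const [])

@[fun_prop]
theorem ptf_qU {y : γ → St} (hy : PTF y) : PTF (fun c => qU (y c)) := by
  unfold qU
  fun_prop

@[fun_prop]
theorem ptf_qX {l κ : γ → ℕ} {y : γ → St} (hl : PTF l) (hκ : PTF κ) (hy : PTF y) :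
    PTF (fun c => qX (l c) (κ c) (y c)) := by
  unfold qX
  fun_prop

@[fun_prop]
theorem ptf_qF {e : γ → ℕ} {y : γ → St} (he : PTF e) (hy : PTF y) :
    PTF (fun c => qF (e c) (y c)) := by
  unfold qF
  fun_prop

@[fun_prop]
theorem ptf_qA {l : γ → ℕ} {x : γ → Cel} (hl : PTF l) (hx : PTF x) :
    PTF (fun c => qA (l c) (x c)) := by
  unfold qA
  fun_prop

@[fun_prop]
theorem ptf_qB {l : γ → ℕ} {x : γ → Cel} (hl : PTF l) (hx : PTF x) :
    PTF (fun c => qB (l c) (x c)) := by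
  unfold qB
  fun_prop

section arr

variable {P : γ → Par} {ar : γ → PgY583.Ar} {la : γ → St → List ℕ} {lf : γ → ℕ → St → Option ℕ}

theorem ptf_rqA (hP : PTF P) (hκ : PTU (fun c => (cOf (ar c)).κ)) (har : PTF ar)
    (hla : PTF (fun q : γ × St => la q.1 q.2)) : PTF (fun c => rqA (P c) (la c) (ar c)) := by
  have hx : PTF (fun c => cOf (ar c)) := ptf_cOf har
  have hcs := ptf_csts hP hκ hx
  have hab := ptf_abod hP hκ hx
  have h1 : PTF (fun c => (ar c).1) := PTF.comp PTF.fst har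
  have he : PTF (fun c => ((ar c).1 - 1) / (P c).K) :=
    PTF.natDiv (PTF.natSub h1 (PTF.const 1)) (ptf_K hP)
  have hF : PTF (fun c => (csts (P c) (cOf (ar c))).map (qF (((ar c).1 - 1) / (P c).K))) :=
    PTF.map (f := fun c y => qF (((ar c).1 - 1) / (P c).K) y) hcs
      (ptf_qF (PTF.comp he PTF.fst) PTF.snd)
  have hL : PTF (fun c => (csts (P c) (cOf (ar c))).map (qL (la c))) := by
    refine PTF.map (f := fun c y => qL (la c) y) hcs ?_
    unfold qL
    exact PTF.listCons (PTF.const 3) hla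
  have hB : PTF (fun c => (abod (P c) (cOf (ar c))).map (qB (ar c).1)) :=
    PTF.map (f := fun c y => qB (ar c).1 y) hab
      (ptf_qB (PTF.comp (g := fun c => (ar c).1) (f := fun q : γ × Cel => q.1) h1 PTF.fst)
        PTF.snd)
  unfold rqA
  exact PTF.ite (PTPred.natEq (ptf_celI hx) (PTF.const 0)) (PTF.append hF hL) (PTF.append hB hF)

theorem ptf_fnA {us : γ → List (List ℕ)} (hP : PTF P) (hκ : PTU (fun c => (cOf (ar c)).κ))
    (har : PTF ar) (hlf : PTF (fun q : γ × ℕ × St => lf q.1 q.2.1 q.2.2)) (hus : PTF us) :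
    PTF (fun c => fnA (P c) (lf c) (ar c) (us c)) := by
  have hx : PTF (fun c => cOf (ar c)) := ptf_cOf har
  have hcs : PTU (fun c => (csts (P c) (cOf (ar c))).length) := PTU.length (ptf_csts hP hκ hx)
  have hab : PTU (fun c => (abod (P c) (cOf (ar c))).length) := PTU.length (ptf_abod hP hκ hx)
  unfold fnA
  exact PTF.ite (PTPred.natEq (ptf_celI hx) (PTF.const 0))
    (ptf_botFin hP hκ hx hlf (PTF.take hcs hus) (PTF.drop hcs hus))
    (ptf_arrFin hP hκ hx (PTF.take hab hus) (PTF.drop hab hus))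

/-- **certificate of the text of ARR** -/
theorem ptf_phA {sv : γ → PgY583.Svd} (hP : PTF P) (hκ : PTU (fun c => (cOf (ar c)).κ))
    (har : PTF ar) (hla : PTF (fun q : γ × St => la q.1 q.2))
    (hlf : PTF (fun q : γ × ℕ × St => lf q.1 q.2.1 q.2.2)) (hsv : PTF sv) :
    PTF (fun c => phA (P c) (la c) (lf c) (ar c) (sv c)) := by
  have h0 : PTPred (fun c => (sv c).length = 0) :=
    PTPred.natEq (PTU.toPTF (PTU.length hsv)) (PTF.const 0)
  have h1 : PTF (fun c => (sv c).getD 0 []) := PTF.getD (PTU.const 0) hsv (PTF.const [])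
  unfold phA
  exact PTF.ite h0 (PTF.inr (ptf_rqA hP hκ har hla)) (PTF.inl (ptf_fnA hP hκ har hlf h1))

end arr

end Crest.Agent.R288.Delta222
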