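import Crest.Agent.R288.Jump_984
import Crest.Agent.R288.MedL_984

/-!
# R288, leaf L6: the law of the arrival table of AlgB_45 (v2, joint draws)

`body : Cel → RT (List ℕ)` is an ARBITRARY family, `c` a cell, `t₀` an entry of `c` with admissible
state `y = cst P c t₀`.  Candidates are indexed by `x : ℕ × ℕ` = (number of the table, entry).

* `jz`, `jE`, `jg`, `jmn`, `jvr` : state of a candidate, estimates, fresh value, mean, variance
* `Ev_arrOf` : the entry `t₀` of `arrOf` = estimates first, then one fresh joint draw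
* `JOk` : what is needed at one entry; constructors `JOk.of_var`, `JOk.of_const`
* `JOk.low`, `le_stay`, `le_opt`, `sq_le`, `All_arrOf`
-/

set_option autoImplicit false

namespace Crest.Agent.R288.ArrV984

open Finset Crest.Agent.R295.Rnd627 Crest.Agent.R295.Rnd627.RT Crest.Agent.R288.Alg45
  Crest.Agent.R288.Jump984 Crest.Agent.R288.MedL984 Crest.Agent.R288.Med559

/-! ### one component of a list of computations -/

section seqL

variable {α : Type}

theorem Ev_seqL_getD {W : ℕ} (hW : 0 < W) (d : α) (f : α → ℝ) : ∀ (ts : List (RT α)) (p : ℕ)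
    (hp : p < ts.length), ((seqL ts).Ev W fun l => f (l.getD p d)) = (ts[p]).Ev W f
  | [], p, hp => absurd hp (by simp)
  | t :: ts, 0, _ => by
    simp only [seqL, Ev_bind, Ev_ret, List.getD_cons_zero, List.getElem_cons_zero]
    congr 1
    funext a
    exact Ev_const hW _ _
  | t :: ts, p + 1, hp => by
    simp only [seqL, Ev_bind, Ev_ret, List.getD_cons_succ, List.getElem_cons_succ]
    rw [Ev_const hW]
    exact Ev_seqL_getD hW d f ts p (by simpa using hp)

theorem All_seqL_getD {W : ℕ} (d : α) {P : ℕ → α → Prop} : ∀ (ts : List (RT α))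
    (_ : ∀ (p : ℕ) (hp : p < ts.length), (ts[p]).All W (P p)),
    (seqL ts).All W fun l => l.length = ts.length ∧ ∀ p < ts.length, P p (l.getD p d)
  | [], _ => by
    simp only [seqL, All_ret]
    exact ⟨rfl, fun p hp => absurd hp (by simp)⟩
  | t :: ts, h => by
    simp only [seqL, All_bind, All_ret]
    have h0 := h 0 (by simp)
    have h1 := All_seqL_getD d (P := fun p => P (p + 1)) ts fun p hp => by
      have := h (p + 1) (by simpa using hp)
      simpa using this
    refine h0.mono fun a ha => h1.mono fun l hl => ⟨by simp [hl.1], fun p hp => ?_⟩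
    cases p with
    | zero => simpa using ha
    | succ p => simpa using hl.2 p (by simpa using hp)

theorem All_all {γ : Type} {W : ℕ} (u : RT α) {P : γ → α → Prop} (h : ∀ x, u.All W (P x)) :
    u.All W fun a => ∀ x, P x a := by
  induction u with
  | ret a => exact fun x => h x
  | rnd k ih => exact fun v hv => ih v fun x => h x v hv

end seqL

variable (P : Par)

/-- state of a candidate -/
def jz (c : Cel) (x : ℕ × ℕ) : St := cst P (acell P c x.1) x.2

/-- number of tables of one joint draw -/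
def jn (c : Cel) : ℕ := (acells P c.κ c.m).length

/-- number of the cell itself -/
def jp (c : Cel) : ℕ := (acells P c.κ c.m).idxOf (c.κ, c.m)

/-- fresh value of a candidate -/
def jg (B : List (List ℕ)) (x : ℕ × ℕ) : ℕ := jent B x.1 x.2

/-- the estimates -/
def jE (body : Cel → RT (List ℕ)) (c : Cel) : RT (ℕ × ℕ → ℕ) :=
  (reps (P.gJ * P.mJ) (jdraw P body c)).map fun Es x => jest P Es x.1 x.2

/-- the list of candidates from the estimates `E` and the values `V` -/
def jcd (c : Cel) (E V : ℕ × ℕ → ℕ) : List (St × ℕ × ℕ) :=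
  (List.range (jn P c)).flatMap fun p =>
    (List.range (csz P (acell P c p).κ)).map fun t => (cst P (acell P c p) t, E (p, t), V (p, t))

theorem jcand_eq (c : Cel) (Es : List (List (List ℕ))) (B : List (List ℕ)) :
    jcand P c Es B = jcd P c (fun x => jest P Es x.1 x.2) (jg B) := rfl

/-- entry of an arrival table from the estimates `E` and the values `V` -/
def avl (F : St → ℕ) (c : Cel) (t₀ : ℕ) (E V : ℕ × ℕ → ℕ) : ℕ :=
  arrNum P F c.κ (cst P c t₀) (E (jp P c, t₀)) (V (jp P c, t₀)) (jcd P c E V)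

/-- **the entries of `arrOf`** -/
theorem Ev_arrOf_list (W : ℕ) (F : St → ℕ) (body : Cel → RT (List ℕ)) (c : Cel)
    (φ : List ℕ → ℝ) :
    (arrOf P F body c).Ev W φ =
      (jE P body c).Ev W fun E => (jdraw P body c).Ev W fun B =>
        φ ((List.range (csz P c.κ)).map fun t => avl P F c t E (jg B)) := by
  unfold arrOf jE
  rw [Ev_bind, Ev_map]
  congr 1
  funext Es
  rw [Ev_bind]
  rfl

theorem Ev_arrOf (W : ℕ) (F : St → ℕ) (body : Cel → RT (List ℕ)) (c : Cel) {t₀ : ℕ}
    (ht : t₀ < csz P c.κ) (φ : ℕ → ℝ) :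
    ((arrOf P F body c).Ev W fun T => φ (T.getD t₀ 0)) =
      (jE P body c).Ev W fun E => (jdraw P body c).Ev W fun B => φ (avl P F c t₀ E (jg B)) := by
  rw [Ev_arrOf_list]
  congr 1
  funext E
  congr 1
  funext B
  rw [List.getD_eq_getElem?_getD, List.getElem?_map, List.getElem?_range ht]
  rfl

/-- mean of an entry -/
noncomputable def emn (W : ℕ) (b : RT (List ℕ)) (t : ℕ) : ℝ := b.Ev W fun T => (T.getD t 0 : ℝ)

/-- variance of an entry -/
noncomputable def evr (W : ℕ) (b : RT (List ℕ)) (t : ℕ) : ℝ :=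
  b.Ev W fun T => ((T.getD t 0 : ℝ) - emn W b t) ^ 2

/-- mean of a candidate -/
noncomputable def jmn (W : ℕ) (body : Cel → RT (List ℕ)) (c : Cel) (x : ℕ × ℕ) : ℝ :=
  emn W (body (acell P c x.1)) x.2

/-- variance of a candidate -/
noncomputable def jvr (W : ℕ) (body : Cel → RT (List ℕ)) (c : Cel) (x : ℕ × ℕ) : ℝ :=
  evr W (body (acell P c x.1)) x.2

theorem Ev_jdraw {W : ℕ} (hW : 0 < W) (body : Cel → RT (List ℕ)) (c : Cel) {x : ℕ × ℕ}
    (hx : x.1 < jn P c) (f : ℕ → ℝ) :
    ((jdraw P body c).Ev W fun B => f (jg B x)) =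
      (body (acell P c x.1)).Ev W fun T => f (T.getD x.2 0) := by
  have h := Ev_seqL_getD hW ([] : List ℕ) (fun T => f (T.getD x.2 0))
    ((List.range (acells P c.κ c.m).length).map fun p => body (acell P c p)) x.1
    (by simpa [jn] using hx)
  rw [List.getElem_map, List.getElem_range] at h
  exact h

theorem mn_jdraw {W : ℕ} (hW : 0 < W) (body : Cel → RT (List ℕ)) (c : Cel) {x : ℕ × ℕ}
    (hx : x.1 < jn P c) : mn W (jdraw P body c) jg x = jmn P W body c x :=
  Ev_jdraw P hW body c hx fun a => (a : ℝ)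

theorem vr_jdraw {W : ℕ} (hW : 0 < W) (body : Cel → RT (List ℕ)) (c : Cel) {x : ℕ × ℕ}
    (hx : x.1 < jn P c) : vr W (jdraw P body c) jg x = jvr P W body c x := by
  unfold vr
  rw [mn_jdraw P hW body c hx]
  exact Ev_jdraw P hW body c hx fun a => ((a : ℝ) - jmn P W body c x) ^ 2

/-! ### estimates -/

/-- one estimate is good, except with probability `2 ^ (-s)` -/
theorem Pr_jest {W : ℕ} (hW : 0 < W) (body : Cel → RT (List ℕ)) (c : Cel) {s : ℕ}
    (hG : P.gJ = 2 * (6 * s) + 1) (hM : 0 < P.mJ) {e : ℝ} (he : 0 < e) {x : ℕ × ℕ}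
    (hx : x.1 < jn P c) (h3 : 3 * jvr P W body c x ≤ P.mJ * e ^ 2) :
    (jE P body c).Pr W (fun E => ¬ |(E x : ℝ) - jmn P W body c x| ≤ e + 1) ≤ (1 / 2) ^ s := by
  have h1 := Pr_medG hW (t := jdraw P body c) (fun B => jg B x) ([] : List (List ℕ)) hM
    (r := fun S => S / P.mJ) (div_round hM) he (V := jvr P W body c x)
    (le_of_eq (vr_jdraw P hW body c hx)) h3 s
  have h2 : (jE P body c).Pr W (fun E => ¬ |(E x : ℝ) - jmn P W body c x| ≤ e + 1) =
      (reps ((2 * (6 * s) + 1) * P.mJ) (jdraw P body c)).Pr W (fun l =>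
      ¬ |(medG (2 * (6 * s) + 1) P.mJ (fun S => S / P.mJ)
          (fun a b => jg (l.getD (a * P.mJ + b) []) x) : ℝ) -
        (jdraw P body c).Ev W fun B => (jg B x : ℝ)| ≤ e + 1) := by
    unfold jE
    rw [Pr_map, hG]
    have h3 : (jdraw P body c).Ev W (fun B => (jg B x : ℝ)) = jmn P W body c x :=
      mn_jdraw P hW body c hx
    rw [h3]
    unfold jest
    rw [hG]
    rfl
  rw [h2]
  exact h1

/-- all estimates of a finite set of options -/
theorem Pr_jclose {W : ℕ} (hW : 0 < W) (body : Cel → RT (List ℕ)) (c : Cel) {s : ℕ}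
    (hG : P.gJ = 2 * (6 * s) + 1) (hM : 0 < P.mJ) {e : ℝ} (he : 0 < e)
    (S : Finset (Option (ℕ × ℕ))) (hS : ∀ x, some x ∈ S → x.1 < jn P c)
    (h3 : ∀ x, some x ∈ S → 3 * jvr P W body c x ≤ P.mJ * e ^ 2) :
    (jE P body c).Pr W (fun E => ¬ Close S (jmn P W body c) (e + 1) E) ≤ S.card * (1 / 2) ^ s := by
  classical
  have h1 : (jE P body c).Pr W (fun E => ¬ Close S (jmn P W body c) (e + 1) E) ≤
      (jE P body c).Pr W (fun E => ∃ x ∈ S.eraseNone, ¬ |(E x : ℝ) - jmn P W body c x| ≤ e + 1) := by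
    refine Pr_mono fun E hE => ?_
    by_contra hc'
    push Not at hc'
    exact hE fun x hx => hc' x (Finset.mem_eraseNone.2 hx)
  refine h1.trans ((Pr_exists_le W (jE P body c) S.eraseNone fun x E =>
    ¬ |(E x : ℝ) - jmn P W body c x| ≤ e + 1).trans ?_)
  have h2 : ∀ x ∈ S.eraseNone, (jE P body c).Pr W (fun E =>
      ¬ |(E x : ℝ) - jmn P W body c x| ≤ e + 1) ≤ (1 / 2) ^ s := fun x hx =>
    Pr_jest P hW body c hG hM he (hS x (Finset.mem_eraseNone.1 hx))
      (h3 x (Finset.mem_eraseNone.1 hx))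
  refine (sum_le_card_nsmul _ _ _ h2).trans ?_
  rw [nsmul_eq_mul]
  refine mul_le_mul_of_nonneg_right ?_ (by positivity)
  exact_mod_cast Finset.card_eraseNone_le S

theorem cle_replicate (n v w : ℕ) : cle (List.replicate n v) w = if v ≤ w then n else 0 := by
  unfold cle
  rw [List.countP_replicate]
  simp

theorem med_replicate {n : ℕ} (hn : 0 < n) (v : ℕ) : Med559.med (List.replicate n v) = v := by
  unfold Med559.med
  have hv : v ∈ {w | (List.replicate n v).length < 2 * cle (List.replicate n v) w} := by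
    show (List.replicate n v).length < 2 * cle (List.replicate n v) v
    rw [cle_replicate, if_pos le_rfl, List.length_replicate]
    omega
  refine le_antisymm (Nat.sInf_le hv) (le_csInf ⟨v, hv⟩ fun w hw => ?_)
  · by_contra hvw
    have hw' : (List.replicate n v).length < 2 * cle (List.replicate n v) w := hw
    rw [cle_replicate, if_neg hvw] at hw'
    omega

/-- the median of means of equal numbers -/
theorem medMean_const {G M : ℕ} {x : ℕ → ℕ → ℕ} {v : ℕ} (hG : 0 < G) (hM : 0 < M)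
    (h : ∀ a < G, ∀ b < M, x a b = v) : medMean G M x = v := by
  rw [medMean_eq, medG_congr (y := fun _ _ => v) h]
  unfold medG sumR
  rw [MedL984.med_eq]
  simp only [List.map_const', List.length_range, List.sum_replicate, smul_eq_mul]
  rw [Nat.mul_div_cancel_left _ hM]
  exact med_replicate hG v

/-- what holds for all entries of one joint draw -/
theorem All_jdraw {W : ℕ} {body : Cel → RT (List ℕ)} {c : Cel} {Q : ℕ → List ℕ → Prop}
    (h : ∀ p < jn P c, (body (acell P c p)).All W (Q p)) :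
    (jdraw P body c).All W fun B => B.length = jn P c ∧ ∀ p < jn P c, Q p (B.getD p []) := by
  have h1 := All_seqL_getD (W := W) ([] : List ℕ) (P := Q)
    ((List.range (acells P c.κ c.m).length).map fun p => body (acell P c p)) fun p hp => by
      rw [List.getElem_map, List.getElem_range]
      exact h p (by simpa [jn] using hp)
  refine h1.mono fun B hB => ?_
  simpa [jn] using hB

/-- **if all entries of the menu are constants, the estimates are exact** -/
theorem All_jest {W : ℕ} {body : Cel → RT (List ℕ)} {c : Cel} (hG : 0 < P.gJ)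
    (hM : 0 < P.mJ) {Q : ℕ × ℕ → Prop} (hQ : ∀ x, Q x → x.1 < jn P c) (g : ℕ × ℕ → ℕ)
    (hg : ∀ x, Q x → (body (acell P c x.1)).All W fun T => T.getD x.2 0 = g x) :
    (jE P body c).All W fun E => ∀ x, Q x → E x = g x := by
  have h1 : ∀ p < jn P c, (body (acell P c p)).All W fun T => ∀ t, Q (p, t) → T.getD t 0 = g (p, t) := by
    intro p _
    refine All_all _ fun t => ?_
    by_cases hQt : Q (p, t)
    · exact (hg (p, t) hQt).mono fun T hT _ => hT
    · exact All.of_forall fun T h => absurd h hQt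
  have h2 := All_reps (All_jdraw P h1) (P.gJ * P.mJ)
  unfold jE RT.map
  rw [All_bind]
  refine h2.mono fun Es hEs => ?_
  rw [All_ret]
  intro x hx
  unfold jest
  refine medMean_const hG hM fun a ha b hb => ?_
  have hab : a * P.mJ + b < Es.length := by
    rw [hEs.1]
    calc a * P.mJ + b < a * P.mJ + P.mJ := by omega
      _ = (a + 1) * P.mJ := by ring
      _ ≤ P.gJ * P.mJ := Nat.mul_le_mul_right P.mJ ha
  have h3 := hEs.2 (Es.getD (a * P.mJ + b) []) (by
    rw [List.getD_eq_getElem?_getD, List.getElem?_eq_getElem hab]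
    exact List.getElem_mem hab)
  exact h3.2 x.1 (hQ x hx) x.2 hx

/-! ### the law at one entry -/

/-- distance of the state of entry `t₀` of the cell `c` to a candidate -/
def jdst (c : Cel) (t₀ : ℕ) (x : ℕ × ℕ) : ℕ := dist (cst P c t₀) (jz P c x)

/-- true price of an option at the entry `t₀` of the cell `c` -/
noncomputable def jpc (W : ℕ) (F : St → ℕ) (body : Cel → RT (List ℕ)) (c : Cel) (t₀ : ℕ)
    (o : Option (ℕ × ℕ)) : ℝ :=
  opt (F (cst P c t₀) : ℝ) (fun x => jdst P c t₀ x + jmn P W body c x) o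

/-- variance of an option -/
noncomputable def jov (W : ℕ) (body : Cel → RT (List ℕ)) (c : Cel) (o : Option (ℕ × ℕ)) : ℝ :=
  opt (0 : ℝ) (fun x => jvr P W body c x) o

variable {P}

theorem emn_nonneg (W : ℕ) (b : RT (List ℕ)) (t : ℕ) : 0 ≤ emn W b t :=
  Ev_nonneg fun _ => Nat.cast_nonneg _

theorem evr_nonneg (W : ℕ) (b : RT (List ℕ)) (t : ℕ) : 0 ≤ evr W b t :=
  Ev_nonneg fun _ => sq_nonneg _

theorem jpc_nonneg (W : ℕ) (F : St → ℕ) (body : Cel → RT (List ℕ)) (c : Cel) (t₀ : ℕ)
    (o : Option (ℕ × ℕ)) : 0 ≤ jpc P W F body c t₀ o := by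
  cases o with
  | none => exact Nat.cast_nonneg _
  | some x => exact add_nonneg (Nat.cast_nonneg _) (emn_nonneg _ _ _)

/-- the choice of the program at the entry `t₀` of `c`: options `S`, choice `z` -/
structure JSel (P : Par) (F : St → ℕ) (c : Cel) (t₀ : ℕ) (S : Finset (Option (ℕ × ℕ)))
    (z : (ℕ × ℕ → ℕ) → Option (ℕ × ℕ)) : Prop where
  ht : t₀ < csz P c.κ
  choice : Choice S (F (cst P c t₀)) (jdst P c t₀) (some (jp P c, t₀)) (2 ^ c.κ / 2 ^ P.bb) z
  val : ∀ E V, avl P F c t₀ E V =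
    opt (F (cst P c t₀)) (fun x => jdst P c t₀ x + V x) (z E)
  stay : some (jp P c, t₀) ∈ S
  rng : ∀ x, some x ∈ S → x.1 < jn P c

/-- what is needed at one entry: with probability at least `1 - q` all estimates are within `δ` -/
structure JOk (P : Par) (W : ℕ) (F : St → ℕ) (body : Cel → RT (List ℕ)) (c : Cel) (t₀ : ℕ)
    (S : Finset (Option (ℕ × ℕ))) (z : (ℕ × ℕ → ℕ) → Option (ℕ × ℕ)) (δ q D : ℝ) : Prop
    extends JSel P F c t₀ S z where
  W_pos : 0 < W
  δ_nonneg : 0 ≤ δ
  thr : 2 * δ ≤ (2 ^ c.κ / 2 ^ P.bb : ℕ)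
  close : (jE P body c).Pr W (fun E => ¬ Close S (jmn P W body c) δ E) ≤ q
  D_le : ∀ o ∈ S, jpc P W F body c t₀ o ≤ D

section law

variable {W : ℕ} {F : St → ℕ} {body : Cel → RT (List ℕ)} {c : Cel} {t₀ : ℕ}
  {S : Finset (Option (ℕ × ℕ))} {z : (ℕ × ℕ → ℕ) → Option (ℕ × ℕ)} {δ q D : ℝ}

/-- constructor: small variances -/
theorem JOk.of_var (h : JSel P F c t₀ S z) (hW : 0 < W) {s : ℕ} (hG : P.gJ = 2 * (6 * s) + 1)
    (hM : 0 < P.mJ) {e : ℝ} (he : 0 < e) (hth : 2 * (e + 1) ≤ (2 ^ c.κ / 2 ^ P.bb : ℕ))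
    (h3 : ∀ x, some x ∈ S → 3 * jvr P W body c x ≤ P.mJ * e ^ 2)
    (hD : ∀ o ∈ S, jpc P W F body c t₀ o ≤ D) :
    JOk P W F body c t₀ S z (e + 1) (S.card * (1 / 2) ^ s) D where
  toJSel := h
  W_pos := hW
  δ_nonneg := by linarith
  thr := hth
  close := Pr_jclose P hW body c hG hM he S h.rng h3
  D_le := hD

/-- constructor: all entries of the menu are constants -/
theorem JOk.of_const (h : JSel P F c t₀ S z) (hW : 0 < W) (hG : 0 < P.gJ) (hM : 0 < P.mJ)
    (g : ℕ × ℕ → ℕ)
    (hg : ∀ x, some x ∈ S → (body (acell P c x.1)).All W fun T => T.getD x.2 0 = g x)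
    (hD : ∀ o ∈ S, jpc P W F body c t₀ o ≤ D) :
    JOk P W F body c t₀ S z 0 0 D where
  toJSel := h
  W_pos := hW
  δ_nonneg := le_rfl
  thr := by simp
  close := by
    have h1 := All_jest P (W := W) hG hM (Q := fun x => some x ∈ S) h.rng g hg
    unfold Pr
    refine Ev_le_const hW (h1.mono fun E hE => ?_)
    rw [if_neg]
    rw [not_not]
    intro x hx
    have e3 : jmn P W body c x = g x := by
      unfold jmn emn
      rw [Ev_congr_all ((hg x hx).mono fun T hT => by rw [hT] :
        (body (acell P c x.1)).All W fun T => ((T.getD x.2 0 : ℕ) : ℝ) = (g x : ℝ)), Ev_const hW]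
    rw [e3, hE x hx, sub_self, abs_zero]
  D_le := hD

/-- mean of `φ` of the arrival value -/
noncomputable def aev (P : Par) (W : ℕ) (F : St → ℕ) (body : Cel → RT (List ℕ)) (c : Cel) (t₀ : ℕ)
    (φ : ℕ → ℝ) : ℝ := (arrOf P F body c).Ev W fun T => φ (T.getD t₀ 0)

theorem JSel.ev_eq (h : JSel P F c t₀ S z) (W : ℕ) (φ : ℕ → ℝ) : aev P W F body c t₀ φ =
    (jE P body c).Ev W fun E => (jdraw P body c).Ev W fun B =>
      φ (oval (F (cst P c t₀)) (jdst P c t₀) jg (z E) B) := by
  unfold aev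
  rw [Ev_arrOf P W F body c h.ht φ]
  congr 1
  funext E
  congr 1
  funext B
  rw [h.val]
  rfl

theorem JSel.pr_eq (h : JSel P F c t₀ S z) (hW : 0 < W) {o : Option (ℕ × ℕ)} (ho : o ∈ S) :
    pr W (jdraw P body c) jg (F (cst P c t₀)) (jdst P c t₀) o = jpc P W F body c t₀ o := by
  cases o with
  | none => rfl
  | some x =>
    show (jdst P c t₀ x : ℝ) + mn W _ _ x = jdst P c t₀ x + jmn P W body c x
    rw [mn_jdraw P hW body c (h.rng x ho)]

theorem JSel.ovr_eq (h : JSel P F c t₀ S z) (hW : 0 < W) {o : Option (ℕ × ℕ)} (ho : o ∈ S) :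
    ovr W (jdraw P body c) jg o = jov P W body c o := by
  cases o with
  | none => rfl
  | some x => exact vr_jdraw P hW body c (h.rng x ho)

theorem JSel.mean_eq (h : JSel P F c t₀ S z) (hW : 0 < W) :
    aev P W F body c t₀ (fun a => (a : ℝ)) =
      (jE P body c).Ev W fun E => jpc P W F body c t₀ (z E) := by
  rw [h.ev_eq, Ev_val hW]
  congr 1
  funext E
  exact h.pr_eq hW (h.choice.mem E)

/-- **(low)** -/
theorem JSel.low (h : JSel P F c t₀ S z) (hW : 0 < W) {m : ℝ}
    (hm : ∀ o ∈ S, m ≤ jpc P W F body c t₀ o) : m ≤ aev P W F body c t₀ (fun a => (a : ℝ)) := by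
  rw [h.mean_eq hW]
  exact const_le_Ev hW (All.of_forall fun E => hm _ (h.choice.mem E))

theorem close_iff (h : JOk P W F body c t₀ S z δ q D) (E : ℕ × ℕ → ℕ) :
    Close S (mn W (jdraw P body c) jg) δ E ↔ Close S (jmn P W body c) δ E := by
  unfold Close
  refine forall_congr' fun x => forall_congr' fun hx => ?_
  rw [mn_jdraw P h.W_pos body c (h.rng x hx)]

theorem JOk.close' (h : JOk P W F body c t₀ S z δ q D) :
    (jE P body c).Pr W (fun E => ¬ Close S (mn W (jdraw P body c) jg) δ E) ≤ q := by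
  rw [Pr_congr fun E => not_congr (close_iff h E)]
  exact h.close

theorem JOk.D_nonneg (h : JOk P W F body c t₀ S z δ q D) : 0 ≤ D :=
  (jpc_nonneg _ _ _ _ _ _).trans (h.D_le _ h.stay)

/-- **(stay)** -/
theorem JOk.le_stay (h : JOk P W F body c t₀ S z δ q D) :
    aev P W F body c t₀ (fun a => (a : ℝ)) ≤
      jpc P W F body c t₀ (some (jp P c, t₀)) + q * D := by
  rw [h.ev_eq, Ev_val h.W_pos, ← h.pr_eq h.W_pos h.stay]
  refine jump_le_stay h.W_pos h.choice h.stay h.δ_nonneg h.thr h.D_nonneg ?_ h.close'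
  intro o ho
  rw [h.pr_eq h.W_pos ho]
  exact (h.D_le o ho).trans (le_add_of_nonneg_left (pr_nonneg _ _ _ _ _ _))

/-- **(jump)** -/
theorem JOk.le_opt (h : JOk P W F body c t₀ S z δ q D) {o : Option (ℕ × ℕ)} (ho : o ∈ S) :
    aev P W F body c t₀ (fun a => (a : ℝ)) ≤
      jpc P W F body c t₀ o + ((2 ^ c.κ / 2 ^ P.bb : ℕ) + 2 * δ) + q * D := by
  rw [h.ev_eq, Ev_val h.W_pos, ← h.pr_eq h.W_pos ho]
  refine jump_le h.W_pos h.choice h.δ_nonneg h.D_nonneg ho ?_ h.close'
  intro o' ho'
  rw [h.pr_eq h.W_pos ho']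
  exact (h.D_le o' ho').trans (le_add_of_nonneg_left (pr_nonneg _ _ _ _ _ _))

/-- **(jump)** with twice the threshold -/
theorem JOk.le_opt' (h : JOk P W F body c t₀ S z δ q D) {o : Option (ℕ × ℕ)} (ho : o ∈ S) :
    aev P W F body c t₀ (fun a => (a : ℝ)) ≤
      jpc P W F body c t₀ o + 2 * (2 ^ c.κ / 2 ^ P.bb : ℕ) + q * D := by
  have h1 := h.le_opt ho
  have h2 := h.thr
  linarith

/-- **(second moment)** -/
theorem JSel.sq_le (h : JSel P F c t₀ S z) (hW : 0 < W) {B : ℝ}
    (hB : ∀ o ∈ S, jpc P W F body c t₀ o ^ 2 + jov P W body c o ≤ B) :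
    aev P W F body c t₀ (fun a => (a : ℝ) ^ 2) ≤ B := by
  rw [h.ev_eq, Ev_val_sq hW]
  refine Ev_le_const hW (All.of_forall fun E => ?_)
  rw [h.pr_eq hW (h.choice.mem E), h.ovr_eq hW (h.choice.mem E)]
  exact hB _ (h.choice.mem E)

/-- what holds for every value of every option holds for the arrival value -/
theorem JSel.all (h : JSel P F c t₀ S z) {Q : ℕ → Prop} (hF : none ∈ S → Q (F (cst P c t₀)))
    (h0 : ∀ x, some x ∈ S →
      (body (acell P c x.1)).All W fun T => Q (jdst P c t₀ x + T.getD x.2 0)) :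
    (arrOf P F body c).All W fun T => Q (T.getD t₀ 0) := by
  unfold arrOf
  rw [All_bind]
  refine All.of_forall fun Es => ?_
  rw [All_bind]
  have h1 : ∀ p < jn P c, (body (acell P c p)).All W fun T =>
      ∀ t, some (p, t) ∈ S → Q (jdst P c t₀ (p, t) + T.getD t 0) := by
    intro p _
    refine All_all _ fun t => ?_
    by_cases hx : some (p, t) ∈ S
    · exact (h0 (p, t) hx).mono fun T hT _ => hT
    · exact All.of_forall fun T h => absurd h hx
  refine (All_jdraw P h1).mono fun B hB => ?_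
  rw [All_ret, List.getD_eq_getElem?_getD, List.getElem?_map, List.getElem?_range h.ht]
  show Q (avl P F c t₀ (fun x => jest P Es x.1 x.2) (jg B))
  rw [h.val]
  have hm := h.choice.mem fun x => jest P Es x.1 x.2
  cases hz : z (fun x => jest P Es x.1 x.2) with
  | none => exact hF (hz ▸ hm)
  | some x =>
    rw [hz] at hm
    exact hB.2 x.1 (h.rng x hm) x.2 hm

end law

end Crest.Agent.R288.ArrV984
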