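import Crest.Agent.R288.ArrV_984
import Crest.Agent.R288.ArrB_147

/-!
# R288, leaf L6: the law of the arrival table with the constants of the height recursion

`body : Cel → RT (List ℕ)` is an ARBITRARY family, `c` a cell, `t₀ < csz P c.κ` an entry, its state
`y = cst P c t₀` is admissible.

* `jsel` : the choice of the program (ArrB_147) in the form of ArrV_984.
* `BodyOk P W F body c b w` : mean `≤ b 2^κ'` and second moment `≤ w 4^κ'` at the admissible entries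
  read by `c`, the value `F z` at the others.
* `ArrOk` : (low), (stay), (retire), (pair); `arr_big` (classes `≥ bb + 2`), `arr_tiny` (constants).
* `arr_mean`, `arr_sq` : mean `≤ 7 * 2^κ`, second moment `≤ (d^2 + 4^a2 w) 4^κ`.
-/

set_option autoImplicit false

namespace Crest.Agent.R288.ArrW984

open Finset Crest.Agent.R295.Rnd627 Crest.Agent.R295.Rnd627.RT Crest.Agent.R288.Alg45
  Crest.Agent.R288.Jump984 Crest.Agent.R288.MedL984 Crest.Agent.R288.Med559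
  Crest.Agent.R288.ArrV984 Crest.Agent.R288.ArrB147

variable {P : Par}

/-- options at the entry `t₀` of the cell `c` -/
def opts (P : Par) (F : St → ℕ) (c : Cel) (t₀ : ℕ) : Finset (Option (ℕ × ℕ)) :=
  insertNone (mnu P c F (cst P c t₀))

theorem jcd_eq (c : Cel) (E V : ℕ × ℕ → ℕ) : jcd P c E V = cds P c E V := by
  unfold jcd cds jks
  rw [List.map_flatMap]
  congr 1
  funext p
  rw [List.map_map]
  rfl

/-- **the choice of the program** -/
theorem jsel {F : St → ℕ} {c : Cel} (hc : (c.κ, c.m) ∈ acells P c.κ c.m) {t₀ : ℕ}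
    (ht : t₀ < csz P c.κ) (ha : adm P F c.κ (cst P c t₀) = true) :
    JSel P F c t₀ (opts P F c t₀) (sel P c F (cst P c t₀) (own P c, t₀)) where
  ht := ht
  choice := sel_choice (own_mem hc ht) (zof_own hc t₀)
  val := by
    intro E V
    unfold ArrV984.avl
    rw [jcd_eq]
    exact arrNum_eq ha (own_mem hc ht) (zof_own hc t₀) E V
  stay := some_mem_insertNone.2 (stay_mnu (own_mem hc ht) (zof_own hc t₀))
  rng := fun x hx => ((mem_jks P).1 ((mem_mnu P).1 (some_mem_insertNone.1 hx)).1).1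

theorem jpc_stay (W : ℕ) (F : St → ℕ) (body : Cel → RT (List ℕ)) {c : Cel}
    (hc : (c.κ, c.m) ∈ acells P c.κ c.m) (t₀ : ℕ) :
    jpc P W F body c t₀ (some (jp P c, t₀)) = emn W (body c) t₀ := by
  show (jdst P c t₀ (own P c, t₀) : ℝ) + emn W (body (acell P c (own P c))) t₀ = _
  have h1 : jdst P c t₀ (own P c, t₀) = 0 := by
    unfold jdst
    rw [show jz P c (own P c, t₀) = cst P c t₀ from zof_own hc t₀]
    simp [Alg45.dist]
  rw [h1, acell_own hc]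
  simp

/-- the law of the entries of the tables read by `c` -/
structure BodyOk (P : Par) (W : ℕ) (F : St → ℕ) (body : Cel → RT (List ℕ)) (c : Cel) (b w : ℝ) :
    Prop where
  mean : ∀ x ∈ jks P c, adm P F (kof P c x) (zof P c x) = true →
    jmn P W body c x ≤ b * 2 ^ kof P c x
  sq : ∀ x ∈ jks P c, adm P F (kof P c x) (zof P c x) = true →
    ((body (acell P c x.1)).Ev W fun T => (T.getD x.2 0 : ℝ) ^ 2) ≤ w * 4 ^ kof P c x
  nadm : ∀ x ∈ jks P c, adm P F (kof P c x) (zof P c x) = false →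
    (body (acell P c x.1)).All W fun T => T.getD x.2 0 = F (zof P c x)

/-- admissible pairs: `F y < 4 * 2^κ` -/
theorem adm_lt {F : St → ℕ} {κ : ℕ} {y : St} (h : adm P F κ y = true) : F y < 4 * 2 ^ κ := by
  unfold adm at h
  simp only [Bool.and_eq_true, decide_eq_true_eq] at h
  have h1 : F y < 2 ^ (cls F y + 1) := Nat.lt_pow_succ_log_self (by norm_num) _
  have h2 : 2 ^ (cls F y + 1) ≤ 2 ^ (κ + 2) := Nat.pow_le_pow_right (by norm_num) (by omega)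
  calc F y < 2 ^ (κ + 2) := h1.trans_le h2
    _ = 4 * 2 ^ κ := by rw [pow_add]; ring

/-- variance + square of the mean = second moment -/
theorem evr_add {W : ℕ} (hW : 0 < W) (b : RT (List ℕ)) (t : ℕ) :
    emn W b t ^ 2 + evr W b t = b.Ev W fun T => (T.getD t 0 : ℝ) ^ 2 := by
  have h := Ev_sq_eq hW b (fun T => (T.getD t 0 : ℝ)) 0
  simp only [zero_add] at h
  rw [h]
  rfl

theorem emn_const {W : ℕ} (hW : 0 < W) {b : RT (List ℕ)} {t a : ℕ}
    (h : b.All W fun T => T.getD t 0 = a) : emn W b t = a := by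
  unfold emn
  rw [Ev_congr_all (h.mono fun T hT => by rw [hT] :
    b.All W fun T => ((T.getD t 0 : ℕ) : ℝ) = (a : ℝ)), Ev_const hW]

theorem evr_const {W : ℕ} (hW : 0 < W) {b : RT (List ℕ)} {t a : ℕ}
    (h : b.All W fun T => T.getD t 0 = a) : evr W b t = 0 := by
  unfold evr
  rw [emn_const hW h, Ev_congr_all (h.mono fun T hT => by rw [hT, sub_self]; norm_num :
    b.All W fun T => (((T.getD t 0 : ℕ) : ℝ) - (a : ℝ)) ^ 2 = 0), Ev_const hW]

section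

variable {W : ℕ} {F : St → ℕ} {body : Cel → RT (List ℕ)} {c : Cel} {t₀ : ℕ} {b w : ℝ}

/-- classes of the candidates -/
def KLe (P : Par) (c : Cel) : Prop := ∀ x ∈ jks P c, kof P c x ≤ c.κ + P.a2

/-- size of `F` on the menu -/
def FLe (P : Par) (F : St → ℕ) (c : Cel) (t₀ : ℕ) : Prop :=
  ∀ x ∈ mnu P c F (cst P c t₀), F (zof P c x) ≤ 24 * 2 ^ c.κ

theorem dst_le (ha : adm P F c.κ (cst P c t₀) = true) {x : ℕ × ℕ}
    (hx : x ∈ mnu P c F (cst P c t₀)) : (jdst P c t₀ x : ℝ) ≤ 8 * 2 ^ c.κ := by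
  have h1 := adm_lt ha
  have h2 : jdst P c t₀ x ≤ 2 * F (cst P c t₀) := ((mem_mnu P).1 hx).2
  have h3 : jdst P c t₀ x ≤ 8 * 2 ^ c.κ := by omega
  exact_mod_cast h3

theorem F_le (ha : adm P F c.κ (cst P c t₀) = true) : (F (cst P c t₀) : ℝ) ≤ 4 * 2 ^ c.κ := by
  exact_mod_cast (adm_lt ha).le

/-- Lipschitz bound of `F` on the menu -/
def FLip (P : Par) (F : St → ℕ) (c : Cel) (t₀ : ℕ) : Prop :=
  ∀ x ∈ mnu P c F (cst P c t₀), F (zof P c x) ≤ 2 * (F (cst P c t₀) + jdst P c t₀ x)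

theorem FLip.fle (hF : FLip P F c t₀) (ha : adm P F c.κ (cst P c t₀) = true) :
    FLe P F c t₀ := by
  intro x hx
  have h1 := adm_lt ha
  have h2 : jdst P c t₀ x ≤ 2 * F (cst P c t₀) := ((mem_mnu P).1 hx).2
  have h3 := hF x hx
  omega

/-- `FLe` from a Lipschitz bound -/
theorem FLe.of_lip (ha : adm P F c.κ (cst P c t₀) = true)
    (h : ∀ x ∈ mnu P c F (cst P c t₀),
      7 * F (zof P c x) ≤ 8 * (F (cst P c t₀) + jdst P c t₀ x) + 64) : FLe P F c t₀ := by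
  intro x hx
  have h1 := adm_lt ha
  have h2 : jdst P c t₀ x ≤ 2 * F (cst P c t₀) := ((mem_mnu P).1 hx).2
  have h3 := h x hx
  have h4 : 0 < 2 ^ c.κ := Nat.two_pow_pos _
  omega

theorem FLe.le (hF : FLe P F c t₀) {x : ℕ × ℕ}
    (hx : x ∈ mnu P c F (cst P c t₀)) : (F (zof P c x) : ℝ) ≤ 24 * 2 ^ c.κ := by
  exact_mod_cast hF x hx

theorem pow_kof (hk : KLe P c) {x : ℕ × ℕ} (hx : x ∈ jks P c) (hb : 0 ≤ b) :
    b * 2 ^ kof P c x ≤ b * 2 ^ P.a2 * 2 ^ c.κ := by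
  have h1 : (2 : ℝ) ^ kof P c x ≤ 2 ^ (c.κ + P.a2) :=
    pow_le_pow_right₀ (by norm_num) (hk x hx)
  calc b * 2 ^ kof P c x ≤ b * 2 ^ (c.κ + P.a2) := mul_le_mul_of_nonneg_left h1 hb
    _ = b * 2 ^ P.a2 * 2 ^ c.κ := by rw [pow_add]; ring

theorem pow_kof4 (hk : KLe P c) {x : ℕ × ℕ} (hx : x ∈ jks P c) (hb : 0 ≤ b) :
    b * 4 ^ kof P c x ≤ b * 4 ^ P.a2 * 4 ^ c.κ := by
  have h1 : (4 : ℝ) ^ kof P c x ≤ 4 ^ (c.κ + P.a2) :=
    pow_le_pow_right₀ (by norm_num) (hk x hx)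
  calc b * 4 ^ kof P c x ≤ b * 4 ^ (c.κ + P.a2) := mul_le_mul_of_nonneg_left h1 hb
    _ = b * 4 ^ P.a2 * 4 ^ c.κ := by rw [pow_add]; ring

/-- price of an option -/
theorem BodyOk.pc_le' (h : BodyOk P W F body c b w) (hW : 0 < W) (hb : 0 ≤ b) (hk : KLe P c)
    (hF : FLe P F c t₀) (ha : adm P F c.κ (cst P c t₀) = true) {d : ℝ}
    (hd1 : 8 + b * 2 ^ P.a2 ≤ d) (hd2 : 32 ≤ d) {o : Option (ℕ × ℕ)}
    (ho : o ∈ opts P F c t₀) : jpc P W F body c t₀ o ≤ d * 2 ^ c.κ := by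
  have h0 : (0 : ℝ) ≤ b * 2 ^ P.a2 * 2 ^ c.κ := by positivity
  have h00 : (0 : ℝ) < 2 ^ c.κ := by positivity
  have e1 : (8 + b * 2 ^ P.a2) * 2 ^ c.κ ≤ d * 2 ^ c.κ := mul_le_mul_of_nonneg_right hd1 h00.le
  have e2 : 32 * 2 ^ c.κ ≤ d * 2 ^ c.κ := mul_le_mul_of_nonneg_right hd2 h00.le
  cases o with
  | none =>
    show (F (cst P c t₀) : ℝ) ≤ _
    have := F_le ha
    linarith
  | some x =>
    have hx := some_mem_insertNone.1 ho
    have hj := ((mem_mnu P).1 hx).1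
    show (jdst P c t₀ x : ℝ) + jmn P W body c x ≤ _
    have h1 := dst_le ha hx
    cases hadm : adm P F (kof P c x) (zof P c x) with
    | true =>
      have h2 := (h.mean x hj hadm).trans (pow_kof hk hj hb)
      linarith
    | false =>
      have h2 : jmn P W body c x = F (zof P c x) := emn_const hW (h.nadm x hj hadm)
      rw [h2]
      have h3 := hF.le hx
      linarith

/-- variance of a candidate -/
theorem BodyOk.vr_le (h : BodyOk P W F body c b w) (hW : 0 < W) (hw : 0 ≤ w) (hk : KLe P c)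
    {x : ℕ × ℕ} (hx : x ∈ jks P c) : jvr P W body c x ≤ w * 4 ^ P.a2 * 4 ^ c.κ := by
  have h0 : (0 : ℝ) ≤ w * 4 ^ P.a2 * 4 ^ c.κ := by positivity
  cases hadm : adm P F (kof P c x) (zof P c x) with
  | true =>
    have h1 := h.sq x hx hadm
    rw [← evr_add hW] at h1
    have h2 := pow_kof4 hk hx hw
    have h3 : 0 ≤ emn W (body (acell P c x.1)) x.2 ^ 2 := sq_nonneg _
    show evr W _ _ ≤ _
    linarith
  | false =>
    have h1 : jvr P W body c x = 0 := evr_const hW (h.nadm x hx hadm)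
    rw [h1]
    exact h0

/-- second moment of an option -/
theorem BodyOk.sq_le' (h : BodyOk P W F body c b w) (hW : 0 < W) (hb : 0 ≤ b) (hw : 0 ≤ w)
    (hk : KLe P c) (hF : FLe P F c t₀) (ha : adm P F c.κ (cst P c t₀) = true) {d : ℝ}
    (hd1 : 8 + b * 2 ^ P.a2 ≤ d) (hd2 : 32 ≤ d)
    {o : Option (ℕ × ℕ)} (ho : o ∈ opts P F c t₀) :
    jpc P W F body c t₀ o ^ 2 + jov P W body c o ≤ (d ^ 2 + 4 ^ P.a2 * w) * 4 ^ c.κ := by
  have e4 : (4 : ℝ) ^ c.κ = 2 ^ c.κ * 2 ^ c.κ := by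
    rw [← mul_pow]; norm_num
  have h2k : (0 : ℝ) < 2 ^ c.κ := by positivity
  have hB : (0 : ℝ) ≤ b * 2 ^ P.a2 := by positivity
  have hw4 : (0 : ℝ) ≤ w * 4 ^ P.a2 * 4 ^ c.κ := by positivity
  have hsq : ∀ a : ℝ, 0 ≤ a → a ≤ d * 2 ^ c.κ →
      a ^ 2 + 0 ≤ (d ^ 2 + 4 ^ P.a2 * w) * 4 ^ c.κ := by
    intro a ha0 ha1
    have h1 : a ^ 2 ≤ (d * 2 ^ c.κ) ^ 2 := pow_le_pow_left₀ ha0 ha1 2
    have h2 : (d * 2 ^ c.κ) ^ 2 = d ^ 2 * 4 ^ c.κ := by
      rw [e4]; ring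
    rw [h2] at h1
    rw [add_mul, add_zero]
    linarith
  have h0 := jpc_nonneg (P := P) W F body c t₀ o
  have hpc := h.pc_le' hW hb hk hF ha hd1 hd2 ho
  cases o with
  | none => exact hsq _ h0 hpc
  | some x =>
    have hx := some_mem_insertNone.1 ho
    have hj := ((mem_mnu P).1 hx).1
    cases hadm : adm P F (kof P c x) (zof P c x) with
    | false =>
      have h1 : jov P W body c (some x) = 0 := evr_const hW (h.nadm x hj hadm)
      rw [h1]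
      exact hsq _ h0 hpc
    | true =>
      show ((jdst P c t₀ x : ℝ) + emn W (body (acell P c x.1)) x.2) ^ 2 +
        evr W (body (acell P c x.1)) x.2 ≤ _
      have h1 := h.sq x hj hadm
      rw [← evr_add hW] at h1
      have h2 := pow_kof4 hk hj hw
      have h3 := (h.mean x hj hadm).trans (pow_kof hk hj hb)
      have h4 := dst_le ha hx
      set μ := emn W (body (acell P c x.1)) x.2 with hμ
      have hμ0 : 0 ≤ μ := emn_nonneg _ _ _
      have h3' : μ ≤ b * 2 ^ P.a2 * 2 ^ c.κ := h3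
      have hd0 : (0 : ℝ) ≤ jdst P c t₀ x := Nat.cast_nonneg _
      have h5 : ((jdst P c t₀ x : ℝ)) ^ 2 ≤ (8 * 2 ^ c.κ) ^ 2 := pow_le_pow_left₀ hd0 h4 2
      have h6 : (jdst P c t₀ x : ℝ) * μ ≤ (8 * 2 ^ c.κ) * (b * 2 ^ P.a2 * 2 ^ c.κ) :=
        mul_le_mul h4 h3' hμ0 (by positivity)
      have h7 : (8 + b * 2 ^ P.a2) ^ 2 ≤ d ^ 2 := pow_le_pow_left₀ (by positivity) hd1 2
      have h10 : 0 ≤ ((2 : ℝ) ^ c.κ * 2 ^ c.κ) := by positivity
      have h8 : (8 + b * 2 ^ P.a2) ^ 2 * (2 ^ c.κ * 2 ^ c.κ) ≤ d ^ 2 * (2 ^ c.κ * 2 ^ c.κ) :=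
        mul_le_mul_of_nonneg_right h7 h10
      have h9 : 0 ≤ (b * 2 ^ P.a2) ^ 2 * ((2 : ℝ) ^ c.κ * 2 ^ c.κ) := by positivity
      have e5 : (d ^ 2 + 4 ^ P.a2 * w) * 4 ^ c.κ =
          d ^ 2 * (2 ^ c.κ * 2 ^ c.κ) + w * 4 ^ P.a2 * 4 ^ c.κ := by rw [← e4]; ring
      rw [e5]
      have e6 : ((jdst P c t₀ x : ℝ) + μ) ^ 2 =
        (jdst P c t₀ x : ℝ) ^ 2 + 2 * ((jdst P c t₀ x : ℝ) * μ) + μ ^ 2 := by ring
      have e7 : (8 + b * 2 ^ P.a2) ^ 2 * (2 ^ c.κ * 2 ^ c.κ) = (8 * 2 ^ c.κ) ^ 2 +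
        2 * ((8 * 2 ^ c.κ) * (b * 2 ^ P.a2 * 2 ^ c.κ)) +
          (b * 2 ^ P.a2) ^ 2 * ((2 : ℝ) ^ c.κ * 2 ^ c.κ) := by ring
      rw [e6]
      rw [e7] at h8
      linarith

/-- **the law of the arrival value** at the entry `t₀` of `c`; `e` = loss by bad estimates -/
structure ArrOk (P : Par) (W : ℕ) (F : St → ℕ) (body : Cel → RT (List ℕ)) (c : Cel) (t₀ : ℕ)
    (e : ℝ) : Prop where
  low : ∀ m : ℝ, m ≤ F (cst P c t₀) →
    (∀ x ∈ mnu P c F (cst P c t₀), m ≤ jdst P c t₀ x + jmn P W body c x) →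
    m ≤ aev P W F body c t₀ (fun a => (a : ℝ))
  stay : aev P W F body c t₀ (fun a => (a : ℝ)) ≤ emn W (body c) t₀ + e
  retire : aev P W F body c t₀ (fun a => (a : ℝ)) ≤
    F (cst P c t₀) + 2 * (2 ^ c.κ / 2 ^ P.bb : ℕ) + e
  pair : ∀ x ∈ mnu P c F (cst P c t₀), aev P W F body c t₀ (fun a => (a : ℝ)) ≤
    jdst P c t₀ x + jmn P W body c x + 2 * (2 ^ c.κ / 2 ^ P.bb : ℕ) + e

theorem arr_low (hc : (c.κ, c.m) ∈ acells P c.κ c.m) (ht : t₀ < csz P c.κ)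
    (ha : adm P F c.κ (cst P c t₀) = true) (hW : 0 < W) (m : ℝ) (hm : m ≤ F (cst P c t₀))
    (hx : ∀ x ∈ mnu P c F (cst P c t₀), m ≤ jdst P c t₀ x + jmn P W body c x) :
    m ≤ aev P W F body c t₀ (fun a => (a : ℝ)) := by
  refine (jsel hc ht ha).low hW fun o ho => ?_
  cases o with
  | none => exact hm
  | some x => exact hx x (some_mem_insertNone.1 ho)

theorem ArrOk.of_JOk (hc : (c.κ, c.m) ∈ acells P c.κ c.m) (ht : t₀ < csz P c.κ)
    (ha : adm P F c.κ (cst P c t₀) = true)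
    {z : (ℕ × ℕ → ℕ) → Option (ℕ × ℕ)} {δ q D e : ℝ}
    (h : JOk P W F body c t₀ (opts P F c t₀) z δ q D) (he : q * D ≤ e) :
    ArrOk P W F body c t₀ e where
  low := arr_low hc ht ha h.W_pos
  stay := by
    have h1 := h.le_stay
    rw [jpc_stay W F body hc t₀] at h1
    linarith
  retire := by
    have h1 := h.le_opt' (none_mem_insertNone : (none : Option (ℕ × ℕ)) ∈ opts P F c t₀)
    have h2 : jpc P W F body c t₀ none = F (cst P c t₀) := rfl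
    rw [h2] at h1
    linarith
  pair := by
    intro x hx
    have h1 := h.le_opt' (some_mem_insertNone.2 hx : some x ∈ opts P F c t₀)
    have h2 : jpc P W F body c t₀ (some x) = jdst P c t₀ x + jmn P W body c x := rfl
    rw [h2] at h1
    linarith

/-- **classes `≥ bb + 2`** -/
theorem arr_big' (hc : (c.κ, c.m) ∈ acells P c.κ c.m) (ht : t₀ < csz P c.κ)
    (ha : adm P F c.κ (cst P c t₀) = true) (hW : 0 < W) (h : BodyOk P W F body c b w)
    (hb : 0 ≤ b) (hw : 0 ≤ w) (hk : KLe P c) (hF : FLe P F c t₀) {d : ℝ}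
    (hd1 : 8 + b * 2 ^ P.a2 ≤ d) (hd2 : 32 ≤ d) {s : ℕ}
    (hG : P.gJ = 2 * (6 * s) + 1) (hM : 0 < P.mJ) (hκ : P.bb + 2 ≤ c.κ)
    (hm : 3 * w * 4 ^ (P.a2 + P.bb + 2) ≤ P.mJ) {η : ℝ}
    (hq : ((jks P c).length + 1) * (1 / 2) ^ s * d ≤ η) :
    ArrOk P W F body c t₀ (η * 2 ^ c.κ) := by
  have hth : 2 ^ c.κ / 2 ^ P.bb = 2 ^ (c.κ - P.bb) := Nat.pow_div (by omega) (by norm_num)
  have hθ : ((2 ^ c.κ / 2 ^ P.bb : ℕ) : ℝ) = 2 ^ (c.κ - P.bb) := by rw [hth]; push_cast; rfl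
  have hθ4 : (4 : ℝ) ≤ 2 ^ (c.κ - P.bb) := by
    calc (4 : ℝ) = 2 ^ 2 := by norm_num
      _ ≤ 2 ^ (c.κ - P.bb) := pow_le_pow_right₀ (by norm_num) (by omega)
  have hjok := JOk.of_var (jsel hc ht ha) hW hG hM (e := 2 ^ (c.κ - P.bb) / 4) (by positivity)
    (by rw [hθ]; linarith) (fun x hx => ?_) (D := d * 2 ^ c.κ)
    (fun o ho => h.pc_le' hW hb hk hF ha hd1 hd2 ho)
  · refine ArrOk.of_JOk hc ht ha hjok ?_
    have h1 : ((opts P F c t₀).card : ℝ) ≤ (jks P c).length + 1 := by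
      unfold opts
      rw [card_insertNone]
      have := card_mnu_le P c F (cst P c t₀)
      push_cast
      have h2 : ((mnu P c F (cst P c t₀)).card : ℝ) ≤ (jks P c).length := by exact_mod_cast this
      linarith
    have hd0 : (0 : ℝ) ≤ d := by linarith
    have h3 : (0 : ℝ) ≤ (1 / 2) ^ s * (d * 2 ^ c.κ) := by positivity
    calc _ = ((opts P F c t₀).card : ℝ) * ((1 / 2) ^ s * (d * 2 ^ c.κ)) := by ring
      _ ≤ ((jks P c).length + 1) * ((1 / 2) ^ s * (d * 2 ^ c.κ)) :=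
        mul_le_mul_of_nonneg_right h1 h3
      _ = (((jks P c).length + 1) * (1 / 2) ^ s * d) * 2 ^ c.κ := by ring
      _ ≤ η * 2 ^ c.κ := mul_le_mul_of_nonneg_right hq (by positivity)
  · have hj := ((mem_mnu P).1 (some_mem_insertNone.1 hx)).1
    have h1 := h.vr_le hW hw hk hj
    have e1 : ((2 : ℝ) ^ (c.κ - P.bb) / 4) ^ 2 = 4 ^ (c.κ - P.bb) / 4 ^ 2 := by
      rw [div_pow, ← pow_mul, mul_comm (c.κ - P.bb) 2, pow_mul]; norm_num
    have e2 : (4 : ℝ) ^ c.κ = 4 ^ (c.κ - P.bb) * 4 ^ P.bb := by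
      rw [← pow_add]; congr 1; omega
    rw [e1]
    calc 3 * jvr P W body c x ≤ 3 * (w * 4 ^ P.a2 * 4 ^ c.κ) := by linarith
      _ = (3 * w * 4 ^ (P.a2 + P.bb + 2)) * (4 ^ (c.κ - P.bb) / 4 ^ 2) := by
        rw [e2, pow_add, pow_add]; ring
      _ ≤ P.mJ * (4 ^ (c.κ - P.bb) / 4 ^ 2) := mul_le_mul_of_nonneg_right hm (by positivity)

/-- **classes `≥ bb + 2`**, `d = 32 + b 2^a2` -/
theorem arr_big (hc : (c.κ, c.m) ∈ acells P c.κ c.m) (ht : t₀ < csz P c.κ)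
    (ha : adm P F c.κ (cst P c t₀) = true) (hW : 0 < W) (h : BodyOk P W F body c b w)
    (hb : 0 ≤ b) (hw : 0 ≤ w) (hk : KLe P c) (hF : FLip P F c t₀) {s : ℕ}
    (hG : P.gJ = 2 * (6 * s) + 1) (hM : 0 < P.mJ) (hκ : P.bb + 2 ≤ c.κ)
    (hm : 3 * w * 4 ^ (P.a2 + P.bb + 2) ≤ P.mJ) {η : ℝ}
    (hq : ((jks P c).length + 1) * (1 / 2) ^ s * (32 + b * 2 ^ P.a2) ≤ η) :
    ArrOk P W F body c t₀ (η * 2 ^ c.κ) :=
  arr_big' hc ht ha hW h hb hw hk (hF.fle ha) (by linarith)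
    (le_add_of_nonneg_right (by positivity)) hG hM hκ hm hq

/-- **constant menus** (tiny classes) -/
theorem arr_tiny (hc : (c.κ, c.m) ∈ acells P c.κ c.m) (ht : t₀ < csz P c.κ)
    (ha : adm P F c.κ (cst P c t₀) = true) (hW : 0 < W) (hG : 0 < P.gJ) (hM : 0 < P.mJ)
    {g : ℕ × ℕ → ℕ} (hg : ∀ x ∈ mnu P c F (cst P c t₀),
      (body (acell P c x.1)).All W fun T => T.getD x.2 0 = g x) :
    ArrOk P W F body c t₀ 0 := by
  classical
  have hjok := JOk.of_const (jsel hc ht ha) hW hG hM g (fun x hx => hg x (some_mem_insertNone.1 hx))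
    (D := ∑ o ∈ opts P F c t₀, jpc P W F body c t₀ o) (fun o ho =>
      single_le_sum (f := fun o => jpc P W F body c t₀ o) (fun o _ => jpc_nonneg W F body c t₀ o) ho)
  exact ArrOk.of_JOk hc ht ha hjok (by rw [zero_mul])

/-- mean -/
theorem ArrOk.mean_le {e : ℝ} (h : ArrOk P W F body c t₀ e)
    (ha : adm P F c.κ (cst P c t₀) = true) (he : e ≤ 2 ^ c.κ) :
    aev P W F body c t₀ (fun a => (a : ℝ)) ≤ 7 * 2 ^ c.κ := by
  have h1 := h.retire
  have h2 := F_le ha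
  have h3 : ((2 ^ c.κ / 2 ^ P.bb : ℕ) : ℝ) ≤ 2 ^ c.κ := by
    exact_mod_cast Nat.div_le_self _ _
  linarith

/-- second moment -/
theorem arr_sq' (hc : (c.κ, c.m) ∈ acells P c.κ c.m) (ht : t₀ < csz P c.κ)
    (ha : adm P F c.κ (cst P c t₀) = true) (hW : 0 < W) (h : BodyOk P W F body c b w)
    (hb : 0 ≤ b) (hw : 0 ≤ w) (hk : KLe P c) (hF : FLe P F c t₀) {d : ℝ}
    (hd1 : 8 + b * 2 ^ P.a2 ≤ d) (hd2 : 32 ≤ d) :
    aev P W F body c t₀ (fun a => (a : ℝ) ^ 2) ≤ (d ^ 2 + 4 ^ P.a2 * w) * 4 ^ c.κ :=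
  (jsel hc ht ha).sq_le hW fun _ ho => h.sq_le' hW hb hw hk hF ha hd1 hd2 ho

/-- second moment, `d = 32 + b 2^a2` -/
theorem arr_sq (hc : (c.κ, c.m) ∈ acells P c.κ c.m) (ht : t₀ < csz P c.κ)
    (ha : adm P F c.κ (cst P c t₀) = true) (hW : 0 < W) (h : BodyOk P W F body c b w)
    (hb : 0 ≤ b) (hw : 0 ≤ w) (hk : KLe P c) (hF : FLip P F c t₀) :
    aev P W F body c t₀ (fun a => (a : ℝ) ^ 2) ≤
      ((32 + b * 2 ^ P.a2) ^ 2 + w * 4 ^ P.a2) * 4 ^ c.κ := by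
  rw [mul_comm w]
  exact arr_sq' hc ht ha hW h hb hw hk (hF.fle ha) (by linarith)
    (le_add_of_nonneg_right (by positivity))

/-- support: what holds for `F y` and for all values of all candidates holds for the entry -/
theorem arr_all (hc : (c.κ, c.m) ∈ acells P c.κ c.m) (ht : t₀ < csz P c.κ)
    (ha : adm P F c.κ (cst P c t₀) = true) {Q : ℕ → Prop} (hF : Q (F (cst P c t₀)))
    (h0 : ∀ x ∈ mnu P c F (cst P c t₀),
      (body (acell P c x.1)).All W fun T => Q (jdst P c t₀ x + T.getD x.2 0)) :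
    (arrOf P F body c).All W fun T => Q (T.getD t₀ 0) :=
  (jsel hc ht ha).all (fun _ => hF) fun x hx => h0 x (some_mem_insertNone.1 hx)

/-- entries of the arrival table at inadmissible states -/
theorem arr_nadm (hc : (c.κ, c.m) ∈ acells P c.κ c.m) (ht : t₀ < csz P c.κ)
    (ha : adm P F c.κ (cst P c t₀) = false) :
    (arrOf P F body c).All W fun T => T.getD t₀ 0 = F (cst P c t₀) := by
  rw [arrOf_eq F body hc, All_bind]
  refine All.of_forall fun Es => ?_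
  rw [All_bind]
  refine All.of_forall fun B => ?_
  rw [All_ret, List.getD_eq_getElem?_getD, List.getElem?_map, List.getElem?_range ht]
  show ArrB147.avl P F c t₀ _ _ = _
  unfold ArrB147.avl
  rw [if_pos ha]

end

end Crest.Agent.R288.ArrW984
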