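/-
# Row 288, RT.LANE2, line L7 (helper944): the recursion over the macro height, abstract

`arr i c`, `body i c` are random tables (`body i c` calls `arr i`, `arr (i+1) c` calls `body i`);
`mA i c z`, `sA i c z` = mean and second moment of the entry `z` of `arr i c`, `mB`, `sB` those of `body`.
The two STEP LAWS

* BODY: means `≤ m 2^κ'` and second moments `≤ v 4^κ'` of all requests give mean `≤ b 2^κ` and second
  moment `≤ (b² + Γ v / 2^c0) 4^κ`,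
* ARR: means `≤ b 2^κ'` and second moments `≤ w 4^κ'` of all requests give mean `≤ m 2^κ` and second
  moment `≤ (d² + 4^a2 w) 4^κ`,

close at every height with `v = 2 (d² + 4^a2 b²)` as soon as `2 · 4^a2 · Γ ≤ 2^c0`.
-/
import Mathlib

set_option autoImplicit false

namespace Crest.Agent.R288.LawS944

open Real

/-- both bounds for one entry at class `κ` -/
def MS (m v : ℝ) (κ : ℕ) (x : ℝ × ℝ) : Prop := x.1 ≤ m * 2 ^ κ ∧ x.2 ≤ v * 4 ^ κ

theorem MS.mono {m v m' v' : ℝ} {κ : ℕ} {x : ℝ × ℝ} (h : MS m v κ x) (hm : m ≤ m') (hv : v ≤ v') :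
    MS m' v' κ x :=
  ⟨h.1.trans (mul_le_mul_of_nonneg_right hm (by positivity)),
    h.2.trans (mul_le_mul_of_nonneg_right hv (by positivity))⟩

/-- constant `v` of the recursion -/
noncomputable def vC (a2 : ℕ) (b d : ℝ) : ℝ := 2 * (d ^ 2 + 4 ^ a2 * b ^ 2)
/-- constant `w` of the recursion -/
noncomputable def wC (a2 c0 : ℕ) (b d Γ : ℝ) : ℝ := b ^ 2 + Γ * vC a2 b d / 2 ^ c0

theorem vC_nonneg (a2 : ℕ) (b d : ℝ) : 0 ≤ vC a2 b d := by unfold vC; positivity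

theorem wC_nonneg {a2 c0 : ℕ} {b d Γ : ℝ} (hΓ : 0 ≤ Γ) : 0 ≤ wC a2 c0 b d Γ := by
  have := vC_nonneg a2 b d
  unfold wC; positivity

/-- the recursion of the second moments closes -/
theorem close_v {a2 c0 : ℕ} {b d Γ : ℝ} (h : 2 * 4 ^ a2 * Γ ≤ 2 ^ c0) :
    d ^ 2 + 4 ^ a2 * wC a2 c0 b d Γ ≤ vC a2 b d := by
  have hv := vC_nonneg a2 b d
  have h2 : (0 : ℝ) < 2 ^ c0 := by positivity
  have h1 : 4 ^ a2 * (Γ * vC a2 b d / 2 ^ c0) ≤ vC a2 b d / 2 := by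
    rw [← mul_div_assoc, div_le_iff₀ h2]
    have := mul_le_mul_of_nonneg_right h hv
    nlinarith
  unfold wC
  have h3 : vC a2 b d / 2 = d ^ 2 + 4 ^ a2 * b ^ 2 := by unfold vC; ring
  calc d ^ 2 + 4 ^ a2 * (b ^ 2 + Γ * vC a2 b d / 2 ^ c0)
      = (d ^ 2 + 4 ^ a2 * b ^ 2) + 4 ^ a2 * (Γ * vC a2 b d / 2 ^ c0) := by ring
    _ ≤ vC a2 b d / 2 + vC a2 b d / 2 := by rw [← h3]; linarith
    _ = vC a2 b d := by ring

variable {C : Type*}

/-- **height recursion**: `P i` = set of all (cell, class, entry) of macro height `i` which are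
admissible; `xA i c`, `xB i c` = pair (mean, second moment) -/
theorem height {P : ℕ → C → Prop} {cl : C → ℕ} {xA xB : ℕ → C → ℝ × ℝ} {a2 c0 : ℕ}
    {m b d Γ : ℝ} (hΓ : 0 ≤ Γ) (hc : 2 * 4 ^ a2 * Γ ≤ 2 ^ c0)
    (h0 : ∀ c, P 0 c → MS m (vC a2 b d) (cl c) (xA 0 c))
    (hB : ∀ i, (∀ c, P i c → MS m (vC a2 b d) (cl c) (xA i c)) →
      ∀ c, P (i + 1) c → MS b (b ^ 2 + Γ * vC a2 b d / 2 ^ c0) (cl c) (xB i c))
    (hA : ∀ i w, 0 ≤ w → (∀ c, P (i + 1) c → MS b w (cl c) (xB i c)) →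
      ∀ c, P (i + 1) c → MS m (d ^ 2 + 4 ^ a2 * w) (cl c) (xA (i + 1) c)) :
    ∀ i, (∀ c, P i c → MS m (vC a2 b d) (cl c) (xA i c)) ∧
      (∀ c, P (i + 1) c → MS b (wC a2 c0 b d Γ) (cl c) (xB i c)) := by
  intro i
  induction i with
  | zero => exact ⟨h0, hB 0 h0⟩
  | succ i ih =>
    have h1 : ∀ c, P (i + 1) c → MS m (vC a2 b d) (cl c) (xA (i + 1) c) := fun c hP =>
      (hA i _ (wC_nonneg hΓ) ih.2 c hP).mono le_rfl (close_v hc)
    exact ⟨h1, hB _ h1⟩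

end Crest.Agent.R288.LawS944
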