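import Crest.Agent.R288.SeqL_769

/-!
# R288, (L3): the spawned numbers of a window of ALG-U (ALG v2)

The law of the spawned numbers `spw` of the body of a cell, in the names of `AlgB_45` v2, on top of
the law of `joint` (words, then requests read by keys; `SeqL_769`).

* `ksf P κ m rs` = the requests of the window; `req` = the requests of one cell satisfy `Req`.
* `spF`: `spw` as a function of the results by key; `bodyT_eq`: the body as an image of `win`.
* `spR`: the spawned number without rounding, `spR ≤ spF ≤ spR + 1`.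
* `Ev_spR`: exact mean; `vr_spR`: variance at most `2^κ / 2^(c0+κ')` times the second moment.
* `XF`, `XR`: the end values `numSt .. (spF ..)`; `Ev_XR`, `vr_XR`, `indep`.
* `sq_XR`: second moment of `a + ∑ q, ∑ j, π q j * XR q (y q j)`.
-/

set_option autoImplicit false
set_option linter.unusedSectionVars false

namespace Crest.Agent.R288.XB715

open Finset Crest.Agent.R295.Rnd627 Crest.Agent.R295.Rnd627.RT Crest.Agent.R288.Alg45
open Crest.Agent.R288.SeqL769 Crest.Agent.R288.Thin769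

variable (P : Par)

/-- width of a block of words -/
def wid : ℕ := P.dl + P.du + 1

/-- residue of end `q`, class `κ'` from the words -/
def resi (κ : ℕ) (rs : List ℕ) (q κ' : ℕ) : ℕ :=
  rs.getD (q * (P.dl + P.du + 1) + (κ' + P.dl - κ)) 0 % modu P κ κ'

/-- the requests of the window of the cell `(κ, m)` as a function of the words -/
def ksf (κ : ℕ) (m : ℤ) (rs : List ℕ) : List Key := bkeys P κ m (resi P κ rs)

/-- number of words -/
def nwd : ℕ := P.N * (P.dl + P.du + 1)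

/-- the words of end `q` -/
def blk (q : ℕ) : Set ℕ := {i | i / (P.dl + P.du + 1) = q}

variable {P}

theorem blk_disj {q q' : ℕ} (h : q ≠ q') : ∀ i ∈ blk P q, i ∉ blk P q' := by
  intro i hi hi'
  exact h (hi.symm.trans hi')

theorem idx_div {κ κ' q : ℕ} (h : κ' ≤ κ + P.du) :
    (q * (P.dl + P.du + 1) + (κ' + P.dl - κ)) / (P.dl + P.du + 1) = q := by
  rw [Nat.add_comm, Nat.add_mul_div_right _ _ (by omega), Nat.div_eq_of_lt (by omega), zero_add]

theorem idx_mem {κ κ' q : ℕ} (h : κ' ≤ κ + P.du) :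
    q * (P.dl + P.du + 1) + (κ' + P.dl - κ) ∈ blk P q := idx_div h

theorem idx_lt {κ κ' q : ℕ} (hq : q < P.N) (h : κ' ≤ κ + P.du) :
    q * (P.dl + P.du + 1) + (κ' + P.dl - κ) < nwd P := by
  unfold nwd
  have h1 : (q + 1) * (P.dl + P.du + 1) ≤ P.N * (P.dl + P.du + 1) := Nat.mul_le_mul_right _ hq
  have h2 : (q + 1) * (P.dl + P.du + 1) = q * (P.dl + P.du + 1) + (P.dl + P.du + 1) := by ring
  omega

theorem mem_spCl {κ κ' : ℕ} : κ' ∈ spCl P κ ↔ κ - P.dl ≤ κ' ∧ κ' ≤ κ + P.du := by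
  unfold spCl rngC
  simp only [List.mem_map, List.mem_range]
  constructor
  · rintro ⟨t, ht, rfl⟩
    omega
  · rintro ⟨h1, h2⟩
    exact ⟨κ' - (κ - P.dl), by omega, by omega⟩

theorem mem_bkeys {κ : ℕ} {m : ℤ} {ρ : ℕ → ℕ → ℕ} {key : Key} :
    key ∈ bkeys P κ m ρ ↔ key.q < P.N ∧ key.κ ∈ spCl P κ ∧
      key.m ∈ cellsIn P.r κ m key.κ ∧ key.m % (modu P κ key.κ : ℤ) = (ρ key.q key.κ : ℤ) ∧
      key.s < copies P κ key.κ := by
  unfold bkeys
  simp only [List.mem_flatMap, List.mem_range, List.mem_filter, List.mem_map, decide_eq_true_eq]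
  constructor
  · rintro ⟨q, hq, κ', hκ, m', ⟨hm, hr⟩, s, hs, rfl⟩
    exact ⟨hq, hκ, hm, hr, hs⟩
  · rintro ⟨hq, hκ, hm, hr, hs⟩
    exact ⟨key.q, hq, key.κ, hκ, key.m, ⟨hm, hr⟩, key.s, hs, rfl⟩

theorem copies_pos (P : Par) (κ κ' : ℕ) : 0 < copies P κ κ' := by unfold copies; positivity

/-- the requests of end `q` depend only on the words of end `q` -/
theorem ksf_filter (κ : ℕ) (m : ℤ) (q : ℕ) (rs rs' : List ℕ)
    (h : ∀ i ∈ blk P q, rs[i]? = rs'[i]?) :
    (ksf P κ m rs).filter (fun k => k.q = q) = (ksf P κ m rs').filter (fun k => k.q = q) := by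
  unfold ksf bkeys
  rw [List.filter_flatMap, List.filter_flatMap]
  refine List.flatMap_congr fun p _ => ?_
  by_cases hp : p = q
  · subst hp
    congr 1
    refine List.flatMap_congr fun κ' hκ' => ?_
    have hκ := (mem_spCl.1 hκ').2
    have e : resi P κ rs p κ' = resi P κ rs' p κ' := by
      unfold resi
      rw [List.getD_eq_getElem?_getD, List.getD_eq_getElem?_getD, h _ (idx_mem hκ)]
    simp only [e]
  · have : ∀ ρ : ℕ → ℕ → ℕ, (((spCl P κ).flatMap fun κ' =>
        ((cellsIn P.r κ m κ').filter fun m' => m' % (modu P κ κ' : ℤ) = (ρ p κ' : ℤ)).flatMap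
          fun m' => (List.range (copies P κ κ')).map fun s => (⟨p, κ', m', s⟩ : Key)).filter
        fun k => k.q = q) = [] := by
      intro ρ
      rw [List.filter_eq_nil_iff]
      intro k hk
      simp only [List.mem_flatMap, List.mem_map] at hk
      obtain ⟨κ', -, m', -, s, -, rfl⟩ := hk
      simpa using hp
    rw [this, this]

/-- the requests of one cell -/
theorem req {κ : ℕ} {m : ℤ} {q κ' : ℕ} {m' : ℤ} (hq : q < P.N) (h1 : κ ≤ κ' + P.dl)
    (h2 : κ' ≤ κ + P.du) (hm : m' ∈ cellsIn P.r κ m κ') :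
    Req (ksf P κ m) (nwd P) (q * (P.dl + P.du + 1) + (κ' + P.dl - κ)) (κ - (P.c0 + κ'))
      (m' % ((2 ^ (κ - (P.c0 + κ')) : ℕ) : ℤ)).toNat (copies P κ κ') (fun s => ⟨q, κ', m', s⟩) where
  hi := idx_lt hq h2
  hr := by
    have h3 : (0 : ℤ) < ((2 ^ (κ - (P.c0 + κ')) : ℕ) : ℤ) := by positivity
    have h4 := Int.emod_lt_of_pos m' h3
    have h5 := Int.emod_nonneg m' h3.ne'
    omega
  hN := copies_pos P κ κ'
  hlN := by
    unfold copies
    rcases Nat.le_total κ (P.c0 + κ') with h | h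
    · left; omega
    · right
      have : P.c0 + κ' - κ = 0 := by omega
      rw [this, pow_zero]
  act := by
    intro rs _ hr s hs
    refine mem_bkeys.2 ⟨hq, mem_spCl.2 ⟨?_, h2⟩, hm, ?_, hs⟩
    · show κ - P.dl ≤ κ'
      omega
    show m' % (modu P κ κ' : ℤ) = (resi P κ rs q κ' : ℤ)
    unfold resi modu
    rw [hr]
    have h3 : (0 : ℤ) < ((2 ^ (κ - (P.c0 + κ')) : ℕ) : ℤ) := by positivity
    have h5 := Int.emod_nonneg m' h3.ne'
    omega
  pas := by
    intro rs _ hr s hs hmem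
    have h6 := (mem_bkeys.1 hmem).2.2.2.1
    refine hr ?_
    have h7 : m' % (modu P κ κ' : ℤ) = (resi P κ rs q κ' : ℤ) := h6
    unfold resi modu at h7
    rw [h7]
    exact (Int.toNat_natCast _).symm
  inj := by
    intro s _ s' _ h
    exact congrArg Key.s h

/-! ### the spawned numbers -/

section ends

variable (P)

/-- `spw` as a function of the results by key -/
def spF (κ : ℕ) (r : Key → Option (List ℕ)) (q κ' : ℕ) (z : St) : ℕ :=
  cdiv (modu P κ κ' * sumR (copies P κ κ') fun s =>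
    match r ⟨q, κ', (celOf κ' z).m, s⟩ with
    | some T => rdt P (celOf κ' z) T z
    | none => 0) (copies P κ κ')

theorem spw_eq (κ : ℕ) (ks : List Key) (res : List (List ℕ)) (q κ' : ℕ) (z : St) :
    spw P κ ks res q κ' z = spF P κ (look ks res) q κ' z := rfl

/-- the sub-computation of a request -/
def subk (c : Cel) (sub : Cel → RT (List ℕ)) (key : Key) : RT (List ℕ) :=
  sub ⟨c.i - 1, P.N * c.j + key.q, key.κ, key.m⟩

/-- the law of the window of the cell `c`: words and results by key -/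
def win (c : Cel) (sub : Cel → RT (List ℕ)) : RT (List ℕ × (Key → Option (List ℕ))) :=
  joint (nwd P) (ksf P c.κ c.m) (subk P c sub)

/-- **the body is an image of `win`** -/
theorem bodyT_eq (leaf : St → Option ℕ) (F : St → ℕ) (X : ℕ → ℕ → St → ℕ) (k : ℕ)
    (sub : Cel → RT (List ℕ)) (c : Cel) :
    bodyT P leaf F X k sub c =
      (win P c sub).map fun x => tabC P c fun z => bodyNum P leaf F X k (spF P c.κ x.2) c.κ z := by
  unfold bodyT win joint RT.map
  rw [bind_assoc]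
  congr 1
  funext rs
  rw [bind_assoc]
  rfl

/-- the value of an optional table at the state `z` of the cell `c` -/
def rdo (c : Cel) (z : St) : Option (List ℕ) → ℝ
  | some T => (rdt P c T z : ℝ)
  | none => 0

/-- the spawned number without rounding -/
noncomputable def spR (κ : ℕ) (r : Key → Option (List ℕ)) (q κ' : ℕ) (z : St) : ℝ :=
  2 ^ (κ - (P.c0 + κ')) *
    (∑ s ∈ range (copies P κ κ'), rdo P (celOf κ' z) z (r ⟨q, κ', (celOf κ' z).m, s⟩)) /
      copies P κ κ'

/-- mean number of the pair `(κ', z)` -/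
noncomputable def RS (W : ℕ) (sub : Cel → RT (List ℕ)) (κ' : ℕ) (z : St) : ℝ :=
  (sub (celOf κ' z)).Ev W fun T => (rdt P (celOf κ' z) T z : ℝ)

/-- second moment of the pair `(κ', z)` -/
noncomputable def QS (W : ℕ) (sub : Cel → RT (List ℕ)) (κ' : ℕ) (z : St) : ℝ :=
  (sub (celOf κ' z)).Ev W fun T => (rdt P (celOf κ' z) T z : ℝ) ^ 2

variable {P}

theorem le_cdiv (a : ℕ) {b : ℕ} (hb : 0 < b) : (a : ℝ) / b ≤ cdiv a b := by
  unfold cdiv
  rw [div_le_iff₀ (Nat.cast_pos.2 hb)]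
  have h := Nat.div_add_mod (a + (b - 1)) b
  have h1 := Nat.mod_lt (a + (b - 1)) hb
  have h2 : a ≤ (a + (b - 1)) / b * b := by
    rw [Nat.mul_comm]; omega
  exact_mod_cast h2

theorem cdiv_le (a : ℕ) {b : ℕ} (hb : 0 < b) : (cdiv a b : ℝ) ≤ (a : ℝ) / b + 1 := by
  unfold cdiv
  have hb' : (0 : ℝ) < b := Nat.cast_pos.2 hb
  have h2 : (a + (b - 1)) / b * b ≤ a + b := by
    have := Nat.div_mul_le_self (a + (b - 1)) b
    omega
  have h3 : (((a + (b - 1)) / b : ℕ) : ℝ) * b ≤ a + b := by exact_mod_cast h2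
  have h4 : (a : ℝ) / b + 1 = (a + b) / b := by field_simp
  rw [h4, le_div_iff₀ hb']
  exact h3

theorem sumR_cast (n : ℕ) (f : ℕ → ℕ) : (sumR n f : ℝ) = ∑ s ∈ range n, (f s : ℝ) := by
  unfold sumR
  induction n with
  | zero => simp
  | succ n ih =>
    rw [List.range_succ, List.map_append, List.sum_append, sum_range_succ, ← ih]
    simp

theorem spR_eq (κ : ℕ) (r : Key → Option (List ℕ)) (q κ' : ℕ) (z : St) :
    spR P κ r q κ' z = ((modu P κ κ' * sumR (copies P κ κ') fun s =>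
      match r ⟨q, κ', (celOf κ' z).m, s⟩ with
      | some T => rdt P (celOf κ' z) T z
      | none => 0 : ℕ) : ℝ) / copies P κ κ' := by
  unfold spR modu
  rw [Nat.cast_mul, sumR_cast]
  push_cast
  congr 2
  refine sum_congr rfl fun s _ => ?_
  cases r ⟨q, κ', (celOf κ' z).m, s⟩ <;> simp [rdo]

theorem spR_le (κ : ℕ) (r : Key → Option (List ℕ)) (q κ' : ℕ) (z : St) :
    spR P κ r q κ' z ≤ spF P κ r q κ' z := by
  rw [spR_eq]
  exact le_cdiv _ (copies_pos P κ κ')

theorem spF_le (κ : ℕ) (r : Key → Option (List ℕ)) (q κ' : ℕ) (z : St) :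
    (spF P κ r q κ' z : ℝ) ≤ spR P κ r q κ' z + 1 := by
  rw [spR_eq]
  exact cdiv_le _ (copies_pos P κ κ')

theorem spR_nonneg (κ : ℕ) (r : Key → Option (List ℕ)) (q κ' : ℕ) (z : St) :
    0 ≤ spR P κ r q κ' z := by
  rw [spR_eq]
  positivity

variable {c : Cel} {q : ℕ} {sub : Cel → RT (List ℕ)} {W : ℕ}

theorem sub_eq {z : St} (hi : z.i = c.i - 1) (hj : z.j = P.N * c.j + q) (κ' s : ℕ) :
    subk P c sub ⟨q, κ', (celOf κ' z).m, s⟩ = sub (celOf κ' z) := by
  unfold subk
  congr 1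
  show (⟨c.i - 1, P.N * c.j + q, κ', z.u / 2 ^ κ'⟩ : Cel) = ⟨z.i, z.j, κ', z.u / 2 ^ κ'⟩
  rw [hi, hj]

/-- the pair `(κ', z)` at end `q` of the window of the cell `c` is requested if its residue hits -/
structure SpOk (P : Par) (c : Cel) (q κ' : ℕ) (z : St) : Prop where
  hi : z.i = c.i - 1
  hj : z.j = P.N * c.j + q
  lo : c.κ ≤ κ' + P.dl
  hi' : κ' ≤ c.κ + P.du
  mem : (celOf κ' z).m ∈ cellsIn P.r c.κ c.m κ'

theorem scale_eq (κ κ' : ℕ) :
    (2 : ℝ) ^ (κ - (P.c0 + κ')) / copies P κ κ' = 2 ^ κ / 2 ^ (P.c0 + κ') := by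
  unfold copies
  rcases Nat.le_total κ (P.c0 + κ') with hc | hc
  · rw [Nat.sub_eq_zero_of_le hc, pow_zero]
    push_cast
    rw [div_eq_div_iff (by positivity) (by positivity), one_mul, ← pow_add]
    congr 1
    omega
  · rw [Nat.sub_eq_zero_of_le hc, pow_zero]
    push_cast
    rw [div_one, eq_div_iff (by positivity), ← pow_add]
    congr 1
    omega

/-- **exact mean of a spawned number** -/
theorem Ev_spR (hW : 0 < W) (hd : 2 ^ P.dl ∣ W) (hq : q < P.N) {κ' : ℕ} {z : St}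
    (h : SpOk P c q κ' z) :
    (win P c sub).Ev W (fun x => spR P c.κ x.2 q κ' z) = RS P W sub κ' z := by
  have hr := req (P := P) hq h.lo h.hi' h.mem
  have hd' : 2 ^ (c.κ - (P.c0 + κ')) ∣ W :=
    (Nat.pow_dvd_pow 2 (by have := h.lo; omega)).trans hd
  exact hr.Ev hW hd' (subk P c sub) (rdo P (celOf κ' z) z) rfl fun s _ => by
    rw [sub_eq h.hi h.hj]; rfl

/-- **variance of a spawned number** -/
theorem vr_spR (hW : 0 < W) (hd : 2 ^ P.dl ∣ W) (hq : q < P.N) {κ' : ℕ} {z : St}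
    (h : SpOk P c q κ' z) :
    vr W (win P c sub) (fun x => spR P c.κ x.2 q κ' z) ≤
      2 ^ c.κ / 2 ^ (P.c0 + κ') * QS P W sub κ' z := by
  have hr := req (P := P) hq h.lo h.hi' h.mem
  have hd' : 2 ^ (c.κ - (P.c0 + κ')) ∣ W :=
    (Nat.pow_dvd_pow 2 (by have := h.lo; omega)).trans hd
  rw [← scale_eq]
  exact hr.vr_le hW hd' (subk P c sub) (rdo P (celOf κ' z) z) rfl (m := RS P W sub κ' z)
    (M := QS P W sub κ' z) (fun s _ => by rw [sub_eq h.hi h.hj]; rfl)
    (fun s _ => by rw [sub_eq h.hi h.hj]; rfl)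

theorem QS_nonneg (P : Par) (W : ℕ) (sub : Cel → RT (List ℕ)) (κ' : ℕ) (z : St) :
    0 ≤ QS P W sub κ' z := Ev_nonneg fun _ => sq_nonneg _

theorem RS_nonneg (P : Par) (W : ℕ) (sub : Cel → RT (List ℕ)) (κ' : ℕ) (z : St) :
    0 ≤ RS P W sub κ' z := Ev_nonneg fun _ => Nat.cast_nonneg _

/-- a function of the results of end `q` -/
theorem dep_end (c : Cel) (q : ℕ) {f : (Key → Option (List ℕ)) → ℝ}
    (hf : DepK (fun k : Key => k.q = q) f) :
    DepJ (ksf P c.κ c.m) (blk P q) (fun k => k.q = q) fun x => f x.2 where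
  key := fun _ => hf
  word := fun _ _ _ _ => rfl

/-- **functions of two ends are independent** -/
theorem indep (hW : 0 < W) (c : Cel) (sub : Cel → RT (List ℕ)) {q q' : ℕ} (hqq : q ≠ q')
    {f g : (Key → Option (List ℕ)) → ℝ} (hf : DepK (fun k : Key => k.q = q) f)
    (hg : DepK (fun k : Key => k.q = q') g) :
    (win P c sub).Ev W (fun x => f x.2 * g x.2) =
      (win P c sub).Ev W (fun x => f x.2) * (win P c sub).Ev W (fun x => g x.2) :=
  joint_indep hW (nwd P) (subk P c sub) (blk_disj hqq) (fun _ h h' => hqq (h.symm.trans h'))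
    (dep_end c q hf) (dep_end c q' hg) (ksf_filter c.κ c.m q) (ksf_filter c.κ c.m q')

theorem spF_congr {κ q : ℕ} {r r' : Key → Option (List ℕ)} (h : ∀ k : Key, k.q = q → r k = r' k) :
    spF P κ r q = spF P κ r' q := by
  funext κ' z
  unfold spF
  have e : ∀ κ' m' s, r ⟨q, κ', m', s⟩ = r' ⟨q, κ', m', s⟩ := fun κ' m' s => h _ rfl
  simp only [e]

theorem spR_congr {κ q : ℕ} {r r' : Key → Option (List ℕ)} (h : ∀ k : Key, k.q = q → r k = r' k) :
    spR P κ r q = spR P κ r' q := by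
  funext κ' z
  unfold spR
  have e : ∀ κ' m' s, r ⟨q, κ', m', s⟩ = r' ⟨q, κ', m', s⟩ := fun κ' m' s => h _ rfl
  simp only [e]

/-! ### the end values -/

variable {F : St → ℕ}

/-- `numSt` with real pair numbers -/
noncomputable def numR (P : Par) (F : St → ℕ) (κ : ℕ) (f : ℕ → St → ℝ) (y : St) : ℝ :=
  if cls F y + P.dl < κ ∨ κ + P.du < cls F y then (F y : ℝ)
  else dist y (rdn P (cls F y) y) + f (cls F y) (rdn P (cls F y) y)

theorem numR_cast (P : Par) (F : St → ℕ) (κ : ℕ) (f : ℕ → St → ℕ) (y : St) :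
    (numSt P F κ f y : ℝ) = numR P F κ (fun κ' z => (f κ' z : ℝ)) y := by
  unfold numSt numR
  split_ifs <;> push_cast <;> rfl

theorem numR_mono {κ : ℕ} {f g : ℕ → St → ℝ} (h : ∀ κ' z, f κ' z ≤ g κ' z) (y : St) :
    numR P F κ f y ≤ numR P F κ g y := by
  unfold numR
  split_ifs
  · exact le_refl _
  · have := h (cls F y) (rdn P (cls F y) y)
    linarith

theorem numR_le_add {κ : ℕ} {f g : ℕ → St → ℝ} {e : ℝ} (he : 0 ≤ e)
    (h : ∀ κ' z, f κ' z ≤ g κ' z + e) (y : St) :
    numR P F κ f y ≤ numR P F κ g y + e := by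
  unfold numR
  split_ifs
  · linarith
  · have := h (cls F y) (rdn P (cls F y) y)
    linarith

theorem numR_nonneg {κ : ℕ} {f : ℕ → St → ℝ} (h : ∀ κ' z, 0 ≤ f κ' z) (y : St) :
    0 ≤ numR P F κ f y := by
  unfold numR
  split_ifs
  · exact Nat.cast_nonneg _
  · exact add_nonneg (Nat.cast_nonneg _) (h _ _)

/-- the end value of end `q`: `numSt` of the spawned numbers -/
theorem XR_le (κ : ℕ) (r : Key → Option (List ℕ)) (q : ℕ) (y : St) :
    numR P F κ (spR P κ r q) y ≤ numSt P F κ (spF P κ r q) y := by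
  rw [numR_cast]
  exact numR_mono (fun κ' z => spR_le κ r q κ' z) y

theorem XF_le (κ : ℕ) (r : Key → Option (List ℕ)) (q : ℕ) (y : St) :
    (numSt P F κ (spF P κ r q) y : ℝ) ≤ numR P F κ (spR P κ r q) y + 1 := by
  rw [numR_cast]
  exact numR_le_add zero_le_one (fun κ' z => spF_le κ r q κ' z) y

/-- bound of the variance of the end value: `Q κ' z` = second moment of the entry of `(κ', z)` -/
noncomputable def endV (P : Par) (F : St → ℕ) (κ : ℕ) (Q : ℕ → St → ℝ) (y : St) : ℝ :=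
  if cls F y + P.dl < κ ∨ κ + P.du < cls F y then 0
  else 2 ^ κ / 2 ^ (P.c0 + cls F y) * Q (cls F y) (rdn P (cls F y) y)

/-- `y` is a piece of end `q` of a window of the cell `c`, and its cell is requested if spawned -/
structure EndOk (P : Par) (F : St → ℕ) (c : Cel) (q : ℕ) (y : St) : Prop where
  hi : y.i = c.i - 1
  hj : y.j = P.N * c.j + q
  mem : c.κ ≤ cls F y + P.dl → cls F y ≤ c.κ + P.du →
    (celOf (cls F y) (rdn P (cls F y) y)).m ∈ cellsIn P.r c.κ c.m (cls F y)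

variable {y : St}

theorem EndOk.spOk (h : EndOk P F c q y) (h1 : c.κ ≤ cls F y + P.dl) (h2 : cls F y ≤ c.κ + P.du) :
    SpOk P c q (cls F y) (rdn P (cls F y) y) := ⟨h.hi, h.hj, h1, h2, h.mem h1 h2⟩

/-- **exact mean of the end value** -/
theorem Ev_XR (hW : 0 < W) (hd : 2 ^ P.dl ∣ W) (hq : q < P.N) (h : EndOk P F c q y) :
    (win P c sub).Ev W (fun x => numR P F c.κ (spR P c.κ x.2 q) y) =
      numR P F c.κ (RS P W sub) y := by
  unfold numR
  by_cases ho : cls F y + P.dl < c.κ ∨ c.κ + P.du < cls F y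
  · simp only [ho, if_true, Ev_const hW]
  · simp only [ho, if_false]
    rw [Ev_add, Ev_const hW, Ev_spR hW hd hq (h.spOk (by omega) (by omega))]

/-- **variance of the end value** -/
theorem vr_XR (hW : 0 < W) (hd : 2 ^ P.dl ∣ W) (hq : q < P.N) (h : EndOk P F c q y) :
    vr W (win P c sub) (fun x => numR P F c.κ (spR P c.κ x.2 q) y) ≤
      endV P F c.κ (QS P W sub) y := by
  unfold numR endV
  by_cases ho : cls F y + P.dl < c.κ ∨ c.κ + P.du < cls F y
  · simp only [ho, if_true, vr_const hW, le_refl]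
  · simp only [ho, if_false]
    rw [vr_const_add hW]
    exact vr_spR hW hd hq (h.spOk (by omega) (by omega))

/-- mean of the rounded end value, lower side -/
theorem le_Ev_XF (hW : 0 < W) (hd : 2 ^ P.dl ∣ W) (hq : q < P.N) (h : EndOk P F c q y) :
    numR P F c.κ (RS P W sub) y ≤
      (win P c sub).Ev W (fun x => (numSt P F c.κ (spF P c.κ x.2 q) y : ℝ)) := by
  rw [← Ev_XR hW hd hq h]
  exact Ev_mono fun x => XR_le _ _ _ _

/-- mean of the rounded end value, upper side -/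
theorem Ev_XF_le (hW : 0 < W) (hd : 2 ^ P.dl ∣ W) (hq : q < P.N) (h : EndOk P F c q y) :
    (win P c sub).Ev W (fun x => (numSt P F c.κ (spF P c.κ x.2 q) y : ℝ)) ≤
      numR P F c.κ (RS P W sub) y + 1 := by
  refine (Ev_mono fun x => XF_le _ _ _ _).trans ?_
  rw [Ev_add, Ev_const hW, Ev_XR hW hd hq h]

/-- second moment of the rounded end value -/
theorem Ev_XF_sq_le (hW : 0 < W) (hd : 2 ^ P.dl ∣ W) (hq : q < P.N) (h : EndOk P F c q y) :
    (win P c sub).Ev W (fun x => (numSt P F c.κ (spF P c.κ x.2 q) y : ℝ) ^ 2) ≤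
      (numR P F c.κ (RS P W sub) y + 1) ^ 2 + endV P F c.κ (QS P W sub) y := by
  have h1 : ∀ x : List ℕ × (Key → Option (List ℕ)),
      (numSt P F c.κ (spF P c.κ x.2 q) y : ℝ) ^ 2 ≤
        (1 + numR P F c.κ (spR P c.κ x.2 q) y) ^ 2 := fun x =>
    pow_le_pow_left₀ (Nat.cast_nonneg _) ((XF_le _ _ _ _).trans (le_of_eq (add_comm _ _))) 2
  refine (Ev_mono h1).trans ?_
  have h2 := vr_const_add hW (win P c sub) 1 (fun x => numR P F c.κ (spR P c.κ x.2 q) y)
  have h3 := vr_XR (sub := sub) hW hd hq h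
  rw [← h2] at h3
  unfold vr at h3
  rw [Ev_add, Ev_const hW, Ev_XR hW hd hq h] at h3
  linarith [h3]

/-- the rounded end value depends on the results of end `q` only -/
theorem depK_XF (κ q : ℕ) (y : St) (f : ℕ → ℝ) :
    DepK (fun k : Key => k.q = q) fun r => f (numSt P F κ (spF P κ r q) y) := by
  intro r r' h
  show f (numSt P F κ (spF P κ r q) y) = f (numSt P F κ (spF P κ r' q) y)
  rw [spF_congr h]

theorem depK_XR (κ q : ℕ) (y : St) :
    DepK (fun k : Key => k.q = q) fun r => numR P F κ (spR P κ r q) y := by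
  intro r r' h
  show numR P F κ (spR P κ r q) y = numR P F κ (spR P κ r' q) y
  rw [spR_congr h]

/-- **second moment of a combination of end values** -/
theorem sq_XR (hW : 0 < W) (hd : 2 ^ P.dl ∣ W) {ι : Type} (S : ℕ → Finset ι)
    (w : ℕ → ι → ℝ) (hw : ∀ q < P.N, ∀ j ∈ S q, 0 ≤ w q j) (hw1 : ∀ q < P.N, ∑ j ∈ S q, w q j ≤ 1)
    (yy : ℕ → ι → St) (hy : ∀ q < P.N, ∀ j ∈ S q, EndOk P F c q (yy q j)) (a : ℝ) :
    (win P c sub).Ev W
        (fun x => (a + ∑ q ∈ range P.N, ∑ j ∈ S q, w q j *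
          numR P F c.κ (spR P c.κ x.2 q) (yy q j)) ^ 2) ≤
      (a + ∑ q ∈ range P.N, ∑ j ∈ S q, w q j * numR P F c.κ (RS P W sub) (yy q j)) ^ 2 +
        ∑ q ∈ range P.N, ∑ j ∈ S q, w q j * endV P F c.κ (QS P W sub) (yy q j) := by
  have h := sq_sum_pair hW (win P c sub) (range P.N)
    (fun q x => ∑ j ∈ S q, w q j * numR P F c.κ (spR P c.κ x.2 q) (yy q j)) a ?_
  · refine h.le.trans (add_le_add (le_of_eq ?_) ?_)
    · congr 2
      refine sum_congr rfl fun q hq => ?_
      rw [Ev_sum]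
      refine sum_congr rfl fun j hj => ?_
      rw [Ev_mul_left, Ev_XR hW hd (mem_range.1 hq) (hy q (mem_range.1 hq) j hj)]
    · refine sum_le_sum fun q hq => ?_
      have hq' := mem_range.1 hq
      refine (vr_convex hW (win P c sub) (S q) (w q)
        (fun j x => numR P F c.κ (spR P c.κ x.2 q) (yy q j)) (hw q hq') (hw1 q hq')).trans ?_
      exact sum_le_sum fun j hj =>
        mul_le_mul_of_nonneg_left (vr_XR hW hd hq' (hy q hq' j hj)) (hw q hq' j hj)
  · intro p _ q _ hpq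
    refine indep hW c sub hpq
      (f := fun r => ∑ j ∈ S p, w p j * numR P F c.κ (spR P c.κ r p) (yy p j))
      (g := fun r => ∑ j ∈ S q, w q j * numR P F c.κ (spR P c.κ r q) (yy q j)) ?_ ?_
    · intro r r' h
      exact sum_congr rfl fun j _ => congrArg (w p j * ·) (depK_XR c.κ p (yy p j) r r' h)
    · intro r r' h
      exact sum_congr rfl fun j _ => congrArg (w q j * ·) (depK_XR c.κ q (yy q j) r r' h)

end ends

end Crest.Agent.R288.XB715
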