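/-
# Row 288, RT.LANE2, line L7 (helper944) on ALG v2: the lane law from the two step laws

`RS`, `QS` (XB_715) = mean and second moment of the entry of a pair in its own cell.
* `bdy i` : the family of BODY tables which the arrival tables of macro height `i + 1` call.
* **`BodyStep`** (L5) : one window; **`ArrStep`** (L6) : one jump over the body tables; both for an
  ARBITRARY family `sub` and with hypotheses at admissible pairs of the domain only.
* `bodyConst_bdy` : the surely constant entries of the body tables.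
* **`lane_law`** : mean `≤ m 2^κ` and second moment `≤ v 4^κ` of every lane; **`body_law`** : mean
  `≤ b 2^κ` and second moment `≤ w 4^κ` of every body entry; `v = vC a2 b d`, `w = wC a2 c0 b d Γ`.
-/
import Crest.Agent.R288.AdmR_944
import Crest.Agent.R288.LawS_944
import Crest.Agent.R288.XB_715
import Crest.Agent.R288.CellA_488

set_option autoImplicit false

namespace Crest.Agent.R288.LawU944

open Crest.Agent.R288.Alg45 Crest.Agent.R288.XB715 Crest.Agent.R288.AdmR944
  Crest.Agent.R288.LawS944 Crest.Agent.R295.Rnd627 Crest.Agent.R295.Rnd627.RT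

variable (P : Par) (W : ℕ) (leaf : St → Option ℕ) (F : St → ℕ) (X : ℕ → ℕ → St → ℕ) (k : ℕ)
  (Dm : St → Prop)

/-- the BODY tables called by the arrival tables of macro height `i + 1` -/
def bdy (i : ℕ) (c : Cel) : RT (List ℕ) :=
  bodyT P leaf F X k (fun c' => arrT P leaf F X k i c') c

theorem arrT_succ (i : ℕ) (c : Cel) :
    arrT P leaf F X k (i + 1) c = arrOf P F (bdy P leaf F X k i) c := rfl

/-- mean and second moment of the entry of the pair `(κ, z)` -/
noncomputable def ms (sub : Cel → RT (List ℕ)) (κ : ℕ) (z : St) : ℝ × ℝ :=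
  (RS P W sub κ z, QS P W sub κ z)

/-- (L5) one window: arbitrary family `sub` of arrival tables one macro height lower -/
def BodyStep (m v b w : ℝ) : Prop :=
  ∀ (sub : Cel → RT (List ℕ)) (κ : ℕ) (x : St), Dm x → 0 < x.i → adm P F κ x = true →
    (∀ κ' z, z.i + 1 = x.i → Dm z → adm P F κ' z = true → MS m v κ' (ms P W sub κ' z)) →
    MS b w κ (ms P W (fun c => bodyT P leaf F X k sub c) κ x)

/-- the surely constant entries of a family of body tables: numbers at inadmissible pairs, leaf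
values at admissible leaf pairs; `t` = index of the entry in the cell `c` -/
def BodyConst (body : Cel → RT (List ℕ)) : Prop :=
  ∀ c : Cel, ∀ t < csz P c.κ,
    (adm P F c.κ (cst P c t) = false →
      (body c).All W fun T => T.getD t 0 = F (cst P c t)) ∧
    (adm P F c.κ (cst P c t) = true → ∀ a, leaf (cst P c t) = some a →
      (body c).All W fun T => T.getD t 0 = a)

/-- (L6) one jump over the body tables of an arbitrary family `sub` -/
def ArrStep (m v b w : ℝ) : Prop :=
  ∀ (sub : Cel → RT (List ℕ)) (κ : ℕ) (y : St), Dm y → 0 < y.i → adm P F κ y = true →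
    (∀ κ' z, z.i = y.i → Dm z → adm P F κ' z = true →
      MS b w κ' (ms P W (fun c => bodyT P leaf F X k sub c) κ' z)) →
    MS m v κ (ms P W (fun c => arrOf P F (fun c' => bodyT P leaf F X k sub c') c) κ y)

variable {P W leaf F X k Dm}

theorem All_bodyT (sub : Cel → RT (List ℕ)) (c : Cel) {t : ℕ} (ht : t < csz P c.κ) (Q : ℕ → Prop)
    (h : ∀ S : ℕ → ℕ → St → ℕ, Q (bodyNum P leaf F X k S c.κ (cst P c t))) :
    (bodyT P leaf F X k sub c).All W fun T => Q (T.getD t 0) := by
  rw [bodyT_eq]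
  unfold RT.map
  rw [All_bind]
  refine RT.All.of_forall fun x => ?_
  rw [All_ret]
  have : (tabC P c fun z => bodyNum P leaf F X k (spF P c.κ x.2) c.κ z).getD t 0 =
      bodyNum P leaf F X k (spF P c.κ x.2) c.κ (cst P c t) := by
    unfold tabC
    simp [List.getD_eq_getElem?_getD, ht]
  rw [this]
  exact h _

theorem bodyConst_bodyT (sub : Cel → RT (List ℕ)) :
    BodyConst P W leaf F (fun c => bodyT P leaf F X k sub c) := by
  refine fun c t ht => ⟨fun ha => ?_, fun ha a hl => ?_⟩
  · exact All_bodyT (F := F) sub c ht (fun n => n = F (cst P c t)) fun S => by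
      simp [bodyNum, ha]
  · exact All_bodyT (F := F) sub c ht (fun n => n = a) fun S => by
      simp [bodyNum, ha, hl]

theorem bodyConst_bdy (i : ℕ) : BodyConst P W leaf F (bdy P leaf F X k i) :=
  bodyConst_bodyT _

/-- a table that is computed without randomness -/
theorem ms_ret {f : Cel → St → ℕ} {κ : ℕ} {z : St} (hd : inD P z) (ha : adm P F κ z = true) :
    ms P W (fun c => .ret (tabC P c (f c))) κ z =
      ((f (celOf κ z) z : ℝ), (f (celOf κ z) z : ℝ) ^ 2) := by
  have hC : Cell488.InC P (celOf κ z) z := by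
    have h := adm_iff.1 ha
    refine Cell488.inC_celOf P hd ?_ h.2.1
    rw [← h.1]
    exact Cell488.gr_rdn P κ z
  unfold ms RS QS
  simp only [Ev_ret, Cell488.rdt_tabC P hC]

/-- macro height `0` -/
theorem base (hD : ∀ y, Dm y → inD P y) {Λ : ℕ} (hF : FOk leaf F Dm Λ) {m v : ℝ} (hm : 5 ≤ m)
    (hv : 25 ≤ v) {κ : ℕ} {z : St} (hz : Dm z) (ha : adm P F κ z = true) :
    MS m v κ (ms P W (fun c => arrT P leaf F X k 0 c) κ z) := by
  have h1 : (botNum P leaf F κ z : ℝ) ≤ 5 * 2 ^ κ := by
    have h2 := lt_of_adm ha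
    have h3 : 0 < 2 ^ κ := Nat.two_pow_pos κ
    have h4 : botNum P leaf F κ z ≤ F z + 1 := by
      unfold botNum
      rw [if_neg (by simp [ha])]
      rcases hl : leaf z with _ | a
      · have := hF.coer z hz
        simp only [Option.getD_none]
        omega
      · have := hF.leaf_le z hz a hl
        simp only [Option.getD_some]
        omega
    have h5 : botNum P leaf F κ z ≤ 5 * 2 ^ κ := by omega
    exact_mod_cast h5
  have h0 : (0 : ℝ) ≤ botNum P leaf F κ z := Nat.cast_nonneg _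
  have e : ms P W (fun c => arrT P leaf F X k 0 c) κ z =
      ((botNum P leaf F κ z : ℝ), (botNum P leaf F κ z : ℝ) ^ 2) :=
    ms_ret (f := fun c => botNum P leaf F c.κ) (hD z hz) ha
  have h2 : (2 : ℝ) ^ κ * 2 ^ κ = 4 ^ κ := by rw [← mul_pow]; norm_num
  have hp : (0 : ℝ) < 2 ^ κ := by positivity
  rw [e]
  constructor
  · exact h1.trans (mul_le_mul_of_nonneg_right hm hp.le)
  · calc (botNum P leaf F κ z : ℝ) ^ 2 ≤ (5 * 2 ^ κ) ^ 2 := pow_le_pow_left₀ h0 h1 2
      _ = 25 * 4 ^ κ := by rw [← h2]; ring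
      _ ≤ v * 4 ^ κ := mul_le_mul_of_nonneg_right hv (by positivity)

section main

variable (hD : ∀ y, Dm y → inD P y) {Λ : ℕ} (hF : FOk leaf F Dm Λ) {m b d Γ : ℝ} (hm : 5 ≤ m)
  (hd : 5 ≤ d) (hΓ : 0 ≤ Γ) (hc : 2 * 4 ^ P.a2 * Γ ≤ 2 ^ P.c0)
  (hB : ∀ v, 0 ≤ v → BodyStep P W leaf F X k Dm m v b (b ^ 2 + Γ * v / 2 ^ P.c0))
  (hA : ∀ w, 0 ≤ w → w ≤ wC P.a2 P.c0 b d Γ →
    ArrStep P W leaf F X k Dm m (d ^ 2 + 4 ^ P.a2 * w) b w)

include hD hF hm hd hΓ hc hB hA

/-- all heights -/
theorem laws (i : ℕ) :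
    (∀ κ z, z.i = i → Dm z → adm P F κ z = true →
      MS m (vC P.a2 b d) κ (ms P W (fun c => arrT P leaf F X k i c) κ z)) ∧
    (∀ κ z, z.i = i + 1 → Dm z → adm P F κ z = true →
      MS b (wC P.a2 P.c0 b d Γ) κ (ms P W (bdy P leaf F X k i) κ z)) := by
  have hv0 : 0 ≤ vC P.a2 b d := vC_nonneg _ _ _
  have hv25 : 25 ≤ vC P.a2 b d := by
    have h1 : (0 : ℝ) ≤ 4 ^ P.a2 * b ^ 2 := by positivity
    unfold vC
    nlinarith
  have hbody : ∀ i, (∀ κ z, z.i = i → Dm z → adm P F κ z = true →
      MS m (vC P.a2 b d) κ (ms P W (fun c => arrT P leaf F X k i c) κ z)) →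
      ∀ κ z, z.i = i + 1 → Dm z → adm P F κ z = true →
        MS b (wC P.a2 P.c0 b d Γ) κ (ms P W (bdy P leaf F X k i) κ z) := by
    intro i h κ z hz hDz ha
    exact hB _ hv0 (fun c => arrT P leaf F X k i c) κ z hDz (by omega) ha
      fun κ' z' hz' hDz' ha' => h κ' z' (by omega) hDz' ha'
  induction i with
  | zero =>
    have h0 : ∀ κ z, z.i = 0 → Dm z → adm P F κ z = true →
        MS m (vC P.a2 b d) κ (ms P W (fun c => arrT P leaf F X k 0 c) κ z) :=
      fun κ z _ hDz ha => base hD hF hm hv25 hDz ha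
    exact ⟨h0, hbody 0 h0⟩
  | succ i ih =>
    have h1 : ∀ κ z, z.i = i + 1 → Dm z → adm P F κ z = true →
        MS m (vC P.a2 b d) κ (ms P W (fun c => arrT P leaf F X k (i + 1) c) κ z) := by
      intro κ z hz hDz ha
      have h2 := hA _ (wC_nonneg hΓ) le_rfl (fun c => arrT P leaf F X k i c) κ z hDz
        (by omega) ha fun κ' z' hz' hDz' ha' => ih.2 κ' z' (by omega) hDz' ha'
      exact h2.mono le_rfl (close_v hc)
    exact ⟨h1, hbody _ h1⟩

/-- **every lane**: mean and second moment -/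
theorem lane_law (κ : ℕ) (z : St) (hz : Dm z) (ha : adm P F κ z = true) :
    ((lanePair P leaf F X k κ z).Ev W fun a => (a : ℝ)) ≤ m * 2 ^ κ ∧
      ((lanePair P leaf F X k κ z).Ev W fun a => (a : ℝ) ^ 2) ≤ vC P.a2 b d * 4 ^ κ := by
  have h := (laws hD hF hm hd hΓ hc hB hA z.i).1 κ z rfl hz ha
  unfold lanePair
  simp only [Ev_bind, Ev_ret]
  exact h

/-- **every body entry** of macro height `i + 1` -/
theorem body_law (i κ : ℕ) (z : St) (hi : z.i = i + 1) (hz : Dm z) (ha : adm P F κ z = true) :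
    MS b (wC P.a2 P.c0 b d Γ) κ (ms P W (bdy P leaf F X k i) κ z) :=
  (laws hD hF hm hd hΓ hc hB hA i).2 κ z hi hz ha

end main

end Crest.Agent.R288.LawU944
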