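import Crest.Agent.R288.ArrW_984
import Crest.Agent.R288.ArrG_147
import Crest.Agent.R288.LawU_944
import Crest.Agent.R288.ArrLipA_195

/-!
# R288, leaf L6 at STATE level (pairs `(κ, y)` of ALG v2)

* `IsTab` : every outcome of the family is `tabC P c f` (true for `bodyT`).
* `RS`, `QS` (XB_715) = mean and second moment of the entry of a pair in its own cell.
* `Law P W F body κ y e` : (low), (stay), (retire), (pair) for the pair `(κ, y)`.
* `Law.big` (estimates), `Law.tiny` (constants), `law_of` (both).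
* `arr_mean'`, `arr_sq'` : size of mean and second moment.
* `arrStep` : `LawU944.ArrStep`; `ja_of_law` : `ArrLip195.JA`.
-/

set_option autoImplicit false

namespace Crest.Agent.R288.ArrX984

open Finset Crest.Agent.R295.Rnd627 Crest.Agent.R295.Rnd627.RT Crest.Agent.R288.Alg45
  Crest.Agent.R288.ArrV984 Crest.Agent.R288.ArrB147 Crest.Agent.R288.ArrW984
  Crest.Agent.R288.XB715
open Crest.Agent.R288.Alg45.Cell488 (InC cst_cidx cidx_lt)
open Crest.Agent.R288.ArrG147 (exists_mnu zof_inC celOf_zof adm_inC two_F_le kof_mem mem_jCl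
  own_mem_acells meets_of_inC)

variable {P : Par} {W : ℕ} {F : St → ℕ} {leaf : St → Option ℕ} {body : Cel → RT (List ℕ)}

/-- every outcome is the table of a function of the state -/
def IsTab (P : Par) (W : ℕ) (body : Cel → RT (List ℕ)) : Prop :=
  ∀ c, (body c).All W fun T => ∃ f : St → ℕ, T = tabC P c f

theorem isTab_bodyT (W : ℕ) (leaf : St → Option ℕ) (F : St → ℕ) (X : ℕ → ℕ → St → ℕ) (k : ℕ)
    (sub : Cel → RT (List ℕ)) : IsTab P W (fun c => bodyT P leaf F X k sub c) := by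
  intro c
  unfold bodyT
  rw [All_bind]
  refine All.of_forall fun rs => ?_
  simp only
  rw [All_bind]
  refine All.of_forall fun res => ?_
  rw [All_ret]
  exact ⟨_, rfl⟩

theorem isTab_bdy (W : ℕ) (leaf : St → Option ℕ) (F : St → ℕ) (X : ℕ → ℕ → St → ℕ) (k i : ℕ) :
    IsTab P W (LawU944.bdy P leaf F X k i) := isTab_bodyT W leaf F X k _

theorem getD_tabC {c : Cel} {t : ℕ} (ht : t < csz P c.κ) (f : St → ℕ) :
    (tabC P c f).getD t 0 = f (cst P c t) := by
  unfold tabC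
  rw [List.getD_eq_getElem _ _ (by simpa using ht), List.getElem_map, List.getElem_range]

/-- an entry = the entry of its state -/
theorem Ev_entry (hT : IsTab P W body) {c : Cel} {t : ℕ} (ht : t < csz P c.κ)
    (hin : InC P c (cst P c t)) (φ : ℕ → ℝ) :
    ((body c).Ev W fun T => φ (T.getD t 0)) =
      (body c).Ev W fun T => φ (rdt P c T (cst P c t)) := by
  refine Ev_congr_all ((hT c).mono fun T hT' => ?_)
  obtain ⟨f, rfl⟩ := hT'
  rw [getD_tabC ht, Cell488.rdt_tabC P hin]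

/-- the same surely -/
theorem All_entry (hT : IsTab P W body) {c : Cel} {t : ℕ} (ht : t < csz P c.κ)
    (hin : InC P c (cst P c t)) {Q : ℕ → Prop}
    (h : (body c).All W fun T => Q (rdt P c T (cst P c t))) :
    (body c).All W fun T => Q (T.getD t 0) := by
  refine ((hT c).and h).mono fun T hT' => ?_
  obtain ⟨⟨f, rfl⟩, hQ⟩ := hT'
  rw [Cell488.rdt_tabC P hin] at hQ
  rw [getD_tabC ht]
  exact hQ

/-- the grids of all classes up to `K` divide the domain -/
def GD (P : Par) (K : ℕ) : Prop := ∀ κ' ≤ K, (gst P κ' : ℤ) ∣ (P.Dm : ℤ)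

section pairs

variable {c : Cel} (hT : IsTab P W body) (hD : GD P (c.κ + P.a2))

include hT hD

theorem jmn_eq {x : ℕ × ℕ} (hx : x ∈ jks P c) :
    jmn P W body c x = RS P W body (kof P c x) (zof P c x) := by
  unfold RS
  rw [celOf_zof P hx hD]
  exact Ev_entry hT ((mem_jks P).1 hx).2 (zof_inC P hx hD) fun a => (a : ℝ)

theorem jsq_eq {x : ℕ × ℕ} (hx : x ∈ jks P c) :
    ((body (acell P c x.1)).Ev W fun T => (T.getD x.2 0 : ℝ) ^ 2) =
      QS P W body (kof P c x) (zof P c x) := by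
  unfold QS
  rw [celOf_zof P hx hD]
  exact Ev_entry hT ((mem_jks P).1 hx).2 (zof_inC P hx hD) fun a => (a : ℝ) ^ 2

end pairs

/-- states of the block of `y` in the domain, read at class `κ'` -/
def Cand (P : Par) (F : St → ℕ) (κ : ℕ) (y : St) (κ' : ℕ) (z : St) : Prop :=
  z.i = y.i ∧ z.j = y.j ∧ InC P (celOf κ' z) z ∧ κ - P.a1 ≤ κ' ∧ κ' ≤ κ + P.a2 ∧
    Alg45.dist y z ≤ 2 * F y

/-- **the law of the arrival value at the pair `(κ, y)`** -/
structure Law (P : Par) (W : ℕ) (F : St → ℕ) (body : Cel → RT (List ℕ)) (κ : ℕ) (y : St)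
    (e : ℝ) : Prop where
  low : ∀ m : ℝ, m ≤ F y →
    (∀ κ' z, Cand P F κ y κ' z → m ≤ Alg45.dist y z + RS P W body κ' z) →
    m ≤ RS P W (fun c => arrOf P F body c) κ y
  stay : RS P W (fun c => arrOf P F body c) κ y ≤ RS P W body κ y + e
  retire : RS P W (fun c => arrOf P F body c) κ y ≤ F y + 2 * (2 ^ κ / 2 ^ P.bb : ℕ) + e
  pair : ∀ κ' z, Cand P F κ y κ' z → RS P W (fun c => arrOf P F body c) κ y ≤
    Alg45.dist y z + RS P W body κ' z + 2 * (2 ^ κ / 2 ^ P.bb : ℕ) + e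

section

variable {κ : ℕ} {y : St} (hy : inD P y) (ha : adm P F κ y = true)

include hy ha

theorem inC_own : InC P (celOf κ y) y := adm_inC ha hy

theorem t_lt : cidx P (celOf κ y) y < csz P (celOf κ y).κ := cidx_lt P (inC_own hy ha)

theorem cst_t : cst P (celOf κ y) (cidx P (celOf κ y) y) = y := cst_cidx P (inC_own hy ha)

theorem own_cell : ((celOf κ y).κ, (celOf κ y).m) ∈ acells P (celOf κ y).κ (celOf κ y).m :=
  own_mem_acells P (meets_of_inC P (inC_own hy ha))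

theorem adm_t : adm P F (celOf κ y).κ (cst P (celOf κ y) (cidx P (celOf κ y) y)) = true := by
  rw [cst_t hy ha]
  exact ha

omit ha hy in
theorem RS_arr (P : Par) (W : ℕ) (F : St → ℕ) (body : Cel → RT (List ℕ)) (κ : ℕ) (y : St) :
    RS P W (fun c => arrOf P F body c) κ y =
      aev P W F body (celOf κ y) (cidx P (celOf κ y) y) (fun a => (a : ℝ)) := rfl

omit ha hy in
theorem QS_arr (P : Par) (W : ℕ) (F : St → ℕ) (body : Cel → RT (List ℕ)) (κ : ℕ) (y : St) :
    QS P W (fun c => arrOf P F body c) κ y =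
      aev P W F body (celOf κ y) (cidx P (celOf κ y) y) (fun a => (a : ℝ) ^ 2) := rfl

/-- a candidate is an index of the menu -/
theorem Cand.idx (hr : 8 ≤ P.r) {κ' : ℕ} {z : St} (h : Cand P F κ y κ' z) :
    ∃ x ∈ mnu P (celOf κ y) F (cst P (celOf κ y) (cidx P (celOf κ y) y)),
      acell P (celOf κ y) x.1 = celOf κ' z ∧ zof P (celOf κ y) x = z ∧
        x.2 = cidx P (celOf κ' z) z := by
  rw [cst_t hy ha]
  exact exists_mnu P (inC_own hy ha) h.2.2.1 h.1 h.2.1
    ((mem_jCl P).2 ⟨h.2.2.2.1, h.2.2.2.2.1⟩) (two_F_le ha hr) h.2.2.2.2.2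

/-- an index of the menu is a candidate -/
theorem cand_of (hD : GD P (κ + P.a2)) {x : ℕ × ℕ}
    (hx : x ∈ mnu P (celOf κ y) F (cst P (celOf κ y) (cidx P (celOf κ y) y))) :
    Cand P F κ y (kof P (celOf κ y) x) (zof P (celOf κ y) x) := by
  obtain ⟨h1, h2⟩ := (mem_mnu P).1 hx
  rw [cst_t hy ha] at h2
  have h3 := (mem_jCl P).1 (kof_mem P h1)
  refine ⟨rfl, rfl, ?_, h3.1, h3.2, h2⟩
  rw [celOf_zof P h1 hD]
  exact zof_inC P h1 hD

theorem jdst_eq (x : ℕ × ℕ) : jdst P (celOf κ y) (cidx P (celOf κ y) y) x =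
    Alg45.dist y (zof P (celOf κ y) x) := by
  unfold jdst
  rw [cst_t hy ha]
  rfl

/-- **from the entry level to the state level** -/
theorem Law.of_arrOk (hr : 8 ≤ P.r) (hT : IsTab P W body) (hD : GD P (κ + P.a2)) {e : ℝ}
    (h : ArrOk P W F body (celOf κ y) (cidx P (celOf κ y) y) e) : Law P W F body κ y e where
  low := by
    intro m hm hc
    rw [RS_arr]
    refine h.low m (by rw [cst_t hy ha]; exact hm) fun x hx => ?_
    rw [jdst_eq hy ha, jmn_eq hT hD ((mem_mnu P).1 hx).1]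
    exact hc _ _ (cand_of hy ha hD hx)
  stay := by
    rw [RS_arr]
    exact h.stay
  retire := by
    rw [RS_arr]
    have h1 := h.retire
    rw [cst_t hy ha] at h1
    exact h1
  pair := by
    intro κ' z hz
    rw [RS_arr]
    obtain ⟨x, hx, h1, h2, h3⟩ := hz.idx hy ha hr
    have h4 := h.pair x hx
    rw [jdst_eq hy ha, jmn_eq hT hD ((mem_mnu P).1 hx).1, h2] at h4
    have h5 : kof P (celOf κ y) x = κ' := by unfold kof; rw [h1]; rfl
    rw [h5] at h4
    exact h4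

/-- lower bound, without conditions on the estimates -/
theorem law_low (hW : 0 < W) (hT : IsTab P W body) (hD : GD P (κ + P.a2)) (m : ℝ) (hm : m ≤ F y)
    (hc : ∀ κ' z, Cand P F κ y κ' z → m ≤ Alg45.dist y z + RS P W body κ' z) :
    m ≤ RS P W (fun c => arrOf P F body c) κ y := by
  rw [RS_arr]
  refine arr_low (own_cell hy ha) (t_lt hy ha) (adm_t hy ha) hW m
    (by rw [cst_t hy ha]; exact hm) fun x hx => ?_
  rw [jdst_eq hy ha, jmn_eq hT hD ((mem_mnu P).1 hx).1]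
  exact hc _ _ (cand_of hy ha hD hx)

/-- support -/
theorem law_all (hD : GD P (κ + P.a2)) (hT : IsTab P W body) {Q : ℕ → Prop} (hF : Q (F y))
    (h0 : ∀ κ' z, Cand P F κ y κ' z →
      (body (celOf κ' z)).All W fun T => Q (Alg45.dist y z + rdt P (celOf κ' z) T z)) :
    (arrOf P F body (celOf κ y)).All W fun T => Q (rdt P (celOf κ y) T y) := by
  refine arr_all (own_cell hy ha) (t_lt hy ha) (adm_t hy ha) (by rw [cst_t hy ha]; exact hF)
    fun x hx => ?_
  rw [jdst_eq hy ha]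
  have hj := ((mem_mnu P).1 hx).1
  have h1 := h0 _ _ (cand_of hy ha hD hx)
  rw [celOf_zof P hj hD] at h1
  exact All_entry (Q := fun a => Q (Alg45.dist y (zof P (celOf κ y) x) + a)) hT
    ((mem_jks P).1 hj).2 (zof_inC P hj hD) h1

omit hy ha in
/-- the law of the body entries at the pairs of the block -/
theorem bodyOk_of (hT : IsTab P W body) (hD : GD P (κ + P.a2))
    (hC : LawU944.BodyConst P W leaf F body) {b w : ℝ}
    (h : ∀ κ' z, z.i = y.i → z.j = y.j → inD P z → adm P F κ' z = true →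
      RS P W body κ' z ≤ b * 2 ^ κ' ∧ QS P W body κ' z ≤ w * 4 ^ κ') :
    BodyOk P W F body (celOf κ y) b w where
  mean := by
    intro x hx hadm
    rw [jmn_eq hT hD hx]
    exact (h (kof P (celOf κ y) x) (zof P (celOf κ y) x) rfl rfl (zof_inC P hx hD).dom hadm).1
  sq := by
    intro x hx hadm
    rw [jsq_eq hT hD hx]
    exact (h (kof P (celOf κ y) x) (zof P (celOf κ y) x) rfl rfl (zof_inC P hx hD).dom hadm).2
  nadm := by
    intro x hx hadm
    exact (hC (acell P (celOf κ y) x.1) x.2 ((mem_jks P).1 hx).2).1 hadm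

omit hy ha in
theorem kle : KLe P (celOf κ y) := fun _ hx => ((mem_jCl P).1 (kof_mem P hx)).2

end

/-! ### the two cases -/

/-- sizes used by the jump -/
structure JPar (P : Par) (b w d η : ℝ) (s : ℕ) : Prop where
  r : 8 ≤ P.r
  gJ : P.gJ = 2 * (6 * s) + 1
  mJ : 0 < P.mJ
  b0 : 0 ≤ b
  w0 : 0 ≤ w
  d1 : 8 + b * 2 ^ P.a2 ≤ d
  d2 : 32 ≤ d
  m3 : 3 * w * 4 ^ (P.a2 + P.bb + 2) ≤ P.mJ
  q : ∀ c : Cel, ((jks P c).length + 1) * (1 / 2) ^ s * d ≤ η
  η0 : 0 ≤ η

section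

variable {κ : ℕ} {y : St} (hy : inD P y) (ha : adm P F κ y = true)

include hy ha

/-- size of `F` on the menu from a Lipschitz bound -/
theorem fle (hD : GD P (κ + P.a2)) (hl : ∀ z, z.i = y.i → z.j = y.j → inD P z →
    7 * F z ≤ 8 * (F y + Alg45.dist y z) + 64) :
    FLe P F (celOf κ y) (cidx P (celOf κ y) y) := by
  refine FLe.of_lip (adm_t hy ha) fun x hx => ?_
  rw [jdst_eq hy ha, cst_t hy ha]
  exact hl _ rfl rfl (zof_inC P ((mem_mnu P).1 hx).1 hD).dom

/-- **classes `≥ bb + 2`** -/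
theorem Law.big (hW : 0 < W) (hT : IsTab P W body) (hD : GD P (κ + P.a2))
    (hC : LawU944.BodyConst P W leaf F body) {b w d η : ℝ} {s : ℕ} (hP : JPar P b w d η s)
    (h : ∀ κ' z, z.i = y.i → z.j = y.j → inD P z → adm P F κ' z = true →
      RS P W body κ' z ≤ b * 2 ^ κ' ∧ QS P W body κ' z ≤ w * 4 ^ κ')
    (hl : ∀ z, z.i = y.i → z.j = y.j → inD P z → 7 * F z ≤ 8 * (F y + Alg45.dist y z) + 64)
    (hκ : P.bb + 2 ≤ κ) : Law P W F body κ y (η * 2 ^ κ) :=
  Law.of_arrOk hy ha hP.r hT hD (arr_big' (own_cell hy ha) (t_lt hy ha) (adm_t hy ha) hW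
    (bodyOk_of hT hD hC h) hP.b0 hP.w0 kle (fle hy ha hD hl) hP.d1 hP.d2 hP.gJ hP.mJ hκ
    hP.m3 (hP.q _))

/-- **constant menus**: all admissible pairs of the menu are leaves -/
theorem Law.tiny (hW : 0 < W) (hT : IsTab P W body) (hD : GD P (κ + P.a2))
    (hC : LawU944.BodyConst P W leaf F body) (hr : 8 ≤ P.r) (hG : 0 < P.gJ) (hM : 0 < P.mJ)
    (hl : ∀ κ' z, Cand P F κ y κ' z → adm P F κ' z = true → ∃ a, leaf z = some a) :
    Law P W F body κ y 0 := by
  classical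
  refine Law.of_arrOk hy ha hr hT hD (arr_tiny (own_cell hy ha) (t_lt hy ha) (adm_t hy ha) hW hG hM
    (g := fun x => if adm P F (kof P (celOf κ y) x) (zof P (celOf κ y) x) = true then
      (leaf (zof P (celOf κ y) x)).getD 0 else F (zof P (celOf κ y) x)) fun x hx => ?_)
  have h1 := ((mem_jks P).1 ((mem_mnu P).1 hx).1).2
  cases hadm : adm P F (kof P (celOf κ y) x) (zof P (celOf κ y) x) with
  | false =>
    have h2 := (hC (acell P (celOf κ y) x.1) x.2 h1).1 hadm
    refine h2.mono fun T hT => ?_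
    rw [hT]
    simp only [Bool.false_eq_true, if_false]
    rfl
  | true =>
    obtain ⟨a, hl'⟩ := hl _ _ (cand_of hy ha hD hx) hadm
    have h2 := (hC (acell P (celOf κ y) x.1) x.2 h1).2 hadm a hl'
    refine h2.mono fun T hT => ?_
    rw [hT, hl']
    simp only [if_true, Option.getD_some]

/-- **the law of the jump at every admissible pair** -/
theorem law_of (hW : 0 < W) (hT : IsTab P W body) (hD : GD P (κ + P.a2))
    (hC : LawU944.BodyConst P W leaf F body) {b w d η : ℝ} {s : ℕ} (hP : JPar P b w d η s)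
    (h : ∀ κ' z, z.i = y.i → z.j = y.j → inD P z → adm P F κ' z = true →
      RS P W body κ' z ≤ b * 2 ^ κ' ∧ QS P W body κ' z ≤ w * 4 ^ κ')
    (hl : ∀ z, z.i = y.i → z.j = y.j → inD P z → 7 * F z ≤ 8 * (F y + Alg45.dist y z) + 64)
    {Λ : ℕ} (hΛ : 2 ^ (P.bb + P.a2 + 3) ≤ Λ)
    (hleaf : ∀ z, z.i = y.i → z.j = y.j → inD P z → leaf z = none → Λ ≤ F z) :
    Law P W F body κ y (η * 2 ^ κ) := by
  rcases le_or_gt (P.bb + 2) κ with hκ | hκ
  · exact Law.big hy ha hW hT hD hC hP h hl hκ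
  · have h1 := Law.tiny (leaf := leaf) hy ha hW hT hD hC hP.r (by rw [hP.gJ]; omega) hP.mJ
      fun κ' z hz hadm => by
        by_contra hno
        have h2 : leaf z = none := by
          cases hl' : leaf z with
          | none => rfl
          | some a => exact absurd ⟨a, hl'⟩ hno
        have h3 := hleaf z hz.1 hz.2.1 hz.2.2.1.dom h2
        have h4 := adm_lt hadm
        have h5 : 4 * 2 ^ κ' ≤ 2 ^ (P.bb + P.a2 + 3) := by
          calc 4 * 2 ^ κ' = 2 ^ (κ' + 2) := by rw [pow_add]; ring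
            _ ≤ 2 ^ (P.bb + P.a2 + 3) := Nat.pow_le_pow_right (by norm_num)
              (by have := hz.2.2.2.2.1; omega)
        omega
    have h0 : 0 ≤ η * 2 ^ κ := mul_nonneg hP.η0 (by positivity)
    exact ⟨h1.low, h1.stay.trans (by linarith), h1.retire.trans (by linarith),
      fun κ' z hz => (h1.pair κ' z hz).trans (by linarith)⟩

omit hy in
/-- mean -/
theorem Law.mean_le {e : ℝ} (h : Law P W F body κ y e) (he : e ≤ 2 ^ κ) :
    RS P W (fun c => arrOf P F body c) κ y ≤ 7 * 2 ^ κ := by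
  have h1 := h.retire
  have h2 : (F y : ℝ) ≤ 4 * 2 ^ κ := by exact_mod_cast (adm_lt ha).le
  have h3 : ((2 ^ κ / 2 ^ P.bb : ℕ) : ℝ) ≤ 2 ^ κ := by exact_mod_cast Nat.div_le_self _ _
  linarith

/-- second moment -/
theorem law_sq (hW : 0 < W) (hT : IsTab P W body) (hD : GD P (κ + P.a2))
    (hC : LawU944.BodyConst P W leaf F body) {b w d : ℝ} (hb : 0 ≤ b) (hw : 0 ≤ w)
    (hd1 : 8 + b * 2 ^ P.a2 ≤ d) (hd2 : 32 ≤ d)
    (h : ∀ κ' z, z.i = y.i → z.j = y.j → inD P z → adm P F κ' z = true →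
      RS P W body κ' z ≤ b * 2 ^ κ' ∧ QS P W body κ' z ≤ w * 4 ^ κ')
    (hl : ∀ z, z.i = y.i → z.j = y.j → inD P z → 7 * F z ≤ 8 * (F y + Alg45.dist y z) + 64) :
    QS P W (fun c => arrOf P F body c) κ y ≤ (d ^ 2 + 4 ^ P.a2 * w) * 4 ^ κ := by
  rw [QS_arr]
  exact arr_sq' (own_cell hy ha) (t_lt hy ha) (adm_t hy ha) hW (bodyOk_of hT hD hC h) hb hw
    kle (fle hy ha hD hl) hd1 hd2

end

/-! ### the interfaces of 944 and 195 -/

/-- **(L6) = `LawU944.ArrStep`** (with the hypothesis `IsTab` on the family) -/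
theorem arrStep (hW : 0 < W) {Dm : St → Prop} (hDin : ∀ y, Dm y → inD P y)
    (hDcl : ∀ y z, Dm y → z.i = y.i → z.j = y.j → inD P z → Dm z)
    {Λ : ℕ} (hF : AdmR944.FOk leaf F Dm Λ) (hΛ : 2 ^ (P.bb + P.a2 + 3) ≤ Λ)
    (hgd : ∀ κ y, Dm y → adm P F κ y = true → GD P (κ + P.a2))
    {b w d η m : ℝ} {s : ℕ} (hP : JPar P b w d η s) (hη : η ≤ 1) (hm : 7 ≤ m)
    (body : Cel → RT (List ℕ)) (hC : LawU944.BodyConst P W leaf F body) (hT : IsTab P W body)
    (κ : ℕ) (y : St) (hy : Dm y) (ha : adm P F κ y = true)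
    (h : ∀ κ' z, z.i = y.i → Dm z → adm P F κ' z = true →
      LawS944.MS b w κ' (LawU944.ms P W body κ' z)) :
    LawS944.MS m (d ^ 2 + 4 ^ P.a2 * w) κ (LawU944.ms P W (fun c => arrOf P F body c) κ y) := by
  have hD := hgd κ y hy ha
  have h' : ∀ κ' z, z.i = y.i → z.j = y.j → inD P z → adm P F κ' z = true →
      RS P W body κ' z ≤ b * 2 ^ κ' ∧ QS P W body κ' z ≤ w * 4 ^ κ' :=
    fun κ' z hi hj hz hadm => h κ' z hi (hDcl y z hy hi hj hz) hadm
  have hl : ∀ z, z.i = y.i → z.j = y.j → inD P z → 7 * F z ≤ 8 * (F y + Alg45.dist y z) + 64 := by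
    intro z hi hj hz
    have h1 := hF.lip z y (hDcl y z hy hi hj hz) hy hi.symm hj.symm
    have h2 : Alg45.dist z y = Alg45.dist y z := by unfold Alg45.dist; omega
    rw [h2] at h1
    omega
  have hlaw := law_of (hDin y hy) ha hW hT hD hC hP h' hl hΛ
    fun z hi hj hz hz' => hF.act z (hDcl y z hy hi hj hz) hz'
  have h2κ : (0 : ℝ) < 2 ^ κ := by positivity
  refine ⟨?_, ?_⟩
  · refine (hlaw.mean_le ha ?_).trans (mul_le_mul_of_nonneg_right hm h2κ.le)
    calc η * 2 ^ κ ≤ 1 * 2 ^ κ := mul_le_mul_of_nonneg_right hη h2κ.le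
      _ = 2 ^ κ := one_mul _
  · exact law_sq (hDin y hy) ha hW hT hD hC hP.b0 hP.w0 hP.d1 hP.d2 h' hl

/-- **(J) = `ArrLip195.JA`** on the block `(i, j)` -/
theorem ja_of_law (hW : 0 < W) (hT : IsTab P W body) (hC : LawU944.BodyConst P W leaf F body)
    {i j : ℕ} (hr : 8 ≤ P.r) (hgd : ∀ κ y, ArrLip195.Blk P i j y → adm P F κ y = true → GD P (κ + P.a2))
    {e : ℕ → ℝ} (he : ∀ κ, 0 ≤ e κ)
    (h : ∀ κ y, ArrLip195.Blk P i j y → adm P F κ y = true →
      Law P W F body κ y (e κ - 2 * (2 ^ κ / 2 ^ P.bb : ℕ))) :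
    ArrLip195.JA P F (RS P W body) (RS P W fun c => arrOf P F body c) e i j where
  A0 := fun κ z _ _ => RS_nonneg P W body κ z
  e0 := he
  low := by
    intro κ y hy ha m hm h1 h2
    have hD := hgd κ y hy ha
    refine (h κ y hy ha).low m hm fun κ' z hz => ?_
    have hzB : ArrLip195.Blk P i j z := ⟨hz.1.trans hy.1, hz.2.1.trans hy.2.1, hz.2.2.1.dom⟩
    cases hadm : adm P F κ' z with
    | true => exact h2 κ' z hzB hadm hz.2.2.2.1 hz.2.2.2.2.1 hz.2.2.2.2.2
    | false =>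
      have h3 := (hC (celOf κ' z) (cidx P (celOf κ' z) z) (cidx_lt P hz.2.2.1)).1 (by
        rw [cst_cidx P hz.2.2.1]
        exact hadm)
      rw [cst_cidx P hz.2.2.1] at h3
      have h4 : RS P W body κ' z = F z := emn_const hW h3
      rw [h4]
      exact h1 z hzB
  upF := by
    intro κ y hy ha
    have h1 := (h κ y hy ha).retire
    linarith
  upM := by
    intro κ y hy ha κ' z hz hadm k1 k2 hd
    have h1 := (h κ y hy ha).pair κ' z ⟨hz.1.trans hy.1.symm, hz.2.1.trans hy.2.1.symm,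
      adm_inC hadm hz.2.2, k1, k2, hd⟩
    linarith

end Crest.Agent.R288.ArrX984
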