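import Crest.Agent.R288.Tape2_829

/-!
# R288 [TAPES/GOOD] part 3 (helper829): the tape layer on a finite set of states

`Tape_829`/`Tape2_829` ask the bound for the number of draws at ALL states. Here only the states
`x ∈ Ω l` count: `res Ω t` = `t` on `Ω`, no draw outside.
* `Xv_res`: the equation of the value functions on `Ω`; `Xv_res_out` outside;
  `Xv_res_unique`: any family that satisfies the equation on `Ω` and is `default` outside.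
* `cnt_bad_on`, `HPR_tapes_on`: the main statements with hypotheses on `Ω` only.
-/

set_option autoImplicit false

namespace Crest.Agent.R288.Tape829

open Finset
open Crest.Agent.R295 Crest.Agent.R295.HL Crest.Agent.R295.Rnd627 Crest.Agent.R295.Prob791
open Crest.Agent.R295.TopH791 Crest.Agent.R288.TapeHL867

universe u v

section restricted

variable {σ : Type u} {β : Type v} [Inhabited β]

open Classical in
/-- `t` on the states of `Ω`, nothing outside -/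
noncomputable def res (Ω : ℕ → Finset σ) (t : ℕ → (ℕ → σ → β) → σ → RT β) :
    ℕ → (ℕ → σ → β) → σ → RT β :=
  fun l X x => if x ∈ Ω l then t l X x else .ret default

variable {M : ℕ} {o : ℕ → ℕ} {t : ℕ → (ℕ → σ → β) → σ → RT β} {Ω : ℕ → Finset σ}
  {ρ : ℕ → ℕ} {d : ℕ}

theorem res_mem {l : ℕ} {x : σ} (h : x ∈ Ω l) (X : ℕ → σ → β) : res Ω t l X x = t l X x :=
  if_pos h

theorem res_notMem {l : ℕ} {x : σ} (h : x ∉ Ω l) (X : ℕ → σ → β) :
    res Ω t l X x = .ret default := if_neg h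

/-- **the equation on `Ω`** -/
theorem Xv_res {l : ℕ} {x : σ} (h : x ∈ Ω l) : Xv M o (res Ω t) ρ d l x =
    (t l (lo l (Xv M o (res Ω t) ρ d)) x).val M ρ (d + o l) := by
  rw [Xv_eq, res_mem h]

theorem Xv_res_out {l : ℕ} {x : σ} (h : x ∉ Ω l) : Xv M o (res Ω t) ρ d l x = default := by
  rw [Xv_eq, res_notMem h]
  rfl

theorem Xv_res_unique {Λ : ℕ} {Y : ℕ → σ → β}
    (h : ∀ l < Λ, ∀ x ∈ Ω l, Y l x = (t l (lo l Y) x).val M ρ (d + o l))
    (h' : ∀ l < Λ, ∀ x, x ∉ Ω l → Y l x = default) :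
    ∀ l < Λ, Y l = Xv M o (res Ω t) ρ d l := by
  refine Xv_unique fun l hl x => ?_
  by_cases hx : x ∈ Ω l
  · rw [res_mem hx]
    exact h l hl x hx
  · rw [res_notMem hx]
    exact h' l hl x hx

theorem res_draws {Λ : ℕ} (ho : ∀ l < Λ, o l ≤ o (l + 1))
    (hS : ∀ l < Λ, ∀ X, ∀ x ∈ Ω l, (t l (lo l X) x).cnt.All M fun y => o l + y.2 ≤ o (l + 1)) :
    ∀ l < Λ, ∀ X x, (res Ω t l (lo l X) x).cnt.All M fun y => o l + y.2 ≤ o (l + 1) := by
  intro l hl X x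
  by_cases hx : x ∈ Ω l
  · rw [res_mem hx]
    exact hS l hl X x hx
  · rw [res_notMem hx]
    exact ho l hl

/-- **everything is good**, hypotheses on `Ω` only -/
theorem cnt_bad_on {N Λ T : ℕ} (hM : 0 < M) (hN : 0 < N) (hMN : M ∣ N)
    {Gd : ℕ → (ℕ → σ → β) → σ → β → Prop} {δ : ℕ → ℝ} (ρ0 : ℕ → ℕ)
    (ho : ∀ l < Λ, o l ≤ o (l + 1)) (hT : o Λ ≤ T)
    (hS : ∀ l < Λ, ∀ X, ∀ x ∈ Ω l, (t l (lo l X) x).cnt.All M fun y => o l + y.2 ≤ o (l + 1))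
    (hδ0 : ∀ l < Λ, 0 ≤ δ l)
    (hδ : ∀ l < Λ, ∀ X, AllGood l Ω Gd X → ∀ x ∈ Ω l,
      (t l (lo l X) x).Pr M (fun b => ¬ Gd l (lo l X) x b) ≤ δ l) :
    cnt N T d ρ0 (fun ρ => ¬ AllGood Λ Ω Gd (Xv M o (res Ω t) ρ d)) ≤
      (∑ l ∈ range Λ, (Ω l).card * δ l) * (N : ℝ) ^ T :=
  cnt_bad hM hN hMN ρ0 ho hT (res_draws ho hS) hδ0 fun l hl X hX x hx => by
    rw [res_mem hx]
    exact hδ l hl X hX x hx

/-- **tapes first, then a deterministic core**, hypotheses on `Ω` only -/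
theorem HPR_tapes_on {w W L : ℕ} {s : State} {k x y r z D : ℕ} {a : Exp} {core : Cmd} {m N Λ : ℕ}
    {Q : State → Prop} {Gd : ℕ → (ℕ → σ → β) → σ → β → Prop} {δ : ℕ → ℝ}
    (ha : ∀ ρ, a.ok ⟨2 ^ w, L, ρ⟩ s) (haW : a.val s = W)
    (hxz : x ≠ z) (hrz : r ≠ z) (hyz : y ≠ z) (hy : s.reg y = D) (hD : D ≤ L)
    (hDB : D < 2 ^ min W w) (hxy : x ≠ y) (hyr : y ≠ r) (hxr : x ≠ r)
    (hoD : o Λ ≤ D) (ho : ∀ l < Λ, o l ≤ o (l + 1))
    (hS : ∀ l < Λ, ∀ X, ∀ x ∈ Ω l,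
      (t l (lo l X) x).cnt.All (2 ^ min W w) fun y => o l + y.2 ≤ o (l + 1))
    (hδ0 : ∀ l < Λ, 0 ≤ δ l)
    (hδ : ∀ l < Λ, ∀ X, AllGood l Ω Gd X → ∀ x ∈ Ω l,
      (t l (lo l X) x).Pr (2 ^ min W w) (fun b => ¬ Gd l (lo l X) x b) ≤ δ l)
    (hcore : ∀ s' : State, (∀ i < D, s'.arr k i < 2 ^ min W w) →
      AllGood Λ Ω Gd (Xv (2 ^ min W w) o (res Ω t) (s'.arr k) 0) →
      (∀ i, D ≤ i → s'.arr k i = s.arr k i) → s'.drawn = s.drawn + D →
      (∀ j, j ≠ x → j ≠ r → j ≠ z → s'.reg j = s.reg j) → s'.reg z = W →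
      (∀ j, j ≠ k → s'.arr j = s.arr j) → ∀ ρ, Runs ⟨2 ^ w, L, ρ⟩ core s' m Q)
    (hN : 8 * D + 5 + m ≤ N) :
    HPR w L (drawT z a k x y r ;; core) s N Q (∑ l ∈ range Λ, (Ω l).card * δ l) :=
  HPR_tapes ha haW hxz hrz hyz hy hD hDB hxy hyr hxr hoD ho (res_draws ho hS) hδ0
    (fun l hl X hX x hx => by
      rw [res_mem hx]
      exact hδ l hl X hX x hx) hcore hN

end restricted

end Crest.Agent.R288.Tape829
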