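import Crest.Agent.R288.GoodA_829
import Crest.Agent.R288.Tape3_829

/-!
# R288 [RT.GOOD] (helper829): all numbers of all indices are good, generic form

`Sys σ`: index `0` has the computation `U x`; index `l + 1` has at the state `x`, with the history `X`,
* the number `alt l X x` if `adm l X x = false`;
* `numG q G m (sh x) (lane l X x)` otherwise (median of means of lanes, shifted up).

`Sys.tRT` = the `t` of `Tape_829`; `Sys.Gd`: `R ≤ b ≤ R + c x + eU + sh x` with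
`R = Ev (lane l X x) id` (admissible), `b = alt l X x` (not admissible), `GU x b` (index `0`).
* `Sys.pr_bad`: one number is bad with probability `≤ 2 ^ (-s)`;
* **`Sys.cnt_bad`**: `AllGood` fails for a fraction `≤ |Ω 0| δ₀ + ∑ |Ω l| 2 ^ (-s)` of the tapes;
* `Sys.good_num`, `Sys.good_alt`, `Sys.good_init`: reading `AllGood`;
* **`Sys.sound`**: `G ≤ R` for good histories ⊢ `G ≤ X` at all states of `Ω`.
-/

set_option autoImplicit false

namespace Crest.Agent.R288.Good829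

open Finset
open Crest.Agent.R295 Crest.Agent.R295.Rnd627 Crest.Agent.R295.Prob791
open Crest.Agent.R288.Bridge331 Crest.Agent.R288.Tape829

universe u

/-- the data of all indices -/
structure Sys (σ : Type u) where
  /-- index `0` -/
  U : σ → RT ℕ
  /-- lanes -/
  lane : ℕ → (ℕ → σ → ℕ) → σ → RT ℕ
  /-- admissible states -/
  adm : ℕ → (ℕ → σ → ℕ) → σ → Bool
  /-- number of a state that is not admissible -/
  alt : ℕ → (ℕ → σ → ℕ) → σ → ℕ
  /-- value of a group from the sum of its lanes -/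
  q : ℕ → ℕ
  /-- number of groups and number of lanes of a group -/
  G : ℕ
  m : ℕ
  /-- upward shift -/
  sh : σ → ℕ

namespace Sys

variable {σ : Type u} (A : Sys σ)

/-- the computation of an index -/
def tRT : ℕ → (ℕ → σ → ℕ) → σ → RT ℕ
  | 0, _, x => A.U x
  | l + 1, X, x => if A.adm (l + 1) X x then numG A.q A.G A.m (A.sh x) (A.lane (l + 1) X x)
      else .ret (A.alt (l + 1) X x)

/-- the mean of a lane -/
noncomputable def R (M : ℕ) (l : ℕ) (X : ℕ → σ → ℕ) (x : σ) : ℝ :=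
  (A.lane l X x).Ev M fun a : ℕ => (a : ℝ)

/-- good values -/
def Gd (M : ℕ) (GU : σ → ℕ → Prop) (c : σ → ℝ) (eU : ℝ) : ℕ → (ℕ → σ → ℕ) → σ → ℕ → Prop
  | 0, _, x, b => GU x b
  | l + 1, X, x, b =>
      (A.adm (l + 1) X x = true →
        A.R M (l + 1) X x ≤ b ∧ (b : ℝ) ≤ A.R M (l + 1) X x + c x + eU + A.sh x) ∧
      (A.adm (l + 1) X x = false → b = A.alt (l + 1) X x)

variable {A} {M : ℕ} {GU : σ → ℕ → Prop} {c : σ → ℝ} {eL eU : ℝ}

/-- one number is bad with small probability -/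
theorem pr_bad (hM : 0 < M) {s l : ℕ} (hG : A.G = 12 * s + 1) (hm : 0 < A.m)
    (hqL : ∀ S : ℕ, (S : ℝ) / A.m - eL ≤ A.q S) (hqU : ∀ S : ℕ, (A.q S : ℝ) ≤ (S : ℝ) / A.m + eU)
    {X : ℕ → σ → ℕ} {x : σ} (hc : 0 < c x) (hsh : c x + eL ≤ A.sh x)
    (hV : A.adm (l + 1) X x = true →
      3 * ((A.lane (l + 1) X x).Ev M fun a : ℕ => (a : ℝ) ^ 2) ≤ A.m * c x ^ 2) :
    (A.tRT (l + 1) X x).Pr M (fun b => ¬ A.Gd M GU c eU (l + 1) X x b) ≤ (1 / 2) ^ s := by
  classical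
  cases h : A.adm (l + 1) X x with
  | true =>
    have e1 : A.tRT (l + 1) X x = numG A.q (12 * s + 1) A.m (A.sh x) (A.lane (l + 1) X x) := by
      show (if A.adm (l + 1) X x then _ else _) = _
      rw [if_pos h, hG]
    rw [e1]
    refine le_trans (RT.Pr_mono (Q := fun b : ℕ => ¬ (A.R M (l + 1) X x ≤ b ∧
      (b : ℝ) ≤ A.R M (l + 1) X x + c x + eU + A.sh x)) fun b h1 h2 => h1 ⟨fun _ => h2, fun h3 => ?_⟩)
      (Pr_numG_shift hM _ hm hc hqL hqU rfl le_rfl (hV h) hsh)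
    rw [h] at h3
    exact absurd h3 (by decide)
  | false =>
    have e1 : A.tRT (l + 1) X x = .ret (A.alt (l + 1) X x) := by
      show (if A.adm (l + 1) X x then _ else _) = _
      rw [if_neg (by rw [h]; decide)]
    rw [e1, RT.Pr_ret, if_neg]
    · positivity
    · rw [not_not]
      refine ⟨fun h3 => ?_, fun _ => rfl⟩
      rw [h] at h3
      exact absurd h3 (by decide)

/-- **all numbers are good**, up to a small fraction of the tapes -/
theorem cnt_bad {N Λ T d s : ℕ} (hM : 0 < M) (hN : 0 < N) (hMN : M ∣ N) {o : ℕ → ℕ}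
    {Ω : ℕ → Finset σ} {δ₀ : ℝ} (ρ0 : ℕ → ℕ)
    (hG : A.G = 12 * s + 1) (hm : 0 < A.m)
    (hqL : ∀ S : ℕ, (S : ℝ) / A.m - eL ≤ A.q S) (hqU : ∀ S : ℕ, (A.q S : ℝ) ≤ (S : ℝ) / A.m + eU)
    (hc : ∀ x, 0 < c x) (hsh : ∀ x, c x + eL ≤ A.sh x)
    (ho : ∀ l < Λ + 1, o l ≤ o (l + 1)) (hT : o (Λ + 1) ≤ T)
    (hS : ∀ l < Λ + 1, ∀ X, ∀ x ∈ Ω l,
      (A.tRT l (lo l X) x).cnt.All M fun y => o l + y.2 ≤ o (l + 1))
    (hδ₀ : 0 ≤ δ₀) (hU : ∀ x ∈ Ω 0, (A.U x).Pr M (fun b => ¬ GU x b) ≤ δ₀)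
    (hV : ∀ l < Λ, ∀ X, AllGood (l + 1) Ω (A.Gd M GU c eU) X → ∀ x ∈ Ω (l + 1),
      A.adm (l + 1) (lo (l + 1) X) x = true →
      3 * ((A.lane (l + 1) (lo (l + 1) X) x).Ev M fun a : ℕ => (a : ℝ) ^ 2) ≤ A.m * c x ^ 2) :
    cnt N T d ρ0 (fun ρ => ¬ AllGood (Λ + 1) Ω (A.Gd M GU c eU) (Xv M o (res Ω A.tRT) ρ d)) ≤
      ((Ω 0).card * δ₀ + ∑ l ∈ range Λ, (Ω (l + 1)).card * (1 / 2 : ℝ) ^ s) * (N : ℝ) ^ T := by
  have h := cnt_bad_on (M := M) (o := o) (t := A.tRT) (Ω := Ω) (d := d) (Λ := Λ + 1)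
    (Gd := A.Gd M GU c eU) (δ := fun l => if l = 0 then δ₀ else (1 / 2 : ℝ) ^ s)
    hM hN hMN ρ0 ho hT hS (fun l _ => ?_) fun l hl X hX x hx => ?_
  · refine h.trans (le_of_eq ?_)
    rw [sum_range_succ']
    simp only [Nat.succ_ne_zero, if_false, if_true]
    rw [add_comm]
  · show (0 : ℝ) ≤ if l = 0 then δ₀ else (1 / 2 : ℝ) ^ s
    split
    · exact hδ₀
    · positivity
  · cases l with
    | zero => exact hU x hx
    | succ l =>
      show _ ≤ if l + 1 = 0 then δ₀ else (1 / 2 : ℝ) ^ s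
      rw [if_neg (Nat.succ_ne_zero l)]
      exact pr_bad hM hG hm hqL hqU (hc x) (hsh x) (hV l (by omega) X hX x hx)

/-! ### reading `AllGood` -/

variable {Λ : ℕ} {Ω : ℕ → Finset σ} {X : ℕ → σ → ℕ}

theorem good_init (h : AllGood (Λ + 1) Ω (A.Gd M GU c eU) X) {x : σ} (hx : x ∈ Ω 0) :
    GU x (X 0 x) := h 0 (Nat.succ_pos _) x hx

theorem good_num (h : AllGood (Λ + 1) Ω (A.Gd M GU c eU) X) {l : ℕ} (hl : l < Λ) {x : σ}
    (hx : x ∈ Ω (l + 1)) (ha : A.adm (l + 1) (lo (l + 1) X) x = true) :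
    A.R M (l + 1) (lo (l + 1) X) x ≤ X (l + 1) x ∧
      (X (l + 1) x : ℝ) ≤ A.R M (l + 1) (lo (l + 1) X) x + c x + eU + A.sh x :=
  (h (l + 1) (by omega) x hx).1 ha

theorem good_alt (h : AllGood (Λ + 1) Ω (A.Gd M GU c eU) X) {l : ℕ} (hl : l < Λ) {x : σ}
    (hx : x ∈ Ω (l + 1)) (ha : A.adm (l + 1) (lo (l + 1) X) x = false) :
    X (l + 1) x = A.alt (l + 1) (lo (l + 1) X) x :=
  (h (l + 1) (by omega) x hx).2 ha

/-- **soundness of all numbers** from soundness of the means -/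
theorem sound {G : σ → ℝ} (h : AllGood (Λ + 1) Ω (A.Gd M GU c eU) X)
    (h0 : ∀ x ∈ Ω 0, ∀ b, GU x b → G x ≤ b)
    (hR : ∀ l < Λ, (∀ i < l + 1, ∀ x ∈ Ω i, G x ≤ X i x) → ∀ x ∈ Ω (l + 1),
      (A.adm (l + 1) (lo (l + 1) X) x = true → G x ≤ A.R M (l + 1) (lo (l + 1) X) x) ∧
      (A.adm (l + 1) (lo (l + 1) X) x = false → G x ≤ A.alt (l + 1) (lo (l + 1) X) x)) :
    ∀ l < Λ + 1, ∀ x ∈ Ω l, G x ≤ X l x := by
  intro l
  induction l using Nat.strong_induction_on with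
  | _ l ih =>
    intro hl x hx
    cases l with
    | zero => exact h0 x hx _ (good_init h hx)
    | succ l =>
      have h1 := hR l (by omega) (fun i hi x hx => ih i hi (by omega) x hx) x hx
      cases ha : A.adm (l + 1) (lo (l + 1) X) x with
      | true => exact (h1.1 ha).trans (good_num h (by omega) hx ha).1
      | false =>
        rw [good_alt h (by omega) hx ha]
        exact h1.2 ha

end Sys

end Crest.Agent.R288.Good829
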