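import Crest.Agent.R288.AsmA_331
import Crest.Agent.R288.GoodR_829

/-!
# R288, [ASM] part B: the algorithm as a system of indices (helper331)

`ofSys`: `Asm331.Dat` from 829's `Sys` (index `0` = INIT, index `l + 1` = number by lanes), computed
only at the states of `Ω`. `ofSys_prob`: [PROB] from
* the draw bounds on `Ω`,
* the failure probability `δ₀` of INIT,
* the second moments of the lanes of admissible states (good histories),
* the numerical inequality `|Ω 0| δ₀ + ∑ |Ω l| 2 ^ (-s) ≤ 1 / 3`.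
`ofSys_res`: the output from functions that satisfy the equations on `Ω`.
-/

set_option autoImplicit false

namespace Crest.Agent.R288.Asm331

open Finset Crest.GraphRAM Crest.Agent.R295.Rnd627 Crest.Agent.R288.Bridge331
open Crest.Agent.R295.Prob791 Crest.Agent.R288.Tape829 Crest.Agent.R288.Good829

/-- the algorithm on one input, from a system of indices -/
noncomputable def ofSys {σ : Type} (A : Sys σ) (Λ M : ℕ) (o : ℕ → ℕ) (Ω : ℕ → Finset σ)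
    (GU : σ → ℕ → Prop) (c : σ → ℝ) (eU δ₀ : ℝ) (s : ℕ) (out : (ℕ → σ → ℕ) → ℕ) : Dat where
  σ := σ
  Λ := Λ + 1
  M := M
  o := o
  t := res Ω A.tRT
  Ω := Ω
  Gd := A.Gd M GU c eU
  δ := fun l => if l = 0 then δ₀ else (1 / 2 : ℝ) ^ s
  out := out

section

variable {σ : Type} {A : Sys σ} {Λ M : ℕ} {o : ℕ → ℕ} {Ω : ℕ → Finset σ}
  {GU : σ → ℕ → Prop} {c : σ → ℝ} {eL eU δ₀ : ℝ} {s : ℕ} {out : (ℕ → σ → ℕ) → ℕ}

/-- **[PROB] of a system** -/
theorem ofSys_prob (hM : 0 < M) (hG : A.G = 12 * s + 1) (hm : 0 < A.m)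
    (hqL : ∀ S : ℕ, (S : ℝ) / A.m - eL ≤ A.q S) (hqU : ∀ S : ℕ, (A.q S : ℝ) ≤ (S : ℝ) / A.m + eU)
    (hc : ∀ x, 0 < c x) (hsh : ∀ x, c x + eL ≤ A.sh x)
    (ho : ∀ l < Λ + 1, o l ≤ o (l + 1))
    (hS : ∀ l < Λ + 1, ∀ X, ∀ x ∈ Ω l,
      (A.tRT l (lo l X) x).cnt.All M fun y => o l + y.2 ≤ o (l + 1))
    (hδ₀ : 0 ≤ δ₀) (hU : ∀ x ∈ Ω 0, (A.U x).Pr M (fun b => ¬ GU x b) ≤ δ₀)
    (hV : ∀ l < Λ, ∀ X, AllGood (l + 1) Ω (A.Gd M GU c eU) X → ∀ x ∈ Ω (l + 1),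
      A.adm (l + 1) (lo (l + 1) X) x = true →
      3 * ((A.lane (l + 1) (lo (l + 1) X) x).Ev M fun a : ℕ => (a : ℝ) ^ 2) ≤ A.m * c x ^ 2)
    (hsum : ((Ω 0).card : ℝ) * δ₀ + ∑ l ∈ range Λ, ((Ω (l + 1)).card : ℝ) * (1 / 2 : ℝ) ^ s ≤
      1 / 3) : (ofSys A Λ M o Ω GU c eU δ₀ s out).Prob := by
  have k1 : ∀ l < Λ + 1, ∀ (X : ℕ → σ → ℕ) (x : σ),
      (res Ω A.tRT l (lo l X) x).cnt.All M fun y => o l + y.2 ≤ o (l + 1) :=
    fun l hl X x => res_draws ho hS l hl X x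
  have k2 : ∀ l < Λ + 1, (0 : ℝ) ≤ if l = 0 then δ₀ else (1 / 2 : ℝ) ^ s := by
    intro l _
    split
    · exact hδ₀
    · positivity
  have k3 : ∀ l < Λ + 1, ∀ X : ℕ → σ → ℕ, AllGood l Ω (A.Gd M GU c eU) X → ∀ x ∈ Ω l,
      (res Ω A.tRT l (lo l X) x).Pr M (fun b => ¬ A.Gd M GU c eU l (lo l X) x b) ≤
        if l = 0 then δ₀ else (1 / 2 : ℝ) ^ s := by
    intro l hl X hX x hx
    rw [res_mem hx]
    cases l with
    | zero => exact hU x hx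
    | succ l =>
      rw [if_neg (Nat.succ_ne_zero l)]
      exact Sys.pr_bad hM hG hm hqL hqU (hc x) (hsh x) (hV l (by omega) X hX x hx)
  have k4 : ∑ l ∈ range (Λ + 1), ((Ω l).card : ℝ) * (if l = 0 then δ₀ else (1 / 2 : ℝ) ^ s) ≤
      1 / 3 := by
    rw [sum_range_succ']
    simp only [Nat.succ_ne_zero, if_false, if_true]
    linarith
  exact ⟨hM, ho, k1, k2, k3, k4⟩

/-- **the equations of the value functions** (for [PROG]): index `0` -/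
theorem ofSys_X_zero (τ : ℕ → ℕ) {x : σ} (hx : x ∈ Ω 0) :
    (ofSys A Λ M o Ω GU c eU δ₀ s out).X τ 0 x = (A.U x).val M τ (o 0) := by
  have h := Xv_res (M := M) (o := o) (t := A.tRT) (ρ := τ) (d := 0) hx
  rw [Nat.zero_add] at h
  exact h

/-- **the equations of the value functions** (for [PROG]): index `l + 1` -/
theorem ofSys_X_succ (τ : ℕ → ℕ) {l : ℕ} {x : σ} (hx : x ∈ Ω (l + 1)) :
    (ofSys A Λ M o Ω GU c eU δ₀ s out).X τ (l + 1) x =
      (A.tRT (l + 1) (lo (l + 1) ((ofSys A Λ M o Ω GU c eU δ₀ s out).X τ)) x).val M τ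
        (o (l + 1)) := by
  have h := Xv_res (M := M) (o := o) (t := A.tRT) (ρ := τ) (d := 0) hx
  rw [Nat.zero_add] at h
  exact h

/-- outside `Ω` the value is `0` -/
theorem ofSys_X_out (τ : ℕ → ℕ) {l : ℕ} {x : σ} (hx : x ∉ Ω l) :
    (ofSys A Λ M o Ω GU c eU δ₀ s out).X τ l x = 0 :=
  Xv_res_out (M := M) (o := o) (t := A.tRT) (ρ := τ) (d := 0) hx

end

end Crest.Agent.R288.Asm331
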