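import Crest.Agent.R288.AsmA_331
import Crest.Agent.R288.ParB_806

/-!
# R288 (S0433), [ASM] part N (helper12): the numbers of one input, from the side conditions `Cond`

`hh x y ε` = height = `clog 2` of the number of input words. All parameters are functions of it
(`ParB_806`). `Num x y ε`: everything the blocks may use about the numbers of an input:
lengths against `2 ^ hh`, precision `1/ε ≤ W`, the root is expensive (`D0 < editDist`,
`2 ^ lam ≤ D0`), heights. `exists_num`: a threshold `j₀` for any eventual property of `hh`.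
-/

set_option autoImplicit false

namespace Crest.Agent.R288.Asm12

open Filter Crest.GraphRAM
open Crest.Agent.R288.Asm331 Crest.Agent.R288.Par806 Crest.Agent.R288.Asy720
open Crest.Agent.R288.Top791 Crest.Agent.R288.Front327 Crest.Agent.R288.Shell12

/-- the height of an input -/
def hh (x y : List ℕ) (ε : ℚ) : ℕ := Nat.clog 2 (inp x y ε).length

/-- the numbers of one input -/
structure Num (x y : List ℕ) (ε : ℚ) : Prop where
  pos : 0 < ε
  lt : ε < 1
  /-- `L ≤ 2 ^ h < 4 N` -/
  L_le : (inp x y ε).length ≤ 2 ^ hh x y ε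
  lt_N : 2 ^ hh x y ε < 4 * (x.length + y.length)
  N_lt : x.length + y.length < 2 ^ hh x y ε
  x_lt : x.length < 2 ^ hh x y ε
  y_lt : y.length < 2 ^ hh x y ε
  /-- the bit length of `N` -/
  size_le : Nat.size (x.length + y.length) ≤ hh x y ε
  le_size : hh x y ε ≤ Nat.size (x.length + y.length) + 1
  /-- the height is at most the binary height of the root -/
  h_le : hh x y ε ≤ nn (hh x y ε) * II (hh x y ε)
  /-- the precision -/
  den_le : ε.den ≤ W (hh x y ε)
  eps : (1 : ℝ) ≤ (ε : ℝ) * W (hh x y ε)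
  /-- the root is expensive -/
  le_D0 : 2 ^ ((hh x y ε - 1) / 2) ≤ D0 (x.length + y.length)
  lam_le : 2 ^ lam (hh x y ε) ≤ D0 (x.length + y.length)
  far : D0 (x.length + y.length) < editDist x y

theorem two_mul_add_four_le {h : ℕ} (hh : 6 ≤ h) : 2 * h + 4 ≤ 2 ^ (h - 1) := by
  obtain ⟨k, rfl⟩ : ∃ k, h = k + 6 := ⟨h - 6, by omega⟩
  have : ∀ k : ℕ, 2 * (k + 6) + 4 ≤ 2 ^ (k + 6 - 1) := by
    intro k
    induction k with
    | zero => norm_num
    | succ k ih =>
      have e : k + 1 + 6 - 1 = (k + 6 - 1) + 1 := by omega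
      rw [e, pow_succ]
      omega
  exact this k

theorem ev_lam : ∀ᶠ h : ℕ in atTop, lam h ≤ (h - 1) / 2 := by
  filter_upwards [(sm_poly 1 1 0).mul_le 3, eventually_ge_atTop 3] with h h1 h2
  simp only [pow_one, pow_zero, mul_one, il_zero] at h1
  unfold lam
  rw [Nat.le_div_iff_mul_le (by norm_num)]
  have h3 : 1 ≤ W h * Lg h := Nat.mul_pos (W_pos h) (Lg_pos h)
  omega

theorem h_le_nn_II (h : ℕ) : h ≤ nn h * II h := by
  have hn : 0 < nn h := Nat.mul_pos (Mg_pos h) (by have := W_pos h; positivity)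
  have := Nat.lt_mul_div_succ h hn
  unfold II
  exact this.le

theorem num_of_cond {j₀ a : ℕ} {ε : ℚ} {x y : List ℕ} (hc : Cond 4 j₀ a ε x y)
    (h6 : 6 ≤ hh x y ε) (hl : lam (hh x y ε) ≤ (hh x y ε - 1) / 2) : Num x y ε := by
  have hL := inp_length x y ε
  have hm := hc.mode
  have hs : (ratWords ε).length ≤ hh x y ε :=
    hm.short.trans (by
      rw [slk_eq]
      exact il_le 4 _)
  have hLe : (inp x y ε).length ≤ 2 ^ hh x y ε := Nat.le_pow_clog (by norm_num) _
  have hL2 : 2 ^ (hh x y ε - 1) < (inp x y ε).length := by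
    have h1 : 1 < (inp x y ε).length := by omega
    exact Nat.pow_pred_clog_lt_self (by norm_num) h1
  have h4 := two_mul_add_four_le h6
  have hpow : 2 ^ hh x y ε = 2 * 2 ^ (hh x y ε - 1) := by
    rw [← pow_succ', Nat.sub_add_cancel (by omega)]
  have hN4 : 2 ^ hh x y ε < 4 * (x.length + y.length) := by omega
  have hN : x.length + y.length < 2 ^ hh x y ε := by omega
  have hsz : Nat.size (x.length + y.length) ≤ hh x y ε := Nat.size_le.2 hN
  have hsz' : hh x y ε ≤ Nat.size (x.length + y.length) + 1 := by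
    have h7 : x.length + y.length < 2 ^ Nat.size (x.length + y.length) := Nat.lt_size_self _
    have h8 : 2 ^ hh x y ε < 2 ^ (Nat.size (x.length + y.length) + 2) := by
      rw [pow_add]
      omega
    have := (Nat.pow_lt_pow_iff_right (by norm_num : 1 < 2)).1 h8
    omega
  have hden : ε.den ≤ W (hh x y ε) := by
    have h7 := mode2_den_le hm
    rw [slk_eq] at h7
    have h8 : 1 ≤ il 4 (hh x y ε) := by
      have := hm.one_le
      rwa [slk_eq] at this
    have h9 : 1 ≤ il 3 (hh x y ε) := h8.trans (il_succ_le 3 _)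
    exact (h7.trans (two_pow_il_succ_le (k := 3) h9)).trans (Nat.le_succ _)
  have heps : (1 : ℝ) ≤ (ε : ℝ) * W (hh x y ε) := by
    have h7 := inv_den_le_real hc.pos
    have h8 : (0 : ℝ) < (ε.den : ℝ) := by exact_mod_cast ε.den_pos
    rw [div_le_iff₀ h8] at h7
    have h9 : (ε.den : ℝ) ≤ (W (hh x y ε) : ℝ) := by exact_mod_cast hden
    have h10 : (0 : ℝ) ≤ (ε : ℝ) := by exact_mod_cast hc.pos.le
    exact h7.trans (mul_le_mul_of_nonneg_left h9 h10)
  have hD : 2 ^ ((hh x y ε - 1) / 2) ≤ D0 (x.length + y.length) := by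
    unfold D0
    exact Nat.pow_le_pow_right (by norm_num) (by omega)
  exact ⟨hc.pos, hc.lt, hLe, hN4, hN, by omega, by omega, hsz, hsz', h_le_nn_II _, hden, heps, hD,
    (Nat.pow_le_pow_right (by norm_num) hl).trans hD, hc.far⟩

/-- **thresholds**: any eventual property of the height, together with the numbers of the input -/
theorem exists_num {P : ℕ → Prop} (hP : ∀ᶠ h : ℕ in atTop, P h) :
    ∃ j₀ : ℕ, ∀ (a : ℕ) (ε : ℚ) (x y : List ℕ), Cond 4 j₀ a ε x y →
      P (hh x y ε) ∧ Num x y ε := by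
  obtain ⟨j₀, hj⟩ := exists_threshold ((hP.and ev_lam).and (eventually_ge_atTop 6))
  refine ⟨j₀, fun a ε x y hc => ?_⟩
  obtain ⟨⟨h1, h2⟩, h3⟩ := hj _ hc.long
  exact ⟨h1, num_of_cond hc h3 h2⟩

end Crest.Agent.R288.Asm12
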