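import Crest.Agent.R288.PlV_726

/-!
# R288, PL layer part 8 (helper726): **S0433 from a PL program**

`topPL km j c k r cS kS rS j₀ pr mn H`: the literal statement of S0433 if the PL program
(procedures `pr`, statement `mn`) started in the environment
`[|x|, |y|, number of input words] ++ ratWords ε` realises a randomized computation `T` (random
words uniform below `2 ^ (2 * size (|x|+|y|))`) such that with probability `≥ 2/3` the first word
of the last environment is a good answer and the time is at most `fuc c k r j L`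
(`= c (L+1) 2^(r clog L / slk j L) (clog L + 1)^k`), all environments have at most
`og cS kS rS j L = cS 2^(rS clog L / slk j L) (clog L + 1)^kS` words, and the call depth is at
most `L`. Arrays: `0` = the input, `13` = `x ++ y`, `14` = table of names.
-/

set_option autoImplicit false

namespace Crest.Agent.R288.Pl726

open Crest.Agent.R295 HL Pt949 Crest.Agent.R288.Rec690 Crest.Agent.R288.EnvM12
open Crest.GraphRAM Crest.Agent.R288.Ed Crest.Agent.R295.Rnd627
open Crest.Agent.R288.Lv Crest.Agent.R288.Top791 Crest.Agent.R288.Front327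
open Crest.Agent.R288.Shell12 Crest.Agent.R295.TopH791 Crest.Agent.R288.Bridge331
open Crest.Agent.R288.LceA508 Crest.Agent.R288.Kmr725 Crest.Agent.R288.Num414
open Crest.Agent.Lib.PT (PTF)

/-- **the shell**, with a well formed state in the small environment -/
theorem shell_HPR_wf {a : ℕ} {ε : ℚ} {x y : List ℕ} {core : Cmd} {m : ℕ} {δ : ℝ}
    (h0 : 0 < ε) (hs : Symb a x y)
    (hsym : ∀ b ∈ x ++ y, b < 2 ^ (Nat.clog 2 (inp x y ε).length * Nat.clog 2 (inp x y ε).length))
    (hM : 10 ≤ x.length + y.length) (hδ : 0 ≤ δ)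
    (hcore : ∀ s, AfterSt x y (ratWords ε) s → s.Wf (eS a x y ε) →
      D0 (x.length + y.length) < editDist x y →
      HPR (wl a x y ε) (((inp x y ε).length + 2) ^ 2) core s m
        (fun s' => GoodD ε x y (s'.reg 0)) δ) :
    HPR (wl a x y ε) (((inp x y ε).length + 2) ^ 2) (shell core) (initState (inp x y ε))
      (shFuel (inp x y ε).length + m) (fun s' => GoodD ε x y (s'.reg 0)) δ := by
  have hfu : 2 ≤ shFuel (inp x y ε).length := by
    unfold shFuel
    have h1 : 1 ≤ ((inp x y ε).length + 1) * (Nat.clog 2 (inp x y ε).length + 1) ^ 3 :=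
      Nat.mul_pos (by omega) (by positivity)
    rw [mul_assoc]
    generalize ((inp x y ε).length + 1) * (Nat.clog 2 (inp x y ε).length + 1) ^ 3 = P at h1 ⊢
    omega
  unfold shell
  refine HPR.seq_det shA_det (shA_det_wf hs hsym hM (fun _ => 0)) (m := m + 2) ?_ (by omega)
  rintro s ⟨hA, hwf⟩ _
  refine HPR.ite (n := m + 1) (fun ρ => by simp) ?_ ?_ le_rfl
  · intro h
    simp only [Cnd.holds_le, Exp.val_var, hA.res, hA.d0] at h
    refine HPR.mono (n := 1) ?_ (by omega) (fun s' h => h) le_rfl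
    refine HPR.of_det (by simp) (ρ₁ := fun _ => 0) (Runs.set (by simp) ?_) hδ
    simp only [State.setReg_reg, if_true, Exp.val_var, hA.res]
    rw [min_eq_left (by omega)]
    exact goodD_exact h0 x y
  · intro h
    simp only [Cnd.holds_le, Exp.val_var, hA.res, hA.d0] at h
    exact HPR.mono (hcore s hA hwf (by omega)) (by omega) (fun s' h => h) le_rfl

/-- `2 * size (|x| + |y|) < wS` -/
theorem size_lt_wS (a : ℕ) (x y : List ℕ) (ε : ℚ) :
    2 * Nat.size (x.length + y.length) < wS a x y ε := by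
  have hge := inp_ge x y ε
  have h1 : Nat.size (x.length + y.length) ≤ Nat.clog 2 (inp x y ε).length := by
    rw [Nat.size_le]
    have := Nat.le_pow_clog (b := 2) (by norm_num) (inp x y ε).length
    omega
  have h2 : 1 ≤ Nat.clog 2 (inp x y ε).length := Nat.clog_pos (by norm_num) (by omega)
  have h3 : Nat.clog 2 (inp x y ε).length ≤ Nat.clog 2 ((inp x y ε).length + 2) :=
    Nat.clog_mono_right 2 (by omega)
  have h4 : 3 * Nat.clog 2 ((inp x y ε).length + 2) ≤ wl a x y ε := by
    unfold wl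
    exact Nat.mul_le_mul_right _ (by omega)
  unfold wS
  rcases min_choice (wl a x y ε) (Nat.clog 2 (inp x y ε).length * Nat.clog 2 (inp x y ε).length +
    2 * Nat.clog 2 (inp x y ε).length + 3) with h | h
  · rw [h]; omega
  · rw [h]; omega

/-- the read-only arrays (`< 50`) and the leaf command (`50`, `51`) -/
noncomputable def oraX (x y : List ℕ) (s : State) (k : ℕ) : ℕ → ℕ :=
  if k < 50 then s.arr k
  else if k = 50 then fun n =>
    LeafX222.leafF x y ((Encodable.decode (α := List ℕ) n).getD [])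
  else fun n =>
    LeafX222.leafCost (((Encodable.decode (α := List ℕ) n).getD []).getD 4 0)
      (Nat.size (x.length + y.length))

theorem oraX_lt (x y : List ℕ) (s : State) {k : ℕ} (hk : k < 50) : oraX x y s k = s.arr k :=
  if_pos hk

theorem oraX_X (x y : List ℕ) (s : State) (u : List ℕ) :
    oraX x y s 50 (Encodable.encode u) = LeafX222.leafF x y u := by
  unfold oraX
  rw [if_neg (by norm_num), if_pos rfl, Encodable.encodek]
  rfl

theorem oraX_XT (x y : List ℕ) (s : State) (u : List ℕ) :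
    oraX x y s 51 (Encodable.encode u) =
      LeafX222.leafCost (u.getD 4 0) (Nat.size (x.length + y.length)) := by
  unfold oraX
  rw [if_neg (by norm_num), if_neg (by norm_num), Encodable.encodek]
  rfl

theorem leafF_lt {x y : List ℕ} {L B : ℕ} (hM : 10 ≤ x.length + y.length)
    (hL : x.length + y.length + 2 ≤ L) (hB : 2 * L < B) (u : List ℕ) :
    LeafX222.leafF x y u < B := by
  have h1 : LeafX222.leafF x y u ≤ D0 (x.length + y.length) + 1 := by
    unfold LeafX222.leafF LeafX222.leafV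
    omega
  have h2 := D0_le (M := x.length + y.length) (by omega)
  omega

/-- what the program may assume about the environment -/
structure PIn (x y : List ℕ) (ε : ℚ) (pe : PEnv) : Prop where
  /-- array 0 = the input words `|x|, |y|, x, y, ratWords ε` -/
  inp : ∀ i, pe.O 0 i = (stringsInput x y ++ ratWords ε)[i]?.getD 0
  /-- array 13 = `x ++ y` -/
  str : ∀ i < x.length + y.length, pe.O 13 i = cat x y i
  /-- array 14 = table of names -/
  names : Names (cat x y) (x.length + y.length) (pe.O 14)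
  /-- all cells are words -/
  word : ∀ k i, k < 50 → pe.O k i < pe.B
  /-- the leaf command computes the cost of a block -/
  X : ∀ u, pe.X u = LeafX222.leafF x y u
  /-- time of the leaf command -/
  XT : ∀ u, pe.XT u = LeafX222.leafCost (u.getD 4 0) (Nat.size (x.length + y.length))
  /-- the result of the leaf command is a word -/
  Xlt : ∀ u, pe.X u < pe.B
  /-- the index bound -/
  L : pe.L = ((Top791.inp x y ε).length + 2) ^ 2
  /-- the word bound -/
  B : ((Top791.inp x y ε).length + 2) ^ 3 ≤ pe.B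
  /-- random words are words -/
  R : 2 ^ (2 * Nat.size (x.length + y.length)) ≤ pe.B

theorem nums {L B : ℕ} (hL : 3 ≤ L) (hB : (L + 2) ^ 3 ≤ B) :
    (L + 2) ^ 2 < B ∧ 2 * L < B ∧ 110 < B ∧ L + 2 ≤ (L + 2) ^ 2 := by
  have e2 : (L + 2) ^ 2 = (L + 2) * (L + 2) := by ring
  have e3 : (L + 2) ^ 3 = (L + 2) * ((L + 2) * (L + 2)) := by ring
  rw [e3] at hB
  rw [e2]
  have h1 : 5 * (L + 2) ≤ (L + 2) * (L + 2) := Nat.mul_le_mul_right _ (by omega)
  have h2 : 5 * ((L + 2) * (L + 2)) ≤ (L + 2) * ((L + 2) * (L + 2)) :=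
    Nat.mul_le_mul_right _ (by omega)
  generalize (L + 2) * (L + 2) = q at *
  omega

theorem nums2 {L S d : ℕ} (hS : S ≤ L) (hd : d ≤ L) : (d + 1) * S ≤ (L + 2) ^ 2 := by
  have e2 : (L + 2) ^ 2 = (L + 2) * (L + 2) := by ring
  rw [e2]
  exact Nat.mul_le_mul (by omega) (by omega)

/-- **the PL program as a probabilistic triple** -/
theorem core_HPR {a : ℕ} {ε : ℚ} {x y : List ℕ} {pr : List PS} {mn : PS} {S n d : ℕ}
    {T : RT (List ℕ × ℕ)} {s : State} (h10 : 10 ≤ x.length + y.length)
    (hA : AfterSt x y (ratWords ε) s) (hwf : s.Wf (eS a x y ε))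
    (hK : (allP pr mn).eval (wS a x y ε + (2 * S + 2)) ≤ (inp x y ε).length)
    (hS1 : (ratWords ε).length + 3 ≤ S) (hS2 : S ≤ (inp x y ε).length)
    (htot : tot (pr.map tr) (tr (mainP mn)) ≤ (inp x y ε).length)
    (hd : d ≤ (inp x y ε).length)
    (hT : PRea ⟨oraX x y s, fun _ => 0, 2 ^ wS a x y ε, ((inp x y ε).length + 2) ^ 2, S⟩
      (2 ^ (2 * Nat.size (x.length + y.length))) pr mn
      (x.length :: y.length :: (inp x y ε).length :: ratWords ε) T d)
    (hP : T.Pr (2 ^ (2 * Nat.size (x.length + y.length)))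
      (fun u => ¬ (GoodD ε x y (u.1.headD 0) ∧ u.2 ≤ n)) ≤ 1 / 3) :
    HPR (wl a x y ε) (((inp x y ε).length + 2) ^ 2) (coreP pr mn) s
      ((allP pr mn).eval (wS a x y ε + (2 * S + 2)) + cst (pr.map tr) (tr (mainP mn)) *
        ((n + 2) * (3 * (allP pr mn).eval (wS a x y ε + (2 * S + 2)) + 30) + 1) + 2)
      (fun s' => GoodD ε x y (s'.reg 0)) (1 / 3) := by
  have hge := inp_ge x y ε
  have hcube := cube_le_wS a x y ε
  have hcube' := cube_le_two_wl a x y ε
  have hsz := size_lt_wS a x y ε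
  have hwS : wS a x y ε ≤ wl a x y ε := min_le_left _ _
  have hli : (inp x y ε).length = x.length + y.length + 2 + (ratWords ε).length := by
    rw [inp_length]; omega
  set L := (inp x y ε).length with hL
  set w := wl a x y ε with hw
  set W := wS a x y ε with hWd
  set r := 2 * Nat.size (x.length + y.length) with hr
  have hWw : 2 ^ W ≤ 2 ^ w := Nat.pow_le_pow_right (by norm_num) hwS
  have hrW : 2 ^ r < 2 ^ W := Nat.pow_lt_pow_right (by norm_num) hsz
  have hdiv : 2 ^ r ∣ 2 ^ w := Nat.pow_dvd_pow 2 (by omega)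
  have h3L : 3 ≤ S := by omega
  obtain ⟨q1, q2, q3, q4⟩ := nums (L := L) (B := 2 ^ W) (by omega) hcube
  refine HPR.of_val (t := redu (2 ^ r) T) (fun u => GoodD ε x y (u.1.headD 0) ∧ u.2 ≤ n) ?_ ?_
  swap
  · rw [Pr_redu (by positivity) hdiv (by positivity)]
    exact hP
  intro ρ hρ
  rw [val_redu hdiv] at hρ
  rw [nxt_redu hdiv]
  obtain ⟨hρ1, hρ2⟩ := hρ
  obtain ⟨t, d', h1, h2, h3⟩ := hT ρ s.drawn
  set pe : PEnv := ⟨oraX x y s, fun _ => 0, 2 ^ W, (L + 2) ^ 2, S⟩ with hpe
  set u := (T.val (2 ^ r) ρ s.drawn).1 with hu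
  have hword : ∀ b ∈ x.length :: y.length :: L :: ratWords ε, b < 2 ^ W := by
    intro b hb
    have hb3 : b < L + 2 := by
      rw [List.mem_cons, List.mem_cons, List.mem_cons] at hb
      rcases hb with rfl | rfl | rfl | hb
      · omega
      · omega
      · omega
      · have := ratWords_le_two ε b hb
        omega
    omega
  have hfit : pe.Fits (x.length :: y.length :: L :: ratWords ε) :=
    ⟨by simp only [List.length_cons]; exact hS1, hword⟩
  have hfu : (pe.at (2 ^ r) ρ).Fits u := h1.fits hfit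
  have hfh : (pe.at (2 ^ r) ρ).Fits (headF u) := by
    refine ⟨?_, ?_⟩
    · show 1 ≤ S
      omega
    · intro b hb
      rw [headF, List.mem_singleton] at hb
      rw [hb]
      cases hc : u with
      | nil => exact Nat.two_pow_pos W
      | cons c u' => exact hfu.2 _ (by rw [hc]; exact List.mem_cons_self)
  have h4 : PEx (pe.at (2 ^ r) ρ) pr (mainP mn) (x.length :: y.length :: L :: ratWords ε) s.drawn
      (headF u) (T.nxt (2 ^ r) ρ s.drawn) (t + 1 + 1) (max d' 0) :=
    .seq h1 (.asg hfh)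
  have G : Big ⟨2 ^ w, (L + 2) ^ 2, ρ⟩ (eS a x y ε) (pe.at (2 ^ r) ρ) w r :=
    ⟨rfl, hWw, le_rfl, fun i => (Nat.mod_mod_of_dvd _ hdiv).symm, hrW.le⟩
  have h2W : 2 ≤ W := by
    by_contra hc
    have : 2 ^ W ≤ 2 ^ 1 := Nat.pow_le_pow_right (by norm_num) (by omega)
    omega
  have Mt : Mat (eS a x y ε) (pe.at (2 ^ r) ρ) W :=
    ⟨rfl, h2W, q1.le, rfl, rfl, show 1 ≤ S by omega, q3⟩
  have hd1 : (max d' 0 + 1) * S ≤ (L + 2) ^ 2 := by
    rw [Nat.max_zero]
    exact nums2 hS2 (by omega)
  have hd2 : tot (pr.map tr) (tr (mainP mn)) * (max d' 0 + 1) ≤ (L + 2) ^ 2 := by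
    rw [Nat.max_zero, Nat.mul_comm]
    exact nums2 htot (by omega)
  have hseg : s.Seg 0 (x.length + y.length + 2) (ratWords ε) := by
    intro j hj
    rw [hA.inp]
    have hlen : (stringsInput x y).length = x.length + y.length + 2 := by
      simp only [stringsInput, List.length_cons, List.length_append]
    rw [List.getElem?_append_right (by omega), hlen, Nat.add_sub_cancel_left,
      List.getElem?_eq_getElem hj]
    rfl
  have hXO : XOk (eS a x y ε) (pe.at (2 ^ r) ρ) x y := by
    have e1 : (x.length + y.length + 2) * (x.length + y.length + 2) ≤ (L + 2) ^ 2 := by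
      rw [pow_two]
      exact Nat.mul_le_mul (by omega) (by omega)
    exact ⟨⟨h10, e1.trans q1.le, e1⟩, fun u _ => oraX_X x y s u,
      fun u _ => (oraX_XT x y s u).ge⟩
  have hrun := coreP_runs G Mt hXO (pr := pr) (mn := mn) (N := W + (2 * S + 2))
    (n := x.length) (m := y.length) (l := L) (t := t + 1 + 1) (d := max d' 0) (z := ratWords ε)
    (v' := headF u) (i' := T.nxt (2 ^ r) ρ s.drawn) (s := s) le_rfl
    (show (allP pr mn).eval (W + (2 * S + 2)) ≤ (L + 2) ^ 2 by omega)
    hA.n hA.m hA.li hA.M hli hseg (by rw [hA.lv]) hrW (LeafX222.Ctx.of_after hA) hwf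
    (hA.reg0 _ (by norm_num)) (hA.reg0 _ (by norm_num))
    (fun k hk => (oraX_lt x y s hk).symm) (show L ≤ (L + 2) ^ 2 by omega) (show L < 2 ^ W by omega) hfit
    h4 ⟨_, rfl⟩ hd1 (show S < 2 ^ W by omega) (show _ < 2 ^ w by omega) hd2
    (show _ < 2 ^ w by omega)
  refine hrun.mono ?_ ?_
  · have h7 : t + 1 + 1 ≤ n + 2 := by omega
    exact Nat.add_le_add_right (Nat.add_le_add_left (Nat.mul_le_mul_left _
      (Nat.add_le_add_right (Nat.mul_le_mul_right _ h7) _)) _) _
  · rintro s' ⟨h5, h6⟩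
    refine ⟨h5, ?_⟩
    rw [h6]
    exact hρ1

theorem wS_le_og (a : ℕ) (x y : List ℕ) (ε : ℚ) (j : ℕ) :
    wS a x y ε ≤ og 3 2 0 j (inp x y ε).length := by
  refine (min_le_right _ _).trans ?_
  unfold og
  generalize Nat.clog 2 (inp x y ε).length = l
  rw [Nat.zero_mul, Nat.zero_div, pow_zero, mul_one]
  nlinarith

/-- `L^{o(1)}` bound of the length of the first environment -/
theorem init_le_og {km : ℕ} {x y : List ℕ} {ε : ℚ} (hm : Mode2 km x y ε) {cS kS rS : ℕ}
    (hc : 4 ≤ cS) (hk : 1 ≤ kS) (j : ℕ) :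
    (ratWords ε).length + 3 ≤ og cS kS rS j (inp x y ε).length := by
  have h1 := hm.short.trans (slk_le km (inp x y ε).length)
  refine le_trans ?_ (og_mono hc hk (Nat.zero_le rS) j (inp x y ε).length)
  unfold og
  generalize Nat.clog 2 (inp x y ε).length = l at *
  rw [Nat.zero_mul, Nat.zero_div, pow_zero, mul_one, pow_one]
  omega

/-- arithmetic of the fuel -/
theorem fuel_arith (c k r c1 k1 r1 C j L K : ℕ) (hK : K ≤ og c1 k1 r1 j L) :
    K + C * ((fuc c k r j L + 2) * (3 * K + 30) + 1) + 2 ≤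
      fuc (c1 + C * ((c + 2) * (3 * c1 + 30) + 1) + 2) (k + k1) (r + r1) j L := by
  rw [fuc_eq, fuc_eq]
  have h1 : (L + 1) * og c k r j L + 2 ≤ (L + 1) * og (c + 2) k r j L := by
    have h2 := og_add c k r 2 0 0 j L
    rw [add_zero, add_zero] at h2
    have h3 := const_le_og 2 0 0 j L
    have h4 : (L + 1) * og c k r j L + (L + 1) * og 2 0 0 j L ≤ (L + 1) * og (c + 2) k r j L := by
      rw [← Nat.mul_add]
      exact Nat.mul_le_mul_left _ h2
    have h5 : 2 ≤ (L + 1) * og 2 0 0 j L := h3.trans (Nat.le_mul_of_pos_left _ (by omega))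
    omega
  have h2 : 3 * K + 30 ≤ og (3 * c1 + 30) k1 r1 j L := by
    have h3 : og (3 * c1 + 30) k1 r1 j L = 3 * og c1 k1 r1 j L + og 30 k1 r1 j L := by
      unfold og; ring
    have h4 := const_le_og 30 k1 r1 j L
    omega
  have h3 : ((L + 1) * og c k r j L + 2) * (3 * K + 30) ≤
      (L + 1) * og ((c + 2) * (3 * c1 + 30)) (k + k1) (r + r1) j L := by
    refine (Nat.mul_le_mul h1 h2).trans ?_
    rw [Nat.mul_assoc]
    exact Nat.mul_le_mul_left _ (og_mul _ _ _ _ _ _ _ _)
  have h4 : K ≤ (L + 1) * og c1 (k + k1) (r + r1) j L := by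
    refine (hK.trans (og_mono (k' := k + k1) (r' := r + r1) le_rfl (by omega) (by omega)
      j L)).trans ?_
    exact Nat.le_mul_of_pos_left _ (by omega)
  have h5 : 1 ≤ (L + 1) * og 1 (k + k1) (r + r1) j L :=
    (const_le_og 1 (k + k1) (r + r1) j L).trans (Nat.le_mul_of_pos_left _ (by omega))
  have e1 : (L + 1) * og (c1 + C * ((c + 2) * (3 * c1 + 30) + 1) + 2) (k + k1) (r + r1) j L =
      (L + 1) * og c1 (k + k1) (r + r1) j L +
      C * ((L + 1) * og ((c + 2) * (3 * c1 + 30)) (k + k1) (r + r1) j L +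
        (L + 1) * og 1 (k + k1) (r + r1) j L) + 2 * ((L + 1) * og 1 (k + k1) (r + r1) j L) := by
    unfold og; ring
  rw [e1]
  exact Nat.add_le_add (Nat.add_le_add h4 (Nat.mul_le_mul_left _ (Nat.add_le_add h3 h5)))
    (by omega)

/-- **S0433 from a PL program.** -/
theorem topPL (km j c k r cS kS rS j₀ : ℕ) (hj : 1 ≤ j) (hcS : 4 ≤ cS) (hkS : 1 ≤ kS)
    (pr : List PS) (mn : PS)
    (H : ∀ (a : ℕ) (ε : ℚ), 0 < ε → ε < 1 → ∀ x y, Symb a x y → Mode2 km x y ε →
      2 ^ j₀ ≤ (inp x y ε).length → 10 ≤ x.length + y.length →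
      D0 (x.length + y.length) < editDist x y →
      ∀ pe : PEnv, PIn x y ε pe → pe.S = og cS kS rS j (inp x y ε).length →
      ∃ (T : RT (List ℕ × ℕ)) (d : ℕ), d ≤ (inp x y ε).length ∧
        PRea pe (2 ^ (2 * Nat.size (x.length + y.length))) pr mn
          (x.length :: y.length :: (inp x y ε).length :: ratWords ε) T d ∧
        T.Pr (2 ^ (2 * Nat.size (x.length + y.length)))
          (fun u => ¬ (GoodD ε x y (u.1.headD 0) ∧ u.2 ≤ fuc c k r j (inp x y ε).length)) ≤ 1 / 3) :
    ∃ P : Crest.WordRAM.Program, ∀ (a : ℕ) (ε : ℚ), 0 < ε → ε < 1 →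
      (∀ x y : List ℕ, (∀ s ∈ x ++ y, s < (x.length + y.length + 2) ^ a) →
        2 / 3 ≤ Crest.WordRAM.probHaltsWith P ((a + 3) * Nat.clog 2 ((stringsInput x y ++ ratWords ε).length + 2))
            (stringsInput x y ++ ratWords ε)
            (fun out => ∃ D : ℕ, out = [D] ∧ editDist x y ≤ D ∧
              (D : ℝ) ≤ (1 + (ε : ℝ)) * editDist x y)) ∧
      (∀ x y : List ℕ, (∀ s ∈ x ++ y, s < (x.length + y.length + 2) ^ a) → x = y →
        ∀ ρ : ℕ → ℕ, ∃ T : ℕ, Crest.WordRAM.HaltsWithin P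
            ((a + 3) * Nat.clog 2 ((stringsInput x y ++ ratWords ε).length + 2)) ρ
            (stringsInput x y ++ ratWords ε) T [0]) ∧
      ∀ δ : ℝ, 0 < δ → ∃ N₀ : ℕ, ∀ x y : List ℕ, N₀ ≤ x.length + y.length →
        (∀ s ∈ x ++ y, s < (x.length + y.length + 2) ^ a) →
        Crest.WordRAM.expectedTime P ((a + 3) * Nat.clog 2 ((stringsInput x y ++ ratWords ε).length + 2))
            (stringsInput x y ++ ratWords ε)
          ≤ ENNReal.ofReal (((x.length + y.length : ℕ) : ℝ) ^ (1 + δ)) := by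
  -- the cost of one call
  obtain ⟨c1, k1, r1, hpoly⟩ := poly_og (allP pr mn) (3 + (2 * cS + 2)) (2 + kS) (0 + rS)
  -- thresholds
  obtain ⟨N, hN⟩ := Filter.eventually_atTop.1 (((ev_og hj c1 k1 r1).and (ev_og hj cS kS rS)).and
    (Filter.eventually_ge_atTop (tot (pr.map tr) (tr (mainP mn)))))
  set C := cst (pr.map tr) (tr (mainP mn)) with hC
  set c2 := c1 + C * ((c + 2) * (3 * c1 + 30) + 1) + 2 with hc2
  refine top433G km j (c2 + 5000) (k + k1 + 3) (r + r1) (max (max j₀ N) 6) hj
    (shell (coreP pr mn)) ?_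
  intro a ε h0 h1 x y hs hm hj'
  have hj0 : 2 ^ j₀ ≤ (inp x y ε).length :=
    (Nat.pow_le_pow_right (by norm_num) ((le_max_left _ _).trans (le_max_left _ _))).trans hj'
  have hjN : 2 ^ N ≤ (inp x y ε).length :=
    (Nat.pow_le_pow_right (by norm_num) ((le_max_right _ _).trans (le_max_left _ _))).trans hj'
  have hj6 : 2 ^ 6 ≤ (inp x y ε).length :=
    (Nat.pow_le_pow_right (by norm_num) (le_max_right _ _)).trans hj'
  have hNL : N ≤ (inp x y ε).length := (Nat.lt_two_pow_self (n := N)).le.trans hjN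
  obtain ⟨⟨hn1, hn2⟩, hn3⟩ := hN _ hNL
  have h10 := ten_le hm hj6
  have hsym : ∀ b ∈ x ++ y,
      b < 2 ^ (Nat.clog 2 (inp x y ε).length * Nat.clog 2 (inp x y ε).length) := fun b hb =>
    lt_of_lt_of_le (hm.small b hb) (Nat.pow_le_pow_right (by norm_num)
      (Nat.mul_le_mul_right _ (slk_le _ _)))
  refine (shell_HPR_wf (m := fuc c2 (k + k1) (r + r1) j (inp x y ε).length) h0 hs hsym h10
    (by norm_num) ?_).mono (shFuel_add_le _ _ _ j _) (fun _ h => h) le_rfl
  intro s hA hwf hD
  have hge := inp_ge x y ε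
  obtain ⟨-, q2, -, -⟩ := nums (L := (inp x y ε).length) (B := 2 ^ wS a x y ε) (by omega)
    (cube_le_wS a x y ε)
  have hPIn : PIn x y ε ⟨oraX x y s, fun _ => 0, 2 ^ wS a x y ε, ((inp x y ε).length + 2) ^ 2,
      og cS kS rS j (inp x y ε).length⟩ := by
    refine ⟨?_, ?_, ?_, ?_, oraX_X x y s, oraX_XT x y s, ?_, rfl, cube_le_wS a x y ε,
      (Nat.pow_lt_pow_right (by norm_num) (size_lt_wS a x y ε)).le⟩
    · intro i
      show oraX x y s 0 i = _
      rw [oraX_lt x y s (by norm_num)]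
      exact hA.inp i
    · intro i hi
      show oraX x y s 13 i = _
      rw [oraX_lt x y s (by norm_num)]
      exact hA.str i hi
    · show Names _ _ (oraX x y s 14)
      rw [oraX_lt x y s (by norm_num)]
      exact hA.names
    · intro k i hk
      show oraX x y s k i < _
      rw [oraX_lt x y s hk]
      exact hwf.2 k i
    · intro u
      show oraX x y s 50 _ < _
      rw [oraX_X x y s u]
      exact leafF_lt h10 hge q2 u
  obtain ⟨T, d, hd, hT, hP⟩ := H a ε h0 h1 x y hs hm hj0 h10 hD _ hPIn rfl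
  have hKog : (allP pr mn).eval (wS a x y ε + (2 * og cS kS rS j (inp x y ε).length + 2)) ≤
      og c1 k1 r1 j (inp x y ε).length := by
    refine hpoly j _ _ ?_
    have e1 := wS_le_og a x y ε j
    have e2 : 2 * og cS kS rS j (inp x y ε).length + 2 ≤
        og (2 * cS + 2) kS rS j (inp x y ε).length := by
      have e3 : og (2 * cS + 2) kS rS j (inp x y ε).length =
          2 * og cS kS rS j (inp x y ε).length + og 2 kS rS j (inp x y ε).length := by
        unfold og; ring
      have := const_le_og 2 kS rS j (inp x y ε).length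
      omega
    exact (Nat.add_le_add e1 e2).trans (og_add _ _ _ _ _ _ _ _)
  exact (core_HPR (S := og cS kS rS j (inp x y ε).length) h10 hA hwf (hKog.trans hn1)
    (init_le_og hm hcS hkS j) hn2 hn3 hd hT hP).mono
    (fuel_arith c k r c1 k1 r1 C j _ _ hKog) (fun _ h => h) le_rfl

end Crest.Agent.R288.Pl726
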