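import Crest.Agent.R288.AsmN_12
import Crest.Agent.R288.PlW_726

/-!
# R288 (S0433), [ASM] part P (helper12): the literal target of the program side

`v0 x y ε` = first environment `|x| :: |y| :: L :: ratWords ε`; `tw x y` = bits of a tape word;
`RunPL`: for EVERY machine environment of the input `(x, y, ε)` whose tape array (array 15) holds the
words of `τ` (below `2 ^ tw`), the PL program (procedures `pr`, main statement `mn`) ends with first
word `res`, in time `fuc c k r j L` and depth `L`.
-/

set_option autoImplicit false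

namespace Crest.Agent.R288.Asm12

open Crest.GraphRAM
open Crest.Agent.R288.Asm331 Crest.Agent.R288.Top791 Crest.Agent.R288.Front327
open Crest.Agent.R288.Shell12 Crest.Agent.R288.Pl726
open Crest.Agent.Lib.PT (PTF)

/-- the first environment of the program -/
def v0 (x y : List ℕ) (ε : ℚ) : List ℕ :=
  x.length :: y.length :: (inp x y ε).length :: ratWords ε

/-- number of bits of a word of the tape -/
def tw (x y : List ℕ) : ℕ := 2 * Nat.size (x.length + y.length)

/-- **[PROG]** the result of the program on the tape `τ` is `res` -/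
def RunPL (c k r cS kS rS j : ℕ) (fR : List ℕ → ℕ) (pr : List PS) (mn : PS)
    (x y : List ℕ) (ε : ℚ) (τ : ℕ → ℕ) (res : ℕ) : Prop :=
  ∀ pe : PEnv, PIn x y ε pe → pe.S = og cS kS rS j (inp x y ε).length →
    (∀ i < fR (v0 x y ε), pe.O 15 i = τ i % 2 ^ tw x y) →
    ∀ i, ∃ (u : List ℕ) (t d : ℕ), PEx pe pr mn (v0 x y ε) i u i t d ∧ u.headD 0 = res ∧
      t ≤ fuc c k r j (inp x y ε).length ∧ d ≤ (inp x y ε).length

end Crest.Agent.R288.Asm12
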