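import Crest.Agent.R288.AsmF_12
import Crest.Agent.R288.GoodI_829

/-!
# R288 (S0433), [ASM] part R (helper12): the block [PROB] of an arbitrary configuration

* `Cfg.goodX`: a good history in the form `GoodX` of helper829;
* **`Cfg.probBlock`**: `C.ProbBlock` from the sure number of words, INIT, the second moment of the lanes
  (history good below the index, `GoodX`), and the union bound.
-/

set_option autoImplicit false

namespace Crest.Agent.R288.Asm12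

open Finset Crest.Agent.R295.Rnd627 Crest.Agent.R288.Bridge331
open Crest.Agent.R295.Prob791 Crest.Agent.R288.Tape829 Crest.Agent.R288.Good829
open Crest.Agent.R288.Alg45 Crest.Agent.R288.Dom20 Crest.Agent.R288.Asm331

theorem sysU_eq (P : Par) (leaf : St → Option ℕ) (U : St → RT ℕ) : sysU P leaf U = sysA P leaf U :=
  rfl

variable {C : Cfg} {X : ℕ → ℕ × St → ℕ}

/-- a good history in the form of helper829 -/
theorem _root_.Crest.Agent.R288.Asm331.Cfg.goodX (h : C.Good X) :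
    GoodX C.P C.leaf (2 ^ C.W) (C.P.E * C.P.K + 1) C.Om (fun s b => C.GU s.2 b) X :=
  goodX_of_allGood (U := C.U) h

/-- the exact mean is `Rk` of helper829 -/
theorem _root_.Crest.Agent.R288.Asm331.Cfg.R_eq {e k κ : ℕ} {z : St} :
    C.R X e k κ z = Rk C.P C.leaf (2 ^ C.W) X e k κ z := by
  unfold Cfg.R Rk
  rw [lanePair_congr C.P (X' := fun i κ z => X (idx C.P e i) (κ, z)) (fun i hi => ?_)]
  funext κ z
  show lo (idx C.P e k) X (idx C.P e i) (κ, z) = _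
  rw [lo_lt (idx_lt_idx hi)]

/-- **[PROB]** -/
theorem _root_.Crest.Agent.R288.Asm331.Cfg.probBlock {v : ℝ} (hK : 0 < C.P.K)
    (hG : C.P.gX = 12 * C.s + 1) (hm : 0 < C.P.mX) (hv : 3 * v * 4 ^ C.P.nb ≤ C.P.mX)
    (ho : ∀ l < C.P.E * C.P.K + 1, C.o l ≤ C.o (l + 1))
    (hS : ∀ l < C.P.E * C.P.K + 1, ∀ X, ∀ x ∈ OmP C.P.N C.I C.P.Dm C.K0,
      (tapeRT C.P C.leaf C.U l (lo l X) x).cnt.All (2 ^ C.W) fun y => C.o l + y.2 ≤ C.o (l + 1))
    (hδ₀ : 0 ≤ C.δ₀)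
    (hU : ∀ x ∈ OmP C.P.N C.I C.P.Dm C.K0, (C.U x.2).Pr (2 ^ C.W) (fun b => ¬ C.GU x.2 b) ≤ C.δ₀)
    (hV : ∀ e k, k < C.P.K → idx C.P e k < C.P.E * C.P.K + 1 → ∀ X,
      GoodX C.P C.leaf (2 ^ C.W) (idx C.P e k) C.Om (fun s b => C.GU s.2 b) X →
      ∀ κ z, (κ, z) ∈ OmP C.P.N C.I C.P.Dm C.K0 → adm C.P (FE C.P X e) κ z = true →
      ((lanePair C.P C.leaf (FE C.P X e) (fun i κ z => X (idx C.P e i) (κ, z)) k κ z).Ev (2 ^ C.W)
        fun a : ℕ => (a : ℝ) ^ 2) ≤ v * 4 ^ κ)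
    (hsum : ((OmP C.P.N C.I C.P.Dm C.K0).card : ℝ) * C.δ₀ +
      (C.P.E * C.P.K : ℕ) * (((OmP C.P.N C.I C.P.Dm C.K0).card : ℝ) * (1 / 2 : ℝ) ^ C.s) ≤ 1 / 3) :
    C.ProbBlock := by
  have hq := q_floor hm
  refine ofSys_prob (A := sysU C.P C.leaf C.U) (eL := 1) (Nat.two_pow_pos _) hG hm hq.1 hq.2
    (fun x => by unfold Cfg.dev; positivity) (fun x => ?_) ho ?_ hδ₀ hU
    (fun l hl X hX x hx ha => ?_) ?_
  · have := (cdiv_bounds (2 ^ x.1) (Nat.two_pow_pos C.P.nb)).1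
    show (2 : ℝ) ^ x.1 / 2 ^ C.P.nb + 1 ≤ ((cdiv (2 ^ x.1) (2 ^ C.P.nb) + 1 : ℕ) : ℝ)
    push_cast at this ⊢
    linarith
  · rw [tRT_sysU]
    exact hS
  · obtain ⟨κ, z⟩ := x
    have hkK : l % C.P.K < C.P.K := Nat.mod_lt _ hK
    have hi := idx_surj (P := C.P) l
    have hgX : GoodX C.P C.leaf (2 ^ C.W) (l + 1) C.Om (fun s b => C.GU s.2 b) X :=
      goodX_of_allGood (U := C.U) hX
    rw [← hi] at ha hgX ⊢
    have ha' : adm C.P (FE C.P X (l / C.P.K)) κ z = true := by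
      rw [← adm_lo (U := C.U) (leaf := C.leaf) hkK]
      exact ha
    have h1 := hV _ _ hkK (by rw [hi]; omega) X hgX κ z hx ha'
    have e1 : (sysU C.P C.leaf C.U).lane (idx C.P (l / C.P.K) (l % C.P.K))
        (lo (idx C.P (l / C.P.K) (l % C.P.K)) X) (κ, z) =
        lanePair C.P C.leaf (FE C.P X (l / C.P.K)) (fun i κ z => X (idx C.P (l / C.P.K) i) (κ, z))
          (l % C.P.K) κ z := by
      show lanePair C.P C.leaf (FE C.P (lo (idx C.P (l / C.P.K) (l % C.P.K)) X)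
          ((idx C.P (l / C.P.K) (l % C.P.K) - 1) / C.P.K))
        (fun i κ z => lo (idx C.P (l / C.P.K) (l % C.P.K)) X
          (idx C.P ((idx C.P (l / C.P.K) (l % C.P.K) - 1) / C.P.K) i) (κ, z))
        ((idx C.P (l / C.P.K) (l % C.P.K) - 1) % C.P.K) κ z = _
      rw [(idx_div hkK).1, (idx_div hkK).2, Asm331.FE_lo (by unfold idx; omega)]
      refine lanePair_congr C.P (fun i hi' => ?_) κ z
      funext κ z
      rw [lo_lt (by unfold idx; omega)]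
    rw [e1]
    have h2 : (3 : ℝ) * ((lanePair C.P C.leaf (FE C.P X (l / C.P.K))
        (fun i κ z => X (idx C.P (l / C.P.K) i) (κ, z)) (l % C.P.K) κ z).Ev (2 ^ C.W)
        fun a : ℕ => (a : ℝ) ^ 2) ≤ 3 * (v * 4 ^ κ) := by linarith
    refine h2.trans ?_
    show 3 * (v * 4 ^ κ) ≤ (C.P.mX : ℝ) * ((2 : ℝ) ^ κ / 2 ^ C.P.nb) ^ 2
    have e4 : ((2 : ℝ) ^ κ / 2 ^ C.P.nb) ^ 2 = 4 ^ κ / 4 ^ C.P.nb := by
      rw [div_pow, ← pow_mul, ← pow_mul, mul_comm κ, mul_comm C.P.nb, pow_mul, pow_mul]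
      norm_num
    rw [e4, ← mul_div_assoc, le_div_iff₀ (by positivity)]
    calc 3 * (v * 4 ^ κ) * 4 ^ C.P.nb = (3 * v * 4 ^ C.P.nb) * 4 ^ κ := by ring
      _ ≤ (C.P.mX : ℝ) * 4 ^ κ := mul_le_mul_of_nonneg_right hv (by positivity)
  · have e5 : ∑ l ∈ range (C.P.E * C.P.K), (((C.Om (l + 1)).card : ℝ) * (1 / 2 : ℝ) ^ C.s) =
        (C.P.E * C.P.K : ℕ) * (((OmP C.P.N C.I C.P.Dm C.K0).card : ℝ) * (1 / 2 : ℝ) ^ C.s) := by
      show ∑ l ∈ range (C.P.E * C.P.K), (((OmP C.P.N C.I C.P.Dm C.K0).card : ℝ) *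
        (1 / 2 : ℝ) ^ C.s) = _
      rw [sum_const, card_range, nsmul_eq_mul]
    rw [e5]
    exact hsum

end Crest.Agent.R288.Asm12
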