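import Crest.Agent.R288.AsmR_12

/-!
# R288 (S0433), [ASM] part S (helper12): the union bound with the table of ParB_806

`ev_sum`: for large `h` the union bound `hsum` of `Cfg.probBlock` holds: domain `D = 2 ^ (nn II + 1)`,
`N = 2 ^ nn`, macro height `II`, any largest class `K0 < D`, `s = W h`, INIT failure
`(nn II + 3) 2 ^ (- W h)`.
-/

set_option autoImplicit false

namespace Crest.Agent.R288.Asm12

open Filter
open Crest.Agent.R288.Alg45 Crest.Agent.R288.Dom20 Crest.Agent.R288.Asm331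
open Crest.Agent.R288.Par806 Crest.Agent.R288.Asy720

/-- the binary height of the root -/
theorem nn_II_le (h : ℕ) : nn h * II h ≤ h + nn h := by
  unfold II
  rw [Nat.mul_add, Nat.mul_one]
  have := Nat.mul_div_le h (nn h)
  omega

theorem ev_nn_le : ∀ᶠ h : ℕ in atTop, nn h ≤ h := by
  filter_upwards [lo_nn.const_mul 1 |>.le] with h h1
  have := il_le 1 h
  omega

theorem ev_EK_le : ∀ᶠ h : ℕ in atTop, EE h * KK h ≤ h := by
  filter_upwards [ev_work 1 0 (by norm_num)] with h h1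
  have hL := Lg_pos h
  simp only [pow_zero, mul_one, one_mul] at h1
  calc EE h * KK h ≤ EE h * KK h + 1 := Nat.le_succ _
    _ ≤ (EE h * KK h + 1) * Lg h := Nat.le_mul_of_pos_right _ hL
    _ ≤ h := h1

/-- **the union bound** -/
theorem ev_sum : ∀ᶠ h : ℕ in atTop, ∀ K0 : ℕ, K0 < 2 ^ (nn h * II h + 1) →
    ((OmP (2 ^ nn h) (II h) (2 ^ (nn h * II h + 1)) K0).card : ℝ) *
      (((nn h * II h + 3 : ℕ) : ℝ) * (1 / 2 : ℝ) ^ (W h * h)) +
    ((EE h * KK h : ℕ) : ℝ) *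
      (((OmP (2 ^ nn h) (II h) (2 ^ (nn h * II h + 1)) K0).card : ℝ) * (1 / 2 : ℝ) ^ (W h * h)) ≤
      1 / 3 := by
  filter_upwards [ev_W_ge 40, ev_nn_le, ev_EK_le, eventually_ge_atTop 4] with h hW hn hEK h4
  intro K0 hK0
  set H := nn h * II h with hH
  have hHh : H ≤ 2 * h := (nn_II_le h).trans (by omega)
  have hn1 : 1 ≤ nn h := Nat.mul_pos (Mg_pos h) (by have := W_pos h; positivity)
  have hcard : (OmP (2 ^ nn h) (II h) (2 ^ (H + 1)) K0).card ≤ 2 ^ (10 * h + 10) := by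
    refine (card_OmP_pow (N := 2 ^ nn h) (I := II h) ?_ ?_ hK0).trans ?_
    · rw [← pow_mul]
      exact Nat.pow_le_pow_right (by norm_num) (by omega)
    · have h1 : II h ≤ H := by
        rw [hH]
        exact Nat.le_mul_of_pos_left _ hn1
      have h2 : H < 2 ^ H := Nat.lt_two_pow_self
      calc II h + 1 ≤ 2 ^ H := by omega
        _ ≤ 2 ^ (H + 1) := Nat.pow_le_pow_right (by norm_num) (by omega)
    · calc 18 * (2 ^ (H + 1)) ^ 5 ≤ 2 ^ 5 * (2 ^ (H + 1)) ^ 5 := Nat.mul_le_mul_right _ (by norm_num)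
        _ = 2 ^ (5 * H + 10) := by rw [← pow_mul, ← pow_add]; congr 1; ring
        _ ≤ 2 ^ (10 * h + 10) := Nat.pow_le_pow_right (by norm_num) (by omega)
  have hcR : ((OmP (2 ^ nn h) (II h) (2 ^ (H + 1)) K0).card : ℝ) ≤ 2 ^ (10 * h + 10) := by
    exact_mod_cast hcard
  have hH3 : ((H + 3 : ℕ) : ℝ) ≤ 2 ^ (2 * h + 2) := by
    have h1 : H + 3 < 2 ^ (H + 3) := Nat.lt_two_pow_self
    have h2 : H + 3 ≤ 2 ^ (2 * h + 2) := by
      have h3 : 2 * h + 3 ≤ 2 ^ (2 * h + 2) := by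
        have : 2 * h + 2 < 2 ^ (2 * h + 2) := Nat.lt_two_pow_self
        omega
      omega
    exact_mod_cast h2
  have hEKR : ((EE h * KK h : ℕ) : ℝ) ≤ 2 ^ (2 * h + 2) := by
    have h1 : h < 2 ^ h := Nat.lt_two_pow_self
    have h2 : EE h * KK h ≤ 2 ^ (2 * h + 2) :=
      (hEK.trans h1.le).trans (Nat.pow_le_pow_right (by norm_num) (by omega))
    exact_mod_cast h2
  have hhalf : (1 / 2 : ℝ) ^ (W h * h) ≤ (1 / 2 : ℝ) ^ (12 * h + 16) :=
    pow_le_pow_of_le_one (by norm_num) (by norm_num) (by nlinarith)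
  set c := ((OmP (2 ^ nn h) (II h) (2 ^ (H + 1)) K0).card : ℝ) with hc
  have hc0 : 0 ≤ c := Nat.cast_nonneg _
  have h5 : (2 : ℝ) ^ (10 * h + 10) * (2 ^ (2 * h + 2) * (1 / 2) ^ (12 * h + 16)) = 1 / 16 := by
    rw [← mul_assoc, ← pow_add, show 12 * h + 16 = (10 * h + 10 + (2 * h + 2)) + 4 by ring,
      pow_add (1 / 2 : ℝ), ← mul_assoc, ← mul_pow]
    norm_num
  have h6 : c * (((H + 3 : ℕ) : ℝ) * (1 / 2 : ℝ) ^ (W h * h)) ≤ 1 / 16 := by
    rw [← h5]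
    gcongr
  have h7 : ((EE h * KK h : ℕ) : ℝ) * (c * (1 / 2 : ℝ) ^ (W h * h)) ≤ 1 / 16 := by
    rw [← h5]
    calc ((EE h * KK h : ℕ) : ℝ) * (c * (1 / 2 : ℝ) ^ (W h * h))
        = c * (((EE h * KK h : ℕ) : ℝ) * (1 / 2 : ℝ) ^ (W h * h)) := by ring
      _ ≤ _ := by gcongr
  linarith

end Crest.Agent.R288.Asm12
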