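import Mathlib.Analysis.SpecificLimits.Normed
import Mathlib.Data.Nat.Log
import Mathlib.Tactic

/-!
# R288, leaf [ASY] part A (helper720): a calculus of growth for iterated logarithms

`il k h = log₂^[k] h`.  (In the application `h = clog 2 L` and `slk k L = il k (clog 2 L)`.)

* `Sm j f` : `f = (il j)^{o(1)}`, i.e. every `c * f ^ a` is eventually `≤ il j`;
* `Po j f` : `f` is eventually `≤ c * (il j) ^ a`.

Closure: constants, `il k` (`k > j`), `+`, `*`, `^ const`, `2 ^ ·` (`Sm (j+1) → Sm j`),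
`(Po (j+1)) ^ (Sm (j+1)) → Sm j`, `clog`, `Po (j+1) → Sm j`, ...
-/

set_option autoImplicit false

set_option linter.unusedVariables false

namespace Crest.Agent.R288.Asy720

open Filter

/-! ### iterated logarithms -/

/-- the `k`-fold binary logarithm -/
def il (k h : ℕ) : ℕ := (Nat.log 2)^[k] h

@[simp] theorem il_zero (h : ℕ) : il 0 h = h := rfl

theorem il_succ (k h : ℕ) : il (k + 1) h = Nat.log 2 (il k h) :=
  Function.iterate_succ_apply' _ _ _

theorem il_succ_le (k h : ℕ) : il (k + 1) h ≤ il k h := by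
  rw [il_succ]
  exact Nat.log_le_self 2 _

theorem il_anti {j k : ℕ} (hjk : j ≤ k) (h : ℕ) : il k h ≤ il j h := by
  induction hjk with
  | refl => exact le_rfl
  | step _ ih => exact (il_succ_le _ _).trans ih

theorem il_le (k h : ℕ) : il k h ≤ h := il_anti (Nat.zero_le k) h

theorem il_mono (k : ℕ) {h h' : ℕ} (hh : h ≤ h') : il k h ≤ il k h' := by
  induction k with
  | zero => simpa using hh
  | succ k ih =>
    rw [il_succ, il_succ]
    exact Nat.log_mono_right ih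

theorem il_add (j k h : ℕ) : il (j + k) h = il j (il k h) := by
  unfold il
  exact Function.iterate_add_apply _ _ _ _

theorem tendsto_log2 : Tendsto (fun N : ℕ => Nat.log 2 N) atTop atTop := by
  refine tendsto_atTop.2 fun b => ?_
  filter_upwards [eventually_ge_atTop (2 ^ b)] with N hN
  exact (Nat.le_log_iff_pow_le (by norm_num) (by
    have := Nat.two_pow_pos b
    omega)).2 hN

theorem tendsto_clog2 : Tendsto (fun N : ℕ => Nat.clog 2 N) atTop atTop :=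
  tendsto_atTop_mono (fun N => Nat.log_le_clog 2 N) tendsto_log2

theorem tendsto_il (k : ℕ) : Tendsto (il k) atTop atTop := by
  induction k with
  | zero => exact tendsto_id
  | succ k ih =>
    have e : il (k + 1) = (fun N => Nat.log 2 N) ∘ il k := by
      funext h
      exact il_succ k h
    rw [e]
    exact tendsto_log2.comp ih

theorem ev_il_ge (k b : ℕ) : ∀ᶠ h : ℕ in atTop, b ≤ il k h :=
  (tendsto_il k).eventually_ge_atTop b

theorem two_pow_il_succ_le {k h : ℕ} (hk : 1 ≤ il k h) : 2 ^ il (k + 1) h ≤ il k h := by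
  rw [il_succ]
  exact Nat.pow_log_le_self 2 (by omega)

theorem il_lt_two_pow (k h : ℕ) : il k h < 2 ^ (il (k + 1) h + 1) := by
  rw [il_succ]
  exact Nat.lt_pow_succ_log_self (by norm_num) _

/-- `clog` is at most one more than the next iterated logarithm -/
theorem clog_il_le (k h : ℕ) : Nat.clog 2 (il k h) ≤ il (k + 1) h + 1 := by
  rw [Nat.clog_le_iff_le_pow (by norm_num)]
  exact (il_lt_two_pow k h).le

theorem il_succ_le_clog (k h : ℕ) : il (k + 1) h ≤ Nat.clog 2 (il k h) := by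
  rw [il_succ]
  exact Nat.log_le_clog 2 _

/-! ### polynomials against exponentials -/

theorem ev_pow_le_two_pow (c a : ℕ) : ∀ᶠ m : ℕ in atTop, c * m ^ a ≤ 2 ^ m := by
  have h := tendsto_pow_const_div_const_pow_of_one_lt a (r := (2 : ℝ)) (by norm_num)
  have h2 : ∀ᶠ m : ℕ in atTop, (m : ℝ) ^ a / 2 ^ m < 1 / (c + 1) :=
    h.eventually (gt_mem_nhds (by positivity))
  filter_upwards [h2] with m hm
  have h3 : (0 : ℝ) < 2 ^ m := by positivity
  rw [div_lt_div_iff₀ h3 (by positivity)] at hm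
  have h4 : (c : ℝ) * (m : ℝ) ^ a ≤ 2 ^ m := by
    have : (0 : ℝ) ≤ (m : ℝ) ^ a := by positivity
    nlinarith
  exact_mod_cast h4

theorem ev_il_pow (k c a : ℕ) : ∀ᶠ h : ℕ in atTop, c * (il (k + 1) h) ^ a ≤ il k h := by
  filter_upwards [(tendsto_il (k + 1)).eventually (ev_pow_le_two_pow c a), ev_il_ge k 1] with h h1 h2
  exact h1.trans (two_pow_il_succ_le h2)

/-! ### the two classes -/

/-- `f = (il j)^{o(1)}` -/
def Sm (j : ℕ) (f : ℕ → ℕ) : Prop := ∀ a c : ℕ, ∀ᶠ h : ℕ in atTop, c * f h ^ a ≤ il j h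

/-- `f` is polynomially bounded in `il j` -/
def Po (j : ℕ) (f : ℕ → ℕ) : Prop := ∃ a c : ℕ, ∀ᶠ h : ℕ in atTop, f h ≤ c * il j h ^ a

theorem Sm.ev {j : ℕ} {f : ℕ → ℕ} (hf : Sm j f) (c a : ℕ) : ∀ᶠ h : ℕ in atTop, c * f h ^ a ≤ il j h :=
  hf a c

theorem Sm.le {j : ℕ} {f : ℕ → ℕ} (hf : Sm j f) : ∀ᶠ h : ℕ in atTop, f h ≤ il j h := by
  filter_upwards [hf 1 1] with h hh
  simpa using hh

theorem Sm.mul_le {j : ℕ} {f : ℕ → ℕ} (hf : Sm j f) (c : ℕ) : ∀ᶠ h : ℕ in atTop, c * f h ≤ il j h := by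
  filter_upwards [hf 1 c] with h hh
  simpa using hh

theorem Sm.le0 {f : ℕ → ℕ} (hf : Sm 0 f) : ∀ᶠ h : ℕ in atTop, f h ≤ h := hf.le

theorem Sm.mono {j : ℕ} {f g : ℕ → ℕ} (hg : Sm j g) (hfg : ∀ᶠ h : ℕ in atTop, f h ≤ g h) : Sm j f := by
  intro a c
  filter_upwards [hg a c, hfg] with h h1 h2
  exact (Nat.mul_le_mul_left _ (Nat.pow_le_pow_left h2 _)).trans h1

theorem Sm.mono' {j : ℕ} {f g : ℕ → ℕ} (hg : Sm j g) (hfg : ∀ h, f h ≤ g h) : Sm j f :=
  hg.mono (Eventually.of_forall hfg)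

theorem Sm.const (j C : ℕ) : Sm j (fun _ => C) := fun a c => ev_il_ge j (c * C ^ a)

theorem Sm.il_lt {j k : ℕ} (h : j < k) : Sm j (il k) := by
  intro a c
  filter_upwards [ev_il_pow j c a] with x hx
  exact (Nat.mul_le_mul_left _ (Nat.pow_le_pow_left (il_anti h x) _)).trans hx

/-- a function small on a slower scale is small on a faster one -/
theorem Sm.of_le {i j : ℕ} {f : ℕ → ℕ} (hij : j ≤ i) (hf : Sm i f) : Sm j f := by
  intro a c
  filter_upwards [hf a c] with h hh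
  exact hh.trans (il_anti hij h)

theorem Sm.pow {j : ℕ} {f : ℕ → ℕ} (hf : Sm j f) (b : ℕ) : Sm j (fun h => f h ^ b) := by
  intro a c
  filter_upwards [hf (b * a) c] with h hh
  rw [← pow_mul]
  exact hh

theorem Sm.mul {j : ℕ} {f g : ℕ → ℕ} (hf : Sm j f) (hg : Sm j g) : Sm j (fun h => f h * g h) := by
  intro a c
  filter_upwards [hf (a * 2) (c * c), hg (a * 2) 1] with h h1 h2
  have e : (c * (f h * g h) ^ a) ^ 2 = c * c * f h ^ (a * 2) * (1 * g h ^ (a * 2)) := by ring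
  have h3 : (c * (f h * g h) ^ a) ^ 2 ≤ il j h ^ 2 := by
    rw [e, sq]
    exact Nat.mul_le_mul h1 h2
  exact (Nat.pow_le_pow_iff_left (by norm_num)).1 h3

theorem Sm.max {j : ℕ} {f g : ℕ → ℕ} (hf : Sm j f) (hg : Sm j g) : Sm j (fun h => Max.max (f h) (g h)) := by
  intro a c
  filter_upwards [hf a c, hg a c] with h h1 h2
  rcases max_cases (f h) (g h) with h3 | h3 <;> rw [h3.1] <;> assumption

theorem Sm.add {j : ℕ} {f g : ℕ → ℕ} (hf : Sm j f) (hg : Sm j g) : Sm j (fun h => f h + g h) := by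
  refine ((Sm.const j 2).mul (hf.max hg)).mono' fun h => ?_
  have h1 := le_max_left (f h) (g h)
  have h2 := le_max_right (f h) (g h)
  omega

theorem Sm.div {j : ℕ} {f : ℕ → ℕ} (hf : Sm j f) (g : ℕ → ℕ) : Sm j (fun h => f h / g h) :=
  hf.mono' fun h => Nat.div_le_self _ _

theorem Sm.sub {j : ℕ} {f : ℕ → ℕ} (hf : Sm j f) (g : ℕ → ℕ) : Sm j (fun h => f h - g h) :=
  hf.mono' fun h => Nat.sub_le _ _

/-- `f = o(il j)` -/
def Lo (j : ℕ) (f : ℕ → ℕ) : Prop := ∀ c : ℕ, ∀ᶠ h : ℕ in atTop, c * f h ≤ il j h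

/-- `f = O(il j)` -/
def Bo (j : ℕ) (f : ℕ → ℕ) : Prop := ∃ c : ℕ, ∀ᶠ h : ℕ in atTop, f h ≤ c * il j h

theorem Sm.lo {j : ℕ} {f : ℕ → ℕ} (hf : Sm j f) : Lo j f := fun c => hf.mul_le c

theorem Lo.le {j : ℕ} {f : ℕ → ℕ} (hf : Lo j f) : ∀ᶠ h : ℕ in atTop, f h ≤ il j h := by
  filter_upwards [hf 1] with h hh
  simpa using hh

theorem Lo.mono {j : ℕ} {f g : ℕ → ℕ} (hg : Lo j g) (hfg : ∀ᶠ h : ℕ in atTop, f h ≤ g h) : Lo j f := by
  intro c
  filter_upwards [hg c, hfg] with h h1 h2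
  exact (Nat.mul_le_mul_left _ h2).trans h1

theorem Lo.mono' {j : ℕ} {f g : ℕ → ℕ} (hg : Lo j g) (hfg : ∀ h, f h ≤ g h) : Lo j f :=
  hg.mono (Eventually.of_forall hfg)

theorem Lo.add {j : ℕ} {f g : ℕ → ℕ} (hf : Lo j f) (hg : Lo j g) : Lo j (fun h => f h + g h) := by
  intro c
  filter_upwards [hf (2 * c), hg (2 * c)] with h h1 h2
  have e : 2 * (c * (f h + g h)) = 2 * c * f h + 2 * c * g h := by ring
  omega

theorem Lo.const_mul {j : ℕ} {f : ℕ → ℕ} (hf : Lo j f) (C : ℕ) : Lo j (fun h => C * f h) := by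
  intro c
  filter_upwards [hf (c * C)] with h h1
  rwa [← mul_assoc]

theorem Lo.mul_const {j : ℕ} {f : ℕ → ℕ} (hf : Lo j f) (C : ℕ) : Lo j (fun h => f h * C) :=
  (hf.const_mul C).mono' fun h => (mul_comm _ _).le

theorem Lo.const (j C : ℕ) : Lo j (fun _ => C) := (Sm.const j C).lo

theorem Lo.bo {j : ℕ} {f : ℕ → ℕ} (hf : Lo j f) : Bo j f := ⟨1, by simpa using hf.le⟩

theorem Lo.sub {j : ℕ} {f : ℕ → ℕ} (hf : Lo j f) (g : ℕ → ℕ) : Lo j (fun h => f h - g h) :=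
  hf.mono' fun h => Nat.sub_le _ _

theorem Lo.of_le {i j : ℕ} {f : ℕ → ℕ} (hij : j ≤ i) (hf : Lo i f) : Lo j f := by
  intro c
  filter_upwards [hf c] with h hh
  exact hh.trans (il_anti hij h)

/-- anything that stays `O(il j)` after multiplication by a function tending to infinity is `o(il j)` -/
theorem Lo.of_mul {j : ℕ} {f g : ℕ → ℕ} (hg : Tendsto g atTop atTop) (C : ℕ)
    (hfg : ∀ᶠ h : ℕ in atTop, f h * g h ≤ C * il j h) : Lo j f := by
  intro c
  filter_upwards [hg.eventually_ge_atTop (c * (C + 1)), hfg] with h h1 h2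
  have h3 : (C + 1) * (c * f h) ≤ f h * g h := by
    calc (C + 1) * (c * f h) = f h * (c * (C + 1)) := by ring
      _ ≤ f h * g h := Nat.mul_le_mul_left _ h1
  have h4 : (C + 1) * (c * f h) ≤ (C + 1) * il j h :=
    h3.trans (h2.trans (Nat.mul_le_mul_right _ (Nat.le_succ C)))
  exact Nat.le_of_mul_le_mul_left h4 (Nat.succ_pos C)

theorem Bo.div_lo {j : ℕ} {f g : ℕ → ℕ} (hf : Bo j f) (hg : Tendsto g atTop atTop) :
    Lo j (fun h => f h / g h) := by
  obtain ⟨C, hf⟩ := hf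
  refine Lo.of_mul hg C ?_
  filter_upwards [hf] with h h1
  exact (Nat.div_mul_le_self _ _).trans h1

theorem Bo.il_self (j : ℕ) : Bo j (il j) := ⟨1, by simp⟩

theorem Bo.mono {j : ℕ} {f g : ℕ → ℕ} (hg : Bo j g) (hfg : ∀ᶠ h : ℕ in atTop, f h ≤ g h) : Bo j f := by
  obtain ⟨c, hg⟩ := hg
  exact ⟨c, by filter_upwards [hg, hfg] with h h1 h2 using h2.trans h1⟩

theorem Bo.add {j : ℕ} {f g : ℕ → ℕ} (hf : Bo j f) (hg : Bo j g) : Bo j (fun h => f h + g h) := by
  obtain ⟨c, hf⟩ := hf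
  obtain ⟨d, hg⟩ := hg
  refine ⟨c + d, ?_⟩
  filter_upwards [hf, hg] with h h1 h2
  rw [add_mul]
  omega

theorem Bo.const_mul {j : ℕ} {f : ℕ → ℕ} (hf : Bo j f) (C : ℕ) : Bo j (fun h => C * f h) := by
  obtain ⟨c, hf⟩ := hf
  refine ⟨C * c, ?_⟩
  filter_upwards [hf] with h h1
  rw [mul_assoc]
  exact Nat.mul_le_mul_left _ h1

theorem Lo.two_pow {j : ℕ} {f : ℕ → ℕ} (hf : Lo (j + 1) f) : Sm j (fun h => 2 ^ f h) := by
  intro a c
  have h1 : Lo (j + 1) (fun h => f h * a + c) := (hf.mul_const a).add (Lo.const _ c)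
  filter_upwards [h1.le, ev_il_ge j 1] with h h2 h3
  calc c * (2 ^ f h) ^ a ≤ 2 ^ c * (2 ^ f h) ^ a := Nat.mul_le_mul_right _ (Nat.lt_two_pow_self).le
    _ = 2 ^ (f h * a + c) := by rw [← pow_mul, ← pow_add, add_comm]
    _ ≤ 2 ^ il (j + 1) h := Nat.pow_le_pow_right (by norm_num) h2
    _ ≤ il j h := two_pow_il_succ_le h3

theorem Sm.two_pow {j : ℕ} {f : ℕ → ℕ} (hf : Sm (j + 1) f) : Sm j (fun h => 2 ^ f h) := hf.lo.two_pow

/-! ### polynomially bounded functions -/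

theorem Po.mono {j : ℕ} {f g : ℕ → ℕ} (hg : Po j g) (hfg : ∀ᶠ h : ℕ in atTop, f h ≤ g h) : Po j f := by
  obtain ⟨a, c, hg⟩ := hg
  exact ⟨a, c, by filter_upwards [hg, hfg] with h h1 h2 using h2.trans h1⟩

theorem Po.mono' {j : ℕ} {f g : ℕ → ℕ} (hg : Po j g) (hfg : ∀ h, f h ≤ g h) : Po j f :=
  hg.mono (Eventually.of_forall hfg)

theorem Po.const (j C : ℕ) : Po j (fun _ => C) := ⟨0, C, by simp⟩

theorem Po.il_self (j : ℕ) : Po j (il j) := ⟨1, 1, by simp⟩

theorem Po.il_of_le {j k : ℕ} (h : j ≤ k) : Po j (il k) := (Po.il_self j).mono' fun x => il_anti h x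

theorem Po.of_le {i j : ℕ} {f : ℕ → ℕ} (hij : j ≤ i) (hf : Po i f) : Po j f := by
  obtain ⟨a, c, hf⟩ := hf
  refine ⟨a, c, ?_⟩
  filter_upwards [hf] with h hh
  exact hh.trans (Nat.mul_le_mul_left _ (Nat.pow_le_pow_left (il_anti hij h) _))

theorem Sm.po {j : ℕ} {f : ℕ → ℕ} (hf : Sm j f) : Po j f := by
  refine ⟨1, 1, ?_⟩
  filter_upwards [hf.le] with h hh
  simpa using hh

theorem Po.mul {j : ℕ} {f g : ℕ → ℕ} (hf : Po j f) (hg : Po j g) : Po j (fun h => f h * g h) := by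
  obtain ⟨a, c, hf⟩ := hf
  obtain ⟨b, d, hg⟩ := hg
  refine ⟨a + b, c * d, ?_⟩
  filter_upwards [hf, hg] with h h1 h2
  calc f h * g h ≤ (c * il j h ^ a) * (d * il j h ^ b) := Nat.mul_le_mul h1 h2
    _ = c * d * il j h ^ (a + b) := by ring

theorem Po.pow {j : ℕ} {f : ℕ → ℕ} (hf : Po j f) (b : ℕ) : Po j (fun h => f h ^ b) := by
  obtain ⟨a, c, hf⟩ := hf
  refine ⟨a * b, c ^ b, ?_⟩
  filter_upwards [hf] with h h1
  calc f h ^ b ≤ (c * il j h ^ a) ^ b := Nat.pow_le_pow_left h1 _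
    _ = c ^ b * il j h ^ (a * b) := by rw [mul_pow, ← pow_mul]

theorem Po.add {j : ℕ} {f g : ℕ → ℕ} (hf : Po j f) (hg : Po j g) : Po j (fun h => f h + g h) := by
  obtain ⟨a, c, hf⟩ := hf
  obtain ⟨b, d, hg⟩ := hg
  refine ⟨a + b, c + d, ?_⟩
  filter_upwards [hf, hg, ev_il_ge j 1] with h h1 h2 h3
  have e1 : il j h ^ a ≤ il j h ^ (a + b) := Nat.pow_le_pow_right h3 (by omega)
  have e2 : il j h ^ b ≤ il j h ^ (a + b) := Nat.pow_le_pow_right h3 (by omega)
  calc f h + g h ≤ c * il j h ^ a + d * il j h ^ b := Nat.add_le_add h1 h2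
    _ ≤ c * il j h ^ (a + b) + d * il j h ^ (a + b) :=
        Nat.add_le_add (Nat.mul_le_mul_left _ e1) (Nat.mul_le_mul_left _ e2)
    _ = (c + d) * il j h ^ (a + b) := by ring

theorem Po.div {j : ℕ} {f : ℕ → ℕ} (hf : Po j f) (g : ℕ → ℕ) : Po j (fun h => f h / g h) :=
  hf.mono' fun h => Nat.div_le_self _ _

theorem Po.sub {j : ℕ} {f : ℕ → ℕ} (hf : Po j f) (g : ℕ → ℕ) : Po j (fun h => f h - g h) :=
  hf.mono' fun h => Nat.sub_le _ _

theorem Po.max {j : ℕ} {f g : ℕ → ℕ} (hf : Po j f) (hg : Po j g) : Po j (fun h => Max.max (f h) (g h)) :=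
  (hf.add hg).mono' fun h => by
    rcases max_cases (f h) (g h) with h3 | h3 <;> rw [h3.1] <;> omega

/-- one scale up -/
theorem Po.sm {j : ℕ} {f : ℕ → ℕ} (hf : Po (j + 1) f) : Sm j f := by
  obtain ⟨a, c, hf⟩ := hf
  exact ((Sm.const j c).mul ((Sm.il_lt (Nat.lt_succ_self j)).pow a)).mono hf

theorem Po.sm' {i j : ℕ} {f : ℕ → ℕ} (hij : j < i) (hf : Po i f) : Sm j f :=
  (hf.of_le hij).sm

theorem clog_mul_le (a b : ℕ) : Nat.clog 2 (a * b) ≤ Nat.clog 2 a + Nat.clog 2 b := by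
  rw [Nat.clog_le_iff_le_pow (by norm_num), pow_add]
  exact Nat.mul_le_mul (Nat.le_pow_clog (by norm_num) a) (Nat.le_pow_clog (by norm_num) b)

theorem clog_pow_le (a b : ℕ) : Nat.clog 2 (a ^ b) ≤ b * Nat.clog 2 a := by
  rw [Nat.clog_le_iff_le_pow (by norm_num), mul_comm, pow_mul]
  exact Nat.pow_le_pow_left (Nat.le_pow_clog (by norm_num) a) b

/-- logarithms of polynomially bounded functions live one scale below -/
theorem Po.clog {j : ℕ} {f : ℕ → ℕ} (hf : Po j f) : Po (j + 1) (fun h => Nat.clog 2 (f h)) := by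
  obtain ⟨a, c, hf⟩ := hf
  refine ⟨1, Nat.clog 2 c + a + a, ?_⟩
  filter_upwards [hf, ev_il_ge (j + 1) 1] with h h1 h2
  have h3 : Nat.clog 2 (f h) ≤ Nat.clog 2 c + a * (il (j + 1) h + 1) :=
    (Nat.clog_mono_right 2 h1).trans ((clog_mul_le _ _).trans
      (Nat.add_le_add_left ((clog_pow_le _ _).trans (Nat.mul_le_mul_left _ (clog_il_le j h))) _))
  refine h3.trans ?_
  rw [pow_one]
  nlinarith [Nat.mul_le_mul_left (Nat.clog 2 c) h2, Nat.mul_le_mul_left a h2]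

theorem Po.log {j : ℕ} {f : ℕ → ℕ} (hf : Po j f) : Po (j + 1) (fun h => Nat.log 2 (f h)) :=
  hf.clog.mono' fun h => Nat.log_le_clog 2 _

/-- logarithms of functions small on scale `j` are `o` on scale `j + 1` -/
theorem Sm.clog {j : ℕ} {f : ℕ → ℕ} (hf : Sm j f) : Lo (j + 1) (fun h => Nat.clog 2 (f h)) := by
  intro c
  filter_upwards [hf (2 * c) (2 ^ (2 * c)), ev_il_ge j 1] with h h1 h3
  rcases Nat.eq_zero_or_pos (f h) with h0 | h0
  · rw [h0]
    simp
  have h4 : 2 ^ (c * Nat.clog 2 (f h)) ≤ il j h := by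
    have h5 : 2 ^ Nat.clog 2 (f h) ≤ 2 * f h := by
      rcases Nat.eq_or_lt_of_le (show 1 ≤ f h from h0) with h6 | h6
      · rw [← h6]
        simp
      · have h7 : 2 ^ (Nat.clog 2 (f h) - 1) < f h := Nat.pow_pred_clog_lt_self (by norm_num) h6
        have h8 : 0 < Nat.clog 2 (f h) := Nat.clog_pos (by norm_num) h6
        have h9 : 2 ^ Nat.clog 2 (f h) = 2 * 2 ^ (Nat.clog 2 (f h) - 1) := by
          rw [← pow_succ']
          congr 1
          omega
        omega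
    calc 2 ^ (c * Nat.clog 2 (f h)) = (2 ^ Nat.clog 2 (f h)) ^ c := by rw [mul_comm, pow_mul]
      _ ≤ (2 * f h) ^ c := Nat.pow_le_pow_left h5 c
      _ = 2 ^ c * f h ^ c := mul_pow _ _ _
      _ ≤ 2 ^ (2 * c) * f h ^ (2 * c) :=
          Nat.mul_le_mul (Nat.pow_le_pow_right (by norm_num) (by omega))
            (Nat.pow_le_pow_right h0 (by omega))
      _ ≤ il j h := h1
  rw [il_succ]
  exact (Nat.le_log_iff_pow_le (by norm_num) (by omega)).2 h4

/-- general powers: polynomial base on scale `j + 1`, exponent `f` with `f * il (j + 2) = o(il (j+1))` -/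
theorem Po.pow_lo {j : ℕ} {g f : ℕ → ℕ} (hg : Po (j + 1) g)
    (hf : Lo (j + 1) (fun h => f h * (il (j + 2) h + 1))) : Sm j (fun h => g h ^ f h) := by
  obtain ⟨a, c, hg⟩ := hg
  have h1 : Lo (j + 1) (fun h => (Nat.clog 2 c + a) * (f h * (il (j + 2) h + 1))) :=
    hf.const_mul (Nat.clog 2 c + a)
  refine h1.two_pow.mono ?_
  filter_upwards [hg] with h h2
  have h3 : il (j + 1) h ≤ 2 ^ (il (j + 2) h + 1) := (il_lt_two_pow (j + 1) h).le
  have h4 : g h ≤ 2 ^ ((Nat.clog 2 c + a) * (il (j + 2) h + 1)) := by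
    calc g h ≤ c * il (j + 1) h ^ a := h2
      _ ≤ 2 ^ Nat.clog 2 c * (2 ^ (il (j + 2) h + 1)) ^ a :=
          Nat.mul_le_mul (Nat.le_pow_clog (by norm_num) c) (Nat.pow_le_pow_left h3 a)
      _ = 2 ^ (Nat.clog 2 c + (il (j + 2) h + 1) * a) := by rw [← pow_mul, ← pow_add]
      _ ≤ 2 ^ ((Nat.clog 2 c + a) * (il (j + 2) h + 1)) := by
          refine Nat.pow_le_pow_right (by norm_num) ?_
          nlinarith [Nat.zero_le (Nat.clog 2 c * il (j + 2) h)]
  calc g h ^ f h ≤ (2 ^ ((Nat.clog 2 c + a) * (il (j + 2) h + 1))) ^ f h := Nat.pow_le_pow_left h4 _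
    _ = 2 ^ ((Nat.clog 2 c + a) * (f h * (il (j + 2) h + 1))) := by
        rw [← pow_mul]
        congr 1
        ring

theorem Po.pow_sm {j : ℕ} {g f : ℕ → ℕ} (hg : Po (j + 1) g) (hf : Sm (j + 1) f) :
    Sm j (fun h => g h ^ f h) :=
  hg.pow_lo ((hf.mul ((Sm.il_lt (by omega)).add (Sm.const _ 1))).lo)

/-! ### floors -/

/-- `K = h / A`: both bounds -/
theorem div_bounds {h A : ℕ} (hA : 0 < A) (hAh : A ≤ h) :
    h / A * A ≤ h ∧ h ≤ 2 * (h / A) * A ∧ 1 ≤ h / A := by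
  refine ⟨Nat.div_mul_le_self _ _, ?_, Nat.div_pos hAh hA⟩
  have h1 : 1 ≤ h / A := Nat.div_pos hAh hA
  have h2 : h < (h / A + 1) * A := by
    have := Nat.lt_div_mul_add hA (a := h)
    rw [add_mul, one_mul]
    exact this
  calc h ≤ (h / A + 1) * A := h2.le
    _ ≤ (2 * (h / A)) * A := Nat.mul_le_mul_right _ (by omega)

/-- `(h / A) * B ≤ c h / w` if `B w ≤ c A` -/
theorem div_mul_le_div {h A B w c : ℕ} (hw : 0 < w) (hB : B * w ≤ c * A) : h / A * B ≤ c * h / w := by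
  rw [Nat.le_div_iff_mul_le hw]
  calc h / A * B * w = h / A * (B * w) := by ring
    _ ≤ h / A * (c * A) := Nat.mul_le_mul_left _ hB
    _ = c * (h / A * A) := by ring
    _ ≤ c * h := Nat.mul_le_mul_left _ (Nat.div_mul_le_self _ _)

/-- sums of exponents -/
theorem div_add_div_le {h w a b : ℕ} : a * h / w + b * h / w ≤ (a + b) * h / w := by
  rcases Nat.eq_zero_or_pos w with h0 | h0
  · subst h0
    simp
  rw [Nat.le_div_iff_mul_le h0, add_mul, add_mul]
  exact Nat.add_le_add (Nat.div_mul_le_self _ _) (Nat.div_mul_le_self _ _)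

/-- binomial coefficients -/
theorem choose_le_two_pow (n k : ℕ) : Nat.choose n k ≤ 2 ^ (k * Nat.clog 2 n) := by
  calc Nat.choose n k ≤ n ^ k := Nat.choose_le_pow n k
    _ ≤ (2 ^ Nat.clog 2 n) ^ k := Nat.pow_le_pow_left (Nat.le_pow_clog (by norm_num) n) k
    _ = 2 ^ (k * Nat.clog 2 n) := by rw [← pow_mul, mul_comm]

/-! ### thresholds -/

/-- extraction of a threshold in the format of `Shell12.top433C` -/
theorem exists_threshold {P : ℕ → Prop} (hP : ∀ᶠ h : ℕ in atTop, P h) :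
    ∃ j₀ : ℕ, ∀ L : ℕ, 2 ^ j₀ ≤ L → P (Nat.clog 2 L) := by
  obtain ⟨j₀, hj⟩ := eventually_atTop.1 hP
  refine ⟨j₀, fun L hL => hj _ ?_⟩
  calc j₀ = Nat.clog 2 (2 ^ j₀) := (Nat.clog_pow 2 j₀ (by norm_num)).symm
    _ ≤ Nat.clog 2 L := Nat.clog_mono_right 2 hL

/-- the precision variable: all `e ≤ 2 ^ il km h`, uniformly -/
theorem Sm.prec {j km : ℕ} (hkm : j + 2 ≤ km) : Sm j (fun h => 2 ^ il km h) :=
  (Sm.il_lt (show j + 1 < km by omega)).two_pow

theorem Sm.ev_prec {j : ℕ} {f E : ℕ → ℕ} (hf : Sm j f) (hE : Sm j E) (c a b : ℕ) :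
    ∀ᶠ h : ℕ in atTop, ∀ e ≤ E h, c * e ^ a * f h ^ b ≤ il j h := by
  have h1 : Sm j (fun h => c * E h ^ a * f h ^ b) := ((Sm.const j c).mul (hE.pow a)).mul (hf.pow b)
  filter_upwards [h1.le] with h h2 e he
  exact (Nat.mul_le_mul_right _ (Nat.mul_le_mul_left _ (Nat.pow_le_pow_left he _))).trans h2

/-! ### small tactics -/

/-- closes goals `Sm j (fun h => ...)` built from constants, `il k h` (`k > j`), `+ * ^ max / -` and
`2 ^ ...` -/
macro "sm_tac" : tactic => `(tactic| (repeat' with_reducible (first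
  | exact Sm.const _ _
  | exact Sm.il_lt (by norm_num)
  | exact Sm.prec (by norm_num)
  | assumption
  | apply Sm.add | apply Sm.mul | apply Sm.pow | apply Sm.max | apply Sm.two_pow | apply Sm.div
  | apply Sm.sub)))

/-- closes goals `Po j (fun h => ...)` built from constants, `il k h` (`k ≥ j`), `+ * ^ max / -` -/
macro "po_tac" : tactic => `(tactic| (repeat' with_reducible (first
  | exact Po.const _ _
  | exact Po.il_self _
  | exact Po.il_of_le (by norm_num)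
  | assumption
  | apply Po.add | apply Po.mul | apply Po.pow | apply Po.max | apply Po.div | apply Po.sub)))

example : Sm 0 (fun h => 2 ^ (3 * (il 5 h * (il 2 h + 1))) * (il 1 h) ^ 7 + 4) := by sm_tac

example : ∀ᶠ h in atTop,
    ((2 ^ (3 * (il 5 h * (il 2 h + 1)))) ^ 8 * (il 1 h) ^ 7 * 2 ^ (il 6 h) + 4) ^ 2 ≤ h := by
  have : Sm 0 (fun h => (2 ^ (3 * (il 5 h * (il 2 h + 1)))) ^ 8 * (il 1 h) ^ 7 * 2 ^ (il 6 h) + 4) := by
    sm_tac
  simpa using this.ev 1 2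

example : Po 1 (fun h => 7 * il 1 h ^ 3 * il 2 h + il 1 h / il 4 h) := by po_tac

end Crest.Agent.R288.Asy720
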