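import Crest.Agent.R288.AsyA_720
import Crest.Agent.R288.FrontT_327

/-!
# R288, leaf [ASY] part B (helper720): the scales `slk`, thresholds, and the precision `ε` under `Mode2`
-/

set_option autoImplicit false

namespace Crest.Agent.R288.Asy720

open Filter Crest.GraphRAM
open Crest.Agent.R288.Front327 Crest.Agent.R288.Top791

theorem slk_eq (k L : ℕ) : slk k L = il k (Nat.clog 2 L) := rfl

/-- extraction of a threshold, statement in terms of the scales `slk k L` -/
theorem exists_threshold_slk {P : (ℕ → ℕ) → Prop} (hP : ∀ᶠ h : ℕ in atTop, P (fun k => il k h)) :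
    ∃ j₀ : ℕ, ∀ L : ℕ, 2 ^ j₀ ≤ L → P (fun k => slk k L) :=
  exists_threshold hP

theorem lt_two_pow_bits (n : ℕ) : n < 2 ^ n.bits.length := by
  have h := Nat.lt_size_self n
  rwa [← Nat.size_eq_bits_len] at h

theorem ratWords_length' (q : ℚ) :
    (ratWords q).length = q.num.natAbs.bits.length + (q.den.bits.length + 1) := by
  unfold ratWords
  simp

/-- numerator and denominator from the length of the `ε`-word -/
theorem den_lt (q : ℚ) : q.den < 2 ^ (ratWords q).length := by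
  refine (lt_two_pow_bits q.den).trans_le (Nat.pow_le_pow_right (by norm_num) ?_)
  rw [ratWords_length']
  omega

theorem num_lt (q : ℚ) : q.num.natAbs < 2 ^ (ratWords q).length := by
  refine (lt_two_pow_bits q.num.natAbs).trans_le (Nat.pow_le_pow_right (by norm_num) ?_)
  rw [ratWords_length']
  omega

theorem one_le_mul_den {ε : ℚ} (h0 : 0 < ε) : 1 ≤ ε * ε.den := by
  have h1 : ε * ε.den = ε.num := Rat.mul_den_eq_num ε
  rw [h1]
  exact_mod_cast Rat.num_pos.2 h0

theorem inv_den_le {ε : ℚ} (h0 : 0 < ε) : 1 / (ε.den : ℚ) ≤ ε := by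
  have hd : (0 : ℚ) < ε.den := by exact_mod_cast ε.den_pos
  rw [div_le_iff₀ hd]
  exact one_le_mul_den h0

theorem inv_den_le_real {ε : ℚ} (h0 : 0 < ε) : 1 / (ε.den : ℝ) ≤ (ε : ℝ) := by
  have h := inv_den_le h0
  have h2 : (((1 / (ε.den : ℚ) : ℚ)) : ℝ) ≤ ((ε : ℚ) : ℝ) := Rat.cast_le.2 h
  simpa using h2

/-- `1 / ε ≤ den ε < 2 ^ slk km L` in mode 2 -/
theorem mode2_den_le {km : ℕ} {x y : List ℕ} {ε : ℚ} (hm : Mode2 km x y ε) :
    ε.den ≤ 2 ^ slk km (inp x y ε).length :=
  (den_lt ε).le.trans (Nat.pow_le_pow_right (by norm_num) hm.short)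

/-- **uniform version**: any family of inequalities in the scales and in `e ≤ 2 ^ il km h` -/
theorem exists_threshold_prec {km : ℕ} {P : ℕ → ℕ → Prop}
    (hP : ∀ᶠ h : ℕ in atTop, ∀ e ≤ 2 ^ il km h, P h e) :
    ∃ j₀ : ℕ, ∀ (x y : List ℕ) (ε : ℚ), Mode2 km x y ε → 2 ^ j₀ ≤ (inp x y ε).length →
      P (Nat.clog 2 (inp x y ε).length) ε.den := by
  obtain ⟨j₀, hj⟩ := exists_threshold hP
  exact ⟨j₀, fun x y ε hm hL => hj _ hL _ (mode2_den_le hm)⟩

end Crest.Agent.R288.Asy720
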