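import Mathlib.Analysis.SpecialFunctions.Log.Basic
import Mathlib.Analysis.SpecialFunctions.Exp
import Mathlib.Analysis.Convex.SpecificFunctions.Basic
import Mathlib.Analysis.MeanInequalities
import Mathlib.Tactic

/-!
Row 288 (RAM), leaf [Avg] (helper453): pure error propagation for fixed point tables.

* `fx F n = n / 2^F` value of an integer with `F` binary digits;
* floor averages `avgI`, `avg_err`, `div_err`, `sum_div_err`;
* `Near δ f g`, `NonExp Φ` (sup norm), topical maps (`nonExp_of_mono_shift`), max / min / sup' / inf' /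
  convex combinations / `lse` / truncation at `-B` are nonexpansive;
* `iter_err` (H levels), `two_index` (tier / height recursion);
* `lse`: monotone, shift, bounds, convexity (`lse_convex`), variational inequality, kernel `ker`;
* shifted natural numbers `enc`/`dec` with offset `O`: exact rules for average, sum, difference, max, min,
  truncation and size bounds.
-/

set_option autoImplicit false

namespace Crest.Agent.R288.Avg453

open Finset

/-! ### 1. Fixed point values, floor averages -/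

/-- value of the integer `n` with `F` binary digits after the point -/
noncomputable def fx (F : ℕ) (n : ℤ) : ℝ := (n : ℝ) / 2 ^ F

theorem fx_add (F : ℕ) (a b : ℤ) : fx F (a + b) = fx F a + fx F b := by
  unfold fx; push_cast; ring

theorem fx_sub (F : ℕ) (a b : ℤ) : fx F (a - b) = fx F a - fx F b := by
  unfold fx; push_cast; ring

theorem fx_neg (F : ℕ) (a : ℤ) : fx F (-a) = - fx F a := by
  unfold fx; push_cast; ring

theorem fx_zero (F : ℕ) : fx F 0 = 0 := by simp [fx]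

theorem fx_mul_pow (F : ℕ) (a : ℤ) : fx F (a * 2 ^ F) = a := by
  unfold fx; push_cast; field_simp

theorem fx_mono (F : ℕ) {a b : ℤ} (h : a ≤ b) : fx F a ≤ fx F b := by
  unfold fx
  have : (a : ℝ) ≤ b := by exact_mod_cast h
  gcongr

theorem fx_le_iff (F : ℕ) {a b : ℤ} : fx F a ≤ fx F b ↔ a ≤ b := by
  unfold fx
  rw [div_le_div_iff_of_pos_right (by positivity)]
  exact_mod_cast Iff.rfl

theorem fx_max (F : ℕ) (a b : ℤ) : fx F (max a b) = max (fx F a) (fx F b) := by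
  rcases le_total a b with h | h
  · rw [max_eq_right h, max_eq_right (fx_mono F h)]
  · rw [max_eq_left h, max_eq_left (fx_mono F h)]

theorem fx_min (F : ℕ) (a b : ℤ) : fx F (min a b) = min (fx F a) (fx F b) := by
  rcases le_total a b with h | h
  · rw [min_eq_left h, min_eq_left (fx_mono F h)]
  · rw [min_eq_right h, min_eq_right (fx_mono F h)]

/-- floor of a real scaled by `2^F` is within `2^-F` from below. -/
theorem fx_floor (F : ℕ) (x : ℝ) : fx F ⌊x * 2 ^ F⌋ ≤ x ∧ x - 1 / 2 ^ F < fx F ⌊x * 2 ^ F⌋ := by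
  unfold fx
  have h1 := Int.floor_le (x * 2 ^ F)
  have h2 := Int.lt_floor_add_one (x * 2 ^ F)
  have hp : (0 : ℝ) < 2 ^ F := by positivity
  constructor
  · rw [div_le_iff₀ hp]; exact h1
  · rw [lt_div_iff₀ hp, sub_mul, one_div, inv_mul_cancel₀ hp.ne']; linarith

theorem fx_floor_abs (F : ℕ) (x : ℝ) : |fx F ⌊x * 2 ^ F⌋ - x| ≤ 1 / 2 ^ F := by
  have h := fx_floor F x
  rw [abs_le]; constructor <;> linarith [h.1, h.2, show (0:ℝ) ≤ 1 / 2 ^ F by positivity]

/-- integer floor division against real division -/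
theorem div_le_real (S : ℤ) {M : ℤ} (hM : 0 < M) : ((S / M : ℤ) : ℝ) ≤ (S : ℝ) / M := by
  have hM' : (0 : ℝ) < M := by exact_mod_cast hM
  rw [le_div_iff₀ hM']
  exact_mod_cast Int.ediv_mul_le S hM.ne'

theorem real_lt_div_add_one (S : ℤ) {M : ℤ} (hM : 0 < M) : (S : ℝ) / M < ((S / M : ℤ) : ℝ) + 1 := by
  have hM' : (0 : ℝ) < M := by exact_mod_cast hM
  rw [div_lt_iff₀ hM']
  exact_mod_cast Int.lt_ediv_add_one_mul_self S hM

theorem div_err (S : ℤ) {M : ℤ} (hM : 0 < M) : |((S / M : ℤ) : ℝ) - (S : ℝ) / M| ≤ 1 := by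
  have h1 := div_le_real S hM
  have h2 := real_lt_div_add_one S hM
  rw [abs_le]; constructor <;> linarith

/-- the same for the fixed point values: dividing a fixed point number by `M` with floor. -/
theorem fx_div_err (F : ℕ) (S : ℤ) {M : ℤ} (hM : 0 < M) : |fx F (S / M) - fx F S / M| ≤ 1 / 2 ^ F := by
  have h := div_err S hM
  have hp : (0 : ℝ) < 2 ^ F := by positivity
  have e : fx F (S / M) - fx F S / M = (((S / M : ℤ) : ℝ) - (S : ℝ) / M) / 2 ^ F := by
    unfold fx; ring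
  rw [e, abs_div, abs_of_pos hp]
  gcongr

/-- average of `M` integers with floor -/
def avgI (M : ℕ) (f : ℕ → ℤ) : ℤ := (∑ i ∈ range M, f i) / (M : ℤ)

/-- average with floor over a finset -/
def avgF {ι : Type*} (s : Finset ι) (f : ι → ℤ) : ℤ := (∑ i ∈ s, f i) / (s.card : ℤ)

theorem avgI_eq_avgF (M : ℕ) (f : ℕ → ℤ) : avgI M f = avgF (range M) f := by
  simp [avgI, avgF]

theorem avgF_err {ι : Type*} (F : ℕ) {s : Finset ι} (hs : s.Nonempty) (f : ι → ℤ) (x : ι → ℝ) (δ : ℝ)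
    (h : ∀ i ∈ s, |fx F (f i) - x i| ≤ δ) :
    |fx F (avgF s f) - (∑ i ∈ s, x i) / s.card| ≤ δ + 1 / 2 ^ F := by
  have hc : (0 : ℤ) < s.card := by exact_mod_cast hs.card_pos
  have hc' : (0 : ℝ) < s.card := by exact_mod_cast hs.card_pos
  have h1 := fx_div_err F (∑ i ∈ s, f i) hc
  have e : fx F (∑ i ∈ s, f i) = ∑ i ∈ s, fx F (f i) := by
    unfold fx; push_cast; rw [Finset.sum_div]
  have h2 : |(∑ i ∈ s, fx F (f i)) / s.card - (∑ i ∈ s, x i) / s.card| ≤ δ := by
    rw [← sub_div, ← Finset.sum_sub_distrib, abs_div, abs_of_pos hc', div_le_iff₀ hc']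
    calc |∑ i ∈ s, (fx F (f i) - x i)| ≤ ∑ i ∈ s, |fx F (f i) - x i| := Finset.abs_sum_le_sum_abs _ _
      _ ≤ ∑ _i ∈ s, δ := Finset.sum_le_sum h
      _ = δ * s.card := by rw [Finset.sum_const, nsmul_eq_mul]; ring
  rw [e] at h1
  have e2 : ((s.card : ℤ) : ℝ) = (s.card : ℝ) := by push_cast; rfl
  rw [e2] at h1
  unfold avgF
  calc |fx F ((∑ i ∈ s, f i) / (s.card : ℤ)) - (∑ i ∈ s, x i) / s.card|
      ≤ |fx F ((∑ i ∈ s, f i) / (s.card : ℤ)) - (∑ i ∈ s, fx F (f i)) / s.card| +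
        |(∑ i ∈ s, fx F (f i)) / s.card - (∑ i ∈ s, x i) / s.card| := abs_sub_le _ _ _
    _ ≤ 1 / 2 ^ F + δ := add_le_add h1 h2
    _ = δ + 1 / 2 ^ F := by ring

/-- **average of tables with floor: error `≤ δ + 2^-F`** -/
theorem avg_err (F : ℕ) {M : ℕ} (hM : 0 < M) (f : ℕ → ℤ) (x : ℕ → ℝ) (δ : ℝ)
    (h : ∀ i < M, |fx F (f i) - x i| ≤ δ) :
    |fx F (avgI M f) - (∑ i ∈ range M, x i) / M| ≤ δ + 1 / 2 ^ F := by
  have h1 := avgF_err F (s := range M) ⟨0, by simpa using hM⟩ f x δ (fun i hi => h i (by simpa using hi))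
  rw [← avgI_eq_avgF] at h1
  simpa using h1

/-- exact one sided form: the floor average is below the real average and above it minus `2^-F`. -/
theorem avgI_bounds (F : ℕ) {M : ℕ} (hM : 0 < M) (f : ℕ → ℤ) :
    fx F (avgI M f) ≤ (∑ i ∈ range M, fx F (f i)) / M ∧
    (∑ i ∈ range M, fx F (f i)) / M - 1 / 2 ^ F < fx F (avgI M f) := by
  have hM' : (0 : ℤ) < M := by exact_mod_cast hM
  have hp : (0 : ℝ) < 2 ^ F := by positivity
  have a := div_le_real (∑ i ∈ range M, f i) hM'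
  have b := real_lt_div_add_one (∑ i ∈ range M, f i) hM'
  have e : (∑ i ∈ range M, fx F (f i)) / (M : ℝ) = (((∑ i ∈ range M, f i : ℤ) : ℝ) / ((M : ℤ) : ℝ)) / 2 ^ F := by
    unfold fx
    rw [← Finset.sum_div]
    push_cast
    ring
  rw [e]
  unfold avgI fx
  constructor
  · gcongr
  · rw [← sub_div]
    gcongr
    linarith

theorem avgI_mono {M : ℕ} {f g : ℕ → ℤ} (h : ∀ i < M, f i ≤ g i) : avgI M f ≤ avgI M g := by
  unfold avgI
  rcases Nat.eq_zero_or_pos M with h0 | h0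
  · subst h0; simp
  · exact Int.ediv_le_ediv (by exact_mod_cast h0) (Finset.sum_le_sum (fun i hi => h i (by simpa using hi)))

theorem avgI_le {M : ℕ} (hM : 0 < M) {f : ℕ → ℤ} {c : ℤ} (h : ∀ i < M, f i ≤ c) : avgI M f ≤ c := by
  have hM' : (0 : ℤ) < M := by exact_mod_cast hM
  unfold avgI
  apply Int.ediv_le_of_le_mul hM'
  calc ∑ i ∈ range M, f i ≤ ∑ _i ∈ range M, c := Finset.sum_le_sum (fun i hi => h i (by simpa using hi))
    _ = c * M := by simp [mul_comm]

theorem le_avgI {M : ℕ} (hM : 0 < M) {f : ℕ → ℤ} {c : ℤ} (h : ∀ i < M, c ≤ f i) : c ≤ avgI M f := by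
  have hM' : (0 : ℤ) < M := by exact_mod_cast hM
  unfold avgI
  rw [Int.le_ediv_iff_mul_le hM']
  calc c * M = ∑ _i ∈ range M, c := by simp [mul_comm]
    _ ≤ ∑ i ∈ range M, f i := Finset.sum_le_sum (fun i hi => h i (by simpa using hi))

theorem avgI_abs_le {M : ℕ} (hM : 0 < M) {f : ℕ → ℤ} {c : ℤ} (h : ∀ i < M, |f i| ≤ c) : |avgI M f| ≤ c := by
  rw [abs_le]
  exact ⟨le_avgI hM fun i hi => (abs_le.1 (h i hi)).1, avgI_le hM fun i hi => (abs_le.1 (h i hi)).2⟩

/-! ### 2. Sup norm closeness and nonexpansive operators -/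

/-- `f` and `g` differ by at most `δ` everywhere -/
def Near {κ : Type*} (δ : ℝ) (f g : κ → ℝ) : Prop := ∀ k, |f k - g k| ≤ δ

namespace Near
variable {κ κ' ι : Type*} {δ ε : ℝ} {f g h f' g' : κ → ℝ}

theorem refl (f : κ → ℝ) {δ : ℝ} (hδ : 0 ≤ δ) : Near δ f f := fun k => by simpa using hδ

theorem symm (H : Near δ f g) : Near δ g f := fun k => by rw [abs_sub_comm]; exact H k

theorem trans (H : Near δ f g) (H' : Near ε g h) : Near (δ + ε) f h := fun k =>
  (abs_sub_le _ (g k) _).trans (add_le_add (H k) (H' k))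

theorem mono (H : Near δ f g) (hδ : δ ≤ ε) : Near ε f g := fun k => (H k).trans hδ

theorem add (H : Near δ f g) (H' : Near ε f' g') : Near (δ + ε) (f + f') (g + g') := fun k => by
  have : (f + f') k - (g + g') k = (f k - g k) + (f' k - g' k) := by simp; ring
  rw [this]; exact (abs_add_le _ _).trans (add_le_add (H k) (H' k))

theorem sub (H : Near δ f g) (H' : Near ε f' g') : Near (δ + ε) (f - f') (g - g') := fun k => by
  have : (f - f') k - (g - g') k = (f k - g k) - (f' k - g' k) := by simp; ring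
  rw [this]; exact (abs_sub _ _).trans (add_le_add (H k) (H' k))

theorem comp (H : Near δ f g) (r : κ' → κ) : Near δ (f ∘ r) (g ∘ r) := fun k => H (r k)

theorem le (H : Near δ f g) (k : κ) : f k ≤ g k + δ := by have := (abs_le.1 (H k)).2; linarith

theorem ge (H : Near δ f g) (k : κ) : g k - δ ≤ f k := by have := (abs_le.1 (H k)).1; linarith

theorem iff_le : Near δ f g ↔ (∀ k, f k ≤ g k + δ) ∧ (∀ k, g k ≤ f k + δ) := by
  constructor
  · intro H; exact ⟨H.le, H.symm.le⟩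
  · rintro ⟨a, b⟩ k
    rw [abs_le]; constructor <;> linarith [a k, b k]

theorem smul (H : Near δ f g) (c : ℝ) : Near (|c| * δ) (fun k => c * f k) (fun k => c * g k) := fun k => by
  have e : c * f k - c * g k = c * (f k - g k) := by ring
  rw [e, abs_mul]; exact mul_le_mul_of_nonneg_left (H k) (abs_nonneg c)

end Near

/-- nonexpansive in the sup norm -/
def NonExp {κ κ' : Type*} (Φ : (κ → ℝ) → (κ' → ℝ)) : Prop :=
  ∀ (f g : κ → ℝ) (δ : ℝ), 0 ≤ δ → Near δ f g → Near δ (Φ f) (Φ g)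

/-- a scalar nonexpansive functional -/
def NonExp1 {κ : Type*} (φ : (κ → ℝ) → ℝ) : Prop :=
  ∀ (f g : κ → ℝ) (δ : ℝ), 0 ≤ δ → Near δ f g → |φ f - φ g| ≤ δ

theorem nonExp_iff {κ κ' : Type*} (Φ : (κ → ℝ) → (κ' → ℝ)) : NonExp Φ ↔ ∀ k, NonExp1 (fun f => Φ f k) :=
  ⟨fun h k f g δ hδ H => h f g δ hδ H k, fun h f g δ hδ H k => h k f g δ hδ H⟩

/-- **topical maps**: monotone and `φ (f + c) ≤ φ f + c` for `c ≥ 0` implies nonexpansive. -/
theorem nonExp1_of_mono_shift {κ : Type*} (φ : (κ → ℝ) → ℝ) (hm : ∀ f g, (∀ k, f k ≤ g k) → φ f ≤ φ g)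
    (hs : ∀ f (c : ℝ), 0 ≤ c → φ (fun k => f k + c) ≤ φ f + c) : NonExp1 φ := by
  intro f g δ hδ H
  rw [abs_le]
  have h1 : φ f ≤ φ g + δ := (hm f _ H.le).trans (hs g δ hδ)
  have h2 : φ g ≤ φ f + δ := (hm g _ H.symm.le).trans (hs f δ hδ)
  constructor <;> linarith

theorem NonExp.comp {κ κ' κ'' : Type*} {Φ : (κ' → ℝ) → (κ'' → ℝ)} {Ψ : (κ → ℝ) → (κ' → ℝ)}
    (h : NonExp Φ) (h' : NonExp Ψ) : NonExp (Φ ∘ Ψ) := fun f g δ hδ H => h _ _ δ hδ (h' f g δ hδ H)

theorem NonExp1.comp {κ κ' : Type*} {φ : (κ' → ℝ) → ℝ} {Ψ : (κ → ℝ) → (κ' → ℝ)}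
    (h : NonExp1 φ) (h' : NonExp Ψ) : NonExp1 (φ ∘ Ψ) := fun f g δ hδ H => h _ _ δ hδ (h' f g δ hδ H)

theorem nonExp_id {κ : Type*} : NonExp (id : (κ → ℝ) → (κ → ℝ)) := fun _ _ _ _ H => H

theorem nonExp_reindex {κ κ' : Type*} (r : κ' → κ) : NonExp (fun f : κ → ℝ => f ∘ r) :=
  fun _ _ _ _ H => H.comp r

theorem nonExp_const {κ κ' : Type*} (c : κ' → ℝ) : NonExp (fun _ : κ → ℝ => c) :=
  fun _ _ _ hδ _ => Near.refl c hδ

theorem nonExp_add_const {κ κ' : Type*} {Φ : (κ → ℝ) → (κ' → ℝ)} (h : NonExp Φ) (c : κ' → ℝ) :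
    NonExp (fun f => Φ f + c) := fun f g δ hδ H k => by
  have := h f g δ hδ H k
  simpa using this

theorem nonExp_max {κ κ' : Type*} {Φ Ψ : (κ → ℝ) → (κ' → ℝ)} (h : NonExp Φ) (h' : NonExp Ψ) :
    NonExp (fun f k => max (Φ f k) (Ψ f k)) := fun f g δ hδ H k =>
  (abs_max_sub_max_le_max _ _ _ _).trans (max_le (h f g δ hδ H k) (h' f g δ hδ H k))

theorem nonExp_min {κ κ' : Type*} {Φ Ψ : (κ → ℝ) → (κ' → ℝ)} (h : NonExp Φ) (h' : NonExp Ψ) :
    NonExp (fun f k => min (Φ f k) (Ψ f k)) := fun f g δ hδ H k =>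
  (abs_min_sub_min_le_max _ _ _ _).trans (max_le (h f g δ hδ H k) (h' f g δ hδ H k))

/-- truncation at `-B` -/
theorem nonExp_trunc {κ κ' : Type*} {Φ : (κ → ℝ) → (κ' → ℝ)} (h : NonExp Φ) (B : ℝ) :
    NonExp (fun f k => max (-B) (Φ f k)) := nonExp_max (nonExp_const (fun _ => -B)) h

theorem trunc_lip (B a b : ℝ) : |max (-B) a - max (-B) b| ≤ |a - b| := by
  have := abs_max_sub_max_le_max (-B) a (-B) b
  simpa using this

theorem fx_trunc (F : ℕ) (B n : ℤ) : fx F (max (-(B * 2 ^ F)) n) = max (-(B : ℝ)) (fx F n) := by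
  rw [fx_max, fx_neg, fx_mul_pow]

theorem nonExp1_sup' {κ : Type*} {s : Finset κ} (hs : s.Nonempty) :
    NonExp1 (fun f : κ → ℝ => s.sup' hs f) := by
  apply nonExp1_of_mono_shift
  · intro f g h
    exact Finset.sup'_le hs f (fun k hk => (h k).trans (Finset.le_sup' g hk))
  · intro f c _
    exact Finset.sup'_le hs _ (fun k hk => by
      have := Finset.le_sup' f hk; linarith)

theorem nonExp1_inf' {κ : Type*} {s : Finset κ} (hs : s.Nonempty) :
    NonExp1 (fun f : κ → ℝ => s.inf' hs f) := by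
  intro f g δ hδ H
  rw [abs_le]
  have h1 : s.inf' hs f - δ ≤ s.inf' hs g := Finset.le_inf' hs g (fun k hk => by
    have := Finset.inf'_le f hk; have := H.le k; linarith)
  have h2 : s.inf' hs g - δ ≤ s.inf' hs f := Finset.le_inf' hs f (fun k hk => by
    have := Finset.inf'_le g hk; have := H.symm.le k; linarith)
  constructor <;> linarith

/-- sub-convex combinations -/
theorem nonExp1_sum {κ ι : Type*} (s : Finset ι) (p : ι → ℝ) (hp : ∀ i ∈ s, 0 ≤ p i) (hp1 : ∑ i ∈ s, p i ≤ 1)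
    (φ : ι → (κ → ℝ) → ℝ) (h : ∀ i ∈ s, NonExp1 (φ i)) : NonExp1 (fun f => ∑ i ∈ s, p i * φ i f) := by
  intro f g δ hδ H
  rw [← Finset.sum_sub_distrib]
  calc |∑ i ∈ s, (p i * φ i f - p i * φ i g)| ≤ ∑ i ∈ s, |p i * φ i f - p i * φ i g| :=
        Finset.abs_sum_le_sum_abs _ _
    _ ≤ ∑ i ∈ s, p i * δ := by
        apply Finset.sum_le_sum
        intro i hi
        rw [← mul_sub, abs_mul, abs_of_nonneg (hp i hi)]
        exact mul_le_mul_of_nonneg_left (h i hi f g δ hδ H) (hp i hi)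
    _ = (∑ i ∈ s, p i) * δ := by rw [Finset.sum_mul]
    _ ≤ 1 * δ := mul_le_mul_of_nonneg_right hp1 hδ
    _ = δ := one_mul _

theorem nonExp1_avg {κ : Type*} (M : ℕ) (φ : ℕ → (κ → ℝ) → ℝ) (h : ∀ i < M, NonExp1 (φ i)) :
    NonExp1 (fun f => (∑ i ∈ range M, φ i f) / M) := by
  have := nonExp1_sum (κ := κ) (range M) (fun _ => (1 : ℝ) / M) (fun _ _ => by positivity)
    (by simp only [Finset.sum_const, Finset.card_range, nsmul_eq_mul]
        rcases Nat.eq_zero_or_pos M with h0 | h0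
        · subst h0; simp
        · have : (0 : ℝ) < M := by exact_mod_cast h0
          rw [mul_one_div_cancel this.ne']) φ (fun i hi => h i (by simpa using hi))
  have e : (fun f : κ → ℝ => (∑ i ∈ range M, φ i f) / M) = fun f => ∑ i ∈ range M, (1 : ℝ) / M * φ i f := by
    funext f; rw [← Finset.mul_sum]; ring
  rw [e]; exact this

/-- **H levels**: operators `Φ h` nonexpansive, computed operators `Φ' h` with error `δ h` on the tables that
occur; the errors add up. -/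
theorem iter_err {κ : ℕ → Type*} (Φ Φ' : ∀ h, (κ h → ℝ) → (κ (h + 1) → ℝ)) (hΦ : ∀ h, NonExp (Φ h))
    (δ : ℕ → ℝ) (hδ : ∀ h, 0 ≤ δ h) (P : ∀ h, (κ h → ℝ) → Prop)
    (happ : ∀ h t, P h t → Near (δ h) (Φ' h t) (Φ h t))
    (X X' : ∀ h, κ h → ℝ) (hX : ∀ h, X (h + 1) = Φ h (X h)) (hX' : ∀ h, X' (h + 1) = Φ' h (X' h))
    (hP : ∀ h, P h (X' h)) (e0 : ℝ) (he0 : 0 ≤ e0) (h0 : Near e0 (X' 0) (X 0)) :
    ∀ H, Near (e0 + ∑ h ∈ range H, δ h) (X' H) (X H) := by
  intro H
  induction H with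
  | zero => simpa using h0
  | succ H ih =>
      rw [hX, hX', Finset.sum_range_succ]
      have a := happ H (X' H) (hP H)
      have b := hΦ H (X' H) (X H) _ (add_nonneg he0 (Finset.sum_nonneg fun h _ => hδ h)) ih
      have := a.trans b
      exact this.mono (by linarith)

theorem iter_err_const {κ : ℕ → Type*} (Φ Φ' : ∀ h, (κ h → ℝ) → (κ (h + 1) → ℝ)) (hΦ : ∀ h, NonExp (Φ h))
    (δ : ℝ) (hδ : 0 ≤ δ) (P : ∀ h, (κ h → ℝ) → Prop)
    (happ : ∀ h t, P h t → Near δ (Φ' h t) (Φ h t))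
    (X X' : ∀ h, κ h → ℝ) (hX : ∀ h, X (h + 1) = Φ h (X h)) (hX' : ∀ h, X' (h + 1) = Φ' h (X' h))
    (hP : ∀ h, P h (X' h)) (e0 : ℝ) (he0 : 0 ≤ e0) (h0 : Near e0 (X' 0) (X 0)) (H : ℕ) :
    Near (e0 + H * δ) (X' H) (X H) := by
  have := iter_err Φ Φ' hΦ (fun _ => δ) (fun _ => hδ) P happ X X' hX hX' hP e0 he0 h0 H
  simpa using this

/-- **tier / height recursion**: `e (i+1) (h+1) ≤ max (e i (h+1)) (e (i+1) h) + δ`, boundary values
`e 0 h ≤ e0 + h δ`, `e i 0 ≤ e0 + i δ`: then `e i h ≤ e0 + (i + h) δ`. -/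
theorem two_index (e : ℕ → ℕ → ℝ) (e0 δ : ℝ) (h1 : ∀ h, e 0 h ≤ e0 + h * δ) (h2 : ∀ i, e i 0 ≤ e0 + i * δ)
    (h3 : ∀ i h, e (i + 1) (h + 1) ≤ max (e i (h + 1)) (e (i + 1) h) + δ) :
    ∀ i h, e i h ≤ e0 + (i + h) * δ := by
  intro i
  induction i with
  | zero => intro h; simpa using h1 h
  | succ i ih =>
      intro h
      induction h with
      | zero => simpa using h2 (i + 1)
      | succ h ihh =>
          refine (h3 i h).trans ?_
          have a := ih (h + 1)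
          push_cast at a ihh ⊢
          have : max (e i (h + 1)) (e (i + 1) h) ≤ e0 + (i + h + 1) * δ :=
            max_le (a.trans (le_of_eq (by ring))) (ihh.trans (le_of_eq (by ring)))
          linarith

/-- general form of the same: an error measure on a well founded call graph with rank function `rk`,
each call adds `δ`. -/
theorem rank_err {γ : Type*} (rk : γ → ℕ) (e : γ → ℝ) (e0 δ : ℝ)
    (h : ∀ c, e c ≤ e0 + rk c * δ ∨ ∃ c', rk c' < rk c ∧ e c ≤ e c' + δ) (hδ : 0 ≤ δ) :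
    ∀ c, e c ≤ e0 + rk c * δ := by
  intro c
  induction hn : rk c using Nat.strong_induction_on generalizing c with
  | _ n ih =>
      subst hn
      rcases h c with h1 | ⟨c', hlt, hc⟩
      · exact h1
      · have a := ih (rk c') hlt c' rfl
        have b : (rk c' : ℝ) + 1 ≤ rk c := by exact_mod_cast hlt
        nlinarith [mul_le_mul_of_nonneg_right b hδ]

/-! ### 3. LSE -/

/-- `log Σ p_z exp x_z` -/
noncomputable def lse {ι : Type*} (s : Finset ι) (p x : ι → ℝ) : ℝ := Real.log (∑ z ∈ s, p z * Real.exp (x z))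

section LSE
variable {ι : Type*} {s : Finset ι} {p x y : ι → ℝ}

/-- the standing hypothesis: nonnegative weights with positive total mass -/
def Wt (s : Finset ι) (p : ι → ℝ) : Prop := (∀ z ∈ s, 0 ≤ p z) ∧ ∃ z ∈ s, 0 < p z

theorem Wt.pos (hp : Wt s p) (x : ι → ℝ) : 0 < ∑ z ∈ s, p z * Real.exp (x z) := by
  obtain ⟨z, hz, hpz⟩ := hp.2
  exact Finset.sum_pos' (fun w hw => mul_nonneg (hp.1 w hw) (Real.exp_pos _).le)
    ⟨z, hz, mul_pos hpz (Real.exp_pos _)⟩

theorem wt_of_sum_one (h0 : ∀ z ∈ s, 0 ≤ p z) (h1 : ∑ z ∈ s, p z = 1) : Wt s p := by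
  refine ⟨h0, ?_⟩
  by_contra hc
  push Not at hc
  have : ∑ z ∈ s, p z ≤ 0 := Finset.sum_nonpos hc
  linarith

theorem exp_lse (hp : Wt s p) (x : ι → ℝ) : Real.exp (lse s p x) = ∑ z ∈ s, p z * Real.exp (x z) :=
  Real.exp_log (hp.pos x)

theorem lse_mono (hp : Wt s p) (h : ∀ z ∈ s, x z ≤ y z) : lse s p x ≤ lse s p y :=
  Real.log_le_log (hp.pos x) (Finset.sum_le_sum fun z hz =>
    mul_le_mul_of_nonneg_left (Real.exp_le_exp.2 (h z hz)) (hp.1 z hz))

theorem lse_add_const (hp : Wt s p) (x : ι → ℝ) (c : ℝ) : lse s p (fun z => x z + c) = lse s p x + c := by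
  have e : ∑ z ∈ s, p z * Real.exp (x z + c) = (∑ z ∈ s, p z * Real.exp (x z)) * Real.exp c := by
    rw [Finset.sum_mul]; exact Finset.sum_congr rfl fun z _ => by rw [Real.exp_add]; ring
  unfold lse
  rw [e, Real.log_mul (hp.pos x).ne' (Real.exp_pos c).ne', Real.log_exp]

/-- LSE is 1-Lipschitz in the sup norm -/
theorem nonExp1_lse (hp : Wt s p) : NonExp1 (lse s p) :=
  nonExp1_of_mono_shift _ (fun _ _ h => lse_mono hp fun z _ => h z) (fun f c _ => (lse_add_const hp f c).le)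

theorem lse_lip (hp : Wt s p) {δ : ℝ} (h : ∀ z ∈ s, |x z - y z| ≤ δ) : |lse s p x - lse s p y| ≤ δ := by
  rw [abs_le]
  have a : lse s p x ≤ lse s p (fun z => y z + δ) := lse_mono hp fun z hz => by
    have := (abs_le.1 (h z hz)).2; linarith
  have b : lse s p y ≤ lse s p (fun z => x z + δ) := lse_mono hp fun z hz => by
    have := (abs_le.1 (h z hz)).1; linarith
  rw [lse_add_const hp] at a b
  constructor <;> linarith

/-- relative error of the computed sum `S` gives an additive error of the LSE -/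
theorem log_rel {S S' δ : ℝ} (hS : 0 < S) (h1 : S * Real.exp (-δ) ≤ S') (h2 : S' ≤ S * Real.exp δ) :
    |Real.log S' - Real.log S| ≤ δ := by
  have hS' : 0 < S' := lt_of_lt_of_le (mul_pos hS (Real.exp_pos _)) h1
  have a := Real.log_le_log (mul_pos hS (Real.exp_pos _)) h1
  have b := Real.log_le_log hS' h2
  rw [Real.log_mul hS.ne' (Real.exp_pos _).ne', Real.log_exp] at a b
  rw [abs_le]; constructor <;> linarith

theorem le_lse (hp : Wt s p) {z : ι} (hz : z ∈ s) (hpz : 0 < p z) : Real.log (p z) + x z ≤ lse s p x := by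
  have h : p z * Real.exp (x z) ≤ ∑ z ∈ s, p z * Real.exp (x z) :=
    Finset.single_le_sum (f := fun z => p z * Real.exp (x z))
      (fun w hw => mul_nonneg (hp.1 w hw) (Real.exp_pos _).le) hz
  have := Real.log_le_log (mul_pos hpz (Real.exp_pos _)) h
  rwa [Real.log_mul hpz.ne' (Real.exp_pos _).ne', Real.log_exp] at this

theorem lse_le (hp : Wt s p) (h1 : ∑ z ∈ s, p z ≤ 1) {c : ℝ} (h : ∀ z ∈ s, x z ≤ c) : lse s p x ≤ c := by
  have : ∑ z ∈ s, p z * Real.exp (x z) ≤ Real.exp c := by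
    calc ∑ z ∈ s, p z * Real.exp (x z) ≤ ∑ z ∈ s, p z * Real.exp c := Finset.sum_le_sum fun z hz =>
          mul_le_mul_of_nonneg_left (Real.exp_le_exp.2 (h z hz)) (hp.1 z hz)
      _ = (∑ z ∈ s, p z) * Real.exp c := by rw [Finset.sum_mul]
      _ ≤ 1 * Real.exp c := mul_le_mul_of_nonneg_right h1 (Real.exp_pos _).le
      _ = Real.exp c := one_mul _
  have h2 := Real.log_le_log (hp.pos x) this
  rwa [Real.log_exp] at h2

theorem le_lse_const (hp : Wt s p) (h1 : 1 ≤ ∑ z ∈ s, p z) {c : ℝ} (h : ∀ z ∈ s, c ≤ x z) : c ≤ lse s p x := by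
  have : Real.exp c ≤ ∑ z ∈ s, p z * Real.exp (x z) := by
    calc Real.exp c = 1 * Real.exp c := (one_mul _).symm
      _ ≤ (∑ z ∈ s, p z) * Real.exp c := mul_le_mul_of_nonneg_right h1 (Real.exp_pos _).le
      _ = ∑ z ∈ s, p z * Real.exp c := by rw [Finset.sum_mul]
      _ ≤ ∑ z ∈ s, p z * Real.exp (x z) := Finset.sum_le_sum fun z hz =>
          mul_le_mul_of_nonneg_left (Real.exp_le_exp.2 (h z hz)) (hp.1 z hz)
  have h2 := Real.log_le_log (Real.exp_pos _) this
  rwa [Real.log_exp] at h2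

theorem lse_const (hp : Wt s p) (h1 : ∑ z ∈ s, p z = 1) (c : ℝ) : lse s p (fun _ => c) = c :=
  le_antisymm (lse_le hp h1.le fun _ _ => le_rfl) (le_lse_const hp h1.ge fun _ _ => le_rfl)

/-- the Gibbs kernel -/
noncomputable def ker (s : Finset ι) (p x : ι → ℝ) (z : ι) : ℝ := p z * Real.exp (x z - lse s p x)

theorem ker_nonneg (hp : Wt s p) {z : ι} (hz : z ∈ s) : 0 ≤ ker s p x z :=
  mul_nonneg (hp.1 z hz) (Real.exp_pos _).le

theorem sum_ker_mul (s : Finset ι) (p x u : ι → ℝ) :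
    ∑ z ∈ s, ker s p x z * u z = (∑ z ∈ s, p z * Real.exp (x z) * u z) * Real.exp (-lse s p x) := by
  rw [Finset.sum_mul]
  exact Finset.sum_congr rfl fun z _ => by unfold ker; rw [Real.exp_sub, Real.exp_neg]; field_simp

theorem sum_ker (hp : Wt s p) (x : ι → ℝ) : ∑ z ∈ s, ker s p x z = 1 := by
  have := sum_ker_mul s p x (fun _ => 1)
  simp only [mul_one] at this
  rw [this, ← exp_lse hp, ← Real.exp_add]; simp

/-- change of exponent: `Σ ker_x e^{y-x} = e^{LSE y - LSE x}` -/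
theorem sum_ker_exp (hp : Wt s p) (x y : ι → ℝ) :
    ∑ z ∈ s, ker s p x z * Real.exp (y z - x z) = Real.exp (lse s p y - lse s p x) := by
  rw [sum_ker_mul]
  have : ∑ z ∈ s, p z * Real.exp (x z) * Real.exp (y z - x z) = Real.exp (lse s p y) := by
    rw [exp_lse hp]
    exact Finset.sum_congr rfl fun z _ => by rw [mul_assoc, ← Real.exp_add]; ring_nf
  rw [this, ← Real.exp_add]; ring_nf

/-- Jensen: `LSE y - LSE x ≥ Σ ker_x (y - x)` -/
theorem lse_sub_ge (hp : Wt s p) (x y : ι → ℝ) :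
    ∑ z ∈ s, ker s p x z * (y z - x z) ≤ lse s p y - lse s p x := by
  have h := sum_ker_exp hp x y
  have hj : Real.exp (∑ z ∈ s, ker s p x z * (y z - x z)) ≤ ∑ z ∈ s, ker s p x z * Real.exp (y z - x z) := by
    have := convexOn_exp.map_sum_le (t := s) (w := fun z => ker s p x z) (p := fun z => y z - x z)
      (fun z hz => ker_nonneg hp hz) (sum_ker hp x) (fun z _ => Set.mem_univ _)
    simpa [smul_eq_mul] using this
  rw [h] at hj
  exact Real.exp_le_exp.1 hj

/-- **LSE is convex**: the LSE of an average is at most the average of the LSE's. -/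
theorem lse_convex {κ : Type*} (hp : Wt s p) (t : Finset κ) (w : κ → ℝ) (hw : ∀ m ∈ t, 0 ≤ w m)
    (hw1 : ∑ m ∈ t, w m = 1) (X : κ → ι → ℝ) :
    lse s p (fun z => ∑ m ∈ t, w m * X m z) ≤ ∑ m ∈ t, w m * lse s p (X m) := by
  set a : ι → ℝ := fun z => ∑ m ∈ t, w m * X m z with ha
  have h : ∀ m ∈ t, w m * (∑ z ∈ s, ker s p a z * (X m z - a z)) ≤ w m * (lse s p (X m) - lse s p a) :=
    fun m hm => mul_le_mul_of_nonneg_left (lse_sub_ge hp a (X m)) (hw m hm)
  have h2 := Finset.sum_le_sum h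
  have e1 : ∑ m ∈ t, w m * (∑ z ∈ s, ker s p a z * (X m z - a z)) = 0 := by
    simp_rw [Finset.mul_sum]
    rw [Finset.sum_comm]
    apply Finset.sum_eq_zero
    intro z _
    have : ∑ m ∈ t, w m * (ker s p a z * (X m z - a z)) =
        ker s p a z * (∑ m ∈ t, w m * X m z - (∑ m ∈ t, w m) * a z) := by
      rw [Finset.sum_mul, ← Finset.sum_sub_distrib, Finset.mul_sum]
      exact Finset.sum_congr rfl fun m _ => by ring
    rw [this, hw1, ha]; ring
  have e2 : ∑ m ∈ t, w m * (lse s p (X m) - lse s p a) = ∑ m ∈ t, w m * lse s p (X m) - lse s p a := by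
    simp_rw [mul_sub]
    rw [Finset.sum_sub_distrib, ← Finset.sum_mul, hw1, one_mul]
  rw [e1, e2] at h2
  linarith

theorem lse_avg_le {M : ℕ} (hM : 0 < M) (hp : Wt s p) (X : ℕ → ι → ℝ) :
    lse s p (fun z => (∑ m ∈ range M, X m z) / M) ≤ (∑ m ∈ range M, lse s p (X m)) / M := by
  have hM' : (0 : ℝ) < M := by exact_mod_cast hM
  have h := lse_convex hp (range M) (fun _ => (1 : ℝ) / M) (fun _ _ => by positivity)
    (by simp [Finset.sum_const, hM'.ne']) X
  have e1 : (fun z => ∑ m ∈ range M, 1 / (M : ℝ) * X m z) = fun z => (∑ m ∈ range M, X m z) / M := by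
    funext z; rw [← Finset.mul_sum]; ring
  have e2 : ∑ m ∈ range M, 1 / (M : ℝ) * lse s p (X m) = (∑ m ∈ range M, lse s p (X m)) / M := by
    rw [← Finset.mul_sum]; ring
  rwa [e1, e2] at h

/-- **variational inequality**: `Σ q (x - log (q/p)) ≤ LSE x` for a probability vector `q` with `q = 0`
where `p = 0`. -/
theorem variational (hp : Wt s p) (x q : ι → ℝ) (hq : ∀ z ∈ s, 0 ≤ q z) (hq1 : ∑ z ∈ s, q z = 1)
    (hac : ∀ z ∈ s, p z = 0 → q z = 0) :
    ∑ z ∈ s, q z * (x z - Real.log (q z / p z)) ≤ lse s p x := by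
  have key : Real.exp (∑ z ∈ s, q z * (x z - Real.log (q z / p z) - lse s p x)) ≤ 1 := by
    have h1 := convexOn_exp.map_sum_le (t := s) (w := q)
      (p := fun z => x z - Real.log (q z / p z) - lse s p x) hq hq1 (fun z _ => Set.mem_univ _)
    simp only [smul_eq_mul] at h1
    refine h1.trans ?_
    calc ∑ z ∈ s, q z * Real.exp (x z - Real.log (q z / p z) - lse s p x)
        ≤ ∑ z ∈ s, ker s p x z := by
          apply Finset.sum_le_sum
          intro z hz
          rcases (hq z hz).eq_or_lt with h0 | h0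
          · rw [← h0, zero_mul]; exact ker_nonneg hp hz
          · have hpz : 0 < p z := lt_of_le_of_ne (hp.1 z hz) (fun h => h0.ne' (hac z hz h.symm))
            unfold ker
            rw [show x z - Real.log (q z / p z) - lse s p x = (x z - lse s p x) - Real.log (q z / p z) by ring,
              Real.exp_sub, Real.exp_log (div_pos h0 hpz)]
            apply le_of_eq; field_simp
      _ = 1 := sum_ker hp x
  have h2 : ∑ z ∈ s, q z * (x z - Real.log (q z / p z) - lse s p x) ≤ 0 := by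
    rw [← Real.exp_le_exp]; simpa using key
  have e : ∑ z ∈ s, q z * (x z - Real.log (q z / p z) - lse s p x) =
      ∑ z ∈ s, q z * (x z - Real.log (q z / p z)) - lse s p x := by
    simp_rw [mul_sub]
    rw [Finset.sum_sub_distrib (fun z => q z * x z - q z * Real.log (q z / p z)) (fun z => q z * lse s p x),
      ← Finset.sum_mul, hq1, one_mul]
  rw [e] at h2
  linarith

end LSE

/-! ### 4. Signed numbers as natural numbers with an offset -/

/-- encode an integer `z ≥ -O` -/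
def enc (O : ℕ) (z : ℤ) : ℕ := (z + O).toNat

/-- decode -/
def dec (O n : ℕ) : ℤ := (n : ℤ) - O

theorem enc_cast {O : ℕ} {z : ℤ} (h : -(O : ℤ) ≤ z) : ((enc O z : ℕ) : ℤ) = z + O := by
  unfold enc; rw [Int.toNat_of_nonneg (by linarith)]

@[simp] theorem dec_enc {O : ℕ} {z : ℤ} (h : -(O : ℤ) ≤ z) : dec O (enc O z) = z := by
  unfold dec; rw [enc_cast h]; ring

@[simp] theorem enc_dec (O n : ℕ) : enc O (dec O n) = n := by
  unfold enc dec; simp

theorem dec_inj {O m n : ℕ} : dec O m = dec O n ↔ m = n := by unfold dec; omega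

theorem dec_le_dec {O m n : ℕ} : dec O m ≤ dec O n ↔ m ≤ n := by unfold dec; omega

theorem neg_le_dec (O n : ℕ) : -(O : ℤ) ≤ dec O n := by unfold dec; omega

theorem enc_le {O : ℕ} {z : ℤ} {C : ℕ} (h : z ≤ C) : enc O z ≤ C + O := by
  unfold enc; omega

theorem enc_lt {O C : ℕ} {z : ℤ} (h : |z| ≤ C) (hO : C ≤ O) : enc O z ≤ 2 * O := by
  have := (abs_le.1 h).2; unfold enc; omega

/-- size: with `|z| ≤ C ≤ O` and `2 O < 2^k` the code is `< 2^k` -/
theorem enc_lt_pow {O C k : ℕ} {z : ℤ} (h : |z| ≤ C) (hO : C ≤ O) (hk : 2 * O < 2 ^ k) : enc O z < 2 ^ k :=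
  (enc_lt h hO).trans_lt hk

/-- **the average of the codes is the code of the floor average** -/
theorem dec_avg (O : ℕ) {M : ℕ} (hM : 0 < M) (n : ℕ → ℕ) :
    dec O ((∑ i ∈ range M, n i) / M) = avgI M (fun i => dec O (n i)) := by
  unfold dec avgI
  have hM' : (M : ℤ) ≠ 0 := by exact_mod_cast hM.ne'
  have e : ∑ i ∈ range M, ((n i : ℤ) - O) = ∑ i ∈ range M, (n i : ℤ) + (-(O : ℤ)) * M := by
    rw [Finset.sum_sub_distrib]; simp; ring
  rw [e, Int.add_mul_ediv_right _ _ hM']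
  push_cast
  ring

theorem dec_add {O a b : ℕ} (h : O ≤ a + b) : dec O (a + b - O) = dec O a + dec O b := by
  unfold dec; omega

theorem dec_sub {O a b : ℕ} (h : b ≤ a + O) : dec O (a + O - b) = dec O a - dec O b := by
  unfold dec; omega

theorem dec_max (O a b : ℕ) : dec O (max a b) = max (dec O a) (dec O b) := by
  unfold dec; omega

theorem dec_min (O a b : ℕ) : dec O (min a b) = min (dec O a) (dec O b) := by
  unfold dec; omega

theorem dec_trunc {O B : ℕ} (h : B ≤ O) (n : ℕ) : dec O (max (O - B) n) = max (-(B : ℤ)) (dec O n) := by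
  unfold dec; omega

theorem dec_clip {O B : ℕ} (n : ℕ) : dec O (min (O + B) n) = min (B : ℤ) (dec O n) := by
  unfold dec; omega

/-- sums of codes: size -/
theorem sum_lt_pow {M k j : ℕ} {n : ℕ → ℕ} (hn : ∀ i < M, n i < 2 ^ k) (hM : M ≤ 2 ^ j) (hM0 : 0 < M) :
    ∑ i ∈ range M, n i < 2 ^ (k + j) := by
  have h1 : ∑ i ∈ range M, n i < ∑ _i ∈ range M, 2 ^ k :=
    Finset.sum_lt_sum_of_nonempty ⟨0, by simpa using hM0⟩ (fun i hi => hn i (by simpa using hi))
  have h2 : ∑ _i ∈ range M, 2 ^ k = M * 2 ^ k := by simp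
  calc ∑ i ∈ range M, n i < M * 2 ^ k := by rw [← h2]; exact h1
    _ ≤ 2 ^ j * 2 ^ k := Nat.mul_le_mul_right _ hM
    _ = 2 ^ (k + j) := by rw [← pow_add, add_comm]

/-- partial sums stay below the total bound -/
theorem partial_sum_lt {M M' k j : ℕ} {n : ℕ → ℕ} (hn : ∀ i < M, n i < 2 ^ k) (hM : M ≤ 2 ^ j) (h' : M' ≤ M) :
    ∑ i ∈ range M', n i < 2 ^ (k + j) := by
  rcases Nat.eq_zero_or_pos M' with h0 | h0
  · subst h0; simp
  · exact sum_lt_pow (fun i hi => hn i (hi.trans_le h')) (h'.trans hM) h0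

/-- a floor average of codes stays `≤ C` -/
theorem avg_le_nat {M C : ℕ} {n : ℕ → ℕ} (hn : ∀ i < M, n i ≤ C) : (∑ i ∈ range M, n i) / M ≤ C := by
  rcases Nat.eq_zero_or_pos M with h0 | h0
  · subst h0; simp
  · apply Nat.div_le_of_le_mul
    calc ∑ i ∈ range M, n i ≤ ∑ _i ∈ range M, C := Finset.sum_le_sum fun i hi => hn i (by simpa using hi)
      _ = M * C := by simp

/-- value of a code: `vl O F n` -/
noncomputable def vl (O F n : ℕ) : ℝ := fx F (dec O n)

theorem vl_avg_err (O F : ℕ) {M : ℕ} (hM : 0 < M) (n : ℕ → ℕ) (x : ℕ → ℝ) (δ : ℝ)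
    (h : ∀ i < M, |vl O F (n i) - x i| ≤ δ) :
    |vl O F ((∑ i ∈ range M, n i) / M) - (∑ i ∈ range M, x i) / M| ≤ δ + 1 / 2 ^ F := by
  unfold vl at *
  rw [dec_avg O hM]
  exact avg_err F hM _ x δ h

theorem vl_add {O F a b : ℕ} (h : O ≤ a + b) : vl O F (a + b - O) = vl O F a + vl O F b := by
  unfold vl; rw [dec_add h, fx_add]

theorem vl_sub {O F a b : ℕ} (h : b ≤ a + O) : vl O F (a + O - b) = vl O F a - vl O F b := by
  unfold vl; rw [dec_sub h, fx_sub]

theorem vl_max (O F a b : ℕ) : vl O F (max a b) = max (vl O F a) (vl O F b) := by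
  unfold vl; rw [dec_max, fx_max]

theorem vl_min (O F a b : ℕ) : vl O F (min a b) = min (vl O F a) (vl O F b) := by
  unfold vl; rw [dec_min, fx_min]

theorem vl_trunc {O F B : ℕ} (h : B * 2 ^ F ≤ O) (n : ℕ) :
    vl O F (max (O - B * 2 ^ F) n) = max (-(B : ℝ)) (vl O F n) := by
  unfold vl
  rw [dec_trunc h]
  have := fx_trunc F (B : ℤ) (dec O n)
  push_cast at this ⊢
  exact this

end Crest.Agent.R288.Avg453
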