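import Crest.Agent.R288.Hoef_45

/-!
# R288: Bernstein bounds for sums of independent, NOT identically distributed computations in `RT`

* `seqL ts`: run the computations of the list `ts` one after another (fresh words), list of values.
* `Ev_seqL_prod`, `Ev_seqL_sum`, `Ev_seqL_exp`, `All_seqL`.
* `Pr_seqL_ge`, `Pr_seqL_le`, **`Pr_seqL_abs`**: values in `[0, c]`, total mean at most `μ`,
  `0 ≤ s ≤ 2 μ`: the sum deviates by `s` with probability at most `2 exp (- s^2 / (4 c μ))`.
* `Pr_seqL_abs'`: the same with the bound `q` when `4 c μ log (2 / q) ≤ s^2`.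
* `trav t l` (computations indexed by a list, the index is kept), `Pr_trav_abs`.
-/

set_option autoImplicit false

namespace Crest.Agent.R288.Bern775

open Finset Real Crest.Agent.R295.Rnd627 Crest.Agent.R295.Rnd627.RT Crest.Agent.R288.Hoef45

universe u

variable {α : Type u}

/-- run the computations one after another -/
def seqL : List (RT α) → RT (List α)
  | [] => ret []
  | t :: ts => t.bind fun a => (seqL ts).bind fun r => ret (a :: r)

@[simp] theorem seqL_nil : seqL ([] : List (RT α)) = ret [] := rfl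

theorem seqL_cons (t : RT α) (ts : List (RT α)) :
    seqL (t :: ts) = t.bind fun a => (seqL ts).bind fun r => ret (a :: r) := rfl

theorem seqL_replicate (k : ℕ) (t : RT α) : seqL (List.replicate k t) = reps k t := by
  induction k with
  | zero => rfl
  | succ k ih => rw [List.replicate_succ, seqL_cons, ih, reps_succ]

theorem All_seqL {M : ℕ} {P : α → Prop} : ∀ {ts : List (RT α)}, (∀ t ∈ ts, t.All M P) →
    (seqL ts).All M fun L => ∀ a ∈ L, P a
  | [], _ => by
    intro a ha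
    simp at ha
  | t :: ts, h => by
    rw [seqL_cons, All_bind]
    refine (h t (by simp)).mono fun a ha => ?_
    rw [All_bind]
    refine (All_seqL (ts := ts) fun t' ht' => h t' (by simp [ht'])).mono fun r hr => ?_
    intro b hb
    rcases List.mem_cons.1 hb with rfl | hb
    · exact ha
    · exact hr b hb

theorem length_seqL {M : ℕ} : ∀ (ts : List (RT α)), (seqL ts).All M fun L => L.length = ts.length
  | [] => rfl
  | t :: ts => by
    rw [seqL_cons, All_bind]
    refine All.of_forall fun a => ?_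
    rw [All_bind]
    exact (length_seqL ts).mono fun r hr => by
      change (a :: r).length = _
      simp [hr]

theorem Ev_seqL_cons (M : ℕ) (t : RT α) (ts : List (RT α)) (g : List α → ℝ) :
    (seqL (t :: ts)).Ev M g = t.Ev M fun a => (seqL ts).Ev M fun r => g (a :: r) := by
  rw [seqL_cons, Ev_bind]
  congr 1
  funext a
  rw [Ev_bind]
  rfl

theorem Ev_seqL_prod (M : ℕ) (f : α → ℝ) : ∀ ts : List (RT α),
    (seqL ts).Ev M (fun L => (L.map f).prod) = (ts.map fun t => t.Ev M f).prod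
  | [] => by
    change ((([] : List α).map f).prod : ℝ) = _
    simp
  | t :: ts => by
    rw [Ev_seqL_cons, List.map_cons, List.prod_cons, ← Ev_seqL_prod M f ts, ← Ev_mul_right]
    congr 1
    funext a
    rw [← Ev_mul_left]
    rfl

theorem Ev_seqL_sum {M : ℕ} (hM : 0 < M) (f : α → ℝ) : ∀ ts : List (RT α),
    (seqL ts).Ev M (fun L => (L.map f).sum) = (ts.map fun t => t.Ev M f).sum
  | [] => by
    change ((([] : List α).map f).sum : ℝ) = _
    simp
  | t :: ts => by
    rw [Ev_seqL_cons, List.map_cons, List.sum_cons, ← Ev_seqL_sum hM f ts]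
    have h : (fun a => (seqL ts).Ev M fun r => ((a :: r).map f).sum) =
        fun a => f a + (seqL ts).Ev M fun r => (r.map f).sum := by
      funext a
      have h1 : (fun r : List α => ((a :: r).map f).sum) = fun r => f a + (r.map f).sum := by
        funext r
        simp
      rw [h1, Ev_add, Ev_const hM]
    rw [h, Ev_add, Ev_const hM]

theorem Ev_seqL_exp (M : ℕ) (f : α → ℝ) (l : ℝ) (ts : List (RT α)) :
    (seqL ts).Ev M (fun L => exp (l * (L.map f).sum)) =
      (ts.map fun t => t.Ev M fun x => exp (l * f x)).prod := by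
  rw [← Ev_seqL_prod]
  congr 1
  funext L
  induction L with
  | nil => simp
  | cons x L ih =>
    rw [List.map_cons, List.sum_cons, mul_add, exp_add, ih, List.map_cons, List.prod_cons]

section bern

variable {M : ℕ} {f : α → ℝ} {c : ℝ}

/-- one term, values in `[0, c]` -/
theorem Ev_exp_le_c (hM : 0 < M) (hc : 0 < c) {t : RT α} (hf : t.All M fun x => 0 ≤ f x ∧ f x ≤ c)
    (l : ℝ) : t.Ev M (fun x => exp (l * f x)) ≤ exp ((exp (l * c) - 1) / c * t.Ev M f) := by
  have h := Ev_exp_le_unit (M := M) (t := t) (f := fun x => f x / c) hM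
    (hf.mono fun x hx => ⟨div_nonneg hx.1 hc.le, (div_le_one hc).2 hx.2⟩) (l * c)
  have e : (fun x => exp (l * c * (f x / c))) = fun x => exp (l * f x) := by
    funext x
    congr 1
    field_simp
  rw [e] at h
  refine h.trans (le_of_eq ?_)
  congr 1
  have e2 : t.Ev M (fun x => f x / c) = t.Ev M f / c := Ev_div M t c f
  rw [e2]
  ring

theorem Ev_seqL_exp_le (hM : 0 < M) (hc : 0 < c) (l : ℝ) : ∀ {ts : List (RT α)},
    (∀ t ∈ ts, t.All M fun x => 0 ≤ f x ∧ f x ≤ c) →
    (seqL ts).Ev M (fun L => exp (l * (L.map f).sum)) ≤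
      exp ((exp (l * c) - 1) / c * (ts.map fun t => t.Ev M f).sum)
  | [], _ => by
    change exp (l * (([] : List α).map f).sum) ≤ _
    simp
  | t :: ts, h => by
    have ih := Ev_seqL_exp_le hM hc l (ts := ts) fun t' ht' => h t' (by simp [ht'])
    rw [Ev_seqL_exp] at ih ⊢
    rw [List.map_cons, List.prod_cons, List.map_cons, List.sum_cons, mul_add, exp_add]
    refine mul_le_mul (Ev_exp_le_c hM hc (h t (by simp)) l) ih ?_ (exp_pos _).le
    apply List.prod_nonneg
    intro x hx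
    obtain ⟨t', _, rfl⟩ := List.mem_map.1 hx
    exact Ev_nonneg fun _ => (exp_pos _).le

theorem exp_sub_one_sub_le {x : ℝ} (h1 : |x| ≤ 1) : exp x - 1 - x ≤ x ^ 2 := by
  have := abs_exp_sub_one_sub_id_le h1
  exact (abs_le.1 this).2

theorem sum_nonneg_of (hM : 0 < M) : ∀ {ts : List (RT α)},
    (∀ t ∈ ts, t.All M fun x => 0 ≤ f x ∧ f x ≤ c) → 0 ≤ (ts.map fun t => t.Ev M f).sum := by
  intro ts h
  apply List.sum_nonneg
  intro x hx
  obtain ⟨t, ht, rfl⟩ := List.mem_map.1 hx
  exact const_le_Ev hM ((h t ht).mono fun _ hx => hx.1)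

variable {ts : List (RT α)} {μ s : ℝ}

/-- **Bernstein, upper tail** -/
theorem Pr_seqL_ge (hM : 0 < M) (hc : 0 < c) (hf : ∀ t ∈ ts, t.All M fun x => 0 ≤ f x ∧ f x ≤ c)
    (hμ : (ts.map fun t => t.Ev M f).sum ≤ μ) (hμ0 : 0 < μ) (hs : 0 ≤ s) (hs2 : s ≤ 2 * μ) :
    (seqL ts).Pr M (fun L => (ts.map fun t => t.Ev M f).sum + s ≤ (L.map f).sum) ≤
      exp (-(s ^ 2 / (4 * c * μ))) := by
  set m := (ts.map fun t => t.Ev M f).sum with hm
  have hm0 : 0 ≤ m := sum_nonneg_of hM hf
  set x : ℝ := s / (2 * μ) with hx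
  have hx0 : 0 ≤ x := by positivity
  have hx1 : x ≤ 1 := (div_le_one (by positivity)).2 hs2
  have hl : 0 ≤ x / c := by positivity
  refine (exp_markov (X := fun L : List α => (L.map f).sum) hl).trans ?_
  refine (mul_le_mul_of_nonneg_left (Ev_seqL_exp_le hM hc _ hf) (exp_pos _).le).trans ?_
  rw [← exp_add, ← hm]
  apply exp_le_exp.2
  have e1 : x / c * c = x := by field_simp
  rw [e1]
  have h1 : exp x - 1 - x ≤ x ^ 2 := exp_sub_one_sub_le (by rw [abs_of_nonneg hx0]; exact hx1)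
  have h2 : -(x / c * (m + s)) + (exp x - 1) / c * m = ((exp x - 1 - x) * m - x * s) / c := by
    field_simp
    ring
  rw [h2]
  have h3 : (exp x - 1 - x) * m ≤ x ^ 2 * μ := by
    have h4 : 0 ≤ exp x - 1 - x := by linarith [add_one_le_exp x]
    calc (exp x - 1 - x) * m ≤ (exp x - 1 - x) * μ := mul_le_mul_of_nonneg_left hμ h4
      _ ≤ x ^ 2 * μ := mul_le_mul_of_nonneg_right h1 hμ0.le
  have h5 : x ^ 2 * μ - x * s = -(s ^ 2 / (4 * μ)) := by
    rw [hx]
    field_simp
    ring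
  have h6 : -(s ^ 2 / (4 * c * μ)) = (-(s ^ 2 / (4 * μ))) / c := by
    field_simp
  rw [h6]
  apply div_le_div_of_nonneg_right _ hc.le
  linarith

/-- **Bernstein, lower tail** -/
theorem Pr_seqL_le (hM : 0 < M) (hc : 0 < c) (hf : ∀ t ∈ ts, t.All M fun x => 0 ≤ f x ∧ f x ≤ c)
    (hμ : (ts.map fun t => t.Ev M f).sum ≤ μ) (hμ0 : 0 < μ) (hs : 0 ≤ s) (hs2 : s ≤ 2 * μ) :
    (seqL ts).Pr M (fun L => (L.map f).sum ≤ (ts.map fun t => t.Ev M f).sum - s) ≤
      exp (-(s ^ 2 / (4 * c * μ))) := by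
  set m := (ts.map fun t => t.Ev M f).sum with hm
  have hm0 : 0 ≤ m := sum_nonneg_of hM hf
  set x : ℝ := s / (2 * μ) with hx
  have hx0 : 0 ≤ x := by positivity
  have hx1 : x ≤ 1 := (div_le_one (by positivity)).2 hs2
  have hl : 0 ≤ x / c := by positivity
  have h0 := exp_markov (M := M) (t := seqL ts) (X := fun L : List α => -(L.map f).sum) (l := x / c)
    (s := s - m) hl
  refine le_trans (Pr_mono fun L hL => ?_) (h0.trans ?_)
  · linarith
  have e : (seqL ts).Ev M (fun L => exp (x / c * -(L.map f).sum)) =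
      (seqL ts).Ev M (fun L => exp (-(x / c) * (L.map f).sum)) := by
    congr 1
    funext L
    congr 1
    ring
  rw [e]
  refine (mul_le_mul_of_nonneg_left (Ev_seqL_exp_le hM hc _ hf) (exp_pos _).le).trans ?_
  rw [← exp_add, ← hm]
  apply exp_le_exp.2
  have e1 : -(x / c) * c = -x := by field_simp
  rw [e1]
  have h1 : exp (-x) - 1 - (-x) ≤ (-x) ^ 2 :=
    exp_sub_one_sub_le (by rw [abs_neg, abs_of_nonneg hx0]; exact hx1)
  have h2 : -(x / c * (s - m)) + (exp (-x) - 1) / c * m =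
      ((exp (-x) - 1 - (-x)) * m - x * s) / c := by
    field_simp
    ring
  rw [h2]
  have h3 : (exp (-x) - 1 - (-x)) * m ≤ x ^ 2 * μ := by
    have h4 : 0 ≤ exp (-x) - 1 - (-x) := by linarith [add_one_le_exp (-x)]
    calc (exp (-x) - 1 - (-x)) * m ≤ (exp (-x) - 1 - (-x)) * μ :=
          mul_le_mul_of_nonneg_left hμ h4
      _ ≤ (-x) ^ 2 * μ := mul_le_mul_of_nonneg_right h1 hμ0.le
      _ = x ^ 2 * μ := by ring
  have h5 : x ^ 2 * μ - x * s = -(s ^ 2 / (4 * μ)) := by
    rw [hx]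
    field_simp
    ring
  have h6 : -(s ^ 2 / (4 * c * μ)) = (-(s ^ 2 / (4 * μ))) / c := by
    field_simp
  rw [h6]
  apply div_le_div_of_nonneg_right _ hc.le
  linarith

/-- **Bernstein, two-sided** -/
theorem Pr_seqL_abs (hM : 0 < M) (hc : 0 < c)
    (hf : ∀ t ∈ ts, t.All M fun x => 0 ≤ f x ∧ f x ≤ c)
    (hμ : (ts.map fun t => t.Ev M f).sum ≤ μ) (hμ0 : 0 < μ) (hs : 0 ≤ s) (hs2 : s ≤ 2 * μ) :
    (seqL ts).Pr M (fun L => s ≤ |(L.map f).sum - (ts.map fun t => t.Ev M f).sum|) ≤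
      2 * exp (-(s ^ 2 / (4 * c * μ))) := by
  have h1 := Pr_seqL_ge hM hc hf hμ hμ0 hs hs2
  have h2 := Pr_seqL_le hM hc hf hμ hμ0 hs hs2
  refine le_trans (Pr_mono (Q := fun L => (ts.map fun t => t.Ev M f).sum + s ≤ (L.map f).sum ∨
    (L.map f).sum ≤ (ts.map fun t => t.Ev M f).sum - s) fun L hL => ?_)
    ((Pr_or_le M _ _ _).trans (by linarith))
  rcases le_abs.1 hL with h | h
  · left; linarith
  · right; linarith

/-- the deviation needed for a given failure probability -/
theorem Pr_seqL_abs' (hM : 0 < M) (hc : 0 < c)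
    (hf : ∀ t ∈ ts, t.All M fun x => 0 ≤ f x ∧ f x ≤ c)
    (hμ : (ts.map fun t => t.Ev M f).sum ≤ μ) (hμ0 : 0 < μ) (hs : 0 ≤ s) (hs2 : s ≤ 2 * μ)
    {q : ℝ} (hq : 0 < q) (hsq : 4 * c * μ * Real.log (2 / q) ≤ s ^ 2) :
    (seqL ts).Pr M (fun L => s ≤ |(L.map f).sum - (ts.map fun t => t.Ev M f).sum|) ≤ q := by
  refine (Pr_seqL_abs hM hc hf hμ hμ0 hs hs2).trans ?_
  have h1 : Real.log (2 / q) ≤ s ^ 2 / (4 * c * μ) := by
    rw [le_div_iff₀ (by positivity), mul_comm]
    exact hsq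
  have h2 : exp (-(s ^ 2 / (4 * c * μ))) ≤ exp (-Real.log (2 / q)) :=
    exp_le_exp.2 (neg_le_neg h1)
  have h3 : exp (-Real.log (2 / q)) = q / 2 := by
    rw [exp_neg, exp_log (by positivity), inv_div]
  rw [h3] at h2
  linarith

/-- union bound over finitely many functions -/
theorem Pr_seqL_abs_all {ι : Type*} (I : Finset ι) (F : ι → α → ℝ) (hM : 0 < M) (hc : 0 < c)
    (hf : ∀ i ∈ I, ∀ t ∈ ts, t.All M fun x => 0 ≤ F i x ∧ F i x ≤ c)
    (hμ : ∀ i ∈ I, (ts.map fun t => t.Ev M (F i)).sum ≤ μ) (hμ0 : 0 < μ) (hs : 0 ≤ s)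
    (hs2 : s ≤ 2 * μ) {q : ℝ} (hq : 0 < q) (hsq : 4 * c * μ * Real.log (2 / q) ≤ s ^ 2) :
    (seqL ts).Pr M (fun L => ∃ i ∈ I,
      s ≤ |(L.map (F i)).sum - (ts.map fun t => t.Ev M (F i)).sum|) ≤ I.card * q := by
  refine (Pr_exists_le M _ I _).trans ?_
  rw [← nsmul_eq_mul]
  exact Finset.sum_le_card_nsmul _ _ _ fun i hi =>
    Pr_seqL_abs' hM hc (hf i hi) (hμ i hi) hμ0 hs hs2 hq hsq

end bern

/-! ### indexed form -/

/-- run `t i` for the indices of a list, keep the index -/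
def trav {ι : Type u} (t : ι → RT α) (l : List ι) : RT (List (ι × α)) :=
  seqL (l.map fun i => (t i).map fun a => (i, a))

theorem All_trav {M : ℕ} {ι : Type u} {t : ι → RT α} {l : List ι} {P : ι → α → Prop}
    (h : ∀ i ∈ l, (t i).All M (P i)) :
    (trav t l).All M fun L => ∀ x ∈ L, P x.1 x.2 := by
  refine All_seqL fun t' ht' => ?_
  obtain ⟨i, hi, rfl⟩ := List.mem_map.1 ht'
  rw [RT.map, All_bind]
  exact (h i hi).mono fun a ha => ha

theorem map_fst_trav {M : ℕ} {ι : Type u} (t : ι → RT α) : ∀ l : List ι,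
    (trav t l).All M fun L => L.map Prod.fst = l
  | [] => rfl
  | i :: l => by
    rw [trav, List.map_cons, seqL_cons, All_bind, RT.map, All_bind]
    refine All.of_forall fun a => ?_
    change (((seqL (l.map fun i => (t i).map fun a => (i, a))).bind fun r =>
      ret ((i, a) :: r)).All M fun L => L.map Prod.fst = i :: l)
    rw [All_bind]
    exact (map_fst_trav t l).mono fun r hr => by
      change ((i, a) :: r).map Prod.fst = _
      simp [hr]

theorem sum_Ev_trav {M : ℕ} {ι : Type u} (t : ι → RT α) (l : List ι) (F : ι → α → ℝ) :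
    ((l.map fun i => (t i).map fun a => (i, a)).map fun t' => t'.Ev M fun x => F x.1 x.2).sum =
      (l.map fun i => (t i).Ev M (F i)).sum := by
  rw [List.map_map]
  congr 1
  apply List.map_congr_left
  intro i _
  change ((t i).map fun a => (i, a)).Ev M _ = _
  rw [Ev_map]

/-- **Bernstein for indexed computations**, simultaneously for finitely many functions -/
theorem Pr_trav_abs_all {M : ℕ} {κ : Type*} {ι : Type u} (I : Finset κ) (t : ι → RT α)
    (l : List ι) (F : κ → ι → α → ℝ) {c μ s q : ℝ} (hM : 0 < M) (hc : 0 < c)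
    (hf : ∀ k ∈ I, ∀ i ∈ l, (t i).All M fun x => 0 ≤ F k i x ∧ F k i x ≤ c)
    (hμ : ∀ k ∈ I, (l.map fun i => (t i).Ev M (F k i)).sum ≤ μ) (hμ0 : 0 < μ) (hs : 0 ≤ s)
    (hs2 : s ≤ 2 * μ) (hq : 0 < q) (hsq : 4 * c * μ * Real.log (2 / q) ≤ s ^ 2) :
    (trav t l).Pr M (fun L => ∃ k ∈ I,
      s ≤ |(L.map fun x => F k x.1 x.2).sum - (l.map fun i => (t i).Ev M (F k i)).sum|) ≤
      I.card * q := by
  have h := Pr_seqL_abs_all (M := M) (c := c) (μ := μ) (s := s)
    (ts := l.map fun i => (t i).map fun a => (i, a)) I (fun k x => F k x.1 x.2) hM hc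
    (by
      intro k hk t' ht'
      obtain ⟨i, hi, rfl⟩ := List.mem_map.1 ht'
      rw [RT.map, All_bind]
      exact (hf k hk i hi).mono fun a ha => ha)
    (by
      intro k hk
      rw [sum_Ev_trav]
      exact hμ k hk) hμ0 hs hs2 hq hsq
  refine le_trans (le_of_eq ?_) h
  unfold trav
  congr 1
  funext L
  simp only [sum_Ev_trav]

end Crest.Agent.R288.Bern775
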