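import Crest.Agent.R288.BlkH_944
import Crest.Agent.R288.GameA_347

/-!
# R288 (S0433), leaf [B]: one block against all windows of `y`

`multi`: for every start `t < U` the table of `min K (editDist X (Y[t .. t + j)))`, `|j - m| ≤ W`,
in the cells `o + t (2 W + 2) + d`, `d ≤ 2 W`.
-/

set_option autoImplicit false

namespace Crest.Agent.R288.BlkM944

open Crest.Agent.R295.HL Crest.Agent.R295.HL.Exp Crest.Agent.R295.HL.Cnd
open Crest.Agent.R295.HL.Cmd Crest.Agent.R295.HLib100 Crest.Agent.R295.HA100
open Crest.GraphRAM Crest.Agent.R288.Ed Crest.Agent.R288.Blk944 Crest.Agent.R288.BlkH944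
open Crest.Agent.R288.GameA347

/-- the value of cell `d` of the table with start `t` -/
def mcell (K W : ℕ) (X Y : List ℕ) (t d : ℕ) : ℕ :=
  if W ≤ X.length + d ∧ X.length + d ≤ W + (Y.length - t) then
    min K (editDist X ((Y.drop t).take (X.length + d - W))) else K

/-- all windows; `14 = U` (number of starts); `15 .. 18` private -/
def multi : Cmd :=
  set 16 (var 2) ;; set 17 (var 3) ;; set 18 (var 5) ;;
  forUp 15 0 (var 14)
    (set 2 (var 16 + var 15) ;; set 3 (var 17 - var 15) ;;
      set 5 (var 18 + var 15 * (var 4 + var 4 + 2)) ;; single) ;;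
  set 2 (var 16) ;; set 3 (var 17) ;; set 5 (var 18)

theorem seg_drop {s : State} {k o : ℕ} {l : List ℕ} (h : s.Seg k o l) {t : ℕ}
    (ht : t ≤ l.length) : s.Seg k (o + t) (l.drop t) := by
  intro i hi
  rw [List.length_drop] at hi
  rw [List.getElem_drop, add_assoc]
  exact h (t + i) (by omega)

theorem seg_congr {s s' : State} {k o : ℕ} {l : List ℕ} (h : s.Seg k o l)
    (ha : s'.arr k = s.arr k) : s'.Seg k o l := by
  intro i hi
  rw [ha]
  exact h i hi

theorem multi_runs (e : Env) (s : State) {X Y : List ℕ} {p q W K o U : ℕ}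
    (gp : s.reg 0 = p) (gm : s.reg 1 = X.length) (gq : s.reg 2 = q) (gn : s.reg 3 = Y.length)
    (gW : s.reg 4 = W) (go : s.reg 5 = o) (gK : s.reg 7 = K) (gU : s.reg 14 = U)
    (hX : s.Seg 0 p X) (hY : s.Seg 0 q Y) (hKW : K ≤ W + 2) (hU : U ≤ Y.length + 1)
    (h0 : p + X.length ≤ e.L) (h0' : p + X.length < e.B)
    (h1 : X.length + 2 * W + 2 < e.B) (h2 : W + Y.length < e.B)
    (h3 : q + Y.length ≤ e.L) (h3' : q + Y.length < e.B)
    (h4 : o + U * (2 * W + 2) ≤ e.L) (h4' : o + U * (2 * W + 2) < e.B) (hK : K + 1 < e.B) :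
    Runs e multi s (U * ((X.length + 1) * (28 * W + 20) + 5) + 8) (fun s' =>
      (∀ t < U, ∀ d ≤ 2 * W, s'.arr 1 (o + t * (2 * W + 2) + d) = mcell K W X Y t d) ∧
      (∀ k, ¬ (o ≤ k ∧ k < o + U * (2 * W + 2)) → s'.arr 1 k = s.arr 1 k) ∧
      s'.reg 2 = q ∧ s'.reg 3 = Y.length ∧ s'.reg 5 = o) := by
  have hB1 : 1 < e.B := by omega
  have hUB : U ≤ U * (2 * W + 2) := Nat.le_mul_of_pos_right _ (by omega)
  have hstep : ∀ t < U, t * (2 * W + 2) + (2 * W + 2) ≤ U * (2 * W + 2) := by
    intro t ht
    have : (t + 1) * (2 * W + 2) ≤ U * (2 * W + 2) := Nat.mul_le_mul_right _ ht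
    rw [Nat.add_mul, one_mul] at this
    exact this
  refine Runs.seq (n := 1) (m := U * ((X.length + 1) * (28 * W + 20) + 5) + 7)
    (R := fun s' => s' = s.setReg 16 q) ?_ ?_ (by omega)
  · rw [runs_iff_wp]; simp [gq]
  rintro s1 rfl
  refine Runs.seq (n := 1) (m := U * ((X.length + 1) * (28 * W + 20) + 5) + 6)
    (R := fun s' => s' = (s.setReg 16 q).setReg 17 Y.length) ?_ ?_ (by omega)
  · rw [runs_iff_wp]; simp [gn]
  rintro s1 rfl
  refine Runs.seq (n := 1) (m := U * ((X.length + 1) * (28 * W + 20) + 5) + 5)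
    (R := fun s' => s' = ((s.setReg 16 q).setReg 17 Y.length).setReg 18 o) ?_ ?_ (by omega)
  · rw [runs_iff_wp]; simp [go]
  rintro s1 rfl
  set s1 := ((s.setReg 16 q).setReg 17 Y.length).setReg 18 o with hs1
  have r16 : s1.reg 16 = q := by simp [hs1]
  have r17 : s1.reg 17 = Y.length := by simp [hs1]
  have r18 : s1.reg 18 = o := by simp [hs1]
  have r : ∀ x, x < 16 → s1.reg x = s.reg x := by
    intro x hx
    rw [hs1]
    simp only [State.setReg_reg]
    rw [if_neg (by omega), if_neg (by omega), if_neg (by omega)]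
  have ra : s1.arr = s.arr := rfl
  refine Runs.seq (n := U * ((X.length + 1) * (28 * W + 20) + 5) + 2) (m := 3)
    (R := fun s' =>
      (∀ t < U, ∀ d ≤ 2 * W, s'.arr 1 (o + t * (2 * W + 2) + d) = mcell K W X Y t d) ∧
      (∀ k, ¬ (o ≤ k ∧ k < o + U * (2 * W + 2)) → s'.arr 1 k = s.arr 1 k) ∧
      s'.reg 16 = q ∧ s'.reg 17 = Y.length ∧ s'.reg 18 = o) ?_ ?_ (by omega)
  · refine forUpC (A := 0) (N := U) (m := (X.length + 1) * (28 * W + 20) + 3)
      (fun j s' =>
        (∀ t < j, ∀ d ≤ 2 * W, s'.arr 1 (o + t * (2 * W + 2) + d) = mcell K W X Y t d) ∧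
        (∀ k, ¬ (o ≤ k ∧ k < o + j * (2 * W + 2)) → s'.arr 1 k = s.arr 1 k))
      (by decide) ?_ rfl (by omega) (by omega) ?_ ?_ ?_ ?_ (by rw [Nat.sub_zero])
    · simp; omega
    · exact ⟨fun t ht => by omega, fun k _ => by rw [State.setReg_arr, ra]⟩
    · rintro j s' - hj hI hr hF
      have e14 : s'.reg 14 = U := by rw [hF.reg 14 (by decide), r 14 (by omega), gU]
      simp [e14]
    · rintro j s' - hj ⟨g1, g2⟩ hr hF
      have e0 : s'.reg 0 = p := by rw [hF.reg 0 (by decide), r 0 (by omega), gp]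
      have e1 : s'.reg 1 = X.length := by rw [hF.reg 1 (by decide), r 1 (by omega), gm]
      have e4 : s'.reg 4 = W := by rw [hF.reg 4 (by decide), r 4 (by omega), gW]
      have e7 : s'.reg 7 = K := by rw [hF.reg 7 (by decide), r 7 (by omega), gK]
      have e16 : s'.reg 16 = q := by rw [hF.reg 16 (by decide), r16]
      have e17 : s'.reg 17 = Y.length := by rw [hF.reg 17 (by decide), r17]
      have e18 : s'.reg 18 = o := by rw [hF.reg 18 (by decide), r18]
      have ea : s'.arr 0 = s.arr 0 := by rw [hF.arr 0 (by decide), ra]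
      have hj2 := hstep j hj
      set s2 := ((s'.setReg 2 (q + j)).setReg 3 (Y.length - j)).setReg 5
        (o + j * (2 * W + 2)) with hs2
      have key : Runs e (set 2 (var 16 + var 15) ;; set 3 (var 17 - var 15) ;;
          set 5 (var 18 + var 15 * (var 4 + var 4 + 2)) ;; single) s'
          ((X.length + 1) * (28 * W + 20) + 3) (fun s'' =>
            (∀ d ≤ 2 * W, s''.arr 1 (o + j * (2 * W + 2) + d) =
              if W ≤ X.length + d ∧ X.length + d ≤ W + (Y.drop j).length then
                min K (editDist X ((Y.drop j).take (X.length + d - W))) else K) ∧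
            (∀ k, ¬ (o + j * (2 * W + 2) ≤ k ∧ k ≤ o + j * (2 * W + 2) + 2 * W + 1) →
              s''.arr 1 k = s'.arr 1 k)) := by
        refine Runs.seq (n := 1) (m := (X.length + 1) * (28 * W + 20) + 2)
          (R := fun t => t = s'.setReg 2 (q + j)) ?_ ?_ (by omega)
        · rw [runs_iff_wp]; simp [e16, hr]; omega
        rintro t rfl
        refine Runs.seq (n := 1) (m := (X.length + 1) * (28 * W + 20) + 1)
          (R := fun t => t = (s'.setReg 2 (q + j)).setReg 3 (Y.length - j)) ?_ ?_ (by omega)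
        · rw [runs_iff_wp]; simp [e17, hr]
        rintro t rfl
        refine Runs.seq (n := 1) (m := (X.length + 1) * (28 * W + 20))
          (R := fun t => t = s2) ?_ ?_ (by omega)
        · have hm : W + W + 2 = 2 * W + 2 := by ring
          rw [runs_iff_wp]
          simp only [wp_set, ok_add, ok_mul, ok_var, ok_ofNat', val_add, val_mul, val_var,
            val_ofNat', State.setReg_reg, reduceIte, Nat.reduceEqDiff, e18, e4, hr, true_and,
            hm, hs2, le_refl, and_true]
          refine ⟨⟨⟨by omega, by omega, by omega⟩, by omega⟩, by omega⟩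
        rintro t rfl
        refine (single_runs e s2 (X := X) (Y := Y.drop j) (p := p) (q := q + j) (W := W) (K := K)
          (o := o + j * (2 * W + 2)) ?_ ?_ ?_ ?_ ?_ ?_ ?_ ?_ ?_ hKW h0 h0' (by omega) ?_ ?_ ?_
          (by omega) (by omega) hK).post ?_
        · simp [hs2, e0]
        · simp [hs2, e1]
        · simp [hs2]
        · simp [hs2]
        · simp [hs2, e4]
        · simp [hs2]
        · simp [hs2, e7]
        · exact seg_congr hX (by rw [← ea]; rfl)
        · exact seg_congr (seg_drop hY (by omega)) (by rw [← ea]; rfl)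
        · rw [List.length_drop]; omega
        · rw [List.length_drop]; omega
        · rw [List.length_drop]; omega
        · rintro t ⟨h5, h6⟩
          exact ⟨h5, h6⟩
      refine key.post ?_
      rintro s3 ⟨g3, g4⟩
      refine ⟨?_, ?_⟩
      · intro t ht d hd
        rw [State.setReg_arr]
        by_cases htj : t = j
        · subst htj
          rw [g3 d hd, List.length_drop]
          rfl
        · have ht2 : t < j := by omega
          have : (t + 1) * (2 * W + 2) ≤ j * (2 * W + 2) := Nat.mul_le_mul_right _ ht2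
          rw [Nat.add_mul, one_mul] at this
          rw [g4 _ (by omega)]
          exact g1 t ht2 d hd
      · intro k hk
        have : (j + 1) * (2 * W + 2) = j * (2 * W + 2) + (2 * W + 2) := by ring
        rw [State.setReg_arr, g4 _ (by omega)]
        exact g2 k (by omega)
    · rintro s' ⟨g1, g2⟩ hr hF
      refine ⟨g1, g2, ?_, ?_, ?_⟩
      · rw [hF.reg 16 (by decide), r16]
      · rw [hF.reg 17 (by decide), r17]
      · rw [hF.reg 18 (by decide), r18]
  · rintro s4 ⟨g1, g2, g16, g17, g18⟩
    rw [runs_iff_wp]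
    simp only [wp_seq, wp_set, ok_var, val_var, State.setReg_reg, State.setReg_arr, reduceIte,
      Nat.reduceEqDiff, true_and, g16, g17, g18, and_true]
    exact ⟨by omega, g1, g2⟩

/-- the table cells as values of the game `G`: block `[a, b)` of `x`, positions `P` and `Q` of `y`
with `|Q - P - (b - a)| ≤ W`, `Y = y`, start `t = P` -/
theorem mcell_eq_G {K W : ℕ} {x y : List ℕ} {a b P Q : ℕ} (hb : b ≤ x.length)
    (hab : a ≤ b) (hPQ : P ≤ Q) (hQ : Q ≤ y.length) {d : ℕ} (hd : b - a + d = W + (Q - P)) :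
    mcell K W (seg x a b) y P d = min K (G x y a b P Q) := by
  have hl : (seg x a b).length = b - a := by
    rw [seg_length]; omega
  unfold mcell
  rw [hl, if_pos (by omega), G_of_le _ _ _ _ hPQ, seg_eq_take y]
  congr 3
  omega

end Crest.Agent.R288.BlkM944
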