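import Crest.Agent.R288.Ed1_864

/-!
# R288 (S0433), leaf [B]: the band DP, pure part

Row `i` of the band DP of radius `W`: cell `d ≤ 2 W` stands for the position `j = c + i + d - W`
of `y` (valid iff `W ≤ c + i + d ≤ W + n`); all values are cut at `K`; invalid cells hold `K`.

* `cell`, `nrow`, `brow`: the recursion which the program executes;
* `brow_lower`: every value `< K` is the cost of a real alignment from a source cell;
* `brow_upper`: for a steep start row the value is optimal;
* `brow_single`: single source: `min K (editDist X (Y.take (m + d - W)))` if `K ≤ W + 2`.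
-/

set_option autoImplicit false

namespace Crest.Agent.R288.Blk944

open Crest.GraphRAM Crest.Agent.R288.Ed

/-- one cell of the band DP; `P` is the shifted position, `t` the old value of the same cell,
`t1` the old value of the next cell, `pr` the new value of the previous cell -/
def cell (K W n a : ℕ) (y : ℕ → ℕ) (P t t1 pr : ℕ) : ℕ :=
  if W ≤ P ∧ P ≤ W + n then
    min K (min (t + if W < P ∧ y (P - W - 1) = a then 0 else 1) (min (t1 + 1) (pr + 1)))
  else K

/-- the next row; `C` is the shifted position of cell `0` -/
def nrow (K W n a : ℕ) (y : ℕ → ℕ) (C : ℕ) (T : ℕ → ℕ) : ℕ → ℕ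
  | 0 => cell K W n a y C (T 0) (T 1) K
  | d + 1 => cell K W n a y (C + (d + 1)) (T (d + 1)) (T (d + 2)) (nrow K W n a y C T d)

/-- a row continued by `K` -/
def ext (K W : ℕ) (T : ℕ → ℕ) (d : ℕ) : ℕ := if d ≤ 2 * W then T d else K

/-- the rows of the band DP -/
def brow (K W n c : ℕ) (x y f : ℕ → ℕ) : ℕ → ℕ → ℕ
  | 0 => f
  | i + 1 => nrow K W n (x i) y (c + i + 1) (ext K W (brow K W n c x y f i))

section

variable {K W n c : ℕ} {x y f : ℕ → ℕ}

@[simp] theorem brow_zero (d : ℕ) : brow K W n c x y f 0 d = f d := rfl

theorem cell_le (a : ℕ) (P t t1 pr : ℕ) : cell K W n a y P t t1 pr ≤ K := by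
  unfold cell
  split
  · exact min_le_left _ _
  · exact le_rfl

theorem cell_of_not (a : ℕ) {P : ℕ} (t t1 pr : ℕ) (h : ¬ (W ≤ P ∧ P ≤ W + n)) :
    cell K W n a y P t t1 pr = K := by
  unfold cell
  rw [if_neg h]

theorem brow_succ (i d : ℕ) : brow K W n c x y f (i + 1) d =
    cell K W n (x i) y (c + i + 1 + d) (ext K W (brow K W n c x y f i) d)
      (ext K W (brow K W n c x y f i) (d + 1))
      (if d = 0 then K else brow K W n c x y f (i + 1) (d - 1)) := by
  cases d with
  | zero => rfl
  | succ d => rfl

theorem brow_le (hf : ∀ d ≤ 2 * W, f d ≤ K) : ∀ i d, d ≤ 2 * W → brow K W n c x y f i d ≤ K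
  | 0, d, hd => hf d hd
  | i + 1, d, _ => by rw [brow_succ]; exact cell_le _ _ _ _ _

theorem brow_invalid (hf : ∀ d ≤ 2 * W, ¬ (W ≤ c + d ∧ c + d ≤ W + n) → f d = K) :
    ∀ i d, d ≤ 2 * W → ¬ (W ≤ c + i + d ∧ c + i + d ≤ W + n) → brow K W n c x y f i d = K
  | 0, d, hd, h => hf d hd (by simpa using h)
  | i + 1, d, _, h => by
    rw [brow_succ]
    exact cell_of_not _ _ _ _ (by rwa [show c + i + 1 + d = c + (i + 1) + d by omega])

end

theorem ed_snoc_left_le {α : Type*} [DecidableEq α] (x y : List α) (a : α) :
    editDist (x ++ [a]) y ≤ editDist x y + 1 := by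
  have := ed_append_le x y [a] []
  simpa using this

theorem ed_snoc_right_le {α : Type*} [DecidableEq α] (x y : List α) (b : α) :
    editDist x (y ++ [b]) ≤ editDist x y + 1 := by
  have := ed_append_le x y [] [b]
  simpa using this

theorem ed_snoc_snoc_le {α : Type*} [DecidableEq α] (x y : List α) (a b : α) :
    editDist (x ++ [a]) (y ++ [b]) ≤ editDist x y + if a = b then 0 else 1 := by
  rw [ed_snoc_snoc]
  exact min_le_left _ _

section

variable {K W n c : ℕ} {x y f : ℕ → ℕ} {X Y : List ℕ}

/-- every value below `K` is at least the cost of an alignment that starts in a source cell -/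
theorem brow_lower (hn : Y.length = n) (hx : ∀ i (h : i < X.length), x i = X[i])
    (hy : ∀ j (h : j < Y.length), y j = Y[j])
    (hf : ∀ d ≤ 2 * W, ¬ (W ≤ c + d ∧ c + d ≤ W + n) → f d = K) :
    ∀ i, i ≤ X.length → ∀ d, d ≤ 2 * W → brow K W n c x y f i d < K →
      (W ≤ c + i + d ∧ c + i + d ≤ W + n) ∧ ∃ u ≤ 2 * W, W ≤ c + u ∧ u ≤ i + d ∧
        f u + editDist (X.take i) ((Y.drop (c + u - W)).take (i + d - u)) ≤
          brow K W n c x y f i d := by
  subst hn
  intro i
  induction i with
  | zero =>
    intro _ d hd h
    have hv : W ≤ c + d ∧ c + d ≤ W + Y.length := by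
      by_contra hv
      have := hf d hd hv
      rw [brow_zero] at h
      omega
    refine ⟨by simpa using hv, d, hd, hv.1, by omega, ?_⟩
    simp
  | succ i ih =>
    intro hi d
    induction d with
    | zero =>
      intro hd h
      rw [brow_succ] at h ⊢
      rw [if_pos rfl] at h ⊢
      unfold cell at h ⊢
      by_cases hv : W ≤ c + i + 1 + 0 ∧ c + i + 1 + 0 ≤ W + Y.length
      swap
      · rw [if_neg hv] at h
        omega
      rw [if_pos hv] at h ⊢
      refine ⟨by omega, ?_⟩
      have hX : X.take (i + 1) = X.take i ++ [X[i]] :=
        List.take_succ_eq_append_getElem (by omega)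
      set A := ext K W (brow K W Y.length c x y f i) 0 +
        if W < c + i + 1 + 0 ∧ y (c + i + 1 + 0 - W - 1) = x i then 0 else 1 with hA
      set B := ext K W (brow K W Y.length c x y f i) (0 + 1) + 1 with hB
      have hcase : min K (min A (min B (K + 1))) = A ∨ min K (min A (min B (K + 1))) = B := by
        omega
      rcases hcase with hc | hc
      · rw [hc] at h ⊢
        have h1 : brow K W Y.length c x y f i 0 ≤ A := by
          rw [hA]; simp [ext]
        obtain ⟨hv', u, hu, hu1, hu2, hu3⟩ := ih (by omega) 0 (by omega) (by omega)
        refine ⟨u, hu, hu1, by omega, ?_⟩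
        have hj : c + u - W + (i + 0 - u) < Y.length := by omega
        have hY : (Y.drop (c + u - W)).take (i + 1 + 0 - u) =
            (Y.drop (c + u - W)).take (i + 0 - u) ++ [Y[c + u - W + (i + 0 - u)]] := by
          have := List.take_succ_eq_append_getElem (l := Y.drop (c + u - W)) (i := i + 0 - u)
            (by rw [List.length_drop]; omega)
          rw [show i + 1 + 0 - u = i + 0 - u + 1 by omega, this, List.getElem_drop]
        rw [hX, hY]
        have h2 := ed_snoc_snoc_le (X.take i) ((Y.drop (c + u - W)).take (i + 0 - u)) X[i]
          Y[c + u - W + (i + 0 - u)]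
        have h3 : A = brow K W Y.length c x y f i 0 +
            if X[i] = Y[c + u - W + (i + 0 - u)] then 0 else 1 := by
          rw [hA]
          simp only [ext, if_pos (Nat.zero_le (2 * W))]
          have e1 : y (c + i + 1 + 0 - W - 1) = Y[c + u - W + (i + 0 - u)] := by
            rw [← hy]
            congr 1
            omega
          rw [e1, hx i (by omega)]
          have e2 : W < c + i + 1 + 0 := by omega
          simp only [e2, true_and, eq_comm]
        omega
      · rw [hc] at h ⊢
        have h1 : 0 + 1 ≤ 2 * W := by
          by_contra h1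
          rw [hB, ext, if_neg h1] at h
          omega
        have h2 : B = brow K W Y.length c x y f i (0 + 1) + 1 := by
          rw [hB, ext, if_pos h1]
        obtain ⟨hv', u, hu, hu1, hu2, hu3⟩ := ih (by omega) (0 + 1) h1 (by omega)
        refine ⟨u, hu, hu1, by omega, ?_⟩
        have h3 := ed_snoc_left_le (X.take i) ((Y.drop (c + u - W)).take (i + 1 + 0 - u)) X[i]
        rw [hX]
        rw [show i + (0 + 1) - u = i + 1 + 0 - u by omega] at hu3
        omega
    | succ d ihd =>
      intro hd h
      rw [brow_succ] at h ⊢
      rw [if_neg (by omega)] at h ⊢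
      unfold cell at h ⊢
      by_cases hv : W ≤ c + i + 1 + (d + 1) ∧ c + i + 1 + (d + 1) ≤ W + Y.length
      swap
      · rw [if_neg hv] at h
        omega
      rw [if_pos hv] at h ⊢
      refine ⟨by omega, ?_⟩
      have hX : X.take (i + 1) = X.take i ++ [X[i]] :=
        List.take_succ_eq_append_getElem (by omega)
      simp only [Nat.add_sub_cancel] at h ⊢
      set A := ext K W (brow K W Y.length c x y f i) (d + 1) +
        if W < c + i + 1 + (d + 1) ∧ y (c + i + 1 + (d + 1) - W - 1) = x i then 0 else 1 with hA
      set B := ext K W (brow K W Y.length c x y f i) (d + 1 + 1) + 1 with hB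
      set C := brow K W Y.length c x y f (i + 1) d + 1 with hC
      have hcase : min K (min A (min B C)) = A ∨ min K (min A (min B C)) = B ∨
          min K (min A (min B C)) = C := by
        omega
      rcases hcase with hc | hc | hc
      · rw [hc] at h ⊢
        have h1 : brow K W Y.length c x y f i (d + 1) ≤ A := by
          rw [hA, ext, if_pos hd]; omega
        obtain ⟨hv', u, hu, hu1, hu2, hu3⟩ := ih (by omega) (d + 1) hd (by omega)
        refine ⟨u, hu, hu1, by omega, ?_⟩
        have hj : c + u - W + (i + (d + 1) - u) < Y.length := by omega
        have hY : (Y.drop (c + u - W)).take (i + 1 + (d + 1) - u) =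
            (Y.drop (c + u - W)).take (i + (d + 1) - u) ++ [Y[c + u - W + (i + (d + 1) - u)]] := by
          have := List.take_succ_eq_append_getElem (l := Y.drop (c + u - W)) (i := i + (d + 1) - u)
            (by rw [List.length_drop]; omega)
          rw [show i + 1 + (d + 1) - u = i + (d + 1) - u + 1 by omega, this, List.getElem_drop]
        rw [hX, hY]
        have h2 := ed_snoc_snoc_le (X.take i) ((Y.drop (c + u - W)).take (i + (d + 1) - u)) X[i]
          Y[c + u - W + (i + (d + 1) - u)]
        have h3 : A = brow K W Y.length c x y f i (d + 1) +
            if X[i] = Y[c + u - W + (i + (d + 1) - u)] then 0 else 1 := by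
          rw [hA]
          simp only [ext, if_pos hd]
          have e1 : y (c + i + 1 + (d + 1) - W - 1) = Y[c + u - W + (i + (d + 1) - u)] := by
            rw [← hy]
            congr 1
            omega
          rw [e1, hx i (by omega)]
          have e2 : W < c + i + 1 + (d + 1) := by omega
          simp only [e2, true_and, eq_comm]
        omega
      · rw [hc] at h ⊢
        have h1 : d + 1 + 1 ≤ 2 * W := by
          by_contra h1
          rw [hB, ext, if_neg h1] at h
          omega
        have h2 : B = brow K W Y.length c x y f i (d + 1 + 1) + 1 := by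
          rw [hB, ext, if_pos h1]
        obtain ⟨hv', u, hu, hu1, hu2, hu3⟩ := ih (by omega) (d + 1 + 1) h1 (by omega)
        refine ⟨u, hu, hu1, by omega, ?_⟩
        have h3 := ed_snoc_left_le (X.take i)
          ((Y.drop (c + u - W)).take (i + 1 + (d + 1) - u)) X[i]
        rw [hX]
        rw [show i + (d + 1 + 1) - u = i + 1 + (d + 1) - u by omega] at hu3
        omega
      · rw [hc] at h ⊢
        obtain ⟨hv', u, hu, hu1, hu2, hu3⟩ := ihd (by omega) (by omega)
        refine ⟨u, hu, hu1, by omega, ?_⟩
        have hj : c + u - W + (i + 1 + d - u) < Y.length := by omega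
        have hY : (Y.drop (c + u - W)).take (i + 1 + (d + 1) - u) =
            (Y.drop (c + u - W)).take (i + 1 + d - u) ++ [Y[c + u - W + (i + 1 + d - u)]] := by
          have := List.take_succ_eq_append_getElem (l := Y.drop (c + u - W)) (i := i + 1 + d - u)
            (by rw [List.length_drop]; omega)
          rw [show i + 1 + (d + 1) - u = i + 1 + d - u + 1 by omega, this, List.getElem_drop]
        rw [hY]
        have h3 := ed_snoc_right_le (X.take (i + 1))
          ((Y.drop (c + u - W)).take (i + 1 + d - u)) Y[c + u - W + (i + 1 + d - u)]
        omega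

/-- for a start row that is steep near the two ends, the values are optimal -/
theorem brow_upper (hn : Y.length = n) (hx : ∀ i (h : i < X.length), x i = X[i])
    (hy : ∀ j (h : j < Y.length), y j = Y[j])
    (hK : ∀ d ≤ 2 * W, f d ≤ K)
    (hf1 : ∀ d, d < 2 * W → W ≤ c + d → c + d < W + n → f (d + 1) ≤ f d + 1)
    {u : ℕ} (hu : u ≤ 2 * W) (hu1 : W ≤ c + u)
    (hs1 : K ≤ f u + u + 2) (hs2 : K ≤ f u + (2 * W + 2 - u)) :
    ∀ i, i ≤ X.length → ∀ d, d ≤ 2 * W → c + i + d ≤ W + n → u ≤ i + d →
      brow K W n c x y f i d ≤
        f u + editDist (X.take i) ((Y.drop (c + u - W)).take (i + d - u)) := by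
  subst hn
  intro i
  induction i with
  | zero =>
    intro _ d hd h1 h2
    have key : ∀ k, u + k ≤ 2 * W → c + (u + k) ≤ W + Y.length → f (u + k) ≤ f u + k := by
      intro k
      induction k with
      | zero => intro _ _; exact le_rfl
      | succ k ihk =>
        intro g1 g2
        have g3 := ihk (by omega) (by omega)
        have g4 := hf1 (u + k) (by omega) (by omega) (by omega)
        rw [show u + (k + 1) = u + k + 1 by omega]
        omega
    have h3 := key (d - u) (by omega) (by omega)
    rw [show u + (d - u) = d by omega] at h3
    rw [brow_zero]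
    have h4 : editDist (X.take 0) ((Y.drop (c + u - W)).take (0 + d - u)) = d - u := by
      simp only [List.take_zero, ed_nil_left, List.length_take, List.length_drop]
      omega
    omega
  | succ i ih =>
    intro hi d
    have hX : X.take (i + 1) = X.take i ++ [X[i]] :=
      List.take_succ_eq_append_getElem (by omega)
    induction d with
    | zero =>
      intro hd h1 h2
      rw [brow_succ, if_pos rfl]
      unfold cell
      rw [if_pos (by omega)]
      by_cases hu2 : u = i + 1
      · subst hu2
        have h3 := ih (by omega) (0 + 1) (by omega) (by omega) (by omega)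
        have h4 : ext K W (brow K W Y.length c x y f i) (0 + 1) =
          brow K W Y.length c x y f i (0 + 1) := by rw [ext, if_pos (by omega)]
        simp only [Nat.add_zero, Nat.sub_self, List.take_zero, ed_nil_right, Nat.zero_add] at *
        have e1 : (X.take (i + 1)).length = i + 1 := by rw [List.length_take]; omega
        have e2 : (X.take i).length = i := by rw [List.length_take]; omega
        rw [e1]
        rw [e2] at h3
        omega
      · have hj : c + u - W + (i - u) < Y.length := by omega
        have hY : (Y.drop (c + u - W)).take (i + 1 + 0 - u) =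
            (Y.drop (c + u - W)).take (i - u) ++ [Y[c + u - W + (i - u)]] := by
          have := List.take_succ_eq_append_getElem (l := Y.drop (c + u - W)) (i := i - u)
            (by rw [List.length_drop]; omega)
          rw [show i + 1 + 0 - u = i - u + 1 by omega, this, List.getElem_drop]
        have e0 : editDist (X.take (i + 1)) ((Y.drop (c + u - W)).take (i + 1 + 0 - u)) =
            min (editDist (X.take i) ((Y.drop (c + u - W)).take (i - u)) +
              if X[i] = Y[c + u - W + (i - u)] then 0 else 1)
            (min (editDist (X.take (i + 1)) ((Y.drop (c + u - W)).take (i - u)) + 1)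
              (editDist (X.take i) ((Y.drop (c + u - W)).take (i + 1 + 0 - u)) + 1)) := by
          rw [hY, hX, ed_snoc_snoc]
        rw [e0]
        have g1 : ext K W (brow K W Y.length c x y f i) 0 +
            (if W < c + i + 1 + 0 ∧ y (c + i + 1 + 0 - W - 1) = x i then 0 else 1) ≤
            f u + (editDist (X.take i) ((Y.drop (c + u - W)).take (i - u)) +
              if X[i] = Y[c + u - W + (i - u)] then 0 else 1) := by
          have g2 := ih (by omega) 0 (by omega) (by omega) (by omega)
          have e1 : y (c + i + 1 + 0 - W - 1) = Y[c + u - W + (i - u)] := by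
            rw [← hy]
            congr 1
            omega
          have e2 : W < c + i + 1 + 0 := by omega
          rw [e1, hx i (by omega)]
          simp only [ext, if_pos (Nat.zero_le (2 * W)), e2, true_and, eq_comm]
          simp only [Nat.add_zero] at g2
          omega
        have g3 : K ≤ f u + (editDist (X.take (i + 1))
            ((Y.drop (c + u - W)).take (i - u)) + 1) := by
          have := length_le_ed' (X.take (i + 1)) ((Y.drop (c + u - W)).take (i - u))
          rw [List.length_take, List.length_take, List.length_drop] at this
          omega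
        have g4 : min K (ext K W (brow K W Y.length c x y f i) (0 + 1) + 1) ≤
            f u + (editDist (X.take i) ((Y.drop (c + u - W)).take (i + 1 + 0 - u)) + 1) := by
          by_cases hd1 : 0 + 1 ≤ 2 * W
          · have g5 := ih (by omega) (0 + 1) hd1 (by omega) (by omega)
            rw [ext, if_pos hd1]
            rw [show i + (0 + 1) - u = i + 1 + 0 - u by omega] at g5
            omega
          · have := length_le_ed (X.take i) ((Y.drop (c + u - W)).take (i + 1 + 0 - u))
            rw [List.length_take, List.length_take, List.length_drop] at this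
            omega
        omega
    | succ d ihd =>
      intro hd h1 h2
      rw [brow_succ, if_neg (by omega), Nat.add_sub_cancel]
      unfold cell
      by_cases hvW : W ≤ c + i + 1 + (d + 1)
      swap
      · omega
      rw [if_pos (by omega)]
      by_cases hu2 : u = i + 1 + (d + 1)
      · have h3 := ih (by omega) (d + 1 + 1) (by omega) (by omega) (by omega)
        have h4 : ext K W (brow K W Y.length c x y f i) (d + 1 + 1) =
          brow K W Y.length c x y f i (d + 1 + 1) := by rw [ext, if_pos (by omega)]
        rw [show i + (d + 1 + 1) - u = 0 by omega, List.take_zero, ed_nil_right,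
          List.length_take] at h3
        rw [show i + 1 + (d + 1) - u = 0 by omega, List.take_zero, ed_nil_right, List.length_take]
        omega
      · have hj : c + u - W + (i + (d + 1) - u) < Y.length := by omega
        have hY : (Y.drop (c + u - W)).take (i + 1 + (d + 1) - u) =
            (Y.drop (c + u - W)).take (i + (d + 1) - u) ++ [Y[c + u - W + (i + (d + 1) - u)]] := by
          have := List.take_succ_eq_append_getElem (l := Y.drop (c + u - W)) (i := i + (d + 1) - u)
            (by rw [List.length_drop]; omega)
          rw [show i + 1 + (d + 1) - u = i + (d + 1) - u + 1 by omega, this, List.getElem_drop]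
        have e0 : editDist (X.take (i + 1)) ((Y.drop (c + u - W)).take (i + 1 + (d + 1) - u)) =
            min (editDist (X.take i) ((Y.drop (c + u - W)).take (i + (d + 1) - u)) +
              if X[i] = Y[c + u - W + (i + (d + 1) - u)] then 0 else 1)
            (min (editDist (X.take (i + 1)) ((Y.drop (c + u - W)).take (i + (d + 1) - u)) + 1)
              (editDist (X.take i) ((Y.drop (c + u - W)).take (i + 1 + (d + 1) - u)) + 1)) := by
          rw [hY, hX, ed_snoc_snoc]
        rw [e0]
        have g1 : ext K W (brow K W Y.length c x y f i) (d + 1) +
            (if W < c + i + 1 + (d + 1) ∧ y (c + i + 1 + (d + 1) - W - 1) = x i then 0 else 1) ≤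
            f u + (editDist (X.take i) ((Y.drop (c + u - W)).take (i + (d + 1) - u)) +
              if X[i] = Y[c + u - W + (i + (d + 1) - u)] then 0 else 1) := by
          have g2 := ih (by omega) (d + 1) hd (by omega) (by omega)
          have e1 : y (c + i + 1 + (d + 1) - W - 1) = Y[c + u - W + (i + (d + 1) - u)] := by
            rw [← hy]
            congr 1
            omega
          have e2 : W < c + i + 1 + (d + 1) := by omega
          rw [e1, hx i (by omega)]
          simp only [ext, if_pos hd, e2, true_and, eq_comm]
          omega
        have g3 : brow K W Y.length c x y f (i + 1) d + 1 ≤ f u + (editDist (X.take (i + 1))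
            ((Y.drop (c + u - W)).take (i + (d + 1) - u)) + 1) := by
          have := ihd (by omega) (by omega) (by omega)
          rw [show i + 1 + d - u = i + (d + 1) - u by omega] at this
          omega
        have g4 : min K (ext K W (brow K W Y.length c x y f i) (d + 1 + 1) + 1) ≤
            f u + (editDist (X.take i) ((Y.drop (c + u - W)).take (i + 1 + (d + 1) - u)) + 1) := by
          by_cases hd1 : d + 1 + 1 ≤ 2 * W
          · have g5 := ih (by omega) (d + 1 + 1) hd1 (by omega) (by omega)
            rw [ext, if_pos hd1]
            rw [show i + (d + 1 + 1) - u = i + 1 + (d + 1) - u by omega] at g5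
            omega
          · have := length_le_ed (X.take i) ((Y.drop (c + u - W)).take (i + 1 + (d + 1) - u))
            rw [List.length_take, List.length_take, List.length_drop] at this
            omega
        omega

/-- start row with the single source `j = 0` (`c = 0`) -/
def start (K W n d : ℕ) : ℕ := if W ≤ d ∧ d ≤ W + n then min K (d - W) else K

/-- single source -/
theorem brow_single (hn : Y.length = n) (hx : ∀ i (h : i < X.length), x i = X[i])
    (hy : ∀ j (h : j < Y.length), y j = Y[j]) (hKW : K ≤ W + 2) {i d : ℕ} (hi : i ≤ X.length)
    (hd : d ≤ 2 * W) :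
    brow K W n 0 x y (start K W n) i d =
      if W ≤ i + d ∧ i + d ≤ W + n then min K (editDist (X.take i) (Y.take (i + d - W)))
      else K := by
  have hle : brow K W n 0 x y (start K W n) i d ≤ K := by
    refine brow_le (fun d _ => ?_) i d hd
    unfold start
    split <;> omega
  have hf : ∀ d ≤ 2 * W, ¬ (W ≤ 0 + d ∧ 0 + d ≤ W + n) → start K W n d = K := by
    intro d _ h
    unfold start
    rw [if_neg (by omega)]
  have hlow := brow_lower (c := 0) (f := start K W n) (K := K) (W := W) hn hx hy hf i hi d hd
  split
  · next hv =>
    apply le_antisymm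
    · refine le_min hle ?_
      have h1 := brow_upper (c := 0) (f := start K W n) (K := K) (W := W) hn hx hy
        (u := W) ?_ ?_ (by omega) (by omega) ?_ ?_ i hi d hd (by omega) (by omega)
      · refine h1.trans (le_of_eq ?_)
        simp [start]
      · intro d _
        unfold start
        split <;> omega
      · intro d _ h2 h3
        unfold start
        rw [if_pos (by omega), if_pos (by omega)]
        omega
      · omega
      · omega
    · by_cases hK : brow K W n 0 x y (start K W n) i d < K
      swap
      · exact (min_le_left _ _).trans (by omega)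
      obtain ⟨h0, u, hu, hu1, hu2, hu3⟩ := hlow hK
      refine (min_le_right _ _).trans (le_trans ?_ hu3)
      have h1 : start K W n u = u - W := by
        unfold start
        rw [if_pos (by omega)]
        have : start K W n u < K := by omega
        unfold start at this
        rw [if_pos (by omega)] at this
        omega
      rw [h1]
      have h2 : Y.take (i + d - W) = (Y.take (u - W)) ++ ((Y.drop (u - W)).take (i + d - u)) := by
        rw [show i + d - W = (u - W) + (i + d - u) by omega, List.take_add]
      rw [h2, show 0 + u - W = u - W by omega]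
      have h3 := ed_append_le [] (Y.take (u - W)) (X.take i) ((Y.drop (u - W)).take (i + d - u))
      simp only [List.nil_append, ed_nil_left, List.length_take] at h3
      omega
  · next hv =>
    by_contra hne
    have hK : brow K W n 0 x y (start K W n) i d < K := lt_of_le_of_ne hle hne
    obtain ⟨h0, _⟩ := hlow hK
    omega

end

end Crest.Agent.R288.Blk944
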