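import Crest.Agent.R288.PotS_644

/-!
# R288: the epoch target with constants affine in `B` (helper644)

`epoch_affine` : `PotS644.epoch_ok` with `F ≤ B V` as the only size of the epoch: all loss constants are
affine in `B` (`CF = cF + CF' B`, ...), the first alternative has the constant `c0 + c1 B`, and the
conclusion is literally the field `ep` of `ChainU616.Ana`: `R ≤ (aR + qR B) V` on `Ω`, with `aR`, `qR`
independent of `B`.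
-/

set_option autoImplicit false

namespace Crest.Agent.R288.PotT644

open Crest.Agent.R288.PotF245 Crest.Agent.R288.PotA245 Crest.Agent.R288.PotS644

/-- the constants of one epoch, none of them depends on `B` -/
structure Cst where
  /-- near loss per window, relative to `F` -/
  κ : ℝ
  /-- far loss per window, relative to `F + drift⁺` -/
  k1 : ℝ
  /-- threshold of a good window -/
  s : ℝ
  /-- weight of the potential -/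
  lam : ℝ
  /-- growth of `V` in one window -/
  ρ : ℝ
  /-- `(1+ρ)^H ≤ 1 + θ` -/
  θ : ℝ
  /-- first alternative `R + lam Φ ≤ (1 + c0 + c1 B) V` -/
  c0 : ℝ
  c1 : ℝ
  /-- `F x' ≤ (f0 + f1 B) V x` -/
  f0 : ℝ
  f1 : ℝ
  /-- defect `d ≤ (d0 + d1 B) V x` -/
  d0 : ℝ
  d1 : ℝ
  /-- loss `e ≤ (e0 + e1 B) V x` -/
  e0 : ℝ
  e1 : ℝ
  /-- distances `≤ (r0 + r1 B) V x` -/
  r0 : ℝ
  r1 : ℝ

/-- `aR` -/
noncomputable def Cst.a (p : Cst) (H : ℕ) : ℝ :=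
  (1 + p.θ) * (1 + p.c0 + (p.κ * p.f0 + (2 * p.lam + p.k1 / p.s) * p.d0 + (p.e0 + 5 * p.lam * p.r0)) * H)

/-- `qR` -/
noncomputable def Cst.q (p : Cst) (H : ℕ) : ℝ :=
  (1 + p.θ) * (p.c1 + (p.κ * p.f1 + (2 * p.lam + p.k1 / p.s) * p.d1 + (p.e1 + 5 * p.lam * p.r1)) * H)

structure Cst.Ok (p : Cst) (H : ℕ) : Prop where
  κ0 : 0 ≤ p.κ
  k10 : 0 ≤ p.k1
  s0 : 0 < p.s
  s1 : p.s ≤ 1
  lam_le : p.k1 * (1 + p.s ^ 2) ≤ p.lam * p.s ^ 2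
  ρ0 : 0 ≤ p.ρ
  θ_le : (1 + p.ρ) ^ H ≤ 1 + p.θ
  c00 : 0 ≤ p.c0
  c10 : 0 ≤ p.c1
  f00 : 0 ≤ p.f0
  f10 : 0 ≤ p.f1
  d00 : 0 ≤ p.d0
  d10 : 0 ≤ p.d1
  e00 : 0 ≤ p.e0
  e10 : 0 ≤ p.e1
  r00 : 0 ≤ p.r0
  r10 : 0 ≤ p.r1

variable {σ : Type*}

/-- the hypothesis of one window at the state `x` of macro height `h + 1`: loss constants `f d e r` -/
def Win (Ok : ℕ → σ → Prop) (F a R V : σ → ℝ) (κ k1 s ρ f d' e' r : ℝ) (h : ℕ) (x : σ) : Prop :=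
  ∃ x' : σ, ∃ l : List σ, ∃ d e : ℝ,
    (∀ y ∈ l, Ok h y) ∧ |a x'| ≤ F x' ∧
    (l.map V).sum ≤ (1 + ρ) * V x ∧
    0 < F x ∧ 0 < F x' ∧ F x' ≤ f * V x ∧
    0 ≤ d ∧ d ≤ d' * V x ∧ e ≤ e' * V x ∧
    |a x - a x'| ≤ r * V x ∧ |F x - F x'| ≤ r * V x ∧
    (l.map a).sum = a x' ∧
    F x' ≤ (l.map F).sum + d ∧
    (En F a (a x' / F x') l ≤ s ^ 2 * F x' →
      (l.map F).sum - F x' ≤ s * F x' → d ≤ s * F x' →
      R x ≤ (l.map R).sum + κ * F x' + e) ∧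
    R x ≤ (l.map R).sum + k1 * (F x' + max ((l.map F).sum - F x') 0) + e

theorem Win.mono {Ok : ℕ → σ → Prop} {F a R V : σ → ℝ} {κ k1 s ρ f d' e' r κ₂ f₂ d₂ e₂ r₂ : ℝ}
    {h : ℕ} {x : σ} (hw : Win Ok F a R V κ k1 s ρ f d' e' r h x) (hV : 0 ≤ V x)
    (hκ : κ ≤ κ₂) (hf : f ≤ f₂) (hd : d' ≤ d₂) (he : e' ≤ e₂) (hr : r ≤ r₂) :
    Win Ok F a R V κ₂ k1 s ρ f₂ d₂ e₂ r₂ h x := by
  obtain ⟨x', l, d, e, hl, hax', hVm, hFx, hF0, hFV, hd0, hdV, heV, har, hFr, hsum, hdd, hnear,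
    hall⟩ := hw
  refine ⟨x', l, d, e, hl, hax', hVm, hFx, hF0, hFV.trans (mul_le_mul_of_nonneg_right hf hV), hd0,
    hdV.trans (mul_le_mul_of_nonneg_right hd hV), heV.trans (mul_le_mul_of_nonneg_right he hV),
    har.trans (mul_le_mul_of_nonneg_right hr hV), hFr.trans (mul_le_mul_of_nonneg_right hr hV),
    hsum, hdd, fun h1 h2 h3 => ?_, hall⟩
  have := hnear h1 h2 h3
  have h4 := mul_le_mul_of_nonneg_right hκ hF0.le
  linarith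

/-- **one epoch, affine constants**: literally the field `ep` of `ChainU616.Ana` -/
theorem epoch_affine {Ok : ℕ → σ → Prop} {F a R V : σ → ℝ} (p : Cst) {H : ℕ} (hp : p.Ok H)
    {B : ℝ} (hB : 0 ≤ B)
    (hFa : ∀ h y, Ok h y → |a y| ≤ F y) (hV0 : ∀ h y, Ok h y → 0 ≤ V y)
    (hleaf : ∀ x, Ok 0 x → R x + p.lam * Phi F a x ≤ (1 + (p.c0 + p.c1 * B)) * V x)
    (hstep : ∀ h x, Ok (h + 1) x →
      R x + p.lam * Phi F a x ≤ (1 + (p.c0 + p.c1 * B)) * V x ∨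
      Win Ok F a R V p.κ p.k1 p.s p.ρ (p.f0 + p.f1 * B) (p.d0 + p.d1 * B) (p.e0 + p.e1 * B)
        (p.r0 + p.r1 * B) h x)
    (h : ℕ) (hh : h ≤ H) (x : σ) (hx : Ok h x) :
    R x ≤ (p.a H + p.q H * B) * V x := by
  have hlam0 : 0 ≤ p.lam := by
    have hs2 : (0 : ℝ) < p.s ^ 2 := pow_pos hp.s0 2
    by_contra h
    push Not at h
    have h1 := hp.lam_le
    have h2 := hp.k10
    nlinarith [mul_nonneg h2 hs2.le]
  have hq : 0 ≤ 2 * p.lam + p.k1 / p.s := add_nonneg (by linarith) (div_nonneg hp.k10 hp.s0.le)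
  have hf : 0 ≤ p.f0 + p.f1 * B := add_nonneg hp.f00 (mul_nonneg hp.f10 hB)
  have hd : 0 ≤ p.d0 + p.d1 * B := add_nonneg hp.d00 (mul_nonneg hp.d10 hB)
  have he : 0 ≤ p.e0 + p.e1 * B := add_nonneg hp.e00 (mul_nonneg hp.e10 hB)
  have hr : 0 ≤ p.r0 + p.r1 * B := add_nonneg hp.r00 (mul_nonneg hp.r10 hB)
  have hc : 0 ≤ p.c0 + p.c1 * B := add_nonneg hp.c00 (mul_nonneg hp.c10 hB)
  have key := epoch_ok (Ok := Ok) (F := F) (a := a) (R := R) (V := V) (k1 := p.k1) (κ := p.κ)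
    (s := p.s) (lam := p.lam) (c := p.c0 + p.c1 * B) (CF := p.f0 + p.f1 * B)
    (kd := p.d0 + p.d1 * B) (κe := p.e0 + p.e1 * B) (r := p.r0 + p.r1 * B) (ρ := p.ρ) (θ := p.θ)
    (H := H) hFa hV0 hp.k10 hp.κ0 hp.s0 hp.s1 hc hp.ρ0 hp.lam_le le_rfl
    (by
      have h1 := mul_nonneg hp.κ0 hf
      have h2 := mul_nonneg hq hd
      have h3 := mul_nonneg (mul_nonneg (by norm_num : (0 : ℝ) ≤ 5) hlam0) hr
      linarith)
    hp.θ_le hleaf hstep h hh x hx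
  refine key.trans (le_of_eq ?_)
  unfold Cst.a Cst.q
  ring

end Crest.Agent.R288.PotT644
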