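import Crest.Agent.R288.AsmC_331
import Crest.Agent.R288.HullB_407
import Crest.Agent.R288.ChainU_616
import Crest.Agent.R288.PotT_644

/-!
# R288, [STM-A] / [ANA] (helper616): the top of the analysis over `Asm331.Cfg`

`C : Asm331.Cfg`, `X` a history, `G : St → ℕ` the exact (lifted) cost, `C₀` the additive constant. For every epoch `e`
* `Fe C X e = FE C.P X e`, `cl C X e y`, `hat C X e y` the own pair of `y`, `dh = dist y hat`,
* `Rp C X e y` = mean over the ranks of `C.R X e k (cl y) (hat y)`, `Rm = dh + Rp` (330's `Rp`, `Rm` of WinH),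
* `Vf G C₀ = G + C₀`, `av = v - u`.

Facts of a good history: `SoundF` ((A4) for the units, 548), `OwnAdm` (131), `Ep` ((A13)-(A14): conclusion of the epoch
theorem, any form), or `Epochs` (the hypotheses of `PotT644.epoch_affine` at every state; `ep_of_epochs`).
Proved here: `F_anti`, `F_start`, **`F_num`** (= `Ana.num`), `ana`, `root_le`, **`ana_block`** = `C.AnaBlock (GoodD ε x y)`.
-/

set_option autoImplicit false

namespace Crest.Agent.R288.StmA616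

open Finset Crest.Agent.R295.Rnd627 Crest.Agent.R288.Alg45 Crest.Agent.R288.PotT644
open Crest.Agent.R288.PotF245 Crest.Agent.R288.Asm331 Crest.Agent.R288.Dom20

/-- displacement -/
def av (y : St) : ℝ := y.v - y.u

theorem abs_av (y : St) : |av y| = ((y.v - y.u).natAbs : ℝ) := by
  unfold av
  rw [Nat.cast_natAbs]
  push_cast
  rfl

/-- `V = G + C₀` -/
def Vf (G : St → ℕ) (C₀ : ℕ) (y : St) : ℝ := G y + C₀

theorem Vf_nonneg (G : St → ℕ) (C₀ : ℕ) (y : St) : 0 ≤ Vf G C₀ y := by unfold Vf; positivity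

section defs

variable (C : Cfg) (X : ℕ → ℕ × St → ℕ)

/-- unit function of epoch `e` -/
def Fe (e : ℕ) : St → ℕ := FE C.P X e

/-- class of `y` in epoch `e` -/
def cl (e : ℕ) (y : St) : ℕ := cls (FE C.P X e) y

/-- `y` rounded to the grid of its class -/
def hat (e : ℕ) (y : St) : St := rdn C.P (cls (FE C.P X e) y) y

/-- distance to the own grid state -/
def dh (e : ℕ) (y : St) : ℕ := Alg45.dist y (hat C X e y)

/-- mean number of the own pair -/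
noncomputable def Rp (e : ℕ) (y : St) : ℝ :=
  (∑ k ∈ range C.P.K, C.R X e k (cl C X e y) (hat C X e y)) / C.P.K

/-- mean arrival number in own label -/
noncomputable def Rm (e : ℕ) (y : St) : ℝ := dh C X e y + Rp C X e y

/-! ### facts of a history -/

/-- **[INIT]** the start factor -/
def StartU (C : Cfg) (G : St → ℕ) (C₀ : ℕ) (B₀ : ℝ) : Prop :=
  ∀ y w, InD C.P.N C.I C.P.Dm y → C.GU y w → (w : ℝ) ≤ B₀ * Vf G C₀ y

/-- **(A4)** for the units -/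
def SoundF (G : St → ℕ) : Prop :=
  ∀ e ≤ C.P.E, ∀ y, InD C.P.N C.I C.P.Dm y → G y ≤ FE C.P X e y

/-- the own pair of a state of the domain `Ok` is a pair of the domain and admissible; its grid divides the box -/
def OwnAdm (Ok : St → Prop) : Prop := ∀ e < C.P.E, ∀ y, Ok y →
  cl C X e y ≤ C.K0 ∧ gst C.P (cl C X e y) ∣ C.P.Dm ∧
    adm C.P (FE C.P X e) (cl C X e y) (hat C X e y) = true

/-- **(A13)-(A14)**: the epoch bound for all epochs, any form of the epoch theorem -/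
def Ep (G : St → ℕ) (C₀ : ℕ) (Ok : St → Prop) (aR qR B₀ : ℝ) : Prop :=
  ∀ e, e + 2 ≤ C.P.E → ∀ B, 1 ≤ B → B ≤ B₀ →
    (∀ y, Ok y → (FE C.P X e y : ℝ) ≤ B * Vf G C₀ y) →
    (∀ y, Ok y → (FE C.P X (e + 1) y : ℝ) ≤ B * Vf G C₀ y) →
    ∀ y, Ok y → Rm C X (e + 1) y ≤ (aR + qR * B) * Vf G C₀ y

/-- domain of the analysis at one macro height -/
def OkH (Ok : St → Prop) (h : ℕ) (y : St) : Prop := y.i = h ∧ Ok y

/-- **(A13)** one window of epoch `e` at the state `x`, factor `B`: first alternative (leaf, height `0`, R1) or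
`PotT644.Win` -/
def WinAt (G : St → ℕ) (C₀ : ℕ) (Ok : St → Prop) (w : Cst) (e : ℕ) (B : ℝ) (x : St) : Prop :=
  Rm C X e x + w.lam * Phi (fun y => (FE C.P X e y : ℝ)) av x
      ≤ (1 + (w.c0 + w.c1 * B)) * Vf G C₀ x ∨
    (1 ≤ x.i ∧ Win (OkH Ok) (fun y => (FE C.P X e y : ℝ)) av (Rm C X e) (Vf G C₀) w.κ w.k1 w.s w.ρ
      (w.f0 + w.f1 * B) (w.d0 + w.d1 * B) (w.e0 + w.e1 * B) (w.r0 + w.r1 * B) (x.i - 1) x)

/-- **(A13)** for all epochs -/
def Epochs (G : St → ℕ) (C₀ : ℕ) (Ok : St → Prop) (w : Cst) (B₀ : ℝ) : Prop :=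
  ∀ e, e + 2 ≤ C.P.E → ∀ B, 1 ≤ B → B ≤ B₀ →
    (∀ y, Ok y → (FE C.P X e y : ℝ) ≤ B * Vf G C₀ y) →
    (∀ y, Ok y → (FE C.P X (e + 1) y : ℝ) ≤ B * Vf G C₀ y) →
    ∀ x, Ok x → WinAt C X G C₀ Ok w (e + 1) B x

end defs

variable {C : Cfg} {X : ℕ → ℕ × St → ℕ} {G : St → ℕ} {C₀ : ℕ} {Ok : St → Prop}

/-! ### consequences -/

theorem F_anti (e : ℕ) (y : St) : FE C.P X (e + 1) y ≤ FE C.P X e y := HullB407.FNext_le_F _ _ _

theorem FE_zero_le (y : St) : FE C.P X 0 y ≤ X 0 (0, y) :=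
  HullB407.hull_le_F (fun z => X 0 (0, z)) (fun _ z => X 0 (0, z)) y

theorem mem_pair {κ : ℕ} {y : St} (hκ : κ ≤ C.K0) (hy : InD C.P.N C.I C.P.Dm y) :
    (κ, y) ∈ OmP C.P.N C.I C.P.Dm C.K0 :=
  (mem_OmP (Nat.two_pow_pos _)).2 ⟨hκ, hy⟩

/-- **[INIT]** -/
theorem F_start {B₀ : ℝ} (hX : C.Good X) (hU : StartU C G C₀ B₀) {y : St}
    (hy : InD C.P.N C.I C.P.Dm y) : (FE C.P X 0 y : ℝ) ≤ B₀ * Vf G C₀ y :=
  le_trans (by exact_mod_cast FE_zero_le y)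
    (hU y _ hy (Cfg.good_init hX (mem_pair (Nat.zero_le _) hy)))

theorem inD_iff {y : St} : inD C.P y ↔ (-(C.P.Dm : ℤ) ≤ y.u ∧ y.u ≤ C.P.Dm) ∧
    (-(C.P.Dm : ℤ) ≤ y.v ∧ y.v ≤ C.P.Dm) := by
  unfold inD
  omega

theorem hat_dom {e : ℕ} {y : St} (hD : gst C.P (cl C X e y) ∣ C.P.Dm)
    (hy : InD C.P.N C.I C.P.Dm y) : InD C.P.N C.I C.P.Dm (hat C X e y) := by
  have h := inD_iff.1 (HullB407.inD_rdn hD (inD_iff.2 ⟨hy.2.2.1, hy.2.2.2⟩))
  exact ⟨hy.1, hy.2.1, h.1, h.2⟩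

/-- own class: `2 ^ cl ≤ F + 1` -/
theorem two_pow_cl (e : ℕ) (y : St) : (2 : ℝ) ^ cl C X e y ≤ FE C.P X e y + 1 := by
  unfold cl cls
  rcases Nat.eq_zero_or_pos (FE C.P X e y) with h | h
  · rw [h]; simp
  · have h1 : 2 ^ Nat.log 2 (FE C.P X e y) ≤ FE C.P X e y := Nat.pow_log_le_self 2 h.ne'
    have h2 : ((2 ^ Nat.log 2 (FE C.P X e y) : ℕ) : ℝ) ≤ FE C.P X e y := by exact_mod_cast h1
    push_cast at h2
    linarith

/-- **(C1)** the next unit is at most the mean arrival number plus the noise of a number -/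
theorem F_num (hK : 0 < C.P.K) (hX : C.Good X) (hO : ∀ y, Ok y → InD C.P.N C.I C.P.Dm y)
    (hA : OwnAdm C X Ok) {e : ℕ} (he : e < C.P.E) {y : St} (hy : Ok y) :
    (FE C.P X (e + 1) y : ℝ) ≤ Rm C X e y + 2 / 2 ^ C.P.nb * FE C.P X e y + 5 := by
  obtain ⟨h1, h2, h3⟩ := hA e he y hy
  have hyd := hO y hy
  have hz := hat_dom (X := X) (e := e) h2 hyd
  have h4 : FE C.P X (e + 1) y ≤
      dh C X e y + Xbar C.P (Xe C.P X e) (cl C X e y) (hat C X e y) :=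
    HullB407.FNext_le_own (X := Xe C.P X e) h2 (inD_iff.2 ⟨hyd.2.2.1, hyd.2.2.2⟩)
  have h5 : (FE C.P X (e + 1) y : ℝ) ≤
      dh C X e y + Xbar C.P (Xe C.P X e) (cl C X e y) (hat C X e y) := by
    exact_mod_cast h4
  have h6 := HullB407.Xbar_le hK (Xe C.P X e) (cl C X e y) (hat C X e y)
  have hK' : (0 : ℝ) < C.P.K := by exact_mod_cast hK
  have hnb : 0 < 2 ^ C.P.nb := Nat.two_pow_pos _
  have hsh : ((cdiv (2 ^ cl C X e y) (2 ^ C.P.nb) : ℕ) : ℝ) ≤ 2 ^ cl C X e y / 2 ^ C.P.nb + 1 := by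
    have h := cdiv_cast_lt' (2 ^ cl C X e y) hnb
    push_cast at h
    linarith
  have h7 : (∑ k ∈ range C.P.K, (Xe C.P X e k (cl C X e y) (hat C X e y) : ℝ)) / C.P.K
      ≤ (∑ k ∈ range C.P.K, C.R X e k (cl C X e y) (hat C X e y)) / C.P.K
        + (2 * (2 ^ cl C X e y / 2 ^ C.P.nb) + 2) := by
    rw [div_add' _ _ _ hK'.ne', div_le_div_iff_of_pos_right hK']
    calc ∑ k ∈ range C.P.K, (Xe C.P X e k (cl C X e y) (hat C X e y) : ℝ)
        ≤ ∑ k ∈ range C.P.K, (C.R X e k (cl C X e y) (hat C X e y)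
          + (2 * (2 ^ cl C X e y / 2 ^ C.P.nb) + 2)) := by
          refine sum_le_sum fun k hk => ?_
          have h8 := (Cfg.good_num hX he (mem_range.1 hk) (mem_pair h1 hz) h3).2
          show ((X (idx C.P e k) (cl C X e y, hat C X e y) : ℕ) : ℝ) ≤ _
          linarith
      _ = _ := by
          rw [sum_add_distrib, sum_const, card_range, nsmul_eq_mul]
          ring
  have h9 := two_pow_cl (C := C) (X := X) e y
  have h10 : 2 * ((2 : ℝ) ^ cl C X e y / 2 ^ C.P.nb) ≤ 2 / 2 ^ C.P.nb * FE C.P X e y + 2 := by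
    have e1 : 2 * ((2 : ℝ) ^ cl C X e y / 2 ^ C.P.nb) = 2 / 2 ^ C.P.nb * 2 ^ cl C X e y := by ring
    have hn : (1 : ℝ) ≤ 2 ^ C.P.nb := one_le_pow₀ (by norm_num)
    have h11 : (2 : ℝ) / 2 ^ C.P.nb ≤ 2 := by
      rw [div_le_iff₀ (by positivity)]
      nlinarith
    have h12 : (0 : ℝ) ≤ 2 / 2 ^ C.P.nb := by positivity
    rw [e1]
    calc 2 / 2 ^ C.P.nb * (2 : ℝ) ^ cl C X e y ≤ 2 / 2 ^ C.P.nb * (FE C.P X e y + 1) :=
          mul_le_mul_of_nonneg_left h9 h12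
      _ ≤ _ := by nlinarith
  unfold Rm Rp
  linarith
where
  cdiv_cast_lt' {b : ℕ} (a : ℕ) (hb : 0 < b) : (cdiv a b : ℝ) < (a : ℝ) / b + 1 := by
    have hb' : (0 : ℝ) < b := by exact_mod_cast hb
    rw [div_add_one hb'.ne', lt_div_iff₀ hb']
    have h : cdiv a b * b < a + b := by
      have := Nat.div_mul_le_self (a + (b - 1)) b
      unfold cdiv
      omega
    exact_mod_cast h

/-- **(A14)** the epoch bound from the window inequalities -/
theorem ep_of_epochs {w : Cst} {B₀ : ℝ} (hw : w.Ok C.I) (hO : ∀ y, Ok y → InD C.P.N C.I C.P.Dm y)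
    (hS : SoundF C X G) (hG : ∀ y, (y.v - y.u).natAbs ≤ G y) (hE : Epochs C X G C₀ Ok w B₀) :
    Ep C X G C₀ Ok (w.a C.I) (w.q C.I) B₀ := by
  intro e he B hB1 hB h0 h1 y hy
  have hwin := hE e he B hB1 hB h0 h1
  refine epoch_affine (Ok := OkH Ok) (F := fun y => (FE C.P X (e + 1) y : ℝ)) (a := av)
    (R := Rm C X (e + 1)) (V := Vf G C₀) w hw (B := B) (by linarith) ?_
    (fun _ y _ => Vf_nonneg G C₀ y) ?_ ?_ y.i (hO y hy).1 y ⟨rfl, hy⟩
  · intro h z hz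
    have h2 := (hG z).trans (hS (e + 1) (by omega) z (hO z hz.2))
    show |av z| ≤ (FE C.P X (e + 1) z : ℝ)
    rw [abs_av]
    exact_mod_cast h2
  · intro x hx
    rcases hwin x hx.2 with h2 | ⟨h2, -⟩
    · exact h2
    · have := hx.1; omega
  · intro h x hx
    rcases hwin x hx.2 with h2 | ⟨-, h2⟩
    · exact Or.inl h2
    · have e1 : x.i - 1 = h := by have := hx.1; omega
      rw [e1] at h2
      exact Or.inr h2

/-- **the skeleton** `ChainU616.Ana` for a good history -/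
theorem ana {aR qR B₀ : ℝ} (hK : 0 < C.P.K) (hC : 0 < C₀) (hX : C.Good X)
    (hO : ∀ y, Ok y → InD C.P.N C.I C.P.Dm y) (hU : StartU C G C₀ B₀)
    (hA : OwnAdm C X Ok) (hE : Ep C X G C₀ Ok aR qR B₀) :
    ChainU616.Ana Ok (Vf G C₀) (fun e y => (FE C.P X e y : ℝ)) (Rm C X) aR qR (2 / 2 ^ C.P.nb)
      (5 / C₀) B₀ C.P.E where
  V0 := fun y _ => Vf_nonneg G C₀ y
  start := fun _ hy => F_start hX hU (hO _ hy)
  anti := fun e y _ => by exact_mod_cast F_anti e y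
  num := fun e he y hy => by
    have h1 := F_num hK hX hO hA (e := e + 1) (by omega) hy
    have hC' : (0 : ℝ) < C₀ := by exact_mod_cast hC
    have h2 : (5 : ℝ) ≤ 5 / C₀ * Vf G C₀ y := by
      rw [div_mul_eq_mul_div, le_div_iff₀ hC']
      have h3 : (0 : ℝ) ≤ G y := Nat.cast_nonneg _
      unfold Vf
      linarith
    show (FE C.P X (e + 1 + 1) y : ℝ) ≤ _
    linarith
  ep := fun _ he _ hB1 hB h0 h1 _ hy => hE _ he _ hB1 hB h0 h1 _ hy

/-- the numbers of the chain -/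
structure Nums (C : Cfg) (C₀ : ℕ) (Gr : ℕ) (aR qR B₀ δ ε : ℝ) (i : ℕ) : Prop where
  K0 : 0 < C.P.K
  C0 : 0 < C₀
  δ0 : 0 < δ
  δ1 : δ ≤ 1 / 4
  δε : 6 * δ ≤ ε
  a1 : 1 ≤ aR
  q0 : 0 ≤ qR
  aδ : aR + 5 / C₀ ≤ 1 + δ
  qδ : qR + 2 / 2 ^ C.P.nb ≤ δ
  B2 : 2 ≤ B₀
  Bi : B₀ ≤ δ * 4 ^ i
  iE : 2 * i ≤ C.P.E
  root : (C₀ : ℝ) ≤ δ * Gr

/-- **the root** -/
theorem root_le {aR qR B₀ δ ε : ℝ} {i : ℕ} (hN : Nums C C₀ (G C.root) aR qR B₀ δ ε i) (hX : C.Good X)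
    (hO : ∀ y, Ok y → InD C.P.N C.I C.P.Dm y) (hU : StartU C G C₀ B₀)
    (hA : OwnAdm C X Ok) (hE : Ep C X G C₀ Ok aR qR B₀) (hr : Ok C.root) :
    (FE C.P X C.P.E C.root : ℝ) ≤ (1 + ε) * G C.root :=
  (ana hN.K0 hN.C0 hX hO hU hA hE).root hN.δ0 hN.δ1 hN.δε hN.a1 hN.q0 (by positivity)
    (by positivity) hN.aδ hN.qδ hN.B2 hN.Bi hN.iE hr (Nat.cast_nonneg _) rfl hN.root

theorem outNum_eq (hl : C.leaf C.root = none) : outNum C.P C.leaf X C.root = FE C.P X C.P.E C.root := by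
  unfold outNum
  rw [hl]

/-- **[ANA]** from: soundness of the units, admissibility of the own pair, the epoch bound (each for every good
history), the start bound of INIT, the root -/
theorem ana_block {x y : List ℕ} {ε : ℚ} {aR qR B₀ δ : ℝ} {i : ℕ}
    (hN : Nums C C₀ (G C.root) aR qR B₀ δ (ε : ℝ) i)
    (hO : ∀ y, Ok y → InD C.P.N C.I C.P.Dm y) (hU : StartU C G C₀ B₀)
    (hS : ∀ X, C.Good X → SoundF C X G) (hA : ∀ X, C.Good X → OwnAdm C X Ok)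
    (hE : ∀ X, C.Good X → Ep C X G C₀ Ok aR qR B₀) (hr : Ok C.root) (hl : C.leaf C.root = none)
    (hGr : G C.root = Crest.GraphRAM.editDist x y) : C.AnaBlock (Top791.GoodD ε x y) := by
  intro X hX
  rw [outNum_eq hl]
  refine ⟨?_, ?_⟩
  · rw [← hGr]
    exact hS X hX _ le_rfl _ (hO _ hr)
  · rw [← hGr]
    exact root_le hN hX hO hU (hA X hX) (hE X hX) hr

end Crest.Agent.R288.StmA616
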