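import Crest.Agent.R288.Bnd_275
import Crest.Agent.R288.AnaStart_364
import Crest.Agent.R288.StmA_616
import Crest.Agent.R288.DomB_20

/-!
# Row 288, [PROG] P5d (helper734): the hypotheses of the size bounds on a good history

`okBlk C i j` = the blocks of the tree of `C` (`i ≤ I`, `j < N^(I-i)`).

* `hyp_of`       : `Bnd275.Hyp P leaf F (okB)` from `AdmR944.FOk leaf F (InD N I Dm) Λ` and the steps divide `Dm`;
* `hyp_of_good`  : **`Bnd275.Hyp C.P C.leaf (FE C.P X e) (okBlk C)`** for `e ≤ E` from `C.Good X`,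
  `AnaLip364.LipOk`, soundness of the units (548), `HG` (`leaf ≤ FE + 1`), `Dom20.GrdOK C.P C.K0`;
* `hyp_of_sound` : the same with `StmA616.SoundF`.
-/

set_option autoImplicit false

namespace Crest.Agent.R288.BndG734

open Crest.Agent.R288.Alg45 Crest.Agent.R288.Dom20 Crest.Agent.R288.Asm331
open Crest.Agent.R288.AnaLip364 Crest.Agent.R288.AnaStart364

/-- the blocks below a root of macro height `I` -/
def okB (N I : ℕ) (i j : ℕ) : Prop := i ≤ I ∧ j < N ^ (I - i)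

/-- the blocks of the tree of a configuration -/
def okBlk (C : Cfg) : ℕ → ℕ → Prop := okB C.P.N C.I

theorem okB_sub {N I i j q : ℕ} (h : okB N I (i + 1) j) (hq : q < N) : okB N I i (N * j + q) := by
  obtain ⟨h1, h2⟩ := h
  refine ⟨by omega, ?_⟩
  have e : I - i = (I - (i + 1)) + 1 := by omega
  rw [e, pow_succ]
  calc N * j + q < N * j + N := by omega
    _ = (j + 1) * N := by ring
    _ ≤ N ^ (I - (i + 1)) * N := Nat.mul_le_mul_right _ h2

theorem inD_of_okB {P : Par} {I : ℕ} {y : St} (h : okB P.N I y.i y.j) (hD : inD P y) :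
    InD P.N I P.Dm y := by
  obtain ⟨h1, h2⟩ := h
  obtain ⟨h3, h4⟩ := hD
  refine ⟨h1, h2, ?_, ?_⟩ <;> omega

theorem okB_of_InD {N I D : ℕ} {y : St} (h : InD N I D y) : okB N I y.i y.j := ⟨h.1, h.2.1⟩

theorem inD_of_InD {P : Par} {N I : ℕ} {y : St} (h : InD N I P.Dm y) : inD P y := by
  obtain ⟨-, -, h3, h4⟩ := h
  constructor <;> omega

/-- the hypotheses from coercivity, a Lipschitz line and the leaf bound on the domain -/
theorem hyp_of_facts {P : Par} {leaf : St → Option ℕ} {F : St → ℕ} {I : ℕ}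
    (hr : 0 < P.r) (hgJ : 0 < P.gJ) (hmJ : 0 < P.mJ) (hpb : 2 ≤ P.pb)
    (hleaf : ∀ y, InD P.N I P.Dm y → ∀ c, leaf y = some c → c ≤ F y + 1)
    (hdv : ∀ y, InD P.N I P.Dm y → gst P (Alg45.cls F y) ∣ P.Dm)
    (hco : ∀ y, InD P.N I P.Dm y → (y.v - y.u).natAbs ≤ F y)
    (hlip : ∀ y z, InD P.N I P.Dm y → InD P.N I P.Dm z → z.i = y.i → z.j = y.j →
      F z ≤ 2 * (F y + Alg45.dist y z) + 4) : Bnd275.Hyp P leaf F (okB P.N I) :=
  Bnd275.Hyp.of hr hgJ hmJ hpb (fun _ _ _ h hq => okB_sub h hq)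
    (fun y c h hD hc => hleaf y (inD_of_okB h hD) c hc)
    (fun y h hD => by exact_mod_cast hdv y (inD_of_okB h hD))
    (fun y h hD => hco y (inD_of_okB h hD))
    (fun y z h hD hz hi hj => hlip y z (inD_of_okB h hD)
      (inD_of_okB (by rw [hi, hj]; exact h) hz) hi hj)

variable {C : Cfg} {X : ℕ → ℕ × St → ℕ} {x y : List ℕ} {g p L : ℕ} {ζ : ℝ}

/-- **P5d**: the hypotheses of the size bounds on a good history -/
theorem hyp_of_good (h : C.Good X) (hO : LipOk C x y g p L ζ)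
    (hr : 0 < C.P.r) (hgJ : 0 < C.P.gJ) (hmJ : 0 < C.P.mJ) (hpb : 2 ≤ C.P.pb)
    (hDm : ∀ κ ≤ C.K0, Alg45.gst C.P κ ∣ C.P.Dm) {e : ℕ} (he : e ≤ C.P.E)
    (hGF : ∀ s, InD C.P.N C.I C.P.Dm s → GSt442.gst x y C.P.n s ≤ FE C.P X e s)
    (hG : ∀ s, InD C.P.N C.I C.P.Dm s → ∀ c, C.leaf s = some c → c ≤ FE C.P X e s + 1) :
    Bnd275.Hyp C.P C.leaf (FE C.P X e) (okBlk C) := by
  refine hyp_of_facts hr hgJ hmJ hpb hG
    (fun s hs => hDm _ ((Nat.le_add_right _ _).trans (cls_le h hO e hs)))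
    (fun s hs => coer_of hO (hGF s hs)) ?_
  intro s s' hs hs' hi hj
  have h1 := lip' h hO he hs' hs hi hj
  have h2 : (0 : ℝ) ≤ FE C.P X e s + (Alg45.dist s' s : ℕ) := by positivity
  have h3 : (FE C.P X e s' : ℝ) ≤ 2 * (FE C.P X e s + (Alg45.dist s' s : ℕ)) := by
    have := hO.z1
    nlinarith
  have h4 : FE C.P X e s' ≤ 2 * (FE C.P X e s + Alg45.dist s' s) := by exact_mod_cast h3
  rw [HullLipA364.dist_comm s' s] at h4
  omega

/-- the same from 616's soundness of the units -/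
theorem hyp_of_sound (h : C.Good X) (hO : LipOk C x y g p L ζ)
    (hr : 0 < C.P.r) (hgJ : 0 < C.P.gJ) (hmJ : 0 < C.P.mJ) (hpb : 2 ≤ C.P.pb)
    (hDm : ∀ κ ≤ C.K0, Alg45.gst C.P κ ∣ C.P.Dm)
    (hS : StmA616.SoundF C X (GSt442.gst x y C.P.n))
    (hG : ∀ e ≤ C.P.E, ∀ s, InD C.P.N C.I C.P.Dm s → ∀ c, C.leaf s = some c →
      c ≤ FE C.P X e s + 1) {e : ℕ} (he : e ≤ C.P.E) :
    Bnd275.Hyp C.P C.leaf (FE C.P X e) (okBlk C) :=
  hyp_of_good h hO hr hgJ hmJ hpb hDm he (fun s hs => hS e he s hs) (fun s hs => hG e he s hs)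

/-- the same from 944's facts of the unit function (`10 ≤ pb`) -/
theorem hyp_of_FOk {P : Par} {leaf : St → Option ℕ} {F : St → ℕ} {I Λ : ℕ}
    (hr : 0 < P.r) (hgJ : 0 < P.gJ) (hmJ : 0 < P.mJ) (hpb : 10 ≤ P.pb)
    (hF : AdmR944.FOk leaf F (InD P.N I P.Dm) Λ)
    (hdv : ∀ y, InD P.N I P.Dm y → gst P (Alg45.cls F y) ∣ P.Dm) :
    Bnd275.Hyp P leaf F (okB P.N I) := by
  have hD : ∀ y, okB P.N I y.i y.j → inD P y → InD P.N I P.Dm (rdn P (Alg45.cls F y) y) :=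
    fun y hy hDy => rdn_InD P (hdv y (inD_of_okB hy hDy)) (inD_of_okB hy hDy)
  have hFh : ∀ y, okB P.N I y.i y.j → inD P y →
      F (rdn P (Alg45.cls F y) y) ≤ 8 * 2 ^ Alg45.cls F y := by
    intro y hy hDy
    have h1 := hF.lip (rdn P (Alg45.cls F y) y) y (hD y hy hDy) (inD_of_okB hy hDy) rfl rfl
    have hlt : F y < 2 ^ (Alg45.cls F y + 1) := Nat.lt_pow_succ_log_self (by norm_num) _
    rw [pow_succ] at hlt
    rcases Nat.lt_or_ge P.pb (Alg45.cls F y) with hκ | hκ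
    · have h2 := AdmR944.dist_rdn P (Alg45.cls F y) y
      rw [HullLipA364.dist_comm] at h2
      have hg : 1024 * gst P (Alg45.cls F y) ≤ 2 ^ Alg45.cls F y := by
        unfold gst
        calc 1024 * 2 ^ (Alg45.cls F y - P.pb) = 2 ^ (Alg45.cls F y - P.pb + 10) := by
              rw [pow_add]; ring
          _ ≤ 2 ^ Alg45.cls F y := Nat.pow_le_pow_right (by norm_num) (by omega)
      have h8 : 1024 ≤ 2 ^ Alg45.cls F y := by
        calc 1024 = 2 ^ 10 := by norm_num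
          _ ≤ _ := Nat.pow_le_pow_right (by norm_num) (by omega)
      omega
    · rw [AdmR944.rdn_of_le hκ]
      omega
  refine ⟨hr, hgJ, hmJ, fun _ _ _ h hq => okB_sub h hq,
    fun y c h hDy hc => hF.leaf_le y (inD_of_okB h hDy) c hc,
    fun y h hDy => inD_of_InD (hD y h hDy), ?_, hFh⟩
  intro y h hDy
  exact (hF.coer _ (hD y h hDy)).trans (hFh y h hDy)

/-- the same for a configuration, in 829's form -/
theorem hyp_of_FOkG {Λ e : ℕ} (hr : 0 < C.P.r) (hgJ : 0 < C.P.gJ) (hmJ : 0 < C.P.mJ)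
    (hpb : 10 ≤ C.P.pb) (hDm : ∀ κ ≤ C.K0, Alg45.gst C.P κ ∣ C.P.Dm)
    (hF : AdmR944.FOk C.leaf (FE C.P X e) (Dom C.P C.I) Λ)
    (hcl : ∀ s, Dom C.P C.I s → Alg45.cls (FE C.P X e) s + C.P.a2 ≤ C.K0) :
    Bnd275.Hyp C.P C.leaf (FE C.P X e) (okBlk C) :=
  hyp_of_FOk hr hgJ hmJ hpb hF fun s hs => hDm _ ((Nat.le_add_right _ _).trans (hcl s hs))

end Crest.Agent.R288.BndG734
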