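import Crest.Agent.R288.AlgB_45

/-!
# R288, [BND] (helper275): pathwise size bounds of ALG-U (names of AlgA_45 v2.2, AlgB_45 v2.1)

For ARBITRARY lower numbers `X`, an arbitrary unit function `F` with the three properties `Hyp` (they hold on
good tapes) and ALL random words: in a table of class `κ` at macro height `i` every entry at a state `z` is
`F z` (inadmissible) or `≤ 2^κ * bA i` (`arrT_bd`, `bodyT_bd`), `bA (i+1) = 4 + 2^a2 * bB (i+1)`,
`bB (i+1) = N * (4 Creg + 2^du (bA i + 2)) + 5`.  The residue weights telescope: `modu κ κ' * 2^κ' ≤ 2^(κ+du)`.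

* `div_le_of`, `cdiv_le_of`, `all_seqL`, `look_some`, `medMean_le`, `medMean_const` : generic
* `hull_le`, `Wm_le`, `wild_le`, `hv_le`, `VV_le`, `calm_le`, `modal_le`, `regular_F`
* `Hyp`, `bA`, `bB`, `AT`, `BT`, `spw_le`, `body_bd`, `bodyT_bd`, `arrOf_bd`, `arrT_bd`
* `lanePair_bd`, `numPair_bd`, `FNext_le`, `FE_le`
-/

set_option autoImplicit false

namespace Crest.Agent.R288.Bnd275

open Crest.Agent.R295.Rnd627 Crest.Agent.R295.Rnd627.RT Crest.Agent.R288.Alg45

/-! ## elementary functions -/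

theorem foldl_min_le (f : ℕ → ℕ) (l : List ℕ) (a : ℕ) :
    l.foldl (fun m b => min m (f b)) a ≤ a := by
  induction l generalizing a with
  | nil => exact le_rfl
  | cons b l ih => exact (ih _).trans (min_le_left _ _)

theorem lmin_le (a : ℕ) (l : List ℕ) : lmin a l ≤ a := foldl_min_le id l a

theorem foldl_max_mono (f : ℕ → ℕ) (l : List ℕ) (a : ℕ) :
    a ≤ l.foldl (fun m b => max m (f b)) a := by
  induction l generalizing a with
  | nil => exact le_rfl
  | cons b l ih => exact (le_max_left _ _).trans (ih _)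

theorem le_foldl_max (f : ℕ → ℕ) (l : List ℕ) (a : ℕ) {b : ℕ} (hb : b ∈ l) :
    f b ≤ l.foldl (fun m b => max m (f b)) a := by
  induction l generalizing a with
  | nil => cases hb
  | cons c l ih =>
    rcases List.mem_cons.1 hb with rfl | h
    · exact (le_max_right _ _).trans (foldl_max_mono f l _)
    · exact ih _ h

theorem le_maxR {n : ℕ} {f : ℕ → ℕ} {a : ℕ} (ha : a < n) : f a ≤ maxR n f :=
  le_foldl_max _ _ _ (List.mem_range.2 ha)

theorem sumR_eq (n : ℕ) (f : ℕ → ℕ) : sumR n f = ∑ a ∈ Finset.range n, f a := by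
  unfold sumR
  induction n with
  | zero => rfl
  | succ n ih =>
    rw [List.range_succ, List.map_append, List.sum_append, ih, Finset.sum_range_succ]; simp

theorem sumR_le {n b : ℕ} {f : ℕ → ℕ} (h : ∀ a < n, f a ≤ b) : sumR n f ≤ n * b := by
  rw [sumR_eq]
  calc ∑ a ∈ Finset.range n, f a ≤ ∑ a ∈ Finset.range n, b := Finset.sum_le_sum fun a ha =>
        h a (Finset.mem_range.1 ha)
    _ = n * b := by simp

theorem le_sumR {n : ℕ} {f : ℕ → ℕ} {a : ℕ} (ha : a < n) : f a ≤ sumR n f := by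
  rw [sumR_eq]
  exact Finset.single_le_sum (f := f) (fun _ _ => Nat.zero_le _) (Finset.mem_range.2 ha)

theorem sumR_mul_le {n m : ℕ} {w u : ℕ → ℕ} (h : ∀ a < n, u a ≤ m) :
    sumR n (fun z => w z * u z) ≤ m * sumR n w := by
  rw [sumR_eq, sumR_eq, Finset.mul_sum]
  refine Finset.sum_le_sum fun a ha => ?_
  rw [Nat.mul_comm m]
  exact Nat.mul_le_mul_left _ (h a (Finset.mem_range.1 ha))

theorem div_le_of {a m s : ℕ} (h : a ≤ m * s) : a / s ≤ m := by
  rcases Nat.eq_zero_or_pos s with rfl | hs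
  · simp
  · exact (Nat.div_le_iff_le_mul_add_pred hs).2 (by rw [Nat.mul_comm]; omega)

theorem cdiv_le_of {a m s : ℕ} (h : a ≤ m * s) : cdiv a s ≤ m := by
  unfold cdiv
  rcases Nat.eq_zero_or_pos s with rfl | hs
  · simp
  · refine (Nat.div_le_iff_le_mul_add_pred hs).2 ?_
    rw [Nat.mul_comm] at h
    omega

/-- the lists `seqL` produces, entry by entry -/
theorem all_seqL {M : ℕ} {α κ : Type} (t : κ → RT α) (Q : κ → α → Prop) (ks : List κ)
    (h : ∀ k ∈ ks, (t k).All M (Q k)) :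
    (seqL (ks.map t)).All M fun res => List.Forall₂ Q ks res := by
  induction ks with
  | nil => exact List.Forall₂.nil
  | cons k ks ih =>
    rw [List.map_cons, seqL, All_bind]
    refine (h k (by simp)).mono fun a ha => ?_
    rw [All_bind]
    exact (ih fun k' hk' => h k' (by simp [hk'])).mono fun l hl => List.Forall₂.cons ha hl

theorem look_some {α κ : Type} [DecidableEq κ] [Inhabited α] {Q : κ → α → Prop} {ks : List κ}
    {res : List α} (h : List.Forall₂ Q ks res) {k : κ} {T : α} (hk : look ks res k = some T) :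
    k ∈ ks ∧ Q k T := by
  unfold look at hk
  induction h with
  | nil => simp at hk
  | @cons a b l₁ l₂ hab _ ih =>
    rw [List.zip_cons_cons, List.lookup_cons] at hk
    by_cases hka : k = a
    · subst hka
      simp only [BEq.rfl, Option.some.injEq] at hk
      subst hk
      exact ⟨by simp, hab⟩
    · have : (k == a) = false := by simpa using hka
      rw [this] at hk
      have := ih hk
      exact ⟨by simp [this.1], this.2⟩

/-! ## medians of means -/

theorem mem_ins {a b : ℕ} {l : List ℕ} (h : b ∈ ins a l) : b = a ∨ b ∈ l := by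
  induction l with
  | nil => simpa [ins] using h
  | cons c l ih =>
    unfold ins at h
    split at h
    · simpa using h
    · rcases List.mem_cons.1 h with rfl | h
      · simp
      · rcases ih h with rfl | h
        · simp
        · simp [h]

theorem mem_isort {b : ℕ} {l : List ℕ} (h : b ∈ isort l) : b ∈ l := by
  induction l with
  | nil => exact absurd h (by simp [isort])
  | cons c l ih =>
    unfold isort at h ih
    rw [List.foldr_cons] at h
    rcases mem_ins h with rfl | h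
    · simp
    · exact List.mem_cons_of_mem _ (ih h)

theorem getD_le {l : List ℕ} {b : ℕ} (h : ∀ a ∈ l, a ≤ b) (i : ℕ) : l.getD i 0 ≤ b := by
  rw [List.getD_eq_getElem?_getD]
  by_cases hi : i < l.length
  · rw [List.getElem?_eq_getElem hi]
    exact h _ (List.getElem_mem hi)
  · rw [List.getElem?_eq_none (by omega)]
    exact Nat.zero_le _

theorem med_le {l : List ℕ} {b : ℕ} (h : ∀ a ∈ l, a ≤ b) : med l ≤ b :=
  getD_le (fun a ha => h a (mem_isort ha)) _

theorem medMean_le {G M b : ℕ} {x : ℕ → ℕ → ℕ} (h : ∀ s < G, ∀ a < M, x s a ≤ b) :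
    medMean G M x ≤ b := by
  refine med_le fun c hc => ?_
  obtain ⟨s, hs, rfl⟩ := List.mem_map.1 hc
  exact div_le_of (by
    have := sumR_le (n := M) (b := b) (f := x s) fun a ha => h s (List.mem_range.1 hs) a ha
    rwa [Nat.mul_comm] at this)

theorem ins_length (a : ℕ) (l : List ℕ) : (ins a l).length = l.length + 1 := by
  induction l with
  | nil => rfl
  | cons c l ih =>
    unfold ins
    split
    · simp
    · simp [ih]

theorem isort_length (l : List ℕ) : (isort l).length = l.length := by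
  induction l with
  | nil => rfl
  | cons c l ih =>
    have : isort (c :: l) = ins c (isort l) := rfl
    rw [this, ins_length, ih, List.length_cons]

theorem med_const {l : List ℕ} {b : ℕ} (h : ∀ a ∈ l, a = b) (hl : l ≠ []) : med l = b := by
  unfold med
  have hlen : l.length / 2 < (isort l).length := by
    rw [isort_length]
    exact Nat.div_lt_self (List.length_pos_iff.2 hl) (by norm_num)
  rw [List.getD_eq_getElem _ _ hlen]
  exact h _ (mem_isort (List.getElem_mem hlen))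

theorem sumR_const {n b : ℕ} {f : ℕ → ℕ} (h : ∀ a < n, f a = b) : sumR n f = n * b := by
  rw [sumR_eq, Finset.sum_congr rfl fun a ha => h a (Finset.mem_range.1 ha)]
  simp

theorem medMean_const {G M b : ℕ} (hG : 0 < G) (hM : 0 < M) {x : ℕ → ℕ → ℕ}
    (h : ∀ s < G, ∀ a < M, x s a = b) : medMean G M x = b := by
  refine med_const (fun c hc => ?_) (by simp; omega)
  obtain ⟨s, hs, rfl⟩ := List.mem_map.1 hc
  rw [sumR_const fun a ha => h s (List.mem_range.1 hs) a ha]
  exact Nat.mul_div_cancel_left _ hM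

/-! ## the deterministic functions -/

variable (P : Par)

theorem hull_le (F : St → ℕ) (f : ℕ → St → ℕ) (y : St) : hull P F f y ≤ F y := lmin_le _ _

theorem Wm_le (F : ℕ) (V : ℕ → ℕ) (i : ℕ) : Wm F V i ≤ F := by
  induction i with
  | zero => exact le_rfl
  | succ i ih => exact (min_le_left _ _).trans ih

theorem wild_le (F : St → ℕ) (X : ℕ → ℕ → St → ℕ) (κ : ℕ) (x : St) (i : ℕ) :
    wild P F X κ x i ≤ F x := Wm_le _ _ _

theorem hv_le {gn gd B U m i : ℕ} {w0 : ℕ → ℕ} {us : ℕ → ℕ → ℕ} (h : ∀ z < B, us i z ≤ m) :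
    hv gn gd B U w0 us i ≤ m := cdiv_le_of (sumR_mul_le h)

theorem VV_le {γ B e i : ℕ} {U : ℕ → ℕ → ℕ} {E : ℕ → ℕ → ℕ → ℕ → ℕ} (t : ℕ) :
    ∀ p, (∀ q a b, 2 ^ t * p ≤ q → q < 2 ^ t * (p + 1) → a < B → b < B → E i q a b ≤ e) →
      ∀ a b, a < B → b < B → VV γ B U E t i p a b ≤ 2 ^ t * e := by
  induction t with
  | zero =>
    intro p h a b ha hb
    simpa [VV] using h p a b (by simp) (by simp) ha hb
  | succ t ih =>
    intro p h a b ha hb
    rw [VV]
    refine hv_le fun z hz => ?_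
    have e1 : 2 ^ (t + 1) * p = 2 ^ t * (2 * p) := by rw [pow_succ]; ring
    have e2 : 2 ^ (t + 1) * (p + 1) = 2 ^ t * (2 * p + 1 + 1) := by rw [pow_succ]; ring
    have e3 : 2 ^ t * (2 * p + 1) = 2 ^ t * (2 * p) + 2 ^ t := by ring
    have e4 : 2 ^ t * (2 * p + 1 + 1) = 2 ^ t * (2 * p + 1) + 2 ^ t := by ring
    have h1 := ih (2 * p) (fun q a b hq hq' => h q a b (by omega) (by omega)) a z ha hz
    have h2 := ih (2 * p + 1) (fun q a b hq hq' => h q a b (by omega) (by omega)) z b hz hb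
    rw [pow_succ]
    linarith

theorem calm_le {F : St → ℕ} {X : ℕ → ℕ → St → ℕ} {k κ e : ℕ} {S : ℕ → ℕ → St → ℕ} {x : St}
    (h : ∀ q a b, q < P.N → a < nlet P F κ x → b < nlet P F κ x →
      numSt P F κ (S q) (npiece P F κ x q a b) ≤ e) :
    calm P F X k S κ x k ≤ P.N * e := by
  unfold calm
  refine VV_le P.n 0 (fun q a b _ hq ha hb => ?_) 0 0 ?_ ?_
  · rw [if_neg (lt_irrefl k)]
    exact h q a b (by simpa [Par.N] using hq) ha hb
  · unfold nlet; omega
  · unfold nlet; omega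

theorem modal_le {F : St → ℕ} {X : ℕ → ℕ → St → ℕ} {k κ e : ℕ} {S : ℕ → ℕ → St → ℕ} {x : St}
    (h : ∀ q a b, q < P.N → a < nlet P F κ x → b < nlet P F κ x →
      numSt P F κ (S q) (npiece P F κ x q a b) ≤ e) (hF : F x ≤ P.N * e) :
    modal P F X k S κ x ≤ P.N * e := by
  unfold modal
  refine hv_le fun z _ => ?_
  by_cases hz : z = 0
  · rw [if_pos hz]; exact calm_le P h
  · rw [if_neg hz]; exact (wild_le P F X κ x k).trans hF

theorem regular_F {F : St → ℕ} {κ : ℕ} {x : St} (h : regular P F κ x) {q a b : ℕ} (hq : q < P.N)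
    (ha : a < nlet P F κ x) (hb : b < nlet P F κ x) : F (npiece P F κ x q a b) ≤ P.Creg * F x := by
  unfold regular at h
  refine le_trans ?_ h
  refine le_trans ?_ (le_sumR hq)
  refine le_trans ?_ (le_maxR ha)
  exact le_maxR (f := fun b => F (npiece P F κ x q a b)) hb

/-! ## domain, cells, reading an entry -/

theorem inD_iff {y : St} : inD P y ↔ (-(P.Dm : ℤ) ≤ y.u ∧ y.u ≤ P.Dm) ∧ -(P.Dm : ℤ) ≤ y.v ∧ y.v ≤ P.Dm := by
  unfold inD; omega

theorem clp_mem (u : ℤ) : -(P.Dm : ℤ) ≤ clp P u ∧ clp P u ≤ P.Dm := by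
  unfold clp; omega

theorem clp_eq {u : ℤ} (h1 : -(P.Dm : ℤ) ≤ u) (h2 : u ≤ P.Dm) : clp P u = u := by
  unfold clp; omega

theorem inD_cst (c : Cel) (t : ℕ) : inD P (cst P c t) :=
  (inD_iff P).2 ⟨clp_mem P _, clp_mem P _⟩

theorem gst_pos (κ : ℕ) : 0 < gst P κ := by unfold gst; positivity

theorem gst_le (κ : ℕ) : gst P κ ≤ 2 ^ κ := Nat.pow_le_pow_right (by norm_num) (by omega)

theorem pos_mem (hr : 0 < P.r) {κ : ℕ} {x : St} (hx : inD P x) (a : ℕ) :
    -(P.Dm : ℤ) ≤ pos P κ x a ∧ pos P κ x a ≤ P.Dm := by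
  have h := (inD_iff P).1 hx
  have hg : (0 : ℤ) < (gst P κ : ℤ) := by exact_mod_cast gst_pos P κ
  have hg' : (gst P κ : ℤ) ≤ 2 ^ κ := by exact_mod_cast gst_le P κ
  have h2 : x.u < rd P κ x.u + (gst P κ : ℤ) := by
    have := Int.lt_ediv_add_one_mul_self x.u hg
    unfold rd
    linarith
  have h3 : (2 : ℤ) ^ κ ≤ P.r * 2 ^ κ := by
    have : (1 : ℤ) ≤ P.r := by exact_mod_cast hr
    nlinarith [show (0 : ℤ) < 2 ^ κ by positivity]
  have hD : (0 : ℤ) ≤ P.Dm := by positivity
  have ha : (0 : ℤ) ≤ a * (gst P κ : ℤ) := by positivity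
  unfold pos whi wlo
  refine ⟨le_min (le_min (by linarith) (by linarith [h.1.1])) ?_,
    (min_le_left _ _).trans (min_le_left _ _)⟩
  have := le_max_left (-(P.Dm : ℤ)) (rd P κ x.u - P.r * 2 ^ κ)
  linarith

theorem cut_mem (hr : 0 < P.r) {κ : ℕ} {x : St} (hx : inD P x) (q a : ℕ) :
    -(P.Dm : ℤ) ≤ cut P κ x q a ∧ cut P κ x q a ≤ P.Dm := by
  have := (inD_iff P).1 hx
  unfold cut
  split
  · exact this.1
  · split
    · exact this.2
    · exact pos_mem P hr hx _

theorem inD_piece (hr : 0 < P.r) {κ : ℕ} {x : St} (hx : inD P x) (q a b : ℕ) :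
    inD P (piece P κ x q a b) :=
  (inD_iff P).2 ⟨cut_mem P hr hx q a, cut_mem P hr hx (q + 1) b⟩

theorem gst_mul_gpt (κ : ℕ) : gst P κ * gpt P κ = 2 ^ κ := by
  unfold gst gpt
  rw [← pow_add]
  congr 1
  omega

theorem rdn_eq {κ : ℕ} {z : St} (h : rdn P κ z = z) :
    (∃ a : ℤ, z.u = a * (gst P κ : ℤ)) ∧ ∃ b : ℤ, z.v = b * (gst P κ : ℤ) := by
  have hu : rd P κ z.u = z.u := congrArg St.u h
  have hv : rd P κ z.v = z.v := congrArg St.v h
  exact ⟨⟨_, hu.symm⟩, ⟨_, hv.symm⟩⟩

/-- a state of the domain on the grid, in the range of its cell, has an entry -/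
theorem entry {κ : ℕ} {z : St} (hg : rdn P κ z = z) (hw : (z.v - z.u).natAbs ≤ 8 * 2 ^ κ)
    (hD : inD P z) : cidx P (celOf κ z) z < csz P κ ∧ cst P (celOf κ z) (cidx P (celOf κ z) z) = z := by
  obtain ⟨⟨a, ha⟩, b, hb⟩ := rdn_eq P hg
  have hD' := (inD_iff P).1 hD
  have hg0 : (0 : ℤ) < (gst P κ : ℤ) := by exact_mod_cast gst_pos P κ
  have hgp : (gst P κ : ℤ) * (gpt P κ : ℤ) = 2 ^ κ := by exact_mod_cast gst_mul_gpt P κ
  have h2 : (0 : ℤ) < 2 ^ κ := by positivity
  set m : ℤ := z.u / 2 ^ κ with hm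
  have hm1 : m * 2 ^ κ ≤ z.u := Int.ediv_mul_le _ h2.ne'
  have hm2 : z.u < (m + 1) * 2 ^ κ := Int.lt_ediv_add_one_mul_self _ h2
  -- the letter of `u`
  have hA : z.u - m * 2 ^ κ = (a - m * gpt P κ) * (gst P κ : ℤ) := by rw [ha, ← hgp]; ring
  have hB : z.v - (m - 8) * 2 ^ κ = (b - (m - 8) * gpt P κ) * (gst P κ : ℤ) := by
    rw [hb, ← hgp]; ring
  set A : ℤ := a - m * gpt P κ with hAd
  set B : ℤ := b - (m - 8) * gpt P κ with hBd
  have hA0 : 0 ≤ A := by
    by_contra hcon
    push Not at hcon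
    nlinarith
  have hA1 : A < gpt P κ := by
    by_contra hcon
    push Not at hcon
    have : (gpt P κ : ℤ) * (gst P κ : ℤ) ≤ A * (gst P κ : ℤ) := mul_le_mul_of_nonneg_right hcon hg0.le
    rw [mul_comm (gpt P κ : ℤ)] at this
    rw [hgp, ← hA] at this
    linarith
  have hw' : |z.v - z.u| ≤ 8 * 2 ^ κ := by
    rw [Int.abs_eq_natAbs]
    exact_mod_cast hw
  have hw1 := abs_le.1 hw'
  have hB0 : 0 ≤ B := by
    by_contra hcon
    push Not at hcon
    have h3 : B * (gst P κ : ℤ) < 0 := by nlinarith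
    rw [← hB] at h3
    nlinarith [hw1.1]
  have hB1 : B < 17 * gpt P κ + 1 := by
    by_contra hcon
    push Not at hcon
    have h3 : (17 * (gpt P κ : ℤ) + 1) * (gst P κ : ℤ) ≤ B * (gst P κ : ℤ) :=
      mul_le_mul_of_nonneg_right hcon hg0.le
    have h4 : (17 * (gpt P κ : ℤ) + 1) * (gst P κ : ℤ) = 17 * 2 ^ κ + gst P κ := by rw [← hgp]; ring
    rw [h4, ← hB] at h3
    nlinarith [hw1.2]
  obtain ⟨An, hAn⟩ := Int.eq_ofNat_of_zero_le hA0
  obtain ⟨Bn, hBn⟩ := Int.eq_ofNat_of_zero_le hB0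
  have hi : cidx P (celOf κ z) z = An * cv P κ + Bn := by
    unfold cidx celOf
    simp only
    rw [← hm, hA, hB, Int.mul_ediv_cancel _ hg0.ne', Int.mul_ediv_cancel _ hg0.ne', hAn, hBn]
    simp
  have hAl : An < gpt P κ := by rw [hAn] at hA1; exact_mod_cast hA1
  have hBl : Bn < cv P κ := by rw [hBn] at hB1; unfold cv; exact_mod_cast hB1
  have hq : (An * cv P κ + Bn) / cv P κ = An := by
    rw [Nat.add_comm, Nat.add_mul_div_right _ _ (by omega), Nat.div_eq_of_lt hBl, Nat.zero_add]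
  have hr : (An * cv P κ + Bn) % cv P κ = Bn := by
    rw [Nat.add_comm, Nat.add_mul_mod_self_right, Nat.mod_eq_of_lt hBl]
  refine ⟨?_, ?_⟩
  · rw [hi]
    unfold csz cu
    calc An * cv P κ + Bn < An * cv P κ + cv P κ := by omega
      _ = (An + 1) * cv P κ := by ring
      _ ≤ gpt P κ * cv P κ := Nat.mul_le_mul_right _ hAl
  · rw [hi]
    unfold cst celOf
    simp only
    rw [hq, hr, ← hm]
    have e1 : m * 2 ^ κ + (An : ℤ) * (gst P κ : ℤ) = z.u := by
      have : (An : ℤ) = A := hAn.symm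
      rw [this, ← hA]; ring
    have e2 : (m - 8) * 2 ^ κ + (Bn : ℤ) * (gst P κ : ℤ) = z.v := by
      have : (Bn : ℤ) = B := hBn.symm
      rw [this, ← hB]; ring
    rw [e1, e2, clp_eq P hD'.1.1 hD'.1.2, clp_eq P hD'.2.1 hD'.2.2]

/-! ## the hypotheses and the bounds -/

/-- what the bounds need of the unit function `F` (true on good tapes: `G ≤ F`, `F` almost Lipschitz);
`okB i j` = the blocks of the tree -/
structure Hyp (leaf : St → Option ℕ) (F : St → ℕ) (okB : ℕ → ℕ → Prop) : Prop where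
  r : 0 < P.r
  gJ : 0 < P.gJ
  mJ : 0 < P.mJ
  sub : ∀ i j q, okB (i + 1) j → q < P.N → okB i (P.N * j + q)
  leaf_le : ∀ y c, okB y.i y.j → inD P y → leaf y = some c → c ≤ F y + 1
  hatD : ∀ y, okB y.i y.j → inD P y → inD P (rdn P (cls F y) y)
  hatw : ∀ y, okB y.i y.j → inD P y →
    ((rdn P (cls F y) y).v - (rdn P (cls F y) y).u).natAbs ≤ 8 * 2 ^ cls F y
  hatF : ∀ y, okB y.i y.j → inD P y → F (rdn P (cls F y) y) ≤ 8 * 2 ^ cls F y

/-- bound of the BODY entries (in units `2^κ`) from the bound `b` of the ARR entries one macro height lower -/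
def bB (b : ℕ) : ℕ := P.N * (4 * P.Creg + 2 ^ P.du * (b + 2)) + 5

/-- bound of the ARR entries at macro height `i`, in units `2^κ` -/
def bA : ℕ → ℕ
  | 0 => 9
  | i + 1 => 4 + 2 ^ P.a2 * bB P (bA i)

/-- entries of an ARR table -/
def AT (F : St → ℕ) (b : ℕ) (c : Cel) (T : List ℕ) : Prop :=
  T.length = csz P c.κ ∧ ∀ t < csz P c.κ, T.getD t 0 ≤ max (F (cst P c t)) (2 ^ c.κ * b)

/-- entries of a BODY table -/
def BT (F : St → ℕ) (b : ℕ) (c : Cel) (T : List ℕ) : Prop :=
  T.length = csz P c.κ ∧ ∀ t < csz P c.κ,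
    (adm P F c.κ (cst P c t) = false → T.getD t 0 = F (cst P c t)) ∧
      (adm P F c.κ (cst P c t) = true → T.getD t 0 ≤ 2 ^ c.κ * b)

theorem adm_F {F : St → ℕ} {κ : ℕ} {x : St} (h : adm P F κ x = true) : F x < 4 * 2 ^ κ := by
  unfold adm at h
  simp only [Bool.and_eq_true, decide_eq_true_eq] at h
  have h1 := h.2
  unfold cls at h1
  calc F x < 2 ^ (Nat.log 2 (F x) + 1) := Nat.lt_pow_succ_log_self (by norm_num) _
    _ ≤ 2 ^ (κ + 2) := Nat.pow_le_pow_right (by norm_num) (by omega)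
    _ = 4 * 2 ^ κ := by rw [pow_add]; ring

theorem adm_w {F : St → ℕ} {κ : ℕ} {x : St} (h : adm P F κ x = true) :
    (x.v - x.u).natAbs ≤ 8 * 2 ^ κ := by
  unfold adm at h
  simp only [Bool.and_eq_true, decide_eq_true_eq] at h
  exact h.1.1.2

theorem adm_g {F : St → ℕ} {κ : ℕ} {x : St} (h : adm P F κ x = true) : rdn P κ x = x := by
  unfold adm at h
  simp only [Bool.and_eq_true, decide_eq_true_eq] at h
  exact h.1.1.1

theorem modu_le {κ κ' : ℕ} (h : κ' ≤ κ + P.du) : modu P κ κ' * 2 ^ κ' ≤ 2 ^ (κ + P.du) := by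
  unfold modu
  rw [← pow_add]
  exact Nat.pow_le_pow_right (by norm_num) (by omega)

theorem dist_rdn_le (κ : ℕ) (y : St) : Alg45.dist y (rdn P κ y) ≤ 2 * 2 ^ κ := by
  have hg : (0 : ℤ) < (gst P κ : ℤ) := by exact_mod_cast gst_pos P κ
  have hl := gst_le P κ
  have hu1 : rd P κ y.u ≤ y.u := Int.ediv_mul_le _ hg.ne'
  have hu2 : y.u < rd P κ y.u + (gst P κ : ℤ) := by
    have := Int.lt_ediv_add_one_mul_self y.u hg
    unfold rd
    linarith
  have hv1 : rd P κ y.v ≤ y.v := Int.ediv_mul_le _ hg.ne'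
  have hv2 : y.v < rd P κ y.v + (gst P κ : ℤ) := by
    have := Int.lt_ediv_add_one_mul_self y.v hg
    unfold rd
    linarith
  unfold Alg45.dist rdn
  simp only
  have hl' : (gst P κ : ℤ) ≤ 2 ^ κ := by exact_mod_cast hl
  have e : ((2 ^ κ : ℕ) : ℤ) = 2 ^ κ := by push_cast; rfl
  have h1 : (y.u - rd P κ y.u).natAbs ≤ 2 ^ κ := by
    have : ((y.u - rd P κ y.u).natAbs : ℤ) ≤ 2 ^ κ := by
      rw [Int.natAbs_of_nonneg (by linarith)]; linarith
    exact_mod_cast this
  have h2 : (y.v - rd P κ y.v).natAbs ≤ 2 ^ κ := by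
    have : ((y.v - rd P κ y.v).natAbs : ℤ) ≤ 2 ^ κ := by
      rw [Int.natAbs_of_nonneg (by linarith)]; linarith
    exact_mod_cast this
  omega

variable {P}
variable {leaf : St → Option ℕ} {F : St → ℕ} {okB : ℕ → ℕ → Prop}

/-- the spawned number of a pair -/
theorem spw_le {b κ κ' q i j : ℕ} {ks : List Key} {res : List (List ℕ)} {z : St} (hb : 8 ≤ b)
    (h : List.Forall₂ (fun (key : Key) T => AT P F b ⟨i, P.N * j + key.q, key.κ, key.m⟩ T) ks res)
    (hi : z.i = i) (hj : z.j = P.N * j + q) (hg : rdn P κ' z = z)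
    (hw : (z.v - z.u).natAbs ≤ 8 * 2 ^ κ') (hD : inD P z) (hF : F z ≤ 8 * 2 ^ κ') :
    spw P κ ks res q κ' z ≤ modu P κ κ' * (2 ^ κ' * b) := by
  unfold spw
  refine cdiv_le_of ?_
  rw [Nat.mul_assoc, Nat.mul_comm (2 ^ κ' * b)]
  refine Nat.mul_le_mul_left _ (sumR_le fun s _ => ?_)
  split
  · rename_i T hT
    have h1 := (look_some h hT).2
    simp only at h1
    obtain ⟨e1, e2⟩ := entry P hg hw hD
    have ec : (⟨i, P.N * j + q, κ', (celOf κ' z).m⟩ : Cel) = celOf κ' z := by
      unfold celOf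
      rw [hi, hj]
    rw [ec] at h1
    have h2 := h1.2 (cidx P (celOf κ' z) z) e1
    rw [e2] at h2
    refine h2.trans (max_le ?_ le_rfl)
    calc F z ≤ 8 * 2 ^ κ' := hF
      _ ≤ 2 ^ κ' * b := by rw [Nat.mul_comm]; exact Nat.mul_le_mul_left _ hb
  · exact Nat.zero_le _

/-- the number of an end piece -/
theorem numSt_le (H : Hyp P leaf F okB) {b κ q i j : ℕ} {ks : List Key} {res : List (List ℕ)}
    {y : St} (hb : 8 ≤ b)
    (h : List.Forall₂ (fun (key : Key) T => AT P F b ⟨i, P.N * j + key.q, key.κ, key.m⟩ T) ks res)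
    (hi : y.i = i) (hj : y.j = P.N * j + q) (hok : okB i (P.N * j + q)) (hD : inD P y) {m : ℕ}
    (hm : F y ≤ m) (hm' : 2 ^ (κ + P.du) * (b + 2) ≤ m) :
    numSt P F κ (spw P κ ks res q) y ≤ m := by
  unfold numSt
  split
  · exact hm
  · rename_i hcl
    push Not at hcl
    have hok' : okB y.i y.j := by rw [hi, hj]; exact hok
    have h1 := spw_le (κ := κ) (q := q) (κ' := cls F y) (z := rdn P (cls F y) y) hb h
      (by rw [← hi]; rfl) (by rw [← hj]; rfl) (by
        unfold rdn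
        simp only [St.mk.injEq, true_and]
        constructor <;>
        · unfold rd
          rw [Int.mul_ediv_cancel _ (by exact_mod_cast (gst_pos P _).ne')])
      (H.hatw y hok' hD) (H.hatD y hok' hD) (H.hatF y hok' hD)
    have h2 := dist_rdn_le P (cls F y) y
    have h3 := modu_le P (κ := κ) (κ' := cls F y) hcl.2
    have h4 : modu P κ (cls F y) * (2 ^ cls F y * b) ≤ 2 ^ (κ + P.du) * b := by
      rw [← Nat.mul_assoc]; exact Nat.mul_le_mul_right _ h3
    have h5 : 2 ^ cls F y ≤ 2 ^ (κ + P.du) := Nat.pow_le_pow_right (by norm_num) hcl.2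
    calc Alg45.dist y (rdn P (cls F y) y) + spw P κ ks res q (cls F y) (rdn P (cls F y) y)
        ≤ 2 * 2 ^ cls F y + modu P κ (cls F y) * (2 ^ cls F y * b) := Nat.add_le_add h2 h1
      _ ≤ 2 * 2 ^ (κ + P.du) + 2 ^ (κ + P.du) * b := Nat.add_le_add (by omega) h4
      _ = 2 ^ (κ + P.du) * (b + 2) := by ring
      _ ≤ m := hm'

theorem cdiv_mix {g a w m : ℕ} (ha : a ≤ m) (hw : w ≤ m) : cdiv ((g - 1) * a + w) g ≤ m := by
  rcases Nat.eq_zero_or_pos g with rfl | hg
  · simp [cdiv]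
  · refine cdiv_le_of ?_
    calc (g - 1) * a + w ≤ (g - 1) * m + m := Nat.add_le_add (Nat.mul_le_mul_left _ ha) hw
      _ = m * g := by
        obtain ⟨g', rfl⟩ : ∃ g', g = g' + 1 := ⟨g - 1, by omega⟩
        simp only [Nat.add_sub_cancel]
        ring

/-- the value of an admissible state after the jump -/
theorem body_bd (H : Hyp P leaf F okB) {b κ i j k : ℕ} {X : ℕ → ℕ → St → ℕ} {ks : List Key}
    {res : List (List ℕ)} {x : St} (hb : 8 ≤ b)
    (h : List.Forall₂ (fun (key : Key) T => AT P F b ⟨i, P.N * j + key.q, key.κ, key.m⟩ T) ks res)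
    (hi : x.i = i + 1) (hj : x.j = j) (hok : okB (i + 1) j) (hD : inD P x)
    (ha : adm P F κ x = true) :
    bodyNum P leaf F X k (spw P κ ks res) κ x ≤ 2 ^ κ * bB P b := by
  have hF := adm_F P ha
  have hN : 1 ≤ P.N := Nat.one_le_two_pow
  have h5 : 4 * 2 ^ κ ≤ 2 ^ κ * bB P b := by
    rw [Nat.mul_comm]
    exact Nat.mul_le_mul_left _ (by unfold bB; omega)
  set e := 2 ^ κ * (4 * P.Creg + 2 ^ P.du * (b + 2)) with he
  have hNe : P.N * e ≤ 2 ^ κ * bB P b := by
    rw [he, bB, Nat.mul_left_comm]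
    exact Nat.mul_le_mul_left _ (Nat.le_add_right _ _)
  have hdu : 1 ≤ 2 ^ P.du := Nat.one_le_two_pow
  have hFe : F x ≤ P.N * e := by
    have h6 : 4 * 2 ^ κ ≤ e := by
      rw [he, Nat.mul_comm]
      refine Nat.mul_le_mul_left _ ?_
      calc 4 ≤ 1 * (b + 2) := by omega
        _ ≤ 2 ^ P.du * (b + 2) := Nat.mul_le_mul_right _ hdu
        _ ≤ _ := Nat.le_add_left _ _
    calc F x ≤ e := by omega
      _ = 1 * e := (Nat.one_mul _).symm
      _ ≤ P.N * e := Nat.mul_le_mul_right _ hN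
  unfold bodyNum
  rw [if_neg (by rw [ha]; simp)]
  split
  · rename_i c hc
    have := H.leaf_le x c (by rw [hi, hj]; exact hok) hD hc
    omega
  · split
    · exact (wild_le P F X κ x k).trans (by omega)
    · rename_i hr
      push Not at hr
      refine (cdiv_mix (m := P.N * e) (modal_le P (fun q a b' hq ha' hb' => ?_) hFe)
        ((wild_le P F X κ x k).trans hFe)).trans hNe
      have hpD : inD P (npiece P F κ x q a b') := inD_piece P H.r hD _ _ _
      refine numSt_le H hb h (y := npiece P F κ x q a b') ?_ ?_ (H.sub i j q hok hq) hpD ?_ ?_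
      · show x.i - 1 = i
        omega
      · show P.N * x.j + q = P.N * j + q
        rw [hj]
      · refine (regular_F P hr.2 hq ha' hb').trans ?_
        rw [he]
        calc P.Creg * F x ≤ P.Creg * (4 * 2 ^ κ) := Nat.mul_le_mul_left _ hF.le
          _ = 2 ^ κ * (4 * P.Creg) := by ring
          _ ≤ _ := Nat.mul_le_mul_left _ (Nat.le_add_right _ _)
      · rw [he, pow_add, Nat.mul_assoc]
        exact Nat.mul_le_mul_left _ (Nat.le_add_left _ _)

theorem q_lt_of_mem_bkeys {κ : ℕ} {m : ℤ} {ρ : ℕ → ℕ → ℕ} {key : Key} (h : key ∈ bkeys P κ m ρ) :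
    key.q < P.N := by
  unfold bkeys at h
  simp only [List.mem_flatMap, List.mem_map, List.mem_range] at h
  obtain ⟨q, hq, κ', _, m', _, s, _, rfl⟩ := h
  exact hq

/-- **BODY tables** -/
theorem bodyT_bd (H : Hyp P leaf F okB) {M b i k : ℕ} {X : ℕ → ℕ → St → ℕ}
    {sub : Cel → RT (List ℕ)} {c : Cel} (hb : 8 ≤ b) (hi : c.i = i + 1) (hok : okB (i + 1) c.j)
    (hsub : ∀ c' : Cel, c'.i = i → okB i c'.j → (sub c').All M (AT P F b c')) :
    (bodyT P leaf F X k sub c).All M (BT P F (bB P b) c) := by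
  unfold bodyT
  rw [All_bind]
  refine All.of_forall fun rs => ?_
  simp only
  rw [All_bind]
  refine (all_seqL (fun key : Key => sub ⟨c.i - 1, P.N * c.j + key.q, key.κ, key.m⟩)
    (fun key T => AT P F b ⟨i, P.N * c.j + key.q, key.κ, key.m⟩ T) _ fun key hkey => ?_).mono
      fun res hres => ?_
  · have e : c.i - 1 = i := by omega
    simp only [e]
    exact hsub _ rfl (H.sub i c.j key.q hok (q_lt_of_mem_bkeys hkey))
  · rw [All_ret]
    refine ⟨by simp [tabC], fun t ht => ?_⟩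
    have hget : (tabC P c fun z => bodyNum P leaf F X k (spw P c.κ (bkeys P c.κ c.m fun q κ' =>
        rs.getD (q * (P.dl + P.du + 1) + (κ' + P.dl - c.κ)) 0 % modu P c.κ κ') res) c.κ z).getD t 0 =
        bodyNum P leaf F X k (spw P c.κ (bkeys P c.κ c.m fun q κ' =>
        rs.getD (q * (P.dl + P.du + 1) + (κ' + P.dl - c.κ)) 0 % modu P c.κ κ') res) c.κ
          (cst P c t) := by
      unfold tabC
      rw [List.getD_eq_getElem _ _ (by simpa using ht)]
      simp
    rw [hget]
    refine ⟨fun ha => ?_, fun ha => ?_⟩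
    · unfold bodyNum
      rw [if_pos ha]
    · exact body_bd H hb hres hi rfl hok (inD_cst P c t) ha

theorem forall2_range {α : Type} {Q : ℕ → α → Prop} {n : ℕ} {B : List α} (d : α)
    (h : List.Forall₂ Q (List.range n) B) : B.length = n ∧ ∀ p < n, Q p (B.getD p d) := by
  have hl : B.length = n := by rw [← h.length_eq, List.length_range]
  refine ⟨hl, fun p hp => ?_⟩
  have h2 := (List.forall₂_iff_get.1 h).2 p (by simpa using hp) (by omega)
  rw [List.getD_eq_getElem _ _ (by omega)]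
  simpa using h2

/-- a joint draw -/
def JB (P : Par) (F : St → ℕ) (b : ℕ) (c : Cel) (B : List (List ℕ)) : Prop :=
  B.length = (acells P c.κ c.m).length ∧ ∀ p < (acells P c.κ c.m).length,
    BT P F b (acell P c p) (B.getD p [])

theorem jdraw_bd {M b : ℕ} {body : Cel → RT (List ℕ)} {c : Cel}
    (h : ∀ p < (acells P c.κ c.m).length, (body (acell P c p)).All M (BT P F b (acell P c p))) :
    (jdraw P body c).All M (JB P F b c) := by
  unfold jdraw
  refine (all_seqL (fun p => body (acell P c p)) (fun p T => BT P F b (acell P c p) T) _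
    fun p hp => h p (List.mem_range.1 hp)).mono fun B hB => ?_
  exact forall2_range [] hB

theorem acell_class {c : Cel} {p : ℕ} (hp : p < (acells P c.κ c.m).length) :
    (acell P c p).κ ≤ c.κ + P.a2 := by
  unfold acell
  simp only
  rw [List.getD_eq_getElem _ _ hp]
  have h := List.getElem_mem hp
  set a := (acells P c.κ c.m)[p] with ha
  clear_value a
  unfold acells at h
  simp only [List.mem_flatMap, List.mem_map] at h
  obtain ⟨κ', hκ', m', _, rfl⟩ := h
  unfold jCl rngC at hκ'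
  simp only [List.mem_map, List.mem_range] at hκ'
  obtain ⟨t, ht, rfl⟩ := hκ'
  simp only
  omega

theorem arrNum_bd (H : Hyp P leaf F okB) {b t : ℕ} {c : Cel} {Es : List (List (List ℕ))}
    {B : List (List ℕ)} (hB : JB P F b c B) (hEl : Es.length = P.gJ * P.mJ)
    (hE : ∀ B' ∈ Es, JB P F b c B') (ht : t < csz P c.κ) :
    arrNum P F c.κ (cst P c t) (jest P Es ((acells P c.κ c.m).idxOf (c.κ, c.m)) t)
      (jent B ((acells P c.κ c.m).idxOf (c.κ, c.m)) t) (jcand P c Es B) ≤
      max (F (cst P c t)) (2 ^ c.κ * (4 + 2 ^ P.a2 * b)) := by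
  unfold arrNum
  split
  · exact le_max_left _ _
  rename_i ha
  have ha' : adm P F c.κ (cst P c t) = true := by simpa using ha
  refine le_trans ?_ (le_max_right _ _)
  have hF := adm_F P ha'
  have ha2 : 1 ≤ 2 ^ P.a2 := Nat.one_le_two_pow
  have e1 : 2 ^ c.κ * (4 + 2 ^ P.a2 * b) = 4 * 2 ^ c.κ + 2 ^ c.κ * (2 ^ P.a2 * b) := by ring
  -- the fresh value of staying
  have hsV : jent B ((acells P c.κ c.m).idxOf (c.κ, c.m)) t ≤ 2 ^ c.κ * (4 + 2 ^ P.a2 * b) := by
    rcases Nat.lt_or_ge ((acells P c.κ c.m).idxOf (c.κ, c.m)) (acells P c.κ c.m).length with hp | hp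
    · have hc : acell P c ((acells P c.κ c.m).idxOf (c.κ, c.m)) = c := by
        unfold acell
        rw [List.getD_eq_getElem _ _ hp, List.getElem_idxOf hp]
      have h1 := hB.2 _ hp
      rw [hc] at h1
      unfold jent
      refine ((h1.2 t ht).2 ha').trans ?_
      rw [e1]
      calc 2 ^ c.κ * b = 2 ^ c.κ * (1 * b) := by rw [Nat.one_mul]
        _ ≤ 2 ^ c.κ * (2 ^ P.a2 * b) := Nat.mul_le_mul_left _ (Nat.mul_le_mul_right _ ha2)
        _ ≤ _ := Nat.le_add_left _ _
    · unfold jent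
      have h0 : B.getD ((acells P c.κ c.m).idxOf (c.κ, c.m)) [] = [] :=
        List.getD_eq_default _ _ (by rw [hB.1]; exact hp)
      rw [h0]
      simp
  simp only
  split
  · exact hsV
  split
  · rw [e1]; omega
  rename_i hnb
  push Not at hnb
  generalize argR (jcand P c Es B).length (jpr (F (cst P c t)) (cst P c t) (jcand P c Es B)) = i0
    at hnb ⊢
  split
  · rename_i z e w hz
    -- the candidate
    have hmem : (z, e, w) ∈ jcand P c Es B := List.mem_of_getElem? hz
    unfold jpr at hnb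
    rw [hz] at hnb
    simp only at hnb
    split at hnb
    · rename_i hd
      unfold jcand at hmem
      simp only [List.mem_flatMap, List.mem_map, List.mem_range, Prod.mk.injEq] at hmem
      obtain ⟨p, hp, t', ht', rfl, rfl, rfl⟩ := hmem
      rcases hadm : adm P F (acell P c p).κ (cst P (acell P c p) t') with _ | _
      · -- not admissible: estimate = value
        have hw : jent B p t' = F (cst P (acell P c p) t') := by
          unfold jent
          exact ((hB.2 p hp).2 t' ht').1 hadm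
        have he : jest P Es p t' = F (cst P (acell P c p) t') := by
          unfold jest
          refine medMean_const H.gJ H.mJ fun s hs a ha => ?_
          have hlt : s * P.mJ + a < Es.length := by
            rw [hEl]
            calc s * P.mJ + a < s * P.mJ + P.mJ := by omega
              _ = (s + 1) * P.mJ := by ring
              _ ≤ P.gJ * P.mJ := Nat.mul_le_mul_right _ hs
          rw [List.getD_eq_getElem _ _ hlt]
          unfold jent
          exact (((hE _ (List.getElem_mem hlt)).2 p hp).2 t' ht').1 hadm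
        rw [hw]
        rw [he] at hnb
        rw [e1]
        omega
      · have hw : jent B p t' ≤ 2 ^ (acell P c p).κ * b := by
          unfold jent
          exact ((hB.2 p hp).2 t' ht').2 hadm
        have hκ := acell_class hp
        have h3 : 2 ^ (acell P c p).κ * b ≤ 2 ^ c.κ * (2 ^ P.a2 * b) := by
          rw [← Nat.mul_assoc, ← pow_add]
          exact Nat.mul_le_mul_right _ (Nat.pow_le_pow_right (by norm_num) hκ)
        rw [e1]
        omega
    · omega
  · exact hsV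

/-- **ARR tables** from BODY tables -/
theorem arrOf_bd (H : Hyp P leaf F okB) {M b : ℕ} {body : Cel → RT (List ℕ)} {c : Cel}
    (h : ∀ c' : Cel, c'.i = c.i → c'.j = c.j → (body c').All M (BT P F b c')) :
    (arrOf P F body c).All M (AT P F (4 + 2 ^ P.a2 * b) c) := by
  have hj : (jdraw P body c).All M (JB P F b c) := jdraw_bd fun p _ => h _ rfl rfl
  unfold arrOf
  rw [All_bind]
  refine (All_reps hj _).mono fun Es hEs => ?_
  rw [All_bind]
  refine hj.mono fun B hB => ?_
  simp only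
  rw [All_ret]
  refine ⟨by simp, fun t ht => ?_⟩
  rw [List.getD_eq_getElem _ _ (by simpa using ht)]
  simp only [List.getElem_map, List.getElem_range]
  exact arrNum_bd H hB hEs.1 hEs.2 ht

/-- **ARR tables, all macro heights** -/
theorem arrT_bd (H : Hyp P leaf F okB) {M k : ℕ} {X : ℕ → ℕ → St → ℕ} (i : ℕ) :
    8 ≤ bA P i ∧ ∀ c : Cel, c.i = i → okB i c.j → (arrT P leaf F X k i c).All M (AT P F (bA P i) c) := by
  induction i with
  | zero =>
    refine ⟨by simp [bA], fun c hi hok => ?_⟩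
    unfold arrT
    rw [All_ret]
    refine ⟨by simp [tabC], fun t ht => ?_⟩
    have hget : (tabC P c fun y => botNum P leaf F c.κ y).getD t 0 =
        botNum P leaf F c.κ (cst P c t) := by
      unfold tabC
      rw [List.getD_eq_getElem _ _ (by simpa using ht)]
      simp
    rw [hget]
    unfold botNum
    split
    · exact le_max_left _ _
    · rename_i ha
      have ha' : adm P F c.κ (cst P c t) = true := by simpa using ha
      refine le_trans ?_ (le_max_right _ _)
      have h1 : 1 ≤ 2 ^ c.κ := Nat.one_le_two_pow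
      rcases hl : leaf (cst P c t) with _ | v
      · have := adm_w P ha'
        simp only [Option.getD_none, bA]
        omega
      · have h2 := H.leaf_le _ v (by
          show okB c.i c.j
          rw [hi]; exact hok) (inD_cst P c t) hl
        have h3 := adm_F P ha'
        simp only [Option.getD_some, bA]
        omega
  | succ i ih =>
    refine ⟨?_, fun c hi hok => ?_⟩
    · rw [bA]
      have : 5 ≤ bB P (bA P i) := by unfold bB; omega
      have h2 : 1 ≤ 2 ^ P.a2 := Nat.one_le_two_pow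
      calc 8 ≤ 4 + 1 * bB P (bA P i) := by omega
        _ ≤ _ := Nat.add_le_add_left (Nat.mul_le_mul_right _ h2) _
    · unfold arrT
      rw [bA]
      refine arrOf_bd H fun c' hi' hj' => ?_
      exact bodyT_bd H ih.1 (by rw [hi', hi]) (by rw [hj']; exact hok) ih.2

/-! ## lanes, numbers, unit functions -/

/-- a lane at an admissible pair of the domain -/
theorem lanePair_bd (H : Hyp P leaf F okB) {M k κ : ℕ} {X : ℕ → ℕ → St → ℕ} {z : St}
    (hok : okB z.i z.j) (hD : inD P z) (ha : adm P F κ z = true) :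
    (lanePair P leaf F X k κ z).All M fun a => a ≤ 2 ^ κ * bA P z.i := by
  unfold lanePair
  rw [All_bind]
  refine ((arrT_bd H z.i).2 (celOf κ z) rfl hok).mono fun T hT => ?_
  rw [All_ret]
  obtain ⟨e1, e2⟩ := entry P (adm_g P ha) (adm_w P ha) hD
  have h1 := hT.2 _ e1
  rw [e2] at h1
  refine h1.trans (max_le ?_ le_rfl)
  have h2 := adm_F P ha
  have h3 := (arrT_bd (M := 0) (k := k) (X := X) H z.i).1
  calc F z ≤ 4 * 2 ^ κ := h2.le
    _ = 2 ^ κ * 4 := Nat.mul_comm _ _
    _ ≤ 2 ^ κ * bA P z.i := Nat.mul_le_mul_left _ (by omega)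

/-- the number of a pair of the domain -/
theorem numPair_bd (H : Hyp P leaf F okB) {M k κ : ℕ} {X : ℕ → ℕ → St → ℕ} {z : St}
    (hok : okB z.i z.j) (hD : inD P z) :
    (numPair P leaf F X k κ z).All M fun a => a ≤ max (F z) (2 ^ κ * (bA P z.i + 2)) := by
  unfold numPair
  split
  · rw [All_ret]
    exact le_max_left _ _
  · rename_i ha
    have ha' : adm P F κ z = true := by simpa using ha
    rw [All_bind]
    refine (All_reps (lanePair_bd (M := M) H hok hD ha') (P.gX * P.mX)).mono fun l hl => ?_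
    rw [All_ret]
    refine le_trans ?_ (le_max_right _ _)
    have h1 : medMean P.gX P.mX (fun a b => l.getD (a * P.mX + b) 0) ≤ 2 ^ κ * bA P z.i :=
      medMean_le fun s _ a _ => getD_le hl.2 _
    have h2 : cdiv (2 ^ κ) (2 ^ P.nb) ≤ 2 ^ κ :=
      cdiv_le_of (Nat.le_mul_of_pos_right _ (Nat.two_pow_pos _))
    have h3 : 1 ≤ 2 ^ κ := Nat.one_le_two_pow
    calc _ ≤ 2 ^ κ * bA P z.i + (2 ^ κ + 2 ^ κ) := Nat.add_le_add h1 (Nat.add_le_add h2 h3)
      _ = 2 ^ κ * (bA P z.i + 2) := by ring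

theorem FNext_le (F : St → ℕ) (X : ℕ → ℕ → St → ℕ) (y : St) : FNext P F X y ≤ F y :=
  hull_le P _ _ _

theorem FE_succ_le (X : ℕ → ℕ × St → ℕ) (e : ℕ) (y : St) : FE P X (e + 1) y ≤ FE P X e y := by
  show FNext P (FE P X e) _ y ≤ _
  exact FNext_le _ _ _

theorem FE_zero_le (X : ℕ → ℕ × St → ℕ) (y : St) : FE P X 0 y ≤ X 0 (0, y) := by
  show hull P _ _ y ≤ _
  exact hull_le P _ _ _

theorem FE_anti (X : ℕ → ℕ × St → ℕ) {e e' : ℕ} (h : e ≤ e') (y : St) :
    FE P X e' y ≤ FE P X e y := by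
  induction e', h using Nat.le_induction with
  | base => exact le_rfl
  | succ n _ ih => exact (FE_succ_le X n y).trans ih

theorem FE_le (X : ℕ → ℕ × St → ℕ) (e : ℕ) (y : St) : FE P X e y ≤ X 0 (0, y) :=
  (FE_anti X (Nat.zero_le e) y).trans (FE_zero_le X y)

/-- an index `l ≥ 1` -/
theorem tapeRT_bd {U : St → RT ℕ} {X : ℕ → ℕ × St → ℕ} {l : ℕ} (hl : l ≠ 0)
    (H : Hyp P leaf (FE P X ((l - 1) / P.K)) okB) {M κ : ℕ} {z : St}
    (hok : okB z.i z.j) (hD : inD P z) :
    (tapeRT P leaf U l X (κ, z)).All M fun a =>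
      a ≤ max (FE P X ((l - 1) / P.K) z) (2 ^ κ * (bA P z.i + 2)) := by
  unfold tapeRT
  rw [if_neg hl]
  exact numPair_bd H hok hD

/-! ## closed form -/

theorem bA_ge (i : ℕ) : 9 ≤ bA P i := by
  induction i with
  | zero => simp [bA]
  | succ i _ =>
    rw [bA]
    have h1 : 5 ≤ bB P (bA P i) := by unfold bB; omega
    have h2 : 1 ≤ 2 ^ P.a2 := Nat.one_le_two_pow
    calc 9 ≤ 4 + 1 * bB P (bA P i) := by omega
      _ ≤ _ := Nat.add_le_add_left (Nat.mul_le_mul_right _ h2) _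

theorem bA_succ_le (i : ℕ) :
    bA P (i + 1) ≤ 2 ^ (P.n + P.du + P.a2) * (P.Creg + 3) * bA P i := by
  have h9 := bA_ge (P := P) i
  rw [bA, bB]
  set b := bA P i
  have e : (2 : ℕ) ^ (P.n + P.du + P.a2) = P.N * 2 ^ P.du * 2 ^ P.a2 := by
    unfold Par.N
    rw [pow_add, pow_add]
  rw [e]
  have hN : 1 ≤ P.N := Nat.one_le_two_pow
  have hd : 1 ≤ 2 ^ P.du := Nat.one_le_two_pow
  have ha : 1 ≤ 2 ^ P.a2 := Nat.one_le_two_pow
  generalize P.N = N at *
  generalize 2 ^ P.du = d at *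
  generalize 2 ^ P.a2 = a at *
  generalize P.Creg = C
  have h1 : 4 ≤ a * 4 := by omega
  have h2 : N * (4 * C) ≤ N * d * (4 * C) := by
    rw [Nat.mul_assoc]
    exact Nat.mul_le_mul_left _ (by nlinarith)
  have h3 : 9 ≤ N * d * 9 := by
    have : 1 ≤ N * d := Nat.one_le_iff_ne_zero.2 (by positivity)
    omega
  calc 4 + a * (N * (4 * C + d * (b + 2)) + 5)
      ≤ a * 4 + a * (N * (4 * C + d * (b + 2)) + 5) := Nat.add_le_add_right h1 _
    _ = a * (N * (4 * C) + N * d * (b + 2) + 9) := by ring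
    _ ≤ a * (N * d * (4 * C) + N * d * (b + 2) + N * d * 9) :=
        Nat.mul_le_mul_left _ (Nat.add_le_add (Nat.add_le_add_right h2 _) h3)
    _ = N * d * a * (4 * C + b + 11) := by ring
    _ ≤ N * d * a * ((C + 3) * b) := Nat.mul_le_mul_left _ (by nlinarith)
    _ = N * d * a * (C + 3) * b := by ring

theorem bA_le (i : ℕ) : bA P i ≤ 9 * (2 ^ (P.n + P.du + P.a2) * (P.Creg + 3)) ^ i := by
  induction i with
  | zero => simp [bA]
  | succ i ih =>
    refine (bA_succ_le i).trans ?_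
    rw [pow_succ]
    calc 2 ^ (P.n + P.du + P.a2) * (P.Creg + 3) * bA P i
        ≤ 2 ^ (P.n + P.du + P.a2) * (P.Creg + 3) *
          (9 * (2 ^ (P.n + P.du + P.a2) * (P.Creg + 3)) ^ i) := Nat.mul_le_mul_left _ ih
      _ = _ := by ring

/-- in powers of two -/
theorem bA_le_two_pow {cr : ℕ} (hcr : P.Creg + 3 ≤ 2 ^ cr) (i : ℕ) :
    bA P i + 2 ≤ 2 ^ (4 + (P.n + P.du + P.a2 + cr) * i) := by
  have h1 := bA_le (P := P) i
  have h2 : 2 ^ (P.n + P.du + P.a2) * (P.Creg + 3) ≤ 2 ^ (P.n + P.du + P.a2 + cr) := by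
    rw [pow_add _ _ cr]
    exact Nat.mul_le_mul_left _ hcr
  have h3 := Nat.pow_le_pow_left h2 i
  rw [← pow_mul] at h3
  have h4 : 1 ≤ 2 ^ ((P.n + P.du + P.a2 + cr) * i) := Nat.one_le_two_pow
  rw [pow_add]
  calc bA P i + 2 ≤ 9 * 2 ^ ((P.n + P.du + P.a2 + cr) * i) + 2 :=
        Nat.add_le_add_right (h1.trans (Nat.mul_le_mul_left _ h3)) _
    _ ≤ 2 ^ 4 * 2 ^ ((P.n + P.du + P.a2 + cr) * i) := by omega

/-! ## where the hypotheses come from -/

theorem rd_mem {κ : ℕ} {u : ℤ} (hd : (gst P κ : ℤ) ∣ (P.Dm : ℤ)) (h1 : -(P.Dm : ℤ) ≤ u)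
    (h2 : u ≤ P.Dm) : -(P.Dm : ℤ) ≤ rd P κ u ∧ rd P κ u ≤ P.Dm := by
  have hg : (0 : ℤ) < (gst P κ : ℤ) := by exact_mod_cast gst_pos P κ
  obtain ⟨d, hd⟩ := hd
  have h3 : rd P κ u ≤ u := Int.ediv_mul_le _ hg.ne'
  refine ⟨?_, h3.trans h2⟩
  have h4 : -d ≤ u / (gst P κ : ℤ) := by
    rw [Int.le_ediv_iff_mul_le hg]
    calc -d * (gst P κ : ℤ) = -(P.Dm : ℤ) := by rw [hd]; ring
      _ ≤ u := h1
  calc -(P.Dm : ℤ) = -d * (gst P κ : ℤ) := by rw [hd]; ring
    _ ≤ u / (gst P κ : ℤ) * (gst P κ : ℤ) := mul_le_mul_of_nonneg_right h4 hg.le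

/-- the hypotheses hold if `F` is coercive, almost Lipschitz (factor 2, constant 4) and `leaf ≤ F + 1` -/
theorem Hyp.of (hr : 0 < P.r) (hgJ : 0 < P.gJ) (hmJ : 0 < P.mJ) (hpb : 2 ≤ P.pb)
    (sub : ∀ i j q, okB (i + 1) j → q < P.N → okB i (P.N * j + q))
    (hleaf : ∀ y c, okB y.i y.j → inD P y → leaf y = some c → c ≤ F y + 1)
    (hdv : ∀ y, okB y.i y.j → inD P y → (gst P (cls F y) : ℤ) ∣ (P.Dm : ℤ))
    (hco : ∀ y, okB y.i y.j → inD P y → (y.v - y.u).natAbs ≤ F y)
    (hlip : ∀ y z, okB y.i y.j → inD P y → inD P z → z.i = y.i → z.j = y.j →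
      F z ≤ 2 * (F y + Alg45.dist y z) + 4) : Hyp P leaf F okB := by
  have hD : ∀ y, okB y.i y.j → inD P y → inD P (rdn P (cls F y) y) := fun y hy hDy => by
    have h := (inD_iff P).1 hDy
    have hg := hdv y hy hDy
    exact (inD_iff P).2 ⟨rd_mem hg h.1.1 h.1.2, rd_mem hg h.2.1 h.2.2⟩
  have hF : ∀ y, okB y.i y.j → inD P y → F (rdn P (cls F y) y) ≤ 8 * 2 ^ cls F y := fun y hy hDy => by
    have h1 := hlip y _ hy hDy (hD y hy hDy) rfl rfl
    have hlt : F y < 2 ^ (cls F y + 1) := Nat.lt_pow_succ_log_self (by norm_num) _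
    rw [pow_succ] at hlt
    rcases Nat.lt_or_ge P.pb (cls F y) with hκ | hκ
    · have hg : 4 * gst P (cls F y) ≤ 2 ^ cls F y := by
        unfold gst
        calc 4 * 2 ^ (cls F y - P.pb) = 2 ^ (cls F y - P.pb + 2) := by rw [pow_add]; ring
          _ ≤ 2 ^ cls F y := Nat.pow_le_pow_right (by norm_num) (by omega)
      have h8 : 8 ≤ 2 ^ cls F y := by
        calc 8 = 2 ^ 3 := by norm_num
          _ ≤ _ := Nat.pow_le_pow_right (by norm_num) (by omega)
      have hd : Alg45.dist y (rdn P (cls F y) y) ≤ 2 * gst P (cls F y) := by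
        have hg0 : (0 : ℤ) < (gst P (cls F y) : ℤ) := by exact_mod_cast gst_pos P _
        have a1 : rd P (cls F y) y.u ≤ y.u := Int.ediv_mul_le _ hg0.ne'
        have a2 : y.u < rd P (cls F y) y.u + (gst P (cls F y) : ℤ) := by
          have := Int.lt_ediv_add_one_mul_self y.u hg0
          unfold rd
          linarith
        have a3 : rd P (cls F y) y.v ≤ y.v := Int.ediv_mul_le _ hg0.ne'
        have a4 : y.v < rd P (cls F y) y.v + (gst P (cls F y) : ℤ) := by
          have := Int.lt_ediv_add_one_mul_self y.v hg0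
          unfold rd
          linarith
        unfold Alg45.dist rdn
        simp only
        omega
      omega
    · have hg : gst P (cls F y) = 1 := by
        unfold gst
        rw [Nat.sub_eq_zero_of_le hκ, pow_zero]
      have he : rdn P (cls F y) y = y := by
        unfold rdn rd
        rw [hg]
        simp
      rw [he]
      omega
  exact ⟨hr, hgJ, hmJ, sub, hleaf, hD, fun y hy hDy =>
    (hco (rdn P (cls F y) y) hy (hD y hy hDy)).trans (hF y hy hDy), hF⟩

end Crest.Agent.R288.Bnd275
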