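import Crest.Agent.R288.BodyZ_72
import Crest.Agent.R288.PgB_578

/-!
# R288, [DELTA] (helper72), BODY in 578's typed layer

* **`body_cz`** : from the three phase equations of `ph` at the arguments `a`, the requests of the
  other procedures and the sizes: `Cz` of BODY with `bodyT`; `body_cz'` with the number of the second
  requests bounded for every choice of the words.
-/

set_option autoImplicit false

namespace Crest.Agent.R288.Delta72

open Crest.Agent.Lib.PT Crest.Agent.R295.Pt949 Crest.Agent.R288.PtY949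
open Crest.Agent.R295.Rnd627 Crest.Agent.R288.Alg45 Crest.Agent.R288.PrK690
open Crest.Agent.R288.Phe940 (Prg Wld fl Rz Rq Rqs Szo kq)
open Crest.Agent.R288.Delta222 Crest.Agent.R288.PgA172 Crest.Agent.R288.Pgb578

variable {P : Par} {G : Prg} {W : Wld} {K : KN} {Z tg n : ℕ} {ph : Ph} {a : Ar} {c : Cel}

theorem wd_one {M Z x : ℕ} (hZ : 1 ≤ Z) (hx : x < M) : Wd M Z [x] :=
  ⟨hZ, by simpa using hx⟩

/-- **BODY** (numbers of requests for every `ρ`) -/
theorem body_cz' (hG : Has G K ph tg) (hE : Env W K Z) (hN : 0 < W.N) (hNM : W.N ≤ W.M)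
    {encA : Cel → List ℕ} {encF encG : St → List ℕ} {encX : ℕ × ℕ × St → List ℕ}
    {leaf : St → Option ℕ} {lf : ℕ → St → Option ℕ} {g : St → ℕ}
    (hl : ∀ y ∈ cells P c, leaf y = lf (g y) y) {F : St → ℕ} {X : ℕ → ℕ → St → ℕ} {k : ℕ}
    {sub : Cel → RT (List ℕ)} {CA CF CX CG nB : ℕ}
    (h0 : ph K tg a [] = .inr ((List.range (nwd P)).map (fun _ => [0]) ++ (bst P c).map encF))
    (h1 : ∀ u0, Q0 P W.N F c u0 → ph K tg a [u0] = .inr
      ((bkeysOf P c (u0.take (nwd P))).map (fun key => encA (bcel P c key)) ++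
        ((xkeys P c k (u0.drop (nwd P))).map encX ++ (cells P c).map encG)))
    (h2 : ∀ u0, Q0 P W.N F c u0 → ∀ u1 : List (List ℕ),
      u1.length = (bkeysOf P c (u0.take (nwd P))).length +
        ((xkeys P c k (u0.drop (nwd P))).length + (cells P c).length) →
      ph K tg a [u0, u1] = .inl (bodyEnd P lf c k u0 u1))
    (hF : ∀ y ∈ bst P c, Rq G W (n + 2) (wrapQ K (encF y)) (.ret [F y]) CF)
    (hA : ∀ ρ, ∀ key ∈ bkeys P c.κ c.m ρ,
      Rq G W (n + 1) (wrapQ K (encA (bcel P c key))) (sub (bcel P c key)) CA)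
    (hX : ∀ a ∈ rpr k (bpr P F c),
      Rq G W (n + 1) (wrapQ K (encX a)) (.ret [X a.1 a.2.1 a.2.2]) CX)
    (hg : ∀ y ∈ cells P c, Rq G W (n + 1) (wrapQ K (encG y)) (.ret [g y]) CG)
    (zA : ∀ ρ, ∀ key ∈ bkeys P c.κ c.m ρ, (sub (bcel P c key)).All W.N (Wd W.M Z))
    (zF : ∀ y ∈ bst P c, F y < W.M) (zG : ∀ y ∈ cells P c, g y < W.M)
    (zX : ∀ a ∈ rpr k (bpr P F c), X a.1 a.2.1 a.2.2 < W.M)
    (yA : ∀ ρ, ∀ key ∈ bkeys P c.κ c.m ρ, Wd W.M Z (encA (bcel P c key)))
    (yF : ∀ y ∈ bst P c, Wd W.M Z (encF y)) (yG : ∀ y ∈ cells P c, Wd W.M Z (encG y))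
    (yX : ∀ a ∈ rpr k (bpr P F c), Wd W.M Z (encX a)) (ha : ArOk W.M tg a)
    (hB : ∀ ρ, (bkeys P c.κ c.m ρ).length ≤ nB)
    (hm0 : nwd P + (bst P c).length ≤ Z)
    (hm1 : ∀ ρ, (bkeys P c.κ c.m ρ).length +
      ((rpr k (bpr P F c)).length + (cells P c).length) ≤ Z)
    (hall : (bodyT P leaf F X k sub c).All W.N (Wd W.M Z)) :
    Cz G W K tg (n + 3) a [] (bodyT P leaf F X k sub c)
      (nwd P * 2 + (bst P c).length * (CF + 1) + (nB * (CA + 1) +
        ((rpr k (bpr P F c)).length * (CX + 1) + (cells P c).length * (CG + 1)) + 2) + 2) := by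
  rw [bodyT_two P leaf lf g F X k sub c hl] at hall ⊢
  have hZ : 1 ≤ Z := by have := hE.Z8; omega
  have hk : ∀ u0, Q0 P W.N F c u0 → xkeys P c k (u0.drop (nwd P)) = rpr k (bpr P F c) := by
    intro u0 h
    rw [h.take, xkeys_eq]
  have hw : ∀ u0, Q0 P W.N F c u0 → u0.length ≤ Z ∧ ∀ u ∈ u0, Wd W.M Z u := by
    rintro u0 ⟨l, e1, e2, rfl⟩
    refine ⟨by simpa [e1] using hm0, fun u hu => ?_⟩
    rcases List.mem_append.1 hu with h | h
    · obtain ⟨r, hr, rfl⟩ := List.mem_map.1 h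
      exact wd_one hZ ((e2 r hr).trans_le hNM)
    · obtain ⟨y, hy, rfl⟩ := List.mem_map.1 h
      exact wd_one hZ (zF y hy)
  have hall' : (ts0 P F c).All W.N fun us => Q0 P W.N F c us ∧
      (ts1 P X k g sub c us).All W.N fun vs => Wd W.M Z (bodyEnd P lf c k us vs) := by
    rw [RT.All_bind] at hall
    refine (ts0_all P W.N F c).and (hall.mono fun us hus => ?_)
    rw [RT.All_bind] at hus
    exact hus
  have hr0 : Rqs G W (n + 2) (((List.range (nwd P)).map (fun _ => [0]) ++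
      (bst P c).map encF).map (wrapQ K)) (ts0 P F c)
      (nwd P * 2 + (bst P c).length * (CF + 1)) := by
    rw [List.map_append, List.map_map, List.map_map]
    exact Rqs.append (Rqs.words (nwd P) (fun _ => wrapQ K [0]) fun _ _ => rfl)
      (Rqs.map_ret_le (bst P c) (wrapQ K ∘ encF) (fun y => [F y]) CF hF)
  refine Cz.stepA hG hE hN h0 hr0 (by simpa using hm0) (fun q hq => ?_) ha SvOk.nil hall'
    (fun us hus => hw us hus.1) fun u0 hu0 => ?_
  · rcases List.mem_append.1 hq with h | h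
    · obtain ⟨_, _, rfl⟩ := List.mem_map.1 h
      exact wd_one hZ (hN.trans_le hNM)
    · obtain ⟨y, hy, rfl⟩ := List.mem_map.1 h
      exact yF y hy
  obtain ⟨hu0, hv⟩ := hu0
  have hr1 : Rqs G W (n + 1) (((bkeysOf P c (u0.take (nwd P))).map
        (fun key => encA (bcel P c key)) ++
      ((xkeys P c k (u0.drop (nwd P))).map encX ++ (cells P c).map encG)).map (wrapQ K))
      (ts1 P X k g sub c u0) (nB * (CA + 1) +
        ((rpr k (bpr P F c)).length * (CX + 1) + (cells P c).length * (CG + 1))) := by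
    unfold ts1
    rw [List.map_append, List.map_append, List.map_map, List.map_map, List.map_map]
    refine (Rqs.append (Rqs.map_le _ (wrapQ K ∘ fun key => encA (bcel P c key))
      (fun key => sub (bcel P c key)) CA (hA _)) (Rqs.append_ret
        (Rqs.map_ret_le _ (wrapQ K ∘ encX) (fun a => [X a.1 a.2.1 a.2.2]) CX ?_)
        (Rqs.map_ret_le _ (wrapQ K ∘ encG) (fun y => [g y]) CG hg))).mono le_rfl ?_
    · rw [hk u0 hu0]
      exact hX
    · rw [hk u0 hu0]
      exact Nat.add_le_add_right (Nat.mul_le_mul_right _ (hB _)) _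
  have hQ1 : (ts1 P X k g sub c u0).All W.N fun u1 =>
      u1.length = (bkeysOf P c (u0.take (nwd P))).length +
        ((xkeys P c k (u0.drop (nwd P))).length + (cells P c).length) ∧
      ∀ u ∈ u1, Wd W.M Z u := by
    unfold ts1
    rw [RT.All_bind]
    refine (all_seqL (p := Wd W.M Z) _ fun t ht => ?_).mono fun us hus => ?_
    · obtain ⟨key, hkey, rfl⟩ := List.mem_map.1 ht
      exact zA _ key hkey
    · refine ⟨?_, fun u hu => ?_⟩
      · rw [List.length_append, hus.1]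
        simp
      · rcases List.mem_append.1 hu with h | h
        · exact hus.2 u h
        · rcases List.mem_append.1 h with h | h
          · obtain ⟨a, ha, rfl⟩ := List.mem_map.1 h
            rw [hk u0 hu0] at ha
            exact wd_one hZ (zX a ha)
          · obtain ⟨y, hy, rfl⟩ := List.mem_map.1 h
            exact wd_one hZ (zG y hy)
  have hsv : SvOk W.M Z ([] ++ [u0]) := SvOk.nil.snoc (by simp) (hw u0 hu0).1 (hw u0 hu0).2
  refine Cz.stepA (C' := 0) hG hE hN (h1 u0 hu0) hr1 ?_ (fun q hq => ?_) ha hsv (hQ1.and hv)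
    (fun u1 hu1 => ?_) fun u1 hu1 => ?_
  · rw [hk u0 hu0]
    have e3 : (bkeysOf P c (u0.take (nwd P))).length +
      ((rpr k (bpr P F c)).length + (cells P c).length) ≤ Z := hm1 _
    rw [List.length_append, List.length_append, List.length_map, List.length_map,
      List.length_map]
    omega
  · rcases List.mem_append.1 hq with h | h
    · obtain ⟨key, hkey, rfl⟩ := List.mem_map.1 h
      exact yA _ key hkey
    · rcases List.mem_append.1 h with h | h
      · obtain ⟨a, ha, rfl⟩ := List.mem_map.1 h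
        rw [hk u0 hu0] at ha
        exact yX a ha
      · obtain ⟨y, hy, rfl⟩ := List.mem_map.1 h
        exact yG y hy
  · obtain ⟨⟨e1, e2⟩, _⟩ := hu1
    rw [hk u0 hu0] at e1
    have e3 : (bkeysOf P c (u0.take (nwd P))).length +
      ((rpr k (bpr P F c)).length + (cells P c).length) ≤ Z := hm1 _
    exact ⟨by rw [e1]; omega, e2⟩
  · exact Cz.stop hG hE (h2 u0 hu0 u1 hu1.1.1) hu1.2

/-- **BODY** -/
theorem body_cz (hG : Has G K ph tg) (hE : Env W K Z) (hN : 0 < W.N) (hNM : W.N ≤ W.M)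
    {encA : Cel → List ℕ} {encF encG : St → List ℕ} {encX : ℕ × ℕ × St → List ℕ}
    {leaf : St → Option ℕ} {lf : ℕ → St → Option ℕ} {g : St → ℕ}
    (hl : ∀ y ∈ cells P c, leaf y = lf (g y) y) {F : St → ℕ} {X : ℕ → ℕ → St → ℕ} {k : ℕ}
    {sub : Cel → RT (List ℕ)} {CA CF CX CG nB : ℕ}
    (h0 : ph K tg a [] = .inr ((List.range (nwd P)).map (fun _ => [0]) ++ (bst P c).map encF))
    (h1 : ∀ u0, Q0 P W.N F c u0 → ph K tg a [u0] = .inr
      ((bkeysOf P c (u0.take (nwd P))).map (fun key => encA (bcel P c key)) ++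
        ((xkeys P c k (u0.drop (nwd P))).map encX ++ (cells P c).map encG)))
    (h2 : ∀ u0, Q0 P W.N F c u0 → ∀ u1 : List (List ℕ),
      u1.length = (bkeysOf P c (u0.take (nwd P))).length +
        ((xkeys P c k (u0.drop (nwd P))).length + (cells P c).length) →
      ph K tg a [u0, u1] = .inl (bodyEnd P lf c k u0 u1))
    (hF : ∀ y ∈ bst P c, Rq G W (n + 2) (wrapQ K (encF y)) (.ret [F y]) CF)
    (hA : ∀ ρ, ∀ key ∈ bkeys P c.κ c.m ρ,
      Rq G W (n + 1) (wrapQ K (encA (bcel P c key))) (sub (bcel P c key)) CA)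
    (hX : ∀ a ∈ rpr k (bpr P F c),
      Rq G W (n + 1) (wrapQ K (encX a)) (.ret [X a.1 a.2.1 a.2.2]) CX)
    (hg : ∀ y ∈ cells P c, Rq G W (n + 1) (wrapQ K (encG y)) (.ret [g y]) CG)
    (zA : ∀ ρ, ∀ key ∈ bkeys P c.κ c.m ρ, (sub (bcel P c key)).All W.N (Wd W.M Z))
    (zF : ∀ y ∈ bst P c, F y < W.M) (zG : ∀ y ∈ cells P c, g y < W.M)
    (zX : ∀ a ∈ rpr k (bpr P F c), X a.1 a.2.1 a.2.2 < W.M)
    (yA : ∀ ρ, ∀ key ∈ bkeys P c.κ c.m ρ, Wd W.M Z (encA (bcel P c key)))
    (yF : ∀ y ∈ bst P c, Wd W.M Z (encF y)) (yG : ∀ y ∈ cells P c, Wd W.M Z (encG y))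
    (yX : ∀ a ∈ rpr k (bpr P F c), Wd W.M Z (encX a)) (ha : ArOk W.M tg a)
    (hB : ∀ ρ, (bkeys P c.κ c.m ρ).length ≤ nB)
    (hm0 : nwd P + (bst P c).length ≤ Z)
    (hm1 : nB + ((rpr k (bpr P F c)).length + (cells P c).length) ≤ Z)
    (hall : (bodyT P leaf F X k sub c).All W.N (Wd W.M Z)) :
    Cz G W K tg (n + 3) a [] (bodyT P leaf F X k sub c)
      (nwd P * 2 + (bst P c).length * (CF + 1) + (nB * (CA + 1) +
        ((rpr k (bpr P F c)).length * (CX + 1) + (cells P c).length * (CG + 1)) + 2) + 2) :=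
  body_cz' hG hE hN hNM hl h0 h1 h2 hF hA hX hg zA zF zG zX yA yF yG yX ha hB hm0
    (fun ρ => (Nat.add_le_add_right (hB ρ) _).trans hm1) hall

end Crest.Agent.R288.Delta72
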