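import Crest.Agent.R288.AlgA_45

/-!
# R288, program side, BODY (helper72): `bodyNum` with the hull numbers as a parameter

The program answers `hull P F (X i) y` by a procedure of its own; the finish function of BODY gets
the end tables `H i y` of the wild values as data.

* `wildH`, `modalH`, `bodyH` : `wild`, `modal`, `bodyNum` with `H i` in the place of `hull P F (X i)`;
  `wild_eq`, `modal_eq`, `bodyNum_eq` (definitional).
-/

set_option autoImplicit false

namespace Crest.Agent.R288.Alg45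

variable (P : Par)

/-- `wild` with the end tables `H i` -/
def wildH (F : St → ℕ) (H : ℕ → St → ℕ) (κ : ℕ) (x : St) (i : ℕ) : ℕ :=
  Wm (F x) (fun i' => Vst P κ x (H i')) i

/-- `modal` with the end tables `H i` -/
def modalH (F : St → ℕ) (X : ℕ → ℕ → St → ℕ) (H : ℕ → St → ℕ) (k : ℕ) (S : ℕ → ℕ → St → ℕ)
    (κ : ℕ) (x : St) : ℕ :=
  hv 1 P.um 2 (F x + 1) (fun z => if z = 0 then P.pm else 1)
    (fun i z => if z = 0 then calm P F X k S κ x i else wildH P F H κ x i) k

/-- `bodyNum` with the end tables `H i` -/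
def bodyH (leaf : St → Option ℕ) (F : St → ℕ) (X : ℕ → ℕ → St → ℕ) (H : ℕ → St → ℕ) (k : ℕ)
    (S : ℕ → ℕ → St → ℕ) (κ : ℕ) (x : St) : ℕ :=
  if adm P F κ x = false then F x
  else
    match leaf x with
    | some c => c
    | none =>
      if R1 P F x ∨ ¬ regular P F κ x then wildH P F H κ x k
      else cdiv ((P.g - 1) * modalH P F X H k S κ x + wildH P F H κ x k) P.g

theorem wild_eq (F : St → ℕ) (X : ℕ → ℕ → St → ℕ) (κ : ℕ) (x : St) (i : ℕ) :
    wild P F X κ x i = wildH P F (fun i => hull P F (X i)) κ x i := rfl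

theorem modal_eq (F : St → ℕ) (X : ℕ → ℕ → St → ℕ) (k : ℕ) (S : ℕ → ℕ → St → ℕ) (κ : ℕ)
    (x : St) : modal P F X k S κ x = modalH P F X (fun i => hull P F (X i)) k S κ x := rfl

theorem bodyNum_eq (leaf : St → Option ℕ) (F : St → ℕ) (X : ℕ → ℕ → St → ℕ) (k : ℕ)
    (S : ℕ → ℕ → St → ℕ) (κ : ℕ) (x : St) :
    bodyNum P leaf F X k S κ x = bodyH P leaf F X (fun i => hull P F (X i)) k S κ x := rfl

end Crest.Agent.R288.Alg45
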