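import Mathlib

/-!
# R288, [LIN] part 1 (helper908): a binary window tree of mixtures is a mixture of the end values

Abstract in-window DP: inner node `(t+1,p)` between the letters `a`, `b`, letters `z < B` at its cut,
weights `ρ (t+1) p a b z ≥ 0` with sum one, children `(t,2p)` between `a`, `z` and `(t,2p+1)` between
`z`, `b`; ends `(0,p)` with values `E p a b`.

* `LV`            : the exact linear value.
* `mar t p a b`   : marginal weights `mar t p a b q a' b'` of the end `q` between the letters `a'`, `b'`.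
* `LV_eq`         : `LV = ∑_q ∑_{a'} ∑_{b'} mar * E q a' b'`.
* `mar_nonneg`, `mar_sum`, `mar_zero` : for every end `q` below the node the marginals have sum one.
* `le_of_ceil`, `of_ceil_le` : a value `V` computed with roundings UP (at most one per inner node) is in
  `[LV E, LV E + (2^t - 1)]`.
* `jensen`        : `(∑ π x)² ≤ ∑ π x²`.
-/

set_option autoImplicit false

namespace Crest.Agent.R288.Lin908

open Finset

/-- the exact value -/
noncomputable def LV (B : ℕ) (ρ : ℕ → ℕ → ℕ → ℕ → ℕ → ℝ) (E : ℕ → ℕ → ℕ → ℝ) :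
    ℕ → ℕ → ℕ → ℕ → ℝ
  | 0, p, a, b => E p a b
  | t + 1, p, a, b =>
    ∑ z ∈ range B, ρ (t + 1) p a b z * (LV B ρ E t (2 * p) a z + LV B ρ E t (2 * p + 1) z b)

/-- marginal weights of the ends -/
noncomputable def mar (B : ℕ) (ρ : ℕ → ℕ → ℕ → ℕ → ℕ → ℝ) :
    ℕ → ℕ → ℕ → ℕ → ℕ → ℕ → ℕ → ℝ
  | 0, p, a, b, q, a', b' => if q = p ∧ a' = a ∧ b' = b then 1 else 0
  | t + 1, p, a, b, q, a', b' =>
    ∑ z ∈ range B, ρ (t + 1) p a b z *
      (mar B ρ t (2 * p) a z q a' b' + mar B ρ t (2 * p + 1) z b q a' b')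

variable {B : ℕ} {ρ : ℕ → ℕ → ℕ → ℕ → ℕ → ℝ}

theorem mar_nonneg (h0 : ∀ t p a b z, 0 ≤ ρ t p a b z) (t p a b q a' b' : ℕ) :
    0 ≤ mar B ρ t p a b q a' b' := by
  induction t generalizing p a b with
  | zero => simp only [mar]; split <;> norm_num
  | succ t ih =>
    simp only [mar]
    exact sum_nonneg fun z _ => mul_nonneg (h0 _ _ _ _ _) (add_nonneg (ih _ _ _) (ih _ _ _))

/-- no weight outside the ends below the node -/
theorem mar_zero (t p a b q a' b' : ℕ) (hq : q < p * 2 ^ t ∨ (p + 1) * 2 ^ t ≤ q) :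
    mar B ρ t p a b q a' b' = 0 := by
  induction t generalizing p a b with
  | zero =>
    simp only [mar]
    rw [if_neg]
    rintro ⟨h, -⟩
    simp only [pow_zero, mul_one] at hq
    omega
  | succ t ih =>
    simp only [mar]
    apply sum_eq_zero
    intro z _
    have e1 : p * 2 ^ (t + 1) = 2 * p * 2 ^ t := by ring
    have e2 : (p + 1) * 2 ^ (t + 1) = (2 * p + 1 + 1) * 2 ^ t := by ring
    have e3 : (2 * p + 1) * 2 ^ t = 2 * p * 2 ^ t + 2 ^ t := by ring
    have e4 : (2 * p + 1 + 1) * 2 ^ t = 2 * p * 2 ^ t + 2 ^ t + 2 ^ t := by ring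
    rw [e1, e2] at hq
    rw [ih (2 * p) a z (by omega), ih (2 * p + 1) z b (by omega)]
    ring

/-- the marginals of an end below the node have sum one -/
theorem mar_sum (h1 : ∀ t p a b, ∑ z ∈ range B, ρ t p a b z = 1) (t p a b q : ℕ)
    (ha : a < B) (hb : b < B) (hq1 : p * 2 ^ t ≤ q) (hq2 : q < (p + 1) * 2 ^ t) :
    ∑ a' ∈ range B, ∑ b' ∈ range B, mar B ρ t p a b q a' b' = 1 := by
  induction t generalizing p a b with
  | zero =>
    have hq : q = p := by simp only [pow_zero, mul_one] at hq1 hq2; omega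
    simp only [mar, hq]
    rw [sum_eq_single a, sum_eq_single b]
    · simp
    · intro b' _ hb'; simp [hb']
    · intro h; exact absurd (mem_range.2 hb) h
    · intro a' _ ha'
      apply sum_eq_zero
      intro b' _
      simp [ha']
    · intro h; exact absurd (mem_range.2 ha) h
  | succ t ih =>
    simp only [mar]
    have e1 : p * 2 ^ (t + 1) = 2 * p * 2 ^ t := by ring
    have e2 : (p + 1) * 2 ^ (t + 1) = (2 * p + 1 + 1) * 2 ^ t := by ring
    have e3 : (2 * p + 1) * 2 ^ t = 2 * p * 2 ^ t + 2 ^ t := by ring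
    have e4 : (2 * p + 1 + 1) * 2 ^ t = 2 * p * 2 ^ t + 2 ^ t + 2 ^ t := by ring
    rw [e1] at hq1
    rw [e2, e4] at hq2
    have hsw : ∑ a' ∈ range B, ∑ b' ∈ range B, ∑ z ∈ range B, ρ (t + 1) p a b z *
        (mar B ρ t (2 * p) a z q a' b' + mar B ρ t (2 * p + 1) z b q a' b')
        = ∑ z ∈ range B, ρ (t + 1) p a b z *
          (∑ a' ∈ range B, ∑ b' ∈ range B, mar B ρ t (2 * p) a z q a' b'
            + ∑ a' ∈ range B, ∑ b' ∈ range B, mar B ρ t (2 * p + 1) z b q a' b') := by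
      simp_rw [mul_add, mul_sum]
      rw [sum_congr rfl fun a' _ => sum_comm, sum_comm]
      apply sum_congr rfl
      intro z _
      rw [← sum_add_distrib]
      apply sum_congr rfl
      intro a' _
      rw [sum_add_distrib]
    rw [hsw]
    by_cases hl : q < 2 * p * 2 ^ t + 2 ^ t
    · rw [← h1 (t + 1) p a b]
      apply sum_congr rfl
      intro z hz
      have hz' := mem_range.1 hz
      have h2 := ih (2 * p) a z ha hz' hq1 (by rw [e3]; exact hl)
      have h3 : ∑ a' ∈ range B, ∑ b' ∈ range B, mar B ρ t (2 * p + 1) z b q a' b' = 0 :=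
        sum_eq_zero fun a' _ => sum_eq_zero fun b' _ => mar_zero _ _ _ _ _ _ _
          (Or.inl (by rw [e3]; exact hl))
      rw [h2, h3]; ring
    · rw [← h1 (t + 1) p a b]
      apply sum_congr rfl
      intro z hz
      have hz' := mem_range.1 hz
      push Not at hl
      have h2 := ih (2 * p + 1) z b hz' hb (by rw [e3]; exact hl) (by rw [e4]; exact hq2)
      have h3 : ∑ a' ∈ range B, ∑ b' ∈ range B, mar B ρ t (2 * p) a z q a' b' = 0 :=
        sum_eq_zero fun a' _ => sum_eq_zero fun b' _ => mar_zero _ _ _ _ _ _ _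
          (Or.inr (by rw [e3]; exact hl))
      rw [h2, h3]; ring

/-- splitting a block of ends into two halves -/
theorem sum_split (f : ℕ → ℝ) (t p : ℕ) :
    ∑ q ∈ Ico (p * 2 ^ (t + 1)) ((p + 1) * 2 ^ (t + 1)), f q
      = ∑ q ∈ Ico (2 * p * 2 ^ t) ((2 * p + 1) * 2 ^ t), f q
        + ∑ q ∈ Ico ((2 * p + 1) * 2 ^ t) ((2 * p + 1 + 1) * 2 ^ t), f q := by
  have e1 : p * 2 ^ (t + 1) = 2 * p * 2 ^ t := by ring
  have e2 : (p + 1) * 2 ^ (t + 1) = (2 * p + 1 + 1) * 2 ^ t := by ring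
  rw [e1, e2, sum_Ico_consecutive]
  · exact Nat.mul_le_mul_right _ (by omega)
  · exact Nat.mul_le_mul_right _ (by omega)

/-- **the exact value is the sum over the ends of the marginal means** -/
theorem LV_eq (E : ℕ → ℕ → ℕ → ℝ) (t p a b : ℕ) (ha : a < B) (hb : b < B) :
    LV B ρ E t p a b
      = ∑ q ∈ Ico (p * 2 ^ t) ((p + 1) * 2 ^ t), ∑ a' ∈ range B, ∑ b' ∈ range B,
          mar B ρ t p a b q a' b' * E q a' b' := by
  induction t generalizing p a b with
  | zero =>
    simp only [LV, mar, pow_zero, mul_one]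
    rw [sum_eq_single p, sum_eq_single a, sum_eq_single b]
    · simp
    · intro b' _ hb'; simp [hb']
    · intro h; exact absurd (mem_range.2 hb) h
    · intro a' _ ha'
      apply sum_eq_zero
      intro b' _
      simp [ha']
    · intro h; exact absurd (mem_range.2 ha) h
    · intro q hq hqp
      rw [mem_Ico] at hq
      omega
    · intro h
      exact absurd (mem_Ico.2 ⟨le_rfl, Nat.lt_succ_self p⟩) h
  | succ t ih =>
    have key : ∀ z ∈ range B, ρ (t + 1) p a b z *
        (LV B ρ E t (2 * p) a z + LV B ρ E t (2 * p + 1) z b)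
        = ∑ q ∈ Ico (p * 2 ^ (t + 1)) ((p + 1) * 2 ^ (t + 1)), ∑ a' ∈ range B, ∑ b' ∈ range B,
          ρ (t + 1) p a b z * (mar B ρ t (2 * p) a z q a' b' + mar B ρ t (2 * p + 1) z b q a' b')
            * E q a' b' := by
      intro z hz
      have hz' := mem_range.1 hz
      rw [ih (2 * p) a z ha hz', ih (2 * p + 1) z b hz' hb, sum_split]
      have hA : ∀ q ∈ Ico (2 * p * 2 ^ t) ((2 * p + 1) * 2 ^ t), ∑ a' ∈ range B, ∑ b' ∈ range B,
          ρ (t + 1) p a b z * (mar B ρ t (2 * p) a z q a' b' + mar B ρ t (2 * p + 1) z b q a' b')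
            * E q a' b'
          = ρ (t + 1) p a b z * ∑ a' ∈ range B, ∑ b' ∈ range B,
            mar B ρ t (2 * p) a z q a' b' * E q a' b' := by
        intro q hq
        rw [mem_Ico] at hq
        rw [mul_sum]
        apply sum_congr rfl
        intro a' _
        rw [mul_sum]
        apply sum_congr rfl
        intro b' _
        rw [mar_zero t (2 * p + 1) z b q a' b' (Or.inl hq.2)]
        ring
      have hB : ∀ q ∈ Ico ((2 * p + 1) * 2 ^ t) ((2 * p + 1 + 1) * 2 ^ t),
          ∑ a' ∈ range B, ∑ b' ∈ range B,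
          ρ (t + 1) p a b z * (mar B ρ t (2 * p) a z q a' b' + mar B ρ t (2 * p + 1) z b q a' b')
            * E q a' b'
          = ρ (t + 1) p a b z * ∑ a' ∈ range B, ∑ b' ∈ range B,
            mar B ρ t (2 * p + 1) z b q a' b' * E q a' b' := by
        intro q hq
        rw [mem_Ico] at hq
        rw [mul_sum]
        apply sum_congr rfl
        intro a' _
        rw [mul_sum]
        apply sum_congr rfl
        intro b' _
        rw [mar_zero t (2 * p) a z q a' b' (Or.inr hq.1)]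
        ring
      rw [sum_congr rfl hA, sum_congr rfl hB, ← mul_sum, ← mul_sum, mul_add]
    simp only [LV]
    rw [sum_congr rfl key, sum_comm]
    apply sum_congr rfl
    intro q _
    rw [sum_comm]
    apply sum_congr rfl
    intro a' _
    rw [sum_comm]
    apply sum_congr rfl
    intro b' _
    simp only [mar]
    rw [sum_mul]

/-- values rounded up lie above the exact value -/
theorem le_of_ceil (h0 : ∀ t p a b z, 0 ≤ ρ t p a b z) {E : ℕ → ℕ → ℕ → ℝ}
    {V : ℕ → ℕ → ℕ → ℕ → ℝ} {T : ℕ} (hE : ∀ p a b, E p a b ≤ V 0 p a b)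
    (hV : ∀ t, t < T → ∀ p a b, ∑ z ∈ range B, ρ (t + 1) p a b z *
      (V t (2 * p) a z + V t (2 * p + 1) z b) ≤ V (t + 1) p a b) :
    ∀ t, t ≤ T → ∀ p a b, LV B ρ E t p a b ≤ V t p a b := by
  intro t
  induction t with
  | zero => intro _ p a b; exact hE p a b
  | succ t ih =>
    intro ht p a b
    refine le_trans ?_ (hV t (by omega) p a b)
    simp only [LV]
    refine sum_le_sum fun z _ => mul_le_mul_of_nonneg_left ?_ (h0 _ _ _ _ _)
    exact add_le_add (ih (by omega) _ _ _) (ih (by omega) _ _ _)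

/-- at most one unit is lost at every inner node -/
theorem of_ceil_le (h0 : ∀ t p a b z, 0 ≤ ρ t p a b z)
    (h1 : ∀ t p a b, ∑ z ∈ range B, ρ t p a b z = 1) {E : ℕ → ℕ → ℕ → ℝ}
    {V : ℕ → ℕ → ℕ → ℕ → ℝ} {T : ℕ} (hE : ∀ p a b, V 0 p a b ≤ E p a b)
    (hV : ∀ t, t < T → ∀ p a b, V (t + 1) p a b ≤ ∑ z ∈ range B, ρ (t + 1) p a b z *
      (V t (2 * p) a z + V t (2 * p + 1) z b) + 1) :
    ∀ t, t ≤ T → ∀ p a b, V t p a b ≤ LV B ρ E t p a b + (2 ^ t - 1) := by
  intro t
  induction t with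
  | zero =>
    intro _ p a b
    have : LV B ρ E 0 p a b = E p a b := rfl
    rw [this, pow_zero, sub_self, add_zero]
    exact hE p a b
  | succ t ih =>
    intro ht p a b
    refine (hV t (by omega) p a b).trans ?_
    have h2 : ∑ z ∈ range B, ρ (t + 1) p a b z * (V t (2 * p) a z + V t (2 * p + 1) z b)
        ≤ ∑ z ∈ range B, (ρ (t + 1) p a b z *
          (LV B ρ E t (2 * p) a z + LV B ρ E t (2 * p + 1) z b)
            + ρ (t + 1) p a b z * (2 * (2 ^ t - 1))) := by
      refine sum_le_sum fun z _ => ?_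
      rw [← mul_add]
      refine mul_le_mul_of_nonneg_left ?_ (h0 _ _ _ _ _)
      have := ih (by omega) (2 * p) a z
      have := ih (by omega) (2 * p + 1) z b
      linarith
    rw [sum_add_distrib, ← sum_mul, h1] at h2
    simp only [LV]
    have e : (2 : ℝ) ^ (t + 1) = 2 * 2 ^ t := by ring
    linarith

/-- Jensen -/
theorem jensen {ι : Type*} (s : Finset ι) (π x : ι → ℝ) (h0 : ∀ i ∈ s, 0 ≤ π i)
    (h1 : ∑ i ∈ s, π i = 1) : (∑ i ∈ s, π i * x i) ^ 2 ≤ ∑ i ∈ s, π i * x i ^ 2 := by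
  obtain ⟨m, hm⟩ : ∃ m, m = ∑ i ∈ s, π i * x i := ⟨_, rfl⟩
  rw [← hm]
  have h2 : 0 ≤ ∑ i ∈ s, π i * (x i - m) ^ 2 :=
    sum_nonneg fun i hi => mul_nonneg (h0 i hi) (sq_nonneg _)
  have h3 : ∑ i ∈ s, π i * (x i - m) ^ 2
      = ∑ i ∈ s, π i * x i ^ 2 - 2 * m * ∑ i ∈ s, π i * x i + m ^ 2 * ∑ i ∈ s, π i := by
    rw [mul_sum, mul_sum, ← sum_sub_distrib, ← sum_add_distrib]
    exact sum_congr rfl fun i _ => by ring
  rw [h3, h1, ← hm] at h2
  nlinarith

/-- Jensen over a double sum -/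
theorem jensen₂ (B : ℕ) (π x : ℕ → ℕ → ℝ) (h0 : ∀ a b, 0 ≤ π a b)
    (h1 : ∑ a ∈ range B, ∑ b ∈ range B, π a b = 1) :
    (∑ a ∈ range B, ∑ b ∈ range B, π a b * x a b) ^ 2
      ≤ ∑ a ∈ range B, ∑ b ∈ range B, π a b * x a b ^ 2 := by
  have := jensen (range B ×ˢ range B) (fun p => π p.1 p.2) (fun p => x p.1 p.2)
    (fun p _ => h0 _ _) (by rw [sum_product]; exact h1)
  rw [sum_product, sum_product] at this
  exact this

end Crest.Agent.R288.Lin908
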