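import Crest.Agent.R288.AlgB_45
import Crest.Agent.R288.LinT_908

/-!
# R288 (helper540): the body value is affine in the numbers of the ends (L4 (b)), on ALG v2

For fixed numbers `X i`, `i < k`, of the lower ranks and an admissible, regular, non-leaf state `x`
which is not R1, there are `α ∈ [0,1]` and weights `c q a b ≥ 0`, `∑ a b, c q a b = 1` for every end
`q`, such that for EVERY family `S`
`α L(S) + (1-α) W ≤ bodyNum .. S .. ≤ α L(S) + (1-α) W + 2^n + 1`,
`L(S) = ∑ q a b, c q a b * numSt (S q) (npiece q a b)`, `W = wild .. k`.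
-/

set_option autoImplicit false

namespace Crest.Agent.R288.BodyLin540

open Finset Crest.Agent.R288.Alg45 Crest.Agent.R288.Lin908

/-! ### elementary -/

theorem sumR_cast (n : ℕ) (f : ℕ → ℕ) : ((sumR n f : ℕ) : ℝ) = ∑ z ∈ range n, (f z : ℝ) := by
  have : sumR n f = ∑ z ∈ range n, f z := by
    unfold sumR
    induction n with
    | zero => rfl
    | succ n ih => rw [List.range_succ, List.map_append, List.sum_append, ih, sum_range_succ]; simp
  rw [this, Nat.cast_sum]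

theorem cdiv_ge {a b : ℕ} (hb : 0 < b) : (a : ℝ) / b ≤ (cdiv a b : ℕ) := by
  have h : a ≤ cdiv a b * b := by
    unfold cdiv
    have h1 := Nat.div_add_mod (a + (b - 1)) b
    have h2 := Nat.mod_lt (a + (b - 1)) hb
    rw [mul_comm]
    omega
  have hb' : (0 : ℝ) < b := by exact_mod_cast hb
  rw [div_le_iff₀ hb']
  exact_mod_cast h

theorem cdiv_le {a b : ℕ} (hb : 0 < b) : ((cdiv a b : ℕ) : ℝ) ≤ (a : ℝ) / b + 1 := by
  have h : cdiv a b * b ≤ a + b := by
    unfold cdiv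
    have h1 := Nat.div_mul_le_self (a + (b - 1)) b
    omega
  have hb' : (0 : ℝ) < b := by exact_mod_cast hb
  have h' : ((cdiv a b : ℕ) : ℝ) * b ≤ a + b := by exact_mod_cast h
  have e : (a : ℝ) / b + 1 = (a + b) / b := by field_simp
  rw [e, le_div_iff₀ hb']
  exact h'

theorem sumR_pos {n : ℕ} {f : ℕ → ℕ} {z : ℕ} (hz : z < n) (h : 0 < f z) : 0 < sumR n f := by
  have h1 : (0 : ℝ) < (sumR n f : ℕ) := by
    rw [sumR_cast]
    exact sum_pos' (fun _ _ => Nat.cast_nonneg _) ⟨z, mem_range.2 hz, by exact_mod_cast h⟩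
  exact_mod_cast h1

theorem fac_pos {gn gd U x : ℕ} (hd : 0 < gd) (hU : 0 < U) : 0 < fac gn gd U x := by
  unfold fac
  have h1 : min (gd * U) (2 * gn * x) ≤ gd * U := min_le_left _ _
  have h2 : 0 < gd * U := Nat.mul_pos hd hU
  have h3 : 2 * gd * U = gd * U + gd * U := by ring
  omega

variable {gn gd B U : ℕ} {w0 : ℕ → ℕ} {us us' : ℕ → ℕ → ℕ}

theorem wts_pos (hd : 0 < gd) (hU : 0 < U) {z : ℕ} (h0 : 0 < w0 z) (i : ℕ) :
    0 < wts gn gd B U w0 us i z := by
  induction i with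
  | zero => exact h0
  | succ i ih => exact Nat.mul_pos ih (fac_pos hd hU)

/-- the weights of rank `i` depend only on the losses of the ranks below -/
theorem wts_congr {i : ℕ} (h : ∀ i' < i, us i' = us' i') (z : ℕ) :
    wts gn gd B U w0 us i z = wts gn gd B U w0 us' i z := by
  induction i with
  | zero => rfl
  | succ i ih =>
    simp only [wts]
    rw [ih fun i' hi' => h i' (by omega), h i (by omega)]

theorem hv_congr {i : ℕ} (h : ∀ i' ≤ i, us i' = us' i') :
    hv gn gd B U w0 us i = hv gn gd B U w0 us' i := by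
  have e : ∀ z, wts gn gd B U w0 us i z = wts gn gd B U w0 us' i z := fun z =>
    wts_congr (fun i' hi' => h i' hi'.le) z
  unfold hv
  simp only [e, h i le_rfl, funext e]

theorem VV_congr {γ B : ℕ} {U : ℕ → ℕ → ℕ} {E E' : ℕ → ℕ → ℕ → ℕ → ℕ} (t : ℕ) :
    ∀ {i : ℕ}, (∀ i' ≤ i, E i' = E' i') → ∀ p a b, VV γ B U E t i p a b = VV γ B U E' t i p a b := by
  induction t with
  | zero => intro i h p a b; simp only [VV, h i le_rfl]
  | succ t ih =>
    intro i h p a b
    simp only [VV]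
    refine hv_congr fun i' hi' => ?_
    funext z
    rw [ih (fun j hj => h j (hj.trans hi')), ih (fun j hj => h j (hj.trans hi'))]

/-- the weight of the letter `z` at the inner node `(t,p)` for rank `k` -/
noncomputable def ker (γ B : ℕ) (U : ℕ → ℕ → ℕ) (E : ℕ → ℕ → ℕ → ℕ → ℕ) (k t p a b z : ℕ) : ℝ :=
  (wts γ 1 B (U t p) (fun _ => 1) (fun i' z => VV γ B U E (t - 1) i' (2 * p) a z +
    VV γ B U E (t - 1) i' (2 * p + 1) z b) k z : ℕ) /
  (sumR B (wts γ 1 B (U t p) (fun _ => 1) (fun i' z => VV γ B U E (t - 1) i' (2 * p) a z +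
    VV γ B U E (t - 1) i' (2 * p + 1) z b) k) : ℕ)

theorem ker_nonneg (γ B : ℕ) (U : ℕ → ℕ → ℕ) (E : ℕ → ℕ → ℕ → ℕ → ℕ) (k t p a b z : ℕ) :
    0 ≤ ker γ B U E k t p a b z := div_nonneg (Nat.cast_nonneg _) (Nat.cast_nonneg _)

theorem ker_sum {γ B : ℕ} {U : ℕ → ℕ → ℕ} (hB : 0 < B) (hU : ∀ t p, 0 < U t p)
    (E : ℕ → ℕ → ℕ → ℕ → ℕ) (k t p a b : ℕ) : ∑ z ∈ range B, ker γ B U E k t p a b z = 1 := by
  unfold ker
  rw [← sum_div, ← sumR_cast, div_self]
  exact_mod_cast (sumR_pos hB (wts_pos Nat.one_pos (hU t p) Nat.one_pos k)).ne'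

/-- the kernels of rank `k` depend only on the end tables of the ranks below -/
theorem ker_congr {γ B : ℕ} {U : ℕ → ℕ → ℕ} {E E' : ℕ → ℕ → ℕ → ℕ → ℕ} {k : ℕ}
    (h : ∀ i < k, E i = E' i) (t p a b z : ℕ) :
    ker γ B U E k t p a b z = ker γ B U E' k t p a b z := by
  have e : ∀ i' < k, (fun z => VV γ B U E (t - 1) i' (2 * p) a z +
      VV γ B U E (t - 1) i' (2 * p + 1) z b) = (fun z => VV γ B U E' (t - 1) i' (2 * p) a z +
      VV γ B U E' (t - 1) i' (2 * p + 1) z b) := by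
    intro i' hi'
    funext z
    rw [VV_congr (t - 1) (fun j hj => h j (by omega)), VV_congr (t - 1) (fun j hj => h j (by omega))]
  have e2 : ∀ z, wts γ 1 B (U t p) (fun _ => 1) (fun i' z => VV γ B U E (t - 1) i' (2 * p) a z +
      VV γ B U E (t - 1) i' (2 * p + 1) z b) k z = wts γ 1 B (U t p) (fun _ => 1)
      (fun i' z => VV γ B U E' (t - 1) i' (2 * p) a z +
      VV γ B U E' (t - 1) i' (2 * p + 1) z b) k z := fun z => wts_congr e z
  unfold ker
  rw [e2 z, funext e2]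

/-- one inner node: mean of the children under the kernel, rounded up -/
theorem VV_node {γ B : ℕ} {U : ℕ → ℕ → ℕ} (hB : 0 < B) (hU : ∀ t p, 0 < U t p)
    (E : ℕ → ℕ → ℕ → ℕ → ℕ) (k t p a b : ℕ) :
    (∑ z ∈ range B, ker γ B U E k (t + 1) p a b z *
      ((VV γ B U E t k (2 * p) a z : ℕ) + (VV γ B U E t k (2 * p + 1) z b : ℕ) : ℝ)
        ≤ (VV γ B U E (t + 1) k p a b : ℕ)) ∧
    ((VV γ B U E (t + 1) k p a b : ℕ) : ℝ) ≤ ∑ z ∈ range B, ker γ B U E k (t + 1) p a b z *
      ((VV γ B U E t k (2 * p) a z : ℕ) + (VV γ B U E t k (2 * p + 1) z b : ℕ) : ℝ) + 1 := by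
  have hpos : 0 < sumR B (wts γ 1 B (U (t + 1) p) (fun _ => 1)
      (fun i' z => VV γ B U E t i' (2 * p) a z + VV γ B U E t i' (2 * p + 1) z b) k) :=
    sumR_pos hB (wts_pos Nat.one_pos (hU _ p) Nat.one_pos k)
  have e : ∑ z ∈ range B, ker γ B U E k (t + 1) p a b z *
      ((VV γ B U E t k (2 * p) a z : ℕ) + (VV γ B U E t k (2 * p + 1) z b : ℕ) : ℝ)
      = ((sumR B fun z => wts γ 1 B (U (t + 1) p) (fun _ => 1)
          (fun i' z => VV γ B U E t i' (2 * p) a z + VV γ B U E t i' (2 * p + 1) z b) k z *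
          (VV γ B U E t k (2 * p) a z + VV γ B U E t k (2 * p + 1) z b) : ℕ) : ℝ) /
        (sumR B (wts γ 1 B (U (t + 1) p) (fun _ => 1)
          (fun i' z => VV γ B U E t i' (2 * p) a z + VV γ B U E t i' (2 * p + 1) z b) k) : ℕ) := by
    rw [sumR_cast B fun z => wts γ 1 B (U (t + 1) p) (fun _ => 1)
          (fun i' z => VV γ B U E t i' (2 * p) a z + VV γ B U E t i' (2 * p + 1) z b) k z *
          (VV γ B U E t k (2 * p) a z + VV γ B U E t k (2 * p + 1) z b), sum_div]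
    refine sum_congr rfl fun z _ => ?_
    unfold ker
    simp only [Nat.add_sub_cancel]
    push_cast
    ring
  rw [e]
  constructor
  · simp only [VV, hv]
    exact cdiv_ge hpos
  · simp only [VV, hv]
    exact cdiv_le hpos

/-- the value of rank `k` at the node `(t,p)` against the linear functional of its end table -/
theorem VV_lin {γ B : ℕ} {U : ℕ → ℕ → ℕ} (hB : 0 < B) (hU : ∀ t p, 0 < U t p)
    (E : ℕ → ℕ → ℕ → ℕ → ℕ) (k t p a b : ℕ) :
    LV B (ker γ B U E k) (fun p a b => (E k p a b : ℝ)) t p a b ≤ (VV γ B U E t k p a b : ℕ) ∧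
    ((VV γ B U E t k p a b : ℕ) : ℝ) ≤
      LV B (ker γ B U E k) (fun p a b => (E k p a b : ℝ)) t p a b + (2 ^ t - 1) := by
  constructor
  · exact le_of_ceil (V := fun t p a b => ((VV γ B U E t k p a b : ℕ) : ℝ)) (T := t)
      (ker_nonneg γ B U E k) (fun p a b => le_rfl)
      (fun t' _ p a b => (VV_node hB hU E k t' p a b).1) t le_rfl p a b
  · exact of_ceil_le (V := fun t p a b => ((VV γ B U E t k p a b : ℕ) : ℝ)) (T := t)
      (ker_nonneg γ B U E k) (ker_sum hB hU E k) (fun p a b => le_rfl)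
      (fun t' _ p a b => (VV_node hB hU E k t' p a b).2) t le_rfl p a b

/-! ### the calm value -/

variable (P : Par) (F : St → ℕ) (X : ℕ → ℕ → St → ℕ) (k : ℕ) (κ : ℕ) (x : St)

/-- end tables of the ranks below `k` -/
def E0 : ℕ → ℕ → ℕ → ℕ → ℕ := fun i q a b =>
  if i < k then numSt P F κ (X i) (npiece P F κ x q a b) else 0

/-- in-window kernels of rank `k` -/
noncomputable def kr : ℕ → ℕ → ℕ → ℕ → ℕ → ℝ :=
  ker P.γ (nlet P F κ x) (unt P F κ x) (E0 P F X k κ x) k

/-- weight of the near letters `a`, `b` at the end `q` -/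
noncomputable def cw (q a b : ℕ) : ℝ := mar (nlet P F κ x) (kr P F X k κ x) P.n 0 0 0 q a b

/-- the linear functional of the calm option: `E q a b` = end table -/
noncomputable def Lc (E : ℕ → ℕ → ℕ → ℝ) : ℝ :=
  ∑ q ∈ range P.N, ∑ a ∈ range (nlet P F κ x), ∑ b ∈ range (nlet P F κ x),
    cw P F X k κ x q a b * E q a b

theorem nlet_pos : 0 < nlet P F κ x := Nat.succ_pos _
theorem unt_pos (t p : ℕ) : 0 < unt P F κ x t p := Nat.succ_pos _

theorem kr_nonneg (t p a b z : ℕ) : 0 ≤ kr P F X k κ x t p a b z := ker_nonneg _ _ _ _ _ _ _ _ _ _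

theorem kr_sum (t p a b : ℕ) : ∑ z ∈ range (nlet P F κ x), kr P F X k κ x t p a b z = 1 :=
  ker_sum (nlet_pos P F κ x) (unt_pos P F κ x) _ _ _ _ _ _

theorem cw_nonneg (q a b : ℕ) : 0 ≤ cw P F X k κ x q a b :=
  mar_nonneg (kr_nonneg P F X k κ x) _ _ _ _ _ _ _

theorem cw_sum {q : ℕ} (hq : q < P.N) :
    ∑ a ∈ range (nlet P F κ x), ∑ b ∈ range (nlet P F κ x), cw P F X k κ x q a b = 1 := by
  refine mar_sum (kr_sum P F X k κ x) P.n 0 0 0 q (nlet_pos P F κ x) (nlet_pos P F κ x)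
    (by simp) ?_
  simpa [Par.N] using hq

theorem Lc_eq (E : ℕ → ℕ → ℕ → ℝ) :
    LV (nlet P F κ x) (kr P F X k κ x) E P.n 0 0 0 = Lc P F X k κ x E := by
  rw [LV_eq (ρ := kr P F X k κ x) E P.n 0 0 0 (nlet_pos P F κ x) (nlet_pos P F κ x)]
  unfold Lc cw Par.N
  simp only [zero_mul, zero_add, one_mul, Finset.range_eq_Ico]

theorem Lc_mono {E E' : ℕ → ℕ → ℕ → ℝ}
    (h : ∀ q < P.N, ∀ a < nlet P F κ x, ∀ b < nlet P F κ x, E q a b ≤ E' q a b) :
    Lc P F X k κ x E ≤ Lc P F X k κ x E' :=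
  sum_le_sum fun q hq => sum_le_sum fun a ha => sum_le_sum fun b hb =>
    mul_le_mul_of_nonneg_left (h q (mem_range.1 hq) a (mem_range.1 ha) b (mem_range.1 hb))
      (cw_nonneg P F X k κ x q a b)

theorem Lc_nonneg {E : ℕ → ℕ → ℕ → ℝ}
    (h : ∀ q < P.N, ∀ a < nlet P F κ x, ∀ b < nlet P F κ x, 0 ≤ E q a b) :
    0 ≤ Lc P F X k κ x E :=
  sum_nonneg fun q hq => sum_nonneg fun a ha => sum_nonneg fun b hb =>
    mul_nonneg (cw_nonneg P F X k κ x q a b)
      (h q (mem_range.1 hq) a (mem_range.1 ha) b (mem_range.1 hb))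

theorem Lc_add_const (E : ℕ → ℕ → ℕ → ℝ) (c : ℝ) :
    Lc P F X k κ x (fun q a b => E q a b + c) = Lc P F X k κ x E + P.N * c := by
  unfold Lc
  simp only [mul_add, sum_add_distrib]
  congr 1
  rw [sum_congr rfl fun q hq => by
    rw [sum_congr rfl fun a _ => (sum_mul _ _ _).symm, ← sum_mul, cw_sum P F X k κ x
      (mem_range.1 hq), one_mul]]
  rw [sum_const, card_range, nsmul_eq_mul]

/-- end tables of all ranks `≤ k` for the family `S` -/
def ES (S : ℕ → ℕ → St → ℕ) : ℕ → ℕ → ℕ → ℕ → ℕ := fun i q a b =>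
  numSt P F κ (if i < k then X i else S q) (npiece P F κ x q a b)

theorem calm_eq (S : ℕ → ℕ → St → ℕ) (i : ℕ) :
    calm P F X k S κ x i = VV P.γ (nlet P F κ x) (unt P F κ x) (ES P F X k κ x S) P.n i 0 0 0 := rfl

theorem ES_lt (S : ℕ → ℕ → St → ℕ) {i : ℕ} (hi : i < k) :
    ES P F X k κ x S i = E0 P F X k κ x i := by
  funext q a b
  unfold ES E0
  rw [if_pos hi, if_pos hi]

theorem ES_k (S : ℕ → ℕ → St → ℕ) (q a b : ℕ) :
    ES P F X k κ x S k q a b = numSt P F κ (S q) (npiece P F κ x q a b) := by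
  unfold ES
  rw [if_neg (lt_irrefl k)]

/-- the calm values of the ranks below `k` do not depend on the family `S` -/
theorem calm_lt (S S' : ℕ → ℕ → St → ℕ) {i : ℕ} (hi : i < k) :
    calm P F X k S κ x i = calm P F X k S' κ x i := by
  rw [calm_eq, calm_eq]
  exact VV_congr P.n (fun j hj => by
    rw [ES_lt P F X k κ x S (by omega), ES_lt P F X k κ x S' (by omega)]) 0 0 0

/-- **calm value of rank `k`** -/
theorem calm_lin (S : ℕ → ℕ → St → ℕ) :
    Lc P F X k κ x (fun q a b => (numSt P F κ (S q) (npiece P F κ x q a b) : ℝ))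
      ≤ (calm P F X k S κ x k : ℕ) ∧
    ((calm P F X k S κ x k : ℕ) : ℝ) ≤
      Lc P F X k κ x (fun q a b => (numSt P F κ (S q) (npiece P F κ x q a b) : ℝ)) +
        (2 ^ P.n - 1) := by
  have h := VV_lin (γ := P.γ) (nlet_pos P F κ x) (unt_pos P F κ x) (ES P F X k κ x S) k P.n 0 0 0
  have e : ker P.γ (nlet P F κ x) (unt P F κ x) (ES P F X k κ x S) k = kr P F X k κ x := by
    funext t p a b z
    exact ker_congr (fun i hi => ES_lt P F X k κ x S hi) t p a b z
  rw [e] at h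
  have e2 : (fun q a b => ((ES P F X k κ x S k q a b : ℕ) : ℝ)) =
      fun q a b => (numSt P F κ (S q) (npiece P F κ x q a b) : ℝ) := by
    funext q a b
    rw [ES_k]
  rw [e2, Lc_eq] at h
  exact h

/-! ### the root decision -/

/-- root weights (`0` calm, `1` wild) of rank `k` -/
def rw0 (z : ℕ) : ℕ :=
  wts 1 P.um 2 (F x + 1) (fun z => if z = 0 then P.pm else 1)
    (fun i z => if z = 0 then calm P F X k (fun _ _ _ => 0) κ x i else wild P F X κ x i) k z

theorem rw0_eq (S : ℕ → ℕ → St → ℕ) (z : ℕ) :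
    wts 1 P.um 2 (F x + 1) (fun z => if z = 0 then P.pm else 1)
      (fun i z => if z = 0 then calm P F X k S κ x i else wild P F X κ x i) k z =
      rw0 P F X k κ x z := by
  unfold rw0
  refine wts_congr (fun i hi => ?_) z
  funext z
  rw [calm_lt P F X k κ x S (fun _ _ _ => 0) hi]

theorem rw0_pos (hum : 0 < P.um) : 0 < rw0 P F X k κ x 1 :=
  wts_pos hum (Nat.succ_pos _) (by norm_num) k

theorem sumR_two (f : ℕ → ℕ) : sumR 2 f = f 0 + f 1 := by
  simp [sumR, List.range_succ]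

/-- share of the calm option in the body value -/
noncomputable def al : ℝ :=
  ((P.g - 1 : ℕ) : ℝ) / P.g * ((rw0 P F X k κ x 0 : ℕ) / (rw0 P F X k κ x 0 + rw0 P F X k κ x 1 : ℕ))

theorem al_nonneg : 0 ≤ al P F X k κ x := by unfold al; positivity

theorem al_le_one : al P F X k κ x ≤ 1 := by
  unfold al
  have h1 : ((P.g - 1 : ℕ) : ℝ) / P.g ≤ 1 := by
    refine div_le_one_of_le₀ ?_ (Nat.cast_nonneg _)
    exact_mod_cast Nat.sub_le _ _
  have h2 : ((rw0 P F X k κ x 0 : ℕ) : ℝ) / (rw0 P F X k κ x 0 + rw0 P F X k κ x 1 : ℕ) ≤ 1 := by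
    refine div_le_one_of_le₀ ?_ (Nat.cast_nonneg _)
    exact_mod_cast Nat.le_add_right _ _
  exact mul_le_one₀ h1 (by positivity) h2

/-- **the body value of an admissible, regular, non-leaf state which is not R1** -/
theorem bodyNum_lin (hg : 0 < P.g) (hum : 0 < P.um) {leaf : St → Option ℕ} (ha : adm P F κ x = true)
    (hl : leaf x = none) (hR : ¬ R1 P F x) (hreg : regular P F κ x) (S : ℕ → ℕ → St → ℕ) :
    al P F X k κ x * Lc P F X k κ x (fun q a b => (numSt P F κ (S q) (npiece P F κ x q a b) : ℝ))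
        + (1 - al P F X k κ x) * (wild P F X κ x k : ℕ)
      ≤ (bodyNum P leaf F X k S κ x : ℕ) ∧
    ((bodyNum P leaf F X k S κ x : ℕ) : ℝ) ≤
      al P F X k κ x * Lc P F X k κ x (fun q a b => (numSt P F κ (S q) (npiece P F κ x q a b) : ℝ))
        + (1 - al P F X k κ x) * (wild P F X κ x k : ℕ) + (2 ^ P.n + 1) := by
  obtain ⟨c1, c2⟩ := calm_lin P F X k κ x S
  set L := Lc P F X k κ x (fun q a b => (numSt P F κ (S q) (npiece P F κ x q a b) : ℝ)) with hL
  have hb : bodyNum P leaf F X k S κ x =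
      cdiv ((P.g - 1) * modal P F X k S κ x + wild P F X κ x k) P.g := by
    unfold bodyNum
    rw [if_neg (by simp [ha]), hl]
    simp only
    rw [if_neg]
    push Not
    exact ⟨hR, hreg⟩
  have hm : modal P F X k S κ x =
      cdiv (rw0 P F X k κ x 0 * calm P F X k S κ x k + rw0 P F X k κ x 1 * wild P F X κ x k)
        (rw0 P F X k κ x 0 + rw0 P F X k κ x 1) := by
    unfold modal hv
    simp only [rw0_eq P F X k κ x S, sumR_two]
    simp
  have hw1 := rw0_pos P F X k κ x hum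
  have hW : 0 < rw0 P F X k κ x 0 + rw0 P F X k κ x 1 := by omega
  set wc : ℝ := ((rw0 P F X k κ x 0 : ℕ) : ℝ) with hwc
  set ww : ℝ := ((rw0 P F X k κ x 1 : ℕ) : ℝ) with hww
  set C : ℝ := ((calm P F X k S κ x k : ℕ) : ℝ) with hC
  set Wl : ℝ := ((wild P F X κ x k : ℕ) : ℝ) with hWl
  have hwc0 : 0 ≤ wc := Nat.cast_nonneg _
  have hww0 : 0 < ww := by rw [hww]; exact_mod_cast hw1
  have hs : 0 < wc + ww := by linarith
  have m1 := cdiv_ge (a := rw0 P F X k κ x 0 * calm P F X k S κ x k +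
    rw0 P F X k κ x 1 * wild P F X κ x k) hW
  have m2 := cdiv_le (a := rw0 P F X k κ x 0 * calm P F X k S κ x k +
    rw0 P F X k κ x 1 * wild P F X κ x k) hW
  rw [← hm] at m1 m2
  push_cast at m1 m2
  rw [← hwc, ← hww, ← hC, ← hWl] at m1 m2
  have b1 := cdiv_ge (a := (P.g - 1) * modal P F X k S κ x + wild P F X κ x k) hg
  have b2 := cdiv_le (a := (P.g - 1) * modal P F X k S κ x + wild P F X κ x k) hg
  rw [← hb] at b1 b2
  rw [Nat.cast_add, Nat.cast_mul, ← hWl] at b1 b2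
  set Md : ℝ := ((modal P F X k S κ x : ℕ) : ℝ) with hMd
  set g1 : ℝ := ((P.g - 1 : ℕ) : ℝ) with hg1
  have hgpos : (0 : ℝ) < P.g := by exact_mod_cast hg
  have hg1e : g1 = P.g - 1 := by
    rw [hg1]; push_cast [Nat.cast_sub hg]; ring
  have hg10 : 0 ≤ g1 := Nat.cast_nonneg _
  have hal : al P F X k κ x = g1 / P.g * (wc / (wc + ww)) := by
    unfold al
    push_cast
    rfl
  have hal2 : 1 - al P F X k κ x = g1 / P.g * (ww / (wc + ww)) + 1 / P.g := by
    rw [hal, hg1e]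
    field_simp
    ring
  have e0 : ∀ T : ℝ, al P F X k κ x * T + (1 - al P F X k κ x) * Wl =
      (g1 * ((wc * T + ww * Wl) / (wc + ww)) + Wl) / P.g := by
    intro T
    rw [hal2, hal]
    field_simp
    ring
  have hgg : g1 / P.g ≤ 1 := by rw [div_le_one hgpos, hg1e]; linarith
  constructor
  · rw [e0 L]
    refine le_trans ?_ b1
    refine div_le_div_of_nonneg_right ?_ hgpos.le
    have h1 : (wc * L + ww * Wl) / (wc + ww) ≤ Md := by
      refine le_trans ?_ m1
      refine div_le_div_of_nonneg_right ?_ hs.le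
      nlinarith
    nlinarith
  · refine b2.trans ?_
    rw [e0 L]
    have h1 : Md ≤ (wc * L + ww * Wl) / (wc + ww) + 2 ^ P.n := by
      refine m2.trans ?_
      have h2 : (wc * C + ww * Wl) / (wc + ww) ≤ (wc * L + ww * Wl) / (wc + ww) + (2 ^ P.n - 1) := by
        rw [div_add' _ _ _ hs.ne']
        refine div_le_div_of_nonneg_right ?_ hs.le
        have h3 : (1 : ℝ) ≤ 2 ^ P.n := one_le_pow₀ (by norm_num)
        nlinarith [mul_nonneg hww0.le (sub_nonneg.2 h3)]
      linarith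
    have h4 : (g1 * Md + Wl) / P.g ≤
        (g1 * ((wc * L + ww * Wl) / (wc + ww)) + Wl) / P.g + g1 / P.g * 2 ^ P.n := by
      rw [← sub_nonneg]
      have : (g1 * ((wc * L + ww * Wl) / (wc + ww)) + Wl) / P.g + g1 / P.g * 2 ^ P.n -
          (g1 * Md + Wl) / P.g =
          g1 / P.g * ((wc * L + ww * Wl) / (wc + ww) + 2 ^ P.n - Md) := by ring
      rw [this]
      exact mul_nonneg (div_nonneg hg10 hgpos.le) (by linarith)
    have h5 : g1 / P.g * 2 ^ P.n ≤ 2 ^ P.n := by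
      have : (0 : ℝ) ≤ 2 ^ P.n := by positivity
      nlinarith
    linarith

end Crest.Agent.R288.BodyLin540
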