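import Crest.Agent.R288.AlgA_45
import Crest.Agent.R288.LinT_908
import Crest.Agent.R288.BLin_890

/-!
# R288, [RT.LIN] = leaf L4: the body value as a function of the spawned end values (Alg v2)

* `sumR_*`, `minR_congr`, `le_maxR`, `cdiv_*`    : elementary
* `prb`, `hv_bounds`, `le_hv`                    : one decision is a mixture, rounded up once
* `hv_ext/congr/mono/le`, `VV_ext/congr/mono/le` : rank `i` uses the ranks `< i` for its weights
* `krn`, `VV_lin`                                : `LV ≤ VV ≤ LV + (2^t - 1)`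
* `endv q a b`                                   : number of the near piece `q` between the letters `a`, `b`
* `NearEq/NearLe/NearBd`, `calm_* modal_* bodyNum_congr/mono/le/le_reg` : dependence on the spawned numbers
* `gen`                                          : the generic branch (admissible, no leaf, not R1, regular)
* `bwt`, `bwt_sum`, `blin`, `blin_*`             : marginal weights (sum one for every end), the mixture
* `pcal`, `bal`, `bbe`                           : calm probability; `0 ≤ bal ≤ 1 - 1/g`; independent of `S`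
* `calm_lin`, `modal_lin`, **`body_lin`**        : `bal * blin endv + bbe ≤ bodyNum ≤ same + (2^n + 1)`
* `bodyNum_le_add`                               : comparison of two tables
* `numR`, `numR_cast`, `Ev_numR`, `Ev_endv`      : number of a state from a real table
* **`Ev_body`**, `Ev_body_le`, `le_Ev_body`, **`Ev_body_sq`** : mean and second moment of the body value

`S q κ' z` = spawned number of the pair `(κ', z)` at end `q`; `X i`, `i < k` = numbers of the lower ranks.
-/

set_option autoImplicit false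

namespace Crest.Agent.R288.BodyLin725

open Crest.Agent.R288.Alg45 Crest.Agent.R288.Lin908

/-! ## elementary -/

theorem sumR_zero (f : ℕ → ℕ) : sumR 0 f = 0 := rfl

theorem sumR_succ (n : ℕ) (f : ℕ → ℕ) : sumR (n + 1) f = sumR n f + f n := by
  unfold sumR
  rw [List.range_succ, List.map_append, List.sum_append]
  simp

theorem sumR_eq (n : ℕ) (f : ℕ → ℕ) : sumR n f = ∑ z ∈ Finset.range n, f z := by
  induction n with
  | zero => simp [sumR_zero]
  | succ n ih => rw [sumR_succ, ih, Finset.sum_range_succ]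

theorem sumR_congr {n : ℕ} {f g : ℕ → ℕ} (h : ∀ z < n, f z = g z) : sumR n f = sumR n g := by
  rw [sumR_eq, sumR_eq]
  exact Finset.sum_congr rfl fun z hz => h z (Finset.mem_range.1 hz)

theorem sumR_mono {n : ℕ} {f g : ℕ → ℕ} (h : ∀ z < n, f z ≤ g z) : sumR n f ≤ sumR n g := by
  rw [sumR_eq, sumR_eq]
  exact Finset.sum_le_sum fun z hz => h z (Finset.mem_range.1 hz)

theorem sumR_mul (n c : ℕ) (f : ℕ → ℕ) : sumR n (fun z => c * f z) = c * sumR n f := by
  rw [sumR_eq, sumR_eq, Finset.mul_sum]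

theorem sumR_le_of_mem {n : ℕ} {f : ℕ → ℕ} {z : ℕ} (hz : z < n) : f z ≤ sumR n f := by
  rw [sumR_eq]
  exact Finset.single_le_sum (f := f) (fun _ _ => Nat.zero_le _) (Finset.mem_range.2 hz)

theorem foldl_min_congr {f g : ℕ → ℕ} (l : List ℕ) : ∀ (m : ℕ), (∀ z ∈ l, f z = g z) →
    l.foldl (fun m a => min m (f a)) m = l.foldl (fun m a => min m (g a)) m := by
  induction l with
  | nil => intro m _; rfl
  | cons a l ih =>
    intro m hl
    simp only [List.foldl_cons]
    rw [hl a (by simp)]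
    exact ih _ fun z hz => hl z (by simp [hz])

theorem minR_congr {n : ℕ} (hn : 0 < n) {f g : ℕ → ℕ} (h : ∀ z < n, f z = g z) :
    minR n f = minR n g := by
  unfold minR
  rw [h 0 hn]
  exact foldl_min_congr _ _ fun z hz => h z (List.mem_range.1 hz)

theorem foldl_max_le {f : ℕ → ℕ} (l : List ℕ) : ∀ (m : ℕ),
    m ≤ l.foldl (fun m a => max m (f a)) m ∧ ∀ z ∈ l, f z ≤ l.foldl (fun m a => max m (f a)) m := by
  induction l with
  | nil => intro m; exact ⟨le_rfl, fun z hz => by simp at hz⟩
  | cons a l ih =>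
    intro m
    simp only [List.foldl_cons]
    obtain ⟨h1, h2⟩ := ih (max m (f a))
    refine ⟨(le_max_left _ _).trans h1, fun z hz => ?_⟩
    rcases List.mem_cons.1 hz with rfl | hz
    · exact (le_max_right _ _).trans h1
    · exact h2 z hz

theorem le_maxR {n : ℕ} {f : ℕ → ℕ} {z : ℕ} (hz : z < n) : f z ≤ maxR n f := by
  unfold maxR
  exact (foldl_max_le _ _).2 z (List.mem_range.2 hz)

/-! ### ceiling division -/

theorem cdiv_zero (a : ℕ) : cdiv a 0 = 0 := Nat.div_zero _

theorem cdiv_mono {a b s : ℕ} (h : a ≤ b) : cdiv a s ≤ cdiv b s :=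
  Nat.div_le_div_right (by omega)

theorem cdiv_le {a s M : ℕ} (h : a ≤ s * M) : cdiv a s ≤ M := by
  rcases Nat.eq_zero_or_pos s with rfl | hs
  · rw [cdiv_zero]; exact Nat.zero_le _
  · unfold cdiv
    refine Nat.le_of_lt_succ ((Nat.div_lt_iff_lt_mul hs).2 ?_)
    rw [Nat.succ_mul, mul_comm M]
    omega

theorem le_cdiv_mul {a s : ℕ} (hs : 0 < s) : a ≤ cdiv a s * s := by
  unfold cdiv
  have h1 := Nat.div_add_mod (a + (s - 1)) s
  have h2 := Nat.mod_lt (a + (s - 1)) hs
  rw [mul_comm]
  generalize s * ((a + (s - 1)) / s) = m at *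
  omega

theorem cdiv_bounds {a s : ℕ} (h : 0 < s) :
    (a : ℝ) / s ≤ (cdiv a s : ℝ) ∧ (cdiv a s : ℝ) ≤ a / s + 1 := by
  have hs : (0 : ℝ) < s := by exact_mod_cast h
  constructor
  · rw [div_le_iff₀ hs]
    exact_mod_cast le_cdiv_mul h
  · rw [← sub_le_iff_le_add, le_div_iff₀ hs, sub_mul, one_mul, sub_le_iff_le_add]
    have : cdiv a s * s ≤ a + s := (Nat.div_mul_le_self _ _).trans (by omega)
    exact_mod_cast this

/-! ## one decision -/

/-- the probabilities of the weights `w` -/
noncomputable def prb (B : ℕ) (w : ℕ → ℕ) (z : ℕ) : ℝ := (w z : ℝ) / (sumR B w : ℝ)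

theorem prb_nonneg (B : ℕ) (w : ℕ → ℕ) (z : ℕ) : 0 ≤ prb B w z := by unfold prb; positivity

theorem prb_sum {B : ℕ} {w : ℕ → ℕ} (h : 0 < sumR B w) : ∑ z ∈ Finset.range B, prb B w z = 1 := by
  unfold prb
  rw [← Finset.sum_div, sumR_eq]
  rw [sumR_eq] at h
  push_cast
  exact div_self (by exact_mod_cast h.ne')

theorem prb_le_one {B : ℕ} {w : ℕ → ℕ} {z : ℕ} (hz : z < B) : prb B w z ≤ 1 := by
  unfold prb
  refine div_le_one_of_le₀ ?_ (Nat.cast_nonneg _)
  exact_mod_cast sumR_le_of_mem (f := w) hz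

theorem sumR_pos {B : ℕ} {w : ℕ → ℕ} {z : ℕ} (hz : z < B) (h : 0 < w z) : 0 < sumR B w :=
  lt_of_lt_of_le h (sumR_le_of_mem hz)

section dec

variable {gn gd B U : ℕ} {w0 : ℕ → ℕ} {us us' : ℕ → ℕ → ℕ}

theorem cav_bounds {w u : ℕ → ℕ} (h : 0 < sumR B w) :
    ∑ z ∈ Finset.range B, prb B w z * u z
        ≤ (cdiv (sumR B fun z => w z * u z) (sumR B w) : ℝ) ∧
      (cdiv (sumR B fun z => w z * u z) (sumR B w) : ℝ)
        ≤ ∑ z ∈ Finset.range B, prb B w z * u z + 1 := by
  have h1 : ∑ z ∈ Finset.range B, prb B w z * u z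
      = ((sumR B (fun z => w z * u z) : ℕ) : ℝ) / (sumR B w : ℝ) := by
    unfold prb
    rw [sumR_eq B (fun z => w z * u z)]
    push_cast
    rw [Finset.sum_div]
    exact Finset.sum_congr rfl fun z _ => by ring
  rw [h1]
  exact cdiv_bounds h

/-- the weights of rank `i` are a function of the losses of the ranks `< i` (all letters) -/
theorem wts_ext {i : ℕ} (h : ∀ i' < i, us i' = us' i') :
    wts gn gd B U w0 us i = wts gn gd B U w0 us' i := by
  induction i with
  | zero => rfl
  | succ i ih =>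
    funext z
    show wts gn gd B U w0 us i z * fac gn gd U (us i z - minR B (us i))
      = wts gn gd B U w0 us' i z * fac gn gd U (us' i z - minR B (us' i))
    rw [ih fun i' hi' => h i' (by omega), h i (by omega)]

theorem hv_ext {i : ℕ} (h : ∀ i' ≤ i, us i' = us' i') :
    hv gn gd B U w0 us i = hv gn gd B U w0 us' i := by
  unfold hv
  rw [wts_ext fun i' hi' => h i' hi'.le, h i le_rfl]

theorem wts_congr (hB : 0 < B) {i : ℕ} (h : ∀ i' < i, ∀ z < B, us i' z = us' i' z) :
    ∀ z < B, wts gn gd B U w0 us i z = wts gn gd B U w0 us' i z := by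
  induction i with
  | zero => intro z _; rfl
  | succ i ih =>
    intro z hz
    have h1 := ih (fun i' hi' => h i' (by omega)) z hz
    have h2 := h i (by omega)
    show wts gn gd B U w0 us i z * fac gn gd U (us i z - minR B (us i))
      = wts gn gd B U w0 us' i z * fac gn gd U (us' i z - minR B (us' i))
    rw [h1, h2 z hz, minR_congr hB h2]

theorem fac_pos {x : ℕ} (hd : 0 < gd) (hU : 0 < U) : 0 < fac gn gd U x := by
  unfold fac
  have h1 : 0 < gd * U := Nat.mul_pos hd hU
  have h2 := min_le_left (gd * U) (2 * gn * x)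
  have h3 : 2 * gd * U = 2 * (gd * U) := by ring
  omega

theorem wts_pos (hd : 0 < gd) (hU : 0 < U) {z : ℕ} (hw : 0 < w0 z) (i : ℕ) :
    0 < wts gn gd B U w0 us i z := by
  induction i with
  | zero => exact hw
  | succ i ih => exact Nat.mul_pos ih (fac_pos hd hU)

/-- rank `i` sees the losses of the ranks `≤ i` only -/
theorem hv_congr (hB : 0 < B) {i : ℕ} (h : ∀ i' ≤ i, ∀ z < B, us i' z = us' i' z) :
    hv gn gd B U w0 us i = hv gn gd B U w0 us' i := by
  have h1 := wts_congr (gn := gn) (gd := gd) (U := U) (w0 := w0) hB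
    fun i' (hi' : i' < i) z hz => h i' hi'.le z hz
  unfold hv
  rw [sumR_congr h1, sumR_congr (f := fun z => wts gn gd B U w0 us i z * us i z)
    (g := fun z => wts gn gd B U w0 us' i z * us' i z)
    fun z hz => by rw [h1 z hz, h i le_rfl z hz]]

/-- the value of rank `i` is monotone in its own losses -/
theorem hv_mono (hB : 0 < B) {i : ℕ} (h : ∀ i' < i, ∀ z < B, us i' z = us' i' z)
    (hi : ∀ z < B, us i z ≤ us' i z) : hv gn gd B U w0 us i ≤ hv gn gd B U w0 us' i := by
  have h1 := wts_congr (gn := gn) (gd := gd) (U := U) (w0 := w0) hB h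
  unfold hv
  rw [sumR_congr h1]
  refine cdiv_mono (sumR_mono fun z hz => ?_)
  rw [h1 z hz]
  exact Nat.mul_le_mul_left _ (hi z hz)

/-- the value of rank `i` is at most the largest loss -/
theorem hv_le {i M : ℕ} (h : ∀ z < B, us i z ≤ M) : hv gn gd B U w0 us i ≤ M := by
  unfold hv
  refine cdiv_le ?_
  rw [sumR_eq, sumR_eq, Finset.sum_mul]
  exact Finset.sum_le_sum fun z hz => Nat.mul_le_mul_left _ (h z (Finset.mem_range.1 hz))

/-- the value of rank `i` is at least the smallest loss -/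
theorem le_hv {i m : ℕ} (hp : 0 < sumR B (wts gn gd B U w0 us i)) (h : ∀ z < B, m ≤ us i z) :
    m ≤ hv gn gd B U w0 us i := by
  unfold hv
  have h1 : sumR B (wts gn gd B U w0 us i) * m
      ≤ sumR B fun z => wts gn gd B U w0 us i z * us i z := by
    rw [sumR_eq, sumR_eq, Finset.sum_mul]
    exact Finset.sum_le_sum fun z hz => Nat.mul_le_mul_left _ (h z (Finset.mem_range.1 hz))
  have h2 := le_cdiv_mul (a := sumR B fun z => wts gn gd B U w0 us i z * us i z) hp
  have h3 := h1.trans h2
  rw [mul_comm] at h3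
  exact Nat.le_of_mul_le_mul_right h3 hp

/-- one decision is a mixture, rounded up once -/
theorem hv_bounds {i : ℕ} (hp : 0 < sumR B (wts gn gd B U w0 us i)) :
    ∑ z ∈ Finset.range B, prb B (wts gn gd B U w0 us i) z * us i z ≤ (hv gn gd B U w0 us i : ℝ) ∧
      (hv gn gd B U w0 us i : ℝ)
        ≤ ∑ z ∈ Finset.range B, prb B (wts gn gd B U w0 us i) z * us i z + 1 :=
  cav_bounds hp

end dec

/-! ## the in-window DP -/

section dp

variable {γ B : ℕ} {U : ℕ → ℕ → ℕ} {E E' : ℕ → ℕ → ℕ → ℕ → ℕ}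

theorem VV_zero (i p a b : ℕ) : VV γ B U E 0 i p a b = E i p a b := rfl

theorem VV_ext (t : ℕ) : ∀ (i : ℕ), (∀ i' ≤ i, E i' = E' i') →
    ∀ p a b, VV γ B U E t i p a b = VV γ B U E' t i p a b := by
  induction t with
  | zero => intro i h p a b; rw [VV_zero, VV_zero, h i le_rfl]
  | succ t ih =>
    intro i h p a b
    refine hv_ext fun i' hi' => ?_
    funext z
    rw [ih i' (fun i'' hi'' => h i'' (hi''.trans hi')) (2 * p) a z,
      ih i' (fun i'' hi'' => h i'' (hi''.trans hi')) (2 * p + 1) z b]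

theorem VV_congr (hB : 0 < B) (t : ℕ) :
    ∀ (i : ℕ), ∀ (p : ℕ),
      (∀ i' ≤ i, ∀ q, p * 2 ^ t ≤ q → q < (p + 1) * 2 ^ t → ∀ a < B, ∀ b < B, E i' q a b = E' i' q a b) →
      ∀ a < B, ∀ b < B, VV γ B U E t i p a b = VV γ B U E' t i p a b := by
  induction t with
  | zero =>
    intro i p h a ha b hb
    exact h i le_rfl p (by simp) (by simp) a ha b hb
  | succ t ih =>
    intro i p h a ha b hb
    have e1 : (p * 2 ^ (t + 1)) = (2 * p) * 2 ^ t := by ring
    have e2 : (p + 1) * 2 ^ (t + 1) = (2 * p + 1 + 1) * 2 ^ t := by ring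
    have e3 : (2 * p) * 2 ^ t + 2 ^ t = (2 * p + 1) * 2 ^ t := by ring
    have e4 : (2 * p + 1) * 2 ^ t + 2 ^ t = (2 * p + 1 + 1) * 2 ^ t := by ring
    have e0 : 0 < 2 ^ t := Nat.two_pow_pos t
    refine hv_congr hB fun i' hi' z hz => ?_
    rw [ih i' (2 * p) (fun i'' hi'' q h1 h2 => h i'' (by omega) q (by omega) (by omega)) a ha z hz,
      ih i' (2 * p + 1) (fun i'' hi'' q h1 h2 => h i'' (by omega) q (by omega) (by omega)) z hz b hb]

theorem VV_mono (hB : 0 < B) (t : ℕ) :
    ∀ (i : ℕ), ∀ (p : ℕ),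
      (∀ i' < i, ∀ q, p * 2 ^ t ≤ q → q < (p + 1) * 2 ^ t → ∀ a < B, ∀ b < B, E i' q a b = E' i' q a b) →
      (∀ q, p * 2 ^ t ≤ q → q < (p + 1) * 2 ^ t → ∀ a < B, ∀ b < B, E i q a b ≤ E' i q a b) →
      ∀ a < B, ∀ b < B, VV γ B U E t i p a b ≤ VV γ B U E' t i p a b := by
  induction t with
  | zero =>
    intro i p _ h a ha b hb
    exact h p (by simp) (by simp) a ha b hb
  | succ t ih =>
    intro i p h h' a ha b hb
    have e1 : (p * 2 ^ (t + 1)) = (2 * p) * 2 ^ t := by ring
    have e2 : (p + 1) * 2 ^ (t + 1) = (2 * p + 1 + 1) * 2 ^ t := by ring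
    have e3 : (2 * p) * 2 ^ t + 2 ^ t = (2 * p + 1) * 2 ^ t := by ring
    have e4 : (2 * p + 1) * 2 ^ t + 2 ^ t = (2 * p + 1 + 1) * 2 ^ t := by ring
    have e0 : 0 < 2 ^ t := Nat.two_pow_pos t
    refine hv_mono hB (fun i' hi' z hz => ?_) fun z hz => ?_
    · rw [VV_congr hB t i' (2 * p) (fun i'' hi'' q h1 h2 => h i'' (by omega) q (by omega) (by omega))
          a ha z hz,
        VV_congr hB t i' (2 * p + 1)
          (fun i'' hi'' q h1 h2 => h i'' (by omega) q (by omega) (by omega)) z hz b hb]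
    · exact Nat.add_le_add
        (ih i (2 * p) (fun i'' hi'' q h1 h2 => h i'' (by omega) q (by omega) (by omega))
          (fun q h1 h2 => h' q (by omega) (by omega)) a ha z hz)
        (ih i (2 * p + 1) (fun i'' hi'' q h1 h2 => h i'' (by omega) q (by omega) (by omega))
          (fun q h1 h2 => h' q (by omega) (by omega)) z hz b hb)

/-- at most the sum over the pieces of the maximum over the letters -/
theorem VV_le {M : ℕ → ℕ} (t : ℕ) :
    ∀ (i : ℕ), ∀ (p : ℕ),
      (∀ q, p * 2 ^ t ≤ q → q < (p + 1) * 2 ^ t → ∀ a < B, ∀ b < B, E i q a b ≤ M q) →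
      ∀ a < B, ∀ b < B, VV γ B U E t i p a b ≤ ∑ q ∈ Finset.Ico (p * 2 ^ t) ((p + 1) * 2 ^ t), M q := by
  induction t with
  | zero =>
    intro i p h a ha b hb
    rw [VV_zero]
    simpa using h p (by simp) (by simp) a ha b hb
  | succ t ih =>
    intro i p h a ha b hb
    have e1 : (p * 2 ^ (t + 1)) = (2 * p) * 2 ^ t := by ring
    have e2 : (p + 1) * 2 ^ (t + 1) = (2 * p + 1 + 1) * 2 ^ t := by ring
    have e3 : (2 * p) * 2 ^ t + 2 ^ t = (2 * p + 1) * 2 ^ t := by ring
    have e4 : (2 * p + 1) * 2 ^ t + 2 ^ t = (2 * p + 1 + 1) * 2 ^ t := by ring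
    have e0 : 0 < 2 ^ t := Nat.two_pow_pos t
    refine hv_le fun z hz => ?_
    rw [e1, e2, ← Finset.sum_Ico_consecutive M (m := 2 * p * 2 ^ t) (n := (2 * p + 1) * 2 ^ t)
      (by omega) (by omega)]
    exact Nat.add_le_add
      (ih i (2 * p) (fun q h1 h2 => h q (by omega) (by omega)) a ha z hz)
      (ih i (2 * p + 1) (fun q h1 h2 => h q (by omega) (by omega)) z hz b hb)

/-! ### the linear form -/

/-- the kernels of rank `k` at the inner nodes -/
noncomputable def krn (γ B : ℕ) (U : ℕ → ℕ → ℕ) (E : ℕ → ℕ → ℕ → ℕ → ℕ) (k : ℕ) :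
    ℕ → ℕ → ℕ → ℕ → ℕ → ℝ
  | 0, _, _, _, z => if z = 0 then 1 else 0
  | t + 1, p, a, b, z =>
    prb B (wts γ 1 B (U (t + 1) p) (fun _ => 1)
      (fun i' z => VV γ B U E t i' (2 * p) a z + VV γ B U E t i' (2 * p + 1) z b) k) z

/-- the kernels of rank `k` are a function of the end tables of the ranks `< k` -/
theorem krn_ext {k : ℕ} (h : ∀ i < k, E i = E' i) : krn γ B U E k = krn γ B U E' k := by
  funext t p a b z
  cases t with
  | zero => rfl
  | succ t =>
    simp only [krn]
    congr 1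
    refine wts_ext fun i' hi' => ?_
    funext z
    rw [VV_ext t i' (fun i'' hi'' => h i'' (lt_of_le_of_lt hi'' hi')) (2 * p) a z,
      VV_ext t i' (fun i'' hi'' => h i'' (lt_of_le_of_lt hi'' hi')) (2 * p + 1) z b]

theorem krn_nonneg (γ B : ℕ) (U : ℕ → ℕ → ℕ) (E : ℕ → ℕ → ℕ → ℕ → ℕ) (k t p a b z : ℕ) :
    0 ≤ krn γ B U E k t p a b z := by
  cases t with
  | zero =>
    show 0 ≤ (if z = 0 then (1 : ℝ) else 0)
    split_ifs <;> norm_num
  | succ t => exact prb_nonneg _ _ _

theorem krn_sum (hB : 0 < B) (hU : ∀ t p, 0 < U t p) (E : ℕ → ℕ → ℕ → ℕ → ℕ) (k t p a b : ℕ) :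
    ∑ z ∈ Finset.range B, krn γ B U E k t p a b z = 1 := by
  cases t with
  | zero =>
    show ∑ z ∈ Finset.range B, (if z = 0 then (1 : ℝ) else 0) = 1
    rw [Finset.sum_ite_eq' (Finset.range B) 0, if_pos (Finset.mem_range.2 hB)]
  | succ t => exact prb_sum (sumR_pos hB (wts_pos one_pos (hU _ _) one_pos _))

theorem VV_lin (hB : 0 < B) (hU : ∀ t p, 0 < U t p) (E : ℕ → ℕ → ℕ → ℕ → ℕ) (k t p a b : ℕ) :
    LV B (krn γ B U E k) (fun q a b => (E k q a b : ℝ)) t p a b ≤ (VV γ B U E t k p a b : ℝ) ∧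
      (VV γ B U E t k p a b : ℝ)
        ≤ LV B (krn γ B U E k) (fun q a b => (E k q a b : ℝ)) t p a b + (2 ^ t - 1) := by
  have key : ∀ t p a b,
      ∑ z ∈ Finset.range B, krn γ B U E k (t + 1) p a b z *
        ((VV γ B U E t k (2 * p) a z : ℝ) + (VV γ B U E t k (2 * p + 1) z b : ℝ))
        ≤ (VV γ B U E (t + 1) k p a b : ℝ) ∧
      (VV γ B U E (t + 1) k p a b : ℝ) ≤ ∑ z ∈ Finset.range B, krn γ B U E k (t + 1) p a b z *
        ((VV γ B U E t k (2 * p) a z : ℝ) + (VV γ B U E t k (2 * p + 1) z b : ℝ)) + 1 := by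
    intro t p a b
    have h := hv_bounds (gn := γ) (gd := 1) (B := B) (U := U (t + 1) p) (w0 := fun _ => 1)
      (us := fun i' z => VV γ B U E t i' (2 * p) a z + VV γ B U E t i' (2 * p + 1) z b) (i := k)
      (sumR_pos hB (wts_pos one_pos (hU _ _) one_pos _))
    push_cast at h
    exact h
  constructor
  · exact le_of_ceil (T := t) (fun _ _ _ _ _ => krn_nonneg γ B U E k _ _ _ _ _)
      (V := fun t p a b => (VV γ B U E t k p a b : ℝ)) (fun p a b => le_rfl)
      (fun t _ p a b => (key t p a b).1) t le_rfl p a b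
  · exact of_ceil_le (T := t) (fun _ _ _ _ _ => krn_nonneg γ B U E k _ _ _ _ _)
      (fun t p a b => krn_sum hB hU E k t p a b)
      (V := fun t p a b => (VV γ B U E t k p a b : ℝ)) (fun p a b => le_rfl)
      (fun t _ p a b => (key t p a b).2) t le_rfl p a b

end dp

/-! ## the functions of the algorithm -/

variable (P : Par)

/-- the end number of the piece `q` between the near letters `a`, `b` -/
def endv (F : St → ℕ) (κ : ℕ) (x : St) (S : ℕ → ℕ → St → ℕ) (q a b : ℕ) : ℕ :=
  numSt P F κ (S q) (npiece P F κ x q a b)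

/-- the same end numbers at the near pieces -/
def NearEq (F : St → ℕ) (κ : ℕ) (x : St) (S S' : ℕ → ℕ → St → ℕ) : Prop :=
  ∀ q < P.N, ∀ a < nlet P F κ x, ∀ b < nlet P F κ x, endv P F κ x S q a b = endv P F κ x S' q a b

/-- smaller end numbers at the near pieces -/
def NearLe (F : St → ℕ) (κ : ℕ) (x : St) (S S' : ℕ → ℕ → St → ℕ) : Prop :=
  ∀ q < P.N, ∀ a < nlet P F κ x, ∀ b < nlet P F κ x, endv P F κ x S q a b ≤ endv P F κ x S' q a b

/-- the end numbers at the near pieces are at most `M q` -/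
def NearBd (F : St → ℕ) (κ : ℕ) (x : St) (S : ℕ → ℕ → St → ℕ) (M : ℕ → ℕ) : Prop :=
  ∀ q < P.N, ∀ a < nlet P F κ x, ∀ b < nlet P F κ x, endv P F κ x S q a b ≤ M q

section fn

variable {leaf : St → Option ℕ} {F : St → ℕ} {X : ℕ → ℕ → St → ℕ} {k κ : ℕ} {x : St}
variable {S S' : ℕ → ℕ → St → ℕ}

/-- pointwise comparison of the tables at the pairs read -/
theorem numSt_mono {f f' : ℕ → St → ℕ} {y : St}
    (h : ¬ (cls F y + P.dl < κ ∨ κ + P.du < cls F y) →
      f (cls F y) (rdn P (cls F y) y) ≤ f' (cls F y) (rdn P (cls F y) y)) :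
    numSt P F κ f y ≤ numSt P F κ f' y := by
  unfold numSt
  split_ifs with h1
  · exact le_rfl
  · exact Nat.add_le_add_left (h h1) _

theorem numSt_congr {f f' : ℕ → St → ℕ} {y : St}
    (h : ¬ (cls F y + P.dl < κ ∨ κ + P.du < cls F y) →
      f (cls F y) (rdn P (cls F y) y) = f' (cls F y) (rdn P (cls F y) y)) :
    numSt P F κ f y = numSt P F κ f' y :=
  le_antisymm (numSt_mono P fun h1 => (h h1).le) (numSt_mono P fun h1 => (h h1).ge)

theorem NearEq.le (h : NearEq P F κ x S S') : NearLe P F κ x S S' :=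
  fun q hq a ha b hb => (h q hq a ha b hb).le

theorem NearEq.symm (h : NearEq P F κ x S S') : NearEq P F κ x S' S :=
  fun q hq a ha b hb => (h q hq a ha b hb).symm

theorem nlet_pos : 0 < nlet P F κ x := by unfold nlet; omega

theorem unt_pos (t p : ℕ) : 0 < unt P F κ x t p := Nat.succ_pos _

theorem lt_N {q : ℕ} (h : q < (0 + 1) * 2 ^ P.n) : q < P.N := by
  rw [zero_add, one_mul] at h
  exact h

/-- the calm values of the ranks `< k` do not depend on the spawned numbers -/
theorem calm_lt {i : ℕ} (hi : i < k) : calm P F X k S κ x i = calm P F X k S' κ x i := by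
  unfold calm
  refine VV_ext _ _ (fun i' hi' => ?_) _ _ _
  have h : i' < k := lt_of_le_of_lt hi' hi
  simp only [if_pos h]

theorem calm_congr (h : NearEq P F κ x S S') (i : ℕ) :
    calm P F X k S κ x i = calm P F X k S' κ x i := by
  unfold calm
  refine VV_congr (nlet_pos P) _ _ _ (fun i' _ q _ hq a ha b hb => ?_) _ (nlet_pos P) _ (nlet_pos P)
  by_cases h' : i' < k
  · simp only [if_pos h']
  · simp only [if_neg h']
    exact h q (lt_N P hq) a ha b hb

theorem calm_mono (h : NearLe P F κ x S S') :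
    calm P F X k S κ x k ≤ calm P F X k S' κ x k := by
  unfold calm
  refine VV_mono (nlet_pos P) _ _ _ (fun i' hi' q _ _ a _ b _ => ?_)
    (fun q _ hq a ha b hb => ?_) _ (nlet_pos P) _ (nlet_pos P)
  · simp only [if_pos hi']
  · simp only [lt_irrefl, if_false]
    exact h q (lt_N P hq) a ha b hb

theorem calm_le {M : ℕ → ℕ} (h : NearBd P F κ x S M) :
    calm P F X k S κ x k ≤ ∑ q ∈ Finset.range P.N, M q := by
  have h1 := VV_le (γ := P.γ) (B := nlet P F κ x) (U := unt P F κ x)
    (E := fun i q a b => numSt P F κ (if i < k then X i else S q) (npiece P F κ x q a b)) (M := M)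
    P.n k 0 (fun q _ hq a ha b hb => by
      simp only [lt_irrefl, if_false]
      exact h q (lt_N P hq) a ha b hb) 0 (nlet_pos P) 0 (nlet_pos P)
  rw [zero_mul, zero_add, one_mul, ← Finset.range_eq_Ico] at h1
  exact h1

theorem Wm_le (f : ℕ) (V : ℕ → ℕ) (i : ℕ) : Wm f V i ≤ f := by
  induction i with
  | zero => exact le_rfl
  | succ i ih => exact (min_le_left _ _).trans ih

theorem Wm_anti (f : ℕ) (V : ℕ → ℕ) {i j : ℕ} (h : i ≤ j) : Wm f V j ≤ Wm f V i := by
  induction h with
  | refl => exact le_rfl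
  | step _ ih => exact (min_le_left _ _).trans ih

theorem wild_le (i : ℕ) : wild P F X κ x i ≤ F x := Wm_le _ _ _

theorem modal_congr (h : NearEq P F κ x S S') :
    modal P F X k S κ x = modal P F X k S' κ x := by
  unfold modal
  refine hv_congr (by omega) fun i _ z _ => ?_
  split_ifs
  · exact calm_congr P h i
  · rfl

theorem modal_mono (h : NearLe P F κ x S S') :
    modal P F X k S κ x ≤ modal P F X k S' κ x := by
  unfold modal
  refine hv_mono (by omega) (fun i hi z _ => ?_) fun z _ => ?_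
  · split_ifs
    · exact calm_lt P hi
    · rfl
  · split_ifs
    · exact calm_mono P h
    · exact le_rfl

theorem modal_le {M : ℕ → ℕ} (h : NearBd P F κ x S M) :
    modal P F X k S κ x ≤ max (F x) (∑ q ∈ Finset.range P.N, M q) := by
  unfold modal
  refine hv_le fun z _ => ?_
  split_ifs
  · exact (calm_le P h).trans (le_max_right _ _)
  · exact (wild_le P k).trans (le_max_left _ _)

/-- the generic branch of `bodyNum` -/
def gen (leaf : St → Option ℕ) (F : St → ℕ) (κ : ℕ) (x : St) : Prop :=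
  adm P F κ x = true ∧ leaf x = none ∧ ¬ R1 P F x ∧ regular P F κ x

theorem bodyNum_gen (h : gen P leaf F κ x) : bodyNum P leaf F X k S κ x
    = cdiv ((P.g - 1) * modal P F X k S κ x + wild P F X κ x k) P.g := by
  obtain ⟨h1, h2, h3, h4⟩ := h
  unfold bodyNum
  rw [h1, h2]
  simp only [Bool.true_eq_false, if_false]
  rw [if_neg]
  rintro (h | h)
  · exact h3 h
  · exact h h4

theorem bodyNum_ngen (h : ¬ gen P leaf F κ x) :
    bodyNum P leaf F X k S κ x = bodyNum P leaf F X k S' κ x := by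
  unfold bodyNum
  by_cases h1 : adm P F κ x = false
  · rw [if_pos h1, if_pos h1]
  · rw [if_neg h1, if_neg h1]
    rw [Bool.not_eq_false] at h1
    cases h2 : leaf x with
    | some c => rfl
    | none =>
      dsimp only
      by_cases h3 : R1 P F x ∨ ¬ regular P F κ x
      · rw [if_pos h3, if_pos h3]
      · push Not at h3
        exact absurd ⟨h1, h2, h3.1, h3.2⟩ h

theorem bodyNum_congr (h : NearEq P F κ x S S') :
    bodyNum P leaf F X k S κ x = bodyNum P leaf F X k S' κ x := by
  unfold bodyNum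
  rw [modal_congr P h]

theorem bodyNum_mono (h : NearLe P F κ x S S') :
    bodyNum P leaf F X k S κ x ≤ bodyNum P leaf F X k S' κ x := by
  by_cases hg : gen P leaf F κ x
  · rw [bodyNum_gen P hg, bodyNum_gen P hg]
    exact cdiv_mono (Nat.add_le_add_right (Nat.mul_le_mul_left _ (modal_mono P h)) _)
  · exact (bodyNum_ngen P hg).le

/-- outside the leaves and the generic branch the body value is at most `F x` -/
theorem bodyNum_le_F (h : ¬ gen P leaf F κ x) (hl : leaf x = none ∨ adm P F κ x = false) :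
    bodyNum P leaf F X k S κ x ≤ F x := by
  unfold bodyNum
  by_cases h1 : adm P F κ x = false
  · rw [if_pos h1]
  · rw [if_neg h1]
    rcases hl with hl | hl
    · rw [hl]
      dsimp only
      rw [Bool.not_eq_false] at h1
      by_cases h3 : R1 P F x ∨ ¬ regular P F κ x
      · rw [if_pos h3]; exact wild_le P k
      · push Not at h3
        exact absurd ⟨h1, hl, h3.1, h3.2⟩ h
    · exact absurd hl h1

theorem bodyNum_le {M : ℕ → ℕ} (hg : 0 < P.g) (h : NearBd P F κ x S M)
    (hl : ∀ c, leaf x = some c → c ≤ max (F x) (∑ q ∈ Finset.range P.N, M q)) :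
    bodyNum P leaf F X k S κ x ≤ max (F x) (∑ q ∈ Finset.range P.N, M q) := by
  by_cases h1 : gen P leaf F κ x
  · rw [bodyNum_gen P h1]
    refine cdiv_le ?_
    have h2 := modal_le P (X := X) (k := k) h
    have h3 : wild P F X κ x k ≤ max (F x) (∑ q ∈ Finset.range P.N, M q) :=
      (wild_le P k).trans (le_max_left _ _)
    obtain ⟨g, hg'⟩ : ∃ g, P.g = g + 1 := ⟨P.g - 1, by omega⟩
    rw [hg', Nat.add_sub_cancel, Nat.add_mul, one_mul]
    exact Nat.add_le_add (Nat.mul_le_mul_left _ h2) h3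
  · by_cases h2 : adm P F κ x = false
    · exact (bodyNum_le_F P h1 (Or.inr h2)).trans (le_max_left _ _)
    · cases h3 : leaf x with
      | some c =>
        have : bodyNum P leaf F X k S κ x = c := by
          unfold bodyNum
          rw [if_neg h2, h3]
        rw [this]
        exact hl c h3
      | none => exact (bodyNum_le_F P h1 (Or.inl h3)).trans (le_max_left _ _)

/-- in the generic branch the near pieces carry at most `Creg F` -/
theorem gen_sum (h : gen P leaf F κ x) :
    ∑ q ∈ Finset.range P.N, (maxR (nlet P F κ x) fun a => maxR (nlet P F κ x) fun b =>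
      F (npiece P F κ x q a b)) ≤ P.Creg * F x := by
  have := h.2.2.2
  unfold regular at this
  rwa [sumR_eq] at this

theorem le_maxmax {f : ℕ → ℕ → ℕ} {n a b : ℕ} (ha : a < n) (hb : b < n) :
    f a b ≤ maxR n fun a => maxR n fun b => f a b :=
  (le_maxR (f := fun b => f a b) hb).trans (le_maxR (f := fun a => maxR n fun b => f a b) ha)

/-- if the end numbers are at most `C F + C'` at the near pieces then the body value is at most
`max F (C Creg F + N C')` -/
theorem bodyNum_le_reg {C C' : ℕ} (hg : 0 < P.g)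
    (h : gen P leaf F κ x → ∀ q < P.N, ∀ a < nlet P F κ x, ∀ b < nlet P F κ x,
      endv P F κ x S q a b ≤ C * F (npiece P F κ x q a b) + C')
    (hl : ∀ c, leaf x = some c → c ≤ F x) :
    bodyNum P leaf F X k S κ x ≤ max (F x) (C * (P.Creg * F x) + P.N * C') := by
  by_cases h1 : gen P leaf F κ x
  · have h2 : NearBd P F κ x S (fun q => C * (maxR (nlet P F κ x) fun a => maxR (nlet P F κ x) fun b =>
      F (npiece P F κ x q a b)) + C') := fun q hq a ha b hb =>
        (h h1 q hq a ha b hb).trans (Nat.add_le_add_right (Nat.mul_le_mul_left _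
          (le_maxmax (f := fun a b => F (npiece P F κ x q a b)) ha hb)) _)
    refine (bodyNum_le P hg h2 fun c hc => by rw [h1.2.1] at hc; cases hc).trans ?_
    refine max_le_max le_rfl ?_
    rw [Finset.sum_add_distrib, ← Finset.mul_sum, Finset.sum_const, Finset.card_range, smul_eq_mul]
    exact Nat.add_le_add_right (Nat.mul_le_mul_left _ (gen_sum P h1)) _
  · refine le_trans ?_ (le_max_left _ _)
    by_cases h2 : adm P F κ x = false
    · exact bodyNum_le_F P h1 (Or.inr h2)
    · cases h3 : leaf x with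
      | some c =>
        have : bodyNum P leaf F X k S κ x = c := by
          unfold bodyNum
          rw [if_neg h2, h3]
        rw [this]
        exact hl c h3
      | none => exact bodyNum_le_F P h1 (Or.inl h3)

/-- the same with leaf values at most `F + e` (leaves of macro height `0`: `e = 1`) -/
theorem bodyNum_le_reg' {C C' e : ℕ} (hg : 0 < P.g)
    (h : gen P leaf F κ x → ∀ q < P.N, ∀ a < nlet P F κ x, ∀ b < nlet P F κ x,
      endv P F κ x S q a b ≤ C * F (npiece P F κ x q a b) + C')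
    (hl : ∀ c, leaf x = some c → c ≤ F x + e) :
    bodyNum P leaf F X k S κ x ≤ max (F x) (C * (P.Creg * F x) + P.N * C') + e := by
  by_cases h2 : adm P F κ x = false
  · have : bodyNum P leaf F X k S κ x = F x := by unfold bodyNum; rw [if_pos h2]
    rw [this]
    exact (le_max_left _ _).trans (Nat.le_add_right _ _)
  · cases h3 : leaf x with
    | some c =>
      have : bodyNum P leaf F X k S κ x = c := by
        unfold bodyNum
        rw [if_neg h2, h3]
      rw [this]
      exact (hl c h3).trans (Nat.add_le_add_right (le_max_left _ _) _)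
    | none =>
      exact (bodyNum_le_reg P hg h fun c hc => by rw [h3] at hc; cases hc).trans
        (Nat.le_add_right _ _)

/-! ## the exact affine form -/

/-- kernels of rank `k` at the near letters: a function of `F` and of the numbers of the ranks `< k` -/
noncomputable def bker (F : St → ℕ) (X : ℕ → ℕ → St → ℕ) (k κ : ℕ) (x : St) :
    ℕ → ℕ → ℕ → ℕ → ℕ → ℝ :=
  krn P.γ (nlet P F κ x) (unt P F κ x) (fun i q a b => numSt P F κ (X i) (npiece P F κ x q a b)) k

/-- marginal weight of the near piece `(q,a,b)` -/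
noncomputable def bwt (F : St → ℕ) (X : ℕ → ℕ → St → ℕ) (k κ : ℕ) (x : St) (q a b : ℕ) : ℝ :=
  mar (nlet P F κ x) (bker P F X k κ x) P.n 0 0 0 q a b

/-- the mixture of the end values -/
noncomputable def blin (F : St → ℕ) (X : ℕ → ℕ → St → ℕ) (k κ : ℕ) (x : St) (f : ℕ → ℕ → ℕ → ℝ) : ℝ :=
  BLin890.Lc P.N (nlet P F κ x) (bwt P F X k κ x) f

theorem bwt_nonneg (q a b : ℕ) : 0 ≤ bwt P F X k κ x q a b :=
  mar_nonneg (fun _ _ _ _ _ => krn_nonneg _ _ _ _ _ _ _ _ _ _) _ _ _ _ _ _ _

theorem bwt_sum {q : ℕ} (hq : q < P.N) :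
    ∑ a ∈ Finset.range (nlet P F κ x), ∑ b ∈ Finset.range (nlet P F κ x), bwt P F X k κ x q a b = 1 :=
  mar_sum (fun t p a b => krn_sum (nlet_pos P) (unt_pos P) _ k t p a b) _ _ _ _ _ (nlet_pos P)
    (nlet_pos P) (by simp) (by simpa [Par.N] using hq)

theorem blin_eq (f : ℕ → ℕ → ℕ → ℝ) :
    blin P F X k κ x f = LV (nlet P F κ x) (bker P F X k κ x) f P.n 0 0 0 := by
  unfold blin BLin890.Lc
  rw [LV_eq f P.n 0 0 0 (nlet_pos P) (nlet_pos P), zero_mul, zero_add, one_mul, ← Finset.range_eq_Ico]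
  rfl

theorem blin_mono {f g : ℕ → ℕ → ℕ → ℝ}
    (h : ∀ q < P.N, ∀ a < nlet P F κ x, ∀ b < nlet P F κ x, f q a b ≤ g q a b) :
    blin P F X k κ x f ≤ blin P F X k κ x g := by
  unfold blin BLin890.Lc
  exact Finset.sum_le_sum fun q hq => Finset.sum_le_sum fun a ha => Finset.sum_le_sum fun b hb =>
    mul_le_mul_of_nonneg_left (h q (Finset.mem_range.1 hq) a (Finset.mem_range.1 ha) b
      (Finset.mem_range.1 hb)) (bwt_nonneg P _ _ _)

theorem blin_congr {f g : ℕ → ℕ → ℕ → ℝ}
    (h : ∀ q < P.N, ∀ a < nlet P F κ x, ∀ b < nlet P F κ x, f q a b = g q a b) :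
    blin P F X k κ x f = blin P F X k κ x g :=
  le_antisymm (blin_mono P fun q hq a ha b hb => (h q hq a ha b hb).le)
    (blin_mono P fun q hq a ha b hb => (h q hq a ha b hb).ge)

theorem blin_add (f g : ℕ → ℕ → ℕ → ℝ) :
    blin P F X k κ x (fun q a b => f q a b + g q a b) = blin P F X k κ x f + blin P F X k κ x g := by
  unfold blin BLin890.Lc
  simp only [mul_add, Finset.sum_add_distrib]

theorem blin_const (M : ℕ → ℝ) :
    blin P F X k κ x (fun q _ _ => M q) = ∑ q ∈ Finset.range P.N, M q := by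
  unfold blin BLin890.Lc
  refine Finset.sum_congr rfl fun q hq => ?_
  simp only [← Finset.sum_mul]
  rw [bwt_sum P (Finset.mem_range.1 hq), one_mul]

/-- `f ≤ g + M q` at the near pieces: `blin f ≤ blin g + Σ M` -/
theorem blin_le_add {f g : ℕ → ℕ → ℕ → ℝ} {M : ℕ → ℝ}
    (h : ∀ q < P.N, ∀ a < nlet P F κ x, ∀ b < nlet P F κ x, f q a b ≤ g q a b + M q) :
    blin P F X k κ x f ≤ blin P F X k κ x g + ∑ q ∈ Finset.range P.N, M q := by
  rw [← blin_const P (F := F) (X := X) (k := k) (κ := κ) (x := x) M, ← blin_add]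
  exact blin_mono P h

theorem blin_le_sum {f : ℕ → ℕ → ℕ → ℝ} {M : ℕ → ℝ}
    (h : ∀ q < P.N, ∀ a < nlet P F κ x, ∀ b < nlet P F κ x, f q a b ≤ M q) :
    blin P F X k κ x f ≤ ∑ q ∈ Finset.range P.N, M q := by
  rw [← blin_const P (F := F) (X := X) (k := k) (κ := κ) (x := x) M]
  exact blin_mono P h

theorem sum_le_blin {f : ℕ → ℕ → ℕ → ℝ} {M : ℕ → ℝ}
    (h : ∀ q < P.N, ∀ a < nlet P F κ x, ∀ b < nlet P F κ x, M q ≤ f q a b) :
    ∑ q ∈ Finset.range P.N, M q ≤ blin P F X k κ x f := by
  rw [← blin_const P (F := F) (X := X) (k := k) (κ := κ) (x := x) M]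
  exact blin_mono P h

/-- the calm value is the mixture, rounded up at most `2^n - 1` times -/
theorem calm_lin :
    blin P F X k κ x (fun q a b => (endv P F κ x S q a b : ℝ)) ≤ (calm P F X k S κ x k : ℝ) ∧
      (calm P F X k S κ x k : ℝ)
        ≤ blin P F X k κ x (fun q a b => (endv P F κ x S q a b : ℝ)) + (2 ^ P.n - 1) := by
  have h := VV_lin (γ := P.γ) (B := nlet P F κ x) (U := unt P F κ x) (nlet_pos P) (unt_pos P)
    (fun i q a b => numSt P F κ (if i < k then X i else S q) (npiece P F κ x q a b)) k P.n 0 0 0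
  have e : krn P.γ (nlet P F κ x) (unt P F κ x)
      (fun i q a b => numSt P F κ (if i < k then X i else S q) (npiece P F κ x q a b)) k
      = bker P F X k κ x := by
    unfold bker
    refine krn_ext fun i hi => ?_
    simp only [if_pos hi]
  rw [e] at h
  simp only [lt_irrefl, if_false] at h
  rw [blin_eq]
  exact h

/-- the probability of the calm mode: a function of `F` and of the numbers of the ranks `< k` -/
noncomputable def pcal (F : St → ℕ) (X : ℕ → ℕ → St → ℕ) (k κ : ℕ) (x : St) : ℝ :=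
  prb 2 (wts 1 P.um 2 (F x + 1) (fun z => if z = 0 then P.pm else 1)
    (fun i z => if z = 0 then calm P F X k (fun _ => X k) κ x i else wild P F X κ x i) k) 0

theorem pcal_nonneg : 0 ≤ pcal P F X k κ x := prb_nonneg _ _ _

theorem pcal_le_one : pcal P F X k κ x ≤ 1 := prb_le_one (by omega)

theorem modal_lin (hum : 0 < P.um) :
    pcal P F X k κ x * calm P F X k S κ x k + (1 - pcal P F X k κ x) * wild P F X κ x k
        ≤ (modal P F X k S κ x : ℝ) ∧
      (modal P F X k S κ x : ℝ)
        ≤ pcal P F X k κ x * calm P F X k S κ x k + (1 - pcal P F X k κ x) * wild P F X κ x k + 1 := by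
  have e : wts 1 P.um 2 (F x + 1) (fun z => if z = 0 then P.pm else 1)
      (fun i z => if z = 0 then calm P F X k S κ x i else wild P F X κ x i) k
      = wts 1 P.um 2 (F x + 1) (fun z => if z = 0 then P.pm else 1)
      (fun i z => if z = 0 then calm P F X k (fun _ => X k) κ x i else wild P F X κ x i) k := by
    refine wts_ext fun i hi => ?_
    funext z
    rw [calm_lt P hi]
  have hp : 0 < sumR 2 (wts 1 P.um 2 (F x + 1) (fun z => if z = 0 then P.pm else 1)
      (fun i z => if z = 0 then calm P F X k (fun _ => X k) κ x i else wild P F X κ x i) k) :=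
    sumR_pos (z := 1) (by omega) (wts_pos hum (by omega) (by simp) _)
  have h := hv_bounds (gn := 1) (gd := P.um) (B := 2) (U := F x + 1)
    (w0 := fun z => if z = 0 then P.pm else 1)
    (us := fun i z => if z = 0 then calm P F X k S κ x i else wild P F X κ x i) (i := k) (by rw [e]; exact hp)
  rw [e] at h
  have h1 := prb_sum hp
  rw [Finset.sum_range_succ, Finset.sum_range_one] at h1 h
  simp only [one_ne_zero, if_false, if_true] at h
  have e2 : prb 2 (wts 1 P.um 2 (F x + 1) (fun z => if z = 0 then P.pm else 1)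
      (fun i z => if z = 0 then calm P F X k (fun _ => X k) κ x i else wild P F X κ x i) k) 1
      = 1 - pcal P F X k κ x := by
    unfold pcal
    linarith
  rw [e2] at h
  exact h

open Classical in
/-- the weight of the mixture: `(1 - 1/g)` times the probability of the calm mode, zero outside the generic
branch -/
noncomputable def bal (leaf : St → Option ℕ) (F : St → ℕ) (X : ℕ → ℕ → St → ℕ) (k κ : ℕ) (x : St) : ℝ :=
  if gen P leaf F κ x then (1 - 1 / P.g) * pcal P F X k κ x else 0

open Classical in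
/-- the part which does not depend on the spawned numbers -/
noncomputable def bbe (leaf : St → Option ℕ) (F : St → ℕ) (X : ℕ → ℕ → St → ℕ) (k κ : ℕ) (x : St) : ℝ :=
  if gen P leaf F κ x then (1 - bal P leaf F X k κ x) * wild P F X κ x k
  else bodyNum P leaf F X k (fun _ => X k) κ x

theorem bal_nonneg : 0 ≤ bal P leaf F X k κ x := by
  unfold bal
  split_ifs
  · refine mul_nonneg ?_ (pcal_nonneg P)
    rw [sub_nonneg]
    rcases Nat.eq_zero_or_pos P.g with h | h
    · rw [h]; norm_num
    · rw [div_le_one (by exact_mod_cast h)]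
      exact_mod_cast h
  · exact le_rfl

theorem bal_le : bal P leaf F X k κ x ≤ pcal P F X k κ x := by
  unfold bal
  split_ifs
  · have h1 : (0 : ℝ) ≤ 1 / P.g := by positivity
    have h2 := pcal_nonneg P (F := F) (X := X) (k := k) (κ := κ) (x := x)
    nlinarith
  · exact pcal_nonneg P

theorem bal_le_one : bal P leaf F X k κ x ≤ 1 := (bal_le P).trans (pcal_le_one P)

theorem bal_le' (hg : 0 < P.g) : bal P leaf F X k κ x ≤ 1 - 1 / P.g := by
  have h1 : (0 : ℝ) ≤ 1 - 1 / P.g := by
    rw [sub_nonneg, div_le_one (by exact_mod_cast hg)]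
    exact_mod_cast hg
  unfold bal
  split_ifs
  · have h2 := pcal_le_one P (F := F) (X := X) (k := k) (κ := κ) (x := x)
    nlinarith
  · exact h1

theorem bbe_nonneg : 0 ≤ bbe P leaf F X k κ x := by
  unfold bbe
  split_ifs
  · exact mul_nonneg (sub_nonneg.2 (bal_le_one P)) (Nat.cast_nonneg _)
  · exact Nat.cast_nonneg _

theorem bbe_le (hl : ∀ c, leaf x = some c → c ≤ F x) : bbe P leaf F X k κ x ≤ F x := by
  unfold bbe
  split_ifs with h
  · have h1 : ((wild P F X κ x k : ℕ) : ℝ) ≤ F x := by exact_mod_cast wild_le P k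
    have h2 := bal_nonneg P (leaf := leaf) (F := F) (X := X) (k := k) (κ := κ) (x := x)
    have h3 : (0 : ℝ) ≤ (wild P F X κ x k : ℕ) := Nat.cast_nonneg _
    nlinarith
  · by_cases h2 : adm P F κ x = false
    · exact_mod_cast bodyNum_le_F P h (Or.inr h2)
    · cases h3 : leaf x with
      | some c =>
        have : bodyNum P leaf F X k (fun _ => X k) κ x = c := by
          unfold bodyNum
          rw [if_neg h2, h3]
        rw [this]
        exact_mod_cast hl c h3
      | none => exact_mod_cast bodyNum_le_F P h (Or.inl h3)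

/-- the same with leaf values at most `F + e` -/
theorem bbe_le' {e : ℕ} (hl : ∀ c, leaf x = some c → c ≤ F x + e) :
    bbe P leaf F X k κ x ≤ F x + e := by
  cases h3 : leaf x with
  | some c =>
    have hn : ¬ gen P leaf F κ x := fun h => by
      have := h.2.1
      rw [h3] at this
      cases this
    unfold bbe
    rw [if_neg hn]
    by_cases h2 : adm P F κ x = false
    · have h4 : bodyNum P leaf F X k (fun _ => X k) κ x = F x := by unfold bodyNum; rw [if_pos h2]
      rw [h4]
      have : (0 : ℝ) ≤ e := Nat.cast_nonneg _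
      linarith
    · have h4 : bodyNum P leaf F X k (fun _ => X k) κ x = c := by
        unfold bodyNum
        rw [if_neg h2, h3]
      rw [h4]
      exact_mod_cast hl c h3
  | none =>
    have h1 := bbe_le P (X := X) (k := k) (κ := κ) (F := F) (leaf := leaf) (x := x)
      fun c hc => by rw [h3] at hc; cases hc
    have : (0 : ℝ) ≤ e := Nat.cast_nonneg _
    linarith

/-- **the body value is an affine function of the end values at the near pieces, rounded up** -/
theorem body_lin (hum : 0 < P.um) (hg : 0 < P.g) :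
    bal P leaf F X k κ x * blin P F X k κ x (fun q a b => (endv P F κ x S q a b : ℝ))
        + bbe P leaf F X k κ x ≤ (bodyNum P leaf F X k S κ x : ℝ) ∧
      (bodyNum P leaf F X k S κ x : ℝ)
        ≤ bal P leaf F X k κ x * blin P F X k κ x (fun q a b => (endv P F κ x S q a b : ℝ))
          + bbe P leaf F X k κ x + (2 ^ P.n + 1) := by
  by_cases h : gen P leaf F κ x
  · rw [bodyNum_gen P h]
    unfold bbe
    rw [if_pos h]
    have e : bal P leaf F X k κ x = (1 - 1 / P.g) * pcal P F X k κ x := by unfold bal; rw [if_pos h]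
    rw [e]
    have hg' : (0 : ℝ) < P.g := by exact_mod_cast hg
    have h0 := cdiv_bounds (a := (P.g - 1) * modal P F X k S κ x + wild P F X κ x k) hg
    have e1 : (((P.g - 1) * modal P F X k S κ x + wild P F X κ x k : ℕ) : ℝ) / P.g
        = (1 - 1 / P.g) * modal P F X k S κ x + 1 / P.g * wild P F X κ x k := by
      push_cast [Nat.cast_sub (show 1 ≤ P.g from hg)]
      field_simp
    rw [e1] at h0
    obtain ⟨m1, m2⟩ := modal_lin P (F := F) (X := X) (k := k) (S := S) (κ := κ) (x := x) hum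
    obtain ⟨c1, c2⟩ := calm_lin P (F := F) (X := X) (k := k) (S := S) (κ := κ) (x := x)
    set L := blin P F X k κ x (fun q a b => (endv P F κ x S q a b : ℝ))
    set C := (calm P F X k S κ x k : ℝ)
    set M := (modal P F X k S κ x : ℝ)
    set Wd := (wild P F X κ x k : ℝ)
    have p0 := pcal_nonneg P (F := F) (X := X) (k := k) (κ := κ) (x := x)
    have p1 := pcal_le_one P (F := F) (X := X) (k := k) (κ := κ) (x := x)
    set p := pcal P F X k κ x
    have t0 : (0 : ℝ) ≤ 1 - 1 / P.g := by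
      rw [sub_nonneg, div_le_one hg']; exact_mod_cast hg
    have t1 : (0 : ℝ) ≤ 1 / P.g := by positivity
    set s := (1 : ℝ) / P.g
    have hN : (1 : ℝ) ≤ 2 ^ P.n := one_le_pow₀ (by norm_num)
    constructor
    · have a1 : p * L ≤ p * C := mul_le_mul_of_nonneg_left c1 p0
      have a2 : (1 - s) * (p * L + (1 - p) * Wd) ≤ (1 - s) * M :=
        mul_le_mul_of_nonneg_left (by linarith) t0
      nlinarith [h0.1]
    · have a1 : p * C ≤ p * L + (2 ^ P.n - 1) := by
        have := mul_le_mul_of_nonneg_left c2 p0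
        nlinarith
      have a2 : (1 - s) * M ≤ (1 - s) * (p * L + (1 - p) * Wd + 2 ^ P.n) :=
        mul_le_mul_of_nonneg_left (by linarith) t0
      have a3 : (1 - s) * 2 ^ P.n ≤ 2 ^ P.n := by nlinarith
      nlinarith [h0.2]
  · unfold bbe bal
    have e := bodyNum_ngen P (X := X) (k := k) (S := S) (S' := fun _ => X k) h
    rw [if_neg h, if_neg h, zero_mul, zero_add, e]
    refine ⟨le_rfl, ?_⟩
    have : (0 : ℝ) ≤ 2 ^ P.n := by positivity
    linarith

/-- comparison of two tables: `S ≤ S' + ε` at the near pieces -/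
theorem bodyNum_le_add (hum : 0 < P.um) (hg : 0 < P.g) {M : ℕ → ℝ} (hM : ∀ q, 0 ≤ M q)
    (h : ∀ q < P.N, ∀ a < nlet P F κ x, ∀ b < nlet P F κ x,
      (endv P F κ x S q a b : ℝ) ≤ endv P F κ x S' q a b + M q) :
    (bodyNum P leaf F X k S κ x : ℝ)
      ≤ bodyNum P leaf F X k S' κ x + ∑ q ∈ Finset.range P.N, M q + (2 ^ P.n + 1) := by
  have h1 := (body_lin P (leaf := leaf) (F := F) (X := X) (k := k) (S := S) (κ := κ) (x := x) hum hg).2
  have h2 := (body_lin P (leaf := leaf) (F := F) (X := X) (k := k) (S := S') (κ := κ) (x := x) hum hg).1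
  have h3 := blin_le_add P (X := X) (k := k) h
  have h4 := mul_le_mul_of_nonneg_left h3
    (bal_nonneg P (leaf := leaf) (F := F) (X := X) (k := k) (κ := κ) (x := x))
  have h5 : 0 ≤ ∑ q ∈ Finset.range P.N, M q := Finset.sum_nonneg fun q _ => hM q
  have h6 := bal_le_one P (leaf := leaf) (F := F) (X := X) (k := k) (κ := κ) (x := x)
  nlinarith

/-! ## means and second moments -/

/-- `numSt` of a real table -/
noncomputable def numR (F : St → ℕ) (κ : ℕ) (f : ℕ → St → ℝ) (y : St) : ℝ :=
  if cls F y + P.dl < κ ∨ κ + P.du < cls F y then (F y : ℝ)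
  else (dist y (rdn P (cls F y) y) : ℝ) + f (cls F y) (rdn P (cls F y) y)

theorem numR_cast (f : ℕ → St → ℕ) (y : St) :
    (numSt P F κ f y : ℝ) = numR P F κ (fun κ' z => (f κ' z : ℝ)) y := by
  unfold numSt numR
  split_ifs <;> push_cast <;> rfl

theorem numR_mono {f f' : ℕ → St → ℝ} {y : St} {ε : ℝ} (hε : 0 ≤ ε)
    (h : ¬ (cls F y + P.dl < κ ∨ κ + P.du < cls F y) →
      f (cls F y) (rdn P (cls F y) y) ≤ f' (cls F y) (rdn P (cls F y) y) + ε) :
    numR P F κ f y ≤ numR P F κ f' y + ε := by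
  unfold numR
  split_ifs with h1
  · linarith
  · have := h h1
    linarith

open Crest.Agent.R295.Rnd627 Crest.Agent.R295.Rnd627.RT

variable {α : Type} {W : ℕ}

theorem Ev_numR (hW : 0 < W) (tt : RT α) (f : α → ℕ → St → ℝ) (y : St) :
    tt.Ev W (fun ω => numR P F κ (f ω) y)
      = numR P F κ (fun κ' z => tt.Ev W (fun ω => f ω κ' z)) y := by
  unfold numR
  split_ifs
  · exact Ev_const hW _ _
  · rw [Ev_add, Ev_const hW]

theorem Ev_endv (hW : 0 < W) (tt : RT α) (T : α → ℕ → ℕ → St → ℕ) (q a b : ℕ) :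
    tt.Ev W (fun ω => (endv P F κ x (T ω) q a b : ℝ))
      = numR P F κ (fun κ' z => tt.Ev W (fun ω => (T ω q κ' z : ℝ))) (npiece P F κ x q a b) := by
  unfold endv
  simp only [numR_cast]
  exact Ev_numR P hW tt _ _

/-- **mean of the body value** -/
theorem Ev_body (hW : 0 < W) (hum : 0 < P.um) (hg : 0 < P.g) (tt : RT α)
    (T : α → ℕ → ℕ → St → ℕ) :
    bal P leaf F X k κ x
          * blin P F X k κ x (fun q a b => tt.Ev W (fun ω => (endv P F κ x (T ω) q a b : ℝ)))
        + bbe P leaf F X k κ x ≤ tt.Ev W (fun ω => (bodyNum P leaf F X k (T ω) κ x : ℝ)) ∧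
      tt.Ev W (fun ω => (bodyNum P leaf F X k (T ω) κ x : ℝ))
        ≤ bal P leaf F X k κ x
          * blin P F X k κ x (fun q a b => tt.Ev W (fun ω => (endv P F κ x (T ω) q a b : ℝ)))
          + bbe P leaf F X k κ x + (2 ^ P.n + 1) :=
  BLin890.Ev_affine hW (tt := tt) (X := fun ω q a b => (endv P F κ x (T ω) q a b : ℝ))
    fun ω => body_lin P hum hg

/-- upper comparison with a table `Y`: `E S ≤ Y + M q` at the near pieces -/
theorem Ev_body_le (hW : 0 < W) (hum : 0 < P.um) (hg : 0 < P.g) (tt : RT α)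
    (T : α → ℕ → ℕ → St → ℕ) (Y : ℕ → ℕ → St → ℕ) {M : ℕ → ℝ} (hM : ∀ q, 0 ≤ M q)
    (h : ∀ q < P.N, ∀ a < nlet P F κ x, ∀ b < nlet P F κ x,
      tt.Ev W (fun ω => (endv P F κ x (T ω) q a b : ℝ)) ≤ endv P F κ x Y q a b + M q) :
    tt.Ev W (fun ω => (bodyNum P leaf F X k (T ω) κ x : ℝ))
      ≤ bodyNum P leaf F X k Y κ x + ∑ q ∈ Finset.range P.N, M q + (2 ^ P.n + 1) := by
  have h1 := (Ev_body P (leaf := leaf) (F := F) (X := X) (k := k) (κ := κ) (x := x) hW hum hg tt T).2
  have h2 := (body_lin P (leaf := leaf) (F := F) (X := X) (k := k) (S := Y) (κ := κ) (x := x) hum hg).1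
  have h3 := blin_le_add P (X := X) (k := k) h
  have h4 := mul_le_mul_of_nonneg_left h3
    (bal_nonneg P (leaf := leaf) (F := F) (X := X) (k := k) (κ := κ) (x := x))
  have h5 : 0 ≤ ∑ q ∈ Finset.range P.N, M q := Finset.sum_nonneg fun q _ => hM q
  have h6 := bal_le_one P (leaf := leaf) (F := F) (X := X) (k := k) (κ := κ) (x := x)
  nlinarith

/-- lower comparison with a table `Y`: `Y ≤ E S + M q` at the near pieces -/
theorem le_Ev_body (hW : 0 < W) (hum : 0 < P.um) (hg : 0 < P.g) (tt : RT α)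
    (T : α → ℕ → ℕ → St → ℕ) (Y : ℕ → ℕ → St → ℕ) {M : ℕ → ℝ} (hM : ∀ q, 0 ≤ M q)
    (h : ∀ q < P.N, ∀ a < nlet P F κ x, ∀ b < nlet P F κ x,
      (endv P F κ x Y q a b : ℝ) ≤ tt.Ev W (fun ω => (endv P F κ x (T ω) q a b : ℝ)) + M q) :
    (bodyNum P leaf F X k Y κ x : ℝ)
      ≤ tt.Ev W (fun ω => (bodyNum P leaf F X k (T ω) κ x : ℝ))
        + ∑ q ∈ Finset.range P.N, M q + (2 ^ P.n + 1) := by
  have h1 := (Ev_body P (leaf := leaf) (F := F) (X := X) (k := k) (κ := κ) (x := x) hW hum hg tt T).1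
  have h2 := (body_lin P (leaf := leaf) (F := F) (X := X) (k := k) (S := Y) (κ := κ) (x := x) hum hg).2
  have h3 := blin_le_add P (X := X) (k := k) h
  have h4 := mul_le_mul_of_nonneg_left h3
    (bal_nonneg P (leaf := leaf) (F := F) (X := X) (k := k) (κ := κ) (x := x))
  have h5 : 0 ≤ ∑ q ∈ Finset.range P.N, M q := Finset.sum_nonneg fun q _ => hM q
  have h6 := bal_le_one P (leaf := leaf) (F := F) (X := X) (k := k) (κ := κ) (x := x)
  nlinarith

/-- **second moment of the body value**; `hind` = independence of the ends (for every affine function) -/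
theorem Ev_body_sq (hum : 0 < P.um) (hg : 0 < P.g) (tt : RT α) (T : α → ℕ → ℕ → St → ℕ)
    (hind : ∀ (c0 : ℝ) (d : ℕ → ℕ → ℕ → ℝ),
      tt.Ev W (fun ω => (c0 + BLin890.Lc P.N (nlet P F κ x) d
          (fun q a b => (endv P F κ x (T ω) q a b : ℝ))) ^ 2)
        ≤ (c0 + BLin890.Lc P.N (nlet P F κ x) d
            (fun q a b => tt.Ev W (fun ω => (endv P F κ x (T ω) q a b : ℝ)))) ^ 2
          + ∑ q ∈ Finset.range P.N, tt.Ev W (fun ω =>
            (∑ a ∈ Finset.range (nlet P F κ x), ∑ b ∈ Finset.range (nlet P F κ x),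
              d q a b * (endv P F κ x (T ω) q a b : ℝ)) ^ 2)) :
    tt.Ev W (fun ω => (bodyNum P leaf F X k (T ω) κ x : ℝ) ^ 2)
      ≤ (bal P leaf F X k κ x
            * blin P F X k κ x (fun q a b => tt.Ev W (fun ω => (endv P F κ x (T ω) q a b : ℝ)))
          + bbe P leaf F X k κ x + (2 ^ P.n + 1)) ^ 2
        + bal P leaf F X k κ x ^ 2
            * blin P F X k κ x (fun q a b => tt.Ev W (fun ω => (endv P F κ x (T ω) q a b : ℝ) ^ 2)) :=
  BLin890.Ev_affine_sq (tt := tt) (X := fun ω q a b => (endv P F κ x (T ω) q a b : ℝ))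
    (bwt_nonneg P) (fun q hq => bwt_sum P hq) hind (fun ω => Nat.cast_nonneg _)
    fun ω => (body_lin P hum hg).2

end fn

end Crest.Agent.R288.BodyLin725
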