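import Crest.Agent.R288.AlgB_45

/-!
# R288, (L5)(second): arithmetic of one body entry (helper79)

* `le_maxR`, `sum_wt_le` : the weighted sum over one end is at most the maximum.
* `sum_regular`          : with `regular`, `∑_q ∑_{a,b} π q a b * F (npiece q a b) ≤ Creg * F x`.
* `tot_mean`, `tot_sq`   : the constants of `LawU_944`.
-/

set_option autoImplicit false

namespace Crest.Agent.R288.BodyM79

open Finset Crest.Agent.R288.Alg45

theorem foldl_max_ge (l : List ℕ) (f : ℕ → ℕ) (s : ℕ) :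
    s ≤ l.foldl (fun m a => max m (f a)) s ∧ ∀ a ∈ l, f a ≤ l.foldl (fun m a => max m (f a)) s := by
  induction l generalizing s with
  | nil => simp
  | cons a l ih =>
    simp only [List.foldl_cons, List.mem_cons, forall_eq_or_imp]
    have h := ih (max s (f a))
    exact ⟨(le_max_left _ _).trans h.1, (le_max_right _ _).trans h.1, h.2⟩

theorem le_maxR {n a : ℕ} (f : ℕ → ℕ) (h : a < n) : f a ≤ maxR n f :=
  (foldl_max_ge (List.range n) f 0).2 a (List.mem_range.2 h)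

theorem sumR_eq (n : ℕ) (f : ℕ → ℕ) : sumR n f = ∑ i ∈ range n, f i := by
  unfold sumR
  induction n with
  | zero => rfl
  | succ n ih => rw [List.range_succ, List.map_append, List.sum_append, sum_range_succ, ih]; simp

/-- weights of one end: nonnegative, sum at most one -/
theorem sum_wt_le {B : ℕ} {w f : ℕ → ℕ → ℝ} {M : ℝ} (h0 : ∀ a b, 0 ≤ w a b)
    (h1 : ∑ a ∈ range B, ∑ b ∈ range B, w a b ≤ 1) (hM : 0 ≤ M)
    (hf : ∀ a < B, ∀ b < B, f a b ≤ M) :
    ∑ a ∈ range B, ∑ b ∈ range B, w a b * f a b ≤ M := by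
  calc ∑ a ∈ range B, ∑ b ∈ range B, w a b * f a b
      ≤ ∑ a ∈ range B, ∑ b ∈ range B, w a b * M :=
        sum_le_sum fun a ha => sum_le_sum fun b hb =>
          mul_le_mul_of_nonneg_left (hf a (mem_range.1 ha) b (mem_range.1 hb)) (h0 a b)
    _ = (∑ a ∈ range B, ∑ b ∈ range B, w a b) * M := by
        rw [sum_mul]; exact sum_congr rfl fun a _ => (sum_mul _ _ _).symm
    _ ≤ 1 * M := mul_le_mul_of_nonneg_right h1 hM
    _ = M := one_mul M

variable {P : Par} {F : St → ℕ} {κ : ℕ} {x : St}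

/-- **max-`regular`** -/
theorem sum_regular (hr : regular P F κ x) {w : ℕ → ℕ → ℕ → ℝ}
    (h0 : ∀ q a b, 0 ≤ w q a b)
    (h1 : ∀ q < P.N, ∑ a ∈ range (nlet P F κ x), ∑ b ∈ range (nlet P F κ x), w q a b ≤ 1) :
    ∑ q ∈ range P.N, ∑ a ∈ range (nlet P F κ x), ∑ b ∈ range (nlet P F κ x),
      w q a b * (F (npiece P F κ x q a b) : ℝ) ≤ P.Creg * F x := by
  set B := nlet P F κ x with hB
  have hr' : ∑ q ∈ range P.N, (maxR B fun a => maxR B fun b => F (npiece P F κ x q a b))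
      ≤ P.Creg * F x := by
    rw [← sumR_eq]; exact hr
  calc ∑ q ∈ range P.N, ∑ a ∈ range B, ∑ b ∈ range B,
        w q a b * (F (npiece P F κ x q a b) : ℝ)
      ≤ ∑ q ∈ range P.N, ((maxR B fun a => maxR B fun b => F (npiece P F κ x q a b) : ℕ) : ℝ) := by
        refine sum_le_sum fun q hq => ?_
        refine sum_wt_le (h0 q) (h1 q (mem_range.1 hq)) (Nat.cast_nonneg _) fun a ha b hb => ?_
        have h2 : F (npiece P F κ x q a b) ≤ maxR B fun b => F (npiece P F κ x q a b) :=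
          le_maxR (fun b => F (npiece P F κ x q a b)) hb
        have h3 : (maxR B fun b => F (npiece P F κ x q a b)) ≤
            maxR B fun a => maxR B fun b => F (npiece P F κ x q a b) :=
          le_maxR (fun a => maxR B fun b => F (npiece P F κ x q a b)) ha
        exact_mod_cast h2.trans h3
    _ ≤ P.Creg * F x := by
        rw [← Nat.cast_sum]
        exact_mod_cast hr'

/-- the same with `F + 1` -/
theorem sum_regular' (hr : regular P F κ x) {w : ℕ → ℕ → ℕ → ℝ}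
    (h0 : ∀ q a b, 0 ≤ w q a b)
    (h1 : ∀ q < P.N, ∑ a ∈ range (nlet P F κ x), ∑ b ∈ range (nlet P F κ x), w q a b ≤ 1)
    {f : ℕ → ℕ → ℕ → ℝ} {A : ℝ} (hA : 0 ≤ A)
    (hf : ∀ q < P.N, ∀ a < nlet P F κ x, ∀ b < nlet P F κ x,
      f q a b ≤ A * ((F (npiece P F κ x q a b) : ℝ) + 1)) :
    ∑ q ∈ range P.N, ∑ a ∈ range (nlet P F κ x), ∑ b ∈ range (nlet P F κ x),
      w q a b * f q a b ≤ A * (P.Creg * F x + P.N) := by
  set B := nlet P F κ x with hB
  have h2 : ∑ q ∈ range P.N, ∑ a ∈ range B, ∑ b ∈ range B, w q a b * f q a b ≤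
      A * (∑ q ∈ range P.N, ∑ a ∈ range B, ∑ b ∈ range B,
          w q a b * (F (npiece P F κ x q a b) : ℝ) +
        ∑ q ∈ range P.N, ∑ a ∈ range B, ∑ b ∈ range B, w q a b) := by
    rw [← sum_add_distrib, mul_sum]
    refine sum_le_sum fun q hq => ?_
    rw [← sum_add_distrib, mul_sum]
    refine sum_le_sum fun a ha => ?_
    rw [← sum_add_distrib, mul_sum]
    refine sum_le_sum fun b hb => ?_
    have := mul_le_mul_of_nonneg_left
      (hf q (mem_range.1 hq) a (mem_range.1 ha) b (mem_range.1 hb)) (h0 q a b)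
    refine this.trans (le_of_eq ?_)
    ring
  refine h2.trans (mul_le_mul_of_nonneg_left (add_le_add (sum_regular hr h0 h1) ?_) hA)
  calc ∑ q ∈ range P.N, ∑ a ∈ range B, ∑ b ∈ range B, w q a b
      ≤ ∑ q ∈ range P.N, (1 : ℝ) := sum_le_sum fun q hq => h1 q (mem_range.1 hq)
    _ = P.N := by simp

/-- `F x` at an admissible entry -/
theorem F_lt {c : ℕ} (h : cls F x ≤ κ + c) : (F x : ℝ) ≤ 2 ^ (c + 1) * 2 ^ κ := by
  have h1 : F x < 2 ^ (cls F x + 1) := Nat.lt_pow_succ_log_self (by norm_num) _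
  have h2 : 2 ^ (cls F x + 1) ≤ 2 ^ (c + 1 + κ) := Nat.pow_le_pow_right (by norm_num) (by omega)
  have h3 : F x ≤ 2 ^ (c + 1 + κ) := by omega
  rw [← pow_add]
  exact_mod_cast h3

/-- the class of a number -/
theorem two_pow_cls_le (y : St) : (2 : ℝ) ^ cls F y ≤ F y + 1 := by
  rcases Nat.eq_zero_or_pos (F y) with h | h
  · unfold cls
    rw [h]
    simp
  · have h1 : 2 ^ cls F y ≤ F y := Nat.pow_log_le_self 2 h.ne'
    have h2 : (2 : ℝ) ^ cls F y ≤ F y := by exact_mod_cast h1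
    linarith

/-- mean constant: `b = 16 ((m + 2) Creg + 2)` -/
theorem tot_mean {m K C N Fx S : ℝ} (hm : 0 ≤ m) (hC : 1 ≤ C) (hN0 : 0 ≤ N) (hK : 0 ≤ K)
    (hN : 8 * N ≤ Fx) (h8 : 8 ≤ Fx) (hF : Fx ≤ 4 * K)
    (hS : S ≤ (m + 2) * (C * Fx + N)) :
    Fx + N + 3 + N + S ≤ 16 * ((m + 2) * C + 2) * K := by
  have h1 : (m + 2) * (C * Fx + N) ≤ (m + 2) * (C * (9 / 8 * Fx)) := by
    refine mul_le_mul_of_nonneg_left ?_ (by linarith)
    nlinarith
  have h2 : (m + 2) * C * Fx ≤ (m + 2) * C * (4 * K) :=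
    mul_le_mul_of_nonneg_left hF (mul_nonneg (by linarith) (by linarith))
  have h3 : 0 ≤ (m + 2) * C * K := mul_nonneg (mul_nonneg (by linarith) (by linarith)) hK
  nlinarith

/-- constant of the second moment: `Γ = 16 Creg` -/
theorem tot_sq {v K C N Fx S c : ℝ} (hv : 0 ≤ v) (hc : 0 < c) (hC : 1 ≤ C)
    (hK : 0 ≤ K) (hN : 8 * N ≤ Fx) (hF : Fx ≤ 4 * K)
    (hS : S ≤ K / c * v * (C * Fx + N)) :
    S ≤ 16 * C * v / c * K ^ 2 := by
  have h1 : C * Fx + N ≤ 16 * C * K := by nlinarith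
  have h2 : 0 ≤ K / c * v := mul_nonneg (div_nonneg hK hc.le) hv
  refine hS.trans ((mul_le_mul_of_nonneg_left h1 h2).trans (le_of_eq ?_))
  field_simp

end Crest.Agent.R288.BodyM79
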