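/-
# Row 288, (L4)(b) on ALG v2 (helper363): the body value is affine in the spawned end values

* `sumR_eq`, `le_cdiv`, `cdiv_le`                 : elementary
* `wts_congr`, `wts_pos`, `hv_bounds`             : weights of rank `k` depend on the ranks below only
* `VV_congr`, `ker`, `VV_bounds`                  : in-window DP of rank `k` = exact mixture `LV` + `[0, 2^t-1]`
* `pk q a b`                                      : weight of the near piece `q` between the letters `a`, `b`
* `lin S = ∑_q ∑_a ∑_b pk q a b * numSt P F κ (S q) (npiece P F κ x q a b)`, `pk_nonneg`, `pk_sum`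
* `live`, `bas`, `alp`                            : random play, deterministic part, weight of the calm part
* `le_body`, `body_le`                            : `bodyNum ∈ alp * lin S + (1-alp) * bas + [0, 2^n+1]`
* `body_le_mix`                                   : `bodyNum ≤ a0 + ∑ pi * numSt` (one-sided form)
* `body_le_sup`                                   : `bodyNum ≤ a0 + ∑_q max`
* `Ev_body`                                       : the mean of the body value
-/
import Crest.Agent.R288.AlgA_45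
import Crest.Agent.R288.LinT_908
import Crest.Agent.R288.BLin_890

set_option autoImplicit false

namespace Crest.Agent.R288.BodyMix363

open Finset Crest.Agent.R288.Alg45 Crest.Agent.R288.Lin908

/-! ## Elementary -/

theorem sumR_eq (n : ℕ) (f : ℕ → ℕ) : sumR n f = ∑ i ∈ range n, f i := by
  unfold sumR
  induction n with
  | zero => simp
  | succ n ih => rw [List.range_succ, List.map_append, List.sum_append, sum_range_succ, ih]; simp

theorem le_cdiv {a b : ℕ} (hb : 0 < b) : (a : ℝ) / b ≤ cdiv a b := by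
  rw [div_le_iff₀ (by exact_mod_cast hb)]
  have h : a ≤ cdiv a b * b := by
    unfold cdiv
    have h1 := Nat.div_add_mod (a + (b - 1)) b
    have h2 := Nat.mod_lt (a + (b - 1)) hb
    have h3 : (a + (b - 1)) / b * b = b * ((a + (b - 1)) / b) := mul_comm _ _
    omega
  exact_mod_cast h

theorem cdiv_le {a b : ℕ} (hb : 0 < b) : (cdiv a b : ℝ) ≤ (a : ℝ) / b + 1 := by
  have h : cdiv a b * b ≤ a + b := by
    unfold cdiv
    have h1 := Nat.div_mul_le_self (a + (b - 1)) b
    omega
  have hb' : (0 : ℝ) < b := by exact_mod_cast hb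
  rw [← sub_le_iff_le_add, le_div_iff₀ hb']
  have h' : (cdiv a b : ℝ) * b ≤ a + b := by exact_mod_cast h
  nlinarith

/-! ## Weights -/

theorem wts_congr {gn gd B U : ℕ} {w0 : ℕ → ℕ} {us us' : ℕ → ℕ → ℕ} :
    ∀ {k : ℕ}, (∀ i < k, us i = us' i) → ∀ z, wts gn gd B U w0 us k z = wts gn gd B U w0 us' k z
  | 0, _, _ => rfl
  | k + 1, h, z => by
    simp only [wts]
    rw [wts_congr (fun i hi => h i (by omega)) z, h k (by omega)]

theorem fac_pos {gn gd U x : ℕ} (hg : 0 < gd) (hU : 0 < U) : 0 < fac gn gd U x := by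
  unfold fac
  have h1 : 0 < gd * U := Nat.mul_pos hg hU
  have h2 : 2 * gd * U = 2 * (gd * U) := by ring
  have h3 := min_le_left (gd * U) (2 * gn * x)
  omega

theorem wts_pos {gn gd B U : ℕ} {w0 : ℕ → ℕ} {us : ℕ → ℕ → ℕ} (hg : 0 < gd) (hU : 0 < U)
    (h0 : ∀ z, 0 < w0 z) : ∀ (k z : ℕ), 0 < wts gn gd B U w0 us k z
  | 0, z => h0 z
  | k + 1, z => Nat.mul_pos (wts_pos hg hU h0 k z) (fac_pos hg hU)

/-- normalized weight of rank `k` -/
noncomputable def nw (gn gd B U : ℕ) (w0 : ℕ → ℕ) (us : ℕ → ℕ → ℕ) (k z : ℕ) : ℝ :=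
  (wts gn gd B U w0 us k z : ℝ) / (sumR B (wts gn gd B U w0 us k) : ℕ)

theorem nw_nonneg (gn gd B U : ℕ) (w0 : ℕ → ℕ) (us : ℕ → ℕ → ℕ) (k z : ℕ) :
    0 ≤ nw gn gd B U w0 us k z := by unfold nw; positivity

theorem sumR_wts_pos {gn gd B U : ℕ} {w0 : ℕ → ℕ} {us : ℕ → ℕ → ℕ} (hg : 0 < gd) (hU : 0 < U)
    (hB : 0 < B) (h0 : ∀ z, 0 < w0 z) (k : ℕ) : 0 < sumR B (wts gn gd B U w0 us k) := by
  rw [sumR_eq]
  exact sum_pos (fun z _ => wts_pos hg hU h0 k z) ⟨0, mem_range.2 hB⟩

theorem nw_sum {gn gd B U : ℕ} {w0 : ℕ → ℕ} {us : ℕ → ℕ → ℕ} (hg : 0 < gd) (hU : 0 < U)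
    (hB : 0 < B) (h0 : ∀ z, 0 < w0 z) (k : ℕ) :
    ∑ z ∈ range B, nw gn gd B U w0 us k z = 1 := by
  have h := sumR_wts_pos (us := us) (gn := gn) hg hU hB h0 k
  unfold nw
  rw [← sum_div, sumR_eq]
  push_cast
  rw [div_self]
  rw [sumR_eq] at h
  have : (0 : ℝ) < ∑ z ∈ range B, (wts gn gd B U w0 us k z : ℝ) := by exact_mod_cast h
  exact this.ne'

theorem nw_congr {gn gd B U : ℕ} {w0 : ℕ → ℕ} {us us' : ℕ → ℕ → ℕ} {k : ℕ}
    (h : ∀ i < k, us i = us' i) (z : ℕ) : nw gn gd B U w0 us k z = nw gn gd B U w0 us' k z := by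
  have e : wts gn gd B U w0 us k = wts gn gd B U w0 us' k := funext fun z => wts_congr h z
  unfold nw; rw [e]

theorem le_hv {gn gd B U : ℕ} {w0 : ℕ → ℕ} {us : ℕ → ℕ → ℕ} (hg : 0 < gd) (hU : 0 < U)
    (hB : 0 < B) (h0 : ∀ z, 0 < w0 z) (k : ℕ) :
    ∑ z ∈ range B, nw gn gd B U w0 us k z * (us k z : ℝ) ≤ hv gn gd B U w0 us k := by
  have h := le_cdiv (a := sumR B fun z => wts gn gd B U w0 us k z * us k z)
    (sumR_wts_pos (us := us) (gn := gn) hg hU hB h0 k)
  refine le_trans (le_of_eq ?_) h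
  unfold nw
  conv_rhs => rw [sumR_eq B fun z => wts gn gd B U w0 us k z * us k z]
  push_cast
  rw [sum_div]
  exact sum_congr rfl fun z _ => by ring

theorem hv_le {gn gd B U : ℕ} {w0 : ℕ → ℕ} {us : ℕ → ℕ → ℕ} (hg : 0 < gd) (hU : 0 < U)
    (hB : 0 < B) (h0 : ∀ z, 0 < w0 z) (k : ℕ) :
    (hv gn gd B U w0 us k : ℝ) ≤ ∑ z ∈ range B, nw gn gd B U w0 us k z * (us k z : ℝ) + 1 := by
  have h := cdiv_le (a := sumR B fun z => wts gn gd B U w0 us k z * us k z)
    (sumR_wts_pos (us := us) (gn := gn) hg hU hB h0 k)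
  refine le_trans h (le_of_eq ?_)
  unfold nw
  conv_lhs => rw [sumR_eq B fun z => wts gn gd B U w0 us k z * us k z]
  push_cast
  rw [sum_div]
  congr 1
  exact sum_congr rfl fun z _ => by ring

theorem hv_congr {gn gd B U : ℕ} {w0 : ℕ → ℕ} {us us' : ℕ → ℕ → ℕ} {k : ℕ}
    (h : ∀ i ≤ k, us i = us' i) : hv gn gd B U w0 us k = hv gn gd B U w0 us' k := by
  have e : wts gn gd B U w0 us k = wts gn gd B U w0 us' k :=
    funext fun z => wts_congr (fun i hi => h i hi.le) z
  unfold hv; rw [e, h k le_rfl]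

/-! ## The in-window DP -/

section VV

variable {γ B : ℕ} {U : ℕ → ℕ → ℕ}

/-- rank `i` depends on the end tables of the ranks `≤ i` only -/
theorem VV_congr {E E' : ℕ → ℕ → ℕ → ℕ → ℕ} (t : ℕ) : ∀ {k : ℕ}, (∀ i ≤ k, E i = E' i) →
    ∀ p a b, VV γ B U E t k p a b = VV γ B U E' t k p a b := by
  induction t with
  | zero => intro k h p a b; simp only [VV, h k le_rfl]
  | succ t ih =>
    intro k h p a b
    simp only [VV]
    refine hv_congr fun i hi => funext fun z => ?_
    rw [ih (fun i' hi' => h i' (hi'.trans hi)), ih (fun i' hi' => h i' (hi'.trans hi))]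

/-- the kernel of rank `k` at the inner node `(t,p)` -/
noncomputable def ker (γ B : ℕ) (U : ℕ → ℕ → ℕ) (E : ℕ → ℕ → ℕ → ℕ → ℕ) (k t p a b z : ℕ) : ℝ :=
  nw γ 1 B (U t p) (fun _ => 1)
    (fun i' z => VV γ B U E (t - 1) i' (2 * p) a z + VV γ B U E (t - 1) i' (2 * p + 1) z b) k z

theorem ker_nonneg (E : ℕ → ℕ → ℕ → ℕ → ℕ) (k t p a b z : ℕ) : 0 ≤ ker γ B U E k t p a b z :=
  nw_nonneg ..

theorem ker_sum (hB : 0 < B) (hU : ∀ t p, 0 < U t p) (E : ℕ → ℕ → ℕ → ℕ → ℕ) (k t p a b : ℕ) :
    ∑ z ∈ range B, ker γ B U E k t p a b z = 1 :=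
  nw_sum one_pos (hU t p) hB (fun _ => one_pos) k

/-- the kernel of rank `k` does not see the end table of rank `k` -/
theorem ker_congr {E E' : ℕ → ℕ → ℕ → ℕ → ℕ} {k : ℕ} (h : ∀ i < k, E i = E' i) (t p a b z : ℕ) :
    ker γ B U E k t p a b z = ker γ B U E' k t p a b z := by
  refine nw_congr (fun i hi => funext fun z => ?_) z
  rw [VV_congr (t - 1) (fun i' hi' => h i' (hi'.trans_lt hi)),
    VV_congr (t - 1) (fun i' hi' => h i' (hi'.trans_lt hi))]

theorem le_VV (hB : 0 < B) (hU : ∀ t p, 0 < U t p) (E : ℕ → ℕ → ℕ → ℕ → ℕ) (k t p a b : ℕ) :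
    LV B (ker γ B U E k) (fun q a b => (E k q a b : ℝ)) t p a b ≤ VV γ B U E t k p a b := by
  refine le_of_ceil (T := t) (V := fun t p a b => (VV γ B U E t k p a b : ℝ))
    (fun t p a b z => ker_nonneg E k t p a b z) (fun p a b => le_of_eq rfl) ?_ t le_rfl p a b
  intro t _ p a b
  have h := le_hv (gn := γ) (w0 := fun _ => 1)
    (us := fun i' z => VV γ B U E t i' (2 * p) a z + VV γ B U E t i' (2 * p + 1) z b)
    one_pos (hU (t + 1) p) hB (fun _ => one_pos) k
  push_cast at h
  exact h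

theorem VV_le (hB : 0 < B) (hU : ∀ t p, 0 < U t p) (E : ℕ → ℕ → ℕ → ℕ → ℕ) (k t p a b : ℕ) :
    (VV γ B U E t k p a b : ℝ)
      ≤ LV B (ker γ B U E k) (fun q a b => (E k q a b : ℝ)) t p a b + (2 ^ t - 1) := by
  refine of_ceil_le (T := t) (V := fun t p a b => (VV γ B U E t k p a b : ℝ))
    (fun t p a b z => ker_nonneg E k t p a b z) (fun t p a b => ker_sum hB hU E k t p a b)
    (fun p a b => le_of_eq rfl) ?_ t le_rfl p a b
  intro t _ p a b
  have h := hv_le (gn := γ) (w0 := fun _ => 1)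
    (us := fun i' z => VV γ B U E t i' (2 * p) a z + VV γ B U E t i' (2 * p + 1) z b)
    one_pos (hU (t + 1) p) hB (fun _ => one_pos) k
  push_cast at h
  exact h

end VV

/-! ## The calm value -/

section body

variable (P : Par) (leaf : St → Option ℕ) (F : St → ℕ) (X : ℕ → ℕ → St → ℕ) (k : ℕ)
  (S : ℕ → ℕ → St → ℕ) (κ : ℕ) (x : St)

theorem unt_pos (t p : ℕ) : 0 < unt P F κ x t p := Nat.succ_pos _

theorem nlet_pos : 0 < nlet P F κ x := by unfold nlet; omega

/-- the end tables of `calm` -/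
def cE (S : ℕ → ℕ → St → ℕ) (i q a b : ℕ) : ℕ :=
  numSt P F κ (if i < k then X i else S q) (npiece P F κ x q a b)

theorem calm_eq (i : ℕ) : calm P F X k S κ x i
    = VV P.γ (nlet P F κ x) (unt P F κ x) (cE P F X k κ x S) P.n i 0 0 0 := rfl

theorem cE_congr {S S' : ℕ → ℕ → St → ℕ} : ∀ i < k, cE P F X k κ x S i = cE P F X k κ x S' i := by
  intro i hi
  funext q a b
  simp only [cE, if_pos hi]

/-- the calm values of the lower ranks do not see `S` -/
theorem calm_congr {S S' : ℕ → ℕ → St → ℕ} {i : ℕ} (hi : i < k) :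
    calm P F X k S κ x i = calm P F X k S' κ x i := by
  rw [calm_eq, calm_eq]
  exact VV_congr P.n (fun i' hi' => cE_congr P F X k κ x i' (hi'.trans_lt hi)) 0 0 0

/-- **weight of the near piece `q` between the letters `a`, `b`** (free of `S`) -/
noncomputable def pk (q a b : ℕ) : ℝ :=
  mar (nlet P F κ x) (ker P.γ (nlet P F κ x) (unt P F κ x) (cE P F X k κ x fun _ _ _ => 0) k) P.n 0 0 0 q a b

theorem pk_nonneg (q a b : ℕ) : 0 ≤ pk P F X k κ x q a b :=
  mar_nonneg (fun t p a b z => ker_nonneg _ k t p a b z) _ _ _ _ _ _ _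

theorem pk_sum {q : ℕ} (hq : q < P.N) :
    ∑ a ∈ range (nlet P F κ x), ∑ b ∈ range (nlet P F κ x), pk P F X k κ x q a b = 1 := by
  unfold pk
  refine mar_sum (fun t p a b => ker_sum (nlet_pos P F κ x) (unt_pos P F κ x) _ k t p a b) _ _ _ _ _
    ?_ ?_ ?_ ?_
  all_goals first
    | exact nlet_pos P F κ x
    | (unfold Par.N at hq; omega)

/-- the exact linear value -/
noncomputable def lin (S : ℕ → ℕ → St → ℕ) : ℝ :=
  ∑ q ∈ range P.N, ∑ a ∈ range (nlet P F κ x), ∑ b ∈ range (nlet P F κ x),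
    pk P F X k κ x q a b * numSt P F κ (S q) (npiece P F κ x q a b)

theorem lin_eq : lin P F X k κ x S
    = LV (nlet P F κ x) (ker P.γ (nlet P F κ x) (unt P F κ x) (cE P F X k κ x S) k)
        (fun q a b => (cE P F X k κ x S k q a b : ℝ)) P.n 0 0 0 := by
  have hk : ker P.γ (nlet P F κ x) (unt P F κ x) (cE P F X k κ x S) k
      = ker P.γ (nlet P F κ x) (unt P F κ x) (cE P F X k κ x fun _ _ _ => 0) k := by
    funext t p a b z
    exact ker_congr (cE_congr P F X k κ x) t p a b z
  rw [hk, LV_eq _ _ _ _ _ (nlet_pos P F κ x) (nlet_pos P F κ x)]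
  have e : Ico (0 * 2 ^ P.n) ((0 + 1) * 2 ^ P.n) = range P.N := by
    rw [zero_mul, zero_add, one_mul, range_eq_Ico]; rfl
  rw [e]
  unfold lin pk cE
  simp only [lt_irrefl, if_false]

theorem lin_le_calm : lin P F X k κ x S ≤ calm P F X k S κ x k := by
  rw [lin_eq, calm_eq]
  exact le_VV (nlet_pos P F κ x) (unt_pos P F κ x) _ k P.n 0 0 0

theorem calm_le_lin : (calm P F X k S κ x k : ℝ) ≤ lin P F X k κ x S + (2 ^ P.n - 1) := by
  rw [lin_eq, calm_eq]
  exact VV_le (nlet_pos P F κ x) (unt_pos P F κ x) _ k P.n 0 0 0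

/-! ## The root decision -/

/-- normalized weight of the option calm (free of `S`) -/
noncomputable def pc : ℝ :=
  nw 1 P.um 2 (F x + 1) (fun z => if z = 0 then P.pm else 1)
    (fun i z => if z = 0 then calm P F X k (fun _ _ _ => 0) κ x i else wild P F X κ x i) k 0

theorem pc_nonneg : 0 ≤ pc P F X k κ x := nw_nonneg ..

variable {P}

theorem w0_pos (hpm : 0 < P.pm) (z : ℕ) : 0 < (fun z : ℕ => if z = 0 then P.pm else 1) z := by
  dsimp only; split_ifs <;> omega

theorem pc_add (hum : 0 < P.um) (hpm : 0 < P.pm) :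
    pc P F X k κ x + nw 1 P.um 2 (F x + 1) (fun z => if z = 0 then P.pm else 1)
      (fun i z => if z = 0 then calm P F X k (fun _ _ _ => 0) κ x i else wild P F X κ x i) k 1 = 1 := by
  have h : ∑ z ∈ range 2, nw 1 P.um 2 (F x + 1) (fun z => if z = 0 then P.pm else 1)
      (fun i z => if z = 0 then calm P F X k (fun _ _ _ => 0) κ x i else wild P F X κ x i) k z = 1 :=
    nw_sum (gn := 1) (us := fun i z => if z = 0 then calm P F X k (fun _ _ _ => 0) κ x i
      else wild P F X κ x i) hum (Nat.succ_pos (F x)) two_pos (w0_pos hpm) k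
  rw [sum_range_succ, sum_range_one] at h
  exact h

theorem pc_le_one (hum : 0 < P.um) (hpm : 0 < P.pm) : pc P F X k κ x ≤ 1 := by
  have h := pc_add F X k κ x hum hpm
  have h2 := nw_nonneg 1 P.um 2 (F x + 1) (fun z => if z = 0 then P.pm else 1)
      (fun i z => if z = 0 then calm P F X k (fun _ _ _ => 0) κ x i else wild P F X κ x i) k 1
  linarith

theorem us_congr (i : ℕ) (hi : i < k) :
    (fun i z => if z = 0 then calm P F X k S κ x i else wild P F X κ x i) i
      = (fun i z => if z = 0 then calm P F X k (fun _ _ _ => 0) κ x i else wild P F X κ x i) i := by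
  funext z
  dsimp only
  rw [calm_congr P F X k κ x (S := S) (S' := fun _ _ _ => 0) hi]

theorem modal_sum (hum : 0 < P.um) (hpm : 0 < P.pm) :
    ∑ z ∈ range 2, nw 1 P.um 2 (F x + 1) (fun z => if z = 0 then P.pm else 1)
      (fun i z => if z = 0 then calm P F X k S κ x i else wild P F X κ x i) k z
        * ((fun i z => if z = 0 then calm P F X k S κ x i else wild P F X κ x i) k z : ℕ)
      = pc P F X k κ x * calm P F X k S κ x k + (1 - pc P F X k κ x) * wild P F X κ x k := by
  rw [sum_range_succ, sum_range_one,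
    nw_congr (us_congr F X k S κ x) 0, nw_congr (us_congr F X k S κ x) 1]
  have h := pc_add F X k κ x hum hpm
  have h1 : nw 1 P.um 2 (F x + 1) (fun z => if z = 0 then P.pm else 1)
      (fun i z => if z = 0 then calm P F X k (fun _ _ _ => 0) κ x i else wild P F X κ x i) k 1
      = 1 - pc P F X k κ x := by linarith
  rw [h1]
  simp only [if_true, one_ne_zero, if_false]
  rfl

theorem le_modal (hum : 0 < P.um) (hpm : 0 < P.pm) :
    pc P F X k κ x * calm P F X k S κ x k + (1 - pc P F X k κ x) * wild P F X κ x k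
      ≤ modal P F X k S κ x := by
  rw [← modal_sum F X k S κ x hum hpm]
  exact le_hv hum (Nat.succ_pos _) two_pos (w0_pos hpm) k

theorem modal_le (hum : 0 < P.um) (hpm : 0 < P.pm) :
    (modal P F X k S κ x : ℝ)
      ≤ pc P F X k κ x * calm P F X k S κ x k + (1 - pc P F X k κ x) * wild P F X κ x k + 1 := by
  rw [← modal_sum F X k S κ x hum hpm]
  exact hv_le hum (Nat.succ_pos _) two_pos (w0_pos hpm) k

variable (P)

theorem wild_le : wild P F X κ x k ≤ F x := by
  unfold wild
  induction k with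
  | zero => exact le_rfl
  | succ k ih => exact (min_le_left _ _).trans ih

/-! ## The body value -/

/-- the play is random at `(κ, x)` -/
def live : Prop := adm P F κ x = true ∧ leaf x = none ∧ ¬ (R1 P F x ∨ ¬ regular P F κ x)

instance : Decidable (live P leaf F κ x) := by unfold live; infer_instance

/-- the deterministic part of the value -/
def bas : ℕ :=
  if adm P F κ x = false then F x else match leaf x with
    | some c => c
    | none => wild P F X κ x k

/-- weight of the calm part in the value -/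
noncomputable def alp : ℝ :=
  if live P leaf F κ x then (P.g - 1 : ℕ) / P.g * pc P F X k κ x else 0

theorem alp_nonneg : 0 ≤ alp P leaf F X k κ x := by
  unfold alp
  split_ifs
  · exact mul_nonneg (by positivity) (pc_nonneg P F X k κ x)
  · exact le_rfl

variable {P}

theorem g_frac (hg : 0 < P.g) : ((P.g - 1 : ℕ) : ℝ) / P.g = 1 - 1 / P.g := by
  have : (0 : ℝ) < P.g := by exact_mod_cast hg
  rw [Nat.cast_sub hg]
  field_simp
  simp

theorem alp_le_one (hg : 0 < P.g) (hum : 0 < P.um) (hpm : 0 < P.pm) : alp P leaf F X k κ x ≤ 1 := by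
  unfold alp
  split_ifs
  · have h1 : ((P.g - 1 : ℕ) : ℝ) / P.g ≤ 1 := by
      rw [g_frac hg]
      have : (0 : ℝ) ≤ 1 / P.g := by positivity
      linarith
    exact mul_le_one₀ h1 (pc_nonneg P F X k κ x) (pc_le_one F X k κ x hum hpm)
  · norm_num

theorem body_not_live (h : ¬ live P leaf F κ x) :
    bodyNum P leaf F X k S κ x = bas P leaf F X k κ x := by
  unfold bodyNum bas
  by_cases ha : adm P F κ x = false
  · rw [if_pos ha, if_pos ha]
  · rw [if_neg ha, if_neg ha]
    cases hl : leaf x with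
    | some c => rfl
    | none =>
      dsimp only
      have : R1 P F x ∨ ¬ regular P F κ x := by
        by_contra hc
        exact h ⟨by simpa using ha, hl, hc⟩
      rw [if_pos this]

theorem body_live (h : live P leaf F κ x) :
    bodyNum P leaf F X k S κ x = cdiv ((P.g - 1) * modal P F X k S κ x + wild P F X κ x k) P.g := by
  obtain ⟨ha, hl, hc⟩ := h
  unfold bodyNum
  rw [if_neg (by simp [ha]), hl]
  dsimp only
  rw [if_neg hc]

theorem bas_live (h : live P leaf F κ x) : bas P leaf F X k κ x = wild P F X κ x k := by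
  obtain ⟨ha, hl, hc⟩ := h
  unfold bas
  rw [if_neg (by simp [ha]), hl]

/-- **the body value is affine in the spawned end values (lower bound)** -/
theorem le_body (hg : 0 < P.g) (hum : 0 < P.um) (hpm : 0 < P.pm) :
    alp P leaf F X k κ x * lin P F X k κ x S + (1 - alp P leaf F X k κ x) * bas P leaf F X k κ x
      ≤ bodyNum P leaf F X k S κ x := by
  by_cases h : live P leaf F κ x
  · rw [body_live leaf F X k S κ x h, bas_live leaf F X k κ x h]
    refine le_trans ?_ (le_cdiv hg)
    have hg' : (0 : ℝ) < P.g := by exact_mod_cast hg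
    push_cast
    rw [add_div, mul_div_right_comm]
    have h1 := le_modal F X k S κ x hum hpm
    have h2 := lin_le_calm P F X k S κ x
    have h3 := pc_nonneg P F X k κ x
    have h4 : (0 : ℝ) ≤ ((P.g - 1 : ℕ) : ℝ) / P.g := by positivity
    have h5 := mul_le_mul_of_nonneg_left h1 h4
    have h6 := mul_le_mul_of_nonneg_left (mul_le_mul_of_nonneg_left h2 h3) h4
    simp only [alp, if_pos h]
    have h7 := g_frac hg
    have h8 : (wild P F X κ x k : ℝ) / P.g = (1 - ((P.g - 1 : ℕ) : ℝ) / P.g) * wild P F X κ x k := by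
      rw [h7]; ring
    rw [h8]
    nlinarith
  · rw [body_not_live leaf F X k S κ x h]
    simp only [alp, if_neg h]
    linarith

/-- **the body value is affine in the spawned end values (upper bound)** -/
theorem body_le (hg : 0 < P.g) (hum : 0 < P.um) (hpm : 0 < P.pm) :
    (bodyNum P leaf F X k S κ x : ℝ)
      ≤ alp P leaf F X k κ x * lin P F X k κ x S + (1 - alp P leaf F X k κ x) * bas P leaf F X k κ x
        + (if live P leaf F κ x then 2 ^ P.n + 1 else 0) := by
  by_cases h : live P leaf F κ x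
  · rw [body_live leaf F X k S κ x h, bas_live leaf F X k κ x h, if_pos h]
    refine le_trans (cdiv_le hg) ?_
    have hg' : (0 : ℝ) < P.g := by exact_mod_cast hg
    push_cast
    rw [add_div, mul_div_right_comm]
    have h1 := modal_le F X k S κ x hum hpm
    have h2 := calm_le_lin P F X k S κ x
    have h3 := pc_nonneg P F X k κ x
    have h3' := pc_le_one F X k κ x hum hpm
    have h4 : (0 : ℝ) ≤ ((P.g - 1 : ℕ) : ℝ) / P.g := by positivity
    have h7 := g_frac hg
    have h4' : ((P.g - 1 : ℕ) : ℝ) / P.g ≤ 1 := by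
      rw [h7]
      have : (0 : ℝ) ≤ 1 / P.g := by positivity
      linarith
    have h5 := mul_le_mul_of_nonneg_left h1 h4
    have h6 := mul_le_mul_of_nonneg_left (mul_le_mul_of_nonneg_left h2 h3) h4
    simp only [alp, if_pos h]
    have h8 : (wild P F X κ x k : ℝ) / P.g = (1 - ((P.g - 1 : ℕ) : ℝ) / P.g) * wild P F X κ x k := by
      rw [h7]; ring
    rw [h8]
    set A : ℝ := ((P.g - 1 : ℕ) : ℝ) / P.g
    have h9 : (0 : ℝ) ≤ 2 ^ P.n - 1 := by
      have : (1 : ℝ) ≤ 2 ^ P.n := one_le_pow₀ (by norm_num)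
      linarith
    have h10 : A * pc P F X k κ x ≤ 1 := mul_le_one₀ h4' h3 h3'
    have h11 : A * pc P F X k κ x * (2 ^ P.n - 1) ≤ 2 ^ P.n - 1 := by nlinarith
    nlinarith
  · rw [body_not_live leaf F X k S κ x h, if_neg h]
    simp only [alp, if_neg h]
    linarith

theorem bas_le (hl : ∀ c, leaf x = some c → c ≤ F x) : bas P leaf F X k κ x ≤ F x := by
  unfold bas
  split_ifs
  · exact le_rfl
  · cases h : leaf x with
    | some c => exact hl c h
    | none => exact wild_le P F X k κ x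

variable (P)

/-- the weights of the near pieces in the body value -/
noncomputable def bw (q a b : ℕ) : ℝ := alp P leaf F X k κ x * pk P F X k κ x q a b

/-- the deterministic part of the upper bound -/
noncomputable def a0 : ℝ :=
  (1 - alp P leaf F X k κ x) * bas P leaf F X k κ x + (if live P leaf F κ x then 2 ^ P.n + 1 else 0)

theorem bw_nonneg (q a b : ℕ) : 0 ≤ bw P leaf F X k κ x q a b :=
  mul_nonneg (alp_nonneg P leaf F X k κ x) (pk_nonneg P F X k κ x q a b)

variable {P}

theorem bw_sum_le (hg : 0 < P.g) (hum : 0 < P.um) (hpm : 0 < P.pm) {q : ℕ} (hq : q < P.N) :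
    ∑ a ∈ range (nlet P F κ x), ∑ b ∈ range (nlet P F κ x), bw P leaf F X k κ x q a b ≤ 1 := by
  unfold bw
  simp only [← mul_sum]
  rw [pk_sum P F X k κ x hq, mul_one]
  exact alp_le_one leaf F X k κ x hg hum hpm

theorem bw_of_not_live (h : ¬ live P leaf F κ x) (q a b : ℕ) : bw P leaf F X k κ x q a b = 0 := by
  unfold bw alp
  rw [if_neg h, zero_mul]

theorem a0_le (hg : 0 < P.g) (hum : 0 < P.um) (hpm : 0 < P.pm)
    (hl : ∀ c, leaf x = some c → c ≤ F x) : a0 P leaf F X k κ x ≤ F x + 2 ^ P.n + 1 := by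
  unfold a0
  have h1 := alp_nonneg P leaf F X k κ x
  have h2 := alp_le_one leaf F X k κ x hg hum hpm
  have h3 : (bas P leaf F X k κ x : ℝ) ≤ F x := by exact_mod_cast bas_le leaf F X k κ x hl
  have h4 : (0 : ℝ) ≤ bas P leaf F X k κ x := Nat.cast_nonneg _
  have h5 : (if live P leaf F κ x then (2 : ℝ) ^ P.n + 1 else 0) ≤ 2 ^ P.n + 1 := by
    split_ifs
    · exact le_rfl
    · positivity
  nlinarith

/-- **one-sided form**: weights `bw` free of `S` -/
theorem body_le_mix (hg : 0 < P.g) (hum : 0 < P.um) (hpm : 0 < P.pm) :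
    (bodyNum P leaf F X k S κ x : ℝ) ≤ a0 P leaf F X k κ x
      + ∑ q ∈ range P.N, ∑ a ∈ range (nlet P F κ x), ∑ b ∈ range (nlet P F κ x),
          bw P leaf F X k κ x q a b * numSt P F κ (S q) (npiece P F κ x q a b) := by
  refine (body_le leaf F X k S κ x hg hum hpm).trans (le_of_eq ?_)
  unfold a0 bw lin
  simp only [mul_sum, mul_assoc]
  ring

/-- sup form -/
theorem body_le_sup (hg : 0 < P.g) (hum : 0 < P.um) (hpm : 0 < P.pm) {T : ℕ → ℝ}
    (hT0 : ∀ q, 0 ≤ T q)
    (hT : ∀ q < P.N, ∀ a < nlet P F κ x, ∀ b < nlet P F κ x,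
      (numSt P F κ (S q) (npiece P F κ x q a b) : ℝ) ≤ T q) :
    (bodyNum P leaf F X k S κ x : ℝ) ≤ a0 P leaf F X k κ x + ∑ q ∈ range P.N, T q := by
  refine (body_le_mix leaf F X k S κ x hg hum hpm).trans ?_
  gcongr with q hq
  have hq := mem_range.1 hq
  calc ∑ a ∈ range (nlet P F κ x), ∑ b ∈ range (nlet P F κ x),
          bw P leaf F X k κ x q a b * (numSt P F κ (S q) (npiece P F κ x q a b) : ℝ)
      ≤ ∑ a ∈ range (nlet P F κ x), ∑ b ∈ range (nlet P F κ x), bw P leaf F X k κ x q a b * T q := by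
        refine sum_le_sum fun a ha => sum_le_sum fun b hb => ?_
        exact mul_le_mul_of_nonneg_left (hT q hq a (mem_range.1 ha) b (mem_range.1 hb))
          (bw_nonneg P leaf F X k κ x q a b)
    _ = (∑ a ∈ range (nlet P F κ x), ∑ b ∈ range (nlet P F κ x), bw P leaf F X k κ x q a b) * T q := by
        simp only [sum_mul]
    _ ≤ 1 * T q := mul_le_mul_of_nonneg_right (bw_sum_le leaf F X k κ x hg hum hpm hq) (hT0 q)
    _ = T q := one_mul _

/-- monotone in `S` up to the roundings -/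
theorem lin_mono {S S' : ℕ → ℕ → St → ℕ}
    (h : ∀ q < P.N, ∀ a < nlet P F κ x, ∀ b < nlet P F κ x,
      numSt P F κ (S q) (npiece P F κ x q a b) ≤ numSt P F κ (S' q) (npiece P F κ x q a b)) :
    lin P F X k κ x S ≤ lin P F X k κ x S' := by
  unfold lin
  refine sum_le_sum fun q hq => sum_le_sum fun a ha => sum_le_sum fun b hb => ?_
  refine mul_le_mul_of_nonneg_left ?_ (pk_nonneg P F X k κ x q a b)
  exact_mod_cast h q (mem_range.1 hq) a (mem_range.1 ha) b (mem_range.1 hb)

/-! ## The mean -/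

open Crest.Agent.R295.Rnd627 Crest.Agent.R295.Rnd627.RT Crest.Agent.R288.BLin890

theorem lin_eq_Lc : lin P F X k κ x S
    = Lc P.N (nlet P F κ x) (pk P F X k κ x)
        (fun q a b => (numSt P F κ (S q) (npiece P F κ x q a b) : ℝ)) := rfl

/-- **the mean of the body value is the affine functional of the means of the end values** -/
theorem Ev_body {α : Type} {W : ℕ} (hW : 0 < W) (tt : RT α) (Sp : α → ℕ → ℕ → St → ℕ)
    (hg : 0 < P.g) (hum : 0 < P.um) (hpm : 0 < P.pm) :
    alp P leaf F X k κ x * Lc P.N (nlet P F κ x) (pk P F X k κ x)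
        (fun q a b => tt.Ev W fun ω => (numSt P F κ (Sp ω q) (npiece P F κ x q a b) : ℝ))
      + (1 - alp P leaf F X k κ x) * bas P leaf F X k κ x
      ≤ tt.Ev W (fun ω => (bodyNum P leaf F X k (Sp ω) κ x : ℝ)) ∧
    tt.Ev W (fun ω => (bodyNum P leaf F X k (Sp ω) κ x : ℝ))
      ≤ alp P leaf F X k κ x * Lc P.N (nlet P F κ x) (pk P F X k κ x)
        (fun q a b => tt.Ev W fun ω => (numSt P F κ (Sp ω q) (npiece P F κ x q a b) : ℝ))
      + (1 - alp P leaf F X k κ x) * bas P leaf F X k κ x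
      + (if live P leaf F κ x then 2 ^ P.n + 1 else 0) :=
  Ev_affine (tt := tt) (X := fun ω q a b => (numSt P F κ (Sp ω q) (npiece P F κ x q a b) : ℝ)) hW
    fun ω => ⟨by
      have := le_body leaf F X k (Sp ω) κ x hg hum hpm
      rwa [lin_eq_Lc] at this, by
      have := body_le leaf F X k (Sp ω) κ x hg hum hpm
      rwa [lin_eq_Lc] at this⟩

end body

end Crest.Agent.R288.BodyMix363
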