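import Crest.Agent.R288.BodyMA_79
import Crest.Agent.R288.XB_715
import Crest.Agent.R288.AdmR_944
import Crest.Agent.R288.BodyMix_363

/-!
# R288, (L5)(second): mean and second moment of one body entry of ALG v2 (helper79)

For an ARBITRARY family `sub : Cel → RT (List ℕ)`, a cell `c` and an entry `x`:

* `LinUp`        : the output of (L4), `bodyNum ≤ a₀ + ∑_q ∑_{a,b} w q a b * numSt (S q) (npiece q a b)`.
* `win_mean`, `win_sq` : mean and second moment of `bodyNum` over the window law.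
* `win_ms`       : with the means `≤ m 2^κ'`, the second moments `≤ v 4^κ'` of the requested pairs:
  mean `≤ b 2^κ`, second moment `≤ (b² + Γ v / 2^c0) 4^κ`, `b = 16 ((m+2) Creg + 2)`, `Γ = 16 Creg`.
* `body_ms`      : the same for the entry of `bodyT`, all branches of `bodyNum`.
-/

set_option autoImplicit false

namespace Crest.Agent.R288.BodyM79

open Finset Crest.Agent.R295.Rnd627 Crest.Agent.R295.Rnd627.RT Crest.Agent.R288.Alg45
open Crest.Agent.R288.XB715 Crest.Agent.R288.AdmR944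

variable {P : Par} {leaf : St → Option ℕ} {F : St → ℕ} {X : ℕ → ℕ → St → ℕ} {k : ℕ}

/-- (L4), upper side: the body value is at most an affine function of the end values of rank `k` -/
structure LinUp (P : Par) (leaf : St → Option ℕ) (F : St → ℕ) (X : ℕ → ℕ → St → ℕ) (k κ : ℕ)
    (x : St) (a₀ : ℝ) (w : ℕ → ℕ → ℕ → ℝ) : Prop where
  w0 : ∀ q a b, 0 ≤ w q a b
  w1 : ∀ q < P.N, ∑ a ∈ range (nlet P F κ x), ∑ b ∈ range (nlet P F κ x), w q a b ≤ 1
  a0 : 0 ≤ a₀
  up : ∀ S : ℕ → ℕ → St → ℕ, (bodyNum P leaf F X k S κ x : ℝ) ≤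
    a₀ + ∑ q ∈ range P.N, ∑ a ∈ range (nlet P F κ x), ∑ b ∈ range (nlet P F κ x),
      w q a b * (numSt P F κ (S q) (npiece P F κ x q a b) : ℝ)

section win

variable {c : Cel} {x : St} {sub : Cel → RT (List ℕ)} {W : ℕ} {a₀ : ℝ} {w : ℕ → ℕ → ℕ → ℝ}

/-- pointwise: the roundings of the end values cost at most `N` -/
theorem LinUp.le (h : LinUp P leaf F X k c.κ x a₀ w) (r : Key → Option (List ℕ)) :
    (bodyNum P leaf F X k (spF P c.κ r) c.κ x : ℝ) ≤
      (a₀ + P.N) + ∑ q ∈ range P.N, ∑ j ∈ range (nlet P F c.κ x) ×ˢ range (nlet P F c.κ x),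
        w q j.1 j.2 * numR P F c.κ (spR P c.κ r q) (npiece P F c.κ x q j.1 j.2) := by
  refine (h.up (spF P c.κ r)).trans ?_
  rw [add_assoc]
  refine add_le_add le_rfl ?_
  have h1 : (P.N : ℝ) = ∑ q ∈ range P.N, (1 : ℝ) := by simp
  rw [h1, ← sum_add_distrib]
  refine sum_le_sum fun q hq => ?_
  rw [sum_product]
  have h2 := h.w1 q (mem_range.1 hq)
  calc ∑ a ∈ range (nlet P F c.κ x), ∑ b ∈ range (nlet P F c.κ x),
        w q a b * (numSt P F c.κ (spF P c.κ r q) (npiece P F c.κ x q a b) : ℝ)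
      ≤ ∑ a ∈ range (nlet P F c.κ x), ∑ b ∈ range (nlet P F c.κ x),
        (w q a b + w q a b * numR P F c.κ (spR P c.κ r q) (npiece P F c.κ x q a b)) := by
        refine sum_le_sum fun a _ => sum_le_sum fun b _ => ?_
        have := mul_le_mul_of_nonneg_left
          (XF_le (P := P) (F := F) c.κ r q (npiece P F c.κ x q a b)) (h.w0 q a b)
        linarith
    _ = ∑ a ∈ range (nlet P F c.κ x), ∑ b ∈ range (nlet P F c.κ x), w q a b +
        ∑ a ∈ range (nlet P F c.κ x), ∑ b ∈ range (nlet P F c.κ x),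
          w q a b * numR P F c.κ (spR P c.κ r q) (npiece P F c.κ x q a b) := by
        rw [← sum_add_distrib]
        exact sum_congr rfl fun a _ => sum_add_distrib
    _ ≤ _ := by linarith

/-- mean over the window law -/
theorem win_mean (hW : 0 < W) (hd : 2 ^ P.dl ∣ W) (h : LinUp P leaf F X k c.κ x a₀ w)
    (hend : ∀ q < P.N, ∀ a < nlet P F c.κ x, ∀ b < nlet P F c.κ x,
      EndOk P F c q (npiece P F c.κ x q a b)) :
    (win P c sub).Ev W (fun ω => (bodyNum P leaf F X k (spF P c.κ ω.2) c.κ x : ℝ)) ≤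
      (a₀ + P.N) + ∑ q ∈ range P.N, ∑ a ∈ range (nlet P F c.κ x), ∑ b ∈ range (nlet P F c.κ x),
        w q a b * numR P F c.κ (RS P W sub) (npiece P F c.κ x q a b) := by
  have h1 : ∀ ω : List ℕ × (Key → Option (List ℕ)),
      (bodyNum P leaf F X k (spF P c.κ ω.2) c.κ x : ℝ) ≤
        (a₀ + P.N) + ∑ q ∈ range P.N, ∑ j ∈ range (nlet P F c.κ x) ×ˢ range (nlet P F c.κ x),
        w q j.1 j.2 * numR P F c.κ (spR P c.κ ω.2 q) (npiece P F c.κ x q j.1 j.2) :=
    fun ω => h.le ω.2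
  refine (Ev_mono h1).trans (le_of_eq ?_)
  rw [Ev_add, Ev_const hW, Ev_sum]
  congr 1
  refine sum_congr rfl fun q hq => ?_
  rw [Ev_sum, sum_product]
  refine sum_congr rfl fun a ha => sum_congr rfl fun b hb => ?_
  rw [Ev_mul_left, Ev_XR hW hd (mem_range.1 hq)
    (hend q (mem_range.1 hq) a (mem_range.1 ha) b (mem_range.1 hb))]

/-- second moment over the window law -/
theorem win_sq (hW : 0 < W) (hd : 2 ^ P.dl ∣ W) (h : LinUp P leaf F X k c.κ x a₀ w)
    (hend : ∀ q < P.N, ∀ a < nlet P F c.κ x, ∀ b < nlet P F c.κ x,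
      EndOk P F c q (npiece P F c.κ x q a b)) :
    (win P c sub).Ev W (fun ω => (bodyNum P leaf F X k (spF P c.κ ω.2) c.κ x : ℝ) ^ 2) ≤
      ((a₀ + P.N) + ∑ q ∈ range P.N, ∑ a ∈ range (nlet P F c.κ x),
        ∑ b ∈ range (nlet P F c.κ x),
          w q a b * numR P F c.κ (RS P W sub) (npiece P F c.κ x q a b)) ^ 2 +
        ∑ q ∈ range P.N, ∑ a ∈ range (nlet P F c.κ x), ∑ b ∈ range (nlet P F c.κ x),
          w q a b * endV P F c.κ (QS P W sub) (npiece P F c.κ x q a b) := by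
  have h1 : ∀ ω : List ℕ × (Key → Option (List ℕ)),
      (bodyNum P leaf F X k (spF P c.κ ω.2) c.κ x : ℝ) ^ 2 ≤
        ((a₀ + P.N) + ∑ q ∈ range P.N, ∑ j ∈ range (nlet P F c.κ x) ×ˢ range (nlet P F c.κ x),
        w q j.1 j.2 * numR P F c.κ (spR P c.κ ω.2 q) (npiece P F c.κ x q j.1 j.2)) ^ 2 :=
    fun ω => pow_le_pow_left₀ (Nat.cast_nonneg _) (h.le ω.2) 2
  refine (Ev_mono h1).trans ?_
  have h2 := sq_XR (sub := sub) (F := F) (c := c) hW hd
    (fun _ => range (nlet P F c.κ x) ×ˢ range (nlet P F c.κ x))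
    (fun q j => w q j.1 j.2) (fun q _ j _ => h.w0 q j.1 j.2)
    (fun q hq => by rw [sum_product]; exact h.w1 q hq)
    (fun q j => npiece P F c.κ x q j.1 j.2)
    (fun q hq j hj => hend q hq j.1 (mem_range.1 (mem_product.1 hj).1) j.2
      (mem_range.1 (mem_product.1 hj).2)) (a₀ + P.N)
  refine h2.trans (le_of_eq ?_)
  simp only [sum_product]

/-- **one body entry over the window law, regular state** -/
theorem win_ms (hW : 0 < W) (hd : 2 ^ P.dl ∣ W) (h : LinUp P leaf F X k c.κ x a₀ w)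
    (hend : ∀ q < P.N, ∀ a < nlet P F c.κ x, ∀ b < nlet P F c.κ x,
      EndOk P F c q (npiece P F c.κ x q a b))
    (hr : regular P F c.κ x) (hC : 1 ≤ P.Creg) (hx : F x < 4 * 2 ^ c.κ)
    (ha : a₀ ≤ F x + P.N + 3) (hN : 8 * P.N ≤ F x) {m v : ℝ} (hm : 0 ≤ m) (hv : 0 ≤ v)
    (hms : ∀ q < P.N, ∀ a < nlet P F c.κ x, ∀ b < nlet P F c.κ x,
      let y := npiece P F c.κ x q a b
      c.κ ≤ cls F y + P.dl → cls F y ≤ c.κ + P.du →
        RS P W sub (cls F y) (rdn P (cls F y) y) ≤ m * 2 ^ cls F y ∧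
        QS P W sub (cls F y) (rdn P (cls F y) y) ≤ v * 4 ^ cls F y) :
    (win P c sub).Ev W (fun ω => (bodyNum P leaf F X k (spF P c.κ ω.2) c.κ x : ℝ)) ≤
      16 * ((m + 2) * P.Creg + 2) * 2 ^ c.κ ∧
    (win P c sub).Ev W (fun ω => (bodyNum P leaf F X k (spF P c.κ ω.2) c.κ x : ℝ) ^ 2) ≤
      ((16 * ((m + 2) * P.Creg + 2)) ^ 2 + 16 * P.Creg * v / 2 ^ P.c0) * 4 ^ c.κ := by
  have hN0 : 1 ≤ P.N := Nat.one_le_two_pow
  have h8 : 8 ≤ F x := by omega
  have hK : (0 : ℝ) ≤ 2 ^ c.κ := by positivity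
  have hFx : (F x : ℝ) ≤ 4 * 2 ^ c.κ := by exact_mod_cast hx.le
  have hNr : 8 * (P.N : ℝ) ≤ F x := by exact_mod_cast hN
  have h8r : (8 : ℝ) ≤ F x := by exact_mod_cast h8
  have hCr : (1 : ℝ) ≤ P.Creg := by exact_mod_cast hC
  -- means
  have hS : ∑ q ∈ range P.N, ∑ a ∈ range (nlet P F c.κ x), ∑ b ∈ range (nlet P F c.κ x),
      w q a b * numR P F c.κ (RS P W sub) (npiece P F c.κ x q a b) ≤
        (m + 2) * (P.Creg * F x + P.N) := by
    refine sum_regular' hr h.w0 h.w1 (by linarith) fun q hq a ha b hb => ?_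
    have h0 := hms q hq a ha b hb
    simp only at h0
    generalize npiece P F c.κ x q a b = y at h0 ⊢
    unfold numR
    split_ifs with ho
    · have : (0 : ℝ) ≤ F y := Nat.cast_nonneg _
      nlinarith
    · have h1 := (h0 (by omega) (by omega)).1
      have h2 := two_pow_cls_le (F := F) y
      have h3 : (Alg45.dist y (rdn P (cls F y) y) : ℝ) ≤ 2 * 2 ^ cls F y := by
        have h4 := dist_rdn P (cls F y) y
        have h5 : gst P (cls F y) ≤ 2 ^ cls F y :=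
          Nat.pow_le_pow_right (by norm_num) (Nat.sub_le _ _)
        have h6 : Alg45.dist y (rdn P (cls F y) y) ≤ 2 * 2 ^ cls F y := by omega
        exact_mod_cast h6
      have h7 : (m + 2) * 2 ^ cls F y ≤ (m + 2) * (F y + 1) :=
        mul_le_mul_of_nonneg_left h2 (by linarith)
      linarith
  have hS0 : 0 ≤ ∑ q ∈ range P.N, ∑ a ∈ range (nlet P F c.κ x), ∑ b ∈ range (nlet P F c.κ x),
      w q a b * numR P F c.κ (RS P W sub) (npiece P F c.κ x q a b) :=
    sum_nonneg fun q _ => sum_nonneg fun a _ => sum_nonneg fun b _ =>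
      mul_nonneg (h.w0 q a b) (numR_nonneg (fun _ _ => RS_nonneg _ _ _ _ _) _)
  have hM : (a₀ + P.N) + ∑ q ∈ range P.N, ∑ a ∈ range (nlet P F c.κ x),
      ∑ b ∈ range (nlet P F c.κ x),
        w q a b * numR P F c.κ (RS P W sub) (npiece P F c.κ x q a b) ≤
      16 * ((m + 2) * P.Creg + 2) * 2 ^ c.κ := by
    refine le_trans ?_ (tot_mean hm hCr (Nat.cast_nonneg P.N) hK hNr h8r hFx hS)
    linarith
  refine ⟨(win_mean hW hd h hend).trans hM, (win_sq hW hd h hend).trans ?_⟩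
  -- variances
  have hV : ∑ q ∈ range P.N, ∑ a ∈ range (nlet P F c.κ x), ∑ b ∈ range (nlet P F c.κ x),
      w q a b * endV P F c.κ (QS P W sub) (npiece P F c.κ x q a b) ≤
        2 ^ c.κ / 2 ^ P.c0 * v * (P.Creg * F x + P.N) := by
    refine sum_regular' hr h.w0 h.w1 (by positivity) fun q hq a ha b hb => ?_
    have h0 := hms q hq a ha b hb
    simp only at h0
    generalize npiece P F c.κ x q a b = y at h0 ⊢
    unfold endV
    split_ifs with ho
    · have : (0 : ℝ) ≤ F y := Nat.cast_nonneg _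
      positivity
    · have h1 := (h0 (by omega) (by omega)).2
      have h2 := two_pow_cls_le (F := F) y
      have e4 : (4 : ℝ) ^ cls F y = 2 ^ cls F y * 2 ^ cls F y := by
        rw [← mul_pow]; norm_num
      have hk : (0 : ℝ) < 2 ^ cls F y := by positivity
      calc 2 ^ c.κ / 2 ^ (P.c0 + cls F y) * QS P W sub (cls F y) (rdn P (cls F y) y)
          ≤ 2 ^ c.κ / 2 ^ (P.c0 + cls F y) * (v * 4 ^ cls F y) :=
            mul_le_mul_of_nonneg_left h1 (by positivity)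
        _ = 2 ^ c.κ / 2 ^ P.c0 * v * 2 ^ cls F y := by
            rw [pow_add, e4]
            field_simp
        _ ≤ 2 ^ c.κ / 2 ^ P.c0 * v * (F y + 1) :=
            mul_le_mul_of_nonneg_left h2 (by positivity)
  have h4 : (4 : ℝ) ^ c.κ = (2 ^ c.κ) ^ 2 := by rw [← pow_mul, mul_comm, pow_mul]; norm_num
  have h5 := tot_sq hv (by positivity : (0 : ℝ) < 2 ^ P.c0) hCr hK hNr hFx hV
  rw [h4, add_mul, ← mul_pow]
  refine add_le_add (pow_le_pow_left₀ ?_ hM 2) h5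
  have := h.a0
  positivity

end win

/-! ### the entry of `bodyT`, all branches -/

theorem Wm_le (G : ℕ) (V : ℕ → ℕ) (i : ℕ) : Wm G V i ≤ G := by
  induction i with
  | zero => exact le_rfl
  | succ i ih => exact (min_le_left _ _).trans ih

theorem wild_le (κ : ℕ) (x : St) (i : ℕ) : wild P F X κ x i ≤ F x := Wm_le _ _ _

/-- `bodyNum` at an admissible state does not depend on the end values unless the state is active -/
theorem bodyNum_const {κ : ℕ} {x : St} (ha : adm P F κ x = true)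
    (hleaf : ∀ c, leaf x = some c → c ≤ F x + 1)
    (h : leaf x ≠ none ∨ R1 P F x ∨ ¬ regular P F κ x) :
    ∃ c ≤ F x + 1, ∀ S : ℕ → ℕ → St → ℕ, bodyNum P leaf F X k S κ x = c := by
  rcases hl : leaf x with _ | c
  · refine ⟨wild P F X κ x k, (wild_le _ _ _).trans (Nat.le_succ _), fun S => ?_⟩
    have h' : R1 P F x ∨ ¬ regular P F κ x := by
      rcases h with h | h
      · exact absurd hl h
      · exact h
    unfold bodyNum
    rw [if_neg (by simp [ha]), hl]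
    simp only
    rw [if_pos h']
  · refine ⟨c, hleaf c hl, fun S => ?_⟩
    unfold bodyNum
    rw [if_neg (by simp [ha]), hl]

section entry

variable {c : Cel} {x : St} {sub : Cel → RT (List ℕ)} {W : ℕ} {Dm : St → Prop} {Λ : ℕ}

/-- the law of an entry of `bodyT` -/
theorem Ev_bodyT (hrd : ∀ f : St → ℕ, rdt P c (tabC P c f) x = f x) (g : ℕ → ℝ) :
    (bodyT P leaf F X k sub c).Ev W (fun T => g (rdt P c T x)) =
      (win P c sub).Ev W (fun ω => g (bodyNum P leaf F X k (spF P c.κ ω.2) c.κ x)) := by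
  rw [bodyT_eq, Ev_map]
  simp only [hrd]

/-- **(L5): mean and second moment of an entry of `bodyT`** -/
theorem body_ms (hW : 0 < W) (hd : 2 ^ P.dl ∣ W) (hF : FOk leaf F Dm Λ) (hΛ : 8 * P.N ≤ Λ)
    (hC : 1 ≤ P.Creg) (hpb : 10 ≤ P.pb) (hx : Dm x) (ha : adm P F c.κ x = true)
    (hrd : ∀ f : St → ℕ, rdt P c (tabC P c f) x = f x)
    (hlin : leaf x = none → ¬ R1 P F x → regular P F c.κ x →
      ∃ a₀ w, LinUp P leaf F X k c.κ x a₀ w ∧ a₀ ≤ F x + P.N + 3)
    (hgeo : ∀ q < P.N, ∀ a < nlet P F c.κ x, ∀ b < nlet P F c.κ x,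
      let y := npiece P F c.κ x q a b
      EndOk P F c q y ∧ Dm y ∧ Dm (rdn P (cls F y) y))
    {m v : ℝ} (hm : 0 ≤ m) (hv : 0 ≤ v)
    (hsub : ∀ κ' z, z.i = c.i - 1 → c.κ ≤ κ' + P.dl → κ' ≤ c.κ + P.du →
      adm P F κ' z = true → Dm z →
        RS P W sub κ' z ≤ m * 2 ^ κ' ∧ QS P W sub κ' z ≤ v * 4 ^ κ') :
    (bodyT P leaf F X k sub c).Ev W (fun T => (rdt P c T x : ℝ)) ≤
      16 * ((m + 2) * P.Creg + 2) * 2 ^ c.κ ∧
    (bodyT P leaf F X k sub c).Ev W (fun T => (rdt P c T x : ℝ) ^ 2) ≤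
      ((16 * ((m + 2) * P.Creg + 2)) ^ 2 + 16 * P.Creg * v / 2 ^ P.c0) * 4 ^ c.κ := by
  have hx4 : F x < 4 * 2 ^ c.κ := lt_of_adm ha
  have e1 := Ev_bodyT (W := W) (leaf := leaf) (F := F) (X := X) (k := k) (sub := sub) hrd
    (fun n => (n : ℝ))
  have e2 := Ev_bodyT (W := W) (leaf := leaf) (F := F) (X := X) (k := k) (sub := sub) hrd
    (fun n => (n : ℝ) ^ 2)
  rw [e1, e2]
  by_cases hact : leaf x ≠ none ∨ R1 P F x ∨ ¬ regular P F c.κ x
  · obtain ⟨n, hn, hS⟩ := bodyNum_const (X := X) (k := k) ha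
      (fun n h => by have := hF.leaf_le x hx n h; omega) hact
    simp only [hS]
    rw [Ev_const hW, Ev_const hW]
    have hC' : (1 : ℝ) ≤ P.Creg := by exact_mod_cast hC
    have hb : (4 : ℝ) ≤ 16 * ((m + 2) * P.Creg + 2) := by nlinarith
    have hn4 : (n : ℝ) ≤ 4 * 2 ^ c.κ := by exact_mod_cast (hn.trans hx4)
    have hn5 : (n : ℝ) ≤ 16 * ((m + 2) * P.Creg + 2) * 2 ^ c.κ :=
      hn4.trans (mul_le_mul_of_nonneg_right hb (by positivity))
    refine ⟨hn5, ?_⟩
    have h4 : (4 : ℝ) ^ c.κ = (2 ^ c.κ) ^ 2 := by rw [← pow_mul, mul_comm, pow_mul]; norm_num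
    rw [h4, add_mul, ← mul_pow]
    have h5 : (n : ℝ) ^ 2 ≤ (16 * ((m + 2) * P.Creg + 2) * 2 ^ c.κ) ^ 2 :=
      pow_le_pow_left₀ (Nat.cast_nonneg _) hn5 2
    have h6 : 0 ≤ 16 * P.Creg * v / 2 ^ P.c0 * (2 ^ c.κ) ^ 2 := by positivity
    linarith
  · push Not at hact
    obtain ⟨hl, hR, hr⟩ := hact
    obtain ⟨a₀, w, hL, ha0⟩ := hlin hl hR hr
    have hN : 8 * P.N ≤ F x := hΛ.trans (hF.act x hx hl)
    refine win_ms hW hd hL (fun q hq a haa b hb => (hgeo q hq a haa b hb).1) hr hC hx4 ha0 hN hm hv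
      fun q hq a haa b hb => ?_
    intro y h1 h2
    obtain ⟨g1, g2, g3⟩ := hgeo q hq a haa b hb
    exact hsub _ _ g1.hi h1 h2 (adm_rdn hF hpb g2 g3) g3

/-- (L4) of `BodyMix_363` in the form used here -/
theorem linUp_mix {κ : ℕ} (hg : 0 < P.g) (hum : 0 < P.um) (hpm : 0 < P.pm) :
    LinUp P leaf F X k κ x (BodyMix363.a0 P leaf F X k κ x) (BodyMix363.bw P leaf F X k κ x) where
  w0 := BodyMix363.bw_nonneg P leaf F X k κ x
  w1 := fun _ hq => BodyMix363.bw_sum_le leaf F X k κ x hg hum hpm hq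
  a0 := by
    unfold BodyMix363.a0
    have h1 := BodyMix363.alp_le_one leaf F X k κ x hg hum hpm
    have h2 : (0 : ℝ) ≤ BodyMix363.bas P leaf F X k κ x := Nat.cast_nonneg _
    have h3 : (0 : ℝ) ≤ if BodyMix363.live P leaf F κ x then (2 : ℝ) ^ P.n + 1 else 0 := by
      split_ifs <;> positivity
    exact add_nonneg (mul_nonneg (by linarith) h2) h3
  up := fun S => BodyMix363.body_le_mix leaf F X k S κ x hg hum hpm

/-- **(L5), final form**: only the geometry of the near pieces and the reading lemma are inputs -/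
theorem body_law (hg : 0 < P.g) (hum : 0 < P.um) (hpm : 0 < P.pm)
    (hW : 0 < W) (hd : 2 ^ P.dl ∣ W) (hF : FOk leaf F Dm Λ) (hΛ : 8 * P.N ≤ Λ)
    (hC : 1 ≤ P.Creg) (hpb : 10 ≤ P.pb) (hx : Dm x) (ha : adm P F c.κ x = true)
    (hrd : ∀ f : St → ℕ, rdt P c (tabC P c f) x = f x)
    (hgeo : ∀ q < P.N, ∀ a < nlet P F c.κ x, ∀ b < nlet P F c.κ x,
      let y := npiece P F c.κ x q a b
      EndOk P F c q y ∧ Dm y ∧ Dm (rdn P (cls F y) y))
    {m v : ℝ} (hm : 0 ≤ m) (hv : 0 ≤ v)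
    (hsub : ∀ κ' z, z.i = c.i - 1 → c.κ ≤ κ' + P.dl → κ' ≤ c.κ + P.du →
      adm P F κ' z = true → Dm z →
        RS P W sub κ' z ≤ m * 2 ^ κ' ∧ QS P W sub κ' z ≤ v * 4 ^ κ') :
    (bodyT P leaf F X k sub c).Ev W (fun T => (rdt P c T x : ℝ)) ≤
      16 * ((m + 2) * P.Creg + 2) * 2 ^ c.κ ∧
    (bodyT P leaf F X k sub c).Ev W (fun T => (rdt P c T x : ℝ) ^ 2) ≤
      ((16 * ((m + 2) * P.Creg + 2)) ^ 2 + 16 * P.Creg * v / 2 ^ P.c0) * 4 ^ c.κ := by
  refine body_ms hW hd hF hΛ hC hpb hx ha hrd (fun hl _ _ => ⟨_, _, linUp_mix hg hum hpm, ?_⟩)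
    hgeo hm hv hsub
  have h1 := BodyMix363.a0_le leaf F X k c.κ x hg hum hpm (fun n h => by rw [hl] at h; cases h)
  have h2 : ((2 : ℝ) ^ P.n) = P.N := by unfold Par.N; push_cast; rfl
  rw [h2] at h1
  linarith

end entry

end Crest.Agent.R288.BodyM79
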