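import Crest.Agent.R288.BodyM_79
import Crest.Agent.R288.LawU_944

/-!
# R288, (L5): `LawU944.BodyStep` on ALG v2 (helper79)

* `pos_ge`, `pos_le`, `npiece_u_mem`  : first diagonal of a near piece of an entry of the cell.
* `celOf_rdn_m`                       : the cell number of the rounded state.
* `endOk_npiece`                      : the cell of a near piece is requested.
* `natAbs_cut_le`                     : near pieces stay in the domain.
* `bodyStep`                          : one window, `b = 16 ((m+2) Creg + 2)`, `Γ = 16 Creg` (any domain; `LawV944.body_step` is the same on `Dom P I`).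
-/

set_option autoImplicit false

namespace Crest.Agent.R288.BodyS79

open Finset Crest.Agent.R295.Rnd627 Crest.Agent.R295.Rnd627.RT Crest.Agent.R288.Alg45
open Crest.Agent.R288.XB715 Crest.Agent.R288.AdmR944 Crest.Agent.R288.BodyM79
open Crest.Agent.R288.LawU944 Crest.Agent.R288.LawS944

variable {P : Par}

/-! ### geometry of the near pieces -/

theorem le_rd {κ : ℕ} {a u : ℤ} (ha : (gst P κ : ℤ) ∣ a) (h : a ≤ u) : a ≤ rd P κ u := by
  have := Cell488.rd_mono P (κ := κ) h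
  rwa [Cell488.rd_of_dvd P ha] at this

/-- the cell number of a rounded diagonal -/
theorem rd_ediv (κ : ℕ) (u : ℤ) : rd P κ u / 2 ^ κ = u / 2 ^ κ := by
  have hp : (0 : ℤ) < 2 ^ κ := by positivity
  apply le_antisymm
  · exact Int.ediv_le_ediv hp (Cell488.rd_le P κ u)
  · rw [Int.le_ediv_iff_mul_le hp]
    refine le_rd ((Cell488.gst_dvd P κ).mul_left _) ?_
    exact Int.ediv_mul_le _ hp.ne'

theorem celOf_rdn_m (κ : ℕ) (y : St) : (celOf κ (rdn P κ y)).m = y.u / 2 ^ κ := rd_ediv κ y.u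

theorem pos_ge {κ : ℕ} {x : St} (hx : x.u.natAbs ≤ P.Dm) (a : ℕ) :
    rd P κ x.u - P.r * 2 ^ κ ≤ pos P κ x a := by
  have h1 := Cell488.rd_le P κ x.u
  have hr : (0 : ℤ) ≤ P.r * 2 ^ κ := by positivity
  have ha : (0 : ℤ) ≤ a * (gst P κ : ℤ) := by positivity
  unfold pos whi wlo
  omega

theorem pos_le (κ : ℕ) (x : St) (a : ℕ) : pos P κ x a ≤ x.u + P.r * 2 ^ κ := by
  have h1 := Cell488.rd_le P κ x.u
  unfold pos whi
  omega

theorem natAbs_pos_le (hr1 : 1 ≤ P.r) {κ : ℕ} {x : St} (hx : inD P x) (a : ℕ) :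
    (pos P κ x a).natAbs ≤ P.Dm := by
  have h1 := Cell488.rd_le P κ x.u
  have h2 := Cell488.lt_rd_add P κ x.u
  have hg := Cell488.gst_pos P κ
  have hr : (gst P κ : ℤ) ≤ P.r * 2 ^ κ := by
    have h3 : gst P κ ≤ P.r * 2 ^ κ :=
      (Cell488.gst_le P κ).trans (Nat.le_mul_of_pos_left _ hr1)
    exact_mod_cast h3
  have ha : (0 : ℤ) ≤ a * (gst P κ : ℤ) := by positivity
  have hx1 := hx.1
  unfold pos whi wlo
  omega

theorem natAbs_cut_le (hr1 : 1 ≤ P.r) {κ : ℕ} {x : St} (hx : inD P x) (q a : ℕ) :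
    (cut P κ x q a).natAbs ≤ P.Dm := by
  unfold cut
  split_ifs
  · exact hx.1
  · exact hx.2
  · exact natAbs_pos_le hr1 hx a

/-- first diagonal of a piece -/
theorem piece_u_mem {κ : ℕ} {x : St} (hx : inD P x) {q a b : ℕ} (hq : q < P.N) :
    (x.u / 2 ^ κ - P.r) * 2 ^ κ ≤ (piece P κ x q a b).u ∧
      (piece P κ x q a b).u ≤ (x.u / 2 ^ κ + 1 + P.r) * 2 ^ κ := by
  have hp : (0 : ℤ) < 2 ^ κ := by positivity
  have h1 : x.u / 2 ^ κ * 2 ^ κ ≤ x.u := Int.ediv_mul_le _ hp.ne'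
  have h2 : x.u < (x.u / 2 ^ κ + 1) * 2 ^ κ := Int.lt_ediv_add_one_mul_self _ hp
  have hr : (0 : ℤ) ≤ P.r * 2 ^ κ := by positivity
  have h3 : x.u / 2 ^ κ * 2 ^ κ ≤ rd P κ x.u := le_rd ((Cell488.gst_dvd P κ).mul_left _) h1
  show _ ≤ cut P κ x q a ∧ cut P κ x q a ≤ _
  unfold cut
  rw [sub_mul, add_mul]
  split_ifs with h0 h4
  · constructor <;> linarith
  · omega
  · have h5 := pos_ge (κ := κ) hx.1 a
    have h6 := pos_le (P := P) κ x a
    constructor <;> linarith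

variable {F : St → ℕ}

/-- **the cell of a near piece is requested** -/
theorem endOk_npiece {κ : ℕ} {x : St} (hx : inD P x) {q : ℕ} (hq : q < P.N) (a b : ℕ) :
    EndOk P F (celOf κ x) q (npiece P F κ x q a b) where
  hi := rfl
  hj := rfl
  mem := by
    intro _ _
    rw [celOf_rdn_m]
    have h := piece_u_mem (κ := κ) hx (a := near P F κ x q a) (b := near P F κ x (q + 1) b) hq
    exact Cell488.mem_cellsIn_of h.1 h.2

variable {leaf : St → Option ℕ} {X : ℕ → ℕ → St → ℕ} {k W : ℕ} {Dm : St → Prop} {Λ : ℕ}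

/-- **(L5): one window** -/
theorem bodyStep (hg : 0 < P.g) (hum : 0 < P.um) (hpm : 0 < P.pm)
    (hW : 0 < W) (hd : 2 ^ P.dl ∣ W) (hF : FOk leaf F Dm Λ) (hΛ : 8 * P.N ≤ Λ)
    (hC : 1 ≤ P.Creg) (hpb : 10 ≤ P.pb) (hr : 1 ≤ P.r) (hD : ∀ y, Dm y → inD P y)
    (hDp : ∀ x, Dm x → 0 < x.i → ∀ q < P.N, ∀ u v : ℤ, u.natAbs ≤ P.Dm → v.natAbs ≤ P.Dm →
      Dm ⟨x.i - 1, P.N * x.j + q, u, v⟩)
    (hDr : ∀ y, Dm y → Dm (rdn P (cls F y) y))
    {m v : ℝ} (hm : 0 ≤ m) (hv : 0 ≤ v) :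
    BodyStep P W leaf F X k Dm m v (16 * ((m + 2) * P.Creg + 2))
      ((16 * ((m + 2) * P.Creg + 2)) ^ 2 + 16 * P.Creg * v / 2 ^ P.c0) := by
  intro sub κ x hx hi ha hsub
  have hin := hD x hx
  have hA := adm_iff.1 ha
  have hC' : Cell488.InC P (celOf κ x) x := by
    refine Cell488.inC_celOf P hin ?_ hA.2.1
    rw [← hA.1]
    exact Cell488.gr_rdn P κ x
  exact body_law (c := celOf κ x) hg hum hpm hW hd hF hΛ hC hpb hx ha
    (fun f => Cell488.rdt_tabC P hC' f)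
    (fun q hq a _ b _ => by
      have h1 : Dm (npiece P F κ x q a b) :=
        hDp x hx hi q hq _ _ (natAbs_cut_le hr hin _ _) (natAbs_cut_le hr hin _ _)
      exact ⟨endOk_npiece hin hq a b, h1, hDr _ h1⟩)
    hm hv (fun κ' z hz _ _ ha' hz' => hsub κ' z (by
      have : z.i = x.i - 1 := hz
      omega) hz' ha')

end Crest.Agent.R288.BodyS79
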