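import Crest.Agent.R288.SpawnB_944

/-!
# R288: second moment of a mixture of sums of independent end values (helper79)

Line (L5) of RT.LANE2: one body table entry is at most `c + ∑ i, w i * ∑ q < N, X i q`, where `i` runs
over the near staircases, `w` are the kernel probabilities (they do not depend on the lane) and
`X i q` is the spawned end value of the piece `q` of the staircase `i`; the values of different ends
`q` are uncorrelated.

* `sq_add_sum_le`: second moment of `c + ∑ q, X q`.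
* `sq_mix_ends`: second moment of the mixture.
* `sq_mix_class`: the same with `m q = m 2^κ_q`, `s q = v 2^κ 2^κ_q` and `∑ q, 2^κ_q ≤ G 2^κ`.
-/

set_option autoImplicit false

namespace Crest.Agent.R288.BodySq79

open Finset Crest.Agent.R295.Rnd627 Crest.Agent.R295.Rnd627.RT Crest.Agent.R288.SpawnA944
open Crest.Agent.R288.SpawnB944

variable {α ι : Type} {M : ℕ}

/-- second moment of `c + ∑ q < N, X q`; the covariances are `≤ 0` -/
theorem sq_add_sum_le (hM : 0 < M) {t : RT α} {N : ℕ} {X : ℕ → α → ℝ} {c : ℝ} {m s : ℕ → ℝ}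
    (hc : 0 ≤ c) (hX0 : ∀ q < N, t.All M fun a => 0 ≤ X q a)
    (hmean : ∀ q < N, t.Ev M (X q) ≤ m q)
    (hsq : ∀ q < N, t.Ev M (fun a => X q a ^ 2) ≤ s q)
    (hind : ∀ q < N, ∀ q' < N, q ≠ q' →
      t.Ev M (fun a => X q a * X q' a) ≤ t.Ev M (X q) * t.Ev M (X q')) :
    t.Ev M (fun a => (c + ∑ q ∈ range N, X q a) ^ 2) ≤
      (c + ∑ q ∈ range N, m q) ^ 2 + ∑ q ∈ range N, s q := by
  have h0 : ∀ q < N, 0 ≤ t.Ev M (X q) := fun q hq => by
    have := Ev_mono_all (M := M) (t := t) (f := fun _ => (0 : ℝ)) (g := X q) (hX0 q hq)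
    rwa [Ev_const hM] at this
  induction N with
  | zero =>
    simp only [range_zero, sum_empty, add_zero]
    rw [Ev_const hM]
  | succ N ih =>
    have ih' := ih (fun q hq => hX0 q (by omega)) (fun q hq => hmean q (by omega))
      (fun q hq => hsq q (by omega)) (fun q hq q' hq' h => hind q (by omega) q' (by omega) h)
      (fun q hq => h0 q (by omega))
    have e1 : (fun a => (c + ∑ q ∈ range (N + 1), X q a) ^ 2) =
        fun a => (c + ∑ q ∈ range N, X q a) ^ 2 + (2 * c * X N a +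
          (∑ q ∈ range N, 2 * (X q a * X N a) + X N a ^ 2)) := by
      funext a
      rw [sum_range_succ, ← mul_sum, ← sum_mul]
      ring
    have e2 : t.Ev M (fun a => ∑ q ∈ range N, 2 * (X q a * X N a)) =
        ∑ q ∈ range N, 2 * t.Ev M (fun a => X q a * X N a) := by
      rw [Ev_sum]
      exact sum_congr rfl fun q _ => Ev_mul_left _ _ _ _
    rw [e1, Ev_add, Ev_add, Ev_add, Ev_mul_left, e2]
    have h1 : ∑ q ∈ range N, 2 * t.Ev M (fun a => X q a * X N a) ≤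
        ∑ q ∈ range N, 2 * (m q * m N) := by
      refine sum_le_sum fun q hq => ?_
      have hq' := mem_range.1 hq
      have h2 := hind q (by omega) N (by omega) (by omega)
      have h3 : t.Ev M (X q) * t.Ev M (X N) ≤ m q * m N :=
        mul_le_mul (hmean q (by omega)) (hmean N (by omega)) (h0 N (by omega))
          ((h0 q (by omega)).trans (hmean q (by omega)))
      linarith
    have h4 : 2 * c * t.Ev M (X N) ≤ 2 * c * m N :=
      mul_le_mul_of_nonneg_left (hmean N (by omega)) (by linarith)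
    have h5 := hsq N (by omega)
    rw [sum_range_succ, sum_range_succ]
    have h6 : ∑ q ∈ range N, 2 * (m q * m N) = 2 * (∑ q ∈ range N, m q) * m N := by
      rw [← mul_sum, ← sum_mul]
      ring
    rw [h6] at h1
    nlinarith [sq_nonneg (m N)]

/-- **second moment of a mixture of sums of uncorrelated end values** -/
theorem sq_mix_ends (hM : 0 < M) {t : RT α} {N : ℕ} {S : Finset ι} {w : ι → ℝ}
    {X : ι → ℕ → α → ℝ} {c B : ℝ} {m s : ι → ℕ → ℝ} {val : α → ℝ}
    (hw : ∀ i ∈ S, 0 ≤ w i) (hw1 : ∑ i ∈ S, w i ≤ 1) (hc : 0 ≤ c) (hcB : c ^ 2 ≤ B)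
    (hval : t.All M fun a => 0 ≤ val a ∧
      val a ≤ c + ∑ i ∈ S, w i * ∑ q ∈ range N, X i q a)
    (hX0 : ∀ i ∈ S, 0 < w i → ∀ q < N, t.All M fun a => 0 ≤ X i q a)
    (hmean : ∀ i ∈ S, 0 < w i → ∀ q < N, t.Ev M (X i q) ≤ m i q)
    (hsq : ∀ i ∈ S, 0 < w i → ∀ q < N, t.Ev M (fun a => X i q a ^ 2) ≤ s i q)
    (hind : ∀ i ∈ S, 0 < w i → ∀ q < N, ∀ q' < N, q ≠ q' →
      t.Ev M (fun a => X i q a * X i q' a) ≤ t.Ev M (X i q) * t.Ev M (X i q'))
    (hB : ∀ i ∈ S, 0 < w i →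
      (c + ∑ q ∈ range N, m i q) ^ 2 + ∑ q ∈ range N, s i q ≤ B) :
    t.Ev M (fun a => val a ^ 2) ≤ B := by
  set W := ∑ i ∈ S, w i with hW
  have hW0 : 0 ≤ W := sum_nonneg hw
  have hB0 : 0 ≤ B := (sq_nonneg c).trans hcB
  -- pointwise: Jensen
  have h1 : t.All M fun a => val a ^ 2 ≤ (1 - W) * c ^ 2 +
      ∑ i ∈ S, w i * (c + ∑ q ∈ range N, X i q a) ^ 2 := by
    refine hval.mono fun a ha => ?_
    set Y : ι → ℝ := fun i => c + ∑ q ∈ range N, X i q a with hY
    have h2 : c + ∑ i ∈ S, w i * ∑ q ∈ range N, X i q a = (1 - W) * c + ∑ i ∈ S, w i * Y i := by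
      have : ∑ i ∈ S, w i * Y i = W * c + ∑ i ∈ S, w i * ∑ q ∈ range N, X i q a := by
        rw [hW, sum_mul, ← sum_add_distrib]
        exact sum_congr rfl fun i _ => by rw [hY]; ring
      rw [this]
      ring
    have h3 : val a ^ 2 ≤ ((1 - W) * c + ∑ i ∈ S, w i * Y i) ^ 2 := by
      rw [← h2]
      exact pow_le_pow_left₀ ha.1 ha.2 2
    refine h3.trans ?_
    -- Cauchy-Schwarz with the extra atom
    have h4 : (∑ i ∈ S, w i * Y i) ^ 2 ≤ W * ∑ i ∈ S, w i * Y i ^ 2 :=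
      sum_sq_le_sum_mul_sum_of_sq_le_mul S hw
        (fun i hi => mul_nonneg (hw i hi) (sq_nonneg _)) (fun i _ => le_of_eq (by ring))
    set P := ∑ i ∈ S, w i * Y i
    set Q := ∑ i ∈ S, w i * Y i ^ 2
    have hQ : 0 ≤ Q := sum_nonneg fun i hi => mul_nonneg (hw i hi) (sq_nonneg _)
    -- ((1-W) c + P)^2 ≤ (1-W) c^2 + Q
    rcases eq_or_lt_of_le hW0 with h5 | h5
    · have hP : P = 0 := by
        have : P ^ 2 ≤ 0 := by rw [← h5] at h4; linarith
        exact pow_eq_zero_iff (two_ne_zero) |>.1 (le_antisymm this (sq_nonneg _))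
      rw [hP, ← h5]
      nlinarith
    · have h6 : P ^ 2 / W ≤ Q := by
        rw [div_le_iff₀ h5]
        linarith
      have h7 : ((1 - W) * c + P) ^ 2 ≤ (1 - W) * c ^ 2 + P ^ 2 / W := by
        have e : (1 - W) * c ^ 2 + P ^ 2 / W - ((1 - W) * c + P) ^ 2 =
            (1 - W) / W * (W * c - P) ^ 2 := by
          field_simp
          ring
        have : 0 ≤ (1 - W) / W * (W * c - P) ^ 2 :=
          mul_nonneg (div_nonneg (by linarith) h5.le) (sq_nonneg _)
        linarith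
      linarith
  refine (Ev_mono_all h1).trans ?_
  rw [Ev_add, Ev_const hM, Ev_sum]
  have h8 : ∑ i ∈ S, t.Ev M (fun a => w i * (c + ∑ q ∈ range N, X i q a) ^ 2) ≤
      ∑ i ∈ S, w i * B := by
    refine sum_le_sum fun i hi => ?_
    rw [Ev_mul_left]
    rcases (hw i hi).eq_or_lt with h | h
    · rw [← h]; simp
    · refine mul_le_mul_of_nonneg_left ?_ h.le
      exact (sq_add_sum_le hM hc (hX0 i hi h) (hmean i hi h) (hsq i hi h) (hind i hi h)).trans
        (hB i hi h)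
  rw [← sum_mul, ← hW] at h8
  have h9 : (1 - W) * c ^ 2 ≤ (1 - W) * B := mul_le_mul_of_nonneg_left hcB (by linarith)
  linarith

/-- mean of the same mixture -/
theorem mean_mix_ends (hM : 0 < M) {t : RT α} {N : ℕ} {S : Finset ι} {w : ι → ℝ}
    {X : ι → ℕ → α → ℝ} {c B : ℝ} {m : ι → ℕ → ℝ} {val : α → ℝ}
    (hw : ∀ i ∈ S, 0 ≤ w i) (hw1 : ∑ i ∈ S, w i ≤ 1) (hB0 : 0 ≤ B)
    (hval : t.All M fun a => val a ≤ c + ∑ i ∈ S, w i * ∑ q ∈ range N, X i q a)
    (hmean : ∀ i ∈ S, 0 < w i → ∀ q < N, t.Ev M (X i q) ≤ m i q)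
    (hB : ∀ i ∈ S, 0 < w i → ∑ q ∈ range N, m i q ≤ B) :
    t.Ev M val ≤ c + B := by
  refine (Ev_mono_all hval).trans ?_
  rw [Ev_add, Ev_const hM, Ev_sum]
  have h8 : ∑ i ∈ S, t.Ev M (fun a => w i * ∑ q ∈ range N, X i q a) ≤ ∑ i ∈ S, w i * B := by
    refine sum_le_sum fun i hi => ?_
    rw [Ev_mul_left]
    rcases (hw i hi).eq_or_lt with h | h
    · rw [← h]; simp
    · refine mul_le_mul_of_nonneg_left ?_ h.le
      rw [Ev_sum]
      exact (sum_le_sum fun q hq => hmean i hi h q (mem_range.1 hq)).trans (hB i hi h)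
  rw [← sum_mul] at h8
  have : (∑ i ∈ S, w i) * B ≤ 1 * B := mul_le_mul_of_nonneg_right hw1 hB0
  linarith

/-- the form used for the body table: piece `q` of the staircase `i` has class `κc i q`, the mean of
its end value is `≤ m 2^κc`, the second moment `≤ v 2^κ 2^κc`, and `∑ q, 2^κc ≤ G 2^κ` -/
theorem sq_mix_class (hM : 0 < M) {t : RT α} {N : ℕ} {S : Finset ι} {w : ι → ℝ}
    {X : ι → ℕ → α → ℝ} {C G m v U : ℝ} {κc : ι → ℕ → ℝ} {val : α → ℝ}
    (hC : 0 ≤ C) (hG : 0 ≤ G) (hm : 0 ≤ m) (hv : 0 ≤ v) (hU : 0 ≤ U)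
    (hw : ∀ i ∈ S, 0 ≤ w i) (hw1 : ∑ i ∈ S, w i ≤ 1)
    (hval : t.All M fun a => 0 ≤ val a ∧
      val a ≤ C * U + ∑ i ∈ S, w i * ∑ q ∈ range N, X i q a)
    (hX0 : ∀ i ∈ S, 0 < w i → ∀ q < N, t.All M fun a => 0 ≤ X i q a)
    (hmean : ∀ i ∈ S, 0 < w i → ∀ q < N, t.Ev M (X i q) ≤ m * κc i q)
    (hsq : ∀ i ∈ S, 0 < w i → ∀ q < N, t.Ev M (fun a => X i q a ^ 2) ≤ v * U * κc i q)
    (hind : ∀ i ∈ S, 0 < w i → ∀ q < N, ∀ q' < N, q ≠ q' →
      t.Ev M (fun a => X i q a * X i q' a) ≤ t.Ev M (X i q) * t.Ev M (X i q'))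
    (hκ0 : ∀ i ∈ S, 0 < w i → ∀ q < N, 0 ≤ κc i q)
    (hκ : ∀ i ∈ S, 0 < w i → ∑ q ∈ range N, κc i q ≤ G * U) :
    t.Ev M val ≤ (C + G * m) * U ∧
      t.Ev M (fun a => val a ^ 2) ≤ ((C + G * m) ^ 2 + G * v) * U ^ 2 := by
  constructor
  · refine (mean_mix_ends hM hw hw1 (B := G * m * U) (by positivity)
      (hval.mono fun a ha => ha.2) hmean fun i hi h => ?_).trans (le_of_eq (by ring))
    rw [← mul_sum]
    have := mul_le_mul_of_nonneg_left (hκ i hi h) hm
    linarith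
  · refine sq_mix_ends hM (m := fun i q => m * κc i q) (s := fun i q => v * U * κc i q) hw hw1
      (mul_nonneg hC hU) ?_ hval hX0 hmean hsq hind fun i hi h => ?_
    · have h1 : C ^ 2 ≤ (C + G * m) ^ 2 + G * v := by nlinarith [mul_nonneg hG hm, mul_nonneg hG hv]
      have := mul_le_mul_of_nonneg_right h1 (sq_nonneg U)
      nlinarith
    · rw [← mul_sum, ← mul_sum]
      have h0 : 0 ≤ ∑ q ∈ range N, κc i q :=
        sum_nonneg fun q hq => hκ0 i hi h q (mem_range.1 hq)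
      have h1 : C * U + m * ∑ q ∈ range N, κc i q ≤ (C + G * m) * U := by
        have := mul_le_mul_of_nonneg_left (hκ i hi h) hm
        linarith
      have h2 : (C * U + m * ∑ q ∈ range N, κc i q) ^ 2 ≤ ((C + G * m) * U) ^ 2 :=
        pow_le_pow_left₀ (by positivity) h1 2
      have h3 : v * U * ∑ q ∈ range N, κc i q ≤ v * U * (G * U) :=
        mul_le_mul_of_nonneg_left (hκ i hi h) (by positivity)
      nlinarith

end Crest.Agent.R288.BodySq79
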