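import Crest.Agent.R288.DeltaE_72
import Crest.Agent.R288.ArrZ_222

/-!
# R288, [DELTA] (helper72), BODY: realisation in the phase engine

BODY has TWO phases, none of them empty:
* phase 0: `nwd P` words of the tape, the unit function at `bst P c`;
* phase 1: arrival tables at `bkeysOf`, pair numbers at `xkeys`, leaf command at `cells`;
* stop with `bodyEnd P lf c k u0 u1` (`u0`, `u1` = answers of the phases).

* `rz_two` : procedures with two phases; `bodyT_two` : `bodyT` as two phases; **`body_rz`**.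
-/

set_option autoImplicit false

namespace Crest.Agent.R288.Delta72

open Crest.Agent.R295 HL Pt949 Crest.Agent.R295.Rnd627 Crest.Agent.R288.Alg45
open Crest.Agent.R288.Phe940 Crest.Agent.R288.Delta222 Crest.Agent.R288.PgA172

/-! ### two phases -/

section two

variable {pr : Prg} {W : Wld}

/-- **a procedure with two phases of requests** -/
theorem rz_two (hSM : W.S < W.M) (hN : 0 < W.N) {n : ℕ} {f f1 : List ℕ}
    {f2 : List (List ℕ) → List ℕ} {reqs : List (List ℕ)}
    {reqs1 : List (List ℕ) → List (List ℕ)} {ts : RT (List (List ℕ))}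
    {ts1 : List (List ℕ) → RT (List (List ℕ))} {C C1 : ℕ} {Q : List (List ℕ) → Prop}
    {Q1 : List (List ℕ) → List (List ℕ) → Prop}
    {g : List (List ℕ) → List (List ℕ) → List ℕ}
    (h : pr.δ f [] = (f1, reqs)) (hne : reqs ≠ []) (hts : Rqs pr W (n + 2) reqs ts C)
    (hQ : ts.All W.N Q) (hs : ∀ us, Q us → Szo W f1 reqs us)
    (h1 : ∀ us, Q us → pr.δ f1 us = (f2 us, reqs1 us)) (hne1 : ∀ us, Q us → reqs1 us ≠ [])
    (hts1 : ∀ us, Q us → Rqs pr W (n + 1) (reqs1 us) (ts1 us) C1)
    (hQ1 : ∀ us, Q us → (ts1 us).All W.N (Q1 us))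
    (hs1 : ∀ us, Q us → ∀ vs, Q1 us vs → Szo W (f2 us) (reqs1 us) vs)
    (hfin : ∀ us, Q us → ∀ vs, Q1 us vs → pr.δ (f2 us) vs = (g us vs, []))
    (hall : (ts.bind fun us => (ts1 us).bind fun vs => RT.ret (g us vs)).All W.N W.okv) :
    Rz pr W (n + 3) f [] (ts.bind fun us => (ts1 us).bind fun vs => RT.ret (g us vs))
      (C + C1) := by
  have h2 : ts.All W.N fun us => Q us ∧ (ts1 us).All W.N fun vs => W.okv (g us vs) := by
    rw [RT.All_bind] at hall
    refine hQ.and (hall.mono fun us hus => ?_)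
    rw [RT.All_bind] at hus
    exact hus
  refine Rz.stepV hSM h hne hts (fun p _ => hs _ (h2.val hN _ _).1) fun p _ => ?_
  obtain ⟨g1, g2⟩ := h2.val hN W.Z p
  generalize ts.val W.N W.Z p = us at g1 g2
  have h3 : (ts1 us).All W.N fun vs => Q1 us vs ∧ W.okv (g us vs) := (hQ1 us g1).and g2
  exact Rz.stepV (C' := 0) hSM (h1 us g1) (hne1 us g1) (hts1 us g1)
    (fun p _ => hs1 us g1 _ (h3.val hN _ _).1) fun p _ =>
      Rz.stop (hfin us g1 _ (h3.val hN _ _).1) (h3.val hN _ _).2

end two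

/-! ### BODY as two phases -/

variable (P : Par)

/-- the table from the answers of the two phases -/
def bodyEnd (lf : ℕ → St → Option ℕ) (c : Cel) (k : ℕ) (u0 u1 : List (List ℕ)) : List ℕ :=
  let ws := u0.take (nwd P)
  let fs := u0.drop (nwd P)
  let nb := (bkeysOf P c ws).length
  let nx := (xkeys P c k fs).length
  bodyFin P lf c k ws (u1.take nb) fs (u1.drop (nb + nx)) ((u1.drop nb).take nx)

/-- the computations of phase 0 -/
def ts0 (F : St → ℕ) (c : Cel) : RT (List (List ℕ)) :=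
  ((RT.reps (nwd P) RT.draw).map fun l => l.map fun r => [r]).bind fun us =>
    (RT.ret ((bst P c).map fun y => [F y])).bind fun us' => RT.ret (us ++ us')

/-- the computations of phase 1 -/
def ts1 (X : ℕ → ℕ → St → ℕ) (k : ℕ) (g : St → ℕ) (sub : Cel → RT (List ℕ)) (c : Cel)
    (u0 : List (List ℕ)) : RT (List (List ℕ)) :=
  (seqL ((bkeysOf P c (u0.take (nwd P))).map fun key => sub (bcel P c key))).bind fun us =>
    (RT.ret ((xkeys P c k (u0.drop (nwd P))).map (fun a => [X a.1 a.2.1 a.2.2]) ++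
      (cells P c).map fun y => [g y])).bind fun us' => RT.ret (us ++ us')

/-- the answers of phase 0 -/
def Q0 (N : ℕ) (F : St → ℕ) (c : Cel) (u0 : List (List ℕ)) : Prop :=
  ∃ l : List ℕ, l.length = nwd P ∧ (∀ a ∈ l, a < N) ∧
    u0 = (l.map fun r => [r]) ++ (bst P c).map fun y => [F y]

theorem ts0_all (N : ℕ) (F : St → ℕ) (c : Cel) : (ts0 P F c).All N (Q0 P N F c) := by
  unfold ts0 RT.map
  rw [RT.All_bind, RT.All_bind]
  have h1 : (RT.reps (nwd P) RT.draw).All N fun l => l.length = nwd P ∧ ∀ a ∈ l, a < N := by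
    have := RT.All_reps (M := N) (t := RT.draw) (P := fun a => a < N) (fun a ha => ha) (nwd P)
    exact this
  refine h1.mono fun l hl => ?_
  exact ⟨l, hl.1, hl.2, rfl⟩

variable {P}

theorem Q0.take {N : ℕ} {F : St → ℕ} {c : Cel} {u0 : List (List ℕ)} (h : Q0 P N F c u0) :
    u0.drop (nwd P) = (bst P c).map fun y => [F y] := by
  obtain ⟨l, h1, _, rfl⟩ := h
  exact List.drop_left' (by simpa using h1)

variable (P)

/-- lists of results have the right length -/
theorem reps_bind_congr {α β : Type} (k : ℕ) (t : RT α) {g g' : List α → RT β}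
    (h : ∀ a, a.length = k → g a = g' a) : (RT.reps k t).bind g = (RT.reps k t).bind g' := by
  rw [Delta222.reps_eq_seqL]
  exact seqL_bind_congr _ fun a ha => h a (by simpa using ha)

/-- `bodyEnd` at answers of the right lengths -/
theorem bodyEnd_eq (lf : ℕ → St → Option ℕ) (c : Cel) (k : ℕ) {ws fs us xs gs : List (List ℕ)}
    (h0 : ws.length = nwd P) (h1 : us.length = (bkeysOf P c ws).length)
    (h2 : xs.length = (xkeys P c k fs).length) :
    bodyEnd P lf c k (ws ++ fs) (us ++ (xs ++ gs)) = bodyFin P lf c k ws us fs gs xs := by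
  unfold bodyEnd
  simp only
  rw [List.take_left' h0, List.drop_left' h0, List.take_left' h1, List.drop_left' h1,
    List.take_left' h2, ← List.drop_drop, List.drop_left' h1, List.drop_left' h2]

/-- **`bodyT` as two phases** -/
theorem bodyT_two (leaf : St → Option ℕ) (lf : ℕ → St → Option ℕ) (g : St → ℕ)
    (F : St → ℕ) (X : ℕ → ℕ → St → ℕ) (k : ℕ) (sub : Cel → RT (List ℕ)) (c : Cel)
    (hl : ∀ y ∈ cells P c, leaf y = lf (g y) y) :
    bodyT P leaf F X k sub c = (ts0 P F c).bind fun u0 => (ts1 P X k g sub c u0).bind fun u1 =>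
      RT.ret (bodyEnd P lf c k u0 u1) := by
  rw [bodyT_fin P leaf lf g F X k sub c hl]
  unfold ts0 RT.map
  rw [bind_assoc', bind_assoc', bind_assoc']
  refine reps_bind_congr _ _ fun l hl' => ?_
  have h0 : (l.map fun r => [r]).length = nwd P := by simpa using hl'
  rw [RT.ret_bind, RT.ret_bind, RT.ret_bind, RT.ret_bind]
  unfold ts1
  rw [List.take_left' h0, List.drop_left' h0, bind_assoc']
  refine seqL_bind_congr _ fun us hus => ?_
  rw [RT.ret_bind, RT.ret_bind, bodyEnd_eq P lf c k h0 (by simpa using hus) (by simp), xkeys_eq]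

/-! ### the realisation -/

section rz

variable {P} {pr : Prg} {W : Wld} {n : ℕ} {f f1 : List ℕ} {c : Cel}

theorem bst_ne (c : Cel) : bst P c ≠ [] := by
  intro h
  have h1 : 0 < csz P c.κ := by
    unfold csz cu cv gpt
    positivity
  have h2 := mem_bst P h1 (self_mem P c.κ (cst P c 0))
  rw [h] at h2
  simp at h2

theorem cells_ne (c : Cel) : cells P c ≠ [] := csts_ne P c

/-- **BODY**: words and the unit function, then arrival tables, pair numbers, leaf command, then
`bodyEnd` -/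
theorem body_rz (hSM : W.S < W.M) (hN : 0 < W.N) (hNM : W.N ≤ W.M)
    {encA : Cel → List ℕ} {encF encG : St → List ℕ} {encX : ℕ × ℕ × St → List ℕ}
    {leaf : St → Option ℕ} {lf : ℕ → St → Option ℕ} {g : St → ℕ}
    (hl : ∀ y ∈ cells P c, leaf y = lf (g y) y) {F : St → ℕ} {X : ℕ → ℕ → St → ℕ} {k : ℕ}
    {sub : Cel → RT (List ℕ)} {CA CF CX CG Z m nB : ℕ} {f2 : List (List ℕ) → List ℕ}
    (h0 : pr.δ f [] = (f1, (List.range (nwd P)).map (fun _ => [0]) ++ (bst P c).map encF))
    (h1 : ∀ u0, Q0 P W.N F c u0 → pr.δ f1 u0 = (f2 u0,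
      (bkeysOf P c (u0.take (nwd P))).map (fun key => encA (bcel P c key)) ++
        ((xkeys P c k (u0.drop (nwd P))).map encX ++ (cells P c).map encG)))
    (h2 : ∀ u0, Q0 P W.N F c u0 → ∀ u1 : List (List ℕ),
      u1.length = (bkeysOf P c (u0.take (nwd P))).length +
        ((xkeys P c k (u0.drop (nwd P))).length + (cells P c).length) →
      pr.δ (f2 u0) u1 = (bodyEnd P lf c k u0 u1, []))
    (hF : ∀ y ∈ bst P c, Rq pr W (n + 2) (encF y) (.ret [F y]) CF)
    (hA : ∀ ρ, ∀ key ∈ bkeys P c.κ c.m ρ,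
      Rq pr W (n + 1) (encA (bcel P c key)) (sub (bcel P c key)) CA)
    (hX : ∀ a ∈ rpr k (bpr P F c), Rq pr W (n + 1) (encX a) (.ret [X a.1 a.2.1 a.2.2]) CX)
    (hG : ∀ y ∈ cells P c, Rq pr W (n + 1) (encG y) (.ret [g y]) CG)
    (zA : ∀ ρ, ∀ key ∈ bkeys P c.κ c.m ρ, (sub (bcel P c key)).All W.N (Blen Z W.M))
    (zF : ∀ y ∈ bst P c, F y < W.M) (zG : ∀ y ∈ cells P c, g y < W.M)
    (zX : ∀ a ∈ rpr k (bpr P F c), X a.1 a.2.1 a.2.2 < W.M)
    (yA : ∀ ρ, ∀ key ∈ bkeys P c.κ c.m ρ, Blen Z W.M (encA (bcel P c key)))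
    (yF : ∀ y ∈ bst P c, Blen Z W.M (encF y)) (yG : ∀ y ∈ cells P c, Blen Z W.M (encG y))
    (yX : ∀ a ∈ rpr k (bpr P F c), Blen Z W.M (encX a))
    (zf : Blen Z W.M f1) (zf2 : ∀ u0, Q0 P W.N F c u0 → Blen Z W.M (f2 u0)) (hZ : 1 ≤ Z)
    (hB : ∀ ρ, (bkeys P c.κ c.m ρ).length ≤ nB)
    (hm0 : nwd P + (bst P c).length ≤ m)
    (hm1 : nB + ((rpr k (bpr P F c)).length + (cells P c).length) ≤ m)
    (hS : 2 * (m + 1) * (Z + 1) + 16 ≤ W.S)
    (hall : (bodyT P leaf F X k sub c).All W.N W.okv) :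
    Rz pr W (n + 3) f [] (bodyT P leaf F X k sub c)
      (nwd P * 2 + (bst P c).length * (CF + 1) + (nB * (CA + 1) +
        ((rpr k (bpr P F c)).length * (CX + 1) + (cells P c).length * (CG + 1)))) := by
  rw [bodyT_two P leaf lf g F X k sub c hl] at hall ⊢
  have hk : ∀ u0, Q0 P W.N F c u0 → xkeys P c k (u0.drop (nwd P)) = rpr k (bpr P F c) := by
    intro u0 h
    rw [h.take, xkeys_eq]
  refine rz_two (Q := Q0 P W.N F c) (f1 := f1) (f2 := f2)
    (Q1 := fun u0 u1 => u1.length = (bkeysOf P c (u0.take (nwd P))).length +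
        ((xkeys P c k (u0.drop (nwd P))).length + (cells P c).length) ∧
      ∀ u ∈ u1, Blen Z W.M u) hSM hN h0 ?_ ?_ (ts0_all P W.N F c) ?_ h1 ?_ ?_ ?_ ?_
    (fun u0 hu0 u1 hu1 => h2 u0 hu0 u1 hu1.1) hall
  · intro h
    exact bst_ne (P := P) c (List.map_eq_nil_iff.1 (List.append_eq_nil_iff.1 h).2)
  · exact Rqs.append (Rqs.words (nwd P) (fun _ => [0]) fun _ _ => rfl)
      (Rqs.map_ret_le (bst P c) encF (fun y => [F y]) CF hF)
  · rintro u0 ⟨l, e1, e2, rfl⟩
    refine szo_of (m := m) zf (fun q hq => ?_) (fun u hu => ?_) (by simpa using hm0)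
      (by simpa [e1] using hm0) hS
    · rcases List.mem_append.1 hq with h | h
      · obtain ⟨_, _, rfl⟩ := List.mem_map.1 h
        exact ⟨hZ, by simpa using hN.trans_le hNM⟩
      · obtain ⟨y, hy, rfl⟩ := List.mem_map.1 h
        exact yF y hy
    · rcases List.mem_append.1 hu with h | h
      · obtain ⟨r, hr, rfl⟩ := List.mem_map.1 h
        exact ⟨hZ, by simpa using (e2 r hr).trans_le hNM⟩
      · obtain ⟨y, hy, rfl⟩ := List.mem_map.1 h
        exact ⟨hZ, by simpa using zF y hy⟩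
  · intro u0 _ h
    exact cells_ne (P := P) c (List.map_eq_nil_iff.1
      (List.append_eq_nil_iff.1 (List.append_eq_nil_iff.1 h).2).2)
  · intro u0 hu0
    unfold ts1
    refine (Rqs.append (Rqs.map_le _ (fun key => encA (bcel P c key))
      (fun key => sub (bcel P c key)) CA (hA _)) (Rqs.append_ret
        (Rqs.map_ret_le _ encX (fun a => [X a.1 a.2.1 a.2.2]) CX ?_)
        (Rqs.map_ret_le _ encG (fun y => [g y]) CG hG))).mono le_rfl ?_
    · rw [hk u0 hu0]
      exact hX
    · rw [hk u0 hu0]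
      exact Nat.add_le_add_right (Nat.mul_le_mul_right _ (hB _)) _
  · intro u0 hu0
    unfold ts1
    rw [RT.All_bind]
    refine (all_seqL (p := Blen Z W.M) _ fun t ht => ?_).mono fun us hus => ?_
    · obtain ⟨key, hkey, rfl⟩ := List.mem_map.1 ht
      exact zA _ key hkey
    · refine ⟨?_, fun u hu => ?_⟩
      · rw [List.length_append, hus.1]
        simp
      · rcases List.mem_append.1 hu with h | h
        · exact hus.2 u h
        · rcases List.mem_append.1 h with h | h
          · obtain ⟨a, ha, rfl⟩ := List.mem_map.1 h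
            rw [hk u0 hu0] at ha
            exact ⟨hZ, by simpa using zX a ha⟩
          · obtain ⟨y, hy, rfl⟩ := List.mem_map.1 h
            exact ⟨hZ, by simpa using zG y hy⟩
  · rintro u0 hu0 u1 ⟨e1, e2⟩
    rw [hk u0 hu0] at e1 ⊢
    have e3 : (bkeysOf P c (u0.take (nwd P))).length ≤ nB := hB _
    refine szo_of (m := m) (zf2 u0 hu0) (fun q hq => ?_) e2 ?_ (by rw [e1]; omega) hS
    · rcases List.mem_append.1 hq with h | h
      · obtain ⟨key, hkey, rfl⟩ := List.mem_map.1 h
        exact yA _ key hkey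
      · rcases List.mem_append.1 h with h | h
        · obtain ⟨a, ha, rfl⟩ := List.mem_map.1 h
          exact yX a ha
        · obtain ⟨y, hy, rfl⟩ := List.mem_map.1 h
          exact yG y hy
    · rw [List.length_append, List.length_append, List.length_map, List.length_map,
        List.length_map]
      omega

end rz

end Crest.Agent.R288.Delta72
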