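import Crest.Agent.R288.Bridge_331

/-!
# R288: loops whose rounds have random cost (helper331)

* `iterC o f k j a`: `k` rounds `f j, f (j + 1), …` from the value `a`, overhead `o` per round;
  `Ev_iterC_cost_le`: the expected cost is at most the sum of the expected costs of the rounds;
  `All_iterC`: invariants; `Pr_iterC_le`: sum of the failure probabilities of the rounds.
* `Pr_bindC_le`: failure probabilities add.
* `Seg.loop`, `ReaC.forUp`: loops realise `iterC`.
* `repsK k t`: `k` repetitions of a computation with cost; `forget_repsK`, `Ev_repsK_cost`.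
* `repsC_reaC`: the command `MedH559.repsC` for a body with random cost.
-/

set_option autoImplicit false

namespace Crest.Agent.R288.Bridge331

open Crest.Agent.R295 Crest.Agent.R295.HL Crest.Agent.R295.HL.Cmd
open Crest.Agent.R295.Rnd627 Crest.Agent.R288.MedH559
open Crest.Agent.R295.TopH791

universe u v

section iter

variable {α : Type u}

/-- `k` rounds with overhead `o` per round -/
def iterC (o : ℕ) (f : ℕ → α → RT (α × ℕ)) : ℕ → ℕ → α → RT (α × ℕ)
  | 0, _, a => RT.ret (a, 0)
  | k + 1, j, a => bindC (mapC (fun _ c => c + o) (f j a)) fun a' => iterC o f k (j + 1) a'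

theorem Ev_mapC_cost {M : ℕ} (hM : 0 < M) (t : RT (α × ℕ)) (o : ℕ) :
    (mapC (fun _ c => c + o) t).Ev M (fun x => (x.2 : ℝ)) = t.Ev M (fun x => (x.2 : ℝ)) + o := by
  unfold mapC
  rw [RT.Ev_map]
  simp only [Nat.cast_add]
  rw [RT.Ev_add, RT.Ev_const hM]

theorem All_mapC {M : ℕ} {t : RT (α × ℕ)} {g : α → ℕ → ℕ} {P : α → Prop}
    (h : t.All M fun x => P x.1) : (mapC g t).All M fun x => P x.1 := by
  unfold mapC RT.map
  rw [RT.All_bind]
  exact h.mono fun a ha => ha

theorem All_bindC {β : Type v} {M : ℕ} {t : RT (α × ℕ)} {f : α → RT (β × ℕ)} {P : β → Prop}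
    (h : t.All M fun x => (f x.1).All M fun y => P y.1) : (bindC t f).All M fun x => P x.1 := by
  unfold bindC RT.map
  rw [RT.All_bind]
  refine h.mono fun a ha => ?_
  rw [RT.All_bind]
  exact ha.mono fun b hb => hb

/-- invariants of the rounds -/
theorem All_iterC {M : ℕ} {o : ℕ} {f : ℕ → α → RT (α × ℕ)} (I : ℕ → α → Prop)
    (h : ∀ j a, I j a → (f j a).All M fun x => I (j + 1) x.1) (k j : ℕ) (a : α) (ha : I j a) :
    (iterC o f k j a).All M fun x => I (j + k) x.1 := by
  induction k generalizing j a with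
  | zero => exact ha
  | succ k ih =>
    refine All_bindC (All_mapC (P := fun a' => (iterC o f k (j + 1) a').All M
      fun y => I (j + (k + 1)) y.1) ((h j a ha).mono fun x hx => ?_))
    have := ih (j + 1) x.1 hx
    rwa [show j + 1 + k = j + (k + 1) by ring] at this

/-- **expected cost of a loop** -/
theorem Ev_iterC_cost_le {M : ℕ} (hM : 0 < M) {o : ℕ} {f : ℕ → α → RT (α × ℕ)}
    (I : ℕ → α → Prop) (B : ℕ → ℝ)
    (h : ∀ j a, I j a → (f j a).All M fun x => I (j + 1) x.1)
    (hB : ∀ j a, I j a → (f j a).Ev M (fun x => (x.2 : ℝ)) ≤ B j) (k j : ℕ) (a : α) (ha : I j a) :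
    (iterC o f k j a).Ev M (fun x => (x.2 : ℝ)) ≤ ∑ i ∈ Finset.range k, (B (j + i) + o) := by
  induction k generalizing j a with
  | zero => simp [iterC]
  | succ k ih =>
    have h1 : (iterC o f (k + 1) j a).Ev M (fun x => (x.2 : ℝ)) ≤
        (B j + o) + ∑ i ∈ Finset.range k, (B (j + 1 + i) + o) := by
      refine Ev_bindC_cost_le hM ?_ ?_
      · rw [Ev_mapC_cost hM]
        have := hB j a ha
        linarith
      · exact All_mapC (P := fun a' => (iterC o f k (j + 1) a').Ev M (fun y => (y.2 : ℝ)) ≤ _)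
          ((h j a ha).mono fun x hx => ih (j + 1) x.1 hx)
    refine h1.trans (le_of_eq ?_)
    rw [Finset.sum_range_succ', add_zero, add_comm]
    congr 1
    refine Finset.sum_congr rfl fun i _ => ?_
    rw [show j + 1 + i = j + (i + 1) by ring]

theorem Pr_bindC_le {β : Type v} {M : ℕ} (hM : 0 < M) {t : RT (α × ℕ)} {f : α → RT (β × ℕ)}
    {I : α → Prop} {P : β → Prop} {δ₁ δ₂ : ℝ} (h0 : 0 ≤ δ₂)
    (h1 : t.Pr M (fun x => ¬ I x.1) ≤ δ₁)
    (h2 : ∀ a, I a → (f a).Pr M (fun y => ¬ P y.1) ≤ δ₂) :
    (bindC t f).Pr M (fun x => ¬ P x.1) ≤ δ₁ + δ₂ := by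
  classical
  have e : (bindC t f).Pr M (fun x => ¬ P x.1) = t.Ev M fun x => (f x.1).Pr M fun y => ¬ P y.1 := by
    unfold bindC
    rw [RT.Pr_bind]
    congr 1
    funext x
    exact RT.Pr_map _ _ _ _
  rw [e]
  calc t.Ev M (fun x => (f x.1).Pr M fun y => ¬ P y.1)
      ≤ t.Ev M (fun x => (if ¬ I x.1 then 1 else 0) + δ₂) := by
        refine RT.Ev_mono fun x => ?_
        by_cases hx : I x.1
        · rw [if_neg (not_not.2 hx), zero_add]
          exact h2 _ hx
        · rw [if_pos hx]
          have := RT.Pr_le_one hM (f x.1) fun y => ¬ P y.1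
          linarith
    _ = t.Pr M (fun x => ¬ I x.1) + δ₂ := by
        rw [RT.Ev_add, RT.Ev_const hM]
        congr 1
        exact (RT.Pr_def M t fun x => ¬ I x.1).symm
    _ ≤ δ₁ + δ₂ := by linarith

theorem Pr_mapC (M : ℕ) (t : RT (α × ℕ)) (g : α → ℕ → ℕ) (P : α → Prop) :
    (mapC g t).Pr M (fun x => P x.1) = t.Pr M fun x => P x.1 := RT.Pr_map _ _ _ _

/-- **failure probability of a loop** -/
theorem Pr_iterC_le {M : ℕ} (hM : 0 < M) {o : ℕ} {f : ℕ → α → RT (α × ℕ)}
    (I : ℕ → α → Prop) (δ : ℕ → ℝ) (hδ : ∀ j, 0 ≤ δ j)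
    (h : ∀ j a, I j a → (f j a).Pr M (fun x => ¬ I (j + 1) x.1) ≤ δ j) (k j : ℕ) (a : α)
    (ha : I j a) : (iterC o f k j a).Pr M (fun x => ¬ I (j + k) x.1) ≤
      ∑ i ∈ Finset.range k, δ (j + i) := by
  classical
  induction k generalizing j a with
  | zero =>
    show (RT.ret (a, 0)).Pr M (fun x : α × ℕ => ¬ I (j + 0) x.1) ≤ _
    rw [RT.Pr_ret, if_neg (fun h => h ha)]
    simp
  | succ k ih =>
    have h1 : (iterC o f (k + 1) j a).Pr M (fun x => ¬ I (j + (k + 1)) x.1) ≤
        δ j + ∑ i ∈ Finset.range k, δ (j + 1 + i) := by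
      refine Pr_bindC_le hM (I := I (j + 1)) (P := I (j + (k + 1)))
        (Finset.sum_nonneg fun i _ => hδ _) ?_ fun a' ha' => ?_
      · rw [Pr_mapC M (f j a) _ fun a' => ¬ I (j + 1) a']
        exact h j a ha
      · have := ih (j + 1) a' ha'
        rwa [show j + 1 + k = j + (k + 1) by ring] at this
    refine h1.trans (le_of_eq ?_)
    rw [Finset.sum_range_succ', add_zero, add_comm]
    congr 1
    refine Finset.sum_congr rfl fun i _ => ?_
    rw [show j + 1 + i = j + (i + 1) by ring]

end iter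

/-! ### The for loop -/

section forUp

variable {e : Env} {p q : Cmd} {s : State} {n m : ℕ} {α : Type u} {c : Cnd}

theorem Seg.loop {o : ℕ} (f : ℕ → α → RT (α × ℕ)) (I : ℕ → α → State → Prop) {N : ℕ}
    (hstep : ∀ j a s, j < N → I j a s → c.ok e s ∧ c.holds s ∧
      ReaC e p s (Bridge331.mapC (fun _ c => c + o) (f j a)) (fun a' s' => I (j + 1) a' s'))
    (k j : ℕ) (a : α) (s : State) (hk : j + k ≤ N) (h : I j a s) :
    Seg e c p s (iterC (o + 1) f k j a) (fun a' s' => I (j + k) a' s') := by
  induction k generalizing j a s with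
  | zero => exact Seg.refl h
  | succ k ih =>
    obtain ⟨h1, h2, h3⟩ := hstep j a s (by omega) h
    have h4 := Seg.one h1 h2 h3
    have e1 : Bridge331.mapC (fun _ c => c + 1) (Bridge331.mapC (fun _ c => c + o) (f j a)) =
        Bridge331.mapC (fun _ c => c + (o + 1)) (f j a) := by
      unfold Bridge331.mapC RT.map
      simp only [RT.bind_assoc, RT.ret_bind, add_assoc]
    rw [e1] at h4
    refine Seg.bind h4 fun a' s' h' => ?_
    have h5 := ih (j + 1) a' s' (by omega) h'
    rwa [show j + 1 + k = j + (k + 1) by ring] at h5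

/-- **the for loop with random cost**: invariant `I j a s` before the round `j` -/
theorem ReaC.forUp {x : ℕ} {a b : Exp} {A N : ℕ} {a0 : α} {Q : α → State → Prop}
    (f : ℕ → α → RT (α × ℕ)) (I : ℕ → α → State → Prop)
    (ha : a.ok e s) (hA : a.val s = A) (hAN : A ≤ N) (hNB : N < e.B)
    (h0 : I A a0 (s.setReg x A))
    (hb : ∀ j a s, A ≤ j → j ≤ N → I j a s → s.reg x = j → b.ok e s ∧ b.val s = N)
    (hstep : ∀ j a s, A ≤ j → j < N → I j a s → s.reg x = j →
      ReaC e p s (f j a) (fun a' s' => s'.reg x = j ∧ I (j + 1) a' (s'.setReg x (j + 1))))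
    (hQ : ∀ a s', I N a s' → s'.reg x = N → Q a s') :
    ReaC e (HL.forUp x a b p) s (Bridge331.mapC (fun _ c => c + 2) (iterC 2 f (N - A) A a0)) Q := by
  have h1 : Runs e (.set x a) s 1 (fun s' => I A a0 s' ∧ s'.reg x = A) :=
    ⟨_, _, Ex.set ha, le_rfl, by rw [hA]; exact h0, by simp [hA]⟩
  have h2 : ∀ s1, (I A a0 s1 ∧ s1.reg x = A) → ReaC e (.whl (.lt (.var x) b)
      (p ;; .set x (.var x + 1))) s1 (Bridge331.mapC (fun _ c => c + 1) (iterC (1 + 1) f (N - A) A a0)) Q := by
    intro s1 hs1
    have h3 := Seg.loop (e := e) (c := .lt (.var x) b) (p := p ;; .set x (.var x + 1)) (o := 1) f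
      (fun j a s => A ≤ j ∧ I j a s ∧ s.reg x = j) (N := N) ?_ (N - A) A a0 s1 (by omega)
      ⟨le_rfl, hs1⟩
    · refine ReaC.conseq (Seg.done h3 ?_) ?_
      · rintro a' s' ⟨h4, h5, h6⟩
        rw [show A + (N - A) = N by omega] at h5 h6
        obtain ⟨h7, h8⟩ := hb N a' s' hAN le_rfl h5 h6
        refine ⟨⟨trivial, h7⟩, ?_⟩
        rw [Cnd.holds_lt, Exp.val_var, h6, h8]
        exact lt_irrefl N
      · rintro a' s' ⟨h4, h5, h6⟩
        rw [show A + (N - A) = N by omega] at h5 h6
        exact hQ a' s' h5 h6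
    · rintro j a' s' hj ⟨h4, h5, h6⟩
      obtain ⟨h7, h8⟩ := hb j a' s' h4 (by omega) h5 h6
      refine ⟨⟨trivial, h7⟩, ?_, ?_⟩
      · rw [Cnd.holds_lt, Exp.val_var, h6, h8]
        exact hj
      · refine ReaC.post (m := 1) trivial (hstep j a' s' h4 hj h5 h6) ?_
        rintro a'' s'' ⟨g1, g2⟩
        refine ⟨_, _, Ex.set ?_, le_rfl, by omega, ?_, ?_⟩
        · simp only [Exp.ok_add, Exp.ok_var, Exp.ok_one, Exp.val_var, Exp.val_one, g1, true_and]
          omega
        · simp only [Exp.val_add, Exp.val_var, Exp.val_one, g1]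
          exact g2
        · simp [g1]
  have h5 := ReaC.pre (e := e) (p := .set x a) (n := 1) trivial h1 fun s' hs' _ => h2 s' hs'
  have e1 : Bridge331.mapC (fun _ c => 1 + c) (Bridge331.mapC (fun _ c => c + 1) (iterC (1 + 1) f (N - A) A a0)) =
      Bridge331.mapC (fun _ c => c + 2) (iterC 2 f (N - A) A a0) := by
    unfold Bridge331.mapC RT.map
    simp only [RT.bind_assoc, RT.ret_bind]
    congr 1
    funext x
    congr 2
    ring
  rw [e1] at h5
  exact h5

end forUp

/-! ### Repetitions -/

section reps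

variable {α : Type u}

/-- `k` repetitions of a computation with cost, overhead `o` per round -/
def repsK (o : ℕ) : ℕ → RT (α × ℕ) → List α → RT (List α × ℕ) :=
  fun k t l => iterC o (fun _ l => t.map fun x => (l ++ [x.1], x.2)) k 0 l

theorem iterC_shift (o : ℕ) (f : α → RT (α × ℕ)) (k j j' : ℕ) (a : α) :
    iterC o (fun _ a => f a) k j a = iterC o (fun _ a => f a) k j' a := by
  induction k generalizing j j' a with
  | zero => rfl
  | succ k ih =>
    show bindC _ _ = bindC _ _
    congr 1
    funext a'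
    exact ih _ _ _

theorem forget_repsK (o k : ℕ) (t : RT (α × ℕ)) (l : List α) :
    forget (repsK o k t l) = (RT.reps k (forget t)).map fun l' => l ++ l' := by
  induction k generalizing l with
  | zero =>
    show RT.ret l = RT.ret (l ++ [])
    rw [List.append_nil]
  | succ k ih =>
    have h1 : repsK o (k + 1) t l = bindC (mapC (fun _ c => c + o)
        (t.map fun x => (l ++ [x.1], x.2))) fun l' => repsK o k t l' := by
      show bindC _ _ = bindC _ _
      congr 1
      funext a'
      exact iterC_shift o (fun l => t.map fun x => (l ++ [x.1], x.2)) k _ _ _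
    rw [h1, forget_bindC, forget_mapC, RT.reps_succ]
    have h2 : forget (t.map fun x => (l ++ [x.1], x.2)) = (forget t).map fun a => l ++ [a] := by
      unfold forget RT.map
      simp only [RT.bind_assoc, RT.ret_bind]
    rw [h2]
    simp only [ih]
    unfold RT.map
    simp only [RT.bind_assoc, RT.ret_bind, List.append_assoc, List.singleton_append]

theorem forget_repsK_nil (o k : ℕ) (t : RT (α × ℕ)) :
    forget (repsK o k t []) = RT.reps k (forget t) := by
  rw [forget_repsK]
  simp only [List.nil_append, RT.map, RT.bind_ret]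

/-- expected cost of the repetitions -/
theorem Ev_repsK_cost {M : ℕ} (hM : 0 < M) (o k : ℕ) (t : RT (α × ℕ)) (l : List α) :
    (repsK o k t l).Ev M (fun x => (x.2 : ℝ)) = k * (t.Ev M (fun x => (x.2 : ℝ)) + o) := by
  induction k generalizing l with
  | zero => simp [repsK, iterC]
  | succ k ih =>
    have h1 : repsK o (k + 1) t l = bindC (mapC (fun _ c => c + o)
        (t.map fun x => (l ++ [x.1], x.2))) fun l' => repsK o k t l' := by
      show bindC _ _ = bindC _ _
      congr 1
      funext a'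
      exact iterC_shift o (fun l => t.map fun x => (l ++ [x.1], x.2)) k _ _ _
    rw [h1, Ev_bindC_cost hM, Ev_mapC_cost hM, RT.Ev_map]
    simp only [ih]
    rw [RT.Ev_const hM]
    push_cast
    ring

/-- **the command `repsC`** (`var n` repetitions of `body`, results in array `k`) for a body with
random cost -/
theorem repsC_reaC {e : Env} {x k o n r K O : ℕ} {body : Cmd} {t : RT (ℕ × ℕ)} {s : State}
    (J : State → Prop) (hx : ¬ body.wr x) (hn : ¬ body.wr n) (ho : ¬ body.wr o)
    (hk : ¬ body.wa k) (hxn : x ≠ n) (hxo : x ≠ o)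
    (hJs : ∀ s v, J s → J (s.setReg x v)) (hJa : ∀ s i v, J s → J (s.setArr k i v))
    (hbody : ∀ s, J s → ReaC e body s t (fun a s' => s'.reg r = a ∧ J s'))
    (hJ : J s) (hN : s.reg n = K) (hO : s.reg o = O) (hL : O + K ≤ e.L) (hB : O + K < e.B) :
    ReaC e (repsC x k o n r body) s (mapC (fun _ c => c + 2) (repsK 3 K t [])) (fun l s' =>
      s'.Seg k O l ∧ l.length = K ∧ J s' ∧ s'.reg n = K ∧ s'.reg o = O ∧
      (∀ i, i < O ∨ O + K ≤ i → s'.arr k i = s.arr k i)) := by
  have h1 := ReaC.forUp (e := e) (s := s) (x := x) (a := 0) (b := .var n)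
    (p := body ;; put k (.var o + .var x) (.var r)) (A := 0) (N := K) (a0 := ([] : List ℕ))
    (Q := fun l s' => s'.Seg k O l ∧ l.length = K ∧ J s' ∧ s'.reg n = K ∧ s'.reg o = O ∧
      (∀ i, i < O ∨ O + K ≤ i → s'.arr k i = s.arr k i))
    (fun _ l => mapC (fun _ c => c + 1) (t.map fun x => (l ++ [x.1], x.2)))
    (fun j l s' => l.length = j ∧ s'.Seg k O l ∧ J s' ∧ s'.reg n = K ∧ s'.reg o = O ∧
      (∀ i, i < O ∨ O + j ≤ i → s'.arr k i = s.arr k i))
    (by simp; omega) (by simp) (by omega) (by omega) ?_ ?_ ?_ ?_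
  · have e1 : ∀ (k j : ℕ) (l : List ℕ),
        iterC 2 (fun _ l => mapC (fun _ c => c + 1) (t.map fun x => (l ++ [x.1], x.2))) k j l =
        iterC 3 (fun _ l => t.map fun x => (l ++ [x.1], x.2)) k j l := by
      intro k
      induction k with
      | zero => intro j l; rfl
      | succ k ih =>
        intro j l
        show bindC _ _ = bindC _ _
        congr 1
        · unfold mapC RT.map
          simp only [RT.bind_assoc, RT.ret_bind, add_assoc]
        · funext l'
          exact ih _ _
    rw [e1] at h1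
    exact h1
  · refine ⟨rfl, fun i hi => absurd hi (Nat.not_lt_zero i), hJs _ _ hJ, ?_, ?_, fun i _ => rfl⟩
    · rw [State.setReg_reg, if_neg (Ne.symm hxn), hN]
    · rw [State.setReg_reg, if_neg (Ne.symm hxo), hO]
  · rintro j l s' - hj ⟨-, -, -, g4, -, -⟩ -
    simp [g4]
  · rintro j l s' - hj ⟨g1, g2, g3, g4, g5, g6⟩ gx
    refine ReaC.post (R := fun l' s2 => ∃ a, l' = l ++ [a] ∧ s2.reg r = a ∧ J s2 ∧
      body.Frame s' s2) (m := 1) trivial ?_ ?_
    · refine ReaC.map (f := fun a => l ++ [a]) ?_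
      exact ReaC.conseq (ReaC.frame (hbody s' g3)) fun a s2 hs2 =>
        ⟨a, rfl, hs2.1.1, hs2.1.2, hs2.2⟩
    · rintro l' s2 ⟨a, rfl, b2, b3, hf⟩
      have rx : s2.reg x = j := by rw [hf.reg x hx, gx]
      have rn : s2.reg n = K := by rw [hf.reg n hn, g4]
      have ro : s2.reg o = O := by rw [hf.reg o ho, g5]
      have ra : s2.arr k = s'.arr k := hf.arr k hk
      refine Runs.put ?_ ?_ ?_ ?_
      · simp only [Exp.ok_add, Exp.ok_var, true_and, Exp.val_var, ro, rx]
        omega
      · simp only [Exp.val_add, Exp.val_var, ro, rx]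
        omega
      · exact trivial
      · simp only [Exp.val_add, Exp.val_var, ro, rx, b2]
        refine ⟨rx, ?_, ?_, hJs _ _ (hJa _ _ _ b3), ?_, ?_, ?_⟩
        · rw [List.length_append, List.length_singleton, g1]
        · intro i hi
          rw [State.setReg_arr, State.setArr_arr]
          by_cases hij : i = j
          · subst hij
            rw [if_pos ⟨rfl, rfl⟩, List.getElem_append_right (by omega)]
            simp [g1]
          · have hi' : i < l.length := by
              rw [List.length_append, List.length_singleton] at hi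
              omega
            rw [if_neg (fun h => hij (by have := h.2; omega)), List.getElem_append_left hi', ra]
            exact g2 i hi'
        · rw [State.setReg_reg, if_neg (Ne.symm hxn), State.setArr_reg, rn]
        · rw [State.setReg_reg, if_neg (Ne.symm hxo), State.setArr_reg, ro]
        · intro i hi
          rw [State.setReg_arr, State.setArr_arr, if_neg (fun h => by have := h.2; omega), ra]
          exact g6 i (by omega)
  · rintro l s' ⟨g1, g2, g3, g4, g5, g6⟩ -
    exact ⟨g2, g1, g3, g4, g5, g6⟩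

end reps

end Crest.Agent.R288.Bridge331
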