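import Crest.Agent.R288.AlgB_45

/-!
# Row 288 (helper734): cells, grid states, indices, requests of `AlgB_45`

* `gst_mul_gpt`, `rd_*`, `rdn_*`      : the grid of a class, rounding
* `clp_*`, `inD_*`, `adm_iff`         : domain, admissible pairs
* `InC P c y`                         : `y` is a grid state of the cell `c`, in the domain
* `cst0`, `cst_eq`, `cidx_cst0`, `cst_cidx`, `rdt_tabC` : numbering of the grid states, reading a table
* `inC_celOf, inC_rdn, adm_inC, celOf_rdn` : the cell of a state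
* `mem_cellsIn, div_mem_cellsIn, length_cellsIn_le, length_filter_cellsIn_le`
* `look_eq_some, look_eq_none, look_map` : results of requests
* `mem_bkeys, nodup_bkeys, length_bkeys`; `mem_acells, nodup_acells, length_acells`, `acell_p0`, `mem_jcand`
-/

set_option autoImplicit false

namespace Crest.Agent.R288.Cel734

open Crest.Agent.R288.Alg45

variable (P : Par)

/-! ### grids -/

theorem gst_pos (κ : ℕ) : 0 < gst P κ := by unfold gst; positivity
theorem gpt_pos (κ : ℕ) : 0 < gpt P κ := by unfold gpt; positivity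

theorem gst_mul_gpt (κ : ℕ) : gst P κ * gpt P κ = 2 ^ κ := by
  unfold gst gpt
  rw [← pow_add]
  congr 1
  omega

theorem gst_le (κ : ℕ) : gst P κ ≤ 2 ^ κ := Nat.pow_le_pow_right (by norm_num) (by omega)

theorem gst_dvd_two_pow (κ : ℕ) : gst P κ ∣ 2 ^ κ := Nat.pow_dvd_pow 2 (by omega)

theorem gst_dvd_gst {κ κ' : ℕ} (h : κ ≤ κ') : gst P κ ∣ gst P κ' := Nat.pow_dvd_pow 2 (by omega)

theorem gst_mono {κ κ' : ℕ} (h : κ ≤ κ') : gst P κ ≤ gst P κ' :=
  Nat.le_of_dvd (gst_pos P κ') (gst_dvd_gst P h)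

theorem gstZ_pos (κ : ℕ) : (0 : ℤ) < (gst P κ : ℤ) := by exact_mod_cast gst_pos P κ

theorem gstZ_mul_gptZ (κ : ℕ) : (gst P κ : ℤ) * (gpt P κ : ℤ) = 2 ^ κ := by
  exact_mod_cast gst_mul_gpt P κ

theorem gstZ_le (κ : ℕ) : (gst P κ : ℤ) ≤ 2 ^ κ := by exact_mod_cast gst_le P κ

theorem gstZ_dvd (κ : ℕ) : (gst P κ : ℤ) ∣ 2 ^ κ := ⟨(gpt P κ : ℤ), (gstZ_mul_gptZ P κ).symm⟩

theorem gstZ_dvd_gstZ {κ κ' : ℕ} (h : κ ≤ κ') : (gst P κ : ℤ) ∣ (gst P κ' : ℤ) := by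
  exact_mod_cast gst_dvd_gst P h

theorem dvd_rd (κ : ℕ) (u : ℤ) : (gst P κ : ℤ) ∣ rd P κ u := ⟨u / (gst P κ : ℤ), by unfold rd; ring⟩

theorem rd_le (κ : ℕ) (u : ℤ) : rd P κ u ≤ u := Int.ediv_mul_le _ (gstZ_pos P κ).ne'

theorem lt_rd_add (κ : ℕ) (u : ℤ) : u < rd P κ u + (gst P κ : ℤ) := by
  have := Int.lt_ediv_add_one_mul_self u (gstZ_pos P κ)
  unfold rd
  linarith

theorem rd_eq_self {κ : ℕ} {u : ℤ} (h : (gst P κ : ℤ) ∣ u) : rd P κ u = u := Int.ediv_mul_cancel h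

theorem rd_rd (κ : ℕ) (u : ℤ) : rd P κ (rd P κ u) = rd P κ u := rd_eq_self P (dvd_rd P κ u)

theorem natAbs_sub_rd_lt (κ : ℕ) (u : ℤ) : (u - rd P κ u).natAbs < gst P κ := by
  have h1 := rd_le P κ u
  have h2 := lt_rd_add P κ u
  omega

theorem rd_mono {κ : ℕ} {u u' : ℤ} (h : u ≤ u') : rd P κ u ≤ rd P κ u' :=
  mul_le_mul_of_nonneg_right (Int.ediv_le_ediv (gstZ_pos P κ) h) (gstZ_pos P κ).le

@[simp] theorem rdn_i (κ : ℕ) (y : St) : (rdn P κ y).i = y.i := rfl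
@[simp] theorem rdn_j (κ : ℕ) (y : St) : (rdn P κ y).j = y.j := rfl
@[simp] theorem rdn_u (κ : ℕ) (y : St) : (rdn P κ y).u = rd P κ y.u := rfl
@[simp] theorem rdn_v (κ : ℕ) (y : St) : (rdn P κ y).v = rd P κ y.v := rfl

theorem rdn_rdn (κ : ℕ) (y : St) : rdn P κ (rdn P κ y) = rdn P κ y := by
  unfold rdn
  simp only [rd_rd]

theorem rdn_eq_self {κ : ℕ} {y : St} (hu : (gst P κ : ℤ) ∣ y.u) (hv : (gst P κ : ℤ) ∣ y.v) :
    rdn P κ y = y := by
  unfold rdn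
  rw [rd_eq_self P hu, rd_eq_self P hv]

theorem dist_rdn_lt (κ : ℕ) (y : St) : Alg45.dist y (rdn P κ y) < 2 * gst P κ := by
  unfold Alg45.dist
  have h1 := natAbs_sub_rd_lt P κ y.u
  have h2 := natAbs_sub_rd_lt P κ y.v
  simp only [rdn_u, rdn_v]
  omega

theorem dist_comm' (y z : St) : Alg45.dist y z = Alg45.dist z y := by unfold Alg45.dist; omega

theorem dist_self' (y : St) : Alg45.dist y y = 0 := by unfold Alg45.dist; simp

theorem dist_tri (x y z : St) : Alg45.dist x z ≤ Alg45.dist x y + Alg45.dist y z := by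
  unfold Alg45.dist; omega

/-! ### domain -/

theorem clp_eq_self {u : ℤ} (h : u.natAbs ≤ P.Dm) : clp P u = u := by unfold clp; omega

theorem natAbs_clp_le (u : ℤ) : (clp P u).natAbs ≤ P.Dm := by unfold clp; omega

theorem clp_clp (u : ℤ) : clp P (clp P u) = clp P u := clp_eq_self P (natAbs_clp_le P u)

theorem clp_mono {u v : ℤ} (h : u ≤ v) : clp P u ≤ clp P v := by unfold clp; omega

theorem natAbs_clp_sub_le (u v : ℤ) : (clp P u - clp P v).natAbs ≤ (u - v).natAbs := by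
  unfold clp; omega

/-- clamping brings a diagonal closer to every diagonal of the domain -/
theorem natAbs_clp_sub_le_of_mem (u : ℤ) {v : ℤ} (h : v.natAbs ≤ P.Dm) :
    (clp P u - v).natAbs ≤ (u - v).natAbs := by
  unfold clp; omega

theorem dvd_clp {κ : ℕ} (hD : gst P κ ∣ P.Dm) {u : ℤ} (hu : (gst P κ : ℤ) ∣ u) :
    (gst P κ : ℤ) ∣ clp P u := by
  have hD' : (gst P κ : ℤ) ∣ (P.Dm : ℤ) := by exact_mod_cast hD
  unfold clp
  rcases max_cases (-(P.Dm : ℤ)) (min (P.Dm : ℤ) u) with ⟨h, _⟩ | ⟨h, _⟩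
  · rw [h]; exact hD'.neg_right
  · rw [h]
    rcases min_cases (P.Dm : ℤ) u with ⟨h', _⟩ | ⟨h', _⟩
    · rw [h']; exact hD'
    · rw [h']; exact hu

theorem inD_iff {y : St} : inD P y ↔ y.u.natAbs ≤ P.Dm ∧ y.v.natAbs ≤ P.Dm := Iff.rfl

/-- rounding stays in the domain if the step divides `Dm` -/
theorem natAbs_rd_le {κ : ℕ} (hD : gst P κ ∣ P.Dm) {u : ℤ} (hu : u.natAbs ≤ P.Dm) :
    (rd P κ u).natAbs ≤ P.Dm := by
  have hD' : (gst P κ : ℤ) ∣ -(P.Dm : ℤ) := by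
    have : (gst P κ : ℤ) ∣ (P.Dm : ℤ) := by exact_mod_cast hD
    exact this.neg_right
  have h1 := rd_le P κ u
  have h2 : rd P κ (-(P.Dm : ℤ)) ≤ rd P κ u := rd_mono P (by omega)
  rw [rd_eq_self P hD'] at h2
  omega

theorem inD_rdn {κ : ℕ} (hD : gst P κ ∣ P.Dm) {y : St} (h : inD P y) : inD P (rdn P κ y) :=
  ⟨natAbs_rd_le P hD h.1, natAbs_rd_le P hD h.2⟩

theorem inD_cst (c : Cel) (t : ℕ) : inD P (cst P c t) := ⟨natAbs_clp_le P _, natAbs_clp_le P _⟩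

theorem rdn_eq_iff {κ : ℕ} {y : St} :
    rdn P κ y = y ↔ (gst P κ : ℤ) ∣ y.u ∧ (gst P κ : ℤ) ∣ y.v := by
  constructor
  · intro h
    have h1 : rd P κ y.u = y.u := by
      have := congrArg St.u h
      simpa using this
    have h2 : rd P κ y.v = y.v := by
      have := congrArg St.v h
      simpa using this
    exact ⟨h1 ▸ dvd_rd P κ y.u, h2 ▸ dvd_rd P κ y.v⟩
  · rintro ⟨h1, h2⟩
    exact rdn_eq_self P h1 h2

theorem adm_iff {F : St → ℕ} {κ : ℕ} {y : St} :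
    adm P F κ y = true ↔ rdn P κ y = y ∧ (y.v - y.u).natAbs ≤ 8 * 2 ^ κ ∧
      κ ≤ cls F y + 1 ∧ cls F y ≤ κ + 1 := by
  unfold adm
  simp only [Bool.and_eq_true, decide_eq_true_eq, and_assoc]

/-! ### grid states of a cell -/

/-- `y` is a grid state of the cell `c`, in the domain -/
structure InC (c : Cel) (y : St) : Prop where
  hD : inD P y
  hi : y.i = c.i
  hj : y.j = c.j
  du : (gst P c.κ : ℤ) ∣ y.u
  dv : (gst P c.κ : ℤ) ∣ y.v
  ulo : c.m * 2 ^ c.κ ≤ y.u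
  uhi : y.u < (c.m + 1) * 2 ^ c.κ
  vlo : (c.m - 8) * 2 ^ c.κ ≤ y.v
  vhi : y.v ≤ (c.m + 9) * 2 ^ c.κ

theorem cv_pos (κ : ℕ) : 0 < cv P κ := by unfold cv; omega
theorem cu_pos (κ : ℕ) : 0 < cu P κ := gpt_pos P κ
theorem csz_pos (κ : ℕ) : 0 < csz P κ := Nat.mul_pos (cu_pos P κ) (cv_pos P κ)

/-- the grid state without clamping -/
def cst0 (c : Cel) (t : ℕ) : St :=
  { i := c.i, j := c.j
    u := c.m * 2 ^ c.κ + (t / cv P c.κ : ℕ) * (gst P c.κ : ℤ)
    v := (c.m - 8) * 2 ^ c.κ + (t % cv P c.κ : ℕ) * (gst P c.κ : ℤ) }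

theorem cst_eq (c : Cel) (t : ℕ) :
    cst P c t = { cst0 P c t with u := clp P (cst0 P c t).u, v := clp P (cst0 P c t).v } := rfl

theorem cst_eq_cst0 {c : Cel} {t : ℕ} (h : inD P (cst0 P c t)) : cst P c t = cst0 P c t := by
  rw [cst_eq, clp_eq_self P h.1, clp_eq_self P h.2]

@[simp] theorem cst_i (c : Cel) (t : ℕ) : (cst P c t).i = c.i := rfl
@[simp] theorem cst_j (c : Cel) (t : ℕ) : (cst P c t).j = c.j := rfl

theorem dvd_cst0_u (c : Cel) (t : ℕ) : (gst P c.κ : ℤ) ∣ (cst0 P c t).u :=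
  Dvd.dvd.add (Dvd.dvd.mul_left (gstZ_dvd P c.κ) _) (Dvd.intro_left _ rfl)

theorem dvd_cst0_v (c : Cel) (t : ℕ) : (gst P c.κ : ℤ) ∣ (cst0 P c t).v :=
  Dvd.dvd.add (Dvd.dvd.mul_left (gstZ_dvd P c.κ) _) (Dvd.intro_left _ rfl)

theorem dvd_cst_u {c : Cel} (hD : gst P c.κ ∣ P.Dm) (t : ℕ) : (gst P c.κ : ℤ) ∣ (cst P c t).u :=
  dvd_clp P hD (dvd_cst0_u P c t)

theorem dvd_cst_v {c : Cel} (hD : gst P c.κ ∣ P.Dm) (t : ℕ) : (gst P c.κ : ℤ) ∣ (cst P c t).v :=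
  dvd_clp P hD (dvd_cst0_v P c t)

theorem rdn_cst {c : Cel} (hD : gst P c.κ ∣ P.Dm) (t : ℕ) : rdn P c.κ (cst P c t) = cst P c t :=
  rdn_eq_self P (dvd_cst_u P hD t) (dvd_cst_v P hD t)

theorem cst0_bounds (c : Cel) {t : ℕ} (ht : t < csz P c.κ) :
    c.m * 2 ^ c.κ ≤ (cst0 P c t).u ∧ (cst0 P c t).u < (c.m + 1) * 2 ^ c.κ ∧
      (c.m - 8) * 2 ^ c.κ ≤ (cst0 P c t).v ∧ (cst0 P c t).v ≤ (c.m + 9) * 2 ^ c.κ := by
  have hg := gstZ_pos P c.κ
  have hgp := gstZ_mul_gptZ P c.κ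
  have ha : t / cv P c.κ < gpt P c.κ := Nat.div_lt_of_lt_mul (by rw [mul_comm]; exact ht)
  have hb : t % cv P c.κ < 17 * gpt P c.κ + 1 := Nat.mod_lt _ (cv_pos P c.κ)
  refine ⟨?_, ?_, ?_, ?_⟩
  · show c.m * 2 ^ c.κ ≤ c.m * 2 ^ c.κ + ((t / cv P c.κ : ℕ) : ℤ) * (gst P c.κ : ℤ)
    have : (0 : ℤ) ≤ ((t / cv P c.κ : ℕ) : ℤ) * (gst P c.κ : ℤ) := by positivity
    linarith
  · show c.m * 2 ^ c.κ + ((t / cv P c.κ : ℕ) : ℤ) * (gst P c.κ : ℤ) < (c.m + 1) * 2 ^ c.κ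
    have h1 : ((t / cv P c.κ : ℕ) : ℤ) < (gpt P c.κ : ℤ) := by exact_mod_cast ha
    have h2 : ((t / cv P c.κ : ℕ) : ℤ) * (gst P c.κ : ℤ) < (gpt P c.κ : ℤ) * (gst P c.κ : ℤ) :=
      mul_lt_mul_of_pos_right h1 hg
    rw [mul_comm (gpt P c.κ : ℤ), hgp] at h2
    linarith
  · show (c.m - 8) * 2 ^ c.κ ≤ (c.m - 8) * 2 ^ c.κ + ((t % cv P c.κ : ℕ) : ℤ) * (gst P c.κ : ℤ)
    have : (0 : ℤ) ≤ ((t % cv P c.κ : ℕ) : ℤ) * (gst P c.κ : ℤ) := by positivity
    linarith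
  · show (c.m - 8) * 2 ^ c.κ + ((t % cv P c.κ : ℕ) : ℤ) * (gst P c.κ : ℤ) ≤ (c.m + 9) * 2 ^ c.κ
    have h1 : ((t % cv P c.κ : ℕ) : ℤ) ≤ 17 * (gpt P c.κ : ℤ) := by
      have : t % cv P c.κ ≤ 17 * gpt P c.κ := by omega
      exact_mod_cast this
    have h2 : ((t % cv P c.κ : ℕ) : ℤ) * (gst P c.κ : ℤ) ≤ 17 * (gpt P c.κ : ℤ) * (gst P c.κ : ℤ) :=
      mul_le_mul_of_nonneg_right h1 hg.le
    have h3 : 17 * (gpt P c.κ : ℤ) * (gst P c.κ : ℤ) = 17 * 2 ^ c.κ := by rw [← hgp]; ring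
    rw [h3] at h2
    linarith

/-- an unclamped entry -/
theorem cst_inC {c : Cel} {t : ℕ} (ht : t < csz P c.κ) (hD : inD P (cst0 P c t)) :
    InC P c (cst P c t) := by
  obtain ⟨h1, h2, h3, h4⟩ := cst0_bounds P c ht
  rw [cst_eq_cst0 P hD]
  exact ⟨hD, rfl, rfl, dvd_cst0_u P c t, dvd_cst0_v P c t, h1, h2, h3, h4⟩

theorem cidx_cst0 (c : Cel) (t : ℕ) : cidx P c (cst0 P c t) = t := by
  have hg := (gstZ_pos P c.κ).ne'
  unfold cidx cst0
  simp only [add_sub_cancel_left]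
  rw [Int.mul_ediv_cancel _ hg, Int.mul_ediv_cancel _ hg, Int.toNat_natCast, Int.toNat_natCast]
  exact Nat.div_add_mod' t _

/-- the two coordinates of a grid state -/
theorem InC.coords {P : Par} {c : Cel} {y : St} (h : InC P c y) :
    ∃ a b : ℕ, a < gpt P c.κ ∧ b < cv P c.κ ∧ y.u = c.m * 2 ^ c.κ + (a : ℤ) * (gst P c.κ : ℤ) ∧
      y.v = (c.m - 8) * 2 ^ c.κ + (b : ℤ) * (gst P c.κ : ℤ) := by
  have hg := gstZ_pos P c.κ
  have hgp := gstZ_mul_gptZ P c.κ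
  obtain ⟨a, ha⟩ : (gst P c.κ : ℤ) ∣ y.u - c.m * 2 ^ c.κ :=
    dvd_sub h.du (Dvd.dvd.mul_left (gstZ_dvd P c.κ) _)
  obtain ⟨b, hb⟩ : (gst P c.κ : ℤ) ∣ y.v - (c.m - 8) * 2 ^ c.κ :=
    dvd_sub h.dv (Dvd.dvd.mul_left (gstZ_dvd P c.κ) _)
  have ha0 : 0 ≤ a := by
    by_contra hn
    have : (gst P c.κ : ℤ) * a < 0 := mul_neg_of_pos_of_neg hg (by omega)
    have := h.ulo
    linarith
  have hb0 : 0 ≤ b := by
    by_contra hn
    have : (gst P c.κ : ℤ) * b < 0 := mul_neg_of_pos_of_neg hg (by omega)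
    have := h.vlo
    linarith
  have ha1 : a < (gpt P c.κ : ℤ) := by
    by_contra hn
    have h1 : (gst P c.κ : ℤ) * (gpt P c.κ : ℤ) ≤ (gst P c.κ : ℤ) * a :=
      mul_le_mul_of_nonneg_left (by omega) hg.le
    have := h.uhi
    rw [hgp] at h1
    linarith
  have hb1 : b ≤ 17 * (gpt P c.κ : ℤ) := by
    by_contra hn
    have h1 : (gst P c.κ : ℤ) * (17 * (gpt P c.κ : ℤ) + 1) ≤ (gst P c.κ : ℤ) * b :=
      mul_le_mul_of_nonneg_left (by omega) hg.le
    have h2 : (gst P c.κ : ℤ) * (17 * (gpt P c.κ : ℤ) + 1) = 17 * 2 ^ c.κ + (gst P c.κ : ℤ) := by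
      rw [← hgp]; ring
    have := h.vhi
    rw [h2] at h1
    linarith
  refine ⟨a.toNat, b.toNat, by omega, by unfold cv; omega, ?_, ?_⟩
  · rw [Int.toNat_of_nonneg ha0]; linarith
  · rw [Int.toNat_of_nonneg hb0]; linarith

theorem InC.cidx_eq {P : Par} {c : Cel} {y : St} (_h : InC P c y) {a b : ℕ}
    (ha : y.u = c.m * 2 ^ c.κ + (a : ℤ) * (gst P c.κ : ℤ))
    (hb : y.v = (c.m - 8) * 2 ^ c.κ + (b : ℤ) * (gst P c.κ : ℤ)) :
    cidx P c y = a * cv P c.κ + b := by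
  have hg := (gstZ_pos P c.κ).ne'
  unfold cidx
  rw [ha, hb]
  simp only [add_sub_cancel_left]
  rw [Int.mul_ediv_cancel _ hg, Int.mul_ediv_cancel _ hg, Int.toNat_natCast, Int.toNat_natCast]

theorem cidx_lt {c : Cel} {y : St} (h : InC P c y) : cidx P c y < csz P c.κ := by
  obtain ⟨a, b, ha, hb, hu, hv⟩ := h.coords
  rw [h.cidx_eq hu hv]
  unfold csz cu
  calc a * cv P c.κ + b < a * cv P c.κ + cv P c.κ := by omega
    _ = (a + 1) * cv P c.κ := by ring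
    _ ≤ gpt P c.κ * cv P c.κ := Nat.mul_le_mul_right _ ha

theorem cst_cidx {c : Cel} {y : St} (h : InC P c y) : cst P c (cidx P c y) = y := by
  obtain ⟨a, b, ha, hb, hu, hv⟩ := h.coords
  rw [h.cidx_eq hu hv]
  have h1 : (a * cv P c.κ + b) / cv P c.κ = a := by
    rw [add_comm, Nat.add_mul_div_right _ _ (cv_pos P c.κ), Nat.div_eq_of_lt hb, zero_add]
  have h2 : (a * cv P c.κ + b) % cv P c.κ = b := by
    rw [add_comm, Nat.add_mul_mod_self_right, Nat.mod_eq_of_lt hb]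
  unfold cst
  rw [h1, h2, ← hu, ← hv, clp_eq_self P h.hD.1, clp_eq_self P h.hD.2, ← h.hi, ← h.hj]

@[simp] theorem length_tabC (c : Cel) (f : St → ℕ) : (tabC P c f).length = csz P c.κ := by
  simp [tabC]

/-- reading a table at a grid state of the cell -/
theorem rdt_tabC {c : Cel} {y : St} (h : InC P c y) (f : St → ℕ) : rdt P c (tabC P c f) y = f y := by
  have hlt := cidx_lt P h
  unfold rdt tabC
  rw [List.getD_eq_getElem _ _ (by simpa using hlt)]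
  simp [cst_cidx P h]

/-- a table is determined by its entries -/
theorem tabC_congr {c : Cel} {f g : St → ℕ} (h : ∀ t < csz P c.κ, f (cst P c t) = g (cst P c t)) :
    tabC P c f = tabC P c g := by
  unfold tabC
  exact List.map_congr_left fun t ht => h t (List.mem_range.1 ht)

theorem mem_tabC {c : Cel} {f : St → ℕ} {a : ℕ} :
    a ∈ tabC P c f ↔ ∃ t < csz P c.κ, f (cst P c t) = a := by
  unfold tabC
  simp only [List.mem_map, List.mem_range]

theorem getD_tabC {c : Cel} {f : St → ℕ} {t : ℕ} (ht : t < csz P c.κ) (d : ℕ) :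
    (tabC P c f).getD t d = f (cst P c t) := by
  rw [List.getD_eq_getElem _ _ (by simpa using ht)]
  simp [tabC]

theorem rdt_map_range {c : Cel} {y : St} (h : InC P c y) (f : ℕ → ℕ) :
    rdt P c ((List.range (csz P c.κ)).map f) y = f (cidx P c y) := by
  have hlt := cidx_lt P h
  unfold rdt
  rw [List.getD_eq_getElem _ _ (by simpa using hlt)]
  simp

/-! ### the cell of a state -/

@[simp] theorem celOf_κ (κ : ℕ) (y : St) : (celOf κ y).κ = κ := rfl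
@[simp] theorem celOf_i (κ : ℕ) (y : St) : (celOf κ y).i = y.i := rfl
@[simp] theorem celOf_j (κ : ℕ) (y : St) : (celOf κ y).j = y.j := rfl
@[simp] theorem celOf_m (κ : ℕ) (y : St) : (celOf κ y).m = y.u / 2 ^ κ := rfl

theorem two_pow_posZ (κ : ℕ) : (0 : ℤ) < 2 ^ κ := by positivity

/-- a grid state with `|v - u| ≤ 8 * 2^κ` lies in its cell -/
theorem inC_celOf {κ : ℕ} {y : St} (hD : inD P y) (hu : (gst P κ : ℤ) ∣ y.u)
    (hv : (gst P κ : ℤ) ∣ y.v) (h : (y.v - y.u).natAbs ≤ 8 * 2 ^ κ) : InC P (celOf κ y) y := by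
  have h2 := two_pow_posZ κ
  have hlo : y.u / 2 ^ κ * 2 ^ κ ≤ y.u := Int.ediv_mul_le _ h2.ne'
  have hhi : y.u < (y.u / 2 ^ κ + 1) * 2 ^ κ := Int.lt_ediv_add_one_mul_self _ h2
  have h' : |y.v - y.u| ≤ 8 * 2 ^ κ := by
    rw [Int.abs_eq_natAbs]
    exact_mod_cast h
  obtain ⟨h3, h4⟩ := abs_le.1 h'
  refine ⟨hD, rfl, rfl, hu, hv, hlo, hhi, ?_, ?_⟩
  · show (y.u / 2 ^ κ - 8) * 2 ^ κ ≤ y.v
    nlinarith
  · show y.v ≤ (y.u / 2 ^ κ + 9) * 2 ^ κ
    nlinarith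

theorem div_two_pow_rd (κ : ℕ) (u : ℤ) : rd P κ u / 2 ^ κ = u / 2 ^ κ := by
  have hg := gstZ_pos P κ
  have hp : (0 : ℤ) < (gpt P κ : ℤ) := by exact_mod_cast gpt_pos P κ
  unfold rd
  rw [← gstZ_mul_gptZ P κ, mul_comm (u / (gst P κ : ℤ)), Int.mul_ediv_mul_of_pos _ _ hg,
    Int.ediv_ediv_of_nonneg hg.le]

theorem celOf_rdn (κ : ℕ) (y : St) : celOf κ (rdn P κ y) = celOf κ y := by
  unfold celOf
  simp only [rdn_i, rdn_j, rdn_u, div_two_pow_rd]

/-- the rounded state lies in its cell if `|v - u| ≤ 7 * 2^κ` -/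
theorem inC_rdn {κ : ℕ} (hg : gst P κ ∣ P.Dm) {y : St} (hD : inD P y)
    (h : (y.v - y.u).natAbs ≤ 7 * 2 ^ κ) : InC P (celOf κ (rdn P κ y)) (rdn P κ y) := by
  refine inC_celOf P (inD_rdn P hg hD) (dvd_rd P κ _) (dvd_rd P κ _) ?_
  have h1 := natAbs_sub_rd_lt P κ y.u
  have h2 := natAbs_sub_rd_lt P κ y.v
  have h3 := rd_le P κ y.u
  have h4 := rd_le P κ y.v
  have h5 := gst_le P κ
  simp only [rdn_u, rdn_v]
  omega

/-- an admissible pair lies in its cell -/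
theorem adm_inC {F : St → ℕ} {κ : ℕ} {y : St} (hD : inD P y) (h : adm P F κ y = true) :
    InC P (celOf κ y) y := by
  obtain ⟨h1, h2, -, -⟩ := (adm_iff P).1 h
  obtain ⟨hu, hv⟩ := (rdn_eq_iff P).1 h1
  exact inC_celOf P hD hu hv h2

theorem InC.celOf_eq {P : Par} {c : Cel} {y : St} (h : InC P c y) : celOf c.κ y = c := by
  have h2 := two_pow_posZ c.κ
  have : y.u / 2 ^ c.κ = c.m := by
    refine le_antisymm ?_ ?_
    · exact Int.lt_add_one_iff.1 (Int.ediv_lt_of_lt_mul h2 h.uhi)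
    · exact (Int.le_ediv_iff_mul_le h2).2 h.ulo
  unfold celOf
  rw [this, h.hi, h.hj]

/-- an entry whose state is in its own cell and steep at most `8 * 2^κ` is a grid state of the cell -/
theorem inC_cst_of_celOf {c : Cel} (hg : gst P c.κ ∣ P.Dm) {t : ℕ}
    (h1 : celOf c.κ (cst P c t) = c) (h2 : ((cst P c t).v - (cst P c t).u).natAbs ≤ 8 * 2 ^ c.κ) :
    InC P c (cst P c t) := by
  have := inC_celOf P (κ := c.κ) (inD_cst P c t) (dvd_cst_u P hg t) (dvd_cst_v P hg t) h2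
  rwa [h1] at this

/-- the cell meets the domain (the test of `acells`) -/
def Meets (κ : ℕ) (m : ℤ) : Prop := m * 2 ^ κ ≤ (P.Dm : ℤ) ∧ -(P.Dm : ℤ) < (m + 1) * 2 ^ κ

theorem InC.meets {P : Par} {c : Cel} {y : St} (h : InC P c y) : Meets P c.κ c.m := by
  have h1 := h.hD.1
  have h2 := h.ulo
  have h3 := h.uhi
  have h4 : y.u ≤ (P.Dm : ℤ) := by omega
  have h5 : -(P.Dm : ℤ) ≤ y.u := by omega
  exact ⟨h2.trans h4, lt_of_le_of_lt h5 h3⟩

/-- the cell of a state of the domain meets the domain -/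
theorem meets_div {κ : ℕ} {u : ℤ} (h : u.natAbs ≤ P.Dm) : Meets P κ (u / 2 ^ κ) := by
  have h2 := two_pow_posZ κ
  have hlo : u / 2 ^ κ * 2 ^ κ ≤ u := Int.ediv_mul_le _ h2.ne'
  have hhi : u < (u / 2 ^ κ + 1) * 2 ^ κ := Int.lt_ediv_add_one_mul_self _ h2
  have h4 : u ≤ (P.Dm : ℤ) := by omega
  have h5 : -(P.Dm : ℤ) ≤ u := by omega
  exact ⟨hlo.trans h4, lt_of_le_of_lt h5 hhi⟩

/-- **every entry of a cell which meets the domain is a grid state of the cell** -/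
theorem cst_inC_of_meets {c : Cel} (hg : gst P c.κ ∣ P.Dm) (hm : Meets P c.κ c.m) {t : ℕ}
    (ht : t < csz P c.κ) : InC P c (cst P c t) := by
  obtain ⟨h1, h2, h3, h4⟩ := cst0_bounds P c ht
  obtain ⟨m1, m2⟩ := hm
  have h0 := two_pow_posZ c.κ
  have hD0 : (0 : ℤ) ≤ (P.Dm : ℤ) := by positivity
  refine ⟨inD_cst P c t, rfl, rfl, dvd_cst_u P hg t, dvd_cst_v P hg t, ?_, ?_, ?_, ?_⟩
  · show _ ≤ clp P (cst0 P c t).u
    exact le_max_of_le_right (le_min m1 h1)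
  · show clp P (cst0 P c t).u < _
    exact max_lt m2 (lt_of_le_of_lt (min_le_right _ _) h2)
  · show _ ≤ clp P (cst0 P c t).v
    refine le_max_of_le_right (le_min ?_ h3)
    have : (c.m - 8) * 2 ^ c.κ ≤ c.m * 2 ^ c.κ := mul_le_mul_of_nonneg_right (by omega) h0.le
    exact this.trans m1
  · show clp P (cst0 P c t).v ≤ _
    refine max_le ?_ ((min_le_right _ _).trans h4)
    have : (c.m + 1) * 2 ^ c.κ ≤ (c.m + 9) * 2 ^ c.κ := mul_le_mul_of_nonneg_right (by omega) h0.le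
    exact m2.le.trans this

/-- ... and its own cell is `c` -/
theorem celOf_cst {c : Cel} (hg : gst P c.κ ∣ P.Dm) (hm : Meets P c.κ c.m) {t : ℕ}
    (ht : t < csz P c.κ) : celOf c.κ (cst P c t) = c := (cst_inC_of_meets P hg hm ht).celOf_eq

/-! ### cells of a class around a cell -/

theorem cellsIn_eq (r κ : ℕ) (m : ℤ) (κ' : ℕ) :
    cellsIn r κ m κ' = (List.range
      ((m + 1 + r) * 2 ^ κ / 2 ^ κ' - (m - r) * 2 ^ κ / 2 ^ κ' + 1).toNat).map
        fun t : ℕ => (m - r) * 2 ^ κ / 2 ^ κ' + (t : ℤ) := by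
  unfold cellsIn
  simp only [List.bind_eq_flatMap, List.pure_def, List.map_flatMap, List.map_cons, List.map_nil]
  exact (List.map_eq_flatMap ..).symm

theorem mem_cellsIn {r κ : ℕ} {m : ℤ} {κ' : ℕ} {m' : ℤ} :
    m' ∈ cellsIn r κ m κ' ↔
      (m - r) * 2 ^ κ / 2 ^ κ' ≤ m' ∧ m' ≤ (m + 1 + r) * 2 ^ κ / 2 ^ κ' := by
  rw [cellsIn_eq]
  simp only [List.mem_map, List.mem_range]
  constructor
  · rintro ⟨t, ht, rfl⟩
    omega
  · rintro ⟨h1, h2⟩
    exact ⟨(m' - (m - r) * 2 ^ κ / 2 ^ κ').toNat, by omega, by omega⟩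

theorem div_mem_cellsIn {r κ : ℕ} {m : ℤ} {κ' : ℕ} {u : ℤ} (h1 : (m - r) * 2 ^ κ ≤ u)
    (h2 : u ≤ (m + 1 + r) * 2 ^ κ) : u / 2 ^ κ' ∈ cellsIn r κ m κ' :=
  mem_cellsIn.2 ⟨Int.ediv_le_ediv (two_pow_posZ κ') h1, Int.ediv_le_ediv (two_pow_posZ κ') h2⟩

theorem nodup_cellsIn (r κ : ℕ) (m : ℤ) (κ' : ℕ) : (cellsIn r κ m κ').Nodup := by
  rw [cellsIn_eq]
  refine List.Nodup.map (fun a b h => ?_) List.nodup_range
  simpa using h

theorem length_cellsIn (r κ : ℕ) (m : ℤ) (κ' : ℕ) :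
    (cellsIn r κ m κ').length =
      ((m + 1 + r) * 2 ^ κ / 2 ^ κ' - (m - r) * 2 ^ κ / 2 ^ κ' + 1).toNat := by
  rw [cellsIn_eq]
  simp

/-- number of cells: at most `(2r+1) 2^κ / 2^κ' + 2` -/
theorem length_cellsIn_le (r κ : ℕ) (m : ℤ) (κ' : ℕ) :
    (cellsIn r κ m κ').length ≤ (2 * r + 1) * 2 ^ κ / 2 ^ κ' + 2 := by
  rw [length_cellsIn]
  have h2 := two_pow_posZ κ'
  have e : (m + 1 + r) * 2 ^ κ = (m - r) * 2 ^ κ + (2 * r + 1) * 2 ^ κ := by ring
  have h : (m + 1 + r) * 2 ^ κ / 2 ^ κ' ≤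
      (m - r) * 2 ^ κ / 2 ^ κ' + (2 * r + 1) * 2 ^ κ / 2 ^ κ' + 1 := by
    rw [e]
    have a1 := Int.lt_ediv_add_one_mul_self ((m - r) * 2 ^ κ) h2
    have a2 := Int.lt_ediv_add_one_mul_self (((2 : ℤ) * r + 1) * 2 ^ κ) h2
    have : (m - r) * 2 ^ κ + (2 * r + 1) * 2 ^ κ <
        ((m - r) * 2 ^ κ / 2 ^ κ' + (2 * r + 1) * 2 ^ κ / 2 ^ κ' + 2) * 2 ^ κ' := by nlinarith
    have := Int.ediv_lt_of_lt_mul h2 this
    omega
  have h3 : (((2 * r + 1) * 2 ^ κ / 2 ^ κ' : ℕ) : ℤ) = ((2 : ℤ) * r + 1) * 2 ^ κ / 2 ^ κ' := by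
    push_cast; rfl
  have h4 : (((2 * r + 1) * 2 ^ κ / 2 ^ κ' + 2 : ℕ) : ℤ) =
      ((2 : ℤ) * r + 1) * 2 ^ κ / 2 ^ κ' + 2 := by
    rw [Nat.cast_add, h3]; rfl
  have h5 : (m + 1 + r) * 2 ^ κ / 2 ^ κ' - (m - r) * 2 ^ κ / 2 ^ κ' + 1 ≤
      (((2 * r + 1) * 2 ^ κ / 2 ^ κ' + 2 : ℕ) : ℤ) := by
    rw [h4]; linarith
  exact Int.toNat_le.2 h5

/-- if `κ' ≤ κ` there are exactly `(2r+1) 2^(κ-κ') + 1` cells -/
theorem length_cellsIn_eq {r κ : ℕ} {m : ℤ} {κ' : ℕ} (h : κ' ≤ κ) :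
    (cellsIn r κ m κ').length = (2 * r + 1) * 2 ^ (κ - κ') + 1 := by
  rw [length_cellsIn]
  have h2 := two_pow_posZ κ'
  have e1 : (2 : ℤ) ^ κ = 2 ^ (κ - κ') * 2 ^ κ' := by rw [← pow_add]; congr 1; omega
  rw [e1, ← mul_assoc, ← mul_assoc, Int.mul_ediv_cancel _ h2.ne', Int.mul_ediv_cancel _ h2.ne']
  have : (m + 1 + (r : ℤ)) * 2 ^ (κ - κ') - (m - r) * 2 ^ (κ - κ') + 1 =
      (((2 * r + 1) * 2 ^ (κ - κ') + 1 : ℕ) : ℤ) := by
    push_cast; ring
  rw [this, Int.toNat_natCast]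

/-- in `w` consecutive integers at most `w / d + 1` are `≡ ρ mod d` -/
theorem length_filter_mod_le {d : ℕ} (hd : 0 < d) (ρ : ℤ) (lo : ℤ) (w : ℕ) :
    (((List.range w).map fun t : ℕ => lo + (t : ℤ)).filter
      fun m' => m' % (d : ℤ) = ρ).length ≤ w / d + 1 := by
  have hdZ : (0 : ℤ) < d := by exact_mod_cast hd
  set l := ((List.range w).map fun t : ℕ => lo + (t : ℤ)).filter fun m' => m' % (d : ℤ) = ρ with hl
  have hmem : ∀ a ∈ l, lo ≤ a ∧ a < lo + w ∧ a % (d : ℤ) = ρ := by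
    intro a ha
    rw [hl] at ha
    simp only [List.mem_filter, List.mem_map, List.mem_range, decide_eq_true_eq] at ha
    obtain ⟨⟨t, ht, rfl⟩, hr⟩ := ha
    exact ⟨by omega, by omega, hr⟩
  have hnd : l.Nodup := by
    refine List.Nodup.filter _ (List.Nodup.map (fun a b h => ?_) List.nodup_range)
    simpa using h
  have hinj : ∀ a ∈ l, ∀ b ∈ l, ((a - lo) / (d : ℤ)).toNat = ((b - lo) / (d : ℤ)).toNat →
      a = b := by
    intro a ha b hb h
    obtain ⟨a1, a2, a3⟩ := hmem a ha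
    obtain ⟨b1, b2, b3⟩ := hmem b hb
    have qa : 0 ≤ (a - lo) / (d : ℤ) := Int.ediv_nonneg (by omega) hdZ.le
    have qb : 0 ≤ (b - lo) / (d : ℤ) := Int.ediv_nonneg (by omega) hdZ.le
    have hq : (a - lo) / (d : ℤ) = (b - lo) / (d : ℤ) := by omega
    obtain ⟨k, hk⟩ : (d : ℤ) ∣ a - b := by
      have : a % (d : ℤ) = b % (d : ℤ) := a3.trans b3.symm
      exact Int.ModEq.dvd (show b ≡ a [ZMOD d] from this.symm)
    have e1 := Int.ediv_mul_le (a - lo) hdZ.ne'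
    have e2 := Int.lt_ediv_add_one_mul_self (a - lo) hdZ
    have e3 := Int.ediv_mul_le (b - lo) hdZ.ne'
    have e4 := Int.lt_ediv_add_one_mul_self (b - lo) hdZ
    rw [hq] at e1 e2
    have k0 : k = 0 := by
      by_contra hk0
      rcases lt_or_gt_of_ne hk0 with h0 | h0
      · have : (d : ℤ) * k ≤ -d := by nlinarith
        nlinarith
      · have : (d : ℤ) ≤ d * k := by nlinarith
        nlinarith
    rw [k0, mul_zero] at hk
    omega
  have hnd' : (l.map fun a => ((a - lo) / (d : ℤ)).toNat).Nodup :=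
    (List.nodup_map_iff_inj_on hnd).2 hinj
  have hsub : (l.map fun a => ((a - lo) / (d : ℤ)).toNat) ⊆ List.range (w / d + 1) := by
    intro q hq
    obtain ⟨a, ha, rfl⟩ := List.mem_map.1 hq
    obtain ⟨a1, a2, -⟩ := hmem a ha
    rw [List.mem_range]
    have h1 : (a - lo) / (d : ℤ) ≤ (w : ℤ) / (d : ℤ) := Int.ediv_le_ediv hdZ (by omega)
    have h2 : (w : ℤ) / (d : ℤ) = ((w / d : ℕ) : ℤ) := by push_cast; rfl
    have h3 : 0 ≤ (a - lo) / (d : ℤ) := Int.ediv_nonneg (by omega) hdZ.le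
    rw [h2] at h1
    omega
  have := (List.subperm_of_subset hnd' hsub).length_le
  simpa using this

/-- the number of active cells -/
theorem length_filter_cellsIn_le (r κ : ℕ) (m : ℤ) (κ' : ℕ) {d : ℕ} (hd : 0 < d) (ρ : ℤ) :
    ((cellsIn r κ m κ').filter fun m' => m' % (d : ℤ) = ρ).length ≤
      ((2 * r + 1) * 2 ^ κ / 2 ^ κ' + 2) / d + 1 := by
  have h := length_cellsIn_le r κ m κ'
  rw [length_cellsIn] at h
  rw [cellsIn_eq]
  refine (length_filter_mod_le hd ρ _ _).trans ?_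
  have := Nat.div_le_div_right (c := d) h
  omega

/-! ### results of requests -/

section look

variable {α κ : Type} [DecidableEq κ] [Inhabited α]

theorem look_eq_some {ks : List κ} {res : List α} {k : κ} (hl : ks.length = res.length)
    (hk : k ∈ ks) : look ks res k = res[ks.idxOf k]? := by
  induction ks generalizing res with
  | nil => simp at hk
  | cons a ks ih =>
    cases res with
    | nil => simp at hl
    | cons b res =>
      by_cases h : k = a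
      · subst h
        simp [look]
      · have h' : k ∈ ks := by
          rcases List.mem_cons.1 hk with h1 | h1
          · exact absurd h1 h
          · exact h1
        have hne : (k == a) = false := by simpa using h
        have := ih (res := res) (by simpa using hl) h'
        unfold look at this ⊢
        rw [List.zip_cons_cons, List.lookup_cons, hne]
        rw [List.idxOf_cons_ne _ (fun e => h e.symm)]
        simpa using this

theorem look_eq_none {ks : List κ} {res : List α} {k : κ} (hk : k ∉ ks) :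
    look ks res k = none := by
  induction ks generalizing res with
  | nil => simp [look]
  | cons a ks ih =>
    cases res with
    | nil => simp [look]
    | cons b res =>
      have h1 : k ≠ a := fun e => hk (by rw [e]; exact List.mem_cons_self)
      have h2 : k ∉ ks := fun e => hk (List.mem_cons_of_mem _ e)
      have hne : (k == a) = false := by simpa using h1
      have := ih (res := res) h2
      unfold look at this ⊢
      rw [List.zip_cons_cons, List.lookup_cons, hne]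
      simpa using this

theorem look_isSome {ks : List κ} {res : List α} {k : κ} (hl : ks.length = res.length)
    (hk : k ∈ ks) : ∃ b, look ks res k = some b ∧ b ∈ res := by
  rw [look_eq_some hl hk]
  have : ks.idxOf k < res.length := by rw [← hl]; exact List.idxOf_lt_length_of_mem hk
  exact ⟨res[ks.idxOf k], List.getElem?_eq_getElem this, List.getElem_mem this⟩

/-- results which are a function of the request -/
theorem look_map (ks : List κ) (f : κ → α) {k : κ} (hk : k ∈ ks) :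
    look ks (ks.map f) k = some (f k) := by
  rw [look_eq_some (by simp) hk, List.getElem?_map,
    List.getElem?_eq_getElem (List.idxOf_lt_length_of_mem hk), Option.map_some,
    List.getElem_idxOf]

end look

/-! ### requests of a window -/

theorem mem_rngC {lo hi x : ℕ} : x ∈ rngC lo hi ↔ lo ≤ x ∧ x ≤ hi := by
  unfold rngC
  simp only [List.mem_map, List.mem_range]
  constructor
  · rintro ⟨t, ht, rfl⟩
    omega
  · rintro ⟨h1, h2⟩
    exact ⟨x - lo, by omega, by omega⟩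

theorem nodup_rngC (lo hi : ℕ) : (rngC lo hi).Nodup :=
  List.Nodup.map (fun a b h => by simpa using h) List.nodup_range

theorem length_rngC (lo hi : ℕ) : (rngC lo hi).length = hi + 1 - lo := by simp [rngC]

theorem mem_spCl {κ κ' : ℕ} : κ' ∈ spCl P κ ↔ κ - P.dl ≤ κ' ∧ κ' ≤ κ + P.du := mem_rngC

theorem nodup_spCl (κ : ℕ) : (spCl P κ).Nodup := nodup_rngC _ _

theorem length_spCl_le (κ : ℕ) : (spCl P κ).length ≤ P.dl + P.du + 1 := by
  unfold spCl
  rw [length_rngC]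
  omega

theorem modu_pos (κ κ' : ℕ) : 0 < modu P κ κ' := by unfold modu; positivity
theorem copies_pos (κ κ' : ℕ) : 0 < copies P κ κ' := by unfold copies; positivity

theorem mem_bkeys {κ : ℕ} {m : ℤ} {ρ : ℕ → ℕ → ℕ} {key : Key} :
    key ∈ bkeys P κ m ρ ↔ key.q < P.N ∧ key.κ ∈ spCl P κ ∧
      key.m ∈ cellsIn P.r κ m key.κ ∧ key.m % (modu P κ key.κ : ℤ) = (ρ key.q key.κ : ℤ) ∧
      key.s < copies P κ key.κ := by
  unfold bkeys
  simp only [List.mem_flatMap, List.mem_range, List.mem_filter, List.mem_map, decide_eq_true_eq]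
  constructor
  · rintro ⟨q, hq, κ', hκ, m', ⟨hm, hr⟩, s, hs, rfl⟩
    exact ⟨hq, hκ, hm, hr, hs⟩
  · rintro ⟨hq, hκ, hm, hr, hs⟩
    exact ⟨key.q, hq, key.κ, hκ, key.m, ⟨hm, hr⟩, key.s, hs, rfl⟩

theorem nodup_flatMap_of {α β γ : Type} {l : List α} {f : α → List β} (g : β → γ) (h : α → γ)
    (hl : l.Nodup) (hinj : ∀ a ∈ l, ∀ b ∈ l, h a = h b → a = b) (hf : ∀ a ∈ l, (f a).Nodup)
    (hg : ∀ a ∈ l, ∀ b ∈ f a, g b = h a) : (l.flatMap f).Nodup := by
  rw [List.nodup_flatMap]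
  refine ⟨hf, ?_⟩
  refine hl.imp_of_mem fun {a b} ha hb hab => ?_
  intro x hx hx'
  exact hab (hinj a ha b hb ((hg a ha x hx).symm.trans (hg b hb x hx')))

theorem nodup_bkeys (κ : ℕ) (m : ℤ) (ρ : ℕ → ℕ → ℕ) : (bkeys P κ m ρ).Nodup := by
  unfold bkeys
  refine nodup_flatMap_of (fun k : Key => k.q) id List.nodup_range (fun _ _ _ _ h => h)
    (fun q _ => ?_) fun q _ k hk => ?_
  · refine nodup_flatMap_of (fun k : Key => k.κ) id (nodup_spCl P κ) (fun _ _ _ _ h => h)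
      (fun κ' _ => ?_) fun κ' _ k hk => ?_
    · refine nodup_flatMap_of (fun k : Key => k.m) id
        (List.Nodup.filter _ (nodup_cellsIn _ _ _ _)) (fun _ _ _ _ h => h)
        (fun m' _ => ?_) fun m' _ k hk => ?_
      · exact List.Nodup.map (fun a b h => by simpa using h) List.nodup_range
      · simp only [List.mem_map] at hk
        obtain ⟨s, _, rfl⟩ := hk
        rfl
    · simp only [List.mem_flatMap, List.mem_map] at hk
      obtain ⟨m', _, s, _, rfl⟩ := hk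
      rfl
  · simp only [List.mem_flatMap, List.mem_map] at hk
    obtain ⟨κ', _, m', _, s, _, rfl⟩ := hk
    rfl

theorem mem_jCl {κ κ' : ℕ} : κ' ∈ jCl P κ ↔ κ - P.a1 ≤ κ' ∧ κ' ≤ κ + P.a2 := mem_rngC

theorem nodup_jCl (κ : ℕ) : (jCl P κ).Nodup := nodup_rngC _ _

theorem length_jCl_le (κ : ℕ) : (jCl P κ).length ≤ P.a1 + P.a2 + 1 := by
  unfold jCl
  rw [length_rngC]
  omega

theorem mem_acells {κ : ℕ} {m : ℤ} {κ' : ℕ} {m' : ℤ} :
    (κ', m') ∈ acells P κ m ↔ κ' ∈ jCl P κ ∧ m' ∈ cellsIn P.r κ m κ' ∧ Meets P κ' m' := by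
  unfold acells Meets
  simp only [List.mem_flatMap, List.mem_map, List.mem_filter, Bool.and_eq_true, decide_eq_true_eq,
    Prod.mk.injEq]
  constructor
  · rintro ⟨a, ha, b, ⟨hb, hb'⟩, rfl, rfl⟩
    exact ⟨ha, hb, hb'⟩
  · rintro ⟨h1, h2, h3⟩
    exact ⟨κ', h1, m', ⟨h2, h3⟩, rfl, rfl⟩

theorem nodup_acells (κ : ℕ) (m : ℤ) : (acells P κ m).Nodup := by
  unfold acells
  refine nodup_flatMap_of (fun k : ℕ × ℤ => k.1) id (nodup_jCl P κ) (fun _ _ _ _ h => h)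
    (fun κ' _ => ?_) fun κ' _ k hk => ?_
  · exact List.Nodup.map (fun a b h => by simpa using h)
      (List.Nodup.filter _ (nodup_cellsIn _ _ _ _))
  · simp only [List.mem_map] at hk
    obtain ⟨m', _, rfl⟩ := hk
    rfl

/-- the table number of a requested cell -/
theorem acell_idxOf {c : Cel} {κ' : ℕ} {m' : ℤ} (h : (κ', m') ∈ acells P c.κ c.m) :
    (acells P c.κ c.m).idxOf (κ', m') < (acells P c.κ c.m).length ∧
      acell P c ((acells P c.κ c.m).idxOf (κ', m')) = ⟨c.i, c.j, κ', m'⟩ := by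
  have hlt := List.idxOf_lt_length_of_mem h
  refine ⟨hlt, ?_⟩
  unfold acell
  rw [List.getD_eq_getElem _ _ hlt, List.getElem_idxOf]

/-- the own cell is requested -/
theorem self_mem_cellsIn (r κ : ℕ) (m : ℤ) : m ∈ cellsIn r κ m κ := by
  have h2 := (two_pow_posZ κ).ne'
  rw [mem_cellsIn, Int.mul_ediv_cancel _ h2, Int.mul_ediv_cancel _ h2]
  omega

theorem self_mem_acells {κ : ℕ} {m : ℤ} (h : Meets P κ m) : (κ, m) ∈ acells P κ m :=
  (mem_acells P).2 ⟨(mem_jCl P).2 ⟨by omega, by omega⟩, self_mem_cellsIn _ _ _, h⟩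

/-- table `p0` of `arrOf` is the cell itself -/
theorem acell_p0 {c : Cel} (h : Meets P c.κ c.m) :
    (acells P c.κ c.m).idxOf (c.κ, c.m) < (acells P c.κ c.m).length ∧
    acell P c ((acells P c.κ c.m).idxOf (c.κ, c.m)) = c :=
  acell_idxOf P (self_mem_acells P h)

theorem acell_spec (c : Cel) {p : ℕ} (hp : p < (acells P c.κ c.m).length) :
    (acell P c p).i = c.i ∧ (acell P c p).j = c.j ∧ (acell P c p).κ ∈ jCl P c.κ ∧
      (acell P c p).m ∈ cellsIn P.r c.κ c.m (acell P c p).κ ∧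
      Meets P (acell P c p).κ (acell P c p).m := by
  have h : (acells P c.κ c.m)[p] ∈ acells P c.κ c.m := List.getElem_mem hp
  have h' := (mem_acells P (κ' := (acells P c.κ c.m)[p].1) (m' := (acells P c.κ c.m)[p].2)).1 h
  unfold acell
  rw [List.getD_eq_getElem _ _ hp]
  exact ⟨rfl, rfl, h'.1, h'.2.1, h'.2.2⟩

/-- an entry of a joint draw is a grid state of its cell -/
theorem cst_acell_inC {c : Cel} (hg : gst P (c.κ + P.a2) ∣ P.Dm) {p t : ℕ}
    (hp : p < (acells P c.κ c.m).length) (ht : t < csz P (acell P c p).κ) :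
    InC P (acell P c p) (cst P (acell P c p) t) := by
  obtain ⟨-, -, h3, -, h5⟩ := acell_spec P c hp
  exact cst_inC_of_meets P ((gst_dvd_gst P ((mem_jCl P).1 h3).2).trans hg) h5 ht

theorem mem_jcand {c : Cel} {Es : List (List (List ℕ))} {B : List (List ℕ)} {a : St × ℕ × ℕ} :
    a ∈ jcand P c Es B ↔ ∃ p < (acells P c.κ c.m).length, ∃ t < csz P (acell P c p).κ,
      (cst P (acell P c p) t, jest P Es p t, jent B p t) = a := by
  unfold jcand
  simp only [List.mem_flatMap, List.mem_map, List.mem_range]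

/-- every grid state of a requested cell is a candidate -/
theorem mem_jcand_of {c : Cel} (Es : List (List (List ℕ))) (B : List (List ℕ)) {κ' : ℕ} {m' : ℤ}
    (h : (κ', m') ∈ acells P c.κ c.m) {z : St} (hz : InC P ⟨c.i, c.j, κ', m'⟩ z) :
    (z, jest P Es ((acells P c.κ c.m).idxOf (κ', m')) (cidx P ⟨c.i, c.j, κ', m'⟩ z),
      jent B ((acells P c.κ c.m).idxOf (κ', m')) (cidx P ⟨c.i, c.j, κ', m'⟩ z)) ∈
        jcand P c Es B := by
  obtain ⟨h1, h2⟩ := acell_idxOf P h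
  refine (mem_jcand P).2 ⟨_, h1, cidx P ⟨c.i, c.j, κ', m'⟩ z, ?_, ?_⟩
  · rw [h2]; exact cidx_lt P hz
  · rw [h2, cst_cidx P hz]

theorem length_flatMap_le {α β : Type} (l : List α) (f : α → List β) {B : ℕ}
    (h : ∀ a ∈ l, (f a).length ≤ B) : (l.flatMap f).length ≤ l.length * B := by
  induction l with
  | nil => simp
  | cons a l ih =>
    rw [List.flatMap_cons, List.length_append, List.length_cons, Nat.add_mul, one_mul]
    have h1 := h a List.mem_cons_self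
    have h2 := ih fun b hb => h b (List.mem_cons_of_mem _ hb)
    omega

/-- number of requests of a window (`w` = bound for the active cells times the copies of a class) -/
theorem length_bkeys_le {κ : ℕ} {m : ℤ} {ρ : ℕ → ℕ → ℕ} {w : ℕ}
    (hw : ∀ κ' ∈ spCl P κ,
      (((2 * P.r + 1) * 2 ^ κ / 2 ^ κ' + 2) / modu P κ κ' + 1) * copies P κ κ' ≤ w) :
    (bkeys P κ m ρ).length ≤ P.N * ((P.dl + P.du + 1) * w) := by
  unfold bkeys
  refine (length_flatMap_le _ _ (B := (P.dl + P.du + 1) * w) fun q _ => ?_).trans (by simp)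
  refine (length_flatMap_le _ _ (B := w) fun κ' hκ' => ?_).trans
    (Nat.mul_le_mul_right _ (length_spCl_le P κ))
  refine (length_flatMap_le _ _ (B := copies P κ κ') fun m' _ => (by simp)).trans ?_
  refine (Nat.mul_le_mul_right _ (length_filter_cellsIn_le P.r κ m κ' (modu_pos P κ κ') _)).trans
    (hw κ' hκ')

/-- the bound of `length_bkeys_le` for the classes `κ - dl ≤ κ' ≤ κ + du` -/
theorem copies_bound {κ κ' : ℕ} (h1 : κ' ≤ κ + P.du) :
    (((2 * P.r + 1) * 2 ^ κ / 2 ^ κ' + 2) / modu P κ κ' + 1) * copies P κ κ' ≤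
      (2 * P.r + 4) * 2 ^ (P.c0 + P.du) := by
  unfold modu copies
  rcases Nat.le_total κ (P.c0 + κ') with h | h
  · have e0 : κ - (P.c0 + κ') = 0 := by omega
    rw [e0, pow_zero, Nat.div_one]
    have e2 : 2 ^ (P.c0 + κ' - κ) ≤ 2 ^ (P.c0 + P.du) := Nat.pow_le_pow_right (by norm_num) (by omega)
    rcases Nat.le_total κ' κ with h' | h'
    · have e3 : (2 * P.r + 1) * 2 ^ κ / 2 ^ κ' = (2 * P.r + 1) * 2 ^ (κ - κ') := by
        have : (2 : ℕ) ^ κ = 2 ^ (κ - κ') * 2 ^ κ' := by rw [← pow_add]; congr 1; omega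
        rw [this, ← mul_assoc, Nat.mul_div_cancel _ (by positivity)]
      rw [e3]
      have e4 : 2 ^ (κ - κ') * 2 ^ (P.c0 + κ' - κ) = 2 ^ P.c0 := by
        rw [← pow_add]; congr 1; omega
      have e5 : 2 ^ P.c0 ≤ 2 ^ (P.c0 + P.du) := Nat.pow_le_pow_right (by norm_num) (by omega)
      have e6 : 2 ^ (P.c0 + κ' - κ) ≤ 2 ^ P.c0 := Nat.pow_le_pow_right (by norm_num) (by omega)
      calc ((2 * P.r + 1) * 2 ^ (κ - κ') + 2 + 1) * 2 ^ (P.c0 + κ' - κ)
          = (2 * P.r + 1) * (2 ^ (κ - κ') * 2 ^ (P.c0 + κ' - κ)) + 3 * 2 ^ (P.c0 + κ' - κ) := by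
            ring
        _ ≤ (2 * P.r + 1) * 2 ^ (P.c0 + P.du) + 3 * 2 ^ (P.c0 + P.du) := by
            rw [e4]
            exact Nat.add_le_add (Nat.mul_le_mul_left _ e5) (Nat.mul_le_mul_left _ (e6.trans e5))
        _ = _ := by ring
    · have e3 : (2 * P.r + 1) * 2 ^ κ / 2 ^ κ' ≤ 2 * P.r + 1 := by
        refine Nat.div_le_of_le_mul ?_
        rw [mul_comm]
        exact Nat.mul_le_mul_right _ (Nat.pow_le_pow_right (by norm_num) h')
      refine Nat.mul_le_mul ?_ e2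
      omega
  · have e0 : P.c0 + κ' - κ = 0 := by omega
    rw [e0, pow_zero, mul_one]
    have e3 : (2 * P.r + 1) * 2 ^ κ / 2 ^ κ' = (2 * P.r + 1) * 2 ^ (κ - κ') := by
      have : (2 : ℕ) ^ κ = 2 ^ (κ - κ') * 2 ^ κ' := by rw [← pow_add]; congr 1; omega
      rw [this, ← mul_assoc, Nat.mul_div_cancel _ (by positivity)]
    rw [e3]
    have e4 : 2 ^ (κ - κ') = 2 ^ P.c0 * 2 ^ (κ - (P.c0 + κ')) := by rw [← pow_add]; congr 1; omega
    have e5 : ((2 * P.r + 1) * 2 ^ (κ - κ') + 2) / 2 ^ (κ - (P.c0 + κ')) ≤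
        (2 * P.r + 1) * 2 ^ P.c0 + 2 := by
      refine Nat.div_le_of_le_mul ?_
      rw [e4]
      have : 1 ≤ 2 ^ (κ - (P.c0 + κ')) := Nat.one_le_two_pow
      nlinarith
    have e6 : 2 ^ P.c0 ≤ 2 ^ (P.c0 + P.du) := Nat.pow_le_pow_right (by norm_num) (by omega)
    have e7 : 1 ≤ 2 ^ (P.c0 + P.du) := Nat.one_le_two_pow
    calc _ ≤ (2 * P.r + 1) * 2 ^ P.c0 + 2 + 1 := by omega
      _ ≤ (2 * P.r + 1) * 2 ^ (P.c0 + P.du) + 3 * 2 ^ (P.c0 + P.du) := by
          have := Nat.mul_le_mul_left (2 * P.r + 1) e6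
          omega
      _ = _ := by ring

/-- **number of requests of a window, any cell, any residues** -/
theorem length_bkeys (κ : ℕ) (m : ℤ) (ρ : ℕ → ℕ → ℕ) :
    (bkeys P κ m ρ).length ≤
      P.N * ((P.dl + P.du + 1) * ((2 * P.r + 4) * 2 ^ (P.c0 + P.du))) :=
  length_bkeys_le P fun _ h => copies_bound P ((mem_spCl P).1 h).2

/-- **number of cells of a jump** -/
theorem length_acells (κ : ℕ) (m : ℤ) :
    (acells P κ m).length ≤ (P.a1 + P.a2 + 1) * ((2 * P.r + 1) * 2 ^ P.a1 + 2) := by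
  unfold acells
  refine (length_flatMap_le _ _ (B := (2 * P.r + 1) * 2 ^ P.a1 + 2) fun κ' hκ' => ?_).trans
    (Nat.mul_le_mul_right _ (length_jCl_le P κ))
  rw [List.length_map]
  refine (List.length_filter_le _ _).trans ((length_cellsIn_le _ _ _ _).trans ?_)
  have h := ((mem_jCl P).1 hκ').1
  have : (2 * P.r + 1) * 2 ^ κ / 2 ^ κ' ≤ (2 * P.r + 1) * 2 ^ P.a1 := by
    refine Nat.div_le_of_le_mul ?_
    have : (2 : ℕ) ^ κ ≤ 2 ^ κ' * 2 ^ P.a1 := by
      rw [← pow_add]; exact Nat.pow_le_pow_right (by norm_num) (by omega)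
    nlinarith
  omega

/-- table sizes: `csz κ ≤ 18 * 4^pb` -/
theorem csz_le (κ : ℕ) : csz P κ ≤ 18 * 4 ^ P.pb := by
  unfold csz cu cv gpt
  have h1 : 2 ^ min κ P.pb ≤ 2 ^ P.pb := Nat.pow_le_pow_right (by norm_num) (min_le_right _ _)
  have h2 : (4 : ℕ) ^ P.pb = 2 ^ P.pb * 2 ^ P.pb := by
    rw [← mul_pow]; norm_num
  have h3 : 1 ≤ 2 ^ P.pb := Nat.one_le_two_pow
  rw [h2]
  calc 2 ^ min κ P.pb * (17 * 2 ^ min κ P.pb + 1) ≤ 2 ^ P.pb * (17 * 2 ^ P.pb + 1) :=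
        Nat.mul_le_mul h1 (by omega)
    _ ≤ _ := by nlinarith

end Crest.Agent.R288.Cel734
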