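import Mathlib
import Crest.Agent.R288.InitA_772

/-!
# Row 288, leaf [CH] of #4274 (helper974 v2): chaining of the rounds (abstract part)

Abstract macro tree: states `σ`, macro heights `h : ℕ`, pieces `ι` (finite), `St h x` = the staircases of a
state `x` of macro height `h + 1` (each staircase is a family of states of macro height `h`), `adj h x y` =
`x`, `y` are states of the same node (macro height `h`), `d` = distance of two states of a node.
Values are described by their Bellman properties (`IsVal`, `IsGame`, `IsConv`), so every construction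
(minimum over a finite grid, infimum over `ℤ`, ...) can be used.
-/

namespace Crest.Agent.R288.Ch2689

open Finset

universe u1 u2

variable {σ : ℕ → Type u1} {ι : ℕ → Type u2} [∀ h, Fintype (ι h)]

/-- macro tree with distances and transport of staircases -/
structure MT (σ : ℕ → Type u1) (ι : ℕ → Type u2) [∀ h, Fintype (ι h)] where
  St : ∀ h, σ (h + 1) → Set (ι h → σ h)
  adj : ∀ h, σ h → σ h → Prop
  d : ∀ h, σ h → σ h → ℝ
  adj_refl : ∀ h x, adj h x x
  adj_symm : ∀ h x y, adj h x y → adj h y x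
  adj_trans : ∀ h x y z, adj h x y → adj h y z → adj h x z
  d_self : ∀ h x, d h x x = 0
  d_nonneg : ∀ h x y, 0 ≤ d h x y
  d_symm : ∀ h x y, d h x y = d h y x
  d_tri : ∀ h x y z, d h x z ≤ d h x y + d h y z
  move : ∀ h x x' y', adj (h + 1) x x' → y' ∈ St h x' →
    ∃ y ∈ St h x, (∀ j, adj h (y j) (y' j)) ∧ ∑ j, d h (y j) (y' j) ≤ d (h + 1) x x'

variable (M : MT σ ι)

/-- `f` is a hard subsolution -/
def Sub (f : ∀ h, σ h → ℝ) : Prop :=
  ∀ h x, ∀ y ∈ M.St h x, f (h + 1) x ≤ ∑ j, f h (y j)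

/-- `f` is 1-Lipschitz on every node -/
def Lip (f : ∀ h, σ h → ℝ) : Prop :=
  ∀ h x y, M.adj h x y → f h x ≤ M.d _ x y + f h y

/-- `S` is the inf-convolution of `f` with the distance (greatest lower bound form) -/
structure IsConv (f S : ∀ h, σ h → ℝ) : Prop where
  le : ∀ h x y, M.adj h x y → S h x ≤ M.d _ x y + f h y
  glb : ∀ h x c, (∀ y, M.adj h x y → c ≤ M.d _ x y + f h y) → c ≤ S h x

/-- `V` is the value of the game with stop prices `S` and terminal values `P`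
(greatest lower bound form). -/
structure IsVal (S : ∀ h, σ h → ℝ) (P : σ 0 → ℝ) (V : ∀ h, σ h → ℝ) : Prop where
  zero : ∀ x, V 0 x = P x
  le_stop : ∀ h x, V (h + 1) x ≤ S (h + 1) x
  sub : Sub M V
  glb : ∀ h x c, c ≤ S (h + 1) x → (∀ y ∈ M.St h x, c ≤ ∑ j, V h (y j)) → c ≤ V (h + 1) x

/-- `G` is the value of the game without stopping -/
structure IsGame (P : σ 0 → ℝ) (G : ∀ h, σ h → ℝ) : Prop where
  zero : ∀ x, G 0 x = P x
  sub : Sub M G
  glb : ∀ h x c, (∀ y ∈ M.St h x, c ≤ ∑ j, G h (y j)) → c ≤ G (h + 1) x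

variable {M}

/-! ### inf-convolution -/

theorem IsConv.le_self {f S : ∀ h, σ h → ℝ} (H : IsConv M f S) (h : ℕ) (x : σ h) : S h x ≤ f h x := by
  have := H.le h x x (M.adj_refl h x)
  rwa [M.d_self, zero_add] at this

theorem IsConv.lip {f S : ∀ h, σ h → ℝ} (H : IsConv M f S) : Lip M S := by
  intro h x y hxy
  have : S h x - M.d _ x y ≤ S h y := by
    refine H.glb h y _ fun z hz => ?_
    have h1 := H.le h x z (M.adj_trans h x y z hxy hz)
    have h2 := M.d_tri _ x y z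
    linarith
  linarith

theorem IsConv.ge_of_lip {f S g : ∀ h, σ h → ℝ} (H : IsConv M f S) (hg : Lip M g)
    (hgf : ∀ h x, g h x ≤ f h x) (h : ℕ) (x : σ h) : g h x ≤ S h x := by
  refine H.glb h x _ fun y hy => ?_
  have h1 := hg h x y hy
  have h2 := hgf h y
  linarith

/-- a multiple `c ≤ 1` of a 1-Lipschitz function is 1-Lipschitz -/
theorem Lip.smul {g : ∀ h, σ h → ℝ} (hg : Lip M g) {c : ℝ} (h0 : 0 ≤ c) (h1 : c ≤ 1) :
    Lip M fun h x => c * g h x := by
  intro h x y hxy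
  have h2 := mul_le_mul_of_nonneg_left (hg h x y hxy) h0
  have h3 : c * M.d _ x y ≤ M.d _ x y := by nlinarith [M.d_nonneg _ x y]
  calc c * g h x ≤ c * (M.d _ x y + g h y) := h2
    _ = c * M.d _ x y + c * g h y := by ring
    _ ≤ M.d _ x y + c * g h y := by linarith

/-- existence of the inf-convolution of a nonnegative function -/
theorem exists_isConv {f : ∀ h, σ h → ℝ} (hf : ∀ h x, 0 ≤ f h x) : ∃ S, IsConv M f S := by
  refine ⟨fun h x => ⨅ y : {y // M.adj h x y}, (M.d _ x y + f h y), ⟨fun h x y hy => ?_, fun h x c hc => ?_⟩⟩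
  · refine ciInf_le (f := fun y : {y // M.adj h x y} => M.d _ x y + f h y) ?_ ⟨y, hy⟩
    refine ⟨0, ?_⟩
    rintro _ ⟨z, rfl⟩
    exact add_nonneg (M.d_nonneg _ _ _) (hf _ _)
  · have : Nonempty {y // M.adj h x y} := ⟨⟨x, M.adj_refl h x⟩⟩
    exact le_ciInf fun y => hc y.1 y.2

/-! ### values -/

/-- a subsolution below the stop prices and the terminal values is below the value -/
theorem IsVal.ge {S : ∀ h, σ h → ℝ} {P : σ 0 → ℝ} {V f : ∀ h, σ h → ℝ} (H : IsVal M S P V)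
    (hf : Sub M f) (h0 : ∀ x, f 0 x ≤ P x) (hS : ∀ h x, f (h + 1) x ≤ S (h + 1) x) :
    ∀ h x, f h x ≤ V h x := by
  intro h
  induction h with
  | zero => intro x; rw [H.zero]; exact h0 x
  | succ h ih =>
    intro x
    refine H.glb h x _ (hS h x) fun y hy => ?_
    exact (hf h x y hy).trans (Finset.sum_le_sum fun j _ => ih (y j))

theorem IsGame.ge {P : σ 0 → ℝ} {G f : ∀ h, σ h → ℝ} (H : IsGame M P G)
    (hf : Sub M f) (h0 : ∀ x, f 0 x ≤ P x) : ∀ h x, f h x ≤ G h x := by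
  intro h
  induction h with
  | zero => intro x; rw [H.zero]; exact h0 x
  | succ h ih =>
    intro x
    refine H.glb h x _ fun y hy => ?_
    exact (hf h x y hy).trans (Finset.sum_le_sum fun j _ => ih (y j))

theorem IsVal.le_game {S : ∀ h, σ h → ℝ} {P : σ 0 → ℝ} {V G : ∀ h, σ h → ℝ} (H : IsVal M S P V)
    (hG : IsGame M P G) : ∀ h x, V h x ≤ G h x :=
  hG.ge H.sub fun x => (H.zero x).le

theorem IsVal.le_S {S : ∀ h, σ h → ℝ} {P : σ 0 → ℝ} {V : ∀ h, σ h → ℝ} (H : IsVal M S P V)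
    (hP : ∀ x, P x ≤ S 0 x) : ∀ h x, V h x ≤ S h x
  | 0, x => by rw [H.zero]; exact hP x
  | h + 1, x => H.le_stop h x

/-- the value is 1-Lipschitz -/
theorem IsVal.lip {S : ∀ h, σ h → ℝ} {P : σ 0 → ℝ} {V : ∀ h, σ h → ℝ} (H : IsVal M S P V)
    (hS : Lip M S) (hP : ∀ x y, M.adj 0 x y → P x ≤ M.d _ x y + P y) : Lip M V := by
  intro h
  induction h with
  | zero => intro x y hxy; rw [H.zero, H.zero]; exact hP x y hxy
  | succ h ih =>
    intro x x' hxx
    have : V (h + 1) x - M.d _ x x' ≤ V (h + 1) x' := by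
      refine H.glb h x' _ ?_ fun y' hy' => ?_
      · have h1 := H.le_stop h x
        have h2 := hS (h + 1) x x' hxx
        linarith
      · obtain ⟨y, hy, ha, hd⟩ := M.move h x x' y' hxx hy'
        have h1 := H.sub h x y hy
        have h2 : ∑ j, V h (y j) ≤ ∑ j, (M.d _ (y j) (y' j) + V h (y' j)) :=
          Finset.sum_le_sum fun j _ => ih (y j) (y' j) (ha j)
        rw [Finset.sum_add_distrib] at h2
        linarith
    linarith

theorem IsGame.lip {P : σ 0 → ℝ} {G : ∀ h, σ h → ℝ} (H : IsGame M P G)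
    (hP : ∀ x y, M.adj 0 x y → P x ≤ M.d _ x y + P y) : Lip M G := by
  intro h
  induction h with
  | zero => intro x y hxy; rw [H.zero, H.zero]; exact hP x y hxy
  | succ h ih =>
    intro x x' hxx
    have : G (h + 1) x - M.d _ x x' ≤ G (h + 1) x' := by
      refine H.glb h x' _ fun y' hy' => ?_
      obtain ⟨y, hy, ha, hd⟩ := M.move h x x' y' hxx hy'
      have h1 := H.sub h x y hy
      have h2 : ∑ j, G h (y j) ≤ ∑ j, (M.d _ (y j) (y' j) + G h (y' j)) :=
        Finset.sum_le_sum fun j _ => ih (y j) (y' j) (ha j)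
      rw [Finset.sum_add_distrib] at h2
      linarith
    linarith

theorem Sub.smul {f : ∀ h, σ h → ℝ} (hf : Sub M f) {c : ℝ} (hc : 0 ≤ c) :
    Sub M fun h x => c * f h x := by
  intro h x y hy
  have := mul_le_mul_of_nonneg_left (hf h x y hy) hc
  rwa [Finset.mul_sum] at this

theorem Sub.max {f g : ∀ h, σ h → ℝ} (hf : Sub M f) (hg : Sub M g) :
    Sub M fun h x => max (f h x) (g h x) := by
  intro h x y hy
  refine max_le ((hf h x y hy).trans ?_) ((hg h x y hy).trans ?_)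
  · exact Finset.sum_le_sum fun j _ => le_max_left _ _
  · exact Finset.sum_le_sum fun j _ => le_max_right _ _

theorem Lip.max {f g : ∀ h, σ h → ℝ} (hf : Lip M f) (hg : Lip M g) :
    Lip M fun h x => Max.max (f h x) (g h x) := by
  intro h x y hxy
  refine max_le ((hf h x y hxy).trans ?_) ((hg h x y hxy).trans ?_)
  · have := le_max_left (f h y) (g h y); linarith
  · have := le_max_right (f h y) (g h y); linarith

/-- existence of the value (nonnegative data) -/
theorem exists_isVal (S : ∀ h, σ h → ℝ) (P : σ 0 → ℝ) (hS : ∀ h x, 0 ≤ S h x) (hP : ∀ x, 0 ≤ P x) :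
    ∃ V, IsVal M S P V ∧ ∀ h x, 0 ≤ V h x := by
  classical
  let V : ∀ h, σ h → ℝ := fun h => Nat.rec P
    (fun h Vh x => if (M.St h x).Nonempty then
      min (S (h + 1) x) (⨅ y : M.St h x, ∑ j, Vh (y.1 j)) else S (h + 1) x) h
  have hV0 : ∀ x, V 0 x = P x := fun x => rfl
  have hVs : ∀ h x, V (h + 1) x = if (M.St h x).Nonempty then
      min (S (h + 1) x) (⨅ y : M.St h x, ∑ j, V h (y.1 j)) else S (h + 1) x := fun h x => rfl
  have hnn : ∀ h x, 0 ≤ V h x := by
    intro h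
    induction h with
    | zero => intro x; rw [hV0]; exact hP x
    | succ h ih =>
      intro x
      rw [hVs]
      split_ifs with hne
      · refine le_min (hS _ _) ?_
        have : Nonempty (M.St h x) := hne.to_subtype
        exact le_ciInf fun y => Finset.sum_nonneg fun j _ => ih _
      · exact hS _ _
  have hbdd : ∀ h x, BddBelow (Set.range fun y : M.St h x => ∑ j, V h (y.1 j)) := by
    intro h x
    refine ⟨0, ?_⟩
    rintro _ ⟨y, rfl⟩
    exact Finset.sum_nonneg fun j _ => hnn _ _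
  refine ⟨V, ⟨hV0, fun h x => ?_, fun h x y hy => ?_, fun h x c hc hy => ?_⟩, hnn⟩
  · rw [hVs]; split_ifs with hne
    · exact min_le_left _ _
    · exact le_rfl
  · rw [hVs, if_pos ⟨y, hy⟩]
    exact (min_le_right _ _).trans (ciInf_le (hbdd h x) ⟨y, hy⟩)
  · rw [hVs]; split_ifs with hne
    · refine le_min hc ?_
      have : Nonempty (M.St h x) := hne.to_subtype
      exact le_ciInf fun y => hy y.1 y.2
    · exact hc

/-! ### one round -/

/-- data of one round: unknown unit `T`, known `Tt`, stop price `S`, game value `G`, value `V` -/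
structure Round (P : σ 0 → ℝ) (G T Tt S V : ∀ h, σ h → ℝ) : Prop where
  game : IsGame M P G
  lipP : ∀ x y, M.adj 0 x y → P x ≤ M.d _ x y + P y
  nonneg : ∀ h x, 0 ≤ T h x
  sub : Sub M T
  lip : Lip M T
  zero : ∀ x, T 0 x = P x
  le_Tt : ∀ h x, T h x ≤ Tt h x
  conv : IsConv M (fun h x => 3 * Tt h x) S
  val : IsVal M S P V

section round
variable {P : σ 0 → ℝ} {G T Tt S V : ∀ h, σ h → ℝ}

theorem Round.T_le_G (R : Round (M := M) P G T Tt S V) : ∀ h x, T h x ≤ G h x :=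
  R.game.ge R.sub fun x => (R.zero x).le

theorem Round.T_le_S (R : Round (M := M) P G T Tt S V) (h : ℕ) (x : σ h) : T h x ≤ S h x :=
  R.conv.ge_of_lip R.lip (fun h x => by
    have h1 := R.nonneg h x; have h2 := R.le_Tt h x; linarith) h x

theorem Round.S_le (R : Round (M := M) P G T Tt S V) (h : ℕ) (x : σ h) : S h x ≤ 3 * Tt h x :=
  R.conv.le_self h x

theorem Round.lip_S (R : Round (M := M) P G T Tt S V) : Lip M S := R.conv.lip

theorem Round.T_le_V (R : Round (M := M) P G T Tt S V) : ∀ h x, T h x ≤ V h x :=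
  R.val.ge R.sub (fun x => (R.zero x).le) fun h x => R.T_le_S (h + 1) x

theorem Round.V_nonneg (R : Round (M := M) P G T Tt S V) (h : ℕ) (x : σ h) : 0 ≤ V h x :=
  (R.nonneg h x).trans (R.T_le_V h x)

theorem Round.P_le_S (R : Round (M := M) P G T Tt S V) (x : σ 0) : P x ≤ S 0 x := by
  rw [← R.zero]; exact R.T_le_S 0 x

theorem Round.V_le_S (R : Round (M := M) P G T Tt S V) : ∀ h x, V h x ≤ S h x :=
  R.val.le_S R.P_le_S

theorem Round.V_le_G (R : Round (M := M) P G T Tt S V) : ∀ h x, V h x ≤ G h x :=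
  R.val.le_game R.game

theorem Round.lip_V (R : Round (M := M) P G T Tt S V) : Lip M V := R.val.lip R.lip_S R.lipP

theorem Round.lip_G (R : Round (M := M) P G T Tt S V) : Lip M G := R.game.lip R.lipP

theorem Round.sub_V (R : Round (M := M) P G T Tt S V) : Sub M V := R.val.sub

/-- the stop price is at least `c G` if `3 Tt ≥ c G`, `c ≤ 1` -/
theorem Round.S_ge (R : Round (M := M) P G T Tt S V) {c : ℝ} (h0 : 0 ≤ c) (h1 : c ≤ 1)
    (hc : ∀ h x, c * G h x ≤ 3 * Tt h x) (h : ℕ) (x : σ h) : c * G h x ≤ S h x :=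
  R.conv.ge_of_lip (g := fun h x => c * G h x) (R.lip_G.smul h0 h1) hc h x

/-- **the range of the next round**: `V ≥ c G` -/
theorem Round.V_ge (R : Round (M := M) P G T Tt S V) {c : ℝ} (h0 : 0 ≤ c) (h1 : c ≤ 1)
    (hc : ∀ h x, c * G h x ≤ 3 * Tt h x) : ∀ h x, c * G h x ≤ V h x := by
  refine R.val.ge (f := fun h x => c * G h x) (R.game.sub.smul h0) (fun x => ?_)
    fun h x => R.S_ge h0 h1 hc (h + 1) x
  have hG0 : 0 ≤ G 0 x := (R.nonneg 0 x).trans (R.T_le_G 0 x)
  show c * G 0 x ≤ P x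
  rw [← R.game.zero]
  nlinarith

/-- `G ≤ B T`, `3 ≤ B`: then `G ≤ (B/3) V` -/
theorem Round.range_next (R : Round (M := M) P G T Tt S V) {B : ℝ} (hB : 3 ≤ B)
    (hG : ∀ h x, G h x ≤ B * T h x) (h : ℕ) (x : σ h) : G h x ≤ B / 3 * V h x := by
  have hB0 : (0 : ℝ) < B := by linarith
  have key := R.V_ge (c := 3 / B) (by positivity) (by rw [div_le_one hB0]; exact hB)
    (fun h x => by
      have h1 := hG h x
      have h2 := R.le_Tt h x
      rw [div_mul_eq_mul_div, div_le_iff₀ hB0]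
      nlinarith) h x
  calc G h x = B / 3 * (3 / B * G h x) := by field_simp
    _ ≤ B / 3 * V h x := mul_le_mul_of_nonneg_left key (by positivity)

/-- `G ≤ 3 T`: then `V = G` (last round) -/
theorem Round.last (R : Round (M := M) P G T Tt S V) (hG : ∀ h x, G h x ≤ 3 * T h x)
    (h : ℕ) (x : σ h) : V h x = G h x := by
  refine le_antisymm (R.V_le_G h x) ?_
  have := R.V_ge (c := 1) zero_le_one le_rfl (fun h x => by
    have h1 := hG h x; have h2 := R.le_Tt h x; linarith) h x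
  linarith

/-- other lower bounds (for example `|v - u|`) are inherited -/
theorem Round.V_ge_tv (R : Round (M := M) P G T Tt S V) {t : ∀ h, σ h → ℝ}
    (ht : ∀ h x, t h x ≤ T h x) (h : ℕ) (x : σ h) : t h x ≤ V h x := (ht h x).trans (R.T_le_V h x)

end round

/-! ### the chain of rounds -/

/-- **[CH]**: `R` rounds; `T (r+1)` is the value of the round `r`, `Tt r` the (known) mean of the output of the
round before.  If `G ≤ 3^R T 0` then `T R = G`, and the invariants hold for every `r`. -/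
theorem chain {P : σ 0 → ℝ} {G : ∀ h, σ h → ℝ} (hG : IsGame M P G)
    (hP : ∀ x y, M.adj 0 x y → P x ≤ M.d _ x y + P y)
    (T Tt S : ℕ → ∀ h, σ h → ℝ) (R : ℕ)
    (h0n : ∀ h x, 0 ≤ T 0 h x) (h0s : Sub M (T 0)) (h0l : Lip M (T 0)) (h0z : ∀ x, T 0 0 x = P x)
    (h0B : ∀ h x, G h x ≤ 3 ^ R * T 0 h x)
    (hle : ∀ r < R, (∀ h x, 0 ≤ T r h x) → Sub M (T r) → Lip M (T r) → (∀ x, T r 0 x = P x) →
      ∀ h x, T r h x ≤ Tt r h x)
    (hconv : ∀ r < R, IsConv M (fun h x => 3 * Tt r h x) (S r))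
    (hval : ∀ r < R, IsVal M (S r) P (T (r + 1))) :
    (∀ r ≤ R, (∀ h x, 0 ≤ T r h x) ∧ Sub M (T r) ∧ Lip M (T r) ∧ (∀ x, T r 0 x = P x) ∧
      (∀ h x, T r h x ≤ G h x) ∧ (∀ h x, G h x ≤ 3 ^ (R - r) * T r h x)) ∧
    (∀ r < R, Round (M := M) P G (T r) (Tt r) (S r) (T (r + 1))) ∧
    (∀ h x, T R h x = G h x) := by
  have key : ∀ r ≤ R, (∀ h x, 0 ≤ T r h x) ∧ Sub M (T r) ∧ Lip M (T r) ∧ (∀ x, T r 0 x = P x) ∧
      (∀ h x, T r h x ≤ G h x) ∧ (∀ h x, G h x ≤ 3 ^ (R - r) * T r h x) := by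
    intro r
    induction r with
    | zero =>
      intro _
      exact ⟨h0n, h0s, h0l, h0z, hG.ge h0s fun x => (h0z x).le, h0B⟩
    | succ r ih =>
      intro hr
      obtain ⟨a1, a2, a3, a4, a5, a6⟩ := ih (by omega)
      have Rd : Round (M := M) P G (T r) (Tt r) (S r) (T (r + 1)) :=
        ⟨hG, hP, a1, a2, a3, a4, hle r (by omega) a1 a2 a3 a4, hconv r (by omega), hval r (by omega)⟩
      refine ⟨Rd.V_nonneg, Rd.sub_V, Rd.lip_V, Rd.val.zero, Rd.V_le_G, fun h x => ?_⟩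
      have hB : (3 : ℝ) ≤ 3 ^ (R - r) := by
        have : (3 : ℝ) ^ 1 ≤ 3 ^ (R - r) := pow_le_pow_right₀ (by norm_num) (by omega)
        simpa using this
      have := Rd.range_next hB a6 h x
      have e : (3 : ℝ) ^ (R - r) / 3 = 3 ^ (R - (r + 1)) := by
        have : R - r = (R - (r + 1)) + 1 := by omega
        rw [this, pow_succ]; ring
      rwa [e] at this
  refine ⟨key, fun r hr => ?_, fun h x => ?_⟩
  · obtain ⟨a1, a2, a3, a4, a5, a6⟩ := key r hr.le
    exact ⟨hG, hP, a1, a2, a3, a4, hle r hr a1 a2 a3 a4, hconv r hr, hval r hr⟩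
  · obtain ⟨a1, a2, a3, a4, a5, a6⟩ := key R le_rfl
    refine le_antisymm (a5 h x) ?_
    have := a6 h x
    simpa using this

/-- existence of all the rounds for a given rule `out r T` producing `Tt r` from the exact `T r` -/
theorem exists_chain {P : σ 0 → ℝ} (hP0 : ∀ x, 0 ≤ P x) (T0 : ∀ h, σ h → ℝ) (h0n : ∀ h x, 0 ≤ T0 h x)
    (out : ℕ → (∀ h, σ h → ℝ) → ∀ h, σ h → ℝ) (hout : ∀ r T, (∀ h x, 0 ≤ T h x) → ∀ h x, 0 ≤ out r T h x) :
    ∃ T S : ℕ → ∀ h, σ h → ℝ, T 0 = T0 ∧ (∀ r h x, 0 ≤ T r h x) ∧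
      (∀ r, IsConv M (fun h x => 3 * out r (T r) h x) (S r)) ∧ ∀ r, IsVal M (S r) P (T (r + 1)) := by
  classical
  have step : ∀ r, ∀ T : {T : ∀ h, σ h → ℝ // ∀ h x, 0 ≤ T h x},
      ∃ SV : (∀ h, σ h → ℝ) × {V : ∀ h, σ h → ℝ // ∀ h x, 0 ≤ V h x},
        IsConv M (fun h x => 3 * out r T.1 h x) SV.1 ∧ IsVal M SV.1 P SV.2.1 := by
    intro r T
    have hn : ∀ h x, 0 ≤ 3 * out r T.1 h x := fun h x =>
      mul_nonneg (by norm_num) (hout r T.1 T.2 h x)
    obtain ⟨S, hS⟩ := exists_isConv (M := M) hn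
    have hS0 : ∀ h x, 0 ≤ S h x := fun h x => hS.glb h x 0 fun y _ =>
      add_nonneg (M.d_nonneg _ _ _) (hn _ _)
    obtain ⟨V, hV, hV0⟩ := exists_isVal (M := M) S P hS0 hP0
    exact ⟨⟨S, ⟨V, hV0⟩⟩, hS, hV⟩
  choose f hf1 hf2 using step
  let TT : ℕ → {T : ∀ h, σ h → ℝ // ∀ h x, 0 ≤ T h x} := fun r => Nat.rec ⟨T0, h0n⟩ (fun r T => (f r T).2) r
  exact ⟨fun r => (TT r).1, fun r => (f r (TT r)).1, rfl, fun r => (TT r).2,
    fun r => hf1 r (TT r), fun r => hf2 r (TT r)⟩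


/-! ### blocks: macro splits from binary splits -/

section blocks

/-- binary block functions: `f b j u v`, `Ad b c u` = the diagonal `u` is admissible at the cut `c 2^b` -/
structure Bin (Ad : ℕ → ℕ → ℤ → Prop) (f : ℕ → ℕ → ℤ → ℤ → ℝ) : Prop where
  ad : ∀ b c u, Ad (b + 1) c u ↔ Ad b (2 * c) u
  le : ∀ b j u w v, Ad b (2 * j) u → Ad b (2 * j + 1) w → Ad b (2 * j + 2) v →
    f (b + 1) j u v ≤ f b (2 * j) u w + f b (2 * j + 1) w v

/-- the splits are attained -/
structure BinEq (Ad : ℕ → ℕ → ℤ → Prop) (f : ℕ → ℕ → ℤ → ℤ → ℝ) : Prop extends Bin Ad f where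
  ex : ∀ b j u v, Ad b (2 * j) u → Ad b (2 * j + 2) v → ∃ w, Ad b (2 * j + 1) w ∧
    f (b + 1) j u v = f b (2 * j) u w + f b (2 * j + 1) w v

variable {Ad : ℕ → ℕ → ℤ → Prop} {f : ℕ → ℕ → ℤ → ℤ → ℝ}

theorem ad_add (had : ∀ b c u, Ad (b + 1) c u ↔ Ad b (2 * c) u) (n : ℕ) :
    ∀ b c u, Ad (b + n) c u ↔ Ad b (2 ^ n * c) u := by
  induction n with
  | zero => intro b c u; simp
  | succ n ih =>
    intro b c u
    rw [← add_assoc, had, ih, pow_succ, mul_assoc]

theorem Bin.split_le (H : Bin Ad f) (n : ℕ) : ∀ (b j : ℕ) (m : ℕ → ℤ),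
    (∀ i ≤ 2 ^ n, Ad b (2 ^ n * j + i) (m i)) →
    f (b + n) j (m 0) (m (2 ^ n)) ≤ ∑ i ∈ range (2 ^ n), f b (2 ^ n * j + i) (m i) (m (i + 1)) := by
  induction n with
  | zero => intro b j m _; simp
  | succ n ih =>
    intro b j m hm
    have e2 : 2 ^ (n + 1) = 2 ^ n + 2 ^ n := by rw [pow_succ]; ring
    have h0 : Ad (b + n) (2 * j) (m 0) := by
      rw [ad_add H.ad]
      have := hm 0 (Nat.zero_le _)
      rwa [add_zero, pow_succ, mul_assoc] at this
    have h1 : Ad (b + n) (2 * j + 1) (m (2 ^ n)) := by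
      rw [ad_add H.ad]
      have := hm (2 ^ n) (by rw [e2]; exact Nat.le_add_right _ _)
      rwa [pow_succ, mul_assoc, ← Nat.mul_succ] at this
    have h2 : Ad (b + n) (2 * j + 2) (m (2 ^ (n + 1))) := by
      rw [ad_add H.ad]
      have := hm (2 ^ (n + 1)) le_rfl
      have e : 2 ^ (n + 1) * j + 2 ^ (n + 1) = 2 ^ n * (2 * j + 2) := by rw [pow_succ]; ring
      rwa [e] at this
    have key := H.le (b + n) j (m 0) (m (2 ^ n)) (m (2 ^ (n + 1))) h0 h1 h2
    rw [← add_assoc]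
    refine key.trans ?_
    have a1 := ih b (2 * j) m fun i hi => by
      have := hm i (hi.trans (by rw [e2]; exact Nat.le_add_right _ _))
      rwa [pow_succ, mul_assoc] at this
    have a2 := ih b (2 * j + 1) (fun i => m (2 ^ n + i)) fun i hi => by
      have := hm (2 ^ n + i) (by rw [e2]; omega)
      have e : 2 ^ (n + 1) * j + (2 ^ n + i) = 2 ^ n * (2 * j + 1) + i := by rw [pow_succ]; ring
      rwa [e] at this
    rw [e2, Finset.sum_range_add]
    simp only [add_zero] at a2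
    refine add_le_add (a1.trans (le_of_eq ?_)) (a2.trans (le_of_eq ?_))
    · refine Finset.sum_congr rfl fun i _ => ?_
      have e : 2 ^ n * (2 * j) + i = (2 ^ n + 2 ^ n) * j + i := by ring
      rw [e]
    · refine Finset.sum_congr rfl fun i _ => ?_
      have e : 2 ^ n * (2 * j + 1) + i = (2 ^ n + 2 ^ n) * j + (2 ^ n + i) := by ring
      rw [e, add_assoc]

theorem BinEq.exists_split (H : BinEq Ad f) (n : ℕ) : ∀ (b j : ℕ) (u v : ℤ),
    Ad b (2 ^ n * j) u → Ad b (2 ^ n * (j + 1)) v →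
    ∃ m : ℕ → ℤ, m 0 = u ∧ m (2 ^ n) = v ∧ (∀ i ≤ 2 ^ n, Ad b (2 ^ n * j + i) (m i)) ∧
      f (b + n) j u v = ∑ i ∈ range (2 ^ n), f b (2 ^ n * j + i) (m i) (m (i + 1)) := by
  induction n with
  | zero =>
    intro b j u v hu hv
    refine ⟨fun i => if i = 0 then u else v, by simp, by simp, fun i hi => ?_, by simp⟩
    have : i = 0 ∨ i = 1 := by
      have : i ≤ 1 := by simpa using hi
      omega
    rcases this with rfl | rfl
    · simpa using hu
    · simpa using hv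
  | succ n ih =>
    intro b j u v hu hv
    have e2 : 2 ^ (n + 1) = 2 ^ n + 2 ^ n := by rw [pow_succ]; ring
    have hu' : Ad (b + n) (2 * j) u := by
      rw [ad_add H.ad]; rwa [pow_succ, mul_assoc] at hu
    have hv' : Ad (b + n) (2 * j + 2) v := by
      rw [ad_add H.ad]
      have e : 2 ^ (n + 1) * (j + 1) = 2 ^ n * (2 * j + 2) := by rw [pow_succ]; ring
      rwa [e] at hv
    obtain ⟨w, hw, he⟩ := H.ex (b + n) j u v hu' hv'
    rw [ad_add H.ad] at hu' hw hv'
    obtain ⟨m1, a1, a2, a3, a4⟩ := ih b (2 * j) u w hu' (by simpa [Nat.mul_succ] using hw)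
    obtain ⟨m2, b1, b2, b3, b4⟩ := ih b (2 * j + 1) w v hw (by simpa [Nat.mul_succ] using hv')
    refine ⟨fun i => if i ≤ 2 ^ n then m1 i else m2 (i - 2 ^ n), ?_, ?_, fun i hi => ?_, ?_⟩
    · simp [a1]
    · have : ¬ (2 ^ (n + 1) ≤ 2 ^ n) := by
        rw [e2]; have := Nat.pos_of_ne_zero (pow_ne_zero n (two_ne_zero (α := ℕ))); omega
      dsimp only
      rw [if_neg this, e2, Nat.add_sub_cancel, b2]
    · dsimp only
      split_ifs with h
      · have := a3 i h
        have e : 2 ^ n * (2 * j) + i = 2 ^ (n + 1) * j + i := by rw [pow_succ]; ring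
        rwa [e] at this
      · have := b3 (i - 2 ^ n) (by omega)
        have e : 2 ^ n * (2 * j + 1) + (i - 2 ^ n) = 2 ^ (n + 1) * j + i := by
          rw [pow_succ]
          have : 2 ^ n * (2 * j + 1) + (i - 2 ^ n) = 2 ^ n * 2 * j + (2 ^ n + (i - 2 ^ n)) := by ring
          rw [this]; congr 1; omega
        rwa [e] at this
    · rw [← add_assoc, he, a4, b4, e2, Finset.sum_range_add]
      congr 1
      · refine Finset.sum_congr rfl fun i hi => ?_
        have hi' := Finset.mem_range.1 hi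
        have e : 2 ^ n * (2 * j) + i = (2 ^ n + 2 ^ n) * j + i := by ring
        dsimp only
        rw [e, if_pos hi'.le, if_pos (by omega)]
      · refine Finset.sum_congr rfl fun i hi => ?_
        have e : 2 ^ n * (2 * j + 1) + i = (2 ^ n + 2 ^ n) * j + (2 ^ n + i) := by ring
        rw [e]
        have h2 : ¬ (2 ^ n + i + 1 ≤ 2 ^ n) := by omega
        dsimp only
        rw [if_neg h2]
        have e4 : 2 ^ n + i + 1 - 2 ^ n = i + 1 := by omega
        rw [e4]
        rcases Nat.eq_zero_or_pos i with rfl | hi0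
        · rw [add_zero, if_pos le_rfl, a2, b1]
        · rw [if_neg (by omega)]
          have e3 : 2 ^ n + i - 2 ^ n = i := by omega
          rw [e3]

end blocks

/-! ### the concrete macro tree: states `(j, u, v)` with admissible diagonals, windows of `n k` levels -/

section conc

variable (Ad : ℕ → ℕ → ℤ → Prop) (r : ℕ) (n : ℕ → ℕ) (Bm : ℕ)

/-- binary height of the macro height `k` -/
def bh (k : ℕ) : ℕ := r + ∑ i ∈ range k, n i

theorem bh_zero : bh r n 0 = r := by simp [bh]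

theorem bh_succ (k : ℕ) : bh r n (k + 1) = bh r n k + n k := by
  unfold bh; rw [Finset.sum_range_succ, add_assoc]

/-- states of macro height `k` (binary height at most `Bm`) -/
def CS (k : ℕ) : Type :=
  {p : ℕ × ℤ × ℤ // Ad (bh r n k) p.1 p.2.1 ∧ Ad (bh r n k) (p.1 + 1) p.2.2 ∧ bh r n k ≤ Bm}

variable {Ad r n Bm}

/-- node, left and right diagonal -/
def CS.j {k : ℕ} (x : CS Ad r n Bm k) : ℕ := x.1.1
def CS.u {k : ℕ} (x : CS Ad r n Bm k) : ℤ := x.1.2.1
def CS.v {k : ℕ} (x : CS Ad r n Bm k) : ℤ := x.1.2.2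

theorem CS.hu {k : ℕ} (x : CS Ad r n Bm k) : Ad (bh r n k) x.j x.u := x.2.1
theorem CS.hv {k : ℕ} (x : CS Ad r n Bm k) : Ad (bh r n k) (x.j + 1) x.v := x.2.2.1
theorem CS.hB {k : ℕ} (x : CS Ad r n Bm k) : bh r n k ≤ Bm := x.2.2.2

/-- `y` is the family of the pieces of the staircase `m` of `x` -/
def IsSt {k : ℕ} (x : CS Ad r n Bm (k + 1)) (m : ℕ → ℤ) (y : Fin (2 ^ n k) → CS Ad r n Bm k) : Prop :=
  m 0 = x.u ∧ m (2 ^ n k) = x.v ∧
    ∀ i, (y i).j = 2 ^ n k * x.j + i ∧ (y i).u = m i ∧ (y i).v = m (i + 1)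

/-- block functions as functions of the states -/
def lift (f : ℕ → ℕ → ℤ → ℤ → ℝ) : ∀ k, CS Ad r n Bm k → ℝ := fun k x => f (bh r n k) x.j x.u x.v

theorem sum_lift (f : ℕ → ℕ → ℤ → ℤ → ℝ) {k : ℕ} {x : CS Ad r n Bm (k + 1)} {m : ℕ → ℤ}
    {y : Fin (2 ^ n k) → CS Ad r n Bm k} (h : IsSt x m y) :
    ∑ i, lift f k (y i) =
      ∑ i ∈ range (2 ^ n k), f (bh r n k) (2 ^ n k * x.j + i) (m i) (m (i + 1)) := by
  rw [Finset.sum_range]
  refine Finset.sum_congr rfl fun i _ => ?_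
  obtain ⟨h1, h2, h3⟩ := h.2.2 i
  unfold lift
  rw [h1, h2, h3]

/-- a staircase with admissible cuts has pieces -/
theorem exists_pieces {k : ℕ}
    (x : CS Ad r n Bm (k + 1)) (m : ℕ → ℤ) (h0 : m 0 = x.u) (h1 : m (2 ^ n k) = x.v)
    (hm : ∀ i ≤ 2 ^ n k, Ad (bh r n k) (2 ^ n k * x.j + i) (m i)) :
    ∃ y : Fin (2 ^ n k) → CS Ad r n Bm k, IsSt x m y := by
  refine ⟨fun i => ⟨(2 ^ n k * x.j + i, m i, m (i + 1)), hm i i.2.le, ?_, ?_⟩, h0, h1,
    fun i => ⟨rfl, rfl, rfl⟩⟩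
  · have := hm (i + 1) i.2
    rwa [← add_assoc] at this
  · have := x.hB
    rw [bh_succ] at this
    omega

theorem IsSt.adm {k : ℕ} {x : CS Ad r n Bm (k + 1)} {m : ℕ → ℤ} {y : Fin (2 ^ n k) → CS Ad r n Bm k}
    (had : ∀ b c u, Ad (b + 1) c u ↔ Ad b (2 * c) u) (h : IsSt x m y) :
    ∀ i ≤ 2 ^ n k, Ad (bh r n k) (2 ^ n k * x.j + i) (m i) := by
  intro i hi
  rcases Nat.lt_or_ge i (2 ^ n k) with h1 | h1
  · obtain ⟨a, b, _⟩ := h.2.2 ⟨i, h1⟩
    have := (y ⟨i, h1⟩).hu
    rw [a, b] at this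
    exact this
  · have e : i = 2 ^ n k := le_antisymm hi h1
    subst e
    rw [h.2.1]
    have := x.hv
    rw [bh_succ, ad_add had, Nat.mul_succ] at this
    exact this

variable (Ad r n Bm)

/-- the concrete macro tree -/
noncomputable def CT (had : ∀ b c u, Ad (b + 1) c u ↔ Ad b (2 * c) u) :
    MT (CS Ad r n Bm) (fun k => Fin (2 ^ n k)) where
  St k x := {y | ∃ m, IsSt x m y}
  adj k x y := x.j = y.j
  d k x y := |((x.u - y.u : ℤ) : ℝ)| + |((x.v - y.v : ℤ) : ℝ)|
  adj_refl _ _ := rfl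
  adj_symm _ _ _ h := h.symm
  adj_trans _ _ _ _ h h' := h.trans h'
  d_self _ _ := by simp
  d_nonneg _ _ _ := by positivity
  d_symm _ x y := by
    rw [← abs_neg, ← abs_neg (((x.v - y.v : ℤ) : ℝ))]
    push_cast
    ring_nf
  d_tri _ x y z := by
    have h1 : |((x.u - z.u : ℤ) : ℝ)| ≤ |((x.u - y.u : ℤ) : ℝ)| + |((y.u - z.u : ℤ) : ℝ)| := by
      push_cast; exact abs_sub_le _ _ _
    have h2 : |((x.v - z.v : ℤ) : ℝ)| ≤ |((x.v - y.v : ℤ) : ℝ)| + |((y.v - z.v : ℤ) : ℝ)| := by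
      push_cast; exact abs_sub_le _ _ _
    linarith
  move := by
    rintro k x x' y' hxx ⟨m, hm⟩
    have hxx' : x.j = x'.j := hxx
    have hNpos : 0 < 2 ^ n k := Nat.pos_of_ne_zero (pow_ne_zero _ two_ne_zero)
    let m' : ℕ → ℤ := fun i => if i = 0 then x.u else if i = 2 ^ n k then x.v else m i
    have hadm := hm.adm had
    obtain ⟨y, hy⟩ := exists_pieces x m' (by simp [m'])
      (by simp [m']) (by
        intro i hi
        simp only [m']
        split_ifs with h1 h2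
        · subst h1
          have := x.hu
          rw [bh_succ, ad_add had] at this
          simpa using this
        · subst h2
          have := x.hv
          rw [bh_succ, ad_add had, Nat.mul_succ] at this
          exact this
        · rw [hxx']; exact hadm i hi)
    refine ⟨y, ⟨m', hy⟩, fun i => ?_, ?_⟩
    · show (y i).j = (y' i).j
      rw [(hy.2.2 i).1, (hm.2.2 i).1, hxx']
    · have e : ∀ i : Fin (2 ^ n k), |(((y i).u - (y' i).u : ℤ) : ℝ)| + |(((y i).v - (y' i).v : ℤ) : ℝ)| =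
          (if (i : ℕ) = 0 then |((x.u - x'.u : ℤ) : ℝ)| else 0) +
          (if (i : ℕ) + 1 = 2 ^ n k then |((x.v - x'.v : ℤ) : ℝ)| else 0) := by
        intro i
        rw [(hy.2.2 i).2.1, (hy.2.2 i).2.2, (hm.2.2 i).2.1, (hm.2.2 i).2.2]
        have hi := i.2
        have e1 : m' i - m i = if (i : ℕ) = 0 then x.u - x'.u else 0 := by
          simp only [m']
          split_ifs with h1 h2
          · rw [h1, hm.1]
          · omega
          · ring
        have e2 : m' (i + 1) - m (i + 1) = if (i : ℕ) + 1 = 2 ^ n k then x.v - x'.v else 0 := by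
          simp only [m']
          rw [if_neg (Nat.succ_ne_zero _)]
          split_ifs with h2
          · rw [h2, ← hm.2.1]
          · ring
        rw [e1, e2]
        split_ifs <;> simp
      show ∑ i : Fin (2 ^ n k), (|(((y i).u - (y' i).u : ℤ) : ℝ)| + |(((y i).v - (y' i).v : ℤ) : ℝ)|) ≤
        |((x.u - x'.u : ℤ) : ℝ)| + |((x.v - x'.v : ℤ) : ℝ)|
      rw [Finset.sum_congr rfl fun i _ => e i, Finset.sum_add_distrib]
      refine add_le_add ?_ ?_
      · rw [Finset.sum_eq_single (⟨0, hNpos⟩ : Fin (2 ^ n k))]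
        · simp
        · intro i _ hi
          rw [if_neg]
          intro h; exact hi (Fin.ext h)
        · intro h; exact absurd (Finset.mem_univ _) h
      · rw [Finset.sum_eq_single (⟨2 ^ n k - 1, by omega⟩ : Fin (2 ^ n k))]
        · rw [if_pos (by show 2 ^ n k - 1 + 1 = 2 ^ n k; omega)]
        · intro i _ hi
          rw [if_neg]
          intro h; exact hi (Fin.ext (by show (i : ℕ) = 2 ^ n k - 1; omega))
        · intro h; exact absurd (Finset.mem_univ _) h

variable {Ad r n Bm}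

theorem Bin.sub {f : ℕ → ℕ → ℤ → ℤ → ℝ} (H : Bin Ad f) : Sub (CT Ad r n Bm H.ad) (lift f) := by
  rintro k x y ⟨m, hm⟩
  rw [sum_lift f hm]
  have := H.split_le (n k) (bh r n k) x.j m (hm.adm H.ad)
  rw [hm.1, hm.2.1, ← bh_succ] at this
  exact this

theorem BinEq.game {f : ℕ → ℕ → ℤ → ℤ → ℝ} (H : BinEq Ad f) :
    IsGame (CT Ad r n Bm H.ad) (lift f 0) (lift f) := by
  refine ⟨fun x => rfl, H.toBin.sub, fun k x c hc => ?_⟩
  have hu := x.hu
  have hv := x.hv
  rw [bh_succ, ad_add H.ad] at hu hv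
  obtain ⟨m, h0, h1, h2, h3⟩ := H.exists_split (n k) (bh r n k) x.j x.u x.v hu hv
  obtain ⟨y, hy⟩ := exists_pieces x m h0 h1 h2
  have := hc y ⟨m, hy⟩
  rw [sum_lift f hy, ← h3, ← bh_succ] at this
  exact this

theorem lip_lift {f : ℕ → ℕ → ℤ → ℤ → ℝ} (had : ∀ b c u, Ad (b + 1) c u ↔ Ad b (2 * c) u)
    (hf : ∀ b j u v u' v', f b j u v ≤ f b j u' v' + |((u - u' : ℤ) : ℝ)| + |((v - v' : ℤ) : ℝ)|) :
    Lip (CT Ad r n Bm had) (lift f) := by
  intro k x y hxy
  have hxy' : x.j = y.j := hxy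
  have := hf (bh r n k) x.j x.u x.v y.u y.v
  show f (bh r n k) x.j x.u x.v ≤
    (|((x.u - y.u : ℤ) : ℝ)| + |((x.v - y.v : ℤ) : ℝ)|) + f (bh r n k) y.j y.u y.v
  rw [← hxy']
  linarith

end conc


/-! ### leaves reset to the exact terminal values -/

/-- reset the terminal values -/
noncomputable def raise (P : σ 0 → ℝ) (f : ∀ h, σ h → ℝ) : ∀ h, σ h → ℝ
  | 0, x => P x
  | h + 1, x => f (h + 1) x

theorem raise_zero (P : σ 0 → ℝ) (f : ∀ h, σ h → ℝ) (x : σ 0) : raise P f 0 x = P x := rfl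

theorem raise_succ (P : σ 0 → ℝ) (f : ∀ h, σ h → ℝ) (h : ℕ) (x : σ (h + 1)) :
    raise P f (h + 1) x = f (h + 1) x := rfl

theorem Sub.raise {P : σ 0 → ℝ} {f : ∀ h, σ h → ℝ} (hf : Sub M f) (h0 : ∀ x, f 0 x ≤ P x) :
    Sub M (raise P f) := by
  intro h x y hy
  cases h with
  | zero => exact (hf 0 x y hy).trans (Finset.sum_le_sum fun j _ => h0 (y j))
  | succ h => exact hf (h + 1) x y hy

theorem Lip.raise {P : σ 0 → ℝ} {f : ∀ h, σ h → ℝ} (hf : Lip M f)
    (hP : ∀ x y, M.adj 0 x y → P x ≤ M.d _ x y + P y) : Lip M (raise P f) := by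
  intro h x y hxy
  cases h with
  | zero => exact hP x y hxy
  | succ h => exact hf (h + 1) x y hxy

/-! ### edit distance -/

section ed

open Crest.GraphRAM Crest.Agent.R288.Ed Crest.Agent.R288.NodeA785 Crest.Agent.R288.GameA347 Crest.Agent.R288.Init772

variable (x y : List ℕ)

/-- admissible diagonals at the cut `c 2^b` -/
def AdE (b c : ℕ) (u : ℤ) : Prop := Adm y.length (lo x.length b c) u

theorem adE_succ (b c : ℕ) (u : ℤ) : AdE x y (b + 1) c u ↔ AdE x y b (2 * c) u := by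
  unfold AdE; rw [lo_succ]

/-- the cost as a real block function -/
def gR (b j : ℕ) (u v : ℤ) : ℝ := gn x y b j u v

theorem gR_bin : BinEq (AdE x y) (gR x y) where
  ad := adE_succ x y
  le b j u w v _ _ _ := by
    unfold gR; exact_mod_cast gn_split_le x y b j u v w
  ex b j u v _ _ := by
    obtain ⟨w, hw, he⟩ := exists_gn_split x y b j u v
    exact ⟨w, hw, by unfold gR; exact_mod_cast he⟩

theorem gR_lip (b j : ℕ) (u v u' v' : ℤ) :
    gR x y b j u v ≤ gR x y b j u' v' + |((u - u' : ℤ) : ℝ)| + |((v - v' : ℤ) : ℝ)| := by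
  unfold gR
  have := gn_lip x y b j u u' v v'
  have h : (gn x y b j u v : ℝ) ≤
      ((gn x y b j u' v' + (u - u').natAbs + (v - v').natAbs : ℕ) : ℝ) := by exact_mod_cast this
  push_cast [Nat.cast_natAbs] at h ⊢
  exact h

theorem gR_nonneg (b j : ℕ) (u v : ℤ) : 0 ≤ gR x y b j u v := by unfold gR; positivity

/-- 772's start promise, `0` above the height `4 L` -/
noncomputable def tR (g L : ℕ) (b j : ℕ) (u v : ℤ) : ℝ :=
  if b + 1 ≤ 4 * L then T0 x y g L b j u v else 0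

variable {g L : ℕ}

theorem tR_nonneg (b j : ℕ) (u v : ℤ) : 0 ≤ tR x y g L b j u v := by
  unfold tR; split_ifs with h
  · exact T0_nonneg x y h j u v
  · exact le_rfl

theorem tR_bin (hg : 1 ≤ g) : Bin (AdE x y) (tR x y g L) where
  ad := adE_succ x y
  le b j u w v _ _ _ := by
    have n1 := tR_nonneg x y (g := g) (L := L) b (2 * j) u w
    have n2 := tR_nonneg x y (g := g) (L := L) b (2 * j + 1) w v
    by_cases h : b + 1 + 1 ≤ 4 * L
    · unfold tR
      rw [if_pos h, if_pos (by omega), if_pos (by omega)]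
      exact T0_split x y hg (by omega) j u w v
    · have : tR x y g L (b + 1) j u v = 0 := by unfold tR; rw [if_neg h]
      rw [this]; linarith

theorem tR_lip (hg : 1 ≤ g) (b j : ℕ) (u v u' v' : ℤ) :
    tR x y g L b j u v ≤ tR x y g L b j u' v' + |((u - u' : ℤ) : ℝ)| + |((v - v' : ℤ) : ℝ)| := by
  unfold tR; split_ifs with h
  · have h1 := T0_lip_left x y hg h j u u' v
    have h2 := T0_lip_right x y (g := g) h j u' v v'
    linarith
  · positivity

theorem tR_le_gR (hg : 1 ≤ g) (b j : ℕ) (u v : ℤ) (hu : AdE x y b j u) (hv : AdE x y b (j + 1) v) :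
    tR x y g L b j u v ≤ gR x y b j u v := by
  unfold tR; split_ifs with h
  · exact T0_le_gn x y hg h j u v hu hv
  · exact gR_nonneg x y b j u v

theorem gR_le_tR {b : ℕ} (hb : b + 1 ≤ 2 * L) (j : ℕ) (u v : ℤ) :
    gR x y b j u v ≤ 8 * 2 ^ g * L * tR x y g L b j u v := by
  unfold tR gR
  rw [if_pos (by omega)]
  exact gn_le_T0 x y hb j u v

variable (r : ℕ) (n : ℕ → ℕ) (Bm : ℕ)

/-- the concrete macro tree of `(x, y)`: leaf blocks of binary height `r`, windows of `n k` levels -/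
noncomputable abbrev ET : MT (CS (AdE x y) r n Bm) (fun k => Fin (2 ^ n k)) :=
  CT (AdE x y) r n Bm (adE_succ x y)

/-- the cost of the states -/
noncomputable def GE : ∀ k, CS (AdE x y) r n Bm k → ℝ := lift (gR x y)

/-- the start promise: 772's `T0`, exact at the leaves -/
noncomputable def TE (g L : ℕ) : ∀ k, CS (AdE x y) r n Bm k → ℝ := raise (GE x y r n Bm 0) (lift (tR x y g L))

theorem GE_game : IsGame (ET x y r n Bm) (GE x y r n Bm 0) (GE x y r n Bm) := (gR_bin x y).game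

theorem GE_lip : Lip (ET x y r n Bm) (GE x y r n Bm) := lip_lift (adE_succ x y) (gR_lip x y)

theorem GE_nonneg (k : ℕ) (s : CS (AdE x y) r n Bm k) : 0 ≤ GE x y r n Bm k s := gR_nonneg x y _ _ _ _

theorem TE_nonneg (k : ℕ) (s : CS (AdE x y) r n Bm k) : 0 ≤ TE x y r n Bm g L k s := by
  cases k with
  | zero => exact GE_nonneg x y r n Bm 0 s
  | succ k => exact tR_nonneg x y _ _ _ _

theorem TE_sub (hg : 1 ≤ g) : Sub (ET x y r n Bm) (TE x y r n Bm g L) :=
  Sub.raise ((tR_bin x y hg).sub) fun s => tR_le_gR x y hg _ _ _ _ s.hu s.hv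

theorem TE_lip (hg : 1 ≤ g) : Lip (ET x y r n Bm) (TE x y r n Bm g L) :=
  Lip.raise (lip_lift (adE_succ x y) (tR_lip x y hg)) fun s t h => GE_lip x y r n Bm 0 s t h

theorem TE_le_GE (hg : 1 ≤ g) (k : ℕ) (s : CS (AdE x y) r n Bm k) : TE x y r n Bm g L k s ≤ GE x y r n Bm k s :=
  (GE_game x y r n Bm).ge (TE_sub x y r n Bm hg) (fun _ => le_rfl) k s

theorem GE_le_TE (hB : Bm + 1 ≤ 2 * L) (k : ℕ) (s : CS (AdE x y) r n Bm k) :
    GE x y r n Bm k s ≤ 8 * 2 ^ g * L * TE x y r n Bm g L k s := by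
  have hk : bh r n k + 1 ≤ 2 * L := by have := s.hB; omega
  cases k with
  | zero =>
    have h0 := GE_nonneg x y r n Bm 0 s
    have h1 : (1 : ℝ) ≤ 8 * 2 ^ g * L := by
      have a1 : (1 : ℝ) ≤ L := by
        have : 1 ≤ L := by omega
        exact_mod_cast this
      have a2 : (1 : ℝ) ≤ 2 ^ g := one_le_pow₀ (by norm_num)
      nlinarith
    show GE x y r n Bm 0 s ≤ 8 * 2 ^ g * L * GE x y r n Bm 0 s
    nlinarith
  | succ k => exact gR_le_tR x y hk _ _ _

/-- the state of the whole strings at macro height `k` -/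
def rootE (k : ℕ) (hk : x.length ≤ 2 ^ bh r n k) (hB : bh r n k ≤ Bm) : CS (AdE x y) r n Bm k :=
  ⟨(0, 0, (y.length : ℤ) - x.length), by
    refine ⟨?_, ?_, hB⟩
    · show Adm y.length (lo x.length (bh r n k) 0) 0
      unfold Adm lo; simp
    · show Adm y.length (lo x.length (bh r n k) (0 + 1)) _
      unfold Adm lo
      rw [zero_add, one_mul, min_eq_left hk]
      constructor <;> push_cast <;> omega⟩

theorem GE_root (k : ℕ) (hk : x.length ≤ 2 ^ bh r n k) (hB : bh r n k ≤ Bm) :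
    GE x y r n Bm k (rootE x y r n Bm k hk hB) = editDist x y := by
  have := gn_root x y hk
  show ((gn x y (bh r n k) 0 0 ((y.length : ℤ) - x.length) : ℕ) : ℝ) = editDist x y
  rw [this]

/-- **the chain of rounds for the edit distance.** `R` rounds with `8 * 2 ^ g * L ≤ 3 ^ R`, start promise 772's
`T0`; `T (r+1)` = value of the round with unit `T r`, known mean `Tt r ≥ T r`, stop price `conv (3 Tt r)`. -/
theorem chainE (hg : 1 ≤ g) (hB : Bm + 1 ≤ 2 * L) (R : ℕ) (hR : 8 * 2 ^ g * L ≤ 3 ^ R)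
    (T Tt S : ℕ → ∀ k, CS (AdE x y) r n Bm k → ℝ) (hT0 : T 0 = TE x y r n Bm g L)
    (hle : ∀ i < R, (∀ h x, 0 ≤ T i h x) → Sub (ET x y r n Bm) (T i) → Lip (ET x y r n Bm) (T i) →
      (∀ x', T i 0 x' = GE x y r n Bm 0 x') → ∀ h x, T i h x ≤ Tt i h x)
    (hconv : ∀ i < R, IsConv (ET x y r n Bm) (fun h x => 3 * Tt i h x) (S i))
    (hval : ∀ i < R, IsVal (ET x y r n Bm) (S i) (GE x y r n Bm 0) (T (i + 1))) :
    (∀ i < R, Round (M := ET x y r n Bm) (GE x y r n Bm 0) (GE x y r n Bm) (T i) (Tt i) (S i) (T (i + 1))) ∧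
    (∀ i ≤ R, ∀ h s, T i h s ≤ GE x y r n Bm h s ∧ GE x y r n Bm h s ≤ 3 ^ (R - i) * T i h s) ∧
    ∀ h s, T R h s = GE x y r n Bm h s := by
  have key := chain (M := ET x y r n Bm) (GE_game x y r n Bm) (fun s t h => GE_lip x y r n Bm 0 s t h)
    T Tt S R (by rw [hT0]; exact TE_nonneg x y r n Bm) (by rw [hT0]; exact TE_sub x y r n Bm hg)
    (by rw [hT0]; exact TE_lip x y r n Bm hg) (by rw [hT0]; exact fun _ => rfl) (fun h s => by
      have h1 := GE_le_TE x y r n Bm (g := g) hB h s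
      have h2 : (8 * 2 ^ g * L : ℝ) ≤ 3 ^ R := by exact_mod_cast hR
      have h3 := TE_nonneg x y r n Bm (g := g) (L := L) h s
      rw [hT0]
      exact h1.trans (mul_le_mul_of_nonneg_right h2 h3)) hle hconv hval
  exact ⟨key.2.1, fun i hi h s => ⟨(key.1 i hi).2.2.2.2.1 h s, (key.1 i hi).2.2.2.2.2 h s⟩, key.2.2⟩

end ed

end Crest.Agent.R288.Ch2689
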