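import Mathlib

/-!
# Row 288, leaf [CH] of #4274 (helper974 v2): chaining of the rounds (abstract part)

Abstract macro tree: states `σ`, macro heights `h : ℕ`, pieces `ι` (finite), `St h x` = the staircases of a
state `x` of macro height `h + 1` (each staircase is a family of states of macro height `h`), `adj h x y` =
`x`, `y` are states of the same node (macro height `h`), `d` = distance of two states of a node.
Values are described by their Bellman properties (`IsVal`, `IsGame`, `IsConv`), so every construction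
(minimum over a finite grid, infimum over `ℤ`, ...) can be used.
-/

namespace Crest.Agent.R288.Ch689

open Finset

variable {σ ι : Type*} [Fintype ι]

/-- macro tree with distances and transport of staircases -/
structure MT (σ ι : Type*) [Fintype ι] where
  St : ℕ → σ → Set (ι → σ)
  adj : ℕ → σ → σ → Prop
  d : σ → σ → ℝ
  adj_refl : ∀ h x, adj h x x
  adj_symm : ∀ h x y, adj h x y → adj h y x
  adj_trans : ∀ h x y z, adj h x y → adj h y z → adj h x z
  d_self : ∀ x, d x x = 0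
  d_nonneg : ∀ x y, 0 ≤ d x y
  d_symm : ∀ x y, d x y = d y x
  d_tri : ∀ x y z, d x z ≤ d x y + d y z
  move : ∀ h x x' y', adj (h + 1) x x' → y' ∈ St h x' →
    ∃ y ∈ St h x, (∀ j, adj h (y j) (y' j)) ∧ ∑ j, d (y j) (y' j) ≤ d x x'

variable (M : MT σ ι)

/-- `f` is a hard subsolution -/
def Sub (f : ℕ → σ → ℝ) : Prop :=
  ∀ h x, ∀ y ∈ M.St h x, f (h + 1) x ≤ ∑ j, f h (y j)

/-- `f` is 1-Lipschitz on every node -/
def Lip (f : ℕ → σ → ℝ) : Prop :=
  ∀ h x y, M.adj h x y → f h x ≤ M.d x y + f h y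

/-- `S` is the inf-convolution of `f` with the distance (greatest lower bound form) -/
structure IsConv (f S : ℕ → σ → ℝ) : Prop where
  le : ∀ h x y, M.adj h x y → S h x ≤ M.d x y + f h y
  glb : ∀ h x c, (∀ y, M.adj h x y → c ≤ M.d x y + f h y) → c ≤ S h x

/-- `V` is the value of the game with stop prices `S` and terminal values `P`
(greatest lower bound form). -/
structure IsVal (S : ℕ → σ → ℝ) (P : σ → ℝ) (V : ℕ → σ → ℝ) : Prop where
  zero : ∀ x, V 0 x = P x
  le_stop : ∀ h x, V (h + 1) x ≤ S (h + 1) x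
  sub : Sub M V
  glb : ∀ h x c, c ≤ S (h + 1) x → (∀ y ∈ M.St h x, c ≤ ∑ j, V h (y j)) → c ≤ V (h + 1) x

/-- `G` is the value of the game without stopping -/
structure IsGame (P : σ → ℝ) (G : ℕ → σ → ℝ) : Prop where
  zero : ∀ x, G 0 x = P x
  sub : Sub M G
  glb : ∀ h x c, (∀ y ∈ M.St h x, c ≤ ∑ j, G h (y j)) → c ≤ G (h + 1) x

variable {M}

/-! ### inf-convolution -/

theorem IsConv.le_self {f S : ℕ → σ → ℝ} (H : IsConv M f S) (h : ℕ) (x : σ) : S h x ≤ f h x := by
  have := H.le h x x (M.adj_refl h x)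
  rwa [M.d_self, zero_add] at this

theorem IsConv.lip {f S : ℕ → σ → ℝ} (H : IsConv M f S) : Lip M S := by
  intro h x y hxy
  have : S h x - M.d x y ≤ S h y := by
    refine H.glb h y _ fun z hz => ?_
    have h1 := H.le h x z (M.adj_trans h x y z hxy hz)
    have h2 := M.d_tri x y z
    linarith
  linarith

theorem IsConv.ge_of_lip {f S g : ℕ → σ → ℝ} (H : IsConv M f S) (hg : Lip M g)
    (hgf : ∀ h x, g h x ≤ f h x) (h : ℕ) (x : σ) : g h x ≤ S h x := by
  refine H.glb h x _ fun y hy => ?_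
  have h1 := hg h x y hy
  have h2 := hgf h y
  linarith

/-- a multiple `c ≤ 1` of a 1-Lipschitz function is 1-Lipschitz -/
theorem Lip.smul {g : ℕ → σ → ℝ} (hg : Lip M g) {c : ℝ} (h0 : 0 ≤ c) (h1 : c ≤ 1) :
    Lip M fun h x => c * g h x := by
  intro h x y hxy
  have h2 := mul_le_mul_of_nonneg_left (hg h x y hxy) h0
  have h3 : c * M.d x y ≤ M.d x y := by nlinarith [M.d_nonneg x y]
  calc c * g h x ≤ c * (M.d x y + g h y) := h2
    _ = c * M.d x y + c * g h y := by ring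
    _ ≤ M.d x y + c * g h y := by linarith

/-- existence of the inf-convolution of a nonnegative function -/
theorem exists_isConv {f : ℕ → σ → ℝ} (hf : ∀ h x, 0 ≤ f h x) : ∃ S, IsConv M f S := by
  refine ⟨fun h x => ⨅ y : {y // M.adj h x y}, (M.d x y + f h y), ⟨fun h x y hy => ?_, fun h x c hc => ?_⟩⟩
  · refine ciInf_le (f := fun y : {y // M.adj h x y} => M.d x y + f h y) ?_ ⟨y, hy⟩
    refine ⟨0, ?_⟩
    rintro _ ⟨z, rfl⟩
    exact add_nonneg (M.d_nonneg _ _) (hf _ _)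
  · have : Nonempty {y // M.adj h x y} := ⟨⟨x, M.adj_refl h x⟩⟩
    exact le_ciInf fun y => hc y.1 y.2

/-! ### values -/

/-- a subsolution below the stop prices and the terminal values is below the value -/
theorem IsVal.ge {S : ℕ → σ → ℝ} {P : σ → ℝ} {V f : ℕ → σ → ℝ} (H : IsVal M S P V)
    (hf : Sub M f) (h0 : ∀ x, f 0 x ≤ P x) (hS : ∀ h x, f (h + 1) x ≤ S (h + 1) x) :
    ∀ h x, f h x ≤ V h x := by
  intro h
  induction h with
  | zero => intro x; rw [H.zero]; exact h0 x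
  | succ h ih =>
    intro x
    refine H.glb h x _ (hS h x) fun y hy => ?_
    exact (hf h x y hy).trans (Finset.sum_le_sum fun j _ => ih (y j))

theorem IsGame.ge {P : σ → ℝ} {G f : ℕ → σ → ℝ} (H : IsGame M P G)
    (hf : Sub M f) (h0 : ∀ x, f 0 x ≤ P x) : ∀ h x, f h x ≤ G h x := by
  intro h
  induction h with
  | zero => intro x; rw [H.zero]; exact h0 x
  | succ h ih =>
    intro x
    refine H.glb h x _ fun y hy => ?_
    exact (hf h x y hy).trans (Finset.sum_le_sum fun j _ => ih (y j))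

theorem IsVal.le_game {S : ℕ → σ → ℝ} {P : σ → ℝ} {V G : ℕ → σ → ℝ} (H : IsVal M S P V)
    (hG : IsGame M P G) : ∀ h x, V h x ≤ G h x :=
  hG.ge H.sub fun x => (H.zero x).le

theorem IsVal.le_S {S : ℕ → σ → ℝ} {P : σ → ℝ} {V : ℕ → σ → ℝ} (H : IsVal M S P V)
    (hP : ∀ x, P x ≤ S 0 x) : ∀ h x, V h x ≤ S h x
  | 0, x => by rw [H.zero]; exact hP x
  | h + 1, x => H.le_stop h x

/-- the value is 1-Lipschitz -/
theorem IsVal.lip {S : ℕ → σ → ℝ} {P : σ → ℝ} {V : ℕ → σ → ℝ} (H : IsVal M S P V)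
    (hS : Lip M S) (hP : ∀ x y, M.adj 0 x y → P x ≤ M.d x y + P y) : Lip M V := by
  intro h
  induction h with
  | zero => intro x y hxy; rw [H.zero, H.zero]; exact hP x y hxy
  | succ h ih =>
    intro x x' hxx
    have : V (h + 1) x - M.d x x' ≤ V (h + 1) x' := by
      refine H.glb h x' _ ?_ fun y' hy' => ?_
      · have h1 := H.le_stop h x
        have h2 := hS (h + 1) x x' hxx
        linarith
      · obtain ⟨y, hy, ha, hd⟩ := M.move h x x' y' hxx hy'
        have h1 := H.sub h x y hy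
        have h2 : ∑ j, V h (y j) ≤ ∑ j, (M.d (y j) (y' j) + V h (y' j)) :=
          Finset.sum_le_sum fun j _ => ih (y j) (y' j) (ha j)
        rw [Finset.sum_add_distrib] at h2
        linarith
    linarith

theorem IsGame.lip {P : σ → ℝ} {G : ℕ → σ → ℝ} (H : IsGame M P G)
    (hP : ∀ x y, M.adj 0 x y → P x ≤ M.d x y + P y) : Lip M G := by
  intro h
  induction h with
  | zero => intro x y hxy; rw [H.zero, H.zero]; exact hP x y hxy
  | succ h ih =>
    intro x x' hxx
    have : G (h + 1) x - M.d x x' ≤ G (h + 1) x' := by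
      refine H.glb h x' _ fun y' hy' => ?_
      obtain ⟨y, hy, ha, hd⟩ := M.move h x x' y' hxx hy'
      have h1 := H.sub h x y hy
      have h2 : ∑ j, G h (y j) ≤ ∑ j, (M.d (y j) (y' j) + G h (y' j)) :=
        Finset.sum_le_sum fun j _ => ih (y j) (y' j) (ha j)
      rw [Finset.sum_add_distrib] at h2
      linarith
    linarith

theorem Sub.smul {f : ℕ → σ → ℝ} (hf : Sub M f) {c : ℝ} (hc : 0 ≤ c) :
    Sub M fun h x => c * f h x := by
  intro h x y hy
  have := mul_le_mul_of_nonneg_left (hf h x y hy) hc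
  rwa [Finset.mul_sum] at this

theorem Sub.max {f g : ℕ → σ → ℝ} (hf : Sub M f) (hg : Sub M g) :
    Sub M fun h x => max (f h x) (g h x) := by
  intro h x y hy
  refine max_le ((hf h x y hy).trans ?_) ((hg h x y hy).trans ?_)
  · exact Finset.sum_le_sum fun j _ => le_max_left _ _
  · exact Finset.sum_le_sum fun j _ => le_max_right _ _

theorem Lip.max {f g : ℕ → σ → ℝ} (hf : Lip M f) (hg : Lip M g) :
    Lip M fun h x => Max.max (f h x) (g h x) := by
  intro h x y hxy
  refine max_le ((hf h x y hxy).trans ?_) ((hg h x y hxy).trans ?_)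
  · have := le_max_left (f h y) (g h y); linarith
  · have := le_max_right (f h y) (g h y); linarith

/-- existence of the value (nonnegative data) -/
theorem exists_isVal (S : ℕ → σ → ℝ) (P : σ → ℝ) (hS : ∀ h x, 0 ≤ S h x) (hP : ∀ x, 0 ≤ P x) :
    ∃ V, IsVal M S P V ∧ ∀ h x, 0 ≤ V h x := by
  classical
  let V : ℕ → σ → ℝ := fun h => Nat.rec P
    (fun h Vh x => if (M.St h x).Nonempty then
      min (S (h + 1) x) (⨅ y : M.St h x, ∑ j, Vh (y.1 j)) else S (h + 1) x) h
  have hV0 : ∀ x, V 0 x = P x := fun x => rfl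
  have hVs : ∀ h x, V (h + 1) x = if (M.St h x).Nonempty then
      min (S (h + 1) x) (⨅ y : M.St h x, ∑ j, V h (y.1 j)) else S (h + 1) x := fun h x => rfl
  have hnn : ∀ h x, 0 ≤ V h x := by
    intro h
    induction h with
    | zero => intro x; rw [hV0]; exact hP x
    | succ h ih =>
      intro x
      rw [hVs]
      split_ifs with hne
      · refine le_min (hS _ _) ?_
        have : Nonempty (M.St h x) := hne.to_subtype
        exact le_ciInf fun y => Finset.sum_nonneg fun j _ => ih _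
      · exact hS _ _
  have hbdd : ∀ h x, BddBelow (Set.range fun y : M.St h x => ∑ j, V h (y.1 j)) := by
    intro h x
    refine ⟨0, ?_⟩
    rintro _ ⟨y, rfl⟩
    exact Finset.sum_nonneg fun j _ => hnn _ _
  refine ⟨V, ⟨hV0, fun h x => ?_, fun h x y hy => ?_, fun h x c hc hy => ?_⟩, hnn⟩
  · rw [hVs]; split_ifs with hne
    · exact min_le_left _ _
    · exact le_rfl
  · rw [hVs, if_pos ⟨y, hy⟩]
    exact (min_le_right _ _).trans (ciInf_le (hbdd h x) ⟨y, hy⟩)
  · rw [hVs]; split_ifs with hne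
    · refine le_min hc ?_
      have : Nonempty (M.St h x) := hne.to_subtype
      exact le_ciInf fun y => hy y.1 y.2
    · exact hc

/-! ### one round -/

/-- data of one round: unknown unit `T`, known `Tt`, stop price `S`, game value `G`, value `V` -/
structure Round (P : σ → ℝ) (G T Tt S V : ℕ → σ → ℝ) : Prop where
  game : IsGame M P G
  lipP : ∀ x y, M.adj 0 x y → P x ≤ M.d x y + P y
  nonneg : ∀ h x, 0 ≤ T h x
  sub : Sub M T
  lip : Lip M T
  zero : ∀ x, T 0 x = P x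
  le_Tt : ∀ h x, T h x ≤ Tt h x
  conv : IsConv M (fun h x => 3 * Tt h x) S
  val : IsVal M S P V

section round
variable {P : σ → ℝ} {G T Tt S V : ℕ → σ → ℝ}

theorem Round.T_le_G (R : Round (M := M) P G T Tt S V) : ∀ h x, T h x ≤ G h x :=
  R.game.ge R.sub fun x => (R.zero x).le

theorem Round.T_le_S (R : Round (M := M) P G T Tt S V) (h : ℕ) (x : σ) : T h x ≤ S h x :=
  R.conv.ge_of_lip R.lip (fun h x => by
    have h1 := R.nonneg h x; have h2 := R.le_Tt h x; linarith) h x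

theorem Round.S_le (R : Round (M := M) P G T Tt S V) (h : ℕ) (x : σ) : S h x ≤ 3 * Tt h x :=
  R.conv.le_self h x

theorem Round.lip_S (R : Round (M := M) P G T Tt S V) : Lip M S := R.conv.lip

theorem Round.T_le_V (R : Round (M := M) P G T Tt S V) : ∀ h x, T h x ≤ V h x :=
  R.val.ge R.sub (fun x => (R.zero x).le) fun h x => R.T_le_S (h + 1) x

theorem Round.V_nonneg (R : Round (M := M) P G T Tt S V) (h : ℕ) (x : σ) : 0 ≤ V h x :=
  (R.nonneg h x).trans (R.T_le_V h x)

theorem Round.P_le_S (R : Round (M := M) P G T Tt S V) (x : σ) : P x ≤ S 0 x := by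
  rw [← R.zero]; exact R.T_le_S 0 x

theorem Round.V_le_S (R : Round (M := M) P G T Tt S V) : ∀ h x, V h x ≤ S h x :=
  R.val.le_S R.P_le_S

theorem Round.V_le_G (R : Round (M := M) P G T Tt S V) : ∀ h x, V h x ≤ G h x :=
  R.val.le_game R.game

theorem Round.lip_V (R : Round (M := M) P G T Tt S V) : Lip M V := R.val.lip R.lip_S R.lipP

theorem Round.lip_G (R : Round (M := M) P G T Tt S V) : Lip M G := R.game.lip R.lipP

theorem Round.sub_V (R : Round (M := M) P G T Tt S V) : Sub M V := R.val.sub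

/-- the stop price is at least `c G` if `3 Tt ≥ c G`, `c ≤ 1` -/
theorem Round.S_ge (R : Round (M := M) P G T Tt S V) {c : ℝ} (h0 : 0 ≤ c) (h1 : c ≤ 1)
    (hc : ∀ h x, c * G h x ≤ 3 * Tt h x) (h : ℕ) (x : σ) : c * G h x ≤ S h x :=
  R.conv.ge_of_lip (g := fun h x => c * G h x) (R.lip_G.smul h0 h1) hc h x

/-- **the range of the next round**: `V ≥ c G` -/
theorem Round.V_ge (R : Round (M := M) P G T Tt S V) {c : ℝ} (h0 : 0 ≤ c) (h1 : c ≤ 1)
    (hc : ∀ h x, c * G h x ≤ 3 * Tt h x) : ∀ h x, c * G h x ≤ V h x := by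
  refine R.val.ge (f := fun h x => c * G h x) (R.game.sub.smul h0) (fun x => ?_)
    fun h x => R.S_ge h0 h1 hc (h + 1) x
  have hG0 : 0 ≤ G 0 x := (R.nonneg 0 x).trans (R.T_le_G 0 x)
  show c * G 0 x ≤ P x
  rw [← R.game.zero]
  nlinarith

/-- `G ≤ B T`, `3 ≤ B`: then `G ≤ (B/3) V` -/
theorem Round.range_next (R : Round (M := M) P G T Tt S V) {B : ℝ} (hB : 3 ≤ B)
    (hG : ∀ h x, G h x ≤ B * T h x) (h : ℕ) (x : σ) : G h x ≤ B / 3 * V h x := by
  have hB0 : (0 : ℝ) < B := by linarith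
  have key := R.V_ge (c := 3 / B) (by positivity) (by rw [div_le_one hB0]; exact hB)
    (fun h x => by
      have h1 := hG h x
      have h2 := R.le_Tt h x
      rw [div_mul_eq_mul_div, div_le_iff₀ hB0]
      nlinarith) h x
  calc G h x = B / 3 * (3 / B * G h x) := by field_simp
    _ ≤ B / 3 * V h x := mul_le_mul_of_nonneg_left key (by positivity)

/-- `G ≤ 3 T`: then `V = G` (last round) -/
theorem Round.last (R : Round (M := M) P G T Tt S V) (hG : ∀ h x, G h x ≤ 3 * T h x)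
    (h : ℕ) (x : σ) : V h x = G h x := by
  refine le_antisymm (R.V_le_G h x) ?_
  have := R.V_ge (c := 1) zero_le_one le_rfl (fun h x => by
    have h1 := hG h x; have h2 := R.le_Tt h x; linarith) h x
  linarith

/-- other lower bounds (for example `|v - u|`) are inherited -/
theorem Round.V_ge_tv (R : Round (M := M) P G T Tt S V) {t : ℕ → σ → ℝ}
    (ht : ∀ h x, t h x ≤ T h x) (h : ℕ) (x : σ) : t h x ≤ V h x := (ht h x).trans (R.T_le_V h x)

end round

/-! ### the chain of rounds -/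

/-- **[CH]**: `R` rounds; `T (r+1)` is the value of the round `r`, `Tt r` the (known) mean of the output of the
round before.  If `G ≤ 3^R T 0` then `T R = G`, and the invariants hold for every `r`. -/
theorem chain {P : σ → ℝ} {G : ℕ → σ → ℝ} (hG : IsGame M P G)
    (hP : ∀ x y, M.adj 0 x y → P x ≤ M.d x y + P y)
    (T Tt S : ℕ → ℕ → σ → ℝ) (R : ℕ)
    (h0n : ∀ h x, 0 ≤ T 0 h x) (h0s : Sub M (T 0)) (h0l : Lip M (T 0)) (h0z : ∀ x, T 0 0 x = P x)
    (h0B : ∀ h x, G h x ≤ 3 ^ R * T 0 h x)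
    (hle : ∀ r < R, (∀ h x, 0 ≤ T r h x) → Sub M (T r) → Lip M (T r) → (∀ x, T r 0 x = P x) →
      ∀ h x, T r h x ≤ Tt r h x)
    (hconv : ∀ r < R, IsConv M (fun h x => 3 * Tt r h x) (S r))
    (hval : ∀ r < R, IsVal M (S r) P (T (r + 1))) :
    (∀ r ≤ R, (∀ h x, 0 ≤ T r h x) ∧ Sub M (T r) ∧ Lip M (T r) ∧ (∀ x, T r 0 x = P x) ∧
      (∀ h x, T r h x ≤ G h x) ∧ (∀ h x, G h x ≤ 3 ^ (R - r) * T r h x)) ∧
    (∀ r < R, Round (M := M) P G (T r) (Tt r) (S r) (T (r + 1))) ∧
    (∀ h x, T R h x = G h x) := by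
  have key : ∀ r ≤ R, (∀ h x, 0 ≤ T r h x) ∧ Sub M (T r) ∧ Lip M (T r) ∧ (∀ x, T r 0 x = P x) ∧
      (∀ h x, T r h x ≤ G h x) ∧ (∀ h x, G h x ≤ 3 ^ (R - r) * T r h x) := by
    intro r
    induction r with
    | zero =>
      intro _
      exact ⟨h0n, h0s, h0l, h0z, hG.ge h0s fun x => (h0z x).le, h0B⟩
    | succ r ih =>
      intro hr
      obtain ⟨a1, a2, a3, a4, a5, a6⟩ := ih (by omega)
      have Rd : Round (M := M) P G (T r) (Tt r) (S r) (T (r + 1)) :=
        ⟨hG, hP, a1, a2, a3, a4, hle r (by omega) a1 a2 a3 a4, hconv r (by omega), hval r (by omega)⟩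
      refine ⟨Rd.V_nonneg, Rd.sub_V, Rd.lip_V, Rd.val.zero, Rd.V_le_G, fun h x => ?_⟩
      have hB : (3 : ℝ) ≤ 3 ^ (R - r) := by
        have : (3 : ℝ) ^ 1 ≤ 3 ^ (R - r) := pow_le_pow_right₀ (by norm_num) (by omega)
        simpa using this
      have := Rd.range_next hB a6 h x
      have e : (3 : ℝ) ^ (R - r) / 3 = 3 ^ (R - (r + 1)) := by
        have : R - r = (R - (r + 1)) + 1 := by omega
        rw [this, pow_succ]; ring
      rwa [e] at this
  refine ⟨key, fun r hr => ?_, fun h x => ?_⟩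
  · obtain ⟨a1, a2, a3, a4, a5, a6⟩ := key r hr.le
    exact ⟨hG, hP, a1, a2, a3, a4, hle r hr a1 a2 a3 a4, hconv r hr, hval r hr⟩
  · obtain ⟨a1, a2, a3, a4, a5, a6⟩ := key R le_rfl
    refine le_antisymm (a5 h x) ?_
    have := a6 h x
    simpa using this

/-- existence of all the rounds for a given rule `out r T` producing `Tt r` from the exact `T r` -/
theorem exists_chain {P : σ → ℝ} (hP0 : ∀ x, 0 ≤ P x) (T0 : ℕ → σ → ℝ) (h0n : ∀ h x, 0 ≤ T0 h x)
    (out : ℕ → (ℕ → σ → ℝ) → ℕ → σ → ℝ) (hout : ∀ r T, (∀ h x, 0 ≤ T h x) → ∀ h x, 0 ≤ out r T h x) :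
    ∃ T S : ℕ → ℕ → σ → ℝ, T 0 = T0 ∧ (∀ r h x, 0 ≤ T r h x) ∧
      (∀ r, IsConv M (fun h x => 3 * out r (T r) h x) (S r)) ∧ ∀ r, IsVal M (S r) P (T (r + 1)) := by
  classical
  have step : ∀ r, ∀ T : {T : ℕ → σ → ℝ // ∀ h x, 0 ≤ T h x},
      ∃ SV : (ℕ → σ → ℝ) × {V : ℕ → σ → ℝ // ∀ h x, 0 ≤ V h x},
        IsConv M (fun h x => 3 * out r T.1 h x) SV.1 ∧ IsVal M SV.1 P SV.2.1 := by
    intro r T
    have hn : ∀ h x, 0 ≤ 3 * out r T.1 h x := fun h x =>
      mul_nonneg (by norm_num) (hout r T.1 T.2 h x)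
    obtain ⟨S, hS⟩ := exists_isConv (M := M) hn
    have hS0 : ∀ h x, 0 ≤ S h x := fun h x => hS.glb h x 0 fun y _ =>
      add_nonneg (M.d_nonneg _ _) (hn _ _)
    obtain ⟨V, hV, hV0⟩ := exists_isVal (M := M) S P hS0 hP0
    exact ⟨⟨S, ⟨V, hV0⟩⟩, hS, hV⟩
  choose f hf1 hf2 using step
  let TT : ℕ → {T : ℕ → σ → ℝ // ∀ h x, 0 ≤ T h x} := fun r => Nat.rec ⟨T0, h0n⟩ (fun r T => (f r T).2) r
  exact ⟨fun r => (TT r).1, fun r => (f r (TT r)).1, rfl, fun r => (TT r).2,
    fun r => hf1 r (TT r), fun r => hf2 r (TT r)⟩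

end Crest.Agent.R288.Ch689
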