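import Crest.Agent.R288.VI_684

/-!
# R288 (S0433), leaf [CH] of post 4274: the chain of rounds (helper128)

On the macro tree of `VI_684` (`i` = number of windows below, `j` = node, `n` = binary levels per
window): start promise `T0` (hard subsolution, coercive, `1`-Lipschitz, `T0 ≤ G ≤ B₀ T0`), outputs
`Tt r` of the rounds (`V_r ≤ Tt r`), stop factor `lam ≥ 1`.

* `S r = ic2 (lam * Tt r)` (jump, then stop), `P r = min (S r) G` (terminal values),
  `Vs 0 = T0`, `Vs (r + 1) = V (S r) (P r)`.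
* `Ok` = the hypotheses. Results for ALL `r`: `Vs_coer`, `Vs_lip`, `Vs_sub` (exact hard
  subsolution), `Vs_le_stair`, `Vs_mono`, `Vs_le_S`, `Vs_succ_le_S`, `S_le`, `Vs_succ_le`
  (`V_{r+1} ≤ lam κ V_r`), `Vs_le_G`, `G_le_Vs : G ≤ max 1 (B₀ / lam ^ r) V_r`, `Vs_eq_G`.
* `V_block`: restriction of the value to a block of heights.
* `promise_max`: the maximum of a promise with `|u - v|` (makes `T0` coercive).
-/

set_option autoImplicit false

namespace Crest.Agent.R288.Chain128

open Crest.Agent.R288.VI684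

/-- cost functions on the macro tree: windows below, node, two diagonals -/
abbrev Fn := ℕ → ℕ → ℤ → ℤ → ℝ

/-- what is true of every exact promise -/
structure Prom (n : ℕ) (T : Fn) : Prop where
  coer : ∀ i j, Coer (T i j)
  lip : ∀ i j, Lip (T i j)
  sub : ∀ i j u v, T (i + 1) j u v ≤ W (T i) n j u v

theorem Prom.nonneg {n : ℕ} {T : Fn} (h : Prom n T) (i j : ℕ) (u v : ℤ) : 0 ≤ T i j u v :=
  (h.coer i j).nonneg u v

theorem Prom.stair {n : ℕ} {T : Fn} (h : Prom n T) (i j : ℕ) (m : ℕ → ℤ) :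
    T (i + 1) j (m 0) (m (2 ^ n)) ≤ stair (T i) n j m :=
  (h.sub i j _ _).trans (W_le_stair (h.coer i) n j m)

/-! ### scaling of `W` -/

theorem mul_W_le {f g : ℕ → ℤ → ℤ → ℝ} {c : ℝ} (hc : 0 ≤ c) (hg : ∀ j, Coer (g j)) (r : ℕ)
    (hf : ∀ j, Coer (f j)) (h : ∀ j u v, c * f j u v ≤ g j u v) (j : ℕ) (u v : ℤ) :
    c * W f r j u v ≤ W g r j u v := by
  obtain ⟨m, h0, h1, hm⟩ := exists_stair hg r j u v
  rw [← hm, ← h0, ← h1]
  have h2 := mul_le_mul_of_nonneg_left (W_le_stair hf r j m) hc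
  refine h2.trans ?_
  unfold VI684.stair
  rw [Finset.mul_sum]
  exact Finset.sum_le_sum fun t _ => h _ _ _

/-! ### the value of a block -/

theorem V_block (S : Fn) (P : ℕ → ℤ → ℤ → ℝ) (n b i : ℕ) (j : ℕ) :
    V S P n (b + i) j = V (fun i' => S (b + i')) (V S P n b) n i j := by
  induction i generalizing j with
  | zero => rfl
  | succ i ih =>
    funext u v
    have e : V S P n (b + i) = V (fun i' => S (b + i')) (V S P n b) n i := funext ih
    rw [← add_assoc, V_succ, V_succ, e]
    rfl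

/-! ### the chain -/

/-- the data of the chain -/
structure Data where
  /-- binary levels per window -/
  n : ℕ
  /-- start promise -/
  T0 : Fn
  /-- exact cost -/
  G : Fn
  /-- stop factor -/
  lam : ℝ
  /-- (mean) outputs of the rounds -/
  Tt : ℕ → Fn

namespace Data

variable (D : Data)

/-- stop price of the round from `V_r` to `V_{r+1}`: jump, then stop -/
noncomputable def S (r : ℕ) : Fn := fun i j => ic2 fun u v => D.lam * D.Tt r i j u v

/-- terminal values of the round -/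
noncomputable def P (r : ℕ) (j : ℕ) (u v : ℤ) : ℝ := min (D.S r 0 j u v) (D.G 0 j u v)

/-- the exact promises -/
noncomputable def Vs : ℕ → Fn
  | 0 => D.T0
  | r + 1 => V (D.S r) (D.P r) D.n

/-- the quality of the promise `r` -/
noncomputable def B (B₀ : ℝ) (r : ℕ) : ℝ := max 1 (B₀ / D.lam ^ r)

theorem Vs_zero : D.Vs 0 = D.T0 := rfl

theorem Vs_succ (r : ℕ) : D.Vs (r + 1) = V (D.S r) (D.P r) D.n := rfl

/-- the hypotheses of the chain -/
structure Ok (B₀ : ℝ) : Prop where
  hlam : 1 ≤ D.lam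
  T0 : Prom D.n D.T0
  T0_le : ∀ i j u v, D.T0 i j u v ≤ D.G i j u v
  G_le : ∀ i j u v, D.G i j u v ≤ B₀ * D.T0 i j u v
  G_lip : ∀ i j, Lip (D.G i j)
  G_eq : ∀ i j u v, D.G (i + 1) j u v = W (D.G i) D.n j u v
  Tt_ge : ∀ r i j u v, D.Vs r i j u v ≤ D.Tt r i j u v

variable {D} {B₀ : ℝ}

theorem Ok.lam_nonneg (h : D.Ok B₀) : 0 ≤ D.lam := zero_le_one.trans h.hlam

theorem Ok.G_coer (h : D.Ok B₀) (i j : ℕ) : Coer (D.G i j) := fun u v =>
  (h.T0.coer i j u v).trans (h.T0_le i j u v)

theorem Ok.G_nonneg (h : D.Ok B₀) (i j : ℕ) (u v : ℤ) : 0 ≤ D.G i j u v :=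
  (h.G_coer i j).nonneg u v

section step

variable (h : D.Ok B₀) {r : ℕ} (hV : Prom D.n (D.Vs r))

include h hV

theorem lTt_coer' (i j : ℕ) : Coer fun u v => D.lam * D.Tt r i j u v := fun u v =>
  ((hV.coer i j u v).trans (h.Tt_ge r i j u v)).trans
    (le_mul_of_one_le_left ((hV.nonneg i j u v).trans (h.Tt_ge r i j u v)) h.hlam)

theorem S_coer' (i j : ℕ) : Coer (D.S r i j) := ic2_coer (lTt_coer' h hV i j)

theorem S_lip' (i j : ℕ) : Lip (D.S r i j) := ic2_lip (lTt_coer' h hV i j).nonneg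

theorem P_coer' (j : ℕ) : Coer (D.P r j) := min_coer (S_coer' h hV 0 j) (h.G_coer 0 j)

theorem P_lip' (j : ℕ) : Lip (D.P r j) := min_lip (S_lip' h hV 0 j) (h.G_lip 0 j)

theorem prom_succ : Prom D.n (D.Vs (r + 1)) := by
  refine ⟨V_coer (S_coer' h hV) (P_coer' h hV),
    V_lip (S_coer' h hV) (P_coer' h hV) (S_lip' h hV) (P_lip' h hV), fun i j u v => ?_⟩
  rw [Vs_succ, V_succ]
  exact min_le_right _ _

end step

/-- **all promises are coercive, `1`-Lipschitz, exact hard subsolutions** -/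
theorem prom (h : D.Ok B₀) (r : ℕ) : Prom D.n (D.Vs r) := by
  induction r with
  | zero => exact h.T0
  | succ r ih => exact prom_succ h ih

section facts

variable (h : D.Ok B₀)

include h

theorem Vs_coer (r i j : ℕ) : Coer (D.Vs r i j) := (prom h r).coer i j

theorem Vs_nonneg (r i j : ℕ) (u v : ℤ) : 0 ≤ D.Vs r i j u v := (prom h r).nonneg i j u v

theorem Vs_lip (r i j : ℕ) : Lip (D.Vs r i j) := (prom h r).lip i j

theorem Vs_sub (r i j : ℕ) (u v : ℤ) : D.Vs r (i + 1) j u v ≤ W (D.Vs r i) D.n j u v :=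
  (prom h r).sub i j u v

theorem Vs_le_stair (r i j : ℕ) (m : ℕ → ℤ) :
    D.Vs r (i + 1) j (m 0) (m (2 ^ D.n)) ≤ stair (D.Vs r i) D.n j m := (prom h r).stair i j m

theorem Tt_nonneg (r i j : ℕ) (u v : ℤ) : 0 ≤ D.Tt r i j u v :=
  (Vs_nonneg h r i j u v).trans (h.Tt_ge r i j u v)

theorem Tt_coer (r i j : ℕ) : Coer (D.Tt r i j) := fun u v =>
  (Vs_coer h r i j u v).trans (h.Tt_ge r i j u v)

theorem lTt_coer (r i j : ℕ) : Coer fun u v => D.lam * D.Tt r i j u v :=
  lTt_coer' h (prom h r) i j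

theorem S_coer (r i j : ℕ) : Coer (D.S r i j) := S_coer' h (prom h r) i j

theorem S_nonneg (r i j : ℕ) (u v : ℤ) : 0 ≤ D.S r i j u v := (S_coer h r i j).nonneg u v

theorem S_lip (r i j : ℕ) : Lip (D.S r i j) := S_lip' h (prom h r) i j

theorem P_coer (r j : ℕ) : Coer (D.P r j) := P_coer' h (prom h r) j

theorem P_lip (r j : ℕ) : Lip (D.P r j) := P_lip' h (prom h r) j

/-- jump, then stop -/
theorem S_le (r i j : ℕ) (u v u' v' : ℤ) :
    D.S r i j u v ≤ D.lam * D.Tt r i j u' v' + (dz u u' + dz v v') :=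
  ic2_le (lTt_coer h r i j).nonneg u v u' v'

theorem S_le_self (r i j : ℕ) (u v : ℤ) : D.S r i j u v ≤ D.lam * D.Tt r i j u v :=
  ic2_le_self (lTt_coer h r i j).nonneg u v

/-- the jump of the comparator -/
theorem exists_S (r i j : ℕ) (u v : ℤ) :
    ∃ u' v', D.S r i j u v = D.lam * D.Tt r i j u' v' + (dz u u' + dz v v') :=
  exists_ic2 (lTt_coer h r i j).nonneg u v

theorem Vs_le_S (r i j : ℕ) (u v : ℤ) : D.Vs r i j u v ≤ D.S r i j u v :=
  le_ic2_of_lip (Vs_lip h r i j) (fun u v => (h.Tt_ge r i j u v).trans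
    (le_mul_of_one_le_left (Tt_nonneg h r i j u v) h.hlam)) u v

/-- the stop price against a multiple of the promise -/
theorem S_le_mul {r i j : ℕ} {κ : ℝ} {u v : ℤ} (hκ : D.Tt r i j u v ≤ κ * D.Vs r i j u v) :
    D.S r i j u v ≤ D.lam * κ * D.Vs r i j u v := by
  rw [mul_assoc]
  exact (S_le_self h r i j u v).trans (mul_le_mul_of_nonneg_left hκ h.lam_nonneg)

omit h in
/-- the value is below the stop price -/
theorem Vs_succ_le_S (r i j : ℕ) (u v : ℤ) : D.Vs (r + 1) i j u v ≤ D.S r i j u v := by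
  rw [Vs_succ]
  cases i with
  | zero => exact min_le_left _ _
  | succ i => exact V_le_S i j u v

/-- the promises are below the exact cost -/
theorem Vs_le_G (r i j : ℕ) (u v : ℤ) : D.Vs r i j u v ≤ D.G i j u v := by
  cases r with
  | zero => exact h.T0_le i j u v
  | succ r =>
    rw [Vs_succ]
    induction i generalizing j u v with
    | zero => exact min_le_right _ _
    | succ i ih =>
      rw [V_succ, h.G_eq]
      exact (min_le_right _ _).trans
        (W_mono (V_coer (S_coer h r) (P_coer h r) i) D.n j (fun t _ u v => ih _ u v) u v)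

/-- the promises increase -/
theorem Vs_mono (r i j : ℕ) (u v : ℤ) : D.Vs r i j u v ≤ D.Vs (r + 1) i j u v := by
  rw [Vs_succ]
  exact le_V (Vs_coer h r) (fun j u v => le_min (Vs_le_S h r 0 j u v) (Vs_le_G h r 0 j u v))
    (fun i j u v => Vs_le_S h r (i + 1) j u v) (Vs_sub h r) i j u v

/-- the next promise is at most `lam κ` times the promise -/
theorem Vs_succ_le {r i j : ℕ} {κ : ℝ} {u v : ℤ} (hκ : D.Tt r i j u v ≤ κ * D.Vs r i j u v) :
    D.Vs (r + 1) i j u v ≤ D.lam * κ * D.Vs r i j u v :=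
  (Vs_succ_le_S r i j u v).trans (S_le_mul h hκ)

/-- at the bottom nothing happens if the start promise is exact there -/
theorem Vs_bot (h0 : ∀ j u v, D.T0 0 j u v = D.G 0 j u v) (r j : ℕ) (u v : ℤ) :
    D.Vs r 0 j u v = D.G 0 j u v := by
  apply le_antisymm (Vs_le_G h r 0 j u v)
  induction r with
  | zero => exact (h0 j u v).ge
  | succ r ih => exact ih.trans (Vs_mono h r 0 j u v)

omit h in
theorem one_le_B (B₀ : ℝ) (r : ℕ) : 1 ≤ D.B B₀ r := le_max_left _ _

/-- **the quality of the promises** -/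
theorem G_le_Vs (r i j : ℕ) (u v : ℤ) : D.G i j u v ≤ D.B B₀ r * D.Vs r i j u v := by
  induction r generalizing i j u v with
  | zero =>
    refine (h.G_le i j u v).trans (mul_le_mul_of_nonneg_right ?_ (h.T0.nonneg i j u v))
    unfold B; simp
  | succ r ih =>
    have hl : 0 < D.lam := lt_of_lt_of_le one_pos h.hlam
    have hB1 : 1 ≤ D.B B₀ (r + 1) := one_le_B _ _
    have hB0 : 0 < D.B B₀ (r + 1) := lt_of_lt_of_le one_pos hB1
    have hBB : D.B B₀ r ≤ D.lam * D.B B₀ (r + 1) := by
      unfold B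
      rw [mul_max_of_nonneg _ _ hl.le, mul_one]
      refine max_le_max h.hlam ?_
      rw [pow_succ]
      apply le_of_eq
      field_simp
    set c := (D.B B₀ (r + 1))⁻¹ with hc
    have hc0 : 0 < c := inv_pos.2 hB0
    have hc1 : c ≤ 1 := inv_le_one_of_one_le₀ hB1
    have hS : ∀ i j u v, c * D.G i j u v ≤ D.S r i j u v := by
      intro i j u v
      refine le_ic2 fun a b => ?_
      have h1 := h.G_lip i j u v a b
      have h2 := (ih i j a b).trans (mul_le_mul_of_nonneg_right hBB (Vs_nonneg h r i j a b))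
      have h3 : c * D.G i j a b ≤ D.lam * D.Vs r i j a b := by
        rw [hc, inv_mul_le_iff₀ hB0]
        calc D.G i j a b ≤ D.lam * D.B B₀ (r + 1) * D.Vs r i j a b := h2
          _ = D.B B₀ (r + 1) * (D.lam * D.Vs r i j a b) := by ring
      have h4 : D.lam * D.Vs r i j a b ≤ D.lam * D.Tt r i j a b :=
        mul_le_mul_of_nonneg_left (h.Tt_ge r i j a b) hl.le
      have hd : 0 ≤ dz u a + dz v b := add_nonneg (dz_nonneg _ _) (dz_nonneg _ _)
      have h5 : c * (dz u a + dz v b) ≤ dz u a + dz v b := mul_le_of_le_one_left hd hc1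
      have h6 : c * D.G i j u v ≤ c * D.G i j a b + c * (dz u a + dz v b) := by
        rw [← mul_add]
        exact mul_le_mul_of_nonneg_left h1 hc0.le
      linarith
    have hP : ∀ j u v, c * D.G 0 j u v ≤ D.P r j u v := fun j u v =>
      le_min (hS 0 j u v) (mul_le_of_le_one_left (h.G_nonneg 0 j u v) hc1)
    have hcG : ∀ i j u v, c * D.G i j u v ≤ D.Vs (r + 1) i j u v := by
      intro i
      rw [Vs_succ]
      induction i with
      | zero => exact fun j u v => hP j u v
      | succ i ih' =>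
        intro j u v
        rw [V_succ]
        refine le_min (hS _ _ _ _) ?_
        rw [h.G_eq]
        exact mul_W_le hc0.le (V_coer (S_coer h r) (P_coer h r) i) D.n (h.G_coer i) ih' j u v
    have h1 := hcG i j u v
    rw [hc, inv_mul_le_iff₀ hB0] at h1
    exact h1

/-- **after `log B₀ / log lam` rounds the promise is the exact cost** -/
theorem Vs_eq_G {r : ℕ} (hr : B₀ ≤ D.lam ^ r) (i j : ℕ) (u v : ℤ) :
    D.Vs r i j u v = D.G i j u v := by
  apply le_antisymm (Vs_le_G h r i j u v)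
  have hl : 0 < D.lam := lt_of_lt_of_le one_pos h.hlam
  have h1 := G_le_Vs h r i j u v
  have h2 : D.B B₀ r = 1 := by
    unfold B
    apply max_eq_left
    rw [div_le_one (pow_pos hl r)]
    exact hr
  rwa [h2, one_mul] at h1

end facts

end Data

/-! ### making a start promise coercive -/

theorem dz_lip : Lip dz := fun u v u' v' => by
  have h1 := dz_tri u u' v
  have h2 := dz_tri u' v' v
  have h3 := dz_comm v v'
  linarith

/-- the distance of the diagonals is a hard subsolution -/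
theorem dz_le_stair (n j : ℕ) (m : ℕ → ℤ) :
    dz (m 0) (m (2 ^ n)) ≤ stair (fun _ => dz) n j m := by
  have key : ∀ M : ℕ, dz (m 0) (m M) ≤ ∑ t ∈ Finset.range M, dz (m t) (m (t + 1)) := by
    intro M
    induction M with
    | zero => simp [dz_self]
    | succ M ih =>
      rw [Finset.sum_range_succ]
      have := dz_tri (m 0) (m M) (m (M + 1))
      linarith
  exact key _

/-- the maximum of a `1`-Lipschitz hard subsolution with `|u - v|` is a promise -/
theorem promise_max {n : ℕ} {T : Fn} (hl : ∀ i j, Lip (T i j))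
    (hs : ∀ i j (m : ℕ → ℤ), T (i + 1) j (m 0) (m (2 ^ n)) ≤ stair (T i) n j m) :
    Prom n fun i j u v => max (T i j u v) (dz u v) := by
  have hc : ∀ i j, Coer fun u v => max (T i j u v) (dz u v) := fun i j u v => le_max_right _ _
  refine ⟨hc, ?_, ?_⟩
  · intro i j u v u' v'
    rw [← max_add_add_right]
    exact max_le_max (hl i j u v u' v') (dz_lip u v u' v')
  · intro i j u v
    obtain ⟨m, h0, h1, hm⟩ := exists_stair (hc i) n j u v
    refine le_trans ?_ hm.le
    rw [← h0, ← h1]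
    refine max_le ?_ ?_
    · refine (hs i j m).trans ?_
      unfold stair
      exact Finset.sum_le_sum fun t _ => le_max_left _ _
    · refine (dz_le_stair n j m).trans ?_
      unfold stair
      exact Finset.sum_le_sum fun t _ => le_max_right _ _

end Crest.Agent.R288.Chain128
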