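import Mathlib

/-!
# R288: the abstract tree game: performance difference along the comparator

Post 3987 (helper90), part (D). Everything is finite and algebraic.

* `Game S A J`: states `S`, actions `A`, successors indexed by `J`; at a step with `h` further steps
  below it (`h = 0` is the last step before the leaf): running cost `c h s a`, weights
  `om h s a j ≥ 0`, successor `nx h s a j`; leaf cost `F s`. One step is any decision (jump, mode,
  letter), a fair coin is `J = Bool`, `om = 1/2`; letter dependent coin laws and the factor `rho` of
  the relative game are allowed (`om` is arbitrary, its sum over `j` need not be `1`).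
* `Q G h V s a = c + ∑ j, om * V (nx ..)`.
* `val G q l s`: value of the player with kernels `q`, where `l : List Bool` is the list of flags of
  the remaining steps (head = current step), `q b l s a` = probability of `a` at `s` when the flag of
  the current step is `b` and the flags of the later steps are `l`.
* `cmp G zs h s`: value of the deterministic comparator `zs h s`.
* `acc G zs h δ s`: sum of `δ` along the path of the comparator.
* `val_eq`: `val = cmp + acc (R - Q(R) zs)` (identity), for every kernel.
* `EL p h f`: expectation over the flags, step by step.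
* `main`: if at every state the local regret, summed over the ranks and averaged over the flag of the
  current step, is at most `reg h s` for every fixed list of later flags, then
  `EL (∑ k, val k) ≤ K * cmp + acc reg`.
-/

set_option autoImplicit false

namespace Crest.Agent.R288.TreeA330

open Finset

/-- abstract finite horizon game in cost form; the first argument of every field is the number of
steps below the current one -/
structure Game (S A J : Type*) where
  /-- running cost -/
  c : ℕ → S → A → ℝ
  /-- weight of the successor `j` -/
  om : ℕ → S → A → J → ℝ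
  /-- successor -/
  nx : ℕ → S → A → J → S
  /-- leaf cost -/
  F : S → ℝ

variable {S A J : Type*} [Fintype A] [Fintype J]

/-- cost of the action `a` when `V` is the cost-to-go at the next step -/
def Q (G : Game S A J) (h : ℕ) (V : S → ℝ) (s : S) (a : A) : ℝ :=
  G.c h s a + ∑ j, G.om h s a j * V (G.nx h s a j)

/-- cost-to-go of the player with kernels `q` -/
def val (G : Game S A J) (q : Bool → List Bool → S → A → ℝ) : List Bool → S → ℝ
  | [], s => G.F s
  | b :: l, s => ∑ a, q b l s a * Q G l.length (val G q l) s a

/-- cost-to-go of the comparator -/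
def cmp (G : Game S A J) (zs : ℕ → S → A) : ℕ → S → ℝ
  | 0, s => G.F s
  | h + 1, s => Q G h (cmp G zs h) s (zs h s)

/-- sum of `δ` along the path of the comparator (`δ h s` at the step with `h` steps below) -/
def acc (G : Game S A J) (zs : ℕ → S → A) : ℕ → (ℕ → S → ℝ) → S → ℝ
  | 0, _, _ => 0
  | h + 1, δ, s => δ h s + ∑ j, G.om h s (zs h s) j * acc G zs h δ (G.nx h s (zs h s) j)

variable (G : Game S A J) (zs : ℕ → S → A)

omit [Fintype A] in
@[simp] theorem acc_zero (δ : ℕ → S → ℝ) (s : S) : acc G zs 0 δ s = 0 := rfl

omit [Fintype A] in
theorem acc_succ (h : ℕ) (δ : ℕ → S → ℝ) (s : S) :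
    acc G zs (h + 1) δ s
      = δ h s + ∑ j, G.om h s (zs h s) j * acc G zs h δ (G.nx h s (zs h s) j) := rfl

omit [Fintype A] in
theorem acc_mono (hom : ∀ h s a j, 0 ≤ G.om h s a j) {δ δ' : ℕ → S → ℝ} (H : ℕ)
    (hδ : ∀ h < H, ∀ s, δ h s ≤ δ' h s) (s : S) : acc G zs H δ s ≤ acc G zs H δ' s := by
  induction H generalizing s with
  | zero => simp
  | succ h ih =>
    rw [acc_succ, acc_succ]
    refine add_le_add (hδ h (by omega) s) (sum_le_sum fun j _ => ?_)
    exact mul_le_mul_of_nonneg_left (ih (fun i hi => hδ i (by omega)) _) (hom _ _ _ _)

omit [Fintype A] in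
theorem acc_add (δ δ' : ℕ → S → ℝ) (H : ℕ) (s : S) :
    acc G zs H (fun h s => δ h s + δ' h s) s = acc G zs H δ s + acc G zs H δ' s := by
  induction H generalizing s with
  | zero => simp
  | succ h ih =>
    rw [acc_succ, acc_succ, acc_succ]
    have : ∀ j, G.om h s (zs h s) j * acc G zs h (fun h s => δ h s + δ' h s) (G.nx h s (zs h s) j)
        = G.om h s (zs h s) j * acc G zs h δ (G.nx h s (zs h s) j)
          + G.om h s (zs h s) j * acc G zs h δ' (G.nx h s (zs h s) j) := fun j => by
      rw [ih]; ring
    rw [sum_congr rfl fun j _ => this j, sum_add_distrib]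
    ring

omit [Fintype A] in
theorem acc_smul (r : ℝ) (δ : ℕ → S → ℝ) (H : ℕ) (s : S) :
    acc G zs H (fun h s => r * δ h s) s = r * acc G zs H δ s := by
  induction H generalizing s with
  | zero => simp
  | succ h ih =>
    rw [acc_succ, acc_succ, mul_add, mul_sum]
    congr 1
    refine sum_congr rfl fun j _ => ?_
    rw [ih]
    ring

omit [Fintype A] in
theorem acc_sum {ι : Type*} (t : Finset ι) (δ : ι → ℕ → S → ℝ) (H : ℕ) (s : S) :
    acc G zs H (fun h s => ∑ i ∈ t, δ i h s) s = ∑ i ∈ t, acc G zs H (δ i) s := by
  classical
  induction t using Finset.induction_on with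
  | empty =>
    simp only [sum_empty]
    have := acc_smul G zs 0 (fun _ _ => (0 : ℝ)) H s
    simpa using this
  | insert i t hi ih =>
    have : (fun h s => ∑ x ∈ insert i t, δ x h s) = fun h s => δ i h s + ∑ x ∈ t, δ x h s := by
      funext h s
      rw [sum_insert hi]
    rw [this, acc_add, ih, sum_insert hi]

omit [Fintype A] in
theorem acc_congr {δ δ' : ℕ → S → ℝ} (H : ℕ) (hδ : ∀ h < H, ∀ s, δ h s = δ' h s) (s : S) :
    acc G zs H δ s = acc G zs H δ' s := by
  induction H generalizing s with
  | zero => rfl
  | succ h ih =>
    rw [acc_succ, acc_succ, hδ h (by omega) s]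
    congr 1
    exact sum_congr rfl fun j _ => by rw [ih (fun i hi => hδ i (by omega))]

omit [Fintype A] in
theorem acc_nonneg (hom : ∀ h s a j, 0 ≤ G.om h s a j) {δ : ℕ → S → ℝ} (H : ℕ)
    (hδ : ∀ h < H, ∀ s, 0 ≤ δ h s) (s : S) : 0 ≤ acc G zs H δ s := by
  have h0 : acc G zs H (fun _ _ => (0 : ℝ)) s = 0 := by
    have := acc_smul G zs 0 (fun _ _ => (0 : ℝ)) H s
    simpa using this
  rw [← h0]
  exact acc_mono G zs hom H hδ s

/-- the local loss of a player against the comparator -/
def loss (q : Bool → List Bool → S → A → ℝ) (b : Bool) (l : List Bool) (s : S) : ℝ :=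
  val G q (b :: l) s - Q G l.length (val G q l) s (zs l.length s)

/-- **performance difference along the path of the comparator** (`δ h` = the loss at the step with
`h` flags below, read off the list) -/
theorem val_eq (q : Bool → List Bool → S → A → ℝ) (l : List Bool) (s : S) :
    val G q l s = cmp G zs l.length s
      + acc G zs l.length (fun h s => match l.drop (l.length - (h + 1)) with
          | [] => 0
          | b :: l' => loss G zs q b l' s) s := by
  induction l generalizing s with
  | nil => simp [val, cmp]
  | cons b l ih =>
    have hlen : (b :: l).length = l.length + 1 := rfl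
    rw [hlen, acc_succ, cmp]
    have h0 : (b :: l).drop (l.length + 1 - (l.length + 1)) = b :: l := by simp
    have hacc : ∀ s', acc G zs l.length (fun h s => match (b :: l).drop (l.length + 1 - (h + 1)) with
          | [] => 0
          | b :: l' => loss G zs q b l' s) s'
        = acc G zs l.length (fun h s => match l.drop (l.length - (h + 1)) with
          | [] => 0
          | b :: l' => loss G zs q b l' s) s' := by
      intro s'
      refine acc_congr G zs _ (fun h hh s => ?_) s'
      have : l.length + 1 - (h + 1) = (l.length - (h + 1)) + 1 := by omega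
      rw [this, List.drop_succ_cons]
    simp only [hacc]
    have hl : loss G zs q b l s = val G q (b :: l) s - Q G l.length (val G q l) s (zs l.length s) :=
      rfl
    have hm : (match (b :: l).drop (l.length + 1 - (l.length + 1)) with
          | [] => 0
          | b :: l' => loss G zs q b l' s) = loss G zs q b l s := by
      rw [h0]
    rw [hm, hl]
    have hQ : Q G l.length (val G q l) s (zs l.length s)
        = Q G l.length (cmp G zs l.length) s (zs l.length s)
          + ∑ j, G.om l.length s (zs l.length s) j
              * acc G zs l.length (fun h s => match l.drop (l.length - (h + 1)) with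
                | [] => 0
                | b :: l' => loss G zs q b l' s) (G.nx l.length s (zs l.length s) j) := by
      unfold Q
      rw [add_assoc, ← sum_add_distrib]
      congr 1
      refine sum_congr rfl fun j _ => ?_
      rw [ih, mul_add]
    rw [hQ]
    ring

/-- expectation over the flags of `h` steps; the flag of the step with `i` steps below is `true` with
probability `p i` -/
def EL (p : ℕ → ℝ) : ℕ → (List Bool → ℝ) → ℝ
  | 0, f => f []
  | h + 1, f => EL p h fun l => (1 - p h) * f (false :: l) + p h * f (true :: l)

theorem EL_mono {p : ℕ → ℝ} (hp : ∀ i, 0 ≤ p i ∧ p i ≤ 1) (h : ℕ) {f g : List Bool → ℝ}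
    (hfg : ∀ l, l.length = h → f l ≤ g l) : EL p h f ≤ EL p h g := by
  induction h generalizing f g with
  | zero => exact hfg [] rfl
  | succ h ih =>
    refine ih fun l hl => ?_
    exact add_le_add (mul_le_mul_of_nonneg_left (hfg _ (by simp [hl])) (by linarith [(hp h).2]))
      (mul_le_mul_of_nonneg_left (hfg _ (by simp [hl])) (hp h).1)

theorem EL_congr {p : ℕ → ℝ} (h : ℕ) {f g : List Bool → ℝ}
    (hfg : ∀ l, l.length = h → f l = g l) : EL p h f = EL p h g := by
  induction h generalizing f g with
  | zero => exact hfg [] rfl
  | succ h ih =>
    refine ih fun l hl => ?_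
    simp only [hfg (false :: l) (by simp [hl]), hfg (true :: l) (by simp [hl])]

theorem EL_add (p : ℕ → ℝ) (h : ℕ) (f g : List Bool → ℝ) :
    EL p h (fun l => f l + g l) = EL p h f + EL p h g := by
  induction h generalizing f g with
  | zero => rfl
  | succ h ih =>
    have : (fun l => (1 - p h) * (f (false :: l) + g (false :: l))
        + p h * (f (true :: l) + g (true :: l)))
        = fun l => ((1 - p h) * f (false :: l) + p h * f (true :: l))
          + ((1 - p h) * g (false :: l) + p h * g (true :: l)) := by
      funext l; ring
    simp only [EL]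
    rw [this, ih]

theorem EL_smul (p : ℕ → ℝ) (h : ℕ) (r : ℝ) (f : List Bool → ℝ) :
    EL p h (fun l => r * f l) = r * EL p h f := by
  induction h generalizing f with
  | zero => rfl
  | succ h ih =>
    have : (fun l => (1 - p h) * (r * f (false :: l)) + p h * (r * f (true :: l)))
        = fun l => r * ((1 - p h) * f (false :: l) + p h * f (true :: l)) := by
      funext l; ring
    simp only [EL]
    rw [this, ih]

theorem EL_const (p : ℕ → ℝ) (h : ℕ) (r : ℝ) : EL p h (fun _ => r) = r := by
  induction h with
  | zero => rfl
  | succ h ih =>
    have : (fun _ : List Bool => (1 - p h) * r + p h * r) = fun _ => r := by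
      funext l; ring
    simp only [EL]
    rw [this, ih]

theorem EL_sum (p : ℕ → ℝ) (h : ℕ) {ι : Type*} (t : Finset ι) (f : ι → List Bool → ℝ) :
    EL p h (fun l => ∑ i ∈ t, f i l) = ∑ i ∈ t, EL p h (f i) := by
  classical
  induction t using Finset.induction_on with
  | empty => simp [EL_const]
  | insert i t hi ih =>
    have : (fun l => ∑ x ∈ insert i t, f x l) = fun l => f i l + ∑ x ∈ t, f x l := by
      funext l
      rw [sum_insert hi]
    rw [this, EL_add, ih, sum_insert hi]

/-- **the main inequality**: local regrets (summed over the ranks, averaged over the flag of the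
current step, for every list of later flags) add up along the path of the comparator. -/
theorem main {p : ℕ → ℝ} (hp : ∀ i, 0 ≤ p i ∧ p i ≤ 1) (hom : ∀ h s a j, 0 ≤ G.om h s a j)
    (K : ℕ) (q : ℕ → Bool → List Bool → S → A → ℝ) (reg : ℕ → S → ℝ) (H : ℕ)
    (hreg : ∀ l : List Bool, l.length < H → ∀ s,
      ∑ k ∈ range K, ((1 - p l.length) * loss G zs (q k) false l s
        + p l.length * loss G zs (q k) true l s) ≤ reg l.length s) (s : S) :
    EL p H (fun l => ∑ k ∈ range K, val G (q k) l s)
      ≤ K * cmp G zs H s + acc G zs H reg s := by
  induction H generalizing s with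
  | zero => simp [EL, val, cmp]
  | succ h ih =>
    have ih' := ih (fun l hl s => hreg l (by omega) s)
    -- one step: value = loss + Q(value) at the comparator's action
    have h1 : EL p (h + 1) (fun l => ∑ k ∈ range K, val G (q k) l s)
        = EL p h (fun l => ∑ k ∈ range K, ((1 - p h) * loss G zs (q k) false l s
            + p h * loss G zs (q k) true l s)
          + ∑ k ∈ range K, Q G l.length (val G (q k) l) s (zs l.length s)) := by
      refine EL_congr h fun l hl => ?_
      rw [mul_sum, mul_sum, ← sum_add_distrib, ← sum_add_distrib]
      refine sum_congr rfl fun k _ => ?_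
      unfold loss
      ring
    rw [h1, EL_add]
    have h2 : EL p h (fun l => ∑ k ∈ range K, ((1 - p h) * loss G zs (q k) false l s
        + p h * loss G zs (q k) true l s)) ≤ reg h s := by
      calc _ ≤ EL p h (fun _ => reg h s) := by
            refine EL_mono hp h fun l hl => ?_
            have := hreg l (by omega) s
            rw [hl] at this
            exact this
        _ = reg h s := EL_const p h _
    have h3 : EL p h (fun l => ∑ k ∈ range K, Q G l.length (val G (q k) l) s (zs l.length s))
        = K * G.c h s (zs h s) + ∑ j, G.om h s (zs h s) j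
            * EL p h (fun l => ∑ k ∈ range K, val G (q k) l (G.nx h s (zs h s) j)) := by
      have : EL p h (fun l => ∑ k ∈ range K, Q G l.length (val G (q k) l) s (zs l.length s))
          = EL p h (fun l => K * G.c h s (zs h s) + ∑ j, G.om h s (zs h s) j
            * ∑ k ∈ range K, val G (q k) l (G.nx h s (zs h s) j)) := by
        refine EL_congr h fun l hl => ?_
        unfold Q
        rw [sum_add_distrib, sum_const, card_range, nsmul_eq_mul, hl, sum_comm]
        congr 1
        exact sum_congr rfl fun j _ => by rw [mul_sum]
      rw [this, EL_add, EL_const, EL_sum]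
      congr 1
      exact sum_congr rfl fun j _ => EL_smul _ _ _ _
    have h4 : ∑ j, G.om h s (zs h s) j
          * EL p h (fun l => ∑ k ∈ range K, val G (q k) l (G.nx h s (zs h s) j))
        ≤ ∑ j, G.om h s (zs h s) j * (K * cmp G zs h (G.nx h s (zs h s) j)
            + acc G zs h reg (G.nx h s (zs h s) j)) :=
      sum_le_sum fun j _ => mul_le_mul_of_nonneg_left (ih' _) (hom _ _ _ _)
    have h5 : ∑ j, G.om h s (zs h s) j * (K * cmp G zs h (G.nx h s (zs h s) j)
            + acc G zs h reg (G.nx h s (zs h s) j))
        = K * ∑ j, G.om h s (zs h s) j * cmp G zs h (G.nx h s (zs h s) j)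
          + ∑ j, G.om h s (zs h s) j * acc G zs h reg (G.nx h s (zs h s) j) := by
      rw [mul_sum, ← sum_add_distrib]
      exact sum_congr rfl fun j _ => by ring
    rw [h3]
    have h6 : (K : ℝ) * cmp G zs (h + 1) s = K * G.c h s (zs h s)
        + K * ∑ j, G.om h s (zs h s) j * cmp G zs h (G.nx h s (zs h s) j) := by
      simp only [cmp, Q]
      ring
    rw [h6, acc_succ]
    linarith

end Crest.Agent.R288.TreeA330
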