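import Mathlib
import Crest.Agent.R288.TreeA_330

/-!
# R288 (S0433), part (C) of LEMMA 288-90 (#3987), in the form of `TreeA_330`

Statistics of the path of the comparator `zs` in an abstract `Game S A J` (all sums are `acc`).
`Q : ℕ → S → Prop` is a class of states closed under the comparator's moves (`Cl G zs Q`);
the first argument of `Q`, of the slope `a` and of potentials is the number of REMAINING steps,
the first argument of `del`, `δ`, `win` is the number of steps BELOW the current one (as in `acc`).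
Absorbing states (exit) need no special treatment: there `del = 0` and the slope does not move.

* `acc_le_pot`, `cmp_le_pot` : superharmonic majorants;
* `acc_energy` : `E Σ q del² ≤ K - a²`;
* `acc_far` : expected number of steps with `|del| > sg` is `≤ K / (q sg²)`;
* `bad`, `acc_bad` : expected number of window starts whose window tree contains a far step
  is `≤ lam⁻ⁿ * (number of far steps)`;
* `acc_mode` : expected number of steps in mode 1 is `≤ n *` (number of starts of mode-1 windows).
-/

set_option autoImplicit false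

namespace Crest.Agent.R288.CmpT184

open Finset Crest.Agent.R288.TreeA330

variable {S A J : Type*} [Fintype J]
variable (G : Game S A J) (zs : ℕ → S → A)

/-- `Q` is closed under the moves of the comparator -/
def Cl (Q : ℕ → S → Prop) : Prop :=
  ∀ h s j, Q (h + 1) s → G.om h s (zs h s) j ≠ 0 → Q h (G.nx h s (zs h s) j)

variable {G zs}

omit [Fintype J] in
theorem Cl_true : Cl G zs (fun _ _ => True) := fun _ _ _ _ _ => trivial

/-- comparison of weighted sums over the successors -/
theorem sum_om_le (hom : ∀ h s a j, 0 ≤ G.om h s a j) {Q : ℕ → S → Prop} (hQ : Cl G zs Q)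
    {f g : S → ℝ} {h : ℕ} {s : S} (hs : Q (h + 1) s) (hfg : ∀ t, Q h t → f t ≤ g t) :
    ∑ j, G.om h s (zs h s) j * f (G.nx h s (zs h s) j) ≤
      ∑ j, G.om h s (zs h s) j * g (G.nx h s (zs h s) j) := by
  refine Finset.sum_le_sum fun j _ => ?_
  by_cases h0 : G.om h s (zs h s) j = 0
  · simp [h0]
  · exact mul_le_mul_of_nonneg_left (hfg _ (hQ h s j hs h0)) (hom _ _ _ _)

/-- **Superharmonic majorant** of `acc`. -/
theorem acc_le_pot (hom : ∀ h s a j, 0 ≤ G.om h s a j) {Q : ℕ → S → Prop} (hQ : Cl G zs Q)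
    {δ φ : ℕ → S → ℝ} (h0 : ∀ s, Q 0 s → 0 ≤ φ 0 s)
    (hstep : ∀ h s, Q (h + 1) s →
      δ h s + ∑ j, G.om h s (zs h s) j * φ h (G.nx h s (zs h s) j) ≤ φ (h + 1) s) :
    ∀ H s, Q H s → acc G zs H δ s ≤ φ H s := by
  intro H
  induction H with
  | zero => intro s hs; simpa using h0 s hs
  | succ h ih =>
      intro s hs
      rw [acc_succ]
      have := sum_om_le hom hQ hs ih
      have := hstep h s hs
      linarith

/-- the same with an upper bound of the number of steps -/
theorem acc_le_pot' (hom : ∀ h s a j, 0 ≤ G.om h s a j) {Q : ℕ → S → Prop} (hQ : Cl G zs Q)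
    {δ φ : ℕ → S → ℝ} (H : ℕ) (h0 : ∀ s, Q 0 s → 0 ≤ φ 0 s)
    (hstep : ∀ h < H, ∀ s, Q (h + 1) s →
      δ h s + ∑ j, G.om h s (zs h s) j * φ h (G.nx h s (zs h s) j) ≤ φ (h + 1) s) :
    ∀ s, Q H s → acc G zs H δ s ≤ φ H s := by
  induction H with
  | zero => intro s hs; simpa using h0 s hs
  | succ h ih =>
      intro s hs
      rw [acc_succ]
      have := sum_om_le hom hQ hs (ih fun i hi => hstep i (by omega))
      have := hstep h (by omega) s hs
      linarith

/-- **Superharmonic majorant** of the comparator's cost. -/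
theorem cmp_le_pot (hom : ∀ h s a j, 0 ≤ G.om h s a j) {Q : ℕ → S → Prop} (hQ : Cl G zs Q)
    {φ : ℕ → S → ℝ} (h0 : ∀ s, Q 0 s → G.F s ≤ φ 0 s)
    (hstep : ∀ h s, Q (h + 1) s → G.c h s (zs h s) +
      ∑ j, G.om h s (zs h s) j * φ h (G.nx h s (zs h s) j) ≤ φ (h + 1) s) :
    ∀ H s, Q H s → cmp G zs H s ≤ φ H s := by
  intro H
  induction H with
  | zero => intro s hs; exact h0 s hs
  | succ h ih =>
      intro s hs
      have h1 : cmp G zs (h + 1) s = G.c h s (zs h s) +
          ∑ j, G.om h s (zs h s) j * cmp G zs h (G.nx h s (zs h s) j) := rfl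
      rw [h1]
      have := sum_om_le hom hQ hs ih
      have := hstep h s hs
      linarith

/-- monotonicity of `acc` on a closed class -/
theorem acc_mono_on (hom : ∀ h s a j, 0 ≤ G.om h s a j) {Q : ℕ → S → Prop} (hQ : Cl G zs Q)
    {δ δ' : ℕ → S → ℝ} (hδ : ∀ h s, Q (h + 1) s → δ h s ≤ δ' h s) :
    ∀ H s, Q H s → acc G zs H δ s ≤ acc G zs H δ' s := by
  intro H
  induction H with
  | zero => intro s _; simp
  | succ h ih =>
      intro s hs
      rw [acc_succ, acc_succ]
      have := sum_om_le hom hQ hs ih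
      have := hδ h s hs
      linarith

/-- `acc` of a constant: at most `H` times the constant when the weights sum to at most one -/
theorem acc_const_le (hom : ∀ h s a j, 0 ≤ G.om h s a j) {Q : ℕ → S → Prop} (hQ : Cl G zs Q)
    (hom1 : ∀ h s, Q (h + 1) s → ∑ j, G.om h s (zs h s) j ≤ 1) {r : ℝ} (hr : 0 ≤ r)
    (H : ℕ) (s : S) (hs : Q H s) : acc G zs H (fun _ _ => r) s ≤ H * r := by
  refine acc_le_pot (φ := fun h _ => (h : ℝ) * r) hom hQ ?_ ?_ H s hs
  · intro s _; simp
  · intro h s hs
    rw [← Finset.sum_mul]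
    have h1 : (∑ j, G.om h s (zs h s) j) * ((h : ℝ) * r) ≤ 1 * ((h : ℝ) * r) :=
      mul_le_mul_of_nonneg_right (hom1 h s hs) (by positivity)
    push_cast
    linarith

/-! ### energy of the slope -/

/-- **Energy.**  If `δ + a² ≤ Σ_j om_j a_j²`, `Σ om ≤ 1` and `a² ≤ K` on the closed class `Q`, then
`acc δ ≤ K - a²`. -/
theorem acc_energy (hom : ∀ h s a j, 0 ≤ G.om h s a j) {Q : ℕ → S → Prop} (hQ : Cl G zs Q)
    (hom1 : ∀ h s, Q (h + 1) s → ∑ j, G.om h s (zs h s) j ≤ 1)
    {δ a : ℕ → S → ℝ} {K : ℝ} (hK0 : 0 ≤ K) (hK : ∀ h s, Q h s → a h s ^ 2 ≤ K)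
    (hstep : ∀ h s, Q (h + 1) s → δ h s + a (h + 1) s ^ 2 ≤
      ∑ j, G.om h s (zs h s) j * a h (G.nx h s (zs h s) j) ^ 2)
    (H : ℕ) (s : S) (hs : Q H s) : acc G zs H δ s ≤ K - a H s ^ 2 := by
  refine acc_le_pot (φ := fun h s => K - a h s ^ 2) hom hQ ?_ ?_ H s hs
  · intro s hs; have := hK 0 s hs; linarith
  · intro h s hs
    have h1 := hstep h s hs
    have h2 : ∑ j, G.om h s (zs h s) j * (K - a h (G.nx h s (zs h s) j) ^ 2) =
        K * ∑ j, G.om h s (zs h s) j -
          ∑ j, G.om h s (zs h s) j * a h (G.nx h s (zs h s) j) ^ 2 := by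
      rw [Finset.mul_sum, ← Finset.sum_sub_distrib]
      exact Finset.sum_congr rfl fun c _ => by ring
    have h3 : K * ∑ j, G.om h s (zs h s) j ≤ K := by
      have := mul_le_mul_of_nonneg_left (hom1 h s hs) hK0
      simpa using this
    linarith

open Classical in
/-- **Number of far letters** (Chebyshev). -/
theorem acc_far (hom : ∀ h s a j, 0 ≤ G.om h s a j) {Q : ℕ → S → Prop} (hQ : Cl G zs Q)
    (hom1 : ∀ h s, Q (h + 1) s → ∑ j, G.om h s (zs h s) j ≤ 1)
    {del a : ℕ → S → ℝ} {K q sg : ℝ} (hK0 : 0 ≤ K) (hq : 0 < q) (hsg : 0 < sg)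
    (hK : ∀ h s, Q h s → a h s ^ 2 ≤ K)
    (hstep : ∀ h s, Q (h + 1) s → q * del h s ^ 2 + a (h + 1) s ^ 2 ≤
      ∑ j, G.om h s (zs h s) j * a h (G.nx h s (zs h s) j) ^ 2)
    (H : ℕ) (s : S) (hs : Q H s) :
    acc G zs H (fun h s => if sg < |del h s| then 1 else 0) s ≤ K / (q * sg ^ 2) := by
  have hpos : 0 < q * sg ^ 2 := by positivity
  have h1 := acc_energy (δ := fun h s => q * del h s ^ 2) hom hQ hom1 hK0 hK hstep H s hs
  have h2 : acc G zs H (fun h s => if sg < |del h s| then 1 else 0) s ≤
      acc G zs H (fun h s => (q * sg ^ 2)⁻¹ * (q * del h s ^ 2)) s := by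
    refine acc_mono G zs hom H (fun h _ s => ?_) s
    split_ifs with hf
    · have : sg ^ 2 ≤ del h s ^ 2 := by
        rw [← sq_abs (del h s)]
        exact pow_le_pow_left₀ hsg.le hf.le 2
      have h3 : q * sg ^ 2 ≤ q * del h s ^ 2 := mul_le_mul_of_nonneg_left this hq.le
      rw [← div_eq_inv_mul, le_div_iff₀ hpos]
      linarith
    · positivity
  rw [acc_smul] at h2
  refine h2.trans ?_
  rw [div_eq_inv_mul]
  refine mul_le_mul_of_nonneg_left ?_ (by positivity)
  have := sq_nonneg (a H s)
  linarith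

/-- the slope identity of a fair coin: children slopes `a + 2 del` and `a - 2 del` -/
theorem slope_id (a del : ℝ) :
    4 * del ^ 2 + a ^ 2 = 1 / 2 * (a + 2 * del) ^ 2 + 1 / 2 * (a - 2 * del) ^ 2 := by ring

/-! ### windows -/

variable (G zs)

/-- `bad Far n h s` (`h` = remaining steps): some state of the tree below `s`, at depth `< n`, is
far -/
def bad (Far : ℕ → S → Prop) : ℕ → ℕ → S → Prop
  | 0, _, _ => False
  | _ + 1, 0, _ => False
  | n + 1, h + 1, s => Far h s ∨
      ∃ j, G.om h s (zs h s) j ≠ 0 ∧ bad Far n h (G.nx h s (zs h s) j)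

/-- sum of `δ` over the next `n` steps of the comparator's path -/
noncomputable def cnt (δ : ℕ → S → ℝ) : ℕ → ℕ → S → ℝ
  | 0, _, _ => 0
  | _ + 1, 0, _ => 0
  | n + 1, h + 1, s => δ h s +
      ∑ j, G.om h s (zs h s) j * cnt δ n h (G.nx h s (zs h s) j)

variable {G zs}

theorem cnt_zero (δ : ℕ → S → ℝ) (h : ℕ) (s : S) : cnt G zs δ 0 h s = 0 := by
  cases h <;> rfl

theorem cnt_zero_right (δ : ℕ → S → ℝ) (n : ℕ) (s : S) : cnt G zs δ n 0 s = 0 := by
  cases n <;> rfl

theorem cnt_succ (δ : ℕ → S → ℝ) (n h : ℕ) (s : S) : cnt G zs δ (n + 1) (h + 1) s =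
    δ h s + ∑ j, G.om h s (zs h s) j * cnt G zs δ n h (G.nx h s (zs h s) j) := rfl

theorem cnt_nonneg (hom : ∀ h s a j, 0 ≤ G.om h s a j) {δ : ℕ → S → ℝ} (hδ : ∀ h s, 0 ≤ δ h s) :
    ∀ n h s, 0 ≤ cnt G zs δ n h s := by
  intro n
  induction n with
  | zero => intro h s; rw [cnt_zero]
  | succ n ih =>
      intro h s
      cases h with
      | zero => rw [cnt_zero_right]
      | succ h =>
          rw [cnt_succ]
          exact add_nonneg (hδ _ _) (Finset.sum_nonneg fun c _ => mul_nonneg (hom _ _ _ _) (ih _ _))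

theorem cnt_mono (hom : ∀ h s a j, 0 ≤ G.om h s a j) {δ : ℕ → S → ℝ} (hδ : ∀ h s, 0 ≤ δ h s) :
    ∀ m m' h s, m ≤ m' → cnt G zs δ m h s ≤ cnt G zs δ m' h s := by
  intro m
  induction m with
  | zero => intro m' h s _; rw [cnt_zero]; exact cnt_nonneg hom hδ m' h s
  | succ m ih =>
      intro m' h s hm
      cases m' with
      | zero => omega
      | succ m' =>
          cases h with
          | zero => rw [cnt_zero_right, cnt_zero_right]
          | succ h =>
              rw [cnt_succ, cnt_succ]
              refine add_le_add le_rfl (Finset.sum_le_sum fun c _ => ?_)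
              exact mul_le_mul_of_nonneg_left (ih _ _ _ (by omega)) (hom _ _ _ _)

/-- a window that contains a far state meets it with weight at least `lam ^ n` -/
theorem bad_le_cnt (hom : ∀ h s a j, 0 ≤ G.om h s a j) {Q : ℕ → S → Prop} (hQ : Cl G zs Q)
    {Far : ℕ → S → Prop} {δ : ℕ → S → ℝ} {lam : ℝ}
    (hl0 : 0 ≤ lam) (hl1 : lam ≤ 1)
    (hlam : ∀ h s j, Q (h + 1) s → G.om h s (zs h s) j ≠ 0 → lam ≤ G.om h s (zs h s) j)
    (hδ : ∀ h s, 0 ≤ δ h s) (hF : ∀ h s, Q (h + 1) s → Far h s → 1 ≤ δ h s) :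
    ∀ n h s, Q h s → bad G zs Far n h s → lam ^ n ≤ cnt G zs δ n h s := by
  intro n
  induction n with
  | zero => intro h s _ hb; simp [bad] at hb
  | succ n ih =>
      intro h s hs hb
      cases h with
      | zero => simp [bad] at hb
      | succ h =>
          rw [cnt_succ]
          have hnn : ∀ j, 0 ≤ G.om h s (zs h s) j * cnt G zs δ n h (G.nx h s (zs h s) j) :=
            fun j => mul_nonneg (hom _ _ _ _) (cnt_nonneg hom hδ _ _ _)
          rcases hb with hb | ⟨j, hj, hb⟩
          · have h1 := hF h s hs hb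
            have h2 : lam ^ (n + 1) ≤ 1 := pow_le_one₀ hl0 hl1
            have h3 := Finset.sum_nonneg fun j (_ : j ∈ (univ : Finset J)) => hnn j
            linarith
          · have h1 : G.om h s (zs h s) j * cnt G zs δ n h (G.nx h s (zs h s) j) ≤
                ∑ j, G.om h s (zs h s) j * cnt G zs δ n h (G.nx h s (zs h s) j) :=
              Finset.single_le_sum (f := fun j => G.om h s (zs h s) j *
                cnt G zs δ n h (G.nx h s (zs h s) j)) (fun j _ => hnn j) (Finset.mem_univ j)
            have h2 : lam * lam ^ n ≤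
                G.om h s (zs h s) j * cnt G zs δ n h (G.nx h s (zs h s) j) :=
              mul_le_mul (hlam h s j hs hj) (ih h _ (hQ h s j hs hj) hb)
                (pow_nonneg hl0 n) (hom _ _ _ _)
            have h3 := hδ h s
            rw [pow_succ']
            linarith

open Classical in
/-- The far steps met inside the windows are different steps.  `win h`: the step with `h` steps
below it is a window start; `u h` (`h` = remaining steps): number of steps of the current window
that are still to come, `u (h+1) = n` at a start. -/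
theorem acc_cnt (hom : ∀ h s a j, 0 ≤ G.om h s a j) {δ : ℕ → S → ℝ} (hδ : ∀ h s, 0 ≤ δ h s)
    {win : ℕ → Prop} {u : ℕ → ℕ} {n : ℕ}
    (hu1 : ∀ h, win h → u (h + 1) = n) (hu2 : ∀ h, ¬ win h → u (h + 2) ≤ u (h + 1) + 1)
    (hu3 : ∀ h, win h → u (h + 2) ≤ 1) :
    ∀ H s, acc G zs H (fun h s => if win h then cnt G zs δ n (h + 1) s else 0) s +
      (if H ≠ 0 ∧ win (H - 1) then 0 else cnt G zs δ (u H) H s) ≤ acc G zs H δ s := by
  intro H
  induction H with
  | zero => intro s; simp [cnt_zero_right]
  | succ h ih =>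
      intro s
      rw [acc_succ, acc_succ]
      have key : ∀ m, m ≤ u (h + 1) →
          cnt G zs δ m (h + 1) s + ∑ j, G.om h s (zs h s) j *
            acc G zs h (fun h s => if win h then cnt G zs δ n (h + 1) s else 0)
              (G.nx h s (zs h s) j) ≤
          δ h s + ∑ j, G.om h s (zs h s) j * acc G zs h δ (G.nx h s (zs h s) j) := by
        intro m hm
        cases m with
        | zero =>
            rw [cnt_zero]
            have : ∑ j, G.om h s (zs h s) j *
                acc G zs h (fun h s => if win h then cnt G zs δ n (h + 1) s else 0)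
                  (G.nx h s (zs h s) j) ≤
                ∑ j, G.om h s (zs h s) j * acc G zs h δ (G.nx h s (zs h s) j) := by
              refine Finset.sum_le_sum fun j _ => mul_le_mul_of_nonneg_left ?_ (hom _ _ _ _)
              have h1 := ih (G.nx h s (zs h s) j)
              have h2 : 0 ≤ (if h ≠ 0 ∧ win (h - 1) then (0 : ℝ) else
                  cnt G zs δ (u h) h (G.nx h s (zs h s) j)) := by
                split_ifs
                · exact le_rfl
                · exact cnt_nonneg hom hδ _ _ _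
              linarith
            have := hδ h s
            linarith
        | succ m =>
            rw [cnt_succ, add_assoc, ← Finset.sum_add_distrib]
            refine add_le_add le_rfl (Finset.sum_le_sum fun j _ => ?_)
            rw [← mul_add]
            refine mul_le_mul_of_nonneg_left ?_ (hom _ _ _ _)
            have h1 := ih (G.nx h s (zs h s) j)
            rcases Nat.eq_zero_or_pos h with rfl | hpos
            · rw [cnt_zero_right]
              simp
            · obtain ⟨i, rfl⟩ : ∃ i, h = i + 1 := ⟨h - 1, by omega⟩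
              by_cases hw : win i
              · have h2 : u (i + 1 + 1) ≤ 1 := hu3 i hw
                have h3 : m = 0 := by omega
                subst h3
                rw [cnt_zero, zero_add]
                simpa [hw] using h1
              · have h2 : u (i + 1 + 1) ≤ u (i + 1) + 1 := hu2 i hw
                have h3 : m ≤ u (i + 1) := by omega
                have h4 := cnt_mono (zs := zs) hom hδ m (u (i + 1)) (i + 1)
                  (G.nx (i + 1) s (zs (i + 1) s) j) h3
                have h5 : ¬ (i + 1 ≠ 0 ∧ win (i + 1 - 1)) := by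
                  simpa using hw
                rw [if_neg h5] at h1
                linarith
      by_cases hw : win h
      · have h1 := key n (hu1 h hw).ge
        have h5 : (h + 1 ≠ 0 ∧ win (h + 1 - 1)) := ⟨by omega, by simpa using hw⟩
        rw [if_pos h5, if_pos hw]
        linarith
      · have h1 := key (u (h + 1)) le_rfl
        have h5 : ¬ (h + 1 ≠ 0 ∧ win (h + 1 - 1)) := by simpa using hw
        rw [if_neg h5, if_neg hw]
        linarith

open Classical in
/-- **(C5)** expected number of window starts whose window tree contains a far step -/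
theorem acc_bad (hom : ∀ h s a j, 0 ≤ G.om h s a j) {Q : ℕ → S → Prop} (hQ : Cl G zs Q)
    {Far : ℕ → S → Prop} {δ : ℕ → S → ℝ} {lam : ℝ} (hl0 : 0 < lam) (hl1 : lam ≤ 1)
    (hlam : ∀ h s j, Q (h + 1) s → G.om h s (zs h s) j ≠ 0 → lam ≤ G.om h s (zs h s) j)
    (hδ : ∀ h s, 0 ≤ δ h s) (hF : ∀ h s, Q (h + 1) s → Far h s → 1 ≤ δ h s)
    {win : ℕ → Prop} {u : ℕ → ℕ} {n : ℕ}
    (hu1 : ∀ h, win h → u (h + 1) = n) (hu2 : ∀ h, ¬ win h → u (h + 2) ≤ u (h + 1) + 1)
    (hu3 : ∀ h, win h → u (h + 2) ≤ 1) (H : ℕ) (s : S) (hs : Q H s) :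
    acc G zs H (fun h s => if win h ∧ bad G zs Far n (h + 1) s then 1 else 0) s ≤
      (lam ^ n)⁻¹ * acc G zs H δ s := by
  have hpos : 0 < lam ^ n := pow_pos hl0 n
  have h1 : acc G zs H (fun h s => if win h ∧ bad G zs Far n (h + 1) s then 1 else 0) s ≤
      acc G zs H (fun h s => (lam ^ n)⁻¹ * (if win h then cnt G zs δ n (h + 1) s else 0)) s := by
    refine acc_mono_on hom hQ ?_ H s hs
    intro h s hs
    by_cases hw : win h ∧ bad G zs Far n (h + 1) s
    · rw [if_pos hw, if_pos hw.1]
      have := bad_le_cnt hom hQ hl0.le hl1 hlam hδ hF n (h + 1) s hs hw.2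
      rw [← div_eq_inv_mul, le_div_iff₀ hpos]
      linarith
    · rw [if_neg hw]
      refine mul_nonneg (by positivity) ?_
      split_ifs
      · exact cnt_nonneg hom hδ _ _ _
      · exact le_rfl
  rw [acc_smul] at h1
  refine h1.trans (mul_le_mul_of_nonneg_left ?_ (by positivity))
  have h2 := acc_cnt (zs := zs) hom hδ hu1 hu2 hu3 H s
  have h3 : 0 ≤ (if H ≠ 0 ∧ win (H - 1) then (0 : ℝ) else cnt G zs δ (u H) H s) := by
    split_ifs
    · exact le_rfl
    · exact cnt_nonneg hom hδ _ _ _
  linarith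

open Classical in
/-- **Steps in mode 1.**  `md s`: the mode bit of the state.  `start h`: the step at which the mode
is chosen; inside a window the mode is kept. -/
theorem acc_mode (hom : ∀ h s a j, 0 ≤ G.om h s a j) {Q : ℕ → S → Prop} (hQ : Cl G zs Q)
    (hom1 : ∀ h s, Q (h + 1) s → ∑ j, G.om h s (zs h s) j ≤ 1)
    {md : S → Prop} {start : ℕ → Prop} {u : ℕ → ℕ} {n : ℕ} {B : ℕ → S → ℝ}
    (hB : ∀ h s, 0 ≤ B h s)
    (hu : ∀ h, ¬ start h → u h + 1 ≤ u (h + 1))
    (hin : ∀ h s j, Q (h + 1) s → ¬ start h → G.om h s (zs h s) j ≠ 0 →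
      md (G.nx h s (zs h s) j) → md s)
    (hst : ∀ h s j, Q (h + 1) s → start h → G.om h s (zs h s) j ≠ 0 →
      md (G.nx h s (zs h s) j) → 1 ≤ B h s)
    (hun : ∀ h, start h → u h ≤ n) (H : ℕ) (s : S) (hs : Q H s) :
    acc G zs H (fun h s => if md s ∧ ¬ start h then 1 else 0) s ≤
      (if md s then (u H : ℝ) else 0) + n * acc G zs H B s := by
  refine acc_le_pot
    (φ := fun h s => (if md s then (u h : ℝ) else 0) + n * acc G zs h B s) hom hQ ?_ ?_ H s hs
  · intro s _
    have : (0 : ℝ) ≤ (if md s then (u 0 : ℝ) else 0) := by split_ifs <;> positivity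
    simpa using this
  · intro h s hs
    have hsplit : ∑ j, G.om h s (zs h s) j *
        ((if md (G.nx h s (zs h s) j) then (u h : ℝ) else 0) +
          n * acc G zs h B (G.nx h s (zs h s) j)) =
        ∑ j, G.om h s (zs h s) j * (if md (G.nx h s (zs h s) j) then (u h : ℝ) else 0) +
        n * ∑ j, G.om h s (zs h s) j * acc G zs h B (G.nx h s (zs h s) j) := by
      rw [Finset.mul_sum, ← Finset.sum_add_distrib]
      exact Finset.sum_congr rfl fun j _ => by ring
    simp only [hsplit]
    rw [acc_succ]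
    have hun' : (0 : ℝ) ≤ (u h : ℝ) := by positivity
    by_cases hst' : start h
    · -- the mode is chosen here
      have h1 : ∑ j, G.om h s (zs h s) j * (if md (G.nx h s (zs h s) j) then (u h : ℝ) else 0) ≤
          n * B h s := by
        by_cases hex : ∃ j, G.om h s (zs h s) j ≠ 0 ∧ md (G.nx h s (zs h s) j)
        · obtain ⟨j, hj, hm⟩ := hex
          have hb := hst h s j hs hst' hj hm
          have h2 : ∑ j, G.om h s (zs h s) j *
              (if md (G.nx h s (zs h s) j) then (u h : ℝ) else 0) ≤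
              ∑ j, G.om h s (zs h s) j * (u h : ℝ) := by
            refine Finset.sum_le_sum fun j _ => mul_le_mul_of_nonneg_left ?_ (hom _ _ _ _)
            split_ifs
            · exact le_rfl
            · exact hun'
          rw [← Finset.sum_mul] at h2
          have h3 : (∑ j, G.om h s (zs h s) j) * (u h : ℝ) ≤ 1 * (u h : ℝ) :=
            mul_le_mul_of_nonneg_right (hom1 h s hs) hun'
          have h4 : (u h : ℝ) ≤ n := by exact_mod_cast hun h hst'
          have h5 : (n : ℝ) * 1 ≤ n * B h s := mul_le_mul_of_nonneg_left hb (by positivity)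
          linarith
        · push Not at hex
          have : ∑ j, G.om h s (zs h s) j *
              (if md (G.nx h s (zs h s) j) then (u h : ℝ) else 0) = 0 := by
            refine Finset.sum_eq_zero fun j _ => ?_
            by_cases hj : G.om h s (zs h s) j = 0
            · simp [hj]
            · simp [hex j hj]
          rw [this]
          exact mul_nonneg (by positivity) (hB h s)
      have h2 : (0 : ℝ) ≤ (if md s then ((u (h + 1) : ℕ) : ℝ) else 0) := by
        split_ifs <;> positivity
      have h3 : (if md s ∧ ¬ start h then (1 : ℝ) else 0) = 0 := by simp [hst']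
      rw [h3, mul_add]
      linarith
    · -- inside a window
      have h1 : ∑ j, G.om h s (zs h s) j * (if md (G.nx h s (zs h s) j) then (u h : ℝ) else 0) ≤
          (if md s then (u h : ℝ) else 0) := by
        have h2 : ∑ j, G.om h s (zs h s) j *
            (if md (G.nx h s (zs h s) j) then (u h : ℝ) else 0) ≤
            ∑ j, G.om h s (zs h s) j * (if md s then (u h : ℝ) else 0) := by
          refine Finset.sum_le_sum fun j _ => ?_
          by_cases hj : G.om h s (zs h s) j = 0
          · simp [hj]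
          · refine mul_le_mul_of_nonneg_left ?_ (hom _ _ _ _)
            by_cases hm : md (G.nx h s (zs h s) j)
            · have := hin h s j hs hst' hj hm
              simp [hm, this]
            · simp only [hm, if_false]
              split_ifs
              · exact hun'
              · exact le_rfl
        rw [← Finset.sum_mul] at h2
        have h3 : (0 : ℝ) ≤ (if md s then (u h : ℝ) else 0) := by split_ifs <;> positivity
        have h4 := mul_le_mul_of_nonneg_right (hom1 h s hs) h3
        linarith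
      have hu' : (u h : ℝ) + 1 ≤ (u (h + 1) : ℕ) := by exact_mod_cast hu h hst'
      have hBn : (0 : ℝ) ≤ n * B h s := mul_nonneg (by positivity) (hB h s)
      rw [mul_add]
      by_cases hm : md s
      · simp only [hm, hst', not_false_eq_true, and_self, if_true] at h1 ⊢
        linarith
      · simp only [hm, false_and, if_false] at h1 ⊢
        linarith

/-! ### windows of `n` steps counted from the top step `T` (`T + 1` steps in all) -/

/-- the step with `h` steps below it is a window start -/
def stdWin (T n : ℕ) (h : ℕ) : Prop := h ≤ T ∧ (T - h) % n = 0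

/-- number of steps of the current window that are still to come when `m` steps remain -/
def stdU (T n : ℕ) (m : ℕ) : ℕ := if 1 ≤ m ∧ m ≤ T + 1 then n - (T - (m - 1)) % n else 0

theorem stdU_start {T n : ℕ} {h : ℕ} (hw : stdWin T n h) : stdU T n (h + 1) = n := by
  obtain ⟨h1, h2⟩ := hw
  unfold stdU
  rw [if_pos ⟨by omega, by omega⟩, Nat.add_sub_cancel, h2]
  omega

theorem stdU_in {T n : ℕ} (hn : 0 < n) {h : ℕ} (hw : ¬ stdWin T n h) :
    stdU T n (h + 2) ≤ stdU T n (h + 1) + 1 := by
  unfold stdWin at hw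
  unfold stdU
  by_cases hT : h + 2 ≤ T + 1
  · rw [if_pos ⟨by omega, hT⟩, if_pos ⟨by omega, by omega⟩]
    have h1 : h + 2 - 1 = h + 1 := by omega
    rw [h1, Nat.add_sub_cancel]
    have h2 : (T - h) % n ≠ 0 := fun h0 => hw ⟨by omega, h0⟩
    have h3 : T - h = (T - (h + 1)) + 1 := by omega
    have h4 : (T - h) % n = (T - (h + 1)) % n + 1 := by
      rw [h3] at h2 ⊢
      have hlt := Nat.mod_lt (T - (h + 1)) hn
      rcases Nat.lt_or_ge ((T - (h + 1)) % n + 1) n with h5 | h5
      · rw [Nat.add_mod, Nat.mod_eq_of_lt (a := (T - (h + 1)) % n + 1 % n)]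
        · rcases Nat.lt_or_ge 1 n with h6 | h6
          · rw [Nat.mod_eq_of_lt h6]
          · omega
        · rcases Nat.lt_or_ge 1 n with h6 | h6
          · rw [Nat.mod_eq_of_lt h6]; exact h5
          · omega
      · exfalso
        apply h2
        have h6 : (T - (h + 1)) % n + 1 = n := by omega
        rw [Nat.add_mod]
        rcases Nat.lt_or_ge 1 n with h7 | h7
        · rw [Nat.mod_eq_of_lt h7, h6, Nat.mod_self]
        · have : n = 1 := by omega
          subst this
          exact Nat.mod_one _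
    have := Nat.mod_lt (T - h) hn
    omega
  · rw [if_neg (by omega)]
    omega

theorem stdU_last {T n : ℕ} (hn : 0 < n) {h : ℕ} (hw : stdWin T n h) :
    stdU T n (h + 2) ≤ 1 := by
  obtain ⟨h1, h2⟩ := hw
  unfold stdU
  by_cases hT : h + 2 ≤ T + 1
  · rw [if_pos ⟨by omega, hT⟩]
    have h1 : h + 2 - 1 = h + 1 := by omega
    rw [h1]
    have h3 : T - h = (T - (h + 1)) + 1 := by omega
    have hlt := Nat.mod_lt (T - (h + 1)) hn
    by_contra hcon
    have h5 : (T - (h + 1)) % n + 1 < n := by omega
    rw [h3, Nat.add_mod, Nat.mod_eq_of_lt (by omega : 1 < n), Nat.mod_eq_of_lt h5] at h2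
    omega
  · rw [if_neg (by omega)]
    omega

open Classical in
/-- `acc_bad` for standard windows -/
theorem acc_bad_std (hom : ∀ h s a j, 0 ≤ G.om h s a j) {Q : ℕ → S → Prop} (hQ : Cl G zs Q)
    {Far : ℕ → S → Prop} {δ : ℕ → S → ℝ} {lam : ℝ} (hl0 : 0 < lam) (hl1 : lam ≤ 1)
    (hlam : ∀ h s j, Q (h + 1) s → G.om h s (zs h s) j ≠ 0 → lam ≤ G.om h s (zs h s) j)
    (hδ : ∀ h s, 0 ≤ δ h s) (hF : ∀ h s, Q (h + 1) s → Far h s → 1 ≤ δ h s)
    (T : ℕ) {n : ℕ} (hn : 0 < n) (H : ℕ) (s : S) (hs : Q H s) :
    acc G zs H (fun h s => if stdWin T n h ∧ bad G zs Far n (h + 1) s then 1 else 0) s ≤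
      (lam ^ n)⁻¹ * acc G zs H δ s :=
  acc_bad (win := stdWin T n) (u := stdU T n) hom hQ hl0 hl1 hlam hδ hF
    (fun _ hw => stdU_start hw) (fun _ hw => stdU_in hn hw) (fun _ hw => stdU_last hn hw) H s hs

open Classical in
/-- **(C) complete**: windows whose tree contains a step with `|del| > sg` -/
theorem acc_bad_far (hom : ∀ h s a j, 0 ≤ G.om h s a j) {Q : ℕ → S → Prop} (hQ : Cl G zs Q)
    (hom1 : ∀ h s, Q (h + 1) s → ∑ j, G.om h s (zs h s) j ≤ 1)
    {lam : ℝ} (hl0 : 0 < lam) (hl1 : lam ≤ 1)
    (hlam : ∀ h s j, Q (h + 1) s → G.om h s (zs h s) j ≠ 0 → lam ≤ G.om h s (zs h s) j)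
    {del a : ℕ → S → ℝ} {K q sg : ℝ} (hK0 : 0 ≤ K) (hq : 0 < q) (hsg : 0 < sg)
    (hK : ∀ h s, Q h s → a h s ^ 2 ≤ K)
    (hstep : ∀ h s, Q (h + 1) s → q * del h s ^ 2 + a (h + 1) s ^ 2 ≤
      ∑ j, G.om h s (zs h s) j * a h (G.nx h s (zs h s) j) ^ 2)
    (T : ℕ) {n : ℕ} (hn : 0 < n) (H : ℕ) (s : S) (hs : Q H s) :
    acc G zs H (fun h s => if stdWin T n h ∧
        bad G zs (fun h s => sg < |del h s|) n (h + 1) s then 1 else 0) s ≤
      (lam ^ n)⁻¹ * (K / (q * sg ^ 2)) := by
  refine (acc_bad_std (δ := fun h s => if sg < |del h s| then 1 else 0) hom hQ hl0 hl1 hlam ?_ ?_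
    T hn H s hs).trans ?_
  · intro h s; split_ifs <;> norm_num
  · intro h s _ hf; simp [hf]
  · refine mul_le_mul_of_nonneg_left ?_ (by positivity)
    exact acc_far hom hQ hom1 hK0 hq hsg hK hstep H s hs

end Crest.Agent.R288.CmpT184
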