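import Mathlib

/-!
# Confluence of good staircases by one hybrid (row 288, REMARK 288-780 (E1))

A staircase of a window is a sequence of cuts `c 0, .., c N` (in any type `α`, position
`ps : α → ℝ`); piece `j < N` has the reference cost `F j (c j) (c (j+1))`, Lipschitz in its
right end.  If every staircase made of the cuts of `c` and `c'` costs at least `Fx - κ`, if both
cost at most `Fx + s` and if both follow the slope equation
`ps (c p) - ps (c 0) = θ * (cost of the first p pieces) ± s'`, then all cuts agree up to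
`(κ + s + 2 s') / δ`.
-/

open Finset

namespace Crest.Agent.R288.Conf780

variable {α : Type*}

/-- Cost of the first `p` pieces. -/
def cost (F : ℕ → α → α → ℝ) (c : ℕ → α) (p : ℕ) : ℝ :=
  ∑ j ∈ range p, F j (c j) (c (j + 1))

@[simp] theorem cost_zero (F : ℕ → α → α → ℝ) (c : ℕ → α) : cost F c 0 = 0 := by
  simp [cost]

theorem cost_succ (F : ℕ → α → α → ℝ) (c : ℕ → α) (p : ℕ) :
    cost F c (p + 1) = cost F c p + F p (c p) (c (p + 1)) := by
  simp [cost, sum_range_succ]

/-- The hybrid: `c` before the cut `p`, `c'` from `p` on. -/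
def hyb (c c' : ℕ → α) (p : ℕ) : ℕ → α := fun j => if j < p then c j else c' j

theorem hyb_lt {c c' : ℕ → α} {p j : ℕ} (h : j < p) : hyb c c' p j = c j := by
  simp [hyb, h]

theorem hyb_ge {c c' : ℕ → α} {p j : ℕ} (h : p ≤ j) : hyb c c' p j = c' j := by
  simp [hyb, not_lt.2 h]

theorem hyb_or (c c' : ℕ → α) (p j : ℕ) : hyb c c' p j = c j ∨ hyb c c' p j = c' j := by
  unfold hyb; split_ifs <;> simp

theorem cost_hyb_lt (F : ℕ → α → α → ℝ) (c c' : ℕ → α) {p q : ℕ} (h : q < p) :
    cost F (hyb c c' p) q = cost F c q := by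
  unfold cost
  refine sum_congr rfl fun j hj => ?_
  have hj' := mem_range.1 hj
  rw [hyb_lt (by omega), hyb_lt (by omega)]

/-- The cost of the hybrid at the cut `p = k+1`: only piece `k` changes its right end. -/
theorem cost_hyb_le (F : ℕ → α → α → ℝ) (ps : α → ℝ) {l : ℝ} (c c' : ℕ → α) {k N : ℕ}
    (hk : k < N)
    (hl : ∀ j < N, ∀ p q q', F j p q' ≤ F j p q + l * |ps q' - ps q|) :
    cost F (hyb c c' (k + 1)) N ≤
      cost F c (k + 1) + l * |ps (c' (k + 1)) - ps (c (k + 1))|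
        + (cost F c' N - cost F c' (k + 1)) := by
  have h1 : ∀ M, k + 1 ≤ M → M ≤ N → cost F (hyb c c' (k + 1)) M ≤
      cost F c (k + 1) + l * |ps (c' (k + 1)) - ps (c (k + 1))|
        + (cost F c' M - cost F c' (k + 1)) := by
    intro M hM
    induction M, hM using Nat.le_induction with
    | base =>
      intro _
      rw [cost_succ F (hyb c c' (k + 1)), cost_hyb_lt F c c' (Nat.lt_succ_self k),
        hyb_lt (Nat.lt_succ_self k), hyb_ge le_rfl, cost_succ F c]
      have := hl k hk (c k) (c (k + 1)) (c' (k + 1))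
      linarith
    | succ M hM ih =>
      intro hN
      have := ih (by omega)
      rw [cost_succ F (hyb c c' (k + 1)), hyb_ge hM, hyb_ge (by omega), cost_succ F c' M]
      linarith
  exact h1 N (by omega) le_rfl

/-- **Confluence.** Two good staircases have close cuts. -/
theorem conf (ps : α → ℝ) (F : ℕ → α → α → ℝ) {N : ℕ} {l κ s s' θ δ Fx : ℝ} (c c' : ℕ → α)
    (hl : ∀ j < N, ∀ p q q', F j p q' ≤ F j p q + l * |ps q' - ps q|)
    (h0 : c 0 = c' 0)
    (hlow : ∀ e : ℕ → α, e 0 = c 0 → e N = c N ∨ e N = c' N → (∀ j, e j = c j ∨ e j = c' j) →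
      Fx - κ ≤ cost F e N)
    (hc : cost F c N ≤ Fx + s) (hc' : cost F c' N ≤ Fx + s)
    (hs : ∀ p ≤ N, |ps (c p) - ps (c 0) - θ * cost F c p| ≤ s')
    (hs' : ∀ p ≤ N, |ps (c' p) - ps (c' 0) - θ * cost F c' p| ≤ s')
    (hδ : 0 < δ) (hθ : l * |θ| ≤ 1 - δ) (hθ1 : |θ| ≤ 1) (hκ : 0 ≤ κ) (hs0 : 0 ≤ s)
    {p : ℕ} (hp : p ≤ N) :
    |ps (c p) - ps (c' p)| ≤ (κ + s + 2 * s') / δ := by
  have hs'0 : 0 ≤ s' := (abs_nonneg _).trans (hs p hp)
  rcases Nat.eq_zero_or_pos p with rfl | hpos
  · rw [h0, sub_self, abs_zero]; positivity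
  obtain ⟨k, rfl⟩ : ∃ k, p = k + 1 := ⟨p - 1, by omega⟩
  set e : ℝ := |ps (c (k + 1)) - ps (c' (k + 1))| with he
  have he0 : 0 ≤ e := abs_nonneg _
  -- the two hybrids
  have A : cost F c' (k + 1) - cost F c (k + 1) ≤ l * e + (κ + s) := by
    have h1 := hlow (hyb c c' (k + 1)) (hyb_lt (by omega)) (Or.inr (hyb_ge (by omega)))
      (hyb_or c c' (k + 1))
    have h2 := cost_hyb_le F ps c c' (by omega : k < N) hl
    rw [abs_sub_comm] at h2
    linarith
  have B : cost F c (k + 1) - cost F c' (k + 1) ≤ l * e + (κ + s) := by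
    have h1 := hlow (hyb c' c (k + 1)) ((hyb_lt (by omega)).trans h0.symm)
      (Or.inl (hyb_ge (by omega))) (fun j => (hyb_or c' c (k + 1) j).symm)
    have h2 := cost_hyb_le F ps c' c (by omega : k < N) hl
    linarith
  have hS : |cost F c (k + 1) - cost F c' (k + 1)| ≤ l * e + (κ + s) :=
    abs_le.2 ⟨by linarith, B⟩
  have h3 := abs_le.1 (hs (k + 1) hp)
  have h4 := abs_le.1 (hs' (k + 1) hp)
  rw [h0] at h3
  have h5 : e ≤ |θ| * |cost F c (k + 1) - cost F c' (k + 1)| + 2 * s' := by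
    rw [← abs_mul, he]
    have h6 : ps (c (k + 1)) - ps (c' (k + 1)) =
        θ * (cost F c (k + 1) - cost F c' (k + 1))
        + ((ps (c (k + 1)) - ps (c' 0) - θ * cost F c (k + 1))
          - (ps (c' (k + 1)) - ps (c' 0) - θ * cost F c' (k + 1))) := by ring
    rw [h6]
    refine (abs_add_le _ _).trans (add_le_add le_rfl ?_)
    exact abs_le.2 ⟨by linarith, by linarith⟩
  have h7 : |θ| * |cost F c (k + 1) - cost F c' (k + 1)| ≤ (1 - δ) * e + (κ + s) := by
    calc |θ| * |cost F c (k + 1) - cost F c' (k + 1)| ≤ |θ| * (l * e + (κ + s)) :=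
          mul_le_mul_of_nonneg_left hS (abs_nonneg _)
      _ = (l * |θ|) * e + |θ| * (κ + s) := by ring
      _ ≤ (1 - δ) * e + 1 * (κ + s) :=
          add_le_add (mul_le_mul_of_nonneg_right hθ he0)
            (mul_le_mul_of_nonneg_right hθ1 (by linarith))
      _ = _ := by ring
  rw [le_div_iff₀ hδ]
  nlinarith

end Crest.Agent.R288.Conf780
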