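import Crest.Agent.R288.SmpB_984

/-!
# R288: coupling the estimated end tables of all ranks (remark 288-206, "no kernel noise")

At a window start rank `k` uses independent estimates `f 0, ..., f k` (results of `ts 0, ..., ts k`)
of the costs of the ranks `0, ..., k` at the window ends (`f k` only in a flagged window); its law
`q k f` over the staircases `ι` is an exact function of these estimates. If the deterministic window
lemma holds for the ESTIMATED costs `uh k (f k)` of all ranks `k < K`, it holds for the true costs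
`u k`, with an error which is linear in the error `e` of the estimates: no perturbation of kernels.

* `trunc`, `Ev_tup_trunc`: the first `k` results of `tup ts K` have the law `tup ts k`;
* `couple`: the transfer; `couple_plan`: with a random plan drawn before the estimates;
* `couple_bad`: union bound for the failure event.
-/

set_option autoImplicit false

namespace Crest.Agent.R288.Cpl206

open Finset Real Crest.Agent.R295.Rnd627 Crest.Agent.R295.Rnd627.RT Crest.Agent.R288.Smp984
  Crest.Agent.R288.SmpB984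
open Crest.Agent.R288.Hedge984 hiding pw pp

section law

variable {β : Type} [Inhabited β]

/-- forget the entries from `k` on -/
def trunc (k : ℕ) (f : ℕ → β) : ℕ → β := fun i => if i < k then f i else default

theorem trunc_lt {k i : ℕ} (h : i < k) (f : ℕ → β) : trunc k f i = f i := by
  simp [trunc, h]

theorem trunc_ge {k i : ℕ} (h : k ≤ i) (f : ℕ → β) : trunc k f i = default := by
  simp [trunc, not_lt.2 h]

theorem All_tup_default {W : ℕ} (ts : ℕ → RT β) (k : ℕ) :
    (tup ts k).All W fun f => ∀ i, k ≤ i → f i = default := by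
  induction k with
  | zero => rw [tup, All_ret]; intro i _; rfl
  | succ k ih =>
    rw [tup, All_bind]
    refine ih.mono fun f hf => ?_
    unfold RT.map
    rw [All_bind]
    refine All.of_forall fun x => ?_
    rw [All_ret]
    intro i hi
    show (if i = k then x else f i) = default
    rw [if_neg (by omega)]
    exact hf i (by omega)

theorem All_tup_trunc {W : ℕ} (ts : ℕ → RT β) (k : ℕ) :
    (tup ts k).All W fun f => trunc k f = f := by
  refine (All_tup_default ts k).mono fun f hf => ?_
  funext i
  by_cases h : i < k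
  · exact trunc_lt h f
  · rw [trunc_ge (not_lt.1 h), hf i (not_lt.1 h)]

/-- **the first `k` results of `tup ts K` have the law `tup ts k`** -/
theorem Ev_tup_trunc {W : ℕ} (hW : 0 < W) (ts : ℕ → RT β) {k K : ℕ} (h : k ≤ K)
    (F : (ℕ → β) → ℝ) :
    (tup ts K).Ev W (fun f => F (trunc k f)) = (tup ts k).Ev W F := by
  induction K, h using Nat.le_induction with
  | base => exact Ev_congr_all ((All_tup_trunc ts k).mono fun f hf => by rw [hf])
  | succ K hK ih =>
    rw [tup, Ev_bind, ← ih]
    congr 1
    funext f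
    rw [Ev_map]
    have : (fun x : β => F (trunc k fun i => if i = K then x else f i)) =
        fun _ => F (trunc k f) := by
      funext x
      congr 1
      funext i
      by_cases hi : i < k
      · rw [trunc_lt hi, trunc_lt hi, if_neg (by omega)]
      · rw [trunc_ge (not_lt.1 hi), trunc_ge (not_lt.1 hi)]
    rw [this, Ev_const hW]

end law

section couple

variable {β ι : Type} [Inhabited β] [Fintype ι]

/-- **transfer from estimated to true costs.** `q k f` = law of rank `k` given the estimates `f`
(only `f 0, ..., f k` are available), `uh k b` = costs computed from the estimate `b`, `u k` = true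
costs, `W` = the deterministic window lemma for the estimated costs on the good event. -/
theorem couple {W : ℕ} (hW : 0 < W) (ts : ℕ → RT β) {K : ℕ} {q : ℕ → (ℕ → β) → ι → ℝ}
    {uh : ℕ → β → ι → ℝ} {u : ℕ → ι → ℝ} {e reg B p : ℝ} {σ : ι} (he : 0 ≤ e) (hreg : 0 ≤ reg)
    (hB0 : 0 ≤ B)
    (hq : (tup ts K).All W fun f => ∀ k < K, Prob (q k (trunc (k + 1) f)))
    (hwin : (tup ts K).All W fun f => (∀ k < K, ∀ a, |uh k (f k) a - u k a| ≤ e) →
      ∑ k ∈ range K, mean (q k (trunc (k + 1) f)) (uh k (f k)) ≤
        ∑ k ∈ range K, uh k (f k) σ + reg)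
    (hbad : (tup ts K).Pr W (fun f => ¬ ∀ k < K, ∀ a, |uh k (f k) a - u k a| ≤ e) ≤ p)
    (hB : ∀ k < K, ∀ a, u k a ≤ u k σ + B) :
    ∑ k ∈ range K, (tup ts (k + 1)).Ev W (fun f => mean (q k f) (u k)) ≤
      ∑ k ∈ range K, u k σ + reg + 2 * (K * e) + p * (K * B) := by
  classical
  have h1 : ∑ k ∈ range K, (tup ts (k + 1)).Ev W (fun f => mean (q k f) (u k)) =
      (tup ts K).Ev W (fun f => ∑ k ∈ range K, mean (q k (trunc (k + 1) f)) (u k)) := by
    rw [Ev_sum]
    refine sum_congr rfl fun k hk => ?_
    exact (Ev_tup_trunc hW ts (Nat.succ_le_of_lt (mem_range.1 hk))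
      (fun f => mean (q k f) (u k))).symm
  rw [h1]
  set good : (ℕ → β) → Prop := fun f => ∀ k < K, ∀ a, |uh k (f k) a - u k a| ≤ e with hgood
  set c := ∑ k ∈ range K, u k σ + reg + 2 * (K * e) with hc
  have hmain : (tup ts K).Ev W (fun f => ∑ k ∈ range K, mean (q k (trunc (k + 1) f)) (u k)) ≤
      (tup ts K).Ev W (fun f => c + (if ¬ good f then (1 : ℝ) else 0) * (K * B)) := by
    refine Ev_mono_all ((hq.and hwin).mono fun f hf => ?_)
    by_cases hg : good f
    · rw [if_neg (not_not.2 hg), zero_mul, add_zero]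
      have h2 := hf.2 hg
      have h3 : ∀ k ∈ range K, mean (q k (trunc (k + 1) f)) (u k) ≤
          mean (q k (trunc (k + 1) f)) (uh k (f k)) + e := by
        intro k hk
        have hP := hf.1 k (mem_range.1 hk)
        have h4 : mean (q k (trunc (k + 1) f)) (u k) ≤
            mean (q k (trunc (k + 1) f)) (fun a => uh k (f k) a + e) := by
          refine sum_le_sum fun a _ => mul_le_mul_of_nonneg_left ?_ (hP.nonneg a)
          have := (abs_le.1 (hg k (mem_range.1 hk) a)).1
          linarith
        refine h4.trans (le_of_eq ?_)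
        unfold mean
        simp only [mul_add]
        rw [sum_add_distrib, ← sum_mul, hP.sum, one_mul]
      have h5 : ∑ k ∈ range K, uh k (f k) σ ≤ ∑ k ∈ range K, (u k σ + e) :=
        sum_le_sum fun k hk => by
          have := (abs_le.1 (hg k (mem_range.1 hk) σ)).2
          linarith
      have h6 := sum_le_sum h3
      rw [sum_add_distrib, sum_const, card_range, nsmul_eq_mul] at h6
      rw [sum_add_distrib, sum_const, card_range, nsmul_eq_mul] at h5
      rw [hc]
      linarith
    · rw [if_pos hg, one_mul]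
      have h3 : ∀ k ∈ range K, mean (q k (trunc (k + 1) f)) (u k) ≤ u k σ + B := by
        intro k hk
        exact mean_le (hf.1 k (mem_range.1 hk)) (hB k (mem_range.1 hk))
      have h6 := sum_le_sum h3
      rw [sum_add_distrib, sum_const, card_range, nsmul_eq_mul] at h6
      have hKe : 0 ≤ (K : ℝ) * e := by positivity
      rw [hc]
      linarith
  refine hmain.trans ?_
  rw [Ev_add, Ev_const hW, Ev_mul_right, ← Pr_def]
  exact add_le_add le_rfl (mul_le_mul_of_nonneg_right hbad (by positivity))

/-- union bound for the failure event -/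
theorem couple_bad {W : ℕ} (hW : 0 < W) (ts : ℕ → RT β) {K : ℕ} {uh : ℕ → β → ι → ℝ}
    {u : ℕ → ι → ℝ} {e : ℝ} {p : ℕ → ℝ}
    (h : ∀ k < K, (ts k).Pr W (fun b => ¬ ∀ a, |uh k b a - u k a| ≤ e) ≤ p k) :
    (tup ts K).Pr W (fun f => ¬ ∀ k < K, ∀ a, |uh k (f k) a - u k a| ≤ e) ≤
      ∑ k ∈ range K, p k := by
  refine (Pr_mono fun f hf => ?_).trans
    ((Pr_tup hW ts (fun k b => ¬ ∀ a, |uh k b a - u k a| ≤ e) K).trans
      (sum_le_sum fun k hk => h k (mem_range.1 hk)))
  by_contra hcon
  refine hf fun k hk => ?_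
  by_contra h2
  exact hcon ⟨k, hk, h2⟩

/-- **with a random plan** `x : Pl`, drawn before the estimates by every rank (same law `P`) -/
theorem couple_plan {Pl : Type} {W : ℕ} (hW : 0 < W) (P : RT Pl) (ts : Pl → ℕ → RT β) {K : ℕ}
    {q : Pl → ℕ → (ℕ → β) → ι → ℝ} {uh : ℕ → β → ι → ℝ} {u : ℕ → ι → ℝ} {e B : ℝ}
    {reg p : Pl → ℝ} {σ : ι} (he : 0 ≤ e) (hreg : P.All W fun x => 0 ≤ reg x) (hB0 : 0 ≤ B)
    (hq : P.All W fun x => (tup (ts x) K).All W fun f =>
      ∀ k < K, Prob (q x k (trunc (k + 1) f)))
    (hwin : P.All W fun x => (tup (ts x) K).All W fun f =>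
      (∀ k < K, ∀ a, |uh k (f k) a - u k a| ≤ e) →
      ∑ k ∈ range K, mean (q x k (trunc (k + 1) f)) (uh k (f k)) ≤
        ∑ k ∈ range K, uh k (f k) σ + reg x)
    (hbad : P.All W fun x =>
      (tup (ts x) K).Pr W (fun f => ¬ ∀ k < K, ∀ a, |uh k (f k) a - u k a| ≤ e) ≤ p x)
    (hB : ∀ k < K, ∀ a, u k a ≤ u k σ + B) :
    ∑ k ∈ range K, P.Ev W (fun x => (tup (ts x) (k + 1)).Ev W (fun f => mean (q x k f) (u k))) ≤
      ∑ k ∈ range K, u k σ + P.Ev W reg + 2 * (K * e) + P.Ev W p * (K * B) := by
  rw [← Ev_sum]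
  have h1 : P.Ev W (fun x => ∑ k ∈ range K, (tup (ts x) (k + 1)).Ev W
      (fun f => mean (q x k f) (u k))) ≤
      P.Ev W (fun x => (∑ k ∈ range K, u k σ + 2 * (K * e)) + (reg x + p x * (K * B))) := by
    refine Ev_mono_all ((((hreg.and hq).and hwin).and hbad).mono fun x hx => ?_)
    have := couple hW (ts x) he hx.1.1.1 hB0 hx.1.1.2 hx.1.2 hx.2 hB
    linarith
  refine h1.trans (le_of_eq ?_)
  rw [Ev_add, Ev_const hW, Ev_add, Ev_mul_right]
  ring

end couple

end Crest.Agent.R288.Cpl206
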