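import Mathlib

/-!
# R288: Lipschitz regularisation of a table, pure part

`smooth lam n a i = min_{j < n} (a j + lam * |i - j|)` computed by two passes: the largest
`lam`-Lipschitz minorant of `a` on `[0, n)`; `smoothU lam n a i = max_{j < n} (a j - lam * |i - j|)`:
the smallest `lam`-Lipschitz majorant.  `smooth2`: tables with two indices.  `ext`: the McShane
extension of a function on a grid of step `g`.
-/

set_option autoImplicit false

namespace Crest.Agent.R288.Smooth387

/-- distance of indices -/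
def dst (i j : ℕ) : ℕ := (i - j) + (j - i)

theorem dst_self (i : ℕ) : dst i i = 0 := by simp [dst]
theorem dst_comm (i j : ℕ) : dst i j = dst j i := by unfold dst; omega
theorem dst_triangle (i j k : ℕ) : dst i k ≤ dst i j + dst j k := by unfold dst; omega
theorem dst_of_le {i j : ℕ} (h : i ≤ j) : dst i j = j - i := by unfold dst; omega
theorem dst_of_ge {i j : ℕ} (h : j ≤ i) : dst i j = i - j := by unfold dst; omega
theorem dst_succ (i : ℕ) : dst i (i + 1) = 1 := by unfold dst; omega
theorem dst_succ' (i : ℕ) : dst (i + 1) i = 1 := by unfold dst; omega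
theorem dst_lt {i j n : ℕ} (hi : i < n) (hj : j < n) : dst i j < n := by unfold dst; omega
theorem dst_mul (g i j : ℕ) : dst (g * i) (g * j) = g * dst i j := by
  unfold dst; rw [Nat.mul_add, Nat.mul_sub, Nat.mul_sub]

theorem dst_cast (i j : ℕ) : (dst i j : ℤ) = |(i : ℤ) - j| := by
  unfold dst
  rcases le_total i j with h | h
  · rw [Nat.sub_eq_zero_of_le h, abs_of_nonpos (by omega)]; omega
  · rw [Nat.sub_eq_zero_of_le h, abs_of_nonneg (by omega)]; omega

theorem dst_castR (i j : ℕ) : (dst i j : ℝ) = |(i : ℝ) - j| := by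
  have := dst_cast i j
  exact_mod_cast this

theorem dst_natAbs (i j : ℕ) : dst i j = ((i : ℤ) - j).natAbs := by unfold dst; omega

/-! ### one pass -/

/-- forward pass: cell `i + 1` becomes `f (old cell) (new cell i)` -/
def pass (f : ℕ → ℕ → ℕ) (a : ℕ → ℕ) : ℕ → ℕ
  | 0 => a 0
  | i + 1 => f (a (i + 1)) (pass f a i)

/-- backward pass on `n` cells -/
def passB (f : ℕ → ℕ → ℕ) (n : ℕ) (a : ℕ → ℕ) (i : ℕ) : ℕ :=
  pass f (fun j => a (n - 1 - j)) (n - 1 - i)

section pass

variable {f : ℕ → ℕ → ℕ} {a b : ℕ → ℕ} {n i M : ℕ}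

@[simp] theorem pass_zero : pass f a 0 = a 0 := rfl
theorem pass_succ : pass f a (i + 1) = f (a (i + 1)) (pass f a i) := rfl

theorem pass_congr (h : ∀ j ≤ i, a j = b j) : pass f a i = pass f b i := by
  induction i with
  | zero => exact h 0 le_rfl
  | succ i ih => rw [pass_succ, pass_succ, h _ le_rfl, ih fun j hj => h j (by omega)]

theorem pass_bound (h : ∀ j ≤ i, a j ≤ M) (hf : ∀ u v, u ≤ M → v ≤ M → f u v ≤ M) :
    pass f a i ≤ M := by
  induction i with
  | zero => exact h 0 le_rfl
  | succ i ih => exact hf _ _ (h _ le_rfl) (ih fun j hj => h j (by omega))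

theorem passB_last : passB f n a (n - 1) = a (n - 1) := by
  unfold passB
  rw [Nat.sub_self, pass_zero, Nat.sub_zero]

theorem passB_step (h : i + 1 < n) : passB f n a i = f (a i) (passB f n a (i + 1)) := by
  unfold passB
  have e1 : n - 1 - i = (n - 1 - (i + 1)) + 1 := by omega
  rw [e1, pass_succ]
  have e2 : n - 1 - (n - 1 - (i + 1) + 1) = i := by omega
  rw [e2]

theorem passB_congr (hi : i < n) (h : ∀ j < n, a j = b j) : passB f n a i = passB f n b i :=
  pass_congr fun j _ => h _ (by omega)

theorem passB_bound (hi : i < n) (h : ∀ j < n, a j ≤ M) (hf : ∀ u v, u ≤ M → v ≤ M → f u v ≤ M) :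
    passB f n a i ≤ M :=
  pass_bound (fun j _ => h _ (by omega)) hf

end pass

/-! ### the regularisation -/

/-- the update of the minimum passes -/
def fmin (lam : ℕ) (u v : ℕ) : ℕ := min u (v + lam)

/-- the update of the maximum passes -/
def fmax (lam : ℕ) (u v : ℕ) : ℕ := max u (v - lam)

/-- `min_{j < n} (a j + lam * |i - j|)` by two passes -/
def smooth (lam n : ℕ) (a : ℕ → ℕ) (i : ℕ) : ℕ := passB (fmin lam) n (pass (fmin lam) a) i

/-- `max_{j < n} (a j - lam * |i - j|)` by two passes -/
def smoothU (lam n : ℕ) (a : ℕ → ℕ) (i : ℕ) : ℕ := passB (fmax lam) n (pass (fmax lam) a) i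

/-- `lam`-Lipschitz on `[0, n)` -/
def Lip (lam n : ℕ) (g : ℕ → ℕ) : Prop := ∀ i < n, ∀ j < n, g i ≤ g j + lam * dst i j

section one

variable {lam lam' n i j : ℕ} {a b g : ℕ → ℕ} {δ M m : ℕ}

theorem passMin_le (h : j ≤ i) : pass (fmin lam) a i ≤ a j + lam * (i - j) := by
  induction i with
  | zero =>
    obtain rfl : j = 0 := by omega
    simp
  | succ i ih =>
    rw [pass_succ]
    rcases Nat.lt_or_ge i j with h1 | h1
    · obtain rfl : j = i + 1 := by omega
      simp [fmin]
    · have h2 := ih h1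
      have e1 : i + 1 - j = (i - j) + 1 := by omega
      rw [e1, Nat.mul_succ]
      refine (min_le_right _ _).trans ?_
      omega

theorem passMin_ex (i : ℕ) : ∃ j ≤ i, pass (fmin lam) a i = a j + lam * (i - j) := by
  induction i with
  | zero => exact ⟨0, le_rfl, by simp⟩
  | succ i ih =>
    obtain ⟨j, hj, h⟩ := ih
    rw [pass_succ, fmin]
    rcases le_total (a (i + 1)) (pass (fmin lam) a i + lam) with h1 | h1
    · exact ⟨i + 1, le_rfl, by rw [min_eq_left h1]; simp⟩
    · refine ⟨j, by omega, ?_⟩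
      have e1 : i + 1 - j = (i - j) + 1 := by omega
      rw [min_eq_right h1, h, e1, Nat.mul_succ]
      omega

theorem passBMin_le (h : i ≤ j) (hj : j < n) :
    passB (fmin lam) n a i ≤ a j + lam * (j - i) := by
  have := passMin_le (lam := lam) (a := fun t => a (n - 1 - t)) (j := n - 1 - j) (i := n - 1 - i)
    (by omega)
  have e1 : n - 1 - (n - 1 - j) = j := by omega
  have e2 : n - 1 - i - (n - 1 - j) = j - i := by omega
  rw [e2] at this
  simp only [e1] at this
  exact this

theorem passBMin_ex (hi : i < n) :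
    ∃ j, i ≤ j ∧ j < n ∧ passB (fmin lam) n a i = a j + lam * (j - i) := by
  obtain ⟨j, hj, h⟩ := passMin_ex (lam := lam) (a := fun t => a (n - 1 - t)) (n - 1 - i)
  refine ⟨n - 1 - j, by omega, by omega, ?_⟩
  have e2 : n - 1 - i - j = n - 1 - j - i := by omega
  rw [← e2]
  exact h

/-- **upper bounds** -/
theorem smooth_le (hi : i < n) (hj : j < n) : smooth lam n a i ≤ a j + lam * dst i j := by
  unfold smooth
  rcases le_total j i with h | h
  · have h1 := passBMin_le (lam := lam) (a := pass (fmin lam) a) (le_refl i) hi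
    have h2 := passMin_le (lam := lam) (a := a) h
    rw [dst_of_ge h]
    simp only [Nat.sub_self, Nat.mul_zero, Nat.add_zero] at h1
    exact h1.trans h2
  · have h1 := passBMin_le (lam := lam) (a := pass (fmin lam) a) h hj
    have h2 := passMin_le (lam := lam) (a := a) (le_refl j)
    rw [dst_of_le h]
    simp only [Nat.sub_self, Nat.mul_zero, Nat.add_zero] at h2
    omega

/-- **the minimum is attained** -/
theorem smooth_ex (hi : i < n) : ∃ j < n, smooth lam n a i = a j + lam * dst i j := by
  obtain ⟨t, ht1, ht2, h1⟩ := passBMin_ex (lam := lam) (a := pass (fmin lam) a) hi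
  obtain ⟨j, hj, h2⟩ := passMin_ex (lam := lam) (a := a) t
  refine ⟨j, by omega, le_antisymm (smooth_le hi (by omega)) ?_⟩
  have h3 : smooth lam n a i = a j + lam * ((t - j) + (t - i)) := by
    unfold smooth
    rw [h1, h2, Nat.mul_add]
    omega
  rw [h3]
  have h4 : dst i j ≤ (t - j) + (t - i) := by unfold dst; omega
  have := Nat.mul_le_mul_left lam h4
  omega

theorem smooth_unique {v : ℕ} (hi : i < n) (h1 : ∀ j < n, v ≤ a j + lam * dst i j)
    (h2 : ∃ j < n, a j + lam * dst i j ≤ v) : smooth lam n a i = v := by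
  obtain ⟨j, hj, h3⟩ := h2
  obtain ⟨j', hj', h4⟩ := smooth_ex (lam := lam) (a := a) hi
  have h5 := h1 j' hj'
  have h6 := smooth_le (lam := lam) (a := a) hi hj
  omega

/-- the defining formula -/
theorem smooth_eq_inf' (hi : i < n) : smooth lam n a i =
    (Finset.range n).inf' ⟨i, Finset.mem_range.2 hi⟩ (fun j => a j + lam * dst i j) := by
  refine le_antisymm (Finset.le_inf' _ _ fun j hj => smooth_le hi (Finset.mem_range.1 hj)) ?_
  obtain ⟨j, hj, h⟩ := smooth_ex (lam := lam) (a := a) hi
  rw [h]
  exact Finset.inf'_le _ (Finset.mem_range.2 hj)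

theorem le_smooth_iff {v : ℕ} (hi : i < n) :
    v ≤ smooth lam n a i ↔ ∀ j < n, v ≤ a j + lam * dst i j := by
  constructor
  · exact fun h j hj => h.trans (smooth_le hi hj)
  · intro h
    obtain ⟨j, hj, h1⟩ := smooth_ex (lam := lam) (a := a) hi
    rw [h1]
    exact h j hj

theorem smooth_congr (hi : i < n) (h : ∀ j < n, a j = b j) :
    smooth lam n a i = smooth lam n b i :=
  passB_congr hi fun j hj => pass_congr fun t ht => h t (by omega)

theorem smooth_le_self (hi : i < n) : smooth lam n a i ≤ a i := by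
  have := smooth_le (lam := lam) (a := a) hi hi
  rwa [dst_self, Nat.mul_zero, Nat.add_zero] at this

theorem smooth_le_bound (hi : i < n) (h : ∀ j < n, a j ≤ M) : smooth lam n a i ≤ M :=
  (smooth_le_self hi).trans (h i hi)

theorem le_smooth_bound (hi : i < n) (h : ∀ j < n, m ≤ a j) : m ≤ smooth lam n a i :=
  (le_smooth_iff hi).2 fun j hj => (h j hj).trans (Nat.le_add_right _ _)

/-- **the result is Lipschitz** -/
theorem smooth_lip : Lip lam n (smooth lam n a) := by
  intro i hi j hj
  obtain ⟨t, ht, h⟩ := smooth_ex (lam := lam) (a := a) hj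
  have h1 := smooth_le (lam := lam) (a := a) hi ht
  have h2 := Nat.mul_le_mul_left lam (dst_triangle i j t)
  rw [Nat.mul_add] at h2
  omega

/-- neighbours suffice -/
theorem lip_iff : Lip lam n g ↔ ∀ i, i + 1 < n → g i ≤ g (i + 1) + lam ∧ g (i + 1) ≤ g i + lam := by
  constructor
  · intro h i hi
    have h1 := h i (by omega) (i + 1) hi
    have h2 := h (i + 1) hi i (by omega)
    rw [dst_succ, Nat.mul_one] at h1
    rw [dst_succ', Nat.mul_one] at h2
    exact ⟨h1, h2⟩
  · intro h
    have key : ∀ k i, i + k < n → g i ≤ g (i + k) + lam * k ∧ g (i + k) ≤ g i + lam * k := by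
      intro k
      induction k with
      | zero => intro i _; simp
      | succ k ih =>
        intro i hi
        have h1 := ih i (by omega)
        have h2 := h (i + k) (by omega)
        rw [Nat.mul_succ]
        have e1 : i + (k + 1) = i + k + 1 := rfl
        rw [e1]
        omega
    intro i hi j hj
    rcases le_total i j with h1 | h1
    · have := (key (j - i) i (by omega)).1
      rw [dst_of_le h1]
      have e1 : i + (j - i) = j := by omega
      rwa [e1] at this
    · have := (key (i - j) j (by omega)).2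
      rw [dst_of_ge h1]
      have e1 : j + (i - j) = i := by omega
      rwa [e1] at this

theorem Lip.mono (h : Lip lam n g) (hl : lam ≤ lam') : Lip lam' n g := by
  intro i hi j hj
  have := h i hi j hj
  have h2 := Nat.mul_le_mul_right (dst i j) hl
  omega

theorem Lip.congr (h : Lip lam n g) (hb : ∀ i < n, b i = g i) : Lip lam n b := by
  intro i hi j hj
  rw [hb i hi, hb j hj]
  exact h i hi j hj

/-- **the largest Lipschitz minorant** -/
theorem le_smooth (hg : Lip lam n g) (h : ∀ j < n, g j ≤ a j) (hi : i < n) :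
    g i ≤ smooth lam n a i := by
  rw [le_smooth_iff hi]
  intro j hj
  have h1 := hg i hi j hj
  have h2 := h j hj
  omega

theorem smooth_of_lip (h : Lip lam n a) (hi : i < n) : smooth lam n a i = a i :=
  le_antisymm (smooth_le_self hi) (le_smooth h (fun _ _ => le_rfl) hi)

theorem smooth_smooth (hi : i < n) : smooth lam n (smooth lam n a) i = smooth lam n a i :=
  smooth_of_lip smooth_lip hi

theorem smooth_le_add (h : ∀ j < n, a j ≤ b j + δ) (hi : i < n) :
    smooth lam n a i ≤ smooth lam n b i + δ := by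
  obtain ⟨j, hj, h1⟩ := smooth_ex (lam := lam) (a := b) hi
  have h2 := smooth_le (lam := lam) (a := a) hi hj
  have h3 := h j hj
  omega

theorem smooth_mono (h : ∀ j < n, a j ≤ b j) (hi : i < n) :
    smooth lam n a i ≤ smooth lam n b i :=
  smooth_le_add (δ := 0) h hi

theorem smooth_lam_mono (hl : lam ≤ lam') (hi : i < n) :
    smooth lam n a i ≤ smooth lam' n a i := by
  obtain ⟨j, hj, h1⟩ := smooth_ex (lam := lam') (a := a) hi
  have h2 := smooth_le (lam := lam) (a := a) hi hj
  have h3 := Nat.mul_le_mul_right (dst i j) hl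
  omega

theorem smooth_add_const (c : ℕ) (hi : i < n) :
    smooth lam n (fun j => a j + c) i = smooth lam n a i + c := by
  obtain ⟨j, hj, h1⟩ := smooth_ex (lam := lam) (a := a) hi
  refine smooth_unique hi (fun t ht => ?_) ⟨j, hj, by omega⟩
  have := smooth_le (lam := lam) (a := a) hi ht
  omega

theorem smooth_min (hi : i < n) : smooth lam n (fun j => min (a j) (b j)) i =
    min (smooth lam n a i) (smooth lam n b i) := by
  refine smooth_unique hi (fun j hj => ?_) ?_
  · have h1 := smooth_le (lam := lam) (a := a) hi hj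
    have h2 := smooth_le (lam := lam) (a := b) hi hj
    rcases le_total (a j) (b j) with h | h
    · rw [min_eq_left h]; exact (min_le_left _ _).trans h1
    · rw [min_eq_right h]; exact (min_le_right _ _).trans h2
  · rcases le_total (smooth lam n a i) (smooth lam n b i) with h | h
    · obtain ⟨j, hj, h1⟩ := smooth_ex (lam := lam) (a := a) hi
      refine ⟨j, hj, ?_⟩
      rw [min_eq_left h, h1]
      exact Nat.add_le_add_right (min_le_left _ _) _
    · obtain ⟨j, hj, h1⟩ := smooth_ex (lam := lam) (a := b) hi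
      refine ⟨j, hj, ?_⟩
      rw [min_eq_right h, h1]
      exact Nat.add_le_add_right (min_le_right _ _) _

/-- a cap passes through: `min C (smooth a)` is the regularisation of `min C a` -/
theorem smooth_cap (C : ℕ) (hi : i < n) :
    smooth lam n (fun j => min C (a j)) i = min C (smooth lam n a i) := by
  rw [smooth_min hi, smooth_of_lip (a := fun _ => C) (fun _ _ _ _ => Nat.le_add_right _ _) hi]

/-- **noise does not grow, upper side** -/
theorem smooth_near_le (hg : Lip lam n g) (h : ∀ j < n, a j ≤ g j + δ) (hi : i < n) :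
    smooth lam n a i ≤ g i + δ := by
  have := smooth_le_add (lam := lam) h hi
  rwa [smooth_of_lip hg hi] at this

/-- **noise does not grow, lower side** -/
theorem le_smooth_near (hg : Lip lam n g) (h : ∀ j < n, g j ≤ a j + δ) (hi : i < n) :
    g i ≤ smooth lam n a i + δ := by
  have := smooth_le_add (lam := lam) h hi
  rwa [smooth_of_lip hg hi] at this

/-- upper side, real target -/
theorem smooth_near_leR {G : ℕ → ℝ} {d : ℝ} (h : ∀ j < n, (a j : ℝ) ≤ G j + d)
    (hi : i < n) : (smooth lam n a i : ℝ) ≤ G i + d :=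
  (Nat.cast_le.2 (smooth_le_self hi)).trans (h i hi)

/-- lower side, real target -/
theorem le_smooth_nearR {G : ℕ → ℝ} {d l : ℝ} (hl : l ≤ lam)
    (hG : ∀ i < n, ∀ j < n, G i ≤ G j + l * dst i j) (h : ∀ j < n, G j ≤ (a j : ℝ) + d)
    (hi : i < n) : G i ≤ (smooth lam n a i : ℝ) + d := by
  obtain ⟨j, hj, h1⟩ := smooth_ex (lam := lam) (a := a) hi
  have h2 := hG i hi j hj
  have h3 := h j hj
  have h4 : l * (dst i j : ℝ) ≤ lam * dst i j :=
    mul_le_mul_of_nonneg_right hl (Nat.cast_nonneg _)
  rw [h1]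
  push_cast
  linarith

end one

/-! ### the dual regularisation -/

section dual

variable {lam n i j : ℕ} {a b g : ℕ → ℕ} {δ M m : ℕ}

theorem le_passMax (h : j ≤ i) : a j ≤ pass (fmax lam) a i + lam * (i - j) := by
  induction i with
  | zero =>
    obtain rfl : j = 0 := by omega
    simp
  | succ i ih =>
    rw [pass_succ]
    rcases Nat.lt_or_ge i j with h1 | h1
    · obtain rfl : j = i + 1 := by omega
      simp [fmax]
    · have h2 := ih h1
      have e1 : i + 1 - j = (i - j) + 1 := by omega
      rw [e1, Nat.mul_succ]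
      have h3 : pass (fmax lam) a i - lam ≤ fmax lam (a (i + 1)) (pass (fmax lam) a i) :=
        le_max_right _ _
      omega

theorem passMax_ex (i : ℕ) : ∃ j ≤ i, pass (fmax lam) a i = a j - lam * (i - j) := by
  induction i with
  | zero => exact ⟨0, le_rfl, by simp⟩
  | succ i ih =>
    obtain ⟨j, hj, h⟩ := ih
    rw [pass_succ, fmax]
    rcases le_total (pass (fmax lam) a i - lam) (a (i + 1)) with h1 | h1
    · exact ⟨i + 1, le_rfl, by rw [max_eq_left h1]; simp⟩
    · refine ⟨j, by omega, ?_⟩
      have e1 : i + 1 - j = (i - j) + 1 := by omega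
      rw [max_eq_right h1, h, e1, Nat.mul_succ]
      omega

theorem le_passBMax (h : i ≤ j) (hj : j < n) :
    a j ≤ passB (fmax lam) n a i + lam * (j - i) := by
  have := le_passMax (lam := lam) (a := fun t => a (n - 1 - t)) (j := n - 1 - j) (i := n - 1 - i)
    (by omega)
  have e1 : n - 1 - (n - 1 - j) = j := by omega
  have e2 : n - 1 - i - (n - 1 - j) = j - i := by omega
  rw [e2] at this
  simp only [e1] at this
  exact this

theorem passBMax_ex (hi : i < n) :
    ∃ j, i ≤ j ∧ j < n ∧ passB (fmax lam) n a i = a j - lam * (j - i) := by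
  obtain ⟨j, hj, h⟩ := passMax_ex (lam := lam) (a := fun t => a (n - 1 - t)) (n - 1 - i)
  refine ⟨n - 1 - j, by omega, by omega, ?_⟩
  have e2 : n - 1 - i - j = n - 1 - j - i := by omega
  rw [← e2]
  exact h

/-- **lower bounds** -/
theorem le_smoothU (hi : i < n) (hj : j < n) : a j ≤ smoothU lam n a i + lam * dst i j := by
  unfold smoothU
  rcases le_total j i with h | h
  · have h1 := le_passBMax (lam := lam) (a := pass (fmax lam) a) (le_refl i) hi
    have h2 := le_passMax (lam := lam) (a := a) h
    rw [dst_of_ge h]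
    simp only [Nat.sub_self, Nat.mul_zero, Nat.add_zero] at h1
    omega
  · have h1 := le_passBMax (lam := lam) (a := pass (fmax lam) a) h hj
    have h2 := le_passMax (lam := lam) (a := a) (le_refl j)
    rw [dst_of_le h]
    simp only [Nat.sub_self, Nat.mul_zero, Nat.add_zero] at h2
    omega

/-- **the maximum is attained** -/
theorem smoothU_ex (hi : i < n) : ∃ j < n, smoothU lam n a i = a j - lam * dst i j := by
  obtain ⟨t, ht1, ht2, h1⟩ := passBMax_ex (lam := lam) (a := pass (fmax lam) a) hi
  obtain ⟨j, hj, h2⟩ := passMax_ex (lam := lam) (a := a) t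
  refine ⟨j, by omega, le_antisymm ?_ ?_⟩
  · have h3 : smoothU lam n a i = a j - lam * ((t - j) + (t - i)) := by
      unfold smoothU
      rw [h1, h2, Nat.mul_add]
      omega
    rw [h3]
    have h4 : dst i j ≤ (t - j) + (t - i) := by unfold dst; omega
    have := Nat.mul_le_mul_left lam h4
    omega
  · have := le_smoothU (lam := lam) (a := a) hi (show j < n by omega)
    omega

theorem smoothU_le_iff {v : ℕ} (hi : i < n) :
    smoothU lam n a i ≤ v ↔ ∀ j < n, a j ≤ v + lam * dst i j := by
  constructor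
  · intro h j hj
    have := le_smoothU (lam := lam) (a := a) hi hj
    omega
  · intro h
    obtain ⟨j, hj, h1⟩ := smoothU_ex (lam := lam) (a := a) hi
    have := h j hj
    omega

theorem smoothU_congr (hi : i < n) (h : ∀ j < n, a j = b j) :
    smoothU lam n a i = smoothU lam n b i :=
  passB_congr hi fun j hj => pass_congr fun t ht => h t (by omega)

theorem self_le_smoothU (hi : i < n) : a i ≤ smoothU lam n a i := by
  have := le_smoothU (lam := lam) (a := a) hi hi
  rwa [dst_self, Nat.mul_zero, Nat.add_zero] at this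

theorem smoothU_le_bound (hi : i < n) (h : ∀ j < n, a j ≤ M) : smoothU lam n a i ≤ M :=
  (smoothU_le_iff hi).2 fun j hj => (h j hj).trans (Nat.le_add_right _ _)

theorem smoothU_lip : Lip lam n (smoothU lam n a) := by
  intro i hi j hj
  rw [smoothU_le_iff hi]
  intro t ht
  have h1 := le_smoothU (lam := lam) (a := a) hj ht
  have h2 := Nat.mul_le_mul_left lam (dst_triangle j i t)
  rw [Nat.mul_add, dst_comm j i] at h2
  omega

/-- **the smallest Lipschitz majorant** -/
theorem smoothU_le (hg : Lip lam n g) (h : ∀ j < n, a j ≤ g j) (hi : i < n) :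
    smoothU lam n a i ≤ g i := by
  rw [smoothU_le_iff hi]
  intro j hj
  have h1 := hg j hj i hi
  have h2 := h j hj
  rw [dst_comm j i] at h1
  omega

theorem smoothU_of_lip (h : Lip lam n a) (hi : i < n) : smoothU lam n a i = a i :=
  le_antisymm (smoothU_le h (fun _ _ => le_rfl) hi) (self_le_smoothU hi)

theorem smoothU_le_add (h : ∀ j < n, a j ≤ b j + δ) (hi : i < n) :
    smoothU lam n a i ≤ smoothU lam n b i + δ := by
  rw [smoothU_le_iff hi]
  intro j hj
  have h1 := le_smoothU (lam := lam) (a := b) hi hj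
  have h2 := h j hj
  omega

theorem smoothU_mono (h : ∀ j < n, a j ≤ b j) (hi : i < n) :
    smoothU lam n a i ≤ smoothU lam n b i :=
  smoothU_le_add (δ := 0) h hi

theorem smoothU_near_le (hg : Lip lam n g) (h : ∀ j < n, a j ≤ g j + δ) (hi : i < n) :
    smoothU lam n a i ≤ g i + δ := by
  have := smoothU_le_add (lam := lam) h hi
  rwa [smoothU_of_lip hg hi] at this

theorem le_smoothU_near (h : ∀ j < n, g j ≤ a j + δ) (hi : i < n) :
    g i ≤ smoothU lam n a i + δ := by
  have h1 := self_le_smoothU (lam := lam) (a := a) hi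
  have h2 := h i hi
  omega

/-- a Lipschitz function between `a` and `b`: `smoothU a ≤ smooth b` if `a ≤ g ≤ b` -/
theorem smoothU_le_smooth (hg : Lip lam n g) (ha : ∀ j < n, a j ≤ g j) (hb : ∀ j < n, g j ≤ b j)
    (hi : i < n) : smoothU lam n a i ≤ smooth lam n b i :=
  (smoothU_le hg ha hi).trans (le_smooth hg hb hi)

end dual

/-! ### tables with two indices -/

/-- `min_{i' < R, j' < C} (a i' j' + lr * |i - i'| + lc * |j - j'|)`: first the rows (second index),
then the columns -/
def smooth2 (lr lc R C : ℕ) (a : ℕ → ℕ → ℕ) (i j : ℕ) : ℕ :=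
  smooth lr R (fun i' => smooth lc C (a i') j) i

/-- Lipschitz in both indices -/
def Lip2 (lr lc R C : ℕ) (g : ℕ → ℕ → ℕ) : Prop :=
  ∀ i < R, ∀ j < C, ∀ i' < R, ∀ j' < C, g i j ≤ g i' j' + lr * dst i i' + lc * dst j j'

section two

variable {lr lc R C i j i' j' : ℕ} {a b g : ℕ → ℕ → ℕ} {δ : ℕ}

theorem smooth2_le (hi : i < R) (hj : j < C) (hi' : i' < R) (hj' : j' < C) :
    smooth2 lr lc R C a i j ≤ a i' j' + lr * dst i i' + lc * dst j j' := by
  have h1 := smooth_le (lam := lr) (a := fun i' => smooth lc C (a i') j) hi hi'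
  have h2 := smooth_le (lam := lc) (a := a i') hj hj'
  unfold smooth2
  omega

theorem smooth2_ex (hi : i < R) (hj : j < C) : ∃ i' < R, ∃ j' < C,
    smooth2 lr lc R C a i j = a i' j' + lr * dst i i' + lc * dst j j' := by
  obtain ⟨i', hi', h1⟩ := smooth_ex (lam := lr) (a := fun i' => smooth lc C (a i') j) hi
  obtain ⟨j', hj', h2⟩ := smooth_ex (lam := lc) (a := a i') hj
  refine ⟨i', hi', j', hj', ?_⟩
  unfold smooth2
  rw [h1, h2]
  omega

theorem le_smooth2_iff {v : ℕ} (hi : i < R) (hj : j < C) : v ≤ smooth2 lr lc R C a i j ↔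
    ∀ i' < R, ∀ j' < C, v ≤ a i' j' + lr * dst i i' + lc * dst j j' := by
  constructor
  · exact fun h i' hi' j' hj' => h.trans (smooth2_le hi hj hi' hj')
  · intro h
    obtain ⟨i', hi', j', hj', h1⟩ := smooth2_ex (lr := lr) (lc := lc) (a := a) hi hj
    rw [h1]
    exact h i' hi' j' hj'

theorem smooth2_le_self (hi : i < R) (hj : j < C) : smooth2 lr lc R C a i j ≤ a i j := by
  have := smooth2_le (lr := lr) (lc := lc) (a := a) hi hj hi hj
  rw [dst_self, dst_self] at this
  simpa using this

theorem smooth2_lip : Lip2 lr lc R C (smooth2 lr lc R C a) := by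
  intro i hi j hj i' hi' j' hj'
  obtain ⟨t, ht, u, hu, h⟩ := smooth2_ex (lr := lr) (lc := lc) (a := a) hi' hj'
  have h1 := smooth2_le (lr := lr) (lc := lc) (a := a) hi hj ht hu
  have h2 := Nat.mul_le_mul_left lr (dst_triangle i i' t)
  have h3 := Nat.mul_le_mul_left lc (dst_triangle j j' u)
  rw [Nat.mul_add] at h2 h3
  omega

theorem le_smooth2 (hg : Lip2 lr lc R C g) (h : ∀ i < R, ∀ j < C, g i j ≤ a i j)
    (hi : i < R) (hj : j < C) : g i j ≤ smooth2 lr lc R C a i j := by
  rw [le_smooth2_iff hi hj]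
  intro i' hi' j' hj'
  have h1 := hg i hi j hj i' hi' j' hj'
  have h2 := h i' hi' j' hj'
  omega

theorem smooth2_of_lip (h : Lip2 lr lc R C a) (hi : i < R) (hj : j < C) :
    smooth2 lr lc R C a i j = a i j :=
  le_antisymm (smooth2_le_self hi hj) (le_smooth2 h (fun _ _ _ _ => le_rfl) hi hj)

theorem smooth2_le_add (h : ∀ i < R, ∀ j < C, a i j ≤ b i j + δ) (hi : i < R) (hj : j < C) :
    smooth2 lr lc R C a i j ≤ smooth2 lr lc R C b i j + δ := by
  obtain ⟨t, ht, u, hu, h1⟩ := smooth2_ex (lr := lr) (lc := lc) (a := b) hi hj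
  have h2 := smooth2_le (lr := lr) (lc := lc) (a := a) hi hj ht hu
  have h3 := h t ht u hu
  omega

theorem smooth2_near_le (hg : Lip2 lr lc R C g) (h : ∀ i < R, ∀ j < C, a i j ≤ g i j + δ)
    (hi : i < R) (hj : j < C) : smooth2 lr lc R C a i j ≤ g i j + δ := by
  have := smooth2_le_add (lr := lr) (lc := lc) h hi hj
  rwa [smooth2_of_lip hg hi hj] at this

theorem le_smooth2_near (hg : Lip2 lr lc R C g) (h : ∀ i < R, ∀ j < C, g i j ≤ a i j + δ)
    (hi : i < R) (hj : j < C) : g i j ≤ smooth2 lr lc R C a i j + δ := by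
  have := smooth2_le_add (lr := lr) (lc := lc) h hi hj
  rwa [smooth2_of_lip hg hi hj] at this

end two

/-! ### extension from a grid of step `g` -/

/-- the values on the grid, `cap` elsewhere -/
def onGrid (g n1 cap : ℕ) (T : ℕ → ℕ) (u : ℕ) : ℕ :=
  if u % g = 0 ∧ u / g < n1 then T (u / g) else cap

/-- McShane extension: `min cap (min_{v < n1} (T v + lam * |u - g v|))` -/
def ext (lam g n1 n cap : ℕ) (T : ℕ → ℕ) (u : ℕ) : ℕ := smooth lam n (onGrid g n1 cap T) u

section ext

variable {lam g n1 n cap u v : ℕ} {T : ℕ → ℕ} {G : ℕ → ℕ} {δ : ℕ}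

theorem onGrid_mul (hg : 0 < g) (hv : v < n1) : onGrid g n1 cap T (g * v) = T v := by
  unfold onGrid
  rw [Nat.mul_mod_right, Nat.mul_div_cancel_left _ hg, if_pos ⟨rfl, hv⟩]

theorem ext_le (hg : 0 < g) (hu : u < n) (hv : v < n1) (hvn : g * v < n) :
    ext lam g n1 n cap T u ≤ T v + lam * dst u (g * v) := by
  have := smooth_le (lam := lam) (a := onGrid g n1 cap T) hu hvn
  rwa [onGrid_mul hg hv] at this

theorem ext_le_cap (hT : ∀ v < n1, T v ≤ cap) (hu : u < n) : ext lam g n1 n cap T u ≤ cap := by
  refine (smooth_le_self hu).trans ?_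
  unfold onGrid
  split
  · next h => exact hT _ h.2
  · exact le_rfl

theorem ext_ex (hu : u < n) : cap ≤ ext lam g n1 n cap T u ∨
    ∃ v < n1, g * v < n ∧ ext lam g n1 n cap T u = T v + lam * dst u (g * v) := by
  obtain ⟨j, hj, h⟩ := smooth_ex (lam := lam) (a := onGrid g n1 cap T) hu
  by_cases h1 : j % g = 0 ∧ j / g < n1
  · right
    have e1 : g * (j / g) = j := by
      have := Nat.div_add_mod j g
      omega
    refine ⟨j / g, h1.2, by rw [e1]; exact hj, ?_⟩
    unfold ext
    rw [h, onGrid, if_pos h1, e1]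
  · left
    unfold ext
    rw [h, onGrid, if_neg h1]
    exact Nat.le_add_right _ _

theorem le_ext_iff (hg : 0 < g) (hu : u < n) {w : ℕ} (hw : w ≤ cap) :
    w ≤ ext lam g n1 n cap T u ↔ ∀ v < n1, g * v < n → w ≤ T v + lam * dst u (g * v) := by
  constructor
  · exact fun h v hv hvn => h.trans (ext_le hg hu hv hvn)
  · intro h
    rcases ext_ex (lam := lam) (g := g) (n1 := n1) (cap := cap) (T := T) hu with h1 | ⟨v, hv, hvn, h1⟩
    · exact hw.trans h1
    · rw [h1]; exact h v hv hvn

theorem ext_lip : Lip lam n (ext lam g n1 n cap T) := smooth_lip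

/-- it extends the data if they are `lam * g`-Lipschitz on the grid -/
theorem ext_grid (hg : 0 < g) (hT : Lip (lam * g) n1 T) (hc : ∀ v < n1, T v ≤ cap) (hv : v < n1)
    (hvn : g * v < n) : ext lam g n1 n cap T (g * v) = T v := by
  refine le_antisymm ?_ ?_
  · have := ext_le (lam := lam) (cap := cap) (T := T) hg hvn hv hvn
    rwa [dst_self, Nat.mul_zero, Nat.add_zero] at this
  · rw [le_ext_iff hg hvn (hc v hv)]
    intro t ht _
    rw [dst_mul, ← Nat.mul_assoc]
    exact hT v hv t ht

/-- error of the extension, lower side -/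
theorem le_ext_near (hG : Lip lam n G) (hcap : ∀ u < n, G u ≤ cap + δ)
    (h : ∀ v < n1, g * v < n → G (g * v) ≤ T v + δ) (hu : u < n) :
    G u ≤ ext lam g n1 n cap T u + δ := by
  rcases ext_ex (lam := lam) (g := g) (n1 := n1) (cap := cap) (T := T) hu with h1 | ⟨v, hv, hvn, h1⟩
  · have := hcap u hu
    omega
  · have h2 := hG u hu (g * v) hvn
    have h3 := h v hv hvn
    omega

/-- error of the extension, upper side (`r`: a grid point within distance `r`) -/
theorem ext_near_le (hg : 0 < g) (hG : Lip lam n G)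
    (h : ∀ v < n1, g * v < n → T v ≤ G (g * v) + δ) (hu : u < n) (hv : v < n1) (hvn : g * v < n) :
    ext lam g n1 n cap T u ≤ G u + δ + 2 * (lam * dst u (g * v)) := by
  have h1 := ext_le (lam := lam) (cap := cap) (T := T) hg hu hv hvn
  have h2 := hG (g * v) hvn u hu
  have h3 := h v hv hvn
  rw [dst_comm (g * v) u] at h2
  omega

/-- the floor grid point is near -/
theorem dst_floor (hg : 0 < g) (u : ℕ) : dst u (g * (u / g)) < g := by
  have h1 := Nat.div_add_mod u g
  have h2 := Nat.mod_lt u hg
  unfold dst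
  omega

end ext

end Crest.Agent.R288.Smooth387
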