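import Crest.Agent.R288.DPt_964
import Crest.Agent.R288.Med_559
import Crest.Agent.R288.Samp_45
import Crest.Agent.R288.SmoothA_387

/-!
# R288: poly-time certificates of landed pure functions, menus, median of means (helper964)

* `ptf_cle`, `ptf_med`: `Med559.cle`, `Med559.med`; `chunk a b l` (`a` groups of length `b`),
  `medMean a b l` (median of `a` floor means of groups of size `b`), pointwise version `medMeanT`;
* `ptf_pre`, `ptf_pick`: `Samp45.pre`, `Samp45.pick`;
* `ptf_dst`, `inf1` = inf-convolution in one variable (`= Smooth387.smooth`), `inf2` in two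
  variables (`= Smooth387.smooth2`);
* `gridL g P u`: all multiples `k g` with `|k - u/g| ≤ P`; `mem_gridL`, `near_gridL`;
* `rndD g u` rounding down to the grid;
* `ptu_log2`, `ptu_log`, `ptf_two_pow_log2`;
* `argL d key l`: element of `l` with the first smallest key; `argL_mem`, `argL_le`;
* `minZip`: minimum of `dist + value` over a list of candidates.
-/

set_option autoImplicit false

namespace Crest.Agent.R288.DPt964

open Crest.Agent.Lib.PT
open Med559 (med cle)
open Smooth387 (dst smooth smooth2)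

variable {α β γ δ : Type} [PTCode α] [PTCode β] [PTCode γ] [PTCode δ]

/-! ### medians -/

section med

@[fun_prop]
theorem ptf_cle {l : γ → List ℕ} {v : γ → ℕ} (hl : PTF l) (hv : PTF v) :
    PTF (fun c => cle (l c) (v c)) := by
  refine PTU.toPTF (PTU.countP (p := fun c x => decide (x ≤ v c)) hl ?_)
  refine PTPred.toPTF (p := fun q : γ × ℕ => q.2 ≤ v q.1) (PTPred.natLe PTF.snd ?_)
  exact PTF.comp hv PTF.fst

/-- the entries which are upper medians -/
def upMed (l : List ℕ) : List ℕ := l.filter fun v => decide (l.length < 2 * cle l v)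

theorem med_eq_lmin (l : List ℕ) : med l = lmin ((upMed l).headD 0) (upMed l) := by
  by_cases hl : l = []
  · subst hl
    have h : {v | ([] : List ℕ).length < 2 * cle [] v} = ∅ := by
      ext v; simp [cle]
    rw [med, h]
    simp [upMed]
  · have h1 : med l ∈ upMed l := by
      unfold upMed
      rw [List.mem_filter]
      exact ⟨Med559.med_mem_list hl, by simpa using Med559.med_spec hl⟩
    refine le_antisymm ?_ (lmin_le h1)
    have h2 := lmin_headD_mem (List.ne_nil_of_mem h1)
    have h3 := (List.mem_filter.1 h2).2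
    exact Med559.med_le (by simpa using h3)

@[fun_prop]
theorem ptf_upMed {l : γ → List ℕ} (hl : PTF l) : PTF (fun c => upMed (l c)) := by
  refine PTF.filter (p := fun c v => decide ((l c).length < 2 * cle (l c) v)) hl ?_
  refine PTPred.toPTF (p := fun q : γ × ℕ => (l q.1).length < 2 * cle (l q.1) q.2) ?_
  refine PTPred.natLt (by fun_prop) (by fun_prop)

@[fun_prop]
theorem ptf_med {l : γ → List ℕ} (hl : PTF l) : PTF (fun c => med (l c)) := by
  refine PTF.of_eq (f := fun c => lmin ((upMed (l c)).headD 0) (upMed (l c))) (by fun_prop)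
    fun c => (med_eq_lmin _).symm

/-- `a` groups of length `b` -/
def chunk (a b : ℕ) (l : List α) : List (List α) := tab a fun i => (l.drop (i * b)).take b

omit [PTCode α] in
@[simp] theorem length_chunk (a b : ℕ) (l : List α) : (chunk a b l).length = a := by simp [chunk]

omit [PTCode α] in
theorem chunk_succ (a b : ℕ) (l : List α) :
    chunk (a + 1) b l = l.take b :: chunk a b (l.drop b) := by
  unfold chunk tab
  rw [List.range_succ_eq_map, List.map_cons, List.map_map]
  simp only [Nat.zero_mul, List.drop_zero, List.cons.injEq, true_and]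
  refine List.map_congr_left fun i _ => ?_
  simp only [Function.comp_apply, List.drop_drop, Nat.succ_eq_add_one]
  congr 2
  ring

theorem ptf_chunk {a : γ → ℕ} {b : γ → ℕ} {l : γ → List α} (ha : PTU a) (hb : PTF b)
    (hl : PTF l) : PTF (fun c => chunk (a c) (b c) (l c)) := by
  refine ptf_tab ha (f := fun c i => ((l c).drop (i * b c)).take (b c)) ?_
  have h1 : PTF (fun q : γ × ℕ => b q.1) := PTF.comp hb PTF.fst
  have h2 : PTF (fun q : γ × ℕ => l q.1) := PTF.comp hl PTF.fst
  exact ptf_take_bin (ptf_drop_bin h2 (PTF.natMul PTF.snd h1)) h1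

/-- median of the `a` floor means of groups of length `b` -/
noncomputable def medMean (a b : ℕ) (l : List ℕ) : ℕ := med ((chunk a b l).map fun g => g.sum / b)

theorem ptf_medMean {a b : γ → ℕ} {l : γ → List ℕ} (ha : PTU a) (hb : PTF b) (hl : PTF l) :
    PTF (fun c => medMean (a c) (b c) (l c)) := by
  refine ptf_med (PTF.map (f := fun c (g : List ℕ) => g.sum / b c) (ptf_chunk ha hb hl) ?_)
  exact PTF.natDiv (PTF.natListSum PTF.snd) (PTF.comp hb PTF.fst)

/-- pointwise median of means of tables of length `n` -/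
noncomputable def medMeanT (n a b : ℕ) (T : List (List ℕ)) : List ℕ :=
  tab n fun i => medMean a b (T.map fun t => g1 t i)

theorem g1_medMeanT {n a b i : ℕ} {T : List (List ℕ)} (h : i < n) :
    g1 (medMeanT n a b T) i = medMean a b (T.map fun t => g1 t i) := g1_tab _ h

theorem ptf_medMeanT {n a b : γ → ℕ} {T : γ → List (List ℕ)} (hn : PTU n) (ha : PTU a)
    (hb : PTF b) (hT : PTF T) : PTF (fun c => medMeanT (n c) (a c) (b c) (T c)) := by
  refine ptf_tab hn (f := fun c i => medMean (a c) (b c) ((T c).map fun t => g1 t i)) ?_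
  refine ptf_medMean (a := fun q : γ × ℕ => a q.1) (b := fun q : γ × ℕ => b q.1)
    (l := fun q : γ × ℕ => (T q.1).map fun t => g1 t q.2) (PTU.comp ha PTF.fst)
    (PTF.comp hb PTF.fst) ?_
  refine PTF.map (l := fun q : γ × ℕ => T q.1) (f := fun q t => g1 t q.2) (PTF.comp hT PTF.fst) ?_
  exact ptf_g1 (l := fun p : (γ × ℕ) × List ℕ => p.2) (i := fun p => p.1.2) PTF.snd
    (PTF.comp PTF.snd PTF.fst)

end med

/-! ### prefix sums, index of a residue -/

section samp

open Samp45 (pre pick)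

theorem ptf_pre {a : γ → ℕ → ℕ} {n : γ → ℕ} (ha : PTF₂ a) (hn : PTU n) :
    PTF (fun c => pre (a c) (n c)) := PTF.natSumRange hn ha

theorem pick_eq_cntR (a : ℕ → ℕ) (n r : ℕ) :
    pick a n r = cntR n fun j => decide (pre a (min (j + 1) n) ≤ r) := by
  rw [cntR_eq]
  unfold pick
  congr 1
  ext j
  simp only [Finset.mem_filter, Finset.mem_range, decide_eq_true_eq]
  refine and_congr_right fun h => ?_
  rw [min_eq_left (by omega)]

theorem ptf_pick {a : γ → ℕ → ℕ} {n r : γ → ℕ} (ha : PTF₂ a) (hn : PTU n) (hr : PTF r) :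
    PTF (fun c => pick (a c) (n c) (r c)) := by
  refine PTF.of_eq (f := fun c => cntR (n c) fun j => decide (pre (a c) (min (j + 1) (n c)) ≤ r c))
    ?_ fun c => (pick_eq_cntR _ _ _).symm
  refine ptf_cntR (p := fun c j => decide (pre (a c) (min (j + 1) (n c)) ≤ r c)) hn ?_
  refine PTPred.toPTF (p := fun q : γ × ℕ => pre (a q.1) (min (q.2 + 1) (n q.1)) ≤ r q.1) ?_
  refine PTPred.natLe ?_ (PTF.comp hr PTF.fst)
  refine ptf_pre (a := fun q : γ × ℕ => a q.1) (n := fun q : γ × ℕ => min (q.2 + 1) (n q.1)) ?_ ?_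
  · exact PTF.comp (g := fun q : γ × ℕ => a q.1 q.2) (f := fun q : (γ × ℕ) × ℕ => (q.1.1, q.2)) ha
      (by fun_prop)
  · exact PTF.natMinUn (by fun_prop) (PTU.comp hn PTF.fst)

end samp

/-! ### distances and inf-convolutions -/

section conv

@[fun_prop]
theorem ptf_dst {u v : γ → ℕ} (hu : PTF u) (hv : PTF v) : PTF (fun c => dst (u c) (v c)) := by
  unfold Smooth387.dst; fun_prop

/-- `i ↦ min_{j < n} (a j + lam |i - j|)` as a list -/
def inf1 (lam n : ℕ) (a : ℕ → ℕ) : List ℕ :=
  tab n fun i => minR (a i) n fun j => a j + lam * dst i j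

theorem g1_inf1 {lam n i : ℕ} {a : ℕ → ℕ} (h : i < n) : g1 (inf1 lam n a) i = smooth lam n a i := by
  unfold inf1
  rw [g1_tab _ h]
  refine le_antisymm ?_ (le_minR_iff.2 ⟨Smooth387.smooth_le_self h, fun j hj =>
    Smooth387.smooth_le h hj⟩)
  obtain ⟨j, hj, e⟩ := Smooth387.smooth_ex (lam := lam) (a := a) h
  rw [e]
  exact minR_le hj

theorem ptf_inf1 {lam n : γ → ℕ} {a : γ → ℕ → ℕ} (hlam : PTF lam) (hn : PTU n) (ha : PTF₂ a) :
    PTF (fun c => inf1 (lam c) (n c) (a c)) := by
  refine ptf_tab hn (f := fun c i => minR (a c i) (n c) fun j => a c j + lam c * dst i j) ?_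
  refine ptf_minR (d := fun q : γ × ℕ => a q.1 q.2) (n := fun q : γ × ℕ => n q.1)
    (f := fun q j => a q.1 j + lam q.1 * dst q.2 j) ha (PTU.comp hn PTF.fst) ?_
  refine PTF.natAdd ?_ (PTF.natMul (PTF.comp hlam (by fun_prop)) (by fun_prop))
  exact PTF.comp (g := fun q : γ × ℕ => a q.1 q.2) (f := fun q : (γ × ℕ) × ℕ => (q.1.1, q.2)) ha
    (by fun_prop)

/-- `(i,j) ↦ min_{i' < R, j' < C} (a i' j' + lr |i - i'| + lc |j - j'|)` as a matrix -/
def inf2 (lr lc R C : ℕ) (a : ℕ → ℕ → ℕ) : List (List ℕ) :=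
  tab2 R C fun i j => minR (a i j) R fun i' => minR (a i j) C fun j' =>
    a i' j' + lr * dst i i' + lc * dst j j'

theorem g2_inf2 {lr lc R C i j : ℕ} {a : ℕ → ℕ → ℕ} (hi : i < R) (hj : j < C) :
    g2 (inf2 lr lc R C a) i j = smooth2 lr lc R C a i j := by
  unfold inf2
  rw [g2_tab2 _ hi hj]
  refine le_antisymm ?_ (le_minR_iff.2 ⟨Smooth387.smooth2_le_self hi hj, fun i' hi' =>
    le_minR_iff.2 ⟨Smooth387.smooth2_le_self hi hj, fun j' hj' =>
      Smooth387.smooth2_le hi hj hi' hj'⟩⟩)
  obtain ⟨i', hi', j', hj', e⟩ := Smooth387.smooth2_ex (lr := lr) (lc := lc) (a := a) hi hj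
  rw [e]
  exact (minR_le hi').trans (minR_le hj')

theorem ptf_inf2 {lr lc R C : γ → ℕ} {a : γ → ℕ → ℕ → ℕ} (hlr : PTF lr) (hlc : PTF lc)
    (hR : PTU R) (hC : PTU C) (ha : PTF (fun q : γ × ℕ × ℕ => a q.1 q.2.1 q.2.2)) :
    PTF (fun c => inf2 (lr c) (lc c) (R c) (C c) (a c)) := by
  refine ptf_tab2 hR hC (f := fun c i j => minR (a c i j) (R c) fun i' => minR (a c i j) (C c)
    fun j' => a c i' j' + lr c * dst i i' + lc c * dst j j') ?_
  refine ptf_minR (d := fun q : γ × ℕ × ℕ => a q.1 q.2.1 q.2.2) (n := fun q : γ × ℕ × ℕ => R q.1)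
    (f := fun q i' => minR (a q.1 q.2.1 q.2.2) (C q.1) fun j' =>
      a q.1 i' j' + lr q.1 * dst q.2.1 i' + lc q.1 * dst q.2.2 j') ha (PTU.comp hR PTF.fst) ?_
  refine ptf_minR (d := fun q : (γ × ℕ × ℕ) × ℕ => a q.1.1 q.1.2.1 q.1.2.2)
    (n := fun q : (γ × ℕ × ℕ) × ℕ => C q.1.1)
    (f := fun q j' => a q.1.1 q.2 j' + lr q.1.1 * dst q.1.2.1 q.2 + lc q.1.1 * dst q.1.2.2 j')
    ?_ (PTU.comp hC (by fun_prop)) ?_
  · exact PTF.comp (g := fun q : γ × ℕ × ℕ => a q.1 q.2.1 q.2.2)
      (f := fun q : (γ × ℕ × ℕ) × ℕ => q.1) ha (by fun_prop)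
  · have h1 : PTF (fun q : ((γ × ℕ × ℕ) × ℕ) × ℕ => a q.1.1.1 q.1.2 q.2) :=
      PTF.comp (g := fun q : γ × ℕ × ℕ => a q.1 q.2.1 q.2.2)
        (f := fun q : ((γ × ℕ × ℕ) × ℕ) × ℕ => (q.1.1.1, q.1.2, q.2)) ha (by fun_prop)
    have h2 : PTF (fun q : ((γ × ℕ × ℕ) × ℕ) × ℕ => lr q.1.1.1) := PTF.comp hlr (by fun_prop)
    have h3 : PTF (fun q : ((γ × ℕ × ℕ) × ℕ) × ℕ => lc q.1.1.1) := PTF.comp hlc (by fun_prop)
    refine PTF.natAdd (PTF.natAdd h1 (PTF.natMul h2 ?_)) (PTF.natMul h3 ?_)
    · fun_prop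
    · fun_prop

end conv

/-! ### grids and menus -/

section grid

variable {g P u v m k : ℕ}

/-- all multiples `k g` with `|k - u / g| ≤ P` (with repetitions at `0`) -/
def gridL (g P u : ℕ) : List ℕ := tab (2 * P + 1) fun i => (u / g + i - P) * g

theorem mem_gridL : m ∈ gridL g P u ↔ ∃ k, m = k * g ∧ k ≤ u / g + P ∧ u / g ≤ k + P := by
  unfold gridL
  rw [mem_tab]
  generalize u / g = t
  constructor
  · rintro ⟨i, hi, rfl⟩
    exact ⟨_, rfl, by omega, by omega⟩
  · rintro ⟨k, rfl, h1, h2⟩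
    exact ⟨k + P - t, by omega, by congr 1; omega⟩

theorem length_gridL : (gridL g P u).length = 2 * P + 1 := length_tab _ _

/-- multiples of `g` close to `u` are in the menu -/
theorem mul_mem_gridL (hg : 0 < g) (h : dst (k * g) u ≤ P * g) : k * g ∈ gridL g P u := by
  rw [mem_gridL]
  refine ⟨k, rfl, ?_, ?_⟩
  · have h1 : k * g ≤ u + P * g := by unfold Smooth387.dst at h; omega
    have h2 : k * g < (u / g + 1 + P) * g := by
      have := Nat.lt_div_mul_add (a := u) hg
      calc k * g ≤ u + P * g := h1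
        _ < u / g * g + g + P * g := by omega
        _ = (u / g + 1 + P) * g := by ring
    have := Nat.lt_of_mul_lt_mul_right h2
    omega
  · have h1 : u ≤ k * g + P * g := by unfold Smooth387.dst at h; omega
    have h2 : u / g ≤ (k * g + P * g) / g := Nat.div_le_div_right h1
    rwa [← Nat.add_mul, Nat.mul_div_cancel _ hg] at h2

/-- members of the menu are close to `u` -/
theorem dst_of_mem_gridL (hg : 0 < g) (h : m ∈ gridL g P u) : dst m u < (P + 1) * g := by
  obtain ⟨k, rfl, h1, h2⟩ := mem_gridL.1 h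
  have h3 := Nat.lt_div_mul_add (a := u) hg
  have h4 := Nat.div_mul_le_self u g
  have h5 : k * g ≤ (u / g + P) * g := Nat.mul_le_mul_right _ h1
  have h6 : u / g * g ≤ (k + P) * g := Nat.mul_le_mul_right _ h2
  rw [Nat.add_mul] at h5 h6
  rw [Nat.add_mul]
  unfold Smooth387.dst
  omega

theorem dvd_of_mem_gridL (h : m ∈ gridL g P u) : g ∣ m := by
  obtain ⟨k, rfl, -, -⟩ := mem_gridL.1 h
  exact Dvd.intro_left k rfl

/-- rounding down to the grid -/
def rndD (g u : ℕ) : ℕ := u / g * g

theorem rndD_le : rndD g u ≤ u := Nat.div_mul_le_self u g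
theorem lt_rndD_add (hg : 0 < g) : u < rndD g u + g := Nat.lt_div_mul_add hg
theorem dvd_rndD : g ∣ rndD g u := Dvd.intro_left _ rfl
theorem dst_rndD (hg : 0 < g) : dst (rndD g u) u < g := by
  have h1 := rndD_le (g := g) (u := u)
  have h2 := lt_rndD_add (u := u) hg
  unfold Smooth387.dst
  omega
theorem rndD_of_dvd (h : g ∣ u) : rndD g u = u := Nat.div_mul_cancel h

theorem rndD_mem_gridL : rndD g u ∈ gridL g P u := mem_gridL.2 ⟨u / g, rfl, by omega, by omega⟩

theorem ptf_gridL {g P u : γ → ℕ} (hg : PTF g) (hP : PTU P) (hu : PTF u) :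
    PTF (fun c => gridL (g c) (P c) (u c)) := by
  refine ptf_tab (PTU.succ (PTU.mul (PTU.const 2) hP))
    (f := fun c i => (u c / g c + i - P c) * g c) ?_
  have h1 : PTF (fun q : γ × ℕ => g q.1) := PTF.comp hg PTF.fst
  have h2 : PTF (fun q : γ × ℕ => u q.1) := PTF.comp hu PTF.fst
  have h3 : PTF (fun q : γ × ℕ => P q.1) := PTF.comp (PTU.toPTF hP) PTF.fst
  exact PTF.natMul (PTF.natSub (PTF.natAdd (PTF.natDiv h2 h1) PTF.snd) h3) h1

@[fun_prop]
theorem ptf_rndD {g u : γ → ℕ} (hg : PTF g) (hu : PTF u) : PTF (fun c => rndD (g c) (u c)) :=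
  PTF.natMul (PTF.natDiv hu hg) hg

end grid

/-! ### logarithms as unary numbers -/

section logs

theorem ptu_log2 {f : γ → ℕ} (hf : PTF f) : PTU (fun c => (f c).log2) :=
  (PTU.sub (PTF.natSizeUn hf) (PTU.const 1)).of_eq (fun a => by
    rcases Nat.eq_zero_or_pos (f a) with h | h
    · simp [h]
    · have h1 : (f a).size = (f a).log2 + 1 := by
        refine le_antisymm (Nat.size_le.2 Nat.lt_log2_self) ?_
        rw [Nat.succ_le_iff, Nat.lt_size]
        exact Nat.log2_self_le h.ne'
      omega)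

theorem ptu_log {f : γ → ℕ} (hf : PTF f) : PTU (fun c => Nat.log 2 (f c)) :=
  (ptu_log2 hf).of_eq fun c => by rw [Nat.log2_eq_log_two]

theorem ptf_two_pow_log2 {f : γ → ℕ} (hf : PTF f) : PTF (fun c => 2 ^ (f c).log2) :=
  PTF.natTwoPow (ptu_log2 hf)

end logs

/-! ### element with the smallest key -/

section argL

/-- the first element of `l` with the smallest key (`d` if `l = []`) -/
def argL (d : α) (key : α → ℕ) (l : List α) : α := l.getD (amin (l.map key)) d

variable {d x : α} {key : α → ℕ} {l : List α}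

omit [PTCode α] in
theorem amin_map_lt (h : l ≠ []) : amin (l.map key) < l.length := by
  have h' : l.map key ≠ [] := by simpa using h
  have := amin_lt h'
  rwa [List.length_map] at this

omit [PTCode α] in
theorem argL_mem (h : l ≠ []) : argL d key l ∈ l := by
  unfold argL
  rw [List.getD_eq_getElem _ _ (amin_map_lt h)]
  exact List.getElem_mem _

omit [PTCode α] in
theorem argL_le (h : x ∈ l) : key (argL d key l) ≤ key x := by
  have h0 : l ≠ [] := List.ne_nil_of_mem h
  have h1 := getD_amin_le (l := l.map key) (List.mem_map_of_mem h)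
  have h2 := amin_map_lt (key := key) h0
  rw [List.getD_eq_getElem _ _ (by simpa using h2), List.getElem_map] at h1
  unfold argL
  rwa [List.getD_eq_getElem _ _ h2]

omit [PTCode α] in
theorem argL_nil : argL d key [] = d := rfl

theorem ptf_argL {d : γ → α} {key : γ → α → ℕ} {l : γ → List α} (hd : PTF d) (hkey : PTF₂ key)
    (hl : PTF l) : PTF (fun c => argL (d c) (key c) (l c)) := by
  unfold argL
  exact ptf_getD_bin hl (ptf_amin (PTF.map hl hkey)) hd

end argL

/-! ### best candidate with distances -/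

section minZip

/-- `min (d, min over the candidates (z, v) of dist z + v)` -/
def minZip (d : ℕ) (dist : α → ℕ) (zs : List α) (vs : List ℕ) : ℕ :=
  lmin d ((zs.zip vs).map fun p => dist p.1 + p.2)

variable {d : ℕ} {dist : α → ℕ} {zs : List α} {vs : List ℕ}

omit [PTCode α] in
theorem minZip_le_def : minZip d dist zs vs ≤ d := lmin_le_def

omit [PTCode α] in
theorem minZip_le {i : ℕ} (hi : i < zs.length) (hi' : i < vs.length) :
    minZip d dist zs vs ≤ dist zs[i] + vs[i] := by
  refine lmin_le (List.mem_map.2 ⟨(zs[i], vs[i]), ?_, rfl⟩)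
  have : (zs.zip vs)[i]'(by rw [List.length_zip]; omega) = (zs[i], vs[i]) := by simp
  rw [← this]
  exact List.getElem_mem _

omit [PTCode α] in
theorem le_minZip {x : ℕ} (hd : x ≤ d) (h : ∀ i (hi : i < zs.length) (hi' : i < vs.length),
    x ≤ dist zs[i] + vs[i]) : x ≤ minZip d dist zs vs := by
  refine le_lmin_iff.2 ⟨hd, fun y hy => ?_⟩
  obtain ⟨p, hp, rfl⟩ := List.mem_map.1 hy
  obtain ⟨i, hi, e⟩ := List.getElem_of_mem hp
  rw [List.length_zip] at hi
  have h1 := h i (by omega) (by omega)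
  rw [List.getElem_zip] at e
  rw [← e]
  exact h1

omit [PTCode α] in
/-- if the values are those of a function `f`, the minimum is attained at a candidate -/
theorem minZip_map_ex (f : α → ℕ) : minZip d dist zs (zs.map f) = d ∨
    ∃ z ∈ zs, minZip d dist zs (zs.map f) = dist z + f z := by
  rcases lmin_mem (d := d) (l := (zs.zip (zs.map f)).map fun p => dist p.1 + p.2) with h | h
  · exact Or.inl h
  · refine Or.inr ?_
    obtain ⟨p, hp, e⟩ := List.mem_map.1 h
    obtain ⟨i, hi, e'⟩ := List.getElem_of_mem hp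
    rw [List.length_zip, List.length_map, min_self] at hi
    rw [List.getElem_zip, List.getElem_map] at e'
    refine ⟨zs[i], List.getElem_mem _, ?_⟩
    unfold minZip
    rw [← e, ← e']

theorem ptf_minZip {d : γ → ℕ} {dist : γ → α → ℕ} {zs : γ → List α} {vs : γ → List ℕ}
    (hd : PTF d) (hdist : PTF₂ dist) (hz : PTF zs) (hv : PTF vs) :
    PTF (fun c => minZip (d c) (dist c) (zs c) (vs c)) := by
  refine ptf_lmin (PTF.map (f := fun c (p : α × ℕ) => dist c p.1 + p.2) (PTF.zip hz hv) ?_) hd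
  refine PTF.natAdd ?_ (by fun_prop)
  exact PTF.comp (g := fun q : γ × α => dist q.1 q.2) (f := fun q : γ × α × ℕ => (q.1, q.2.1))
    hdist (by fun_prop)

end minZip

end Crest.Agent.R288.DPt964
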