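import Crest.Agent.Lib.PT.ArithMore
import Crest.Agent.Lib.PT.ListFns2

/-!
# R288: poly-time certified list toolkit for local functions (helper964)

Total functions on lists of naturals together with their certificates in `Lib.PT` and their
specifications.

* access with a BINARY index: `PTF.getD_bin`, `PTF.getElem?_bin`, `PTF.take_bin`, `PTF.drop_bin`,
  `PTF.set_bin` (tagged `fun_prop`);
* `lmin d l`, `lmax l`, `amin l` (index of the first minimum);
* over ranges: `minR d n f`, `maxR n f`, `aminR n f` (first argmin of `f` on `0..n-1`), `sumR`;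
* `tab n f = [f 0, …, f (n-1)]`, `tab2 n m f`; entries `g1 l i`, `g2 l i j` (`0` outside);
* `cntR n p` number of `i < n` with `p i`;
* sorting: `sortN`.
-/

set_option autoImplicit false

namespace Crest.Agent.R288.DPt964

open Crest.Agent.Lib.PT

variable {α β γ δ : Type} [PTCode α] [PTCode β] [PTCode γ] [PTCode δ]

/-! ### binary indices -/

section index

@[fun_prop]
theorem ptf_getElem?_bin {l : γ → List α} {n : γ → ℕ} (hl : PTF l) (hn : PTF n) :
    PTF (fun c => (l c)[n c]?) := by
  refine (PTF.getElem? (PTF.natMinUn hn (PTU.length hl)) hl).of_eq fun c => ?_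
  rcases Nat.lt_or_ge (n c) (l c).length with h | h
  · rw [min_eq_left h.le]
  · rw [min_eq_right h, List.getElem?_eq_none h, List.getElem?_eq_none le_rfl]

@[fun_prop]
theorem ptf_getD_bin {l : γ → List α} {n : γ → ℕ} {d : γ → α} (hl : PTF l) (hn : PTF n)
    (hd : PTF d) : PTF (fun c => (l c).getD (n c) (d c)) := by
  refine (PTF.getD (PTF.natMinUn hn (PTU.length hl)) hl hd).of_eq fun c => ?_
  rcases Nat.lt_or_ge (n c) (l c).length with h | h
  · rw [min_eq_left h.le]
  · rw [min_eq_right h, List.getD_eq_default _ _ h, List.getD_eq_default _ _ le_rfl]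

@[fun_prop]
theorem ptf_take_bin {l : γ → List α} {n : γ → ℕ} (hl : PTF l) (hn : PTF n) :
    PTF (fun c => (l c).take (n c)) := by
  refine (PTF.take (PTF.natMinUn hn (PTU.length hl)) hl).of_eq fun c => ?_
  rcases Nat.lt_or_ge (n c) (l c).length with h | h
  · rw [min_eq_left h.le]
  · rw [min_eq_right h, List.take_of_length_le h, List.take_length]

@[fun_prop]
theorem ptf_drop_bin {l : γ → List α} {n : γ → ℕ} (hl : PTF l) (hn : PTF n) :
    PTF (fun c => (l c).drop (n c)) := by
  refine (PTF.drop (PTF.natMinUn hn (PTU.length hl)) hl).of_eq fun c => ?_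
  rcases Nat.lt_or_ge (n c) (l c).length with h | h
  · rw [min_eq_left h.le]
  · rw [min_eq_right h, List.drop_of_length_le h, List.drop_length]

@[fun_prop]
theorem ptf_set_bin {l : γ → List α} {n : γ → ℕ} {a : γ → α} (hl : PTF l) (hn : PTF n)
    (ha : PTF a) : PTF (fun c => (l c).set (n c) (a c)) := by
  refine (PTF.set hl (PTF.natMinUn hn (PTU.length hl)) ha).of_eq fun c => ?_
  rcases Nat.lt_or_ge (n c) (l c).length with h | h
  · rw [min_eq_left h.le]
  · rw [min_eq_right h, List.set_eq_of_length_le h, List.set_eq_of_length_le le_rfl]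

/-- unary numbers are numbers -/
@[fun_prop]
theorem ptf_length {l : γ → List α} (hl : PTF l) : PTF (fun c => (l c).length) :=
  PTU.toPTF (PTU.length hl)

@[fun_prop]
theorem ptf_headD {l : γ → List α} {d : γ → α} (hl : PTF l) (hd : PTF d) :
    PTF (fun c => (l c).headD (d c)) :=
  (PTF.optionGetD (PTF.head? hl) hd).of_eq fun c => by
    cases l c <;> rfl

/-- `min n k` in unary where `k` is the length of a list -/
theorem ptu_min_length {l : γ → List α} {n : γ → ℕ} (hl : PTF l) (hn : PTF n) :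
    PTU (fun c => min (n c) (l c).length) := PTF.natMinUn hn (PTU.length hl)

end index

/-! ### minimum of a list -/

section lmin

/-- minimum of the entries and of `d` -/
def lmin (d : ℕ) (l : List ℕ) : ℕ := l.foldl min d

/-- maximum of the entries (`0` for the empty list) -/
def lmax (l : List ℕ) : ℕ := l.foldl max 0

variable {d x : ℕ} {l l' : List ℕ}

@[simp] theorem lmin_nil : lmin d [] = d := rfl
theorem lmin_cons (a : ℕ) : lmin d (a :: l) = lmin (min d a) l := rfl

theorem lmin_eq_min (a : ℕ) : lmin (min d a) l = min a (lmin d l) := by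
  induction l generalizing d with
  | nil => simp [min_comm]
  | cons b l ih =>
    rw [lmin_cons, lmin_cons, ← ih]
    congr 1
    omega

theorem lmin_cons' (a : ℕ) : lmin d (a :: l) = min a (lmin d l) := by rw [lmin_cons, lmin_eq_min]

theorem lmin_le_def : lmin d l ≤ d := by
  induction l with
  | nil => exact le_rfl
  | cons a l ih => rw [lmin_cons']; omega

theorem lmin_le (hx : x ∈ l) : lmin d l ≤ x := by
  induction l with
  | nil => simp at hx
  | cons a l ih =>
    rw [lmin_cons']
    rcases List.mem_cons.1 hx with h | h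
    · omega
    · have := ih h; omega

theorem lmin_mem : lmin d l = d ∨ lmin d l ∈ l := by
  induction l with
  | nil => exact Or.inl rfl
  | cons a l ih =>
    rw [lmin_cons']
    rcases le_total a (lmin d l) with h | h
    · rw [min_eq_left h]; simp
    · rw [min_eq_right h]
      rcases ih with h' | h'
      · exact Or.inl h'
      · exact Or.inr (List.mem_cons_of_mem _ h')

theorem le_lmin_iff : x ≤ lmin d l ↔ x ≤ d ∧ ∀ y ∈ l, x ≤ y := by
  induction l with
  | nil => simp
  | cons a l ih =>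
    rw [lmin_cons', le_min_iff, ih]
    simp only [List.mem_cons, forall_eq_or_imp]
    tauto

theorem lmin_eq {v : ℕ} (h1 : v ≤ d) (h2 : ∀ y ∈ l, v ≤ y) (h3 : v = d ∨ v ∈ l) :
    lmin d l = v := by
  refine le_antisymm ?_ (le_lmin_iff.2 ⟨h1, h2⟩)
  rcases h3 with rfl | h
  · exact lmin_le_def
  · exact lmin_le h

theorem lmin_headD_mem (h : l ≠ []) : lmin (l.headD 0) l ∈ l := by
  rcases lmin_mem (d := l.headD 0) (l := l) with h' | h'
  · rw [h']
    cases l with
    | nil => exact absurd rfl h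
    | cons a l => simp
  · exact h'

theorem lmax_eq (l : List ℕ) (d : ℕ) : l.foldl max d = max d (lmax l) := by
  unfold lmax
  induction l generalizing d with
  | nil => simp
  | cons b l ih =>
    rw [List.foldl_cons, List.foldl_cons, ih, ih (max 0 b)]
    omega

theorem lmax_cons (a : ℕ) : lmax (a :: l) = max a (lmax l) := by
  show (a :: l).foldl max 0 = _
  rw [List.foldl_cons, lmax_eq]
  simp

theorem le_lmax (hx : x ∈ l) : x ≤ lmax l := by
  induction l with
  | nil => simp at hx
  | cons a l ih =>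
    rw [lmax_cons]
    rcases List.mem_cons.1 hx with h | h
    · omega
    · have := ih h; omega

theorem lmax_le_iff : lmax l ≤ x ↔ ∀ y ∈ l, y ≤ x := by
  induction l with
  | nil => simp [lmax]
  | cons a l ih =>
    rw [lmax_cons, max_le_iff, ih]
    simp only [List.mem_cons, forall_eq_or_imp]

theorem lmax_mem (h : l ≠ []) : lmax l ∈ l := by
  induction l with
  | nil => exact absurd rfl h
  | cons a l ih =>
    rw [lmax_cons]
    by_cases hl : l = []
    · subst hl; simp [lmax]
    · rcases le_total a (lmax l) with h' | h'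
      · rw [max_eq_right h']; exact List.mem_cons_of_mem _ (ih hl)
      · rw [max_eq_left h']; simp

@[fun_prop]
theorem ptf_lmin {l : γ → List ℕ} {d : γ → ℕ} (hl : PTF l) (hd : PTF d) :
    PTF (fun c => lmin (d c) (l c)) := by
  refine PTF.foldl (f := fun _ (m : ℕ) (a : ℕ) => min m a) hl (by fun_prop) hd
    (B := fun c => sz (d c)) hd.sz fun c i _ => ?_
  show sz (lmin (d c) ((l c).take i)) ≤ _
  rw [sz_nat, sz_nat]
  exact Nat.size_le_size lmin_le_def

@[fun_prop]
theorem ptf_lmax {l : γ → List ℕ} (hl : PTF l) : PTF (fun c => lmax (l c)) := by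
  refine PTF.foldl (f := fun _ (m : ℕ) (a : ℕ) => max m a) hl (by fun_prop) (PTF.const 0)
    (B := fun c => sz (l c)) hl.sz fun c i _ => ?_
  show sz (lmax ((l c).take i)) ≤ _
  by_cases h : (l c).take i = []
  · rw [h]; simp [lmax, sz_nat]
  · exact sz_mem_le (List.mem_of_mem_take (lmax_mem h))

/-- index of the first minimum (`0` for the empty list) -/
def amin (l : List ℕ) : ℕ :=
  (l.takeWhile fun x => decide (¬ x = lmin (l.headD 0) l)).length

theorem takeWhile_ne_lt {v : ℕ} (h : v ∈ l) :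
    (l.takeWhile fun x => decide (¬ x = v)).length < l.length := by
  induction l with
  | nil => simp at h
  | cons a l ih =>
    rw [List.takeWhile_cons]
    by_cases ha : a = v
    · simp [ha]
    · rcases List.mem_cons.1 h with h | h
      · exact absurd h.symm ha
      · simp only [ha, not_false_eq_true, decide_true, if_true, List.length_cons]
        have := ih h
        omega

theorem getD_takeWhile_ne {v : ℕ} (h : v ∈ l) :
    l.getD (l.takeWhile fun x => decide (¬ x = v)).length 0 = v := by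
  induction l with
  | nil => simp at h
  | cons a l ih =>
    rw [List.takeWhile_cons]
    by_cases ha : a = v
    · simp [ha]
    · rcases List.mem_cons.1 h with h | h
      · exact absurd h.symm ha
      · simp only [ha, not_false_eq_true, decide_true, if_true, List.length_cons,
          List.getD_cons_succ]
        exact ih h

theorem amin_lt (h : l ≠ []) : amin l < l.length := takeWhile_ne_lt (lmin_headD_mem h)

theorem getD_amin (h : l ≠ []) : l.getD (amin l) 0 = lmin (l.headD 0) l :=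
  getD_takeWhile_ne (lmin_headD_mem h)

theorem getD_amin_le (hx : x ∈ l) : l.getD (amin l) 0 ≤ x := by
  rw [getD_amin (List.ne_nil_of_mem hx)]
  exact lmin_le hx

@[fun_prop]
theorem ptf_amin {l : γ → List ℕ} (hl : PTF l) : PTF (fun c => amin (l c)) := by
  refine ptf_length (PTF.takeWhile (p := fun c x => decide (¬ x = lmin ((l c).headD 0) (l c)))
    hl ?_)
  refine PTPred.toPTF (p := fun q : γ × ℕ => ¬ q.2 = lmin ((l q.1).headD 0) (l q.1)) ?_
  refine PTPred.not (PTPred.natEq (by fun_prop) ?_)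
  fun_prop

end lmin

/-! ### tables -/

section tab

/-- `[f 0, …, f (n-1)]` -/
def tab (n : ℕ) (f : ℕ → α) : List α := (List.range n).map f

omit [PTCode α] in
@[simp] theorem length_tab (n : ℕ) (f : ℕ → α) : (tab n f).length = n := by simp [tab]

omit [PTCode α] in
theorem getElem?_tab {n i : ℕ} (f : ℕ → α) (h : i < n) : (tab n f)[i]? = some (f i) := by
  simp [tab, h]

omit [PTCode α] in
theorem getD_tab {n i : ℕ} (f : ℕ → α) (d : α) (h : i < n) : (tab n f).getD i d = f i := by
  simp [tab, h]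

omit [PTCode α] in
theorem getD_tab_ge {n i : ℕ} (f : ℕ → α) (d : α) (h : n ≤ i) : (tab n f).getD i d = d := by
  simp [tab, h]

omit [PTCode α] in
theorem mem_tab {n : ℕ} {f : ℕ → α} {x : α} : x ∈ tab n f ↔ ∃ i < n, f i = x := by simp [tab]

omit [PTCode α] in
theorem tab_congr {n : ℕ} {f g : ℕ → α} (h : ∀ i < n, f i = g i) : tab n f = tab n g := by
  unfold tab
  exact List.map_congr_left fun i hi => h i (List.mem_range.1 hi)

omit [PTCode α] [PTCode β] in
theorem map_tab (n : ℕ) (f : ℕ → α) (g : α → β) : (tab n f).map g = tab n fun i => g (f i) := by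
  simp [tab, Function.comp_def]

omit [PTCode α] in
theorem tab_succ (n : ℕ) (f : ℕ → α) : tab (n + 1) f = tab n f ++ [f n] := by
  simp [tab, List.range_succ]

/-- certificate of a table; `n` unary -/
theorem ptf_tab {n : γ → ℕ} {f : γ → ℕ → α} (hn : PTU n) (hf : PTF₂ f) :
    PTF (fun c => tab (n c) (f c)) := PTF.tabulate hn hf

/-- entry of a list of naturals, `0` outside -/
def g1 (l : List ℕ) (i : ℕ) : ℕ := l.getD i 0

/-- entry of a matrix, `0` outside -/
def g2 (M : List (List ℕ)) (i j : ℕ) : ℕ := g1 (M.getD i []) j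

/-- entry of a list of matrices, `0` outside -/
def g3 (M : List (List (List ℕ))) (i j k : ℕ) : ℕ := g2 (M.getD i []) j k

theorem g1_tab {n i : ℕ} (f : ℕ → ℕ) (h : i < n) : g1 (tab n f) i = f i := getD_tab f 0 h

theorem g1_of_ge {l : List ℕ} {i : ℕ} (h : l.length ≤ i) : g1 l i = 0 :=
  List.getD_eq_default _ _ h

theorem g1_mem {l : List ℕ} {i : ℕ} (h : i < l.length) : g1 l i ∈ l := by
  unfold g1
  rw [List.getD_eq_getElem _ _ h]
  exact List.getElem_mem h

/-- `n × m` matrix -/
def tab2 (n m : ℕ) (f : ℕ → ℕ → ℕ) : List (List ℕ) := tab n fun i => tab m (f i)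

theorem g2_tab2 {n m i j : ℕ} (f : ℕ → ℕ → ℕ) (hi : i < n) (hj : j < m) :
    g2 (tab2 n m f) i j = f i j := by
  unfold g2 tab2
  rw [getD_tab _ _ hi, g1_tab _ hj]

/-- `p × n × m` list of matrices -/
def tab3 (p n m : ℕ) (f : ℕ → ℕ → ℕ → ℕ) : List (List (List ℕ)) := tab p fun i => tab2 n m (f i)

theorem g3_tab3 {p n m i j k : ℕ} (f : ℕ → ℕ → ℕ → ℕ) (hi : i < p) (hj : j < n) (hk : k < m) :
    g3 (tab3 p n m f) i j k = f i j k := by
  unfold g3 tab3
  rw [getD_tab _ _ hi, g2_tab2 _ hj hk]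

@[fun_prop]
theorem ptf_g1 {l : γ → List ℕ} {i : γ → ℕ} (hl : PTF l) (hi : PTF i) :
    PTF (fun c => g1 (l c) (i c)) := by
  unfold g1; fun_prop

@[fun_prop]
theorem ptf_g2 {M : γ → List (List ℕ)} {i j : γ → ℕ} (hM : PTF M) (hi : PTF i) (hj : PTF j) :
    PTF (fun c => g2 (M c) (i c) (j c)) := by
  unfold g2; fun_prop

@[fun_prop]
theorem ptf_g3 {M : γ → List (List (List ℕ))} {i j k : γ → ℕ} (hM : PTF M) (hi : PTF i)
    (hj : PTF j) (hk : PTF k) : PTF (fun c => g3 (M c) (i c) (j c) (k c)) := by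
  unfold g3; fun_prop

theorem ptf_tab2 {n m : γ → ℕ} {f : γ → ℕ → ℕ → ℕ} (hn : PTU n) (hm : PTU m)
    (hf : PTF (fun q : γ × ℕ × ℕ => f q.1 q.2.1 q.2.2)) :
    PTF (fun c => tab2 (n c) (m c) (f c)) := by
  refine ptf_tab hn (f := fun c i => tab (m c) (f c i)) ?_
  refine ptf_tab (n := fun q : γ × ℕ => m q.1) (f := fun q j => f q.1 q.2 j)
    (PTU.comp hm PTF.fst) ?_
  exact PTF.comp (g := fun q : γ × ℕ × ℕ => f q.1 q.2.1 q.2.2)
    (f := fun q : (γ × ℕ) × ℕ => (q.1.1, q.1.2, q.2)) hf (by fun_prop)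

theorem ptf_tab3 {p n m : γ → ℕ} {f : γ → ℕ → ℕ → ℕ → ℕ} (hp : PTU p) (hn : PTU n) (hm : PTU m)
    (hf : PTF (fun q : γ × ℕ × ℕ × ℕ => f q.1 q.2.1 q.2.2.1 q.2.2.2)) :
    PTF (fun c => tab3 (p c) (n c) (m c) (f c)) := by
  refine ptf_tab hp (f := fun c i => tab2 (n c) (m c) (f c i)) ?_
  refine ptf_tab2 (n := fun q : γ × ℕ => n q.1) (m := fun q : γ × ℕ => m q.1)
    (f := fun q j k => f q.1 q.2 j k) (PTU.comp hn PTF.fst) (PTU.comp hm PTF.fst) ?_
  exact PTF.comp (g := fun q : γ × ℕ × ℕ × ℕ => f q.1 q.2.1 q.2.2.1 q.2.2.2)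
    (f := fun q : (γ × ℕ) × ℕ × ℕ => (q.1.1, q.1.2, q.2.1, q.2.2)) hf (by fun_prop)

end tab

/-! ### minima, argmins, sums and counts over a range -/

section ranges

/-- `min (d, f 0, …, f (n-1))` -/
def minR (d n : ℕ) (f : ℕ → ℕ) : ℕ := lmin d (tab n f)

/-- `max (f 0, …, f (n-1))`, `0` if `n = 0` -/
def maxR (n : ℕ) (f : ℕ → ℕ) : ℕ := lmax (tab n f)

/-- first argmin of `f` on `0..n-1` (`0` if `n = 0`) -/
def aminR (n : ℕ) (f : ℕ → ℕ) : ℕ := amin (tab n f)

/-- number of `i < n` with `p i` -/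
def cntR (n : ℕ) (p : ℕ → Bool) : ℕ := (List.range n).countP p

variable {d n i x : ℕ} {f g : ℕ → ℕ}

theorem minR_le_def : minR d n f ≤ d := lmin_le_def

theorem minR_le (h : i < n) : minR d n f ≤ f i := lmin_le (mem_tab.2 ⟨i, h, rfl⟩)

theorem le_minR_iff : x ≤ minR d n f ↔ x ≤ d ∧ ∀ i < n, x ≤ f i := by
  unfold minR
  rw [le_lmin_iff]
  refine and_congr_right fun _ => ⟨fun h i hi => h _ (mem_tab.2 ⟨i, hi, rfl⟩), fun h y hy => ?_⟩
  obtain ⟨i, hi, rfl⟩ := mem_tab.1 hy
  exact h i hi

theorem minR_ex : minR d n f = d ∨ ∃ i < n, minR d n f = f i := by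
  rcases lmin_mem (d := d) (l := tab n f) with h | h
  · exact Or.inl h
  · obtain ⟨i, hi, e⟩ := mem_tab.1 h
    exact Or.inr ⟨i, hi, e.symm⟩

theorem minR_congr (h : ∀ i < n, f i = g i) : minR d n f = minR d n g := by
  unfold minR; rw [tab_congr h]

theorem minR_zero : minR d 0 f = d := rfl

theorem minR_succ : minR d (n + 1) f = min (minR d n f) (f n) := by
  refine le_antisymm (le_min (le_minR_iff.2 ⟨minR_le_def, fun i hi => minR_le (by omega)⟩)
    (minR_le (by omega))) (le_minR_iff.2 ⟨(min_le_left _ _).trans minR_le_def, fun i hi => ?_⟩)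
  rcases Nat.lt_succ_iff_lt_or_eq.1 hi with h | rfl
  · exact (min_le_left _ _).trans (minR_le h)
  · exact min_le_right _ _

theorem minR_mono {d' : ℕ} (hd : d ≤ d') (h : ∀ i < n, f i ≤ g i) : minR d n f ≤ minR d' n g :=
  le_minR_iff.2 ⟨minR_le_def.trans hd, fun i hi => (minR_le hi).trans (h i hi)⟩

theorem le_maxR (h : i < n) : f i ≤ maxR n f := le_lmax (mem_tab.2 ⟨i, h, rfl⟩)

theorem maxR_le_iff : maxR n f ≤ x ↔ ∀ i < n, f i ≤ x := by
  unfold maxR
  rw [lmax_le_iff]
  refine ⟨fun h i hi => h _ (mem_tab.2 ⟨i, hi, rfl⟩), fun h y hy => ?_⟩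
  obtain ⟨i, hi, rfl⟩ := mem_tab.1 hy
  exact h i hi

theorem maxR_ex (h : 0 < n) : ∃ i < n, maxR n f = f i := by
  have h0 : tab n f ≠ [] := by
    intro h'
    have := congrArg List.length h'
    simp at this
    omega
  obtain ⟨i, hi, e⟩ := mem_tab.1 (lmax_mem h0)
  exact ⟨i, hi, e.symm⟩

theorem tab_ne_nil (h : 0 < n) : tab n f ≠ [] := by
  intro h'
  have := congrArg List.length h'
  simp at this
  omega

theorem aminR_lt (h : 0 < n) : aminR n f < n := by
  have := amin_lt (tab_ne_nil (f := f) h)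
  rwa [length_tab] at this

theorem f_aminR_le (h : i < n) : f (aminR n f) ≤ f i := by
  have h0 : 0 < n := by omega
  have h1 := getD_amin_le (l := tab n f) (mem_tab.2 ⟨i, h, rfl⟩)
  have h2 : amin (tab n f) < n := aminR_lt h0
  rwa [getD_tab _ _ h2] at h1

theorem f_aminR (h : 0 < n) : f (aminR n f) = minR (f 0) n f :=
  le_antisymm (le_minR_iff.2 ⟨f_aminR_le h, fun _ hi => f_aminR_le hi⟩) (minR_le (aminR_lt h))

theorem aminR_congr (h : ∀ i < n, f i = g i) : aminR n f = aminR n g := by
  unfold aminR; rw [tab_congr h]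

theorem cntR_eq (n : ℕ) (p : ℕ → Bool) :
    cntR n p = ((Finset.range n).filter fun i => p i = true).card := by
  unfold cntR
  rw [List.countP_eq_length_filter]
  rw [← List.toFinset_card_of_nodup (List.Nodup.filter _ List.nodup_range)]
  congr 1
  ext i
  simp

theorem ptf_minR {d n : γ → ℕ} {f : γ → ℕ → ℕ} (hd : PTF d) (hn : PTU n) (hf : PTF₂ f) :
    PTF (fun c => minR (d c) (n c) (f c)) := ptf_lmin (ptf_tab hn hf) hd

theorem ptf_maxR {n : γ → ℕ} {f : γ → ℕ → ℕ} (hn : PTU n) (hf : PTF₂ f) :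
    PTF (fun c => maxR (n c) (f c)) := ptf_lmax (ptf_tab hn hf)

theorem ptf_aminR {n : γ → ℕ} {f : γ → ℕ → ℕ} (hn : PTU n) (hf : PTF₂ f) :
    PTF (fun c => aminR (n c) (f c)) := ptf_amin (ptf_tab hn hf)

theorem ptf_cntR {n : γ → ℕ} {p : γ → ℕ → Bool} (hn : PTU n) (hp : PTF₂ p) :
    PTF (fun c => cntR (n c) (p c)) := PTU.toPTF (PTU.countP (PTF.range hn) hp)

end ranges

/-! ### pointwise operations on tables -/

section pointwise

/-- pointwise sum of two lists, on the first `n` entries -/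
def addL (n : ℕ) (a b : List ℕ) : List ℕ := tab n fun i => g1 a i + g1 b i

/-- pointwise sum of a list of lists, on the first `n` entries -/
def sumL (n : ℕ) (A : List (List ℕ)) : List ℕ := tab n fun i => (A.map fun l => g1 l i).sum

/-- pointwise floor division -/
def divL (c : ℕ) (a : List ℕ) : List ℕ := a.map fun x => x / c

/-- pointwise multiplication by a constant -/
def mulL (c : ℕ) (a : List ℕ) : List ℕ := a.map fun x => c * x

/-- pointwise floor mean of a list of lists -/
def meanL (n : ℕ) (A : List (List ℕ)) : List ℕ := divL A.length (sumL n A)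

theorem g1_addL {n i : ℕ} {a b : List ℕ} (h : i < n) : g1 (addL n a b) i = g1 a i + g1 b i :=
  g1_tab _ h

theorem g1_sumL {n i : ℕ} {A : List (List ℕ)} (h : i < n) :
    g1 (sumL n A) i = (A.map fun l => g1 l i).sum := g1_tab _ h

theorem g1_divL (c i : ℕ) (a : List ℕ) : g1 (divL c a) i = g1 a i / c := by
  unfold g1 divL
  rcases Nat.lt_or_ge i a.length with h | h
  · rw [List.getD_eq_getElem _ _ (by simpa using h), List.getD_eq_getElem _ _ h]; simp
  · rw [List.getD_eq_default _ _ (by simpa using h), List.getD_eq_default _ _ h]; simp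

theorem g1_mulL (c i : ℕ) (a : List ℕ) : g1 (mulL c a) i = c * g1 a i := by
  unfold g1 mulL
  rcases Nat.lt_or_ge i a.length with h | h
  · rw [List.getD_eq_getElem _ _ (by simpa using h), List.getD_eq_getElem _ _ h]; simp
  · rw [List.getD_eq_default _ _ (by simpa using h), List.getD_eq_default _ _ h]; simp

theorem g1_meanL {n i : ℕ} {A : List (List ℕ)} (h : i < n) :
    g1 (meanL n A) i = (A.map fun l => g1 l i).sum / A.length := by
  unfold meanL
  rw [g1_divL, g1_sumL h]

theorem ptf_addL {n : γ → ℕ} {a b : γ → List ℕ} (hn : PTU n) (ha : PTF a) (hb : PTF b) :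
    PTF (fun c => addL (n c) (a c) (b c)) := by
  refine ptf_tab hn (f := fun c i => g1 (a c) i + g1 (b c) i) ?_
  refine PTF.natAdd (ptf_g1 ?_ PTF.snd) (ptf_g1 ?_ PTF.snd)
  · exact PTF.comp ha PTF.fst
  · exact PTF.comp hb PTF.fst

theorem ptf_sumL {n : γ → ℕ} {A : γ → List (List ℕ)} (hn : PTU n) (hA : PTF A) :
    PTF (fun c => sumL (n c) (A c)) := by
  refine ptf_tab hn (f := fun c i => ((A c).map fun l => g1 l i).sum) ?_
  refine PTF.natListSum (PTF.map (l := fun q : γ × ℕ => A q.1) (f := fun q l => g1 l q.2) ?_ ?_)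
  · exact PTF.comp hA PTF.fst
  · exact ptf_g1 (by fun_prop) (by fun_prop)

@[fun_prop]
theorem ptf_divL {c : γ → ℕ} {a : γ → List ℕ} (hc : PTF c) (ha : PTF a) :
    PTF (fun q => divL (c q) (a q)) := by
  refine PTF.map (f := fun q x => x / c q) ha ?_
  exact PTF.natDiv PTF.snd (PTF.comp hc PTF.fst)

@[fun_prop]
theorem ptf_mulL {c : γ → ℕ} {a : γ → List ℕ} (hc : PTF c) (ha : PTF a) :
    PTF (fun q => mulL (c q) (a q)) := by
  refine PTF.map (f := fun q x => c q * x) ha ?_
  exact PTF.natMul (PTF.comp hc PTF.fst) PTF.snd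

theorem ptf_meanL {n : γ → ℕ} {A : γ → List (List ℕ)} (hn : PTU n) (hA : PTF A) :
    PTF (fun c => meanL (n c) (A c)) := by
  unfold meanL
  exact ptf_divL (ptf_length hA) (ptf_sumL hn hA)

end pointwise

end Crest.Agent.R288.DPt964
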