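import Crest.Agent.R288.PtY_949
import Crest.Agent.R288.AlgB_45

/-!
# R288, [DELTA] (helper222), common part: association tables, lists of deterministic requests

* `asc T a d` : value of `a` in the association list `T` (default `d`); `asc_zip`: if `T` is
  `ys.zip (ys.map f)` the value at `a ∈ ys` is `f a`; `ptf_asc`.
* `seqL_ret`, `seqL_append`, `seqL_map_congr` : lists of computations (`Alg45.seqL`).
* `chunk n l` : cut a list into pieces of `n` entries; `chunk_flatten`.
-/

set_option autoImplicit false

namespace Crest.Agent.R288.Delta222

open Crest.Agent.Lib.PT Crest.Agent.R288.PtX949 Crest.Agent.R295.Rnd627 Crest.Agent.R288.Alg45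

/-! ### association tables -/

section asc

variable {α β : Type} [DecidableEq α]

/-- the value of `a` -/
def asc (T : List (α × β)) (a : α) (d : β) : β := ((T.find? fun p => p.1 = a).map Prod.snd).getD d

@[simp] theorem asc_nil (a : α) (d : β) : asc ([] : List (α × β)) a d = d := rfl

theorem asc_cons (p : α × β) (T : List (α × β)) (a : α) (d : β) :
    asc (p :: T) a d = if p.1 = a then p.2 else asc T a d := by
  unfold asc
  by_cases h : p.1 = a
  · simp [h]
  · simp [h]

theorem asc_zip (ys : List α) (f : α → β) {a : α} (ha : a ∈ ys) (d : β) :
    asc (ys.zip (ys.map f)) a d = f a := by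
  induction ys with
  | nil => simp at ha
  | cons y ys ih =>
    rw [List.map_cons, List.zip_cons_cons, asc_cons]
    by_cases h : y = a
    · simp [h]
    · rw [if_neg h]
      exact ih ((List.mem_cons.1 ha).resolve_left fun h' => h h'.symm)

theorem asc_map (ys : List α) (f : α → β) {a : α} (ha : a ∈ ys) (d : β) :
    asc (ys.map fun y => (y, f y)) a d = f a := by
  induction ys with
  | nil => simp at ha
  | cons y ys ih =>
    rw [List.map_cons, asc_cons]
    by_cases h : y = a
    · simp [h]
    · rw [if_neg h]
      exact ih ((List.mem_cons.1 ha).resolve_left fun h' => h h'.symm)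

end asc

@[fun_prop]
theorem ptf_asc {γ α β : Type} [PTCode γ] [PTCode α] [PTCode β] [DecidableEq α]
    {T : γ → List (α × β)} {a : γ → α} {d : γ → β} (hT : PTF T) (ha : PTF a) (hd : PTF d) :
    PTF (fun c => asc (T c) (a c) (d c)) := by
  unfold asc
  fun_prop

/-! ### lists of computations -/

section seq

variable {α β : Type}

theorem seqL_ret (l : List α) : seqL (l.map RT.ret) = RT.ret l := by
  induction l with
  | nil => rfl
  | cons a l ih =>
    rw [List.map_cons, seqL, ih]
    rfl

/-- requests with a determined answer -/
theorem seqL_map_ret {ι : Type} (l : List ι) (f : ι → α) :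
    seqL (l.map fun i => RT.ret (f i)) = RT.ret (l.map f) := by
  rw [← seqL_ret, List.map_map]
  rfl

theorem bind_assoc' {γ : Type} (t : RT α) (f : α → RT β) (g : β → RT γ) :
    (t.bind f).bind g = t.bind fun a => (f a).bind g := by
  induction t with
  | ret a => rfl
  | rnd k ih => exact congrArg RT.rnd (funext fun v => ih v)

theorem bind_ret' (t : RT α) : t.bind RT.ret = t := by
  induction t with
  | ret a => rfl
  | rnd k ih => exact congrArg RT.rnd (funext fun v => ih v)

/-- answers decoded by `f` -/
theorem seqL_map_map {ι : Type} (l : List ι) (t : ι → RT α) (f : α → β) :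
    seqL (l.map fun i => (t i).bind fun a => RT.ret (f a)) =
      (seqL (l.map t)).bind fun as => RT.ret (as.map f) := by
  induction l with
  | nil => rfl
  | cons i l ih =>
    rw [List.map_cons, List.map_cons, seqL, seqL, bind_assoc', bind_assoc']
    congr 1
    funext a
    rw [RT.ret_bind, ih, bind_assoc', bind_assoc']
    rfl

/-- random words as requests -/
theorem seqL_replicate (n : ℕ) (t : RT α) (f : α → β) :
    seqL (List.replicate n (t.bind fun a => RT.ret (f a))) =
      (RT.reps n t).bind fun as => RT.ret (as.map f) := by
  induction n with
  | zero => rfl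
  | succ n ih =>
    rw [List.replicate_succ, seqL, RT.reps_succ, bind_assoc', bind_assoc']
    congr 1
    funext a
    rw [RT.ret_bind, ih, bind_assoc', bind_assoc']
    rfl

theorem seqL_append (l l' : List (RT α)) :
    seqL (l ++ l') = (seqL l).bind fun a => (seqL l').bind fun b => RT.ret (a ++ b) := by
  induction l with
  | nil =>
    change seqL l' = (seqL l').bind fun b => RT.ret b
    exact (bind_ret' _).symm
  | cons t l ih =>
    rw [List.cons_append, seqL, seqL, ih, bind_assoc']
    congr 1
    funext a
    rw [bind_assoc', bind_assoc']
    congr 1
    funext b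
    rw [bind_assoc', RT.ret_bind]
    rfl

theorem seqL_congr {ι : Type} (l : List ι) {t t' : ι → RT α} (h : ∀ i ∈ l, t i = t' i) :
    seqL (l.map t) = seqL (l.map t') := by
  rw [List.map_congr_left h]

end seq

/-! ### cutting a list -/

section chunk

variable {α : Type}

/-- the first `m` pieces of length `n` -/
def chunk (n : ℕ) : ℕ → List α → List (List α)
  | 0, _ => []
  | m + 1, l => l.take n :: chunk n m (l.drop n)

@[simp] theorem chunk_length (n m : ℕ) (l : List α) : (chunk n m l).length = m := by
  induction m generalizing l with
  | zero => rfl
  | succ m ih => simp [chunk, ih]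

theorem chunk_flatten {n : ℕ} (L : List (List α)) (h : ∀ l ∈ L, l.length = n) (r : List α) :
    chunk n L.length (L.flatten ++ r) = L := by
  induction L with
  | nil => rfl
  | cons l L ih =>
    have hl : l.length = n := h l (by simp)
    rw [List.length_cons, chunk, List.flatten_cons, List.append_assoc, ← hl,
      List.take_left', List.drop_left', hl, ih (fun l' h' => h l' (by simp [h']))]
    · rfl
    · rfl

theorem chunk_eq (n m : ℕ) (l : List α) :
    chunk n m l = (List.range m).map fun i => (l.drop (i * n)).take n := by
  induction m generalizing l with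
  | zero => rfl
  | succ m ih =>
    rw [chunk, ih, List.range_succ_eq_map, List.map_cons, List.map_map]
    congr 1
    · simp
    · apply List.map_congr_left
      intro i _
      simp only [Function.comp, List.drop_drop, Nat.succ_eq_add_one]
      congr 2
      ring

end chunk

end Crest.Agent.R288.Delta222
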