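import Crest.Agent.R288.AlgB_45

/-!
# R288, [PROG] leaf G1 of #4727 (helper172): LOCALITY of the functions of AlgA_45 / AlgB_45 (v2)

* `pcs P κ x` = all grid pieces of the window of `x` at scale `κ`, `wst P κ x = x :: pcs P κ x`:
  the states at which `bodyNum` reads `F` (and `leaf` at `x` only);
* `hmenu P F y` = the pairs read by `hull P F f y`, `own P F y` = the pair read by `numSt P F κ f y`,
  `wpr P F κ x` = all pairs at which `bodyNum` reads `X i`, `i < k` (`S q` only at `own`);
* `bst P c`, `bpr P F c`, `cells P c` = the same for a whole table.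

`minR_congr`, .., `hull_congr`, `numSt_congr`, **`bodyNum_congr`**, `botNum_congr`, `arrNum_congr`,
`Xbar_congr`, `FNext_congr`, **`bodyT_congr`**, **`arrOf_congr`**; association lists `mkT`, `getT`, `getO`,
**`bodyNum_tab`**, `bodyT_tab`, `hull_tab`, `FNext_tab`, `arrOf_tab`.
-/

set_option autoImplicit false

namespace Crest.Agent.R288.PgA172

open Crest.Agent.R288.Alg45

variable (P : Par)

/-! ### elementary -/

theorem minR_congr {n : ℕ} (hn : 0 < n) {f g : ℕ → ℕ} (h : ∀ a < n, f a = g a) :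
    minR n f = minR n g := by
  unfold minR
  rw [h 0 hn]
  have : ∀ (l : List ℕ) (m : ℕ), (∀ a ∈ l, f a = g a) →
      l.foldl (fun m a => min m (f a)) m = l.foldl (fun m a => min m (g a)) m := by
    intro l
    induction l with
    | nil => intro m _; rfl
    | cons a l ih =>
      intro m hl
      simp only [List.foldl_cons]
      rw [hl a (by simp), ih _ fun b hb => hl b (by simp [hb])]
  exact this _ _ fun a ha => h a (List.mem_range.1 ha)

theorem argR_congr {n : ℕ} {f g : ℕ → ℕ} (hn : 0 < n) (h : ∀ a < n, f a = g a) :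
    argR n f = argR n g := by
  unfold argR
  have : ∀ (l : List ℕ) (m : ℕ), f m = g m → (∀ a ∈ l, f a = g a) →
      l.foldl (fun m a => if f a < f m then a else m) m
        = l.foldl (fun m a => if g a < g m then a else m) m := by
    intro l
    induction l with
    | nil => intro m _ _; rfl
    | cons a l ih =>
      intro m hm hl
      have ha : f a = g a := hl a (by simp)
      simp only [List.foldl_cons]
      rw [ha, hm]
      refine ih _ ?_ fun b hb => hl b (by simp [hb])
      split_ifs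
      · exact ha
      · exact hm
  exact this _ _ (h 0 hn) fun a ha => h a (List.mem_range.1 ha)

theorem argR_lt {n : ℕ} (hn : 0 < n) (f : ℕ → ℕ) : argR n f < n := by
  unfold argR
  have : ∀ (l : List ℕ) (m : ℕ), m < n → (∀ a ∈ l, a < n) →
      l.foldl (fun m a => if f a < f m then a else m) m < n := by
    intro l
    induction l with
    | nil => intro m hm _; exact hm
    | cons a l ih =>
      intro m hm hl
      simp only [List.foldl_cons]
      refine ih _ ?_ fun b hb => hl b (by simp [hb])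
      split_ifs
      · exact hl a (by simp)
      · exact hm
  exact this _ _ hn fun a ha => List.mem_range.1 ha

theorem sumR_congr {n : ℕ} {f g : ℕ → ℕ} (h : ∀ a < n, f a = g a) : sumR n f = sumR n g := by
  unfold sumR
  rw [List.map_congr_left fun a ha => h a (List.mem_range.1 ha)]

theorem maxR_congr {n : ℕ} {f g : ℕ → ℕ} (h : ∀ a < n, f a = g a) : maxR n f = maxR n g := by
  unfold maxR
  have : ∀ (l : List ℕ) (m : ℕ), (∀ a ∈ l, f a = g a) →
      l.foldl (fun m a => max m (f a)) m = l.foldl (fun m a => max m (g a)) m := by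
    intro l
    induction l with
    | nil => intro m _; rfl
    | cons a l ih =>
      intro m hl
      simp only [List.foldl_cons]
      rw [hl a (by simp), ih _ fun b hb => hl b (by simp [hb])]
  exact this _ _ fun a ha => h a (List.mem_range.1 ha)

theorem map_congr' {α β : Type} {l : List α} {f g : α → β} (h : ∀ a ∈ l, f a = g a) :
    l.map f = l.map g := List.map_congr_left h

/-! ### staircases -/

theorem D_congr {A : ℕ} (hA : 0 < A) {T T' : ℕ → ℕ → ℕ → ℕ} {n : ℕ}
    (h : ∀ q < n, ∀ a < A, ∀ b < A, T q a b = T' q a b) {j : ℕ} (hj : j ≤ n) {b : ℕ} (hb : b < A) :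
    D A T j b = D A T' j b := by
  induction j generalizing b with
  | zero => rfl
  | succ j ih =>
    simp only [D]
    refine minR_congr hA fun a ha => ?_
    rw [ih (by omega) ha, h j (by omega) a ha b hb]

theorem minSt_congr {N A : ℕ} (hA : 0 < A) {T T' : ℕ → ℕ → ℕ → ℕ}
    (h : ∀ q < N, ∀ a < A, ∀ b < A, T q a b = T' q a b) : minSt N A T = minSt N A T' :=
  D_congr hA h le_rfl hA

theorem WA_pos (κ : ℕ) : 0 < WA P κ := by unfold WA; omega

/-- all grid pieces of the window of `x` at the scale `κ` -/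
def pcs (κ : ℕ) (x : St) : List St :=
  (List.range P.N).flatMap fun q => (List.range (WA P κ)).flatMap fun a =>
    (List.range (WA P κ)).map fun b => piece P κ x q a b

/-- the states read in the window of `x` at the scale `κ` -/
def wst (κ : ℕ) (x : St) : List St := x :: pcs P κ x

theorem self_mem (κ : ℕ) (x : St) : x ∈ wst P κ x := by simp [wst]

theorem pcs_mem {κ : ℕ} {x : St} {q a b : ℕ} (hq : q < P.N) (ha : a < WA P κ)
    (hb : b < WA P κ) : piece P κ x q a b ∈ pcs P κ x := by
  unfold pcs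
  refine List.mem_flatMap.2 ⟨q, List.mem_range.2 hq, ?_⟩
  refine List.mem_flatMap.2 ⟨a, List.mem_range.2 ha, ?_⟩
  exact List.mem_map.2 ⟨b, List.mem_range.2 hb, rfl⟩

theorem mem_pcs {κ : ℕ} {x y : St} :
    y ∈ pcs P κ x ↔ ∃ q < P.N, ∃ a < WA P κ, ∃ b < WA P κ, y = piece P κ x q a b := by
  unfold pcs
  simp only [List.mem_flatMap, List.mem_range, List.mem_map]
  constructor
  · rintro ⟨q, hq, a, ha, b, hb, h⟩
    exact ⟨q, hq, a, ha, b, hb, h.symm⟩
  · rintro ⟨q, hq, a, ha, b, hb, h⟩
    exact ⟨q, hq, a, ha, b, hb, h.symm⟩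

theorem mem_wst {κ : ℕ} {x y : St} : y ∈ wst P κ x ↔ y = x ∨ y ∈ pcs P κ x := by simp [wst]

theorem wst_of_pcs {κ : ℕ} {x y : St} (h : y ∈ pcs P κ x) : y ∈ wst P κ x :=
  (mem_wst P).2 (Or.inr h)

theorem piece_mem {κ : ℕ} {x : St} {q a b : ℕ} (hq : q < P.N) (ha : a < WA P κ)
    (hb : b < WA P κ) : piece P κ x q a b ∈ wst P κ x := wst_of_pcs P (pcs_mem P hq ha hb)

theorem Vst_congr {κ : ℕ} {x : St} {f g : St → ℕ} (h : ∀ y ∈ pcs P κ x, f y = g y) :
    Vst P κ x f = Vst P κ x g :=
  minSt_congr (WA_pos P κ) fun _ hq _ ha _ hb => h _ (pcs_mem P hq ha hb)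

/-! ### weights, hedge values, in-window DP -/

theorem wts_congr {gn gd B U : ℕ} (hB : 0 < B) {w0 w0' : ℕ → ℕ} {us us' : ℕ → ℕ → ℕ} {i : ℕ}
    (hw : ∀ z < B, w0 z = w0' z) (h : ∀ i' < i, ∀ z < B, us i' z = us' i' z) {z : ℕ} (hz : z < B) :
    wts gn gd B U w0 us i z = wts gn gd B U w0' us' i z := by
  induction i generalizing z with
  | zero => exact hw z hz
  | succ i ih =>
    simp only [wts]
    rw [ih (fun i' hi => h i' (by omega)) hz, h i (by omega) z hz,
      minR_congr hB fun a ha => h i (by omega) a ha]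

theorem hv_congr {gn gd B U : ℕ} (hB : 0 < B) {w0 w0' : ℕ → ℕ} {us us' : ℕ → ℕ → ℕ} {i : ℕ}
    (hw : ∀ z < B, w0 z = w0' z) (h : ∀ i' ≤ i, ∀ z < B, us i' z = us' i' z) :
    hv gn gd B U w0 us i = hv gn gd B U w0' us' i := by
  unfold hv
  have h1 : ∀ z < B, wts gn gd B U w0 us i z = wts gn gd B U w0' us' i z := fun z hz =>
    wts_congr hB hw (fun i' hi => h i' (by omega)) hz
  rw [sumR_congr (f := fun z => wts gn gd B U w0 us i z * us i z)
      (g := fun z => wts gn gd B U w0' us' i z * us' i z) fun z hz => by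
        show wts gn gd B U w0 us i z * us i z = wts gn gd B U w0' us' i z * us' i z
        rw [h1 z hz, h i le_rfl z hz],
    sumR_congr (f := wts gn gd B U w0 us i) (g := wts gn gd B U w0' us' i) h1]

theorem VV_congr {γ B N : ℕ} (hB : 0 < B) {U U' : ℕ → ℕ → ℕ} {E E' : ℕ → ℕ → ℕ → ℕ → ℕ} {k : ℕ}
    (hU : ∀ t p, (p + 1) * 2 ^ t ≤ N → U t p = U' t p)
    (hE : ∀ i ≤ k, ∀ q < N, ∀ a b, E i q a b = E' i q a b) {t i p : ℕ} (hi : i ≤ k)
    (hp : (p + 1) * 2 ^ t ≤ N) (a b : ℕ) : VV γ B U E t i p a b = VV γ B U' E' t i p a b := by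
  induction t generalizing i p a b with
  | zero => exact hE i hi p (by simp at hp; omega) a b
  | succ t ih =>
    simp only [VV]
    rw [hU (t + 1) p hp]
    have h2 : (p + 1) * 2 ^ (t + 1) = (2 * p + 1 + 1) * 2 ^ t := by ring
    have h3 : (2 * p + 1) * 2 ^ t ≤ (2 * p + 1 + 1) * 2 ^ t :=
      Nat.mul_le_mul_right _ (by omega)
    refine hv_congr hB (fun _ _ => rfl) fun i' hi' z _ => ?_
    show VV γ B U E t i' (2 * p) a z + VV γ B U E t i' (2 * p + 1) z b
      = VV γ B U' E' t i' (2 * p) a z + VV γ B U' E' t i' (2 * p + 1) z b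
    rw [ih (by omega) (by omega), ih (by omega) (by omega)]

/-! ### classes, guards, hull, numbers -/

section pt

variable {F F' : St → ℕ} {y : St}

theorem cls_congr (h : F y = F' y) : cls F y = cls F' y := by unfold cls; rw [h]

theorem adm_congr (h : F y = F' y) (κ : ℕ) : adm P F κ y = adm P F' κ y := by
  unfold adm
  rw [cls_congr h]

theorem R1_congr (h : F y = F' y) : R1 P F y ↔ R1 P F' y := by
  unfold R1
  rw [h]

/-- the pairs read by `hull P F f y` -/
def hmenu (F : St → ℕ) (y : St) : List (ℕ × St) :=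
  (rngC (cls F y - P.al) (cls F y + P.a2)).flatMap fun κ' =>
    (menu P κ' (2 * F y) y).map fun z => (κ', z)

theorem hmenu_congr (h : F y = F' y) : hmenu P F y = hmenu P F' y := by
  unfold hmenu
  rw [cls_congr h, h]

theorem hull_eq (F : St → ℕ) (f : ℕ → St → ℕ) (y : St) :
    hull P F f y = lmin (F y) ((hmenu P F y).map fun p => dist y p.2 + f p.1 p.2) := by
  unfold hull hmenu
  rw [List.map_flatMap]
  simp only [List.map_map]
  rfl

theorem hull_congr {f f' : ℕ → St → ℕ} (hF : F y = F' y)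
    (h : ∀ p ∈ hmenu P F y, f p.1 p.2 = f' p.1 p.2) : hull P F f y = hull P F' f' y := by
  rw [hull_eq, hull_eq, ← hmenu_congr P hF, ← hF]
  congr 1
  exact map_congr' fun p hp => by rw [h p hp]

/-- the pair read by `numSt P F κ f y` -/
def own (F : St → ℕ) (y : St) : ℕ × St := (cls F y, rdn P (cls F y) y)

theorem own_congr (h : F y = F' y) : own P F y = own P F' y := by
  unfold own
  rw [cls_congr h]

theorem numSt_congr {f f' : ℕ → St → ℕ} {κ : ℕ} (hF : F y = F' y)
    (h : f (own P F y).1 (own P F y).2 = f' (own P F y).1 (own P F y).2) :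
    numSt P F κ f y = numSt P F' κ f' y := by
  have hc := cls_congr hF
  unfold own at h
  dsimp only at h
  unfold numSt
  rw [← hc, ← hF, h]

end pt

/-! ### the prefix plan -/

section plan

variable {F F' : St → ℕ} {κ : ℕ} {x : St}

theorem tgt_lt (F : St → ℕ) (κ : ℕ) (x : St) (j : ℕ) : tgt P F κ x j < WA P κ :=
  argR_lt (WA_pos P κ) _

theorem tgt_congr (h : ∀ y ∈ wst P κ x, F y = F' y) {j : ℕ} (hj : j ≤ P.N) :
    tgt P F κ x j = tgt P F' κ x j := by
  unfold tgt
  refine argR_congr (WA_pos P κ) fun a ha => ?_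
  rw [h x (self_mem P κ x), D_congr (WA_pos P κ) (T := fun q a b => F (piece P κ x q a b))
    (T' := fun q a b => F' (piece P κ x q a b))
    (fun q hq a ha b hb => h _ (piece_mem P hq ha hb)) hj ha]

theorem tpiece_congr (h : ∀ y ∈ wst P κ x, F y = F' y) {q : ℕ} (hq : q < P.N) :
    tpiece P F κ x q = tpiece P F' κ x q := by
  unfold tpiece
  rw [tgt_congr P h (by omega), tgt_congr P h (by omega)]

theorem tpiece_mem (F : St → ℕ) {q : ℕ} (hq : q < P.N) : tpiece P F κ x q ∈ pcs P κ x :=
  pcs_mem P hq (tgt_lt P F κ x q) (tgt_lt P F κ x (q + 1))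

theorem unt_congr (h : ∀ y ∈ wst P κ x, F y = F' y) {t p : ℕ} (hp : (p + 1) * 2 ^ t ≤ P.N) :
    unt P F κ x t p = unt P F' κ x t p := by
  unfold unt
  rw [h x (self_mem P κ x)]
  congr 2
  refine sumR_congr fun i hi => ?_
  have hq : p * 2 ^ t + i < P.N := by
    have : (p + 1) * 2 ^ t = p * 2 ^ t + 2 ^ t := by ring
    omega
  rw [tpiece_congr P h hq, h _ (wst_of_pcs P (tpiece_mem P F' hq))]

theorem rad_congr (h : F x = F' x) : rad P F κ x = rad P F' κ x := by
  unfold rad
  rw [h]

theorem nlet_congr (h : F x = F' x) : nlet P F κ x = nlet P F' κ x := by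
  unfold nlet
  rw [rad_congr P h]

theorem near_lt (F : St → ℕ) (κ : ℕ) (x : St) (p z : ℕ) : near P F κ x p z < WA P κ := by
  unfold near
  have := WA_pos P κ
  omega

theorem near_congr (h : ∀ y ∈ wst P κ x, F y = F' y) {p : ℕ} (hp : p ≤ P.N) (z : ℕ) :
    near P F κ x p z = near P F' κ x p z := by
  unfold near
  rw [tgt_congr P h hp, rad_congr P (h x (self_mem P κ x))]

theorem npiece_mem (F : St → ℕ) {q : ℕ} (hq : q < P.N) (a b : ℕ) :
    npiece P F κ x q a b ∈ pcs P κ x :=
  pcs_mem P hq (near_lt P F κ x q a) (near_lt P F κ x (q + 1) b)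

theorem npiece_congr (h : ∀ y ∈ wst P κ x, F y = F' y) {q : ℕ} (hq : q < P.N) (a b : ℕ) :
    npiece P F κ x q a b = npiece P F' κ x q a b := by
  unfold npiece
  rw [near_congr P h (by omega), near_congr P h (by omega)]

theorem regular_congr (h : ∀ y ∈ wst P κ x, F y = F' y) :
    regular P F κ x ↔ regular P F' κ x := by
  unfold regular
  have hx := h x (self_mem P κ x)
  have hs : (sumR P.N fun q => maxR (nlet P F κ x) fun a => maxR (nlet P F κ x) fun b =>
        F (npiece P F κ x q a b))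
      = sumR P.N fun q => maxR (nlet P F' κ x) fun a => maxR (nlet P F' κ x) fun b =>
        F' (npiece P F' κ x q a b) := by
    refine sumR_congr fun q hq => ?_
    rw [nlet_congr P hx]
    refine maxR_congr fun a _ => maxR_congr fun b _ => ?_
    rw [npiece_congr P h hq, h _ (wst_of_pcs P (npiece_mem P F' hq a b))]
  rw [hs, hx]

end plan

/-! ### the value after the jump -/

theorem Wm_congr {f : ℕ} {V V' : ℕ → ℕ} {i : ℕ} (h : ∀ i' < i, V i' = V' i') :
    Wm f V i = Wm f V' i := by
  induction i with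
  | zero => rfl
  | succ i ih =>
    simp only [Wm]
    rw [ih fun i' hi => h i' (by omega), h i (by omega)]

/-- all pairs read by `bodyNum` at `(κ, x)` -/
def wpr (F : St → ℕ) (κ : ℕ) (x : St) : List (ℕ × St) :=
  (pcs P κ x).flatMap fun y => own P F y :: hmenu P F y

theorem own_mem_wpr {F : St → ℕ} {κ : ℕ} {x y : St} (hy : y ∈ pcs P κ x) :
    own P F y ∈ wpr P F κ x := List.mem_flatMap.2 ⟨y, hy, by simp⟩

theorem hmenu_mem_wpr {F : St → ℕ} {κ : ℕ} {x y : St} (hy : y ∈ pcs P κ x) {p : ℕ × St}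
    (hp : p ∈ hmenu P F y) : p ∈ wpr P F κ x := List.mem_flatMap.2 ⟨y, hy, by simp [hp]⟩

section body

variable {F F' : St → ℕ} {X X' : ℕ → ℕ → St → ℕ} {k : ℕ} {S S' : ℕ → ℕ → St → ℕ} {κ : ℕ} {x : St}

theorem wild_congr (hF : ∀ y ∈ wst P κ x, F y = F' y) {i : ℕ}
    (hX : ∀ i' < i, ∀ p ∈ wpr P F κ x, X i' p.1 p.2 = X' i' p.1 p.2) :
    wild P F X κ x i = wild P F' X' κ x i := by
  unfold wild
  rw [hF x (self_mem P κ x)]
  exact Wm_congr fun i' hi' => Vst_congr P fun y hy =>
    hull_congr P (hF y (wst_of_pcs P hy)) fun p hp => hX i' hi' p (hmenu_mem_wpr P hy hp)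

theorem calm_congr (hF : ∀ y ∈ wst P κ x, F y = F' y)
    (hX : ∀ i < k, ∀ p ∈ wpr P F κ x, X i p.1 p.2 = X' i p.1 p.2)
    (hS : ∀ q < P.N, ∀ y ∈ pcs P κ x, S q (own P F y).1 (own P F y).2
      = S' q (own P F y).1 (own P F y).2) (i : ℕ) :
    calm P F X k S κ x i = calm P F' X' k S' κ x i := by
  have hx := hF x (self_mem P κ x)
  unfold calm
  rw [nlet_congr P hx]
  refine VV_congr (N := P.N) (k := i) (by unfold nlet; omega) (fun t p hp => unt_congr P hF hp)
    (fun i' _ q hq a b => ?_) le_rfl (by simp [Par.N]) 0 0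
  have hm := npiece_mem P (κ := κ) (x := x) F' hq a b
  rw [npiece_congr P hF hq a b]
  refine numSt_congr P (hF _ (wst_of_pcs P hm)) ?_
  split_ifs with hi
  · exact hX i' hi _ (own_mem_wpr P hm)
  · exact hS q hq _ hm

theorem modal_congr (hF : ∀ y ∈ wst P κ x, F y = F' y)
    (hX : ∀ i < k, ∀ p ∈ wpr P F κ x, X i p.1 p.2 = X' i p.1 p.2)
    (hS : ∀ q < P.N, ∀ y ∈ pcs P κ x, S q (own P F y).1 (own P F y).2
      = S' q (own P F y).1 (own P F y).2) :
    modal P F X k S κ x = modal P F' X' k S' κ x := by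
  unfold modal
  rw [hF x (self_mem P κ x)]
  refine hv_congr (by norm_num) (fun _ _ => rfl) fun i hi z _ => ?_
  split_ifs with hz
  · exact calm_congr P hF hX hS i
  · exact wild_congr P hF fun i' hi' => hX i' (by omega)

/-- **locality of `bodyNum`** -/
theorem bodyNum_congr {leaf leaf' : St → Option ℕ} (hl : leaf x = leaf' x)
    (hF : ∀ y ∈ wst P κ x, F y = F' y)
    (hX : ∀ i < k, ∀ p ∈ wpr P F κ x, X i p.1 p.2 = X' i p.1 p.2)
    (hS : ∀ q < P.N, ∀ y ∈ pcs P κ x, S q (own P F y).1 (own P F y).2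
      = S' q (own P F y).1 (own P F y).2) :
    bodyNum P leaf F X k S κ x = bodyNum P leaf' F' X' k S' κ x := by
  have hx := hF x (self_mem P κ x)
  unfold bodyNum
  rw [hl, adm_congr P hx, hx, modal_congr P hF hX hS, wild_congr P hF hX]
  simp only [regular_congr P hF, R1_congr P hx]

end body

theorem botNum_congr {leaf leaf' : St → Option ℕ} {F F' : St → ℕ} {κ : ℕ} {x : St}
    (hl : leaf x = leaf' x) (hF : F x = F' x) : botNum P leaf F κ x = botNum P leaf' F' κ x := by
  unfold botNum
  rw [adm_congr P hF, hF, hl]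

/-! ### the jump, the next unit function -/

theorem arrNum_congr {F F' : St → ℕ} {κ : ℕ} {y : St} (hF : F y = F' y) (sE sV : ℕ)
    (cands : List (St × ℕ × ℕ)) : arrNum P F κ y sE sV cands = arrNum P F' κ y sE sV cands := by
  unfold arrNum
  rw [adm_congr P hF, hF]

theorem Xbar_congr {X X' : ℕ → ℕ → St → ℕ} {κ : ℕ} {z : St}
    (h : ∀ i < P.K, X i κ z = X' i κ z) : Xbar P X κ z = Xbar P X' κ z := by
  unfold Xbar
  rw [sumR_congr h]

theorem FNext_congr {F F' : St → ℕ} {X X' : ℕ → ℕ → St → ℕ} {y : St} (hF : F y = F' y)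
    (h : ∀ i < P.K, ∀ p ∈ hmenu P F y, X i p.1 p.2 = X' i p.1 p.2) :
    FNext P F X y = FNext P F' X' y :=
  hull_congr P hF fun p hp => Xbar_congr P fun i hi => h i hi p hp

/-! ### tables -/

/-- all states at which a body table reads `F` -/
def bst (c : Cel) : List St :=
  (List.range (csz P c.κ)).flatMap fun t => wst P c.κ (cst P c t)

/-- all pairs at which a body table reads the numbers of the lower ranks -/
def bpr (F : St → ℕ) (c : Cel) : List (ℕ × St) :=
  (List.range (csz P c.κ)).flatMap fun t => wpr P F c.κ (cst P c t)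

/-- the grid states of a cell -/
def cells (c : Cel) : List St := (List.range (csz P c.κ)).map fun t => cst P c t

theorem mem_bst {c : Cel} {t : ℕ} (ht : t < csz P c.κ) {y : St} (hy : y ∈ wst P c.κ (cst P c t)) :
    y ∈ bst P c := List.mem_flatMap.2 ⟨t, List.mem_range.2 ht, hy⟩

theorem mem_bpr {F : St → ℕ} {c : Cel} {t : ℕ} (ht : t < csz P c.κ) {p : ℕ × St}
    (hp : p ∈ wpr P F c.κ (cst P c t)) : p ∈ bpr P F c :=
  List.mem_flatMap.2 ⟨t, List.mem_range.2 ht, hp⟩

theorem mem_cells {c : Cel} {t : ℕ} (ht : t < csz P c.κ) : cst P c t ∈ cells P c :=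
  List.mem_map.2 ⟨t, List.mem_range.2 ht, rfl⟩

theorem cells_sub_bst {c : Cel} {y : St} (hy : y ∈ cells P c) : y ∈ bst P c := by
  obtain ⟨t, ht, rfl⟩ := List.mem_map.1 hy
  exact mem_bst P (List.mem_range.1 ht) (self_mem P _ _)

theorem tabC_congr {c : Cel} {f g : St → ℕ} (h : ∀ t < csz P c.κ, f (cst P c t) = g (cst P c t)) :
    tabC P c f = tabC P c g :=
  map_congr' fun t ht => h t (List.mem_range.1 ht)

theorem wst_congr_wpr {F F' : St → ℕ} {κ : ℕ} {x : St} (h : ∀ y ∈ wst P κ x, F y = F' y) :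
    wpr P F κ x = wpr P F' κ x := by
  unfold wpr
  refine List.flatMap_congr fun y hy => ?_
  have := h y (wst_of_pcs P hy)
  rw [own_congr P this, hmenu_congr P this]

theorem bpr_congr {F F' : St → ℕ} {c : Cel} (h : ∀ y ∈ bst P c, F y = F' y) :
    bpr P F c = bpr P F' c := by
  unfold bpr
  exact List.flatMap_congr fun t ht =>
    wst_congr_wpr P fun y hy => h y (mem_bst P (List.mem_range.1 ht) hy)

/-- **locality of a body table**: the pure end of the computation -/
theorem bodyTab_congr {leaf leaf' : St → Option ℕ} {F F' : St → ℕ} {X X' : ℕ → ℕ → St → ℕ} {k : ℕ}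
    {c : Cel} (S : ℕ → ℕ → St → ℕ)
    (hl : ∀ y ∈ cells P c, leaf y = leaf' y) (hF : ∀ y ∈ bst P c, F y = F' y)
    (hX : ∀ i < k, ∀ p ∈ bpr P F c, X i p.1 p.2 = X' i p.1 p.2) :
    (tabC P c fun z => bodyNum P leaf F X k S c.κ z)
      = tabC P c fun z => bodyNum P leaf' F' X' k S c.κ z :=
  tabC_congr P fun _ ht =>
    bodyNum_congr P (hl _ (mem_cells P ht)) (fun y hy => hF y (mem_bst P ht hy))
      (fun i hi p hp => hX i hi p (mem_bpr P ht hp)) fun _ _ _ _ => rfl

/-- **locality of a body table** -/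
theorem bodyT_congr {leaf leaf' : St → Option ℕ} {F F' : St → ℕ} {X X' : ℕ → ℕ → St → ℕ} {k : ℕ}
    {c : Cel} (sub : Cel → Crest.Agent.R295.Rnd627.RT (List ℕ))
    (hl : ∀ y ∈ cells P c, leaf y = leaf' y) (hF : ∀ y ∈ bst P c, F y = F' y)
    (hX : ∀ i < k, ∀ p ∈ bpr P F c, X i p.1 p.2 = X' i p.1 p.2) :
    bodyT P leaf F X k sub c = bodyT P leaf' F' X' k sub c := by
  unfold bodyT
  congr 1
  funext rs
  dsimp only
  congr 1
  funext res
  congr 1
  exact bodyTab_congr P _ hl hF hX

/-- **locality of the jump** -/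
theorem arrOf_congr {F F' : St → ℕ} {c : Cel} (body : Cel → Crest.Agent.R295.Rnd627.RT (List ℕ))
    (hF : ∀ y ∈ cells P c, F y = F' y) : arrOf P F body c = arrOf P F' body c := by
  unfold arrOf
  congr 1
  funext Es
  congr 1
  funext B
  dsimp only
  congr 1
  exact map_congr' fun t ht => arrNum_congr P (hF _ (mem_cells P (List.mem_range.1 ht))) _ _ _

/-- the same for the pure end of the jump -/
theorem arrTab_congr {F F' : St → ℕ} {c : Cel} {Es : List (List (List ℕ))} {B : List (List ℕ)}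
    {p0 : ℕ} {L : List (St × ℕ × ℕ)} (hF : ∀ y ∈ cells P c, F y = F' y) :
    ((List.range (csz P c.κ)).map fun t =>
        arrNum P F c.κ (cst P c t) (jest P Es p0 t) (jent B p0 t) L)
      = (List.range (csz P c.κ)).map fun t =>
        arrNum P F' c.κ (cst P c t) (jest P Es p0 t) (jent B p0 t) L :=
  map_congr' fun _ ht => arrNum_congr P (hF _ (mem_cells P (List.mem_range.1 ht))) _ _ _

/-! ### association lists -/

section tab

variable {α β : Type} [DecidableEq α]

/-- the association list of `f` over the list `L` -/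
def mkT (L : List α) (f : α → β) : List (α × β) := L.map fun y => (y, f y)

theorem lookup_mkT {L : List α} {f : α → β} {y : α} (h : y ∈ L) :
    (mkT L f).lookup y = some (f y) := by
  unfold mkT
  induction L with
  | nil => simp at h
  | cons a L ih =>
    simp only [List.map_cons, List.lookup_cons]
    by_cases hy : y = a
    · subst hy; simp
    · have : (y == a) = false := by simpa using hy
      rw [this]
      refine ih ?_
      rcases List.mem_cons.1 h with h | h
      · exact absurd h hy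
      · exact h

omit [DecidableEq α] in
/-- the association list from the list of keys and the list of results -/
theorem zip_map (L : List α) (f : α → β) : L.zip (L.map f) = mkT L f := by
  unfold mkT
  induction L with
  | nil => rfl
  | cons a L ih => simp [ih]

/-- reading an association list -/
def getT (T : List (α × ℕ)) (y : α) : ℕ := (T.lookup y).getD 0

theorem getT_mkT {L : List α} {f : α → ℕ} {y : α} (h : y ∈ L) : getT (mkT L f) y = f y := by
  unfold getT
  rw [lookup_mkT h, Option.getD_some]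

/-- code of an optional number -/
def encO : Option ℕ → ℕ
  | none => 0
  | some c => c + 1

/-- decoding -/
def decO : ℕ → Option ℕ
  | 0 => none
  | c + 1 => some c

@[simp] theorem decO_encO (o : Option ℕ) : decO (encO o) = o := by cases o <;> rfl

/-- reading an association list of codes of optional numbers -/
def getO (T : List (α × ℕ)) (y : α) : Option ℕ := decO (getT T y)

theorem getO_mkT {L : List α} {f : α → Option ℕ} {y : α} (h : y ∈ L) :
    getO (mkT L fun y => encO (f y)) y = f y := by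
  unfold getO
  rw [getT_mkT h, decO_encO]

/-- keys: rank and pair -/
def rpr (k : ℕ) (L : List (ℕ × St)) : List (ℕ × ℕ × St) :=
  (List.range k).flatMap fun i => L.map fun p => (i, p)

theorem mem_rpr {k : ℕ} {L : List (ℕ × St)} {i : ℕ} (hi : i < k) {p : ℕ × St} (hp : p ∈ L) :
    (i, p) ∈ rpr k L :=
  List.mem_flatMap.2 ⟨i, List.mem_range.2 hi, List.mem_map.2 ⟨p, hp, rfl⟩⟩

/-- the table of the numbers of the ranks `< k` over the pairs of `L` -/
def mkX (k : ℕ) (L : List (ℕ × St)) (X : ℕ → ℕ → St → ℕ) : List ((ℕ × ℕ × St) × ℕ) :=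
  mkT (rpr k L) fun s => X s.1 s.2.1 s.2.2

/-- reading it -/
def getX (T : List ((ℕ × ℕ × St) × ℕ)) (i κ : ℕ) (z : St) : ℕ := getT T (i, κ, z)

theorem getX_mkX {k : ℕ} {L : List (ℕ × St)} {X : ℕ → ℕ → St → ℕ} {i : ℕ} (hi : i < k)
    {p : ℕ × St} (hp : p ∈ L) : getX (mkX k L X) i p.1 p.2 = X i p.1 p.2 :=
  getT_mkT (mem_rpr hi hp)

end tab

/-- **`bodyNum` with association lists** -/
theorem bodyNum_tab {leaf : St → Option ℕ} {F : St → ℕ} {X : ℕ → ℕ → St → ℕ} {k : ℕ} {κ : ℕ}
    {x : St} {L0 L : List St} {M : List (ℕ × St)} (h0 : x ∈ L0) (hL : ∀ y ∈ wst P κ x, y ∈ L)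
    (hM : ∀ p ∈ wpr P F κ x, p ∈ M) (S : ℕ → ℕ → St → ℕ) :
    bodyNum P (getO (mkT L0 fun y => encO (leaf y))) (getT (mkT L F)) (getX (mkX k M X)) k S κ x
      = bodyNum P leaf F X k S κ x :=
  (bodyNum_congr P (getO_mkT h0).symm (fun y hy => (getT_mkT (hL y hy)).symm)
    (fun _ hi p hp => (getX_mkX hi (hM p hp)).symm) fun _ _ _ _ => rfl).symm

/-- **a body table from association lists** -/
theorem bodyTab_tab {leaf : St → Option ℕ} {F : St → ℕ} {X : ℕ → ℕ → St → ℕ} {k : ℕ} {c : Cel}
    (S : ℕ → ℕ → St → ℕ) :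
    (tabC P c fun z => bodyNum P (getO (mkT (cells P c) fun y => encO (leaf y)))
        (getT (mkT (bst P c) F)) (getX (mkX k (bpr P F c) X)) k S c.κ z)
      = tabC P c fun z => bodyNum P leaf F X k S c.κ z :=
  tabC_congr P fun _ ht =>
    bodyNum_tab P (mem_cells P ht) (fun _ hy => mem_bst P ht hy) (fun _ hp => mem_bpr P ht hp) S

/-- the pure end of the jump from an association list -/
theorem arrTab_tab {F : St → ℕ} {c : Cel} {Es : List (List (List ℕ))} {B : List (List ℕ)}
    {p0 : ℕ} {L : List (St × ℕ × ℕ)} :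
    ((List.range (csz P c.κ)).map fun t =>
        arrNum P (getT (mkT (cells P c) F)) c.κ (cst P c t) (jest P Es p0 t) (jent B p0 t) L)
      = (List.range (csz P c.κ)).map fun t =>
        arrNum P F c.κ (cst P c t) (jest P Es p0 t) (jent B p0 t) L :=
  arrTab_congr P fun _ hy => getT_mkT hy

/-- the hull from an association list -/
theorem hull_tab {F : St → ℕ} {f : ℕ → St → ℕ} {y : St} {M : List (ℕ × St)}
    (hM : ∀ p ∈ hmenu P F y, p ∈ M) :
    hull P F (fun κ z => getT (mkT M fun p => f p.1 p.2) (κ, z)) y = hull P F f y :=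
  hull_congr P rfl fun _ hp => getT_mkT (hM _ hp)

/-- the next unit function from an association list -/
theorem FNext_tab {F : St → ℕ} {X : ℕ → ℕ → St → ℕ} {y : St} {M : List (ℕ × St)}
    (hM : ∀ p ∈ hmenu P F y, p ∈ M) :
    FNext P F (getX (mkX P.K M X)) y = FNext P F X y :=
  FNext_congr P rfl fun _ hi _ hp => getX_mkX hi (hM _ hp)

end Crest.Agent.R288.PgA172
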