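import Crest.Agent.R288.DeltaD_222
import Crest.Agent.R288.PgA_172

/-!
# R288, [DELTA] (helper72), BODY: pure identities (Alg45 v2)

Phases of BODY at a cell `c` (decision #4985): words; arrival calls at `bkeysOf`; unit function at
172's `bst`, leaf command at `cells`; pair numbers of the ranks `i < k` at 172's `bpr`.

* `nwd`, `bres P c ws`, `bkeysOf P c ws`, `bcel P c key` : number of words, residues from the
  answers of the words, keys, the cell of a key;
* `tbl ks us` : association table from one-word answers, `getT_tbl`;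
* `fTb P c fs` : the unit function from its answers, `xkeys P c k fs` : keys `(i, κ, z)` of the
  pair numbers, `bodyFin` : the table of BODY from all answers; **`bodyT_fin`**.
-/

set_option autoImplicit false

namespace Crest.Agent.R288.Delta72

open Crest.Agent.R295.Rnd627 Crest.Agent.R288.Alg45 Crest.Agent.R288.Delta222
open Crest.Agent.R288.PgA172

variable (P : Par)

/-- number of words of phase 0 -/
def nwd : ℕ := P.N * (P.dl + P.du + 1)

/-- residues from the answers of phase 0 -/
def bres (c : Cel) (ws : List (List ℕ)) (q κ' : ℕ) : ℕ :=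
  hd1 ws (q * (P.dl + P.du + 1) + (κ' + P.dl - c.κ)) % modu P c.κ κ'

/-- the keys of the arrival calls -/
def bkeysOf (c : Cel) (ws : List (List ℕ)) : List Key := bkeys P c.κ c.m (bres P c ws)

/-- the cell of a key -/
def bcel (c : Cel) (key : Key) : Cel := ⟨c.i - 1, P.N * c.j + key.q, key.κ, key.m⟩

/-- an association table from one-word answers -/
def tbl {α : Type} (ks : List α) (us : List (List ℕ)) : List (α × ℕ) :=
  ks.zip (us.map fun u => u.headD 0)

/-- the unit function from its answers at `bst` -/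
def fTb (c : Cel) (fs : List (List ℕ)) : St → ℕ := getT (tbl (bst P c) fs)

/-- the keys of the pair numbers -/
def xkeys (c : Cel) (k : ℕ) (fs : List (List ℕ)) : List (ℕ × ℕ × St) :=
  rpr k (bpr P (fTb P c fs) c)

/-- the table of the cell from the answers: `ws` words, `us` arrival tables, `fs` unit function at
`bst`, `gs` leaf command at `cells` (decoded by `lf`), `xs` pair numbers at `xkeys` -/
def bodyFin (lf : ℕ → St → Option ℕ) (c : Cel) (k : ℕ) (ws us fs gs xs : List (List ℕ)) :
    List ℕ :=
  tabC P c fun z => bodyNum P (fun y => lf (getT (tbl (cells P c) gs) y) y) (fTb P c fs)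
    (getX (tbl (xkeys P c k fs) xs)) k (spw P c.κ (bkeysOf P c ws) us) c.κ z

section

variable {P}

theorem tbl_map {α : Type} (ks : List α) (f : α → ℕ) :
    tbl ks (ks.map fun a => [f a]) = mkT ks f := by
  unfold tbl
  rw [List.map_map, ← zip_map]
  rfl

theorem getT_tbl {α : Type} [DecidableEq α] {ks : List α} (f : α → ℕ) {a : α} (ha : a ∈ ks) :
    getT (tbl ks (ks.map fun a => [f a])) a = f a := by
  rw [tbl_map, getT_mkT ha]

theorem hd1_words (rs : List ℕ) (t : ℕ) : hd1 (rs.map fun w => [w]) t = rs.getD t 0 := by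
  unfold hd1
  rw [List.getD_eq_getElem?_getD, List.getElem?_map, List.getD_eq_getElem?_getD]
  cases rs[t]? <;> rfl

theorem fTb_eq {c : Cel} (F : St → ℕ) {y : St} (hy : y ∈ bst P c) :
    fTb P c ((bst P c).map fun y => [F y]) y = F y := getT_tbl F hy

theorem xkeys_eq {c : Cel} (F : St → ℕ) (k : ℕ) :
    xkeys P c k ((bst P c).map fun y => [F y]) = rpr k (bpr P F c) := by
  unfold xkeys
  rw [bpr_congr P fun y hy => fTb_eq F hy]

variable (P)

/-- the words of phase 0 -/
theorem words_eq (n : ℕ) : (seqL (List.replicate n (RT.draw.bind fun w => RT.ret [w]))) =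
    (RT.reps n RT.draw).map fun l => l.map fun r => [r] := by
  rw [seqL_replicate]
  rfl

/-- the pure end of BODY -/
theorem bodyFin_eq (leaf : St → Option ℕ) (lf : ℕ → St → Option ℕ) (g : St → ℕ)
    (F : St → ℕ) (X : ℕ → ℕ → St → ℕ) (k : ℕ) (c : Cel)
    (hl : ∀ y ∈ cells P c, leaf y = lf (g y) y) (ws us : List (List ℕ)) :
    bodyFin P lf c k ws us ((bst P c).map fun y => [F y]) ((cells P c).map fun y => [g y])
        ((rpr k (bpr P F c)).map fun a => [X a.1 a.2.1 a.2.2]) =
      tabC P c fun z => bodyNum P leaf F X k (spw P c.κ (bkeysOf P c ws) us) c.κ z := by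
  unfold bodyFin
  rw [xkeys_eq]
  refine (bodyTab_congr P _ (fun y hy => ?_) (fun y hy => (fTb_eq F hy).symm)
    fun i hi p hp => ?_).symm
  · rw [getT_tbl g hy, hl y hy]
  · exact (getT_tbl (fun a : ℕ × ℕ × St => X a.1 a.2.1 a.2.2) (mem_rpr hi hp)).symm

/-- **`bodyT` as phases** -/
theorem bodyT_fin (leaf : St → Option ℕ) (lf : ℕ → St → Option ℕ) (g : St → ℕ)
    (F : St → ℕ) (X : ℕ → ℕ → St → ℕ) (k : ℕ) (sub : Cel → RT (List ℕ)) (c : Cel)
    (hl : ∀ y ∈ cells P c, leaf y = lf (g y) y) :
    bodyT P leaf F X k sub c =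
      ((RT.reps (nwd P) RT.draw).map fun l => l.map fun r => [r]).bind fun ws =>
      (seqL ((bkeysOf P c ws).map fun key => sub (bcel P c key))).bind fun us =>
        RT.ret (bodyFin P lf c k ws us ((bst P c).map fun y => [F y])
          ((cells P c).map fun y => [g y]) ((rpr k (bpr P F c)).map fun a => [X a.1 a.2.1 a.2.2])) := by
  unfold RT.map
  rw [bind_assoc']
  unfold bodyT
  show (RT.reps (nwd P) RT.draw).bind _ = _
  congr 1
  funext rs
  rw [RT.ret_bind]
  have hρ : (fun q κ' => rs.getD (q * (P.dl + P.du + 1) + (κ' + P.dl - c.κ)) 0 %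
      modu P c.κ κ') = bres P c (rs.map fun w => [w]) := by
    funext q κ'
    unfold bres
    rw [hd1_words]
  dsimp only
  rw [hρ]
  show (seqL ((bkeysOf P c (rs.map fun w => [w])).map _)).bind _ = _
  congr 1
  funext us
  rw [bodyFin_eq P leaf lf g F X k c hl]
  rfl

end

end Crest.Agent.R288.Delta72
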