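import Crest.Agent.R288.AnaLip_364
import Crest.Agent.R288.DomB_20

/-!
# R288 [ANA.U3] (helper20): all reads of a good history stay inside `OmP`

`RdOK P I K0 F`: the grid steps divide `Dm` and the classes of `F` on the domain leave room for `a2`.
From it: own pairs, admissible pairs, menus of the hull, ends of windows (any letters), staircases with
arbitrary cuts, candidates and cells of the jump lie in `OmP P.N I P.Dm K0`.
`rdOK_of_good`: `RdOK` for all unit functions of a good history (364's `LipOk`).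
-/

set_option autoImplicit false

namespace Crest.Agent.R288.Dom20

open Crest.Agent.R288.Alg45 Crest.Agent.R288.Asm331 Crest.Agent.R288.AnaLip364

variable {P : Par} {I K0 : ℕ} {F : St → ℕ}

/-- the reads are inside the domain of the pairs -/
structure RdOK (P : Par) (I K0 : ℕ) (F : St → ℕ) : Prop where
  grd : GrdOK P K0
  cls : ∀ y, Dom P I y → Alg45.cls F y + P.a2 ≤ K0

namespace RdOK

variable (R : RdOK P I K0 F)

include R

theorem cls_le {y : St} (h : Dom P I y) : Alg45.cls F y ≤ K0 :=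
  (Nat.le_add_right _ _).trans (R.cls y h)

/-- the step of the class of a state divides `Dm` -/
theorem gst_dvd {y : St} (h : Dom P I y) : gst P (Alg45.cls F y) ∣ P.Dm := R.grd _ (R.cls_le h)

/-- the rounded state -/
theorem hat_dom {y : St} (h : Dom P I y) : Dom P I (Alg45.rdn P (Alg45.cls F y) y) :=
  h.rdn (R.gst_dvd h)

/-- the own pair -/
theorem own {y : St} (h : Dom P I y) :
    (Alg45.cls F y, Alg45.rdn P (Alg45.cls F y) y) ∈ OmP P.N I P.Dm K0 :=
  pair_own h R.grd (R.cls_le h)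

/-- the classes of admissible pairs -/
theorem adm_le (ha : 1 ≤ P.a2) {κ : ℕ} {z : St} (h : Dom P I z) (hz : adm P F κ z = true) :
    κ ≤ K0 := by
  have h1 := R.cls z h
  unfold adm at hz
  simp only [Bool.and_eq_true, decide_eq_true_eq] at hz
  omega

/-- admissible pairs -/
theorem adm_mem (ha : 1 ≤ P.a2) {κ : ℕ} {z : St} (h : Dom P I z) (hz : adm P F κ z = true) :
    (κ, z) ∈ OmP P.N I P.Dm K0 :=
  mem_Om.2 ⟨R.adm_le ha h hz, h⟩

/-- `gst` of the class of an admissible pair divides `Dm` -/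
theorem adm_dvd (ha : 1 ≤ P.a2) {κ : ℕ} {z : St} (h : Dom P I z) (hz : adm P F κ z = true) :
    gst P κ ∣ P.Dm := R.grd _ (R.adm_le ha h hz)

/-- the pairs read by the hull -/
theorem menu {y z : St} {κ' ρ : ℕ} (h : Dom P I y)
    (hκ : κ' ∈ rngC (Alg45.cls F y - P.al) (Alg45.cls F y + P.a2))
    (hz : z ∈ Alg45.menu P κ' ρ y) : (κ', z) ∈ OmP P.N I P.Dm K0 :=
  pair_menu h (R.cls y h) hκ hz

/-- ends of a window, any letters -/
theorem piece {x : St} (h : Dom P I x) (hr : 1 ≤ P.r) (hi : 1 ≤ x.i) {q : ℕ} (hq : q < P.N)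
    (κ a b : ℕ) : (Alg45.cls F (Alg45.piece P κ x q a b),
      Alg45.rdn P (Alg45.cls F (Alg45.piece P κ x q a b)) (Alg45.piece P κ x q a b)) ∈
      OmP P.N I P.Dm K0 :=
  R.own (h.piece hr hi hq κ a b)

/-- near ends -/
theorem npiece {x : St} (h : Dom P I x) (hr : 1 ≤ P.r) (hi : 1 ≤ x.i) {q : ℕ} (hq : q < P.N)
    (G : St → ℕ) (κ a b : ℕ) : (Alg45.cls F (Alg45.npiece P G κ x q a b),
      Alg45.rdn P (Alg45.cls F (Alg45.npiece P G κ x q a b)) (Alg45.npiece P G κ x q a b)) ∈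
      OmP P.N I P.Dm K0 :=
  R.own (h.npiece hr hi hq G κ a b)

/-- pieces of a staircase with arbitrary cuts in the box -/
theorem stair {x : St} (h : Dom P I x) (hi : 1 ≤ x.i) {q : ℕ} (hq : q < P.N) {a b : ℤ}
    (ha : -(P.Dm : ℤ) ≤ a ∧ a ≤ P.Dm) (hb : -(P.Dm : ℤ) ≤ b ∧ b ≤ P.Dm) :
    (Alg45.cls F ⟨x.i - 1, P.N * x.j + q, a, b⟩,
      Alg45.rdn P (Alg45.cls F ⟨x.i - 1, P.N * x.j + q, a, b⟩) ⟨x.i - 1, P.N * x.j + q, a, b⟩) ∈
      OmP P.N I P.Dm K0 :=
  R.own (h.stair hi hq ha hb)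

/-- states of a cell -/
theorem cst_adm (ha : 1 ≤ P.a2) {c : Cel} (h1 : c.i ≤ I) (h2 : c.j < P.N ^ (I - c.i)) {t : ℕ}
    (hz : adm P F c.κ (Alg45.cst P c t) = true) : (c.κ, Alg45.cst P c t) ∈ OmP P.N I P.Dm K0 :=
  R.adm_mem ha (Dom.cst h1 h2 t) hz

/-- candidates of a jump: the admissible ones -/
theorem jcand_adm (ha : 1 ≤ P.a2) {c : Cel} (h1 : c.i ≤ I) (h2 : c.j < P.N ^ (I - c.i))
    {Es : List (List (List ℕ))} {B : List (List ℕ)} {w : St × ℕ × ℕ}
    (hw : w ∈ jcand P c Es B) {κ : ℕ} (hz : adm P F κ w.1 = true) :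
    (κ, w.1) ∈ OmP P.N I P.Dm K0 :=
  R.adm_mem ha (jcand_dom h1 h2 hw) hz

/-- value bound -/
theorem lt_pow {y : St} (h : Dom P I y) : F y < 2 ^ (K0 + 1 - P.a2) := by
  have h1 := R.cls y h
  have h2 : F y < 2 ^ (Nat.log 2 (F y) + 1) := Nat.lt_pow_succ_log_self (by norm_num) _
  refine h2.trans_le (Nat.pow_le_pow_right (by norm_num) ?_)
  unfold Alg45.cls at h1
  omega

end RdOK

/-- a smaller unit function -/
theorem RdOK.mono {F' : St → ℕ} (R : RdOK P I K0 F) (h : ∀ y, Dom P I y → F' y ≤ F y) :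
    RdOK P I K0 F' :=
  ⟨R.grd, fun y hy => (Nat.add_le_add_right (Nat.log_mono_right (h y hy)) _).trans (R.cls y hy)⟩

variable {C : Cfg} {X : ℕ → ℕ × St → ℕ} {x y : List ℕ} {g p L : ℕ} {ζ : ℝ}

/-- **all unit functions of a good history read inside the domain of the pairs** -/
theorem rdOK_of_good (h : C.Good X) (hO : LipOk C x y g p L ζ) (hG : GrdOK C.P C.K0) (e : ℕ) :
    RdOK C.P C.I C.K0 (FE C.P X e) :=
  ⟨hG, fun _ hy => AnaLip364.cls_le h hO e hy⟩

/-- from a sure bound of the values of index `0` (histories of tapes) -/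
theorem rdOK_of_init {X : ℕ → ℕ × St → ℕ} {top : ℕ} (hG : GrdOK P K0) (ht : top + P.a2 ≤ K0)
    (h : ∀ y, Dom P I y → X 0 (0, y) < 2 ^ (top + 1)) (e : ℕ) : RdOK P I K0 (FE P X e) :=
  ⟨hG, fun y hy => (Nat.add_le_add_right (cls_FE_le (h y hy) e) _).trans ht⟩

end Crest.Agent.R288.Dom20
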