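import Crest.Agent.R288.Ed1_864

/-!
# R288: edit distance of segments, cut sequences, diagonals

* `seg x i i'` = letters `i, ..., i' - 1` of `x`; `es x y i i' j j'` = edit distance of two segments.
* `es_split_le`, `exists_es_split`: splitting at a position of `x`.
* `exists_cuts`, `le_cuts`: iterated splitting along `c 0 ≤ c 1 ≤ ... ≤ c b`.
* `es_lip`: Lipschitz in the positions of `y`;  `es_lip_left` in the positions of `x`.
* `es_len`, `tv_cuts`: the total variation of the diagonals of an optimal cut sequence is at most
  the edit distance.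
* windows of fixed shift: `win_le`, `exists_win`.
-/

set_option autoImplicit false

namespace Crest.Agent.R288.Ed

open Crest.GraphRAM

variable {α : Type*}

/-- the letters `i, ..., i' - 1` -/
def seg (x : List α) (i i' : ℕ) : List α := (x.take i').drop i

theorem length_seg (x : List α) (i i' : ℕ) : (seg x i i').length = min i' x.length - i := by
  simp [seg]

theorem length_seg' {x : List α} {i' : ℕ} (i : ℕ) (h : i' ≤ x.length) :
    (seg x i i').length = i' - i := by rw [length_seg, min_eq_left h]

@[simp] theorem seg_self (x : List α) (i : ℕ) : seg x i i = [] := by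
  apply List.eq_nil_of_length_eq_zero
  rw [length_seg]
  omega

theorem seg_zero (x : List α) (i : ℕ) : seg x 0 i = x.take i := by simp [seg]

theorem seg_full (x : List α) : seg x 0 x.length = x := by simp [seg]

theorem seg_eq_drop_take (x : List α) (i i' : ℕ) : seg x i i' = (x.drop i).take (i' - i) := by
  rw [seg, List.drop_take]

theorem getElem_seg (x : List α) (i i' t : ℕ) (h : t < (seg x i i').length) :
    (seg x i i')[t] = x[i + t]'(by rw [length_seg] at h; omega) := by
  simp [seg]

theorem seg_append {x : List α} {i m i' : ℕ} (h1 : i ≤ m) (h2 : m ≤ i') :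
    seg x i m ++ seg x m i' = seg x i i' := by
  apply List.ext_getElem
  · simp only [List.length_append, length_seg]; omega
  · intro t ht ht'
    rw [getElem_seg]
    by_cases h : t < (seg x i m).length
    · rw [List.getElem_append_left h, getElem_seg]
    · rw [List.getElem_append_right (by omega), getElem_seg]
      congr 1
      rw [length_seg] at *
      simp only [List.length_append, length_seg] at ht
      omega

theorem take_seg {x : List α} {i i' t : ℕ} (h : i + t ≤ i') : (seg x i i').take t = seg x i (i + t) := by
  apply List.ext_getElem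
  · simp only [List.length_take, length_seg]; omega
  · intro s hs hs'
    rw [List.getElem_take, getElem_seg, getElem_seg]

theorem drop_seg (x : List α) (i i' t : ℕ) : (seg x i i').drop t = seg x (i + t) i' := by
  rw [seg, seg, List.drop_drop]

/-- a segment of a concatenation to the left of the cut -/
theorem seg_append_left (x z : List α) {i i' : ℕ} (h : i' ≤ x.length) :
    seg (x ++ z) i i' = seg x i i' := by
  rw [seg, seg, List.take_append_of_le_length h]

/-- and to the right of it -/
theorem seg_append_right (x z : List α) (i i' : ℕ) :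
    seg (x ++ z) (x.length + i) (x.length + i') = seg z i i' := by
  rw [seg, seg, List.take_length_add_append, ← List.drop_drop, List.drop_left]

variable [DecidableEq α]

/-- the edit distance of two segments -/
def es (x y : List α) (i i' j j' : ℕ) : ℕ := editDist (seg x i i') (seg y j j')

theorem es_full (x y : List α) : es x y 0 x.length 0 y.length = editDist x y := by
  rw [es, seg_full, seg_full]

theorem es_comm (x y : List α) (i i' j j' : ℕ) : es x y i i' j j' = es y x j j' i i' := ed_comm _ _

@[simp] theorem es_self_left (x y : List α) (i j j' : ℕ) : es x y i i j j' = min j' y.length - j := by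
  simp [es, length_seg]

@[simp] theorem es_self_right (x y : List α) (i i' j : ℕ) : es x y i i' j j = min i' x.length - i := by
  simp [es, length_seg]

theorem es_tab (x y : List α) (i j : ℕ) : es x y 0 i 0 j = tab x y i j := by
  rw [es, seg_zero, seg_zero, tab]

/-! ### splitting -/

variable {x y : List α}

theorem es_split_le {i m i' j k j' : ℕ} (h1 : i ≤ m) (h2 : m ≤ i') (h3 : j ≤ k) (h4 : k ≤ j') :
    es x y i i' j j' ≤ es x y i m j k + es x y m i' k j' := by
  unfold es
  rw [← seg_append h1 h2, ← seg_append h3 h4]
  exact ed_append_le _ _ _ _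

theorem exists_es_split {i m i' j j' : ℕ} (h1 : i ≤ m) (h2 : m ≤ i') (h3 : j ≤ j') :
    ∃ k, j ≤ k ∧ k ≤ j' ∧ es x y i i' j j' = es x y i m j k + es x y m i' k j' := by
  obtain ⟨t, ht, h⟩ := exists_split (seg x i m) (seg x m i') (seg y j j')
  have h5 : j + t ≤ j' := by rw [length_seg] at ht; omega
  refine ⟨j + t, by omega, h5, ?_⟩
  rw [seg_append h1 h2, take_seg h5, drop_seg] at h
  exact h

/-- upper bound by any cut sequence -/
theorem le_cuts {c d : ℕ → ℕ} {b : ℕ} (hc : ∀ t < b, c t ≤ c (t + 1)) (hd : ∀ t < b, d t ≤ d (t + 1)) :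
    es x y (c 0) (c b) (d 0) (d b) ≤
      ∑ t ∈ Finset.range b, es x y (c t) (c (t + 1)) (d t) (d (t + 1)) := by
  induction b with
  | zero => simp
  | succ b ih =>
    rw [Finset.sum_range_succ]
    have mono : ∀ (f : ℕ → ℕ), (∀ t < b + 1, f t ≤ f (t + 1)) → ∀ t ≤ b, f 0 ≤ f t := by
      intro f hf t
      induction t with
      | zero => exact fun _ => le_rfl
      | succ t iht => exact fun ht => (iht (by omega)).trans (hf t (by omega))
    refine (es_split_le (mono c hc b le_rfl) (hc b (by omega)) (mono d hd b le_rfl)
      (hd b (by omega))).trans ?_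
    exact Nat.add_le_add_right (ih (fun t ht => hc t (by omega)) (fun t ht => hd t (by omega))) _

/-- some monotone cut sequence of `y` is optimal -/
theorem exists_cuts {c : ℕ → ℕ} (hc : Monotone c) (b : ℕ) {j j' : ℕ} (hj : j ≤ j') :
    ∃ d : ℕ → ℕ, Monotone d ∧ d 0 = j ∧ (∀ t, b < t → d t = j') ∧
      es x y (c 0) (c (b + 1)) j j' =
        ∑ t ∈ Finset.range (b + 1), es x y (c t) (c (t + 1)) (d t) (d (t + 1)) := by
  induction b generalizing j' with
  | zero =>
    refine ⟨fun t => if t = 0 then j else j', ?_, by simp, fun t ht => by simp; omega, by simp⟩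
    intro s t hst
    by_cases hs : s = 0 <;> by_cases ht : t = 0 <;> simp_all
  | succ b ih =>
    obtain ⟨k, hk1, hk2, hk⟩ := exists_es_split (x := x) (y := y) (hc (Nat.zero_le (b + 1)))
      (hc (Nat.le_succ (b + 1))) hj
    obtain ⟨d, hd1, hd2, hd3, hd4⟩ := ih hk1
    have hdk : ∀ t, d t ≤ k := fun t => by
      rw [← hd3 (max t (b + 1)) (by omega)]; exact hd1 (le_max_left _ _)
    refine ⟨fun t => if t ≤ b + 1 then d t else j', ?_, by simp [hd2], ?_, ?_⟩
    · intro s t hst
      show (if s ≤ b + 1 then d s else j') ≤ (if t ≤ b + 1 then d t else j')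
      split
      · split
        · exact hd1 hst
        · exact (hdk s).trans hk2
      · rw [if_neg (by omega)]
    · intro t ht
      show (if t ≤ b + 1 then d t else j') = j'
      rw [if_neg (by omega)]
    · rw [hk, hd4, Finset.sum_range_succ _ (b + 1)]
      congr 1
      · refine Finset.sum_congr rfl fun t ht => ?_
        rw [Finset.mem_range] at ht
        simp only [show t ≤ b + 1 by omega, show t + 1 ≤ b + 1 by omega, if_true]
      · simp only [le_refl, if_true, show ¬ b + 1 + 1 ≤ b + 1 by omega, if_false]
        rw [hd3 (b + 1) (by omega)]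

/-! ### changing the positions -/

theorem ed_drop_drop_le (l : List α) (i j : ℕ) :
    editDist (l.drop i) (l.drop j) ≤ (i - j) + (j - i) := by
  have key : ∀ i j, i ≤ j → editDist (l.drop i) (l.drop j) ≤ j - i := by
    intro i j h
    have h1 : l.drop i = (l.drop i).take (j - i) ++ l.drop j := by
      conv_lhs => rw [← List.take_append_drop (j - i) (l.drop i)]
      rw [List.drop_drop, show i + (j - i) = j by omega]
    rw [h1]
    have := ed_append_le ((l.drop i).take (j - i)) [] (l.drop j) (l.drop j)
    simp only [List.nil_append, ed_self, ed_nil_right, List.length_take] at this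
    omega
  rcases le_total i j with h | h
  · have := key i j h; omega
  · have := key j i h; rw [ed_comm]; omega

theorem ed_seg_seg_le (l : List α) (i i' j j' : ℕ) :
    editDist (seg l i i') (seg l j j') ≤ ((i - j) + (j - i)) + ((i' - j') + (j' - i')) := by
  have h1 : editDist (seg l i i') (seg l j i') ≤ (i - j) + (j - i) := ed_drop_drop_le _ _ _
  have h2 : editDist (seg l j i') (seg l j j') ≤ (i' - j') + (j' - i') := by
    rw [seg_eq_drop_take, seg_eq_drop_take]
    refine (ed_take_take_le _ _ _).trans ?_
    omega
  have h3 := ed_triangle (seg l i i') (seg l j i') (seg l j j')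
  omega

/-- Lipschitz in the positions of `y` -/
theorem es_lip (i i' j j' k k' : ℕ) :
    es x y i i' j j' ≤ es x y i i' k k' + ((j - k) + (k - j)) + ((j' - k') + (k' - j')) := by
  have h1 := ed_triangle (seg x i i') (seg y k k') (seg y j j')
  have h2 := ed_seg_seg_le y k k' j j'
  unfold es
  omega

/-- Lipschitz in the positions of `x` -/
theorem es_lip_left (i i' k k' j j' : ℕ) :
    es x y i i' j j' ≤ es x y k k' j j' + ((i - k) + (k - i)) + ((i' - k') + (k' - i')) := by
  rw [es_comm, es_comm x y k k']
  exact es_lip _ _ _ _ _ _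

theorem es_len {i i' j j' : ℕ} (h1 : i' ≤ x.length) (h2 : j' ≤ y.length) :
    (i' - i) ≤ (j' - j) + es x y i i' j j' ∧ (j' - j) ≤ (i' - i) + es x y i i' j j' := by
  have h3 := length_le_ed' (seg x i i') (seg y j j')
  have h4 := length_le_ed (seg x i i') (seg y j j')
  rw [length_seg' _ h1, length_seg' _ h2] at h3 h4
  exact ⟨h3, h4⟩

theorem es_le_max {i i' j j' : ℕ} : es x y i i' j j' ≤ max (i' - i) (j' - j) := by
  have h := ed_le_max (seg x i i') (seg y j j')
  rw [length_seg, length_seg] at h
  exact h.trans (max_le_max (by omega) (by omega))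

/-- integer form: the difference of the end diagonals is at most the cost -/
theorem abs_diag_le {i i' j j' : ℕ} (h1 : i ≤ i') (h2 : i' ≤ x.length) (h3 : j ≤ j')
    (h4 : j' ≤ y.length) :
    |((j' : ℤ) - i') - ((j : ℤ) - i)| ≤ es x y i i' j j' := by
  obtain ⟨h5, h6⟩ := es_len (x := x) (y := y) (i := i) (j := j) h2 h4
  rw [abs_le]
  omega

/-- the total variation of the diagonals is at most the total cost -/
theorem tv_cuts {c d : ℕ → ℕ} {b : ℕ} (hc : ∀ t < b, c t ≤ c (t + 1)) (hd : ∀ t < b, d t ≤ d (t + 1))
    (hcb : c b ≤ x.length) (hdb : d b ≤ y.length) :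
    ∑ t ∈ Finset.range b, |((d (t + 1) : ℤ) - c (t + 1)) - ((d t : ℤ) - c t)| ≤
      ((∑ t ∈ Finset.range b, es x y (c t) (c (t + 1)) (d t) (d (t + 1)) : ℕ) : ℤ) := by
  have mono : ∀ (f : ℕ → ℕ), (∀ t < b, f t ≤ f (t + 1)) → ∀ s t, s ≤ t → t ≤ b → f s ≤ f t := by
    intro f hf s t
    induction t with
    | zero => intro h _; rw [Nat.le_zero.1 h]
    | succ t ih =>
      intro h1 h2
      rcases Nat.lt_or_ge t s with h | h
      · rw [show s = t + 1 by omega]
      · exact (ih h (by omega)).trans (hf t (by omega))
  push_cast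
  refine Finset.sum_le_sum fun t ht => ?_
  rw [Finset.mem_range] at ht
  exact abs_diag_le (hc t ht) ((mono c hc _ _ (by omega) le_rfl).trans hcb) (hd t ht)
    ((mono d hd _ _ (by omega) le_rfl).trans hdb)

/-- partial diagonals: for an exact split the two halves bound the diagonal at the cut -/
theorem abs_mid_diag_le {i m i' j k j' : ℕ} (h1 : i ≤ m) (h2 : m ≤ i') (h3 : i' ≤ x.length)
    (h4 : j ≤ k) (h5 : k ≤ j') (h6 : j' ≤ y.length)
    (h : es x y i i' j j' = es x y i m j k + es x y m i' k j') :
    |((k : ℤ) - m) - ((j : ℤ) - i)| + |((j' : ℤ) - i') - ((k : ℤ) - m)| ≤ es x y i i' j j' := by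
  have a := abs_diag_le (x := x) (y := y) h1 (h2.trans h3) h4 (h5.trans h6)
  have b := abs_diag_le (x := x) (y := y) h2 h3 h5 h6
  rw [h]
  push_cast
  exact add_le_add a b

/-! ### windows of a fixed shift -/

/-- a window of the same length, then jumps: upper bound -/
theorem es_le_win (i i' j j' k k' : ℕ) :
    es x y i i' j j' ≤ ((j - k) + (k - j)) + es x y i i' k k' + ((j' - k') + (k' - j')) := by
  have := es_lip (x := x) (y := y) i i' j j' k k'
  omega

/-- the window at the left diagonal costs at most the segment plus the change of diagonal -/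
theorem win_le {i i' j j' : ℕ} (h1 : i ≤ i') (h2 : i' ≤ x.length) (h3 : j ≤ j') (h4 : j' ≤ y.length) :
    es x y i i' j (j + (i' - i)) ≤ 2 * es x y i i' j j' := by
  have h5 := es_lip (x := x) (y := y) i i' j (j + (i' - i)) j j'
  obtain ⟨h6, h7⟩ := es_len (x := x) (y := y) (i := i) (j := j) h2 h4
  omega

end Crest.Agent.R288.Ed
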