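/-
# Row 288, [ELEM] part A (helper260): elementary calculus of the functions of `AlgA_45`

* `minR`, `argR`, `sumR`, `lmin`: bounds, attainment, monotonicity, congruence
* `D_le_path`, `exists_D_path`, `minSt_le`, `exists_minSt`: staircase DP = minimum over letter paths
* `Vst_le`, `exists_Vst`: minimum over the grid staircases of a window
* `split_stair`: a function with the split inequality is below every staircase (natural numbers)
* `le_Vst`: soundness, `G ≤ f` on the pieces gives `G x ≤ Vst κ x f`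
* `rd_le`, `lt_rd`, `exists_letter`, `exists_path_near`: rounding an integer staircase to a grid path
* `Vst_le_of_stair`: `Vst κ x f ≤ Σ f (rounded pieces)`
-/
import Crest.Agent.R288.AlgA_45
import Crest.Agent.R288.GtDom_373

set_option autoImplicit false

namespace Crest.Agent.R288.El260

open Finset
open Crest.Agent.R288.Alg45

/-! ### folds -/

theorem foldl_min_le_init {α : Type*} (f : α → ℕ) (l : List α) (c : ℕ) :
    l.foldl (fun m a => min m (f a)) c ≤ c := by
  induction l generalizing c with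
  | nil => exact le_rfl
  | cons a l ih => exact (ih _).trans (min_le_left _ _)

theorem foldl_min_le_mem {α : Type*} (f : α → ℕ) {l : List α} (c : ℕ) {a : α} (h : a ∈ l) :
    l.foldl (fun m a => min m (f a)) c ≤ f a := by
  induction l generalizing c with
  | nil => simp at h
  | cons b l ih =>
    rcases List.mem_cons.1 h with rfl | h
    · exact (foldl_min_le_init f l _).trans (min_le_right _ _)
    · exact ih _ h

theorem foldl_min_cases {α : Type*} (f : α → ℕ) (l : List α) (c : ℕ) :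
    l.foldl (fun m a => min m (f a)) c = c ∨ ∃ a ∈ l, l.foldl (fun m a => min m (f a)) c = f a := by
  induction l generalizing c with
  | nil => exact Or.inl rfl
  | cons b l ih =>
    simp only [List.foldl_cons]
    rcases ih (min c (f b)) with h | ⟨a, ha, h⟩
    · rw [h]
      rcases le_total c (f b) with h1 | h1
      · exact Or.inl (min_eq_left h1)
      · exact Or.inr ⟨b, List.mem_cons_self, min_eq_right h1⟩
    · exact Or.inr ⟨a, List.mem_cons_of_mem _ ha, h⟩

/-! ### `minR` -/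

section minR

variable {n : ℕ} {f g : ℕ → ℕ}

theorem minR_zero (f : ℕ → ℕ) : minR 0 f = f 0 := rfl

theorem minR_le_zero (n : ℕ) (f : ℕ → ℕ) : minR n f ≤ f 0 := foldl_min_le_init _ _ _

theorem minR_le {a : ℕ} (h : a < n) : minR n f ≤ f a :=
  foldl_min_le_mem f _ (List.mem_range.2 h)

theorem exists_minR (h : 0 < n) (f : ℕ → ℕ) : ∃ a < n, minR n f = f a := by
  rcases foldl_min_cases f (List.range n) (f 0) with h1 | ⟨a, ha, h1⟩
  · exact ⟨0, h, h1⟩
  · exact ⟨a, List.mem_range.1 ha, h1⟩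

theorem exists_minR' (n : ℕ) (f : ℕ → ℕ) : ∃ a, (a < n ∨ a = 0) ∧ minR n f = f a := by
  rcases foldl_min_cases f (List.range n) (f 0) with h1 | ⟨a, ha, h1⟩
  · exact ⟨0, Or.inr rfl, h1⟩
  · exact ⟨a, Or.inl (List.mem_range.1 ha), h1⟩

theorem le_minR {c : ℕ} (h0 : 0 < n) (h : ∀ a < n, c ≤ f a) : c ≤ minR n f := by
  obtain ⟨a, ha, e⟩ := exists_minR h0 f
  rw [e]; exact h a ha

theorem le_minR_iff {c : ℕ} (h0 : 0 < n) : c ≤ minR n f ↔ ∀ a < n, c ≤ f a :=
  ⟨fun h _ ha => h.trans (minR_le ha), le_minR h0⟩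

theorem minR_mono (h0 : 0 < n) (h : ∀ a < n, f a ≤ g a) : minR n f ≤ minR n g := by
  refine le_minR h0 fun a ha => (minR_le ha).trans (h a ha)

theorem minR_congr (h0 : 0 < n) (h : ∀ a < n, f a = g a) : minR n f = minR n g :=
  le_antisymm (minR_mono h0 fun a ha => (h a ha).le) (minR_mono h0 fun a ha => (h a ha).ge)


theorem minR_le_add {c : ℕ} (h0 : 0 < n) (h : ∀ a < n, f a ≤ g a + c) :
    minR n f ≤ minR n g + c := by
  obtain ⟨a, ha, e⟩ := exists_minR h0 g
  rw [e]; exact (minR_le ha).trans (h a ha)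

theorem minR_eq_iInf (h0 : 0 < n) (f : ℕ → ℕ) :
    minR n f = (range n).inf' (nonempty_range_iff.2 h0.ne') f := by
  refine le_antisymm ?_ ?_
  · exact Finset.le_inf' _ _ fun a ha => minR_le (mem_range.1 ha)
  · exact le_minR h0 fun a ha => Finset.inf'_le _ (mem_range.2 ha)

end minR

/-! ### `argR` -/

section argR

theorem argR_aux (f : ℕ → ℕ) (l : List ℕ) (c : ℕ) :
    f (l.foldl (fun m a => if f a < f m then a else m) c)
      = l.foldl (fun m a => min m (f a)) (f c) ∧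
    (l.foldl (fun m a => if f a < f m then a else m) c = c ∨
      l.foldl (fun m a => if f a < f m then a else m) c ∈ l) := by
  induction l generalizing c with
  | nil => exact ⟨rfl, Or.inl rfl⟩
  | cons b l ih =>
    simp only [List.foldl_cons]
    by_cases h : f b < f c
    · rw [if_pos h, min_eq_right h.le]
      refine ⟨(ih b).1, Or.inr ?_⟩
      rcases (ih b).2 with h1 | h1
      · rw [h1]; exact List.mem_cons_self
      · exact List.mem_cons_of_mem _ h1
    · rw [if_neg h, min_eq_left (not_lt.1 h)]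
      refine ⟨(ih c).1, ?_⟩
      rcases (ih c).2 with h1 | h1
      · exact Or.inl h1
      · exact Or.inr (List.mem_cons_of_mem _ h1)

/-- **the value at the argmin is the minimum** -/
theorem argR_eq (n : ℕ) (f : ℕ → ℕ) : f (argR n f) = minR n f := (argR_aux f _ 0).1

theorem argR_lt {n : ℕ} (h : 0 < n) (f : ℕ → ℕ) : argR n f < n := by
  rcases (argR_aux f (List.range n) 0).2 with h1 | h1
  · unfold argR; rw [h1]; exact h
  · exact List.mem_range.1 h1

theorem argR_le {n : ℕ} {a : ℕ} (h : a < n) (f : ℕ → ℕ) : f (argR n f) ≤ f a := by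
  rw [argR_eq n f]; exact minR_le h

/-- it is the first one: everything before it is strictly larger -/
theorem argR_first_aux (f : ℕ → ℕ) (n : ℕ) :
    ∀ a < argR n f, minR n f < f a := by
  have key : ∀ k ≤ n, ∀ a < (List.range k).foldl (fun m a => if f a < f m then a else m) 0,
      f ((List.range k).foldl (fun m a => if f a < f m then a else m) 0) < f a := by
    intro k
    induction k with
    | zero => intro _ a ha; simp at ha
    | succ k ih =>
      intro hk a ha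
      rw [List.range_succ, List.foldl_append] at ha ⊢
      simp only [List.foldl_cons, List.foldl_nil] at ha ⊢
      have hm : ∀ b < k, f ((List.range k).foldl (fun m a => if f a < f m then a else m) 0) ≤ f b :=
        fun b hb => argR_le hb f
      by_cases h : f k < f ((List.range k).foldl (fun m a => if f a < f m then a else m) 0)
      · rw [if_pos h] at ha ⊢
        exact h.trans_le (hm a ha)
      · rw [if_neg h] at ha ⊢
        exact ih (Nat.le_of_succ_le hk) a ha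
  intro a ha
  rw [← argR_eq n f]
  exact key n le_rfl a ha

end argR

/-! ### `sumR`, `lmin` -/

theorem sumR_eq (n : ℕ) (f : ℕ → ℕ) : sumR n f = ∑ i ∈ range n, f i := by
  unfold sumR
  induction n with
  | zero => simp
  | succ n ih => rw [List.range_succ, List.map_append, List.sum_append, ih, sum_range_succ]; simp

theorem sumR_zero (f : ℕ → ℕ) : sumR 0 f = 0 := rfl

theorem sumR_succ (n : ℕ) (f : ℕ → ℕ) : sumR (n + 1) f = sumR n f + f n := by
  rw [sumR_eq, sumR_eq, sum_range_succ]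

theorem sumR_mono {n : ℕ} {f g : ℕ → ℕ} (h : ∀ i < n, f i ≤ g i) : sumR n f ≤ sumR n g := by
  rw [sumR_eq, sumR_eq]; exact sum_le_sum fun i hi => h i (mem_range.1 hi)

theorem sumR_congr {n : ℕ} {f g : ℕ → ℕ} (h : ∀ i < n, f i = g i) : sumR n f = sumR n g := by
  rw [sumR_eq, sumR_eq]; exact sum_congr rfl fun i hi => h i (mem_range.1 hi)

theorem le_sumR {n : ℕ} {f : ℕ → ℕ} {i : ℕ} (hi : i < n) : f i ≤ sumR n f := by
  rw [sumR_eq]; exact single_le_sum (fun _ _ => Nat.zero_le _) (mem_range.2 hi)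

theorem cast_sumR (n : ℕ) (f : ℕ → ℕ) : ((sumR n f : ℕ) : ℝ) = ∑ i ∈ range n, (f i : ℝ) := by
  rw [sumR_eq]; push_cast; rfl

theorem lmin_le_init (a : ℕ) (l : List ℕ) : lmin a l ≤ a := foldl_min_le_init id l a

theorem lmin_le_mem {a : ℕ} {l : List ℕ} {b : ℕ} (h : b ∈ l) : lmin a l ≤ b :=
  foldl_min_le_mem id a h

theorem lmin_cases (a : ℕ) (l : List ℕ) : lmin a l = a ∨ lmin a l ∈ l := by
  rcases foldl_min_cases id l a with h | ⟨b, hb, h⟩
  · exact Or.inl h
  · refine Or.inr ?_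
    have : lmin a l = b := h
    rw [this]; exact hb

theorem le_lmin {a c : ℕ} {l : List ℕ} (h0 : c ≤ a) (h : ∀ b ∈ l, c ≤ b) : c ≤ lmin a l := by
  rcases lmin_cases a l with h1 | h1
  · rw [h1]; exact h0
  · exact h _ h1

theorem le_lmin_iff {a c : ℕ} {l : List ℕ} : c ≤ lmin a l ↔ c ≤ a ∧ ∀ b ∈ l, c ≤ b :=
  ⟨fun h => ⟨h.trans (lmin_le_init a l), fun _ hb => h.trans (lmin_le_mem hb)⟩,
    fun h => le_lmin h.1 h.2⟩

/-! ### the staircase DP -/

section dp

variable {A : ℕ} {T T' : ℕ → ℕ → ℕ → ℕ}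

theorem D_zero (b : ℕ) : D A T 0 b = 0 := rfl

theorem D_succ (j b : ℕ) : D A T (j + 1) b = minR A fun a => D A T j a + T j a b := rfl

/-- **the DP is below every letter path** -/
theorem D_le_path (p : ℕ → ℕ) (j : ℕ) (hp : ∀ i < j, p i < A) :
    D A T j (p j) ≤ ∑ i ∈ range j, T i (p i) (p (i + 1)) := by
  induction j with
  | zero => simp [D_zero]
  | succ j ih =>
    rw [D_succ, sum_range_succ]
    refine (minR_le (hp j (Nat.lt_succ_self j))).trans ?_
    exact Nat.add_le_add_right (ih fun i hi => hp i (Nat.lt_succ_of_lt hi)) _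

/-- **and attained by one** -/
theorem exists_D_path (hA : 0 < A) (T : ℕ → ℕ → ℕ → ℕ) (j b : ℕ) :
    ∃ p : ℕ → ℕ, p j = b ∧ (∀ i < j, p i < A) ∧
      D A T j b = ∑ i ∈ range j, T i (p i) (p (i + 1)) := by
  induction j generalizing b with
  | zero => exact ⟨fun _ => b, rfl, by simp, by simp [D_zero]⟩
  | succ j ih =>
    obtain ⟨a, ha, e⟩ := exists_minR hA fun a => D A T j a + T j a b
    obtain ⟨p, p1, p2, p3⟩ := ih a
    refine ⟨fun i => if i ≤ j then p i else b, by simp, ?_, ?_⟩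
    · intro i hi
      have : i ≤ j := Nat.lt_succ_iff.1 hi
      simp only [if_pos this]
      rcases Nat.lt_or_ge i j with h | h
      · exact p2 i h
      · have : i = j := le_antisymm this h
        rw [this, p1]; exact ha
    · rw [D_succ, e, p3, sum_range_succ]
      congr 1
      · refine sum_congr rfl fun i hi => ?_
        have hi' := mem_range.1 hi
        simp only
        rw [if_pos (by omega), if_pos (by omega)]
      · simp only
        rw [if_pos le_rfl, if_neg (by omega), p1]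

theorem D_mono (hA : 0 < A) {j : ℕ} (h : ∀ i < j, ∀ a < A, ∀ b, T i a b ≤ T' i a b) (b : ℕ) :
    D A T j b ≤ D A T' j b := by
  obtain ⟨p, p1, p2, p3⟩ := exists_D_path hA T' j b
  rw [p3, ← p1]
  exact (D_le_path p j p2).trans (sum_le_sum fun i hi => h i (mem_range.1 hi) _ (p2 i (mem_range.1 hi)) _)

theorem D_congr (hA : 0 < A) {j : ℕ} (h : ∀ i < j, ∀ a < A, ∀ b, T i a b = T' i a b) (b : ℕ) :
    D A T j b = D A T' j b :=
  le_antisymm (D_mono hA (fun i hi a ha b => (h i hi a ha b).le) b)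
    (D_mono hA (fun i hi a ha b => (h i hi a ha b).ge) b)

/-- congruence with the letters restricted on both sides (inner cuts) -/
theorem D_congr' (hA : 0 < A) {j : ℕ} {b : ℕ}
    (h : ∀ i, i + 1 < j → ∀ a < A, ∀ b < A, T i a b = T' i a b)
    (hl : ∀ a < A, T (j - 1) a b = T' (j - 1) a b) :
    D A T j b = D A T' j b := by
  have key : ∀ (T T' : ℕ → ℕ → ℕ → ℕ), (∀ i, i + 1 < j → ∀ a < A, ∀ b < A, T i a b = T' i a b) →
      (∀ a < A, T (j - 1) a b = T' (j - 1) a b) → D A T j b ≤ D A T' j b := by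
    intro T T' h hl
    obtain ⟨p, p1, p2, p3⟩ := exists_D_path hA T' j b
    rw [p3, ← p1]
    refine (D_le_path p j p2).trans (le_of_eq (sum_congr rfl fun i hi => ?_))
    have hi' := mem_range.1 hi
    rcases Nat.lt_or_ge (i + 1) j with h1 | h1
    · exact h i h1 _ (p2 i hi') _ (p2 (i + 1) h1)
    · have e : i + 1 = j := by omega
      have e' : i = j - 1 := by omega
      rw [e, p1]
      have := hl (p i) (p2 i hi')
      rw [← e'] at this
      exact this
  exact le_antisymm (key T T' h hl)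
    (key T' T (fun i hi a ha b hb => (h i hi a ha b hb).symm) fun a ha => (hl a ha).symm)

theorem minSt_le {N : ℕ} (p : ℕ → ℕ) (hp : ∀ i < N, p i < A) (hN : p N = 0) :
    minSt N A T ≤ ∑ i ∈ range N, T i (p i) (p (i + 1)) := by
  unfold minSt; rw [← hN]; exact D_le_path p N hp

theorem exists_minSt (hA : 0 < A) (T : ℕ → ℕ → ℕ → ℕ) (N : ℕ) :
    ∃ p : ℕ → ℕ, p N = 0 ∧ (∀ i < N, p i < A) ∧
      minSt N A T = ∑ i ∈ range N, T i (p i) (p (i + 1)) := exists_D_path hA T N 0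

end dp

/-! ### the windows -/

section window

variable {P : Par}

theorem WA_pos (κ : ℕ) : 0 < WA P κ := Nat.succ_pos _

theorem N_pos : 0 < P.N := by unfold Par.N; positivity

theorem gst_pos (κ : ℕ) : 0 < gst P κ := by unfold gst; positivity

theorem gpt_pos (κ : ℕ) : 0 < gpt P κ := by unfold gpt; positivity

/-- grid step times grid points -/
theorem gst_mul_gpt (κ : ℕ) : gst P κ * gpt P κ = 2 ^ κ := by
  unfold gst gpt
  rw [← pow_add]
  congr 1
  omega

theorem gpt_le (κ : ℕ) : gpt P κ ≤ 2 ^ P.pb := by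
  unfold gpt; exact Nat.pow_le_pow_right (by norm_num) (min_le_right _ _)

/-- `P · step ≤ max (2^κ) P`: the step is at most `2^κ / 2^pb` or it is `1` -/
theorem gst_le (κ : ℕ) : gst P κ ≤ 2 ^ κ / 2 ^ P.pb + 1 := by
  unfold gst
  rcases le_total P.pb κ with h | h
  · rw [Nat.pow_div h (by norm_num)]; omega
  · rw [Nat.sub_eq_zero_of_le h]; simp

/-- a letter path of a window as a staircase -/
theorem cut_zero (κ : ℕ) (x : St) (a : ℕ) : cut P κ x 0 a = x.u := by simp [cut]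

theorem cut_N (κ : ℕ) (x : St) (a : ℕ) : cut P κ x P.N a = x.v := by
  unfold cut; rw [if_neg N_pos.ne', if_pos rfl]

theorem cut_mid {κ : ℕ} {x : St} {q a : ℕ} (h0 : 0 < q) (hN : q < P.N) :
    cut P κ x q a = pos P κ x a := by
  unfold cut; rw [if_neg h0.ne', if_neg hN.ne]

@[simp] theorem piece_i (κ : ℕ) (x : St) (q a b : ℕ) : (piece P κ x q a b).i = x.i - 1 := rfl
@[simp] theorem piece_j (κ : ℕ) (x : St) (q a b : ℕ) : (piece P κ x q a b).j = P.N * x.j + q := rfl
@[simp] theorem piece_u (κ : ℕ) (x : St) (q a b : ℕ) : (piece P κ x q a b).u = cut P κ x q a := rfl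
@[simp] theorem piece_v (κ : ℕ) (x : St) (q a b : ℕ) :
    (piece P κ x q a b).v = cut P κ x (q + 1) b := rfl

/-- **`Vst` is below every grid staircase** -/
theorem Vst_le {κ : ℕ} {x : St} {f : St → ℕ} (p : ℕ → ℕ) (hp : ∀ i, 0 < i → i < P.N → p i < WA P κ) :
    Vst P κ x f ≤ ∑ q ∈ range P.N, f (piece P κ x q (p q) (p (q + 1))) := by
  set p' : ℕ → ℕ := fun i => if 0 < i ∧ i < P.N then p i else 0 with hp'
  have h := minSt_le (A := WA P κ) (T := fun q a b => f (piece P κ x q a b)) (N := P.N) p'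
    (fun i hi => by
      simp only [hp']
      split_ifs with h1
      · exact hp i h1.1 h1.2
      · exact WA_pos κ)
    (by simp [hp'])
  refine h.trans (le_of_eq (sum_congr rfl fun q hq => ?_))
  have hq' := mem_range.1 hq
  have hc : ∀ i ≤ P.N, cut P κ x i (p' i) = cut P κ x i (p i) := by
    intro i hi
    rcases Nat.eq_zero_or_pos i with h0 | h0
    · rw [h0, cut_zero, cut_zero]
    rcases Nat.lt_or_ge i P.N with h1 | h1
    · have : p' i = p i := by simp only [hp']; rw [if_pos ⟨h0, h1⟩]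
      rw [this]
    · have : i = P.N := le_antisymm hi h1
      rw [this, cut_N, cut_N]
  have e : piece P κ x q (p' q) (p' (q + 1)) = piece P κ x q (p q) (p (q + 1)) := by
    unfold piece
    rw [hc q hq'.le, hc (q + 1) hq']
  simp only [e]

/-- **and attained by one** -/
theorem exists_Vst (κ : ℕ) (x : St) (f : St → ℕ) :
    ∃ p : ℕ → ℕ, (∀ i < P.N, p i < WA P κ) ∧ p P.N = 0 ∧
      Vst P κ x f = ∑ q ∈ range P.N, f (piece P κ x q (p q) (p (q + 1))) := by
  obtain ⟨p, p1, p2, p3⟩ := exists_minSt (WA_pos (P := P) κ) (fun q a b => f (piece P κ x q a b)) P.N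
  exact ⟨p, p2, p1, p3⟩

theorem Vst_mono {κ : ℕ} {x : St} {f g : St → ℕ}
    (h : ∀ q < P.N, ∀ a b, f (piece P κ x q a b) ≤ g (piece P κ x q a b)) :
    Vst P κ x f ≤ Vst P κ x g :=
  D_mono (WA_pos κ) (fun q hq a _ b => h q hq a b) 0

theorem Vst_congr {κ : ℕ} {x : St} {f g : St → ℕ}
    (h : ∀ q < P.N, ∀ a b, f (piece P κ x q a b) = g (piece P κ x q a b)) :
    Vst P κ x f = Vst P κ x g :=
  D_congr (WA_pos κ) (fun q hq a _ b => h q hq a b) 0

end window

/-! ### soundness of the window minimum -/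

/-- **a family with the split inequality is below every staircase** (natural numbers) -/
theorem split_stair {g : ℕ → ℕ → ℤ → ℤ → ℕ}
    (hs : ∀ h j u w v, g (h + 1) j u v ≤ g h (2 * j) u w + g h (2 * j + 1) w v)
    (h r j : ℕ) (m : ℕ → ℤ) :
    g (h + r) j (m 0) (m (2 ^ r)) ≤ ∑ t ∈ range (2 ^ r), g h (2 ^ r * j + t) (m t) (m (t + 1)) := by
  induction r generalizing j m with
  | zero => simp
  | succ r ih =>
    have h1 := ih (2 * j) m
    have h2 := ih (2 * j + 1) (fun t => m (2 ^ r + t))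
    have h3 := hs (h + r) j (m 0) (m (2 ^ r)) (m (2 ^ (r + 1)))
    have e : 2 ^ (r + 1) = 2 ^ r + 2 ^ r := by rw [pow_succ]; ring
    have e1 : ∀ t, 2 ^ r * (2 * j) + t = 2 ^ (r + 1) * j + t := fun t => by rw [pow_succ]; ring
    have e2 : ∀ t, 2 ^ r * (2 * j + 1) + t = 2 ^ (r + 1) * j + (2 ^ r + t) := fun t => by
      rw [pow_succ]; ring
    simp only [add_zero, e1, e2] at h1 h2
    rw [← e] at h2
    have h4 : ∑ t ∈ range (2 ^ (r + 1)), g h (2 ^ (r + 1) * j + t) (m t) (m (t + 1))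
        = ∑ t ∈ range (2 ^ r), g h (2 ^ (r + 1) * j + t) (m t) (m (t + 1))
          + ∑ t ∈ range (2 ^ r), g h (2 ^ (r + 1) * j + (2 ^ r + t)) (m (2 ^ r + t))
              (m (2 ^ r + (t + 1))) := by
      conv_lhs => rw [show range (2 ^ (r + 1)) = range (2 ^ r + 2 ^ r) by rw [e]]
      rw [sum_range_add]
      rfl
    rw [h4, ← Nat.add_assoc]
    exact h3.trans (Nat.add_le_add h1 h2)

section game

open Crest.Agent.R288.Gt373 Crest.Agent.R288.VI684 Crest.GraphRAM

variable (X Y : List ℕ)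

/-- the cost of a state: macro height `i` = binary height `h0 + n i` -/
def Gs (h0 n : ℕ) (s : St) : ℕ := Gn X Y (h0 + n * s.i) s.j s.u s.v

theorem Gs_lip {h0 n : ℕ} {s s' : St} (hi : s.i = s'.i) (hj : s.j = s'.j) :
    Gs X Y h0 n s ≤ Gs X Y h0 n s' + Alg45.dist s s' := by
  have h := Gn_lip X Y (h0 + n * s.i) s.j s.u s.v s'.u s'.v
  unfold Gs Alg45.dist
  rw [← hi, ← hj]
  omega

theorem Gs_ge (h0 n : ℕ) (s : St) : (s.u - s.v).natAbs ≤ Gs X Y h0 n s := Gn_ge X Y _ _ _ _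

/-- **every integer staircase of a state is above its cost** -/
theorem Gs_le_stair (P : Par) {h0 : ℕ} {s : St} (hi : 0 < s.i) (m : ℕ → ℤ) (h1 : m 0 = s.u)
    (h2 : m P.N = s.v) :
    Gs X Y h0 P.n s ≤ ∑ q ∈ range P.N, Gs X Y h0 P.n ⟨s.i - 1, P.N * s.j + q, m q, m (q + 1)⟩ := by
  have h := split_stair (g := Gn X Y) (fun h j u w v => Gn_split_le X Y h j u w v)
    (h0 + P.n * (s.i - 1)) P.n s.j m
  have e : h0 + P.n * (s.i - 1) + P.n = h0 + P.n * s.i := by
    obtain ⟨k, hk⟩ := Nat.exists_eq_succ_of_ne_zero hi.ne'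
    rw [hk]; simp only [Nat.succ_sub_one]; rw [Nat.mul_succ]; ring
  rw [e, h1] at h
  unfold Par.N at h2 ⊢
  rw [h2] at h
  exact h

/-- **and some integer staircase attains it**, with all cuts in the window of radius `G` -/
theorem exists_Gs_stair (P : Par) (h0 : ℕ) {s : St} (hi : 0 < s.i) :
    ∃ m : ℕ → ℤ, m 0 = s.u ∧ m P.N = s.v ∧
      Gs X Y h0 P.n s = ∑ q ∈ range P.N, Gs X Y h0 P.n ⟨s.i - 1, P.N * s.j + q, m q, m (q + 1)⟩ ∧
      ∀ q ≤ P.N, (m q - s.u).natAbs ≤ Gs X Y h0 P.n s := by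
  obtain ⟨m, h1, h2, -, h3⟩ := exists_sumG X Y (h0 + P.n * (s.i - 1)) P.n s.j s.u s.v
  have e : h0 + P.n * (s.i - 1) + P.n = h0 + P.n * s.i := by
    obtain ⟨k, hk⟩ := Nat.exists_eq_succ_of_ne_zero hi.ne'
    rw [hk]; simp only [Nat.succ_sub_one]; rw [Nat.mul_succ]; ring
  rw [e] at h3
  refine ⟨m, h1, h2, h3.symm, fun q hq => ?_⟩
  have h4 := cut_bound X Y (h0 + P.n * (s.i - 1)) P.n s.j m hq
  rw [h3, h1] at h4
  unfold Gs
  omega

/-- **domain form**: an optimal staircase inside the domain -/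
theorem exists_Gs_stair_dom (P : Par) (h0 : ℕ) {s : St} (hi : 0 < s.i) (hx : X.length ≤ P.Dm)
    (hy : Y.length ≤ P.Dm) (hu : s.u.natAbs ≤ P.Dm) (hv : s.v.natAbs ≤ P.Dm) :
    ∃ m : ℕ → ℤ, m 0 = s.u ∧ m P.N = s.v ∧
      Gs X Y h0 P.n s = ∑ q ∈ range P.N, Gs X Y h0 P.n ⟨s.i - 1, P.N * s.j + q, m q, m (q + 1)⟩ ∧
      (∀ q ≤ P.N, (m q - s.u).natAbs ≤ Gs X Y h0 P.n s) ∧ ∀ q ≤ P.N, (m q).natAbs ≤ P.Dm := by
  obtain ⟨m, h1, h2, h3, h4, h5⟩ := exists_sumG_dom X Y hx hy (h0 + P.n * (s.i - 1)) P.n s.j hu hv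
  have e : h0 + P.n * (s.i - 1) + P.n = h0 + P.n * s.i := by
    obtain ⟨k, hk⟩ := Nat.exists_eq_succ_of_ne_zero hi.ne'
    rw [hk]; simp only [Nat.succ_sub_one]; rw [Nat.mul_succ]; ring
  rw [e] at h4 h5
  refine ⟨m, h1, h2, h5.symm, fun q hq => ?_, h3⟩
  have := h4 q hq
  unfold Gs
  omega

variable {X Y}

/-- **soundness: `G ≤ f` on the pieces gives `G x ≤ Vst κ x f`** -/
theorem Gs_le_Vst {P : Par} {h0 κ : ℕ} {s : St} (hi : 0 < s.i) {f : St → ℕ}
    (hf : ∀ q < P.N, ∀ a b, Gs X Y h0 P.n (piece P κ s q a b) ≤ f (piece P κ s q a b)) :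
    Gs X Y h0 P.n s ≤ Vst P κ s f := by
  obtain ⟨p, p1, p2, p3⟩ := exists_Vst κ s f (P := P)
  rw [p3]
  refine (Gs_le_stair X Y P hi (fun q => cut P κ s q (p q)) (cut_zero κ s _) (cut_N κ s _)).trans ?_
  exact sum_le_sum fun q hq => hf q (mem_range.1 hq) _ _

end game

/-! ### rounding a staircase to a grid path -/

section round

variable {P : Par}

theorem rd_le (κ : ℕ) (u : ℤ) : rd P κ u ≤ u := by
  have h : (0 : ℤ) < (gst P κ : ℤ) := by exact_mod_cast gst_pos κ
  unfold rd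
  exact Int.ediv_mul_le u h.ne'

theorem lt_rd (κ : ℕ) (u : ℤ) : u < rd P κ u + (gst P κ : ℤ) := by
  have h : (0 : ℤ) < (gst P κ : ℤ) := by exact_mod_cast gst_pos κ
  have h1 := Int.lt_ediv_add_one_mul_self u h
  unfold rd
  linarith [add_mul (u / (gst P κ : ℤ)) 1 (gst P κ : ℤ)]

theorem gst_dvd_rd (κ : ℕ) (u : ℤ) : (gst P κ : ℤ) ∣ rd P κ u := Dvd.intro_left _ rfl

theorem rd_of_dvd {κ : ℕ} {u : ℤ} (h : (gst P κ : ℤ) ∣ u) : rd P κ u = u := by
  unfold rd; exact Int.ediv_mul_cancel h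

theorem gst_dvd_two_pow (κ : ℕ) : (gst P κ : ℤ) ∣ 2 ^ κ :=
  ⟨(gpt P κ : ℤ), by exact_mod_cast (gst_mul_gpt (P := P) κ).symm⟩

theorem rd_lip (κ : ℕ) (u u' : ℤ) : |rd P κ u - rd P κ u'| < |u - u'| + gst P κ := by
  have h1 := rd_le (P := P) κ u
  have h2 := lt_rd (P := P) κ u
  have h3 := rd_le (P := P) κ u'
  have h4 := lt_rd (P := P) κ u'
  rcases abs_cases (rd P κ u - rd P κ u') with ⟨a1, _⟩ | ⟨a1, _⟩ <;>
    rcases abs_cases (u - u') with ⟨b1, _⟩ | ⟨b1, _⟩ <;> rw [a1, b1] <;> linarith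

theorem clp_le (w : ℤ) : clp P w ≤ P.Dm := by unfold clp; omega

theorem le_clp (w : ℤ) : -(P.Dm : ℤ) ≤ clp P w := by unfold clp; omega

theorem abs_clp (w : ℤ) : |clp P w| ≤ P.Dm := abs_le.2 ⟨le_clp w, clp_le w⟩

theorem natAbs_clp (w : ℤ) : (clp P w).natAbs ≤ P.Dm := by
  have h1 := clp_le (P := P) w
  have h2 := le_clp (P := P) w
  omega

theorem clp_of_abs {w : ℤ} (h : |w| ≤ P.Dm) : clp P w = w := by
  obtain ⟨h1, h2⟩ := abs_le.1 h
  unfold clp; omega

theorem clp_of_natAbs {w : ℤ} (h : w.natAbs ≤ P.Dm) : clp P w = w := by unfold clp; omega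

theorem clp_mono {w w' : ℤ} (h : w ≤ w') : clp P w ≤ clp P w' := by unfold clp; omega

theorem clp_lip (w w' : ℤ) : (clp P w - clp P w').natAbs ≤ (w - w').natAbs := by unfold clp; omega

theorem clp_clp (w : ℤ) : clp P (clp P w) = clp P w := clp_of_abs (abs_clp w)

theorem pos_eq (κ : ℕ) (x : St) (a : ℕ) :
    pos P κ x a = min (whi P κ x) (wlo P κ x + a * (gst P κ : ℤ)) := rfl

theorem pos_le_whi (κ : ℕ) (x : St) (a : ℕ) : pos P κ x a ≤ whi P κ x := min_le_left _ _

theorem whi_le_Dm (κ : ℕ) (x : St) : whi P κ x ≤ P.Dm := min_le_left _ _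

theorem le_wlo (κ : ℕ) (x : St) : -(P.Dm : ℤ) ≤ wlo P κ x := le_max_left _ _

/-- a state of the domain: all letters are in the domain -/
theorem abs_pos {κ : ℕ} {x : St} (hu : |x.u| ≤ P.Dm) (hr : 1 ≤ P.r) (a : ℕ) :
    |pos P κ x a| ≤ P.Dm := by
  have h1 := lt_rd (P := P) κ x.u
  have h2 := le_wlo (P := P) κ x
  have h3 : (gst P κ : ℤ) ≤ P.r * 2 ^ κ := by
    have h4 : (gst P κ : ℤ) ≤ 2 ^ κ := by
      have : gst P κ ≤ 2 ^ κ := by unfold gst; exact Nat.pow_le_pow_right (by norm_num) (by omega)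
      exact_mod_cast this
    have h5 : (1 : ℤ) * 2 ^ κ ≤ P.r * 2 ^ κ :=
      mul_le_mul_of_nonneg_right (by exact_mod_cast hr) (by positivity)
    linarith
  have h6 : (0 : ℤ) ≤ (a : ℤ) * (gst P κ : ℤ) := by positivity
  obtain ⟨h7, -⟩ := abs_le.1 hu
  refine abs_le.2 ⟨?_, (pos_le_whi κ x a).trans (whi_le_Dm κ x)⟩
  rw [pos_eq, le_min_iff]
  refine ⟨?_, by linarith⟩
  unfold whi
  rw [le_min_iff]
  exact ⟨by omega, by linarith⟩

theorem pos_mono {κ : ℕ} {x : St} {a b : ℕ} (h : a ≤ b) : pos P κ x a ≤ pos P κ x b := by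
  rw [pos_eq, pos_eq]
  have : ((a : ℤ) * (gst P κ : ℤ)) ≤ b * (gst P κ : ℤ) :=
    mul_le_mul_of_nonneg_right (by exact_mod_cast h) (Int.natCast_nonneg _)
  omega

/-- all letters are on the grid if `Dm` is -/
theorem gst_dvd_pos {κ : ℕ} {x : St} {a : ℕ} (hD : (gst P κ : ℤ) ∣ P.Dm) :
    (gst P κ : ℤ) ∣ pos P κ x a := by
  have h0 : (gst P κ : ℤ) ∣ rd P κ x.u - P.r * 2 ^ κ :=
    dvd_sub (gst_dvd_rd κ x.u) (Dvd.dvd.mul_left (gst_dvd_two_pow κ) _)
  have h0' : (gst P κ : ℤ) ∣ rd P κ x.u + P.r * 2 ^ κ :=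
    dvd_add (gst_dvd_rd κ x.u) (Dvd.dvd.mul_left (gst_dvd_two_pow κ) _)
  have h1 : (gst P κ : ℤ) ∣ wlo P κ x := by
    unfold wlo
    rcases le_total (-(P.Dm : ℤ)) (rd P κ x.u - P.r * 2 ^ κ) with h | h
    · rw [max_eq_right h]; exact h0
    · rw [max_eq_left h]; exact (dvd_neg).2 hD
  have h2 : (gst P κ : ℤ) ∣ whi P κ x := by
    unfold whi
    rcases le_total (P.Dm : ℤ) (rd P κ x.u + P.r * 2 ^ κ) with h | h
    · rw [min_eq_left h]; exact hD
    · rw [min_eq_right h]; exact h0'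
  rw [pos_eq]
  rcases le_total (whi P κ x) (wlo P κ x + a * (gst P κ : ℤ)) with h | h
  · rw [min_eq_left h]; exact h2
  · rw [min_eq_right h]; exact dvd_add h1 (Dvd.intro_left _ rfl)

/-- consecutive letters differ by at most one step -/
theorem pos_succ_le (κ : ℕ) (x : St) (a : ℕ) : pos P κ x (a + 1) ≤ pos P κ x a + (gst P κ : ℤ) := by
  rw [pos_eq, pos_eq]
  have e : ((a + 1 : ℕ) : ℤ) * (gst P κ : ℤ) = a * (gst P κ : ℤ) + gst P κ := by push_cast; ring
  rw [e]
  have hg : (0 : ℤ) ≤ (gst P κ : ℤ) := Int.natCast_nonneg _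
  omega

/-- **every point of the window and of the domain has a letter below it, within one grid step** -/
theorem exists_letter {κ : ℕ} {x : St} {w : ℤ} (h : |w - x.u| ≤ P.r * 2 ^ κ) (hw : |w| ≤ P.Dm) :
    ∃ a < WA P κ, pos P κ x a ≤ w ∧ w < pos P κ x a + (gst P κ : ℤ) := by
  have hg : (0 : ℤ) < (gst P κ : ℤ) := by exact_mod_cast gst_pos κ
  have h1 := rd_le (P := P) κ x.u
  have h2 := lt_rd (P := P) κ x.u
  obtain ⟨h3, h4⟩ := abs_le.1 h
  obtain ⟨w1, w2⟩ := abs_le.1 hw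
  have h5 : 0 ≤ w - wlo P κ x := by
    have : wlo P κ x ≤ w := max_le w1 (by linarith)
    linarith
  have h6 : w - wlo P κ x < (WA P κ : ℤ) * gst P κ := by
    have : ((WA P κ : ℕ) : ℤ) * gst P κ = 2 * (P.r * 2 ^ κ) + gst P κ := by
      have e : ((gpt P κ : ℕ) : ℤ) * gst P κ = 2 ^ κ := by
        have := gst_mul_gpt (P := P) κ
        rw [mul_comm]; exact_mod_cast this
      unfold WA
      push_cast
      rw [add_mul, mul_assoc (2 * (P.r : ℤ)), e]
      ring
    rw [this]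
    have : rd P κ x.u - P.r * 2 ^ κ ≤ wlo P κ x := le_max_right _ _
    linarith
  set t := (w - wlo P κ x) / (gst P κ : ℤ) with ht
  have h7 : 0 ≤ t := Int.ediv_nonneg h5 hg.le
  have h8 : t < WA P κ := Int.ediv_lt_of_lt_mul hg h6
  have h9 := Int.ediv_mul_le (w - wlo P κ x) hg.ne'
  have h10 := Int.lt_ediv_add_one_mul_self (w - wlo P κ x) hg
  rw [← ht] at h9 h10
  have h11 : ((t.toNat : ℕ) : ℤ) = t := Int.toNat_of_nonneg h7
  have h12 : wlo P κ x + (t.toNat : ℤ) * (gst P κ : ℤ) ≤ w := by rw [h11]; linarith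
  have h13 : w < wlo P κ x + (t.toNat : ℤ) * (gst P κ : ℤ) + (gst P κ : ℤ) := by
    rw [h11]; linarith [add_mul t 1 (gst P κ : ℤ)]
  have h14 : w < whi P κ x + (gst P κ : ℤ) := by
    unfold whi
    rcases le_total (P.Dm : ℤ) (rd P κ x.u + P.r * 2 ^ κ) with h | h
    · rw [min_eq_left h]; linarith
    · rw [min_eq_right h]; linarith
  refine ⟨t.toNat, by omega, (min_le_right _ _).trans h12, ?_⟩
  rw [pos_eq]
  rcases le_total (whi P κ x) (wlo P κ x + (t.toNat : ℤ) * (gst P κ : ℤ)) with h | h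
  · rw [min_eq_left h]; exact h14
  · rw [min_eq_right h]; exact h13

/-- **every integer staircase in the window is rounded to a grid path**, each inner cut within one
grid step, the outer cuts exactly -/
theorem exists_path {κ : ℕ} {x : St} {m : ℕ → ℤ} (h0 : m 0 = x.u) (hN : m P.N = x.v)
    (hm : ∀ q, 0 < q → q < P.N → |m q - x.u| ≤ P.r * 2 ^ κ ∧ |m q| ≤ P.Dm) :
    ∃ p : ℕ → ℕ, (∀ q, p q < WA P κ) ∧ ∀ q ≤ P.N, (m q - cut P κ x q (p q)).natAbs < gst P κ := by
  have hg : 0 < gst P κ := gst_pos κ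
  have key : ∀ q, ∃ a < WA P κ, q ≤ P.N → (m q - cut P κ x q a).natAbs < gst P κ := by
    intro q
    rcases Nat.eq_zero_or_pos q with h | h
    · exact ⟨0, WA_pos κ, fun _ => by rw [h, cut_zero, h0]; simpa using hg⟩
    rcases Nat.lt_or_ge q P.N with h' | h'
    · obtain ⟨a, ha, h1, h2⟩ := exists_letter (hm q h h').1 (hm q h h').2
      refine ⟨a, ha, fun _ => ?_⟩
      rw [cut_mid h h']
      omega
    · refine ⟨0, WA_pos κ, fun h'' => ?_⟩
      have : q = P.N := le_antisymm h'' h'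
      rw [this, cut_N, hN]; simpa using hg
  choose p hp1 hp2 using key
  exact ⟨p, hp1, hp2⟩

/-- **upper half of the window minimum**: rounding costs at most two grid steps per piece for a
Lipschitz function -/
theorem Vst_le_of_stair {κ : ℕ} {x : St} {f : St → ℕ} {m : ℕ → ℤ} (h0 : m 0 = x.u) (hN : m P.N = x.v)
    (hm : ∀ q, 0 < q → q < P.N → |m q - x.u| ≤ P.r * 2 ^ κ ∧ |m q| ≤ P.Dm)
    {b : ℕ} (hf : ∀ q < P.N, ∀ u v u' v', f ⟨x.i - 1, P.N * x.j + q, u, v⟩
      ≤ f ⟨x.i - 1, P.N * x.j + q, u', v'⟩ + b * ((u - u').natAbs + (v - v').natAbs)) :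
    Vst P κ x f ≤ (∑ q ∈ range P.N, f ⟨x.i - 1, P.N * x.j + q, m q, m (q + 1)⟩)
      + P.N * (b * (2 * gst P κ)) := by
  obtain ⟨p, hp1, hp2⟩ := exists_path h0 hN hm
  refine (Vst_le p fun i _ _ => hp1 i).trans ?_
  have : P.N * (b * (2 * gst P κ)) = ∑ q ∈ range P.N, b * (2 * gst P κ) := by simp
  rw [this, ← sum_add_distrib]
  refine sum_le_sum fun q hq => ?_
  have hq' := mem_range.1 hq
  refine (hf q hq' (cut P κ x q (p q)) (cut P κ x (q + 1) (p (q + 1))) (m q) (m (q + 1))).trans ?_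
  refine Nat.add_le_add_left (Nat.mul_le_mul_left b ?_) _
  have h1 := hp2 q hq'.le
  have h2 := hp2 (q + 1) hq'
  omega

end round

section game2

open Crest.Agent.R288.Gt373 Crest.Agent.R288.VI684 Crest.GraphRAM

variable {X Y : List ℕ}

/-- **near optimality of the grid staircases for the cost itself** (states of the domain) -/
theorem Vst_Gs_le {P : Par} {h0 κ : ℕ} {s : St} (hi : 0 < s.i) (hx : X.length ≤ P.Dm)
    (hy : Y.length ≤ P.Dm) (hu : s.u.natAbs ≤ P.Dm) (hv : s.v.natAbs ≤ P.Dm)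
    (hr : Gs X Y h0 P.n s ≤ P.r * 2 ^ κ) :
    Vst P κ s (Gs X Y h0 P.n) ≤ Gs X Y h0 P.n s + P.N * (2 * gst P κ) := by
  obtain ⟨m, h1, h2, h3, h4, h5⟩ := exists_Gs_stair_dom X Y P h0 hi hx hy hu hv
  have h := Vst_le_of_stair (P := P) (κ := κ) (f := Gs X Y h0 P.n) h1 h2
    (fun q _ hq => by
      have := (h4 q hq.le).trans hr
      have h6 : |m q - s.u| = ((m q - s.u).natAbs : ℤ) := by simp
      have h7 : |m q| = ((m q).natAbs : ℤ) := by simp
      refine ⟨?_, ?_⟩
      · rw [h6]; exact_mod_cast this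
      · rw [h7]; exact_mod_cast h5 q hq.le)
    (b := 1) (fun q _ u v u' v' => by
      have := Gs_lip X Y (h0 := h0) (n := P.n) (s := ⟨s.i - 1, P.N * s.j + q, u, v⟩)
        (s' := ⟨s.i - 1, P.N * s.j + q, u', v'⟩) rfl rfl
      simpa [Alg45.dist] using this)
  rw [← h3] at h
  simpa using h

end game2

end Crest.Agent.R288.El260
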