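import Crest.Agent.R288.Eng_726
import Crest.Agent.R288.PlW_726

/-!
# R288, the engine, part 2 (helper726): instance for the environment of `topPL` / `topPLT`

* `ptf_delta`: certificate of 578's `delta ph`;
* `orc pe kT kA Lam`: the oracle of a pure environment; `mt_orc`; **`eng_pin`**;
* **`main_PEx`**: main statement `asg a ;; call 0 ;; asg o`.
-/

set_option autoImplicit false

namespace Crest.Agent.R288.Eng726

open Crest.Agent.R295 Crest.Agent.R295.Pt949 Crest.Agent.R288.Pl726
open Crest.Agent.Lib.PT Crest.Agent.R288.PtY949 Crest.Agent.R288.Pg578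

/-- certificate of the function of the engine -/
theorem ptf_delta {ph : Arg → Svd → List ℕ × List (List ℕ)}
    (h : PTF (fun p : Arg × Svd => ph p.1 p.2)) :
    PTF (fun p : List ℕ × List (List ℕ) => delta ph p.1 p.2) := by
  have h1 : PTF (fun q : Fr × List (List ℕ) =>
      ((q.1.1, if q.2 = [] then q.1.2 else q.1.2 ++ [q.2]) : Arg × Svd)) := by
    fun_prop
  have h2 : PTF (fun q : Fr × List (List ℕ) =>
      ph q.1.1 (if q.2 = [] then q.1.2 else q.1.2 ++ [q.2])) :=
    PTF.comp (g := fun p : Arg × Svd => ph p.1 p.2)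
      (f := fun q : Fr × List (List ℕ) =>
        ((q.1.1, if q.2 = [] then q.1.2 else q.1.2 ++ [q.2]) : Arg × Svd)) h h1
  have h3 : PTF (fun q : Fr × List (List ℕ) =>
      tow ((q.1.1, if q.2 = [] then q.1.2 else q.1.2 ++ [q.2]) : Fr)) :=
    PTF.comp (g := fun p : Fr => tow p)
      (f := fun q : Fr × List (List ℕ) =>
        ((q.1.1, if q.2 = [] then q.1.2 else q.1.2 ++ [q.2]) : Fr)) Flat.ptf_tow h1
  have h4 : PTF (fun q : Fr × List (List ℕ) =>
      if (ph q.1.1 (if q.2 = [] then q.1.2 else q.1.2 ++ [q.2])).2 = [] then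
        ph q.1.1 (if q.2 = [] then q.1.2 else q.1.2 ++ [q.2])
      else (tow ((q.1.1, if q.2 = [] then q.1.2 else q.1.2 ++ [q.2]) : Fr),
        (ph q.1.1 (if q.2 = [] then q.1.2 else q.1.2 ++ [q.2])).2)) := by
    fun_prop
  have h5 : PTF (fun p : List ℕ × List (List ℕ) => un Fr p.1) := ptf_un PTF.fst
  have h6 : PTF (fun p : List ℕ × List (List ℕ) => (un Fr p.1, p.2)) := PTF.prodMk h5 PTF.snd
  exact PTF.comp (f := fun p : List ℕ × List (List ℕ) => (un Fr p.1, p.2)) h4 h6

section

variable {x y : List ℕ} {ε : ℚ} {pe : PEnv} {kT kA Lam : ℕ}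

/-- the oracle of a pure environment: tape = array `kT`, second array `kA`, leaves up to `Lam` -/
def orc (pe : PEnv) (kT kA Lam : ℕ) : Orc where
  T := pe.O kT
  A := pe.O kA
  X := pe.X
  DX q := q.length = 5 ∧ q.getD 4 0 ≤ Lam
  B := pe.B
  L := pe.L
  S := pe.S / 2

theorem mt_orc (h : PIn x y ε pe) (hT : kT < 50) (hA : kA < 50) (hSB : pe.S < pe.B) :
    Mt pe (orc pe kT kA Lam) kT kA
      (LeafX222.leafCost Lam (Nat.size (x.length + y.length))) where
  hT := hT
  hA := hA
  T _ _ := rfl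
  A _ _ := rfl
  X q hq := ⟨hq.1, rfl, by rw [h.XT]; exact LeafX222.leafCost_mono hq.2⟩
  B := le_rfl
  L := le_rfl
  S := by show 2 * (pe.S / 2) ≤ pe.S; omega
  SB := hSB

/-- **the engine in the environment of `topPL`** -/
theorem eng_pin {δ : List ℕ → List (List ℕ) → List ℕ × List (List ℕ)}
    (hδ : PTF (fun p : List ℕ × List (List ℕ) => δ p.1 p.2)) (h : PIn x y ε pe) (hT : kT < 50)
    (hA : kA < 50) (hSB : pe.S < pe.B) {q r : List ℕ} {n d : ℕ}
    (hE : Ev (orc pe kT kA Lam) δ q [] [] r n d) (hr : pe.Fits r) (i : ℕ) :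
    ∃ t d', PEx pe [engP kT kA hδ] (engP kT kA hδ) q i r i t d' ∧
      t ≤ (LeafX222.leafCost Lam (Nat.size (x.length + y.length)) + 20) * n + 5 ∧ d' ≤ d :=
  eng_PEx hδ (mt_orc h hT hA hSB) (fun i _ => h.word kT i hT) (fun i _ => h.word kA i hA)
    (fun u _ => h.Xlt u) hE hr i

/-- the main statement: `a` = argument of the call, `o` = output from the result -/
noncomputable def mainE {a o : List ℕ → List ℕ} (ha : PTF a) (ho : PTF o) : PS :=
  .seq (.asg a ha) (.seq (.call 0 id PTF.id) (.asg (fun v => o (v.tail.take (v.headD 0)))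
    (PTF.comp ho (by fun_prop))))

/-- **the main program** -/
theorem main_PEx {δ : List ℕ → List (List ℕ) → List ℕ × List (List ℕ)}
    (hδ : PTF (fun p : List ℕ × List (List ℕ) => δ p.1 p.2)) {a o : List ℕ → List ℕ}
    (ha : PTF a) (ho : PTF o) (h : PIn x y ε pe) (hT : kT < 50)
    (hA : kA < 50) (hSB : pe.S < pe.B) {v r : List ℕ} {n d : ℕ}
    (hE : Ev (orc pe kT kA Lam) δ (a v) [] [] r n d) (hq : pe.Fits (a v)) (hr : pe.Fits r)
    (hl : r.length + (a v).length + 1 ≤ pe.S) (hoF : pe.Fits (o r)) (i : ℕ) :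
    ∃ t d', PEx pe [engP kT kA hδ] (mainE ha ho) v i (o r) i t d' ∧
      t ≤ (LeafX222.leafCost Lam (Nat.size (x.length + y.length)) + 20) * n + 10 ∧
      d' ≤ d + 1 := by
  obtain ⟨t, d', h1, h2, h3⟩ := eng_pin hδ h hT hA hSB hE hr i
  have h4 : PEx pe [engP kT kA hδ] (.call 0 id PTF.id) (a v) i (r.length :: (r ++ a v)) i
      (t + 1) (d' + 1) := by
    refine .call (u := r) hq h1 ⟨?_, ?_⟩
    · rw [List.length_cons, List.length_append]; exact hl
    · intro z hz
      rw [List.mem_cons, List.mem_append] at hz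
      rcases hz with rfl | hz | hz
      · have := hr.1; omega
      · exact hr.2 z hz
      · exact hq.2 z hz
  have e1 : o ((r.length :: (r ++ a v)).tail.take ((r.length :: (r ++ a v)).headD 0)) = o r := by
    simp
  have h5 : PEx pe [engP kT kA hδ] (.asg (fun v => o (v.tail.take (v.headD 0)))
      (PTF.comp ho (by fun_prop))) (r.length :: (r ++ a v)) i (o r) i 1 0 := by
    have := PEx.asg (e := pe) (pr := [engP kT kA hδ])
      (f := fun v : List ℕ => o (v.tail.take (v.headD 0))) (hf := PTF.comp ho (by fun_prop))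
      (v := r.length :: (r ++ a v)) (i := i) (by rw [e1]; exact hoF)
    rwa [e1] at this
  refine ⟨_, _, .seq (.asg hq) (.seq h4 h5), by omega, ?_⟩
  simp only [max_le_iff]
  omega

end

end Crest.Agent.R288.Eng726
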