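import Crest.Agent.R288.PtY_949

/-!
# R288, leaf RAM.PROG, part A (helper578): conventions of the program, deterministic phase form

The whole program is ONE recursive procedure of 940's phase engine, given by a PTF function
`ph : Arg → Svd → List ℕ × List (List ℕ)`:
* `Arg` = pad (a long list, makes the list bounds unary), parameters, naturals (procedure number
  first), integers;
* `Svd` = results of the earlier phases (one list of results per phase);
* `ph a sv = (r, [])` : stop with result `r`; `ph a sv = (_, q)` : ask the requests `q`.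
Requests: `1 :: i :: _` tape word, `2 :: i :: _` second array, `3 :: q` external function (one
word), `5 :: tow (a, [])` recursive call. No random words: the tape pointer is an argument.

* `Ev O δ f reqs acc r n d` : deterministic big step semantics (local data, pending requests,
  collected results, final result, number of steps, call depth);
* `Ans O ph q u C D` : the request `q` has the answer `u`;
* `Cm O ph a sv v n d` : the procedure with arguments `a` and saved results `sv` ends with `v`;
  rules `Cm.stop`, `Cm.step`, `Ans.tape`, `Ans.arr`, `Ans.ext`, `Ans.call`.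
-/

set_option autoImplicit false

namespace Crest.Agent.R288.Pg578

open Crest.Agent.Lib.PT Crest.Agent.R295.Pt949 Crest.Agent.R288.PtY949

/-- arguments of a call: pad, parameters, naturals, integers -/
abbrev Arg := List ℕ × List ℕ × List ℕ × List ℤ
/-- results of the phases -/
abbrev Svd := List (List (List ℕ))
/-- a frame -/
abbrev Fr := Arg × Svd

/-- what the program can read; `B` = word bound, `L` = index bound, `S` = size bound -/
structure Orc where
  /-- tape -/
  T : ℕ → ℕ
  /-- second array -/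
  A : ℕ → ℕ
  /-- external function -/
  X : List ℕ → ℕ
  /-- its domain -/
  DX : List ℕ → Prop
  B : ℕ
  L : ℕ
  S : ℕ

/-- number of words of a list of lists -/
def len2 (l : List (List ℕ)) : ℕ := (l.map fun x => x.length + 1).sum

@[simp] theorem len2_nil : len2 [] = 0 := rfl
@[simp] theorem len2_cons (x : List ℕ) (l : List (List ℕ)) :
    len2 (x :: l) = x.length + 1 + len2 l := by simp [len2]
@[simp] theorem len2_append (l l' : List (List ℕ)) : len2 (l ++ l') = len2 l + len2 l' := by
  simp [len2]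

/-- a configuration fits -/
structure Orc.Fit (O : Orc) (f : List ℕ) (reqs acc : List (List ℕ)) : Prop where
  sz : f.length + len2 reqs + len2 acc + 8 ≤ O.S
  f : ∀ x ∈ f, x < O.B
  reqs : ∀ l ∈ reqs, ∀ x ∈ l, x < O.B
  acc : ∀ l ∈ acc, ∀ x ∈ l, x < O.B

/-- deterministic semantics of the phase machine -/
inductive Ev (O : Orc) (δ : List ℕ → List (List ℕ) → List ℕ × List (List ℕ)) :
    List ℕ → List (List ℕ) → List (List ℕ) → List ℕ → ℕ → ℕ → Prop
  | stop {f : List ℕ} {acc : List (List ℕ)} {r : List ℕ} (hF : O.Fit f [] acc)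
      (h : δ f acc = (r, [])) (hr : O.Fit r [] []) : Ev O δ f [] acc r 1 0
  | next {f : List ℕ} {acc : List (List ℕ)} {f' : List ℕ} {reqs : List (List ℕ)} {r : List ℕ}
      {n d : ℕ} (hF : O.Fit f [] acc) (h : δ f acc = (f', reqs)) (hne : reqs ≠ []) :
      Ev O δ f' reqs [] r n d → Ev O δ f [] acc r (n + 1) d
  | tape {f : List ℕ} {i : ℕ} {q : List ℕ} {reqs acc : List (List ℕ)} {r : List ℕ} {n d : ℕ}
      (hF : O.Fit f ((1 :: i :: q) :: reqs) acc) (hi : i < O.L) :
      Ev O δ f reqs (acc ++ [[O.T i]]) r n d → Ev O δ f ((1 :: i :: q) :: reqs) acc r (n + 1) d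
  | arr {f : List ℕ} {i : ℕ} {q : List ℕ} {reqs acc : List (List ℕ)} {r : List ℕ} {n d : ℕ}
      (hF : O.Fit f ((2 :: i :: q) :: reqs) acc) (hi : i < O.L) :
      Ev O δ f reqs (acc ++ [[O.A i]]) r n d → Ev O δ f ((2 :: i :: q) :: reqs) acc r (n + 1) d
  | ext {f q : List ℕ} {reqs acc : List (List ℕ)} {r : List ℕ} {n d : ℕ}
      (hF : O.Fit f ((3 :: q) :: reqs) acc) (hi : O.DX q) :
      Ev O δ f reqs (acc ++ [[O.X q]]) r n d → Ev O δ f ((3 :: q) :: reqs) acc r (n + 1) d
  | call {f q u : List ℕ} {reqs acc : List (List ℕ)} {r : List ℕ} {n d n' d' : ℕ}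
      (hF : O.Fit f ((5 :: q) :: reqs) acc) :
      Ev O δ q [] [] u n' d' → Ev O δ f reqs (acc ++ [u]) r n d →
      Ev O δ f ((5 :: q) :: reqs) acc r (n + n' + 1) (max d (d' + 1))

/-- the function of the engine made from the phase function -/
def delta (ph : Arg → Svd → List ℕ × List (List ℕ)) (f : List ℕ) (rs : List (List ℕ)) :
    List ℕ × List (List ℕ) :=
  let fr : Fr := un Fr f
  let sv : Svd := if rs = [] then fr.2 else fr.2 ++ [rs]
  let x := ph fr.1 sv
  if x.2 = [] then x else (tow (fr.1, sv), x.2)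

section

variable (O : Orc) (ph : Arg → Svd → List ℕ × List (List ℕ))

/-- the request `q` is answered by `u`, cost `≤ C`, depth `≤ D` -/
inductive Ans : List ℕ → List ℕ → ℕ → ℕ → Prop
  | tape (i : ℕ) (q : List ℕ) (C D : ℕ) (hi : i < O.L) (hC : 1 ≤ C) : Ans (1 :: i :: q) [O.T i] C D
  | arr (i : ℕ) (q : List ℕ) (C D : ℕ) (hi : i < O.L) (hC : 1 ≤ C) : Ans (2 :: i :: q) [O.A i] C D
  | ext (q : List ℕ) (C D : ℕ) (hi : O.DX q) (hC : 1 ≤ C) : Ans (3 :: q) [O.X q] C D
  | call {q u : List ℕ} {n d : ℕ} (C D : ℕ) (h : Ev O (delta ph) q [] [] u n d) (hC : n + 1 ≤ C)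
      (hD : d + 1 ≤ D) : Ans (5 :: q) u C D

variable {O ph}

theorem Ans.mono {q u : List ℕ} {C D C' D' : ℕ} (h : Ans O ph q u C D) (hC : C ≤ C') (hD : D ≤ D') :
    Ans O ph q u C' D' := by
  cases h with
  | tape i q _ _ hi hC0 => exact .tape i q _ _ hi (hC0.trans hC)
  | arr i q _ _ hi hC0 => exact .arr i q _ _ hi (hC0.trans hC)
  | ext q _ _ hi hC0 => exact .ext q _ _ hi (hC0.trans hC)
  | call _ _ h hC0 hD0 => exact .call _ _ h (hC0.trans hC) (hD0.trans hD)

theorem Ev.mono_requests {f : List ℕ} {r : List ℕ} {n d : ℕ} :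
    ∀ (reqs us acc : List (List ℕ)) (C D : ℕ), List.Forall₂ (fun q u => Ans O ph q u C D) reqs us →
      O.Fit f reqs acc → (∀ l ∈ us, ∀ x ∈ l, x < O.B) →
      f.length + len2 reqs + len2 acc + len2 us + 8 ≤ O.S →
      Ev O (delta ph) f [] (acc ++ us) r n d →
      ∃ n' d', Ev O (delta ph) f reqs acc r n' d' ∧ n' ≤ n + reqs.length * C ∧ d' ≤ max d D := by
  intro reqs
  induction reqs with
  | nil =>
    intro us acc C D h _ _ _ hE
    cases h
    exact ⟨n, d, by simpa using hE, by simp, le_max_left _ _⟩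
  | cons q reqs ih =>
    intro us acc C D h hF hus hS hE
    cases h with
    | @cons _ u _ us hq hr =>
      simp only [len2_cons] at hS
      have hF' : O.Fit f reqs (acc ++ [u]) := by
        refine ⟨?_, hF.f, fun l hl => hF.reqs l (List.mem_cons_of_mem _ hl), ?_⟩
        · simp only [len2_append, len2_cons, len2_nil]
          omega
        · intro l hl x hx
          rcases List.mem_append.1 hl with hl | hl
          · exact hF.acc l hl x hx
          · rw [List.mem_singleton] at hl
            subst hl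
            exact hus _ List.mem_cons_self x hx
      have hS' : f.length + len2 reqs + len2 (acc ++ [u]) + len2 us + 8 ≤ O.S := by
        simp only [len2_append, len2_cons, len2_nil]
        omega
      obtain ⟨n1, d1, h1, h2, h3⟩ := ih us (acc ++ [u]) C D hr hF'
        (fun l hl => hus l (List.mem_cons_of_mem _ hl)) hS' (by simpa using hE)
      have hlen : (q :: reqs).length * C = reqs.length * C + C := by
        simp only [List.length_cons]; ring
      cases hq with
      | tape i q _ _ hi hC0 => exact ⟨n1 + 1, d1, .tape hF hi h1, by omega, h3⟩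
      | arr i q _ _ hi hC0 => exact ⟨n1 + 1, d1, .arr hF hi h1, by omega, h3⟩
      | ext q _ _ hi hC0 => exact ⟨n1 + 1, d1, .ext hF hi h1, by omega, h3⟩
      | @call q' _ n' d' _ _ h hC0 hD0 =>
        refine ⟨n1 + n' + 1, max d1 (d' + 1), .call hF h h1, by omega, ?_⟩
        exact max_le h3 (hD0.trans (le_max_right _ _))

/-- the procedure with arguments `a` and saved results `sv` ends with the result `v` -/
def Cm (O : Orc) (ph : Arg → Svd → List ℕ × List (List ℕ)) (a : Arg) (sv : Svd) (v : List ℕ)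
    (n d : ℕ) : Prop :=
  ∀ (f : List ℕ) (rs : List (List ℕ)), (un Fr f).1 = a →
    (if rs = [] then (un Fr f).2 else (un Fr f).2 ++ [rs]) = sv → O.Fit f [] rs →
    ∃ n' d', Ev O (delta ph) f [] rs v n' d' ∧ n' ≤ n ∧ d' ≤ d

theorem Cm.mono {a : Arg} {sv : Svd} {v : List ℕ} {n d n' d' : ℕ} (h : Cm O ph a sv v n d)
    (hn : n ≤ n') (hd : d ≤ d') : Cm O ph a sv v n' d' := fun f rs h1 h2 h3 => by
  obtain ⟨m, e, h4, h5, h6⟩ := h f rs h1 h2 h3
  exact ⟨m, e, h4, h5.trans hn, h6.trans hd⟩

/-- stop -/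
theorem Cm.stop {a : Arg} {sv : Svd} {r : List ℕ} (h : ph a sv = (r, [])) (hr : O.Fit r [] []) :
    Cm O ph a sv r 1 0 := by
  intro f rs h1 h2 h3
  refine ⟨1, 0, .stop h3 ?_ hr, le_rfl, le_rfl⟩
  unfold delta
  simp only [h1, h2, h]
  simp

/-- one phase -/
theorem Cm.step {a : Arg} {sv : Svd} {x : List ℕ} {reqs us : List (List ℕ)} {v : List ℕ}
    {C D n d : ℕ} (h : ph a sv = (x, reqs)) (hne : reqs ≠ [])
    (hA : List.Forall₂ (fun q u => Ans O ph q u C D) reqs us)
    (hF : O.Fit (tow ((a, sv) : Fr)) reqs us) (hn : Cm O ph a (sv ++ [us]) v n d) :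
    Cm O ph a sv v (n + reqs.length * C + 1) (max d D) := by
  intro f rs h1 h2 h3
  have hus : us ≠ [] := by
    rintro rfl
    cases hA
    exact hne rfl
  have hF1 : O.Fit (tow ((a, sv) : Fr)) [] us := by
    refine ⟨?_, hF.f, by simp, hF.acc⟩
    have := hF.sz
    simp only [len2_nil]
    omega
  have hF2 : O.Fit (tow ((a, sv) : Fr)) reqs [] := by
    refine ⟨?_, hF.f, hF.reqs, by simp⟩
    have := hF.sz
    simp only [len2_nil]
    omega
  have hu : un Fr (tow ((a, sv) : Fr)) = (a, sv) := un_tow _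
  obtain ⟨n1, d1, e1, e2, e3⟩ := hn (tow ((a, sv) : Fr)) us (by rw [hu])
    (by rw [if_neg hus, hu]) hF1
  obtain ⟨n2, d2, g1, g2, g3⟩ := Ev.mono_requests reqs us [] C D hA hF2 hF.acc
    (by have := hF.sz; simp only [len2_nil]; omega) (by simpa using e1)
  refine ⟨n2 + 1, d2, .next h3 ?_ hne g1, by omega, g3.trans (max_le_max e3 le_rfl)⟩
  unfold delta
  simp only [h1, h2, h]
  rw [if_neg hne]

/-- a recursive call -/
theorem Ans.proc {a : Arg} {u : List ℕ} {n d C D : ℕ} (h : Cm O ph a [] u n d) (hC : n + 1 ≤ C)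
    (hD : d + 1 ≤ D) (hF : O.Fit (tow ((a, []) : Fr)) [] []) :
    Ans O ph (5 :: tow ((a, []) : Fr)) u C D := by
  have hu : un Fr (tow ((a, []) : Fr)) = (a, []) := un_tow _
  obtain ⟨n', d', h1, h2, h3⟩ := h (tow ((a, []) : Fr)) [] (by rw [hu])
    (by rw [if_pos rfl, hu]) hF
  exact .call C D h1 (by omega) (by omega)

end

end Crest.Agent.R288.Pg578
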