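import Crest.Agent.R288.PlR_726
import Crest.Agent.R288.PgA_578

/-!
# R288, the engine (helper726): 578's phase machine `Ev` as ONE procedure of the PL layer

`engP kT kA hδ : PS` : the procedure; state `(mode, f, reqs, acc)` as a list of words
(`tow`); array `kT` = tape, `kA` = second array, `ext` = leaf command.

* `Mt pe O kT kA Cx`: the pure environment `pe` realises the oracle `O` of 578, leaf calls cost at
  most `Cx`.
* **`Ev.eng`**: `Ev O δ q [] [] r n d` ⟹ the procedure started in the environment `q` ends in the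
  environment `r`, time `≤ (Cx + 20) n + 5`, depth `≤ d`.
* **`eng_call`**: the statement `call 0 g` of a main program.
-/

set_option autoImplicit false

namespace Crest.Agent.R288.Eng726

open Crest.Agent.R295 Crest.Agent.R295.Pt949 Crest.Agent.R288.Pl726
open Crest.Agent.Lib.PT Crest.Agent.R288.PtY949 Crest.Agent.R288.Pg578

/-- state of the engine: mode (`0` = running, `1` = stopped), local data, requests, results -/
abbrev ES := ℕ × List ℕ × List (List ℕ) × List (List ℕ)

/-! ### pieces -/

section pieces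

variable {δ : List ℕ → List (List ℕ) → List ℕ × List (List ℕ)}

theorem ptf_pre {α β : Type} [PTCode α] [PTCode β] [Flat α] {g : α → β} (hg : PTF g) :
    PTF (fun v : List ℕ => g (un α v)) :=
  PTF.comp (g := g) (f := fun v : List ℕ => un α v) hg (ptf_un PTF.id)

theorem ptf_post {α β : Type} [PTCode α] [PTCode β] [Flat α] [Flat β] {g : α → β} (hg : PTF g) :
    PTF (fun v : List ℕ => tow (g (un α v))) :=
  PTF.comp (g := fun b : β => tow b) (f := fun v : List ℕ => g (un α v)) Flat.ptf_tow (ptf_pre hg)

/-- start -/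
def iniF (q : List ℕ) : List ℕ := tow ((0, q, [], []) : ES)

theorem ptf_iniF : PTF iniF := by
  unfold iniF
  fun_prop

/-- running? -/
def runF (v : List ℕ) : Bool := decide ((un ES v).1 = 0)

theorem ptf_runF : PTF runF := ptf_pre (g := fun s : ES => decide (s.1 = 0)) (by fun_prop)

/-- no request? -/
def noR (v : List ℕ) : Bool := decide ((un ES v).2.2.1 = [])

theorem ptf_noR : PTF noR := ptf_pre (g := fun s : ES => decide (s.2.2.1 = [])) (by fun_prop)

/-- kind of the first request -/
def knd (v : List ℕ) : ℕ := ((un ES v).2.2.1.headD []).headD 0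

theorem ptf_knd : PTF knd :=
  ptf_pre (g := fun s : ES => (s.2.2.1.headD []).headD 0) (by fun_prop)

def isK (k : ℕ) (v : List ℕ) : Bool := decide (knd v = k)

theorem ptf_isK (k : ℕ) : PTF (isK k) := by
  have := ptf_knd
  unfold isK
  fun_prop

/-- data of the first request -/
def arg (v : List ℕ) : List ℕ := ((un ES v).2.2.1.headD []).tail

theorem ptf_arg : PTF arg :=
  ptf_pre (g := fun s : ES => (s.2.2.1.headD []).tail) (by fun_prop)

/-- first number of the data -/
def idx (v : List ℕ) : ℕ := (arg v).headD 0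

theorem ptf_idx : PTF idx := by
  have := ptf_arg
  unfold idx
  fun_prop

/-- a phase -/
def stepS (δ : List ℕ → List (List ℕ) → List ℕ × List (List ℕ)) (s : ES) : ES :=
  if (δ s.2.1 s.2.2.2).2 = [] then (1, (δ s.2.1 s.2.2.2).1, [], [])
  else (0, (δ s.2.1 s.2.2.2).1, (δ s.2.1 s.2.2.2).2, [])

def stepF (δ : List ℕ → List (List ℕ) → List ℕ × List (List ℕ)) (v : List ℕ) : List ℕ :=
  tow (stepS δ (un ES v))

theorem ptf_stepF (hδ : PTF (fun p : List ℕ × List (List ℕ) => δ p.1 p.2)) : PTF (stepF δ) := by
  have h1 : PTF (fun s : ES => δ s.2.1 s.2.2.2) :=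
    PTF.comp (g := fun p : List ℕ × List (List ℕ) => δ p.1 p.2)
      (f := fun s : ES => (s.2.1, s.2.2.2)) hδ (by fun_prop)
  have h2 : PTF (stepS δ) := by
    unfold stepS
    fun_prop
  exact ptf_post h2

/-- a result is stored -/
def pushS (u : List ℕ) (s : ES) : ES := (0, s.2.1, s.2.2.1.tail, s.2.2.2 ++ [u])

/-- one word on top of the environment -/
def push1 (v : List ℕ) : List ℕ := tow (pushS [(un (ℕ × ES) v).1] (un (ℕ × ES) v).2)

theorem ptf_push1 : PTF push1 :=
  ptf_post (g := fun q : ℕ × ES => pushS [q.1] q.2) (by unfold pushS; fun_prop)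

/-- a list on top of the environment -/
def pushL (v : List ℕ) : List ℕ := tow (pushS (un (List ℕ × ES) v).1 (un (List ℕ × ES) v).2)

theorem ptf_pushL : PTF pushL :=
  ptf_post (g := fun q : List ℕ × ES => pushS q.1 q.2) (by unfold pushS; fun_prop)

/-- the result -/
def finF (v : List ℕ) : List ℕ := (un ES v).2.1

theorem ptf_finF : PTF finF := ptf_pre (g := fun s : ES => s.2.1) (by fun_prop)

/-! ### the procedure -/

/-- one round -/
noncomputable def rndP (kT kA : ℕ) (hδ : PTF (fun p : List ℕ × List (List ℕ) => δ p.1 p.2)) : PS :=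
  .ite noR ptf_noR (.asg (stepF δ) (ptf_stepF hδ))
    (.ite (isK 1) (ptf_isK 1) (.seq (.rd kT idx ptf_idx) (.asg push1 ptf_push1))
      (.ite (isK 2) (ptf_isK 2) (.seq (.rd kA idx ptf_idx) (.asg push1 ptf_push1))
        (.ite (isK 3) (ptf_isK 3) (.seq (.ext arg ptf_arg) (.asg push1 ptf_push1))
          (.seq (.call 0 arg ptf_arg) (.asg pushL ptf_pushL)))))

/-- the loop -/
noncomputable def loopP (kT kA : ℕ) (hδ : PTF (fun p : List ℕ × List (List ℕ) => δ p.1 p.2)) :
    PS := .whl runF ptf_runF (rndP kT kA hδ)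

/-- **the procedure** -/
noncomputable def engP (kT kA : ℕ) (hδ : PTF (fun p : List ℕ × List (List ℕ) => δ p.1 p.2)) : PS :=
  .seq (.asg iniF ptf_iniF) (.seq (loopP kT kA hδ) (.asg finF ptf_finF))

end pieces

/-! ### sizes -/

theorem len_flat (l : List (List ℕ)) : (l.flatMap fun x => tow x).length = len2 l := by
  induction l with
  | nil => rfl
  | cons a l ih => rw [List.flatMap_cons, List.length_append, ih, len2_cons, tow_list]; rfl

theorem tow_ll (l : List (List ℕ)) : tow l = l.length :: l.flatMap tow := rfl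

theorem tow_es (m : ℕ) (f : List ℕ) (rs ac : List (List ℕ)) :
    tow ((m, f, rs, ac) : ES) = m :: (f.length :: f ++ (tow rs ++ tow ac)) := by
  simp only [tow_prod, tow_nat, tow_list, List.nil_append, List.cons_append]

theorem len_es (m : ℕ) (f : List ℕ) (rs ac : List (List ℕ)) :
    (tow ((m, f, rs, ac) : ES)).length = f.length + len2 rs + len2 ac + 4 := by
  rw [tow_es, tow_ll, tow_ll]
  simp only [List.length_cons, List.length_append, len_flat]
  omega

theorem mem_ll {l : List (List ℕ)} {x : ℕ} (h : x ∈ tow l) :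
    x = l.length ∨ ∃ a ∈ l, x = a.length ∨ x ∈ a := by
  rw [tow_ll, List.mem_cons, List.mem_flatMap] at h
  rcases h with h | ⟨a, h1, h2⟩
  · exact Or.inl h
  · rw [tow_list, List.mem_cons] at h2
    exact Or.inr ⟨a, h1, h2⟩

theorem length_le_len2 (l : List (List ℕ)) : l.length ≤ len2 l := by
  induction l with
  | nil => simp
  | cons a l ih => simp; omega

theorem mem_len2 {l : List (List ℕ)} {a : List ℕ} (h : a ∈ l) : a.length + 1 ≤ len2 l := by
  induction l with
  | nil => simp at h
  | cons b l ih =>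
    rw [List.mem_cons] at h
    rw [len2_cons]
    rcases h with rfl | h
    · omega
    · have := ih h
      omega

/-- the pure environment realises the oracle -/
structure Mt (pe : PEnv) (O : Orc) (kT kA Cx : ℕ) : Prop where
  hT : kT < 50
  hA : kA < 50
  T : ∀ i, i < O.L → pe.O kT i = O.T i
  A : ∀ i, i < O.L → pe.O kA i = O.A i
  X : ∀ q, O.DX q → q.length = 5 ∧ pe.X q = O.X q ∧ pe.XT q ≤ Cx
  B : O.B ≤ pe.B
  L : O.L ≤ pe.L
  S : 2 * O.S ≤ pe.S
  SB : pe.S < pe.B

variable {pe : PEnv} {O : Orc} {kT kA Cx : ℕ}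

theorem fits_es (M : Mt pe O kT kA Cx) {m : ℕ} {f : List ℕ} {rs ac : List (List ℕ)} (hm : m ≤ 1)
    (h : O.Fit f rs ac) : pe.Fits (tow ((m, f, rs, ac) : ES)) := by
  have h1 := h.sz
  have h2 := M.S
  have h3 := M.SB
  have h4 := M.B
  refine ⟨by rw [len_es]; omega, ?_⟩
  intro x hx
  rw [tow_es, List.mem_cons] at hx
  have ha : ∀ l : List (List ℕ), (∀ a ∈ l, ∀ x ∈ a, x < O.B) → len2 l ≤ O.S → x ∈ tow l →
      x < pe.B := by
    intro l hl hS hx
    have h5 := length_le_len2 l
    rcases mem_ll hx with h | ⟨a, h6, h | h⟩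
    · omega
    · have := mem_len2 h6
      omega
    · have := hl a h6 x h
      omega
  rcases hx with hx | hx
  · omega
  · rw [List.cons_append, List.mem_cons, List.mem_append, List.mem_append] at hx
    rcases hx with hx | hx | hx | hx
    · omega
    · have := h.f x hx
      omega
    · exact ha _ h.reqs (by omega) hx
    · exact ha _ h.acc (by omega) hx

theorem fits_one (M : Mt pe O kT kA Cx) {w m : ℕ} {f : List ℕ} {rs ac : List (List ℕ)}
    (hm : m ≤ 1) (h : O.Fit f rs ac) (hw : w < pe.B) :
    pe.Fits (w :: tow ((m, f, rs, ac) : ES)) := by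
  have h1 := fits_es M hm h
  refine ⟨?_, ?_⟩
  · rw [List.length_cons, len_es]
    have := h.sz
    have := M.S
    omega
  · intro x hx
    rw [List.mem_cons] at hx
    rcases hx with rfl | hx
    · exact hw
    · exact h1.2 x hx

/-! ### values of the pieces -/

section values

variable {δ : List ℕ → List (List ℕ) → List ℕ × List (List ℕ)} {m : ℕ} {f : List ℕ}
  {rs ac : List (List ℕ)}

theorem runF_tow : runF (tow ((m, f, rs, ac) : ES)) = decide (m = 0) := by
  rw [runF, un_tow]

theorem noR_tow : noR (tow ((m, f, rs, ac) : ES)) = decide (rs = []) := by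
  rw [noR, un_tow]

theorem isK_tow {k a : ℕ} {q : List ℕ} :
    isK k (tow ((m, f, (a :: q) :: rs, ac) : ES)) = decide (a = k) := by
  rw [isK, knd, un_tow]
  rfl

theorem arg_tow {a : ℕ} {q : List ℕ} : arg (tow ((m, f, (a :: q) :: rs, ac) : ES)) = q := by
  rw [arg, un_tow]
  rfl

theorem idx_tow {a i : ℕ} {q : List ℕ} :
    idx (tow ((m, f, (a :: i :: q) :: rs, ac) : ES)) = i := by
  rw [idx, arg_tow]
  rfl

theorem stepF_tow : stepF δ (tow ((m, f, rs, ac) : ES)) = tow (stepS δ (m, f, rs, ac)) := by
  rw [stepF, un_tow]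

theorem push1_tow (w : ℕ) (s : ES) : push1 (w :: tow s) = tow (pushS [w] s) := by
  have h : w :: tow s = tow ((w, s) : ℕ × ES) := by rw [tow_prod, tow_nat]; rfl
  rw [push1, h, un_tow]

theorem pushL_tow (u : List ℕ) (s : ES) : pushL (u.length :: (u ++ tow s)) = tow (pushS u s) := by
  have h : u.length :: (u ++ tow s) = tow ((u, s) : List ℕ × ES) := by
    rw [show tow ((u, s) : List ℕ × ES) = tow u ++ tow s from rfl, tow_list]; rfl
  rw [pushL, h, un_tow]

theorem finF_tow : finF (tow ((m, f, rs, ac) : ES)) = f := by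
  rw [finF, un_tow]

end values

/-! ### the loop -/

section loop

variable {δ : List ℕ → List (List ℕ) → List ℕ × List (List ℕ)}
  (hδ : PTF (fun p : List ℕ × List (List ℕ) => δ p.1 p.2))

theorem mul_arith (C n n' : ℕ) : C * (n + n' + 1) = C * n + C * n' + C := by ring

theorem mul_arith1 (C n : ℕ) : C * (n + 1) = C * n + C := by ring

/-- **the loop of the engine** -/
theorem loop_PEx (M : Mt pe O kT kA Cx) (hTw : ∀ i, i < O.L → O.T i < pe.B)
    (hAw : ∀ i, i < O.L → O.A i < pe.B) (hXw : ∀ q, O.DX q → O.X q < pe.B)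
    {f : List ℕ} {reqs acc : List (List ℕ)} {r : List ℕ} {n d : ℕ}
    (h : Ev O δ f reqs acc r n d) :
    ∀ i, ∃ t d', PEx pe [engP kT kA hδ] (loopP kT kA hδ) (tow ((0, f, reqs, acc) : ES)) i
      (tow ((1, r, [], []) : ES)) i t d' ∧ t ≤ (Cx + 20) * n + 1 ∧ d' ≤ d := by
  induction h with
  | @stop f acc r hF h hr =>
    intro i
    have e1 : stepF δ (tow ((0, f, [], acc) : ES)) = tow ((1, r, [], []) : ES) := by
      rw [stepF_tow]
      unfold stepS
      simp only [h, if_pos]
    have h1 : PEx pe [engP kT kA hδ] (rndP kT kA hδ) (tow ((0, f, [], acc) : ES)) i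
        (tow ((1, r, [], []) : ES)) i (1 + 1) 0 := by
      refine .ite_true (by rw [noR_tow]; rfl) ?_
      rw [← e1]
      refine .asg ?_
      rw [e1]
      exact fits_es M le_rfl hr
    refine ⟨_, _, .whl_step (by rw [runF_tow]; rfl) h1 (.whl_done (by rw [runF_tow]; rfl)), ?_,
      le_rfl⟩
    omega
  | @next f acc f' reqs r n d hF h hne hE ih =>
    intro i
    obtain ⟨t, d', h2, h3, h4⟩ := ih i
    have hF' : O.Fit f' reqs [] := by
      cases hE with
      | stop _ _ _ => exact absurd rfl hne
      | next _ _ _ _ => exact absurd rfl hne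
      | tape hF _ _ => exact hF
      | arr hF _ _ => exact hF
      | ext hF _ _ => exact hF
      | call hF _ _ => exact hF
    have e1 : stepF δ (tow ((0, f, [], acc) : ES)) = tow ((0, f', reqs, []) : ES) := by
      rw [stepF_tow]
      unfold stepS
      simp only [h, if_neg hne]
    have h1 : PEx pe [engP kT kA hδ] (rndP kT kA hδ) (tow ((0, f, [], acc) : ES)) i
        (tow ((0, f', reqs, []) : ES)) i (1 + 1) 0 := by
      refine .ite_true (by rw [noR_tow]; rfl) ?_
      rw [← e1]
      refine .asg ?_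
      rw [e1]
      exact fits_es M (by norm_num) hF'
    refine ⟨_, _, .whl_step (by rw [runF_tow]; rfl) h1 h2, ?_, max_le (Nat.zero_le _) h4⟩
    rw [mul_arith1]
    omega
  | @tape f j q reqs acc r n d hF hi hE ih =>
    intro i
    obtain ⟨t, d', h2, h3, h4⟩ := ih i
    have hF' : O.Fit f reqs (acc ++ [[O.T j]]) := by
      cases hE with
      | stop hF _ _ => exact hF
      | next hF _ _ _ => exact hF
      | tape hF _ _ => exact hF
      | arr hF _ _ => exact hF
      | ext hF _ _ => exact hF
      | call hF _ _ => exact hF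
    have e2 : push1 (O.T j :: tow ((0, f, (1 :: j :: q) :: reqs, acc) : ES)) =
        tow ((0, f, reqs, acc ++ [[O.T j]]) : ES) := push1_tow _ _
    have h1 : PEx pe [engP kT kA hδ] (rndP kT kA hδ) (tow ((0, f, (1 :: j :: q) :: reqs, acc) : ES))
        i (tow ((0, f, reqs, acc ++ [[O.T j]]) : ES)) i (1 + 1 + 1 + 1 + 1) (max 0 0) := by
      refine .ite_false (by rw [noR_tow]; rfl) (.ite_true (by rw [isK_tow]; rfl) ?_)
      rw [← e2, ← M.T j hi]
      refine .seq (v' := pe.O kT j :: tow ((0, f, (1 :: j :: q) :: reqs, acc) : ES)) ?_ (.asg ?_)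
      · have := PEx.rd (e := pe) (pr := [engP kT kA hδ]) (k := kT) (g := idx) (hg := ptf_idx)
          (v := tow ((0, f, (1 :: j :: q) :: reqs, acc) : ES)) (i := i) M.hT (by
            rw [idx_tow]; exact lt_of_lt_of_le hi M.L) (by
            rw [idx_tow, M.T j hi]
            exact fits_one M (by norm_num) hF (hTw j hi))
        rwa [idx_tow] at this
      · rw [M.T j hi, e2]
        exact fits_es M (by norm_num) hF'
    refine ⟨_, _, .whl_step (by rw [runF_tow]; rfl) h1 h2, ?_, max_le (by simp) h4⟩
    rw [mul_arith1]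
    omega
  | @arr f j q reqs acc r n d hF hi hE ih =>
    intro i
    obtain ⟨t, d', h2, h3, h4⟩ := ih i
    have hF' : O.Fit f reqs (acc ++ [[O.A j]]) := by
      cases hE with
      | stop hF _ _ => exact hF
      | next hF _ _ _ => exact hF
      | tape hF _ _ => exact hF
      | arr hF _ _ => exact hF
      | ext hF _ _ => exact hF
      | call hF _ _ => exact hF
    have e2 : push1 (O.A j :: tow ((0, f, (2 :: j :: q) :: reqs, acc) : ES)) =
        tow ((0, f, reqs, acc ++ [[O.A j]]) : ES) := push1_tow _ _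
    have h1 : PEx pe [engP kT kA hδ] (rndP kT kA hδ) (tow ((0, f, (2 :: j :: q) :: reqs, acc) : ES))
        i (tow ((0, f, reqs, acc ++ [[O.A j]]) : ES)) i (1 + 1 + 1 + 1 + 1 + 1) (max 0 0) := by
      refine .ite_false (by rw [noR_tow]; rfl) (.ite_false (by rw [isK_tow]; rfl)
        (.ite_true (by rw [isK_tow]; rfl) ?_))
      rw [← e2, ← M.A j hi]
      refine .seq (v' := pe.O kA j :: tow ((0, f, (2 :: j :: q) :: reqs, acc) : ES)) ?_ (.asg ?_)
      · have := PEx.rd (e := pe) (pr := [engP kT kA hδ]) (k := kA) (g := idx) (hg := ptf_idx)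
          (v := tow ((0, f, (2 :: j :: q) :: reqs, acc) : ES)) (i := i) M.hA (by
            rw [idx_tow]; exact lt_of_lt_of_le hi M.L) (by
            rw [idx_tow, M.A j hi]
            exact fits_one M (by norm_num) hF (hAw j hi))
        rwa [idx_tow] at this
      · rw [M.A j hi, e2]
        exact fits_es M (by norm_num) hF'
    refine ⟨_, _, .whl_step (by rw [runF_tow]; rfl) h1 h2, ?_, max_le (by simp) h4⟩
    rw [mul_arith1]
    omega
  | @ext f q reqs acc r n d hF hi hE ih =>
    intro i
    obtain ⟨t, d', h2, h3, h4⟩ := ih i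
    have hF' : O.Fit f reqs (acc ++ [[O.X q]]) := by
      cases hE with
      | stop hF _ _ => exact hF
      | next hF _ _ _ => exact hF
      | tape hF _ _ => exact hF
      | arr hF _ _ => exact hF
      | ext hF _ _ => exact hF
      | call hF _ _ => exact hF
    obtain ⟨hX1, hX2, hX3⟩ := M.X q hi
    have e2 : push1 (O.X q :: tow ((0, f, (3 :: q) :: reqs, acc) : ES)) =
        tow ((0, f, reqs, acc ++ [[O.X q]]) : ES) := push1_tow _ _
    have h1 : PEx pe [engP kT kA hδ] (rndP kT kA hδ) (tow ((0, f, (3 :: q) :: reqs, acc) : ES))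
        i (tow ((0, f, reqs, acc ++ [[O.X q]]) : ES)) i
        (pe.XT q + 1 + 1 + 1 + 1 + 1 + 1 + 1) (max 0 0) := by
      refine .ite_false (by rw [noR_tow]; rfl) (.ite_false (by rw [isK_tow]; rfl)
        (.ite_false (by rw [isK_tow]; rfl) (.ite_true (by rw [isK_tow]; rfl) ?_)))
      rw [← e2, ← hX2]
      refine .seq (t := pe.XT q + 1) (t' := 1)
        (v' := pe.X q :: tow ((0, f, (3 :: q) :: reqs, acc) : ES)) ?_ (.asg ?_)
      · have := PEx.ext (e := pe) (pr := [engP kT kA hδ]) (g := arg) (hg := ptf_arg)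
          (v := tow ((0, f, (3 :: q) :: reqs, acc) : ES)) (i := i) (by rw [arg_tow]; exact hX1)
          (by
            rw [arg_tow]
            refine ⟨?_, fun x hx => ?_⟩
            · have := mem_len2 (l := (3 :: q) :: reqs) (a := 3 :: q) List.mem_cons_self
              have h5 := hF.sz
              have h6 := M.S
              simp only [List.length_cons] at this
              omega
            · exact lt_of_lt_of_le (hF.reqs _ List.mem_cons_self x (List.mem_cons_of_mem _ hx)) M.B)
          (by
            rw [arg_tow, hX2]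
            exact fits_one M (by norm_num) hF (hXw q hi))
        rwa [arg_tow] at this
      · rw [hX2, e2]
        exact fits_es M (by norm_num) hF'
    refine ⟨_, _, .whl_step (by rw [runF_tow]; rfl) h1 h2, ?_, max_le (by simp) h4⟩
    rw [mul_arith1]
    omega
  | @call f q u reqs acc r n d n' d' hF hu hE ihu ih =>
    intro i
    obtain ⟨t, e', h2, h3, h4⟩ := ih i
    obtain ⟨tu, eu, g2, g3, g4⟩ := ihu i
    have hFq : O.Fit q [] [] := by
      cases hu with
      | stop hF _ _ => exact hF
      | next hF _ _ _ => exact hF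
    have hF' : O.Fit f reqs (acc ++ [u]) := by
      cases hE with
      | stop hF _ _ => exact hF
      | next hF _ _ _ => exact hF
      | tape hF _ _ => exact hF
      | arr hF _ _ => exact hF
      | ext hF _ _ => exact hF
      | call hF _ _ => exact hF
    have hSB := M.SB
    have hS := M.S
    have hqS := mem_len2 (l := (5 :: q) :: reqs) (a := 5 :: q) List.mem_cons_self
    have huS := mem_len2 (l := acc ++ [u]) (a := u) (by simp)
    have hs1 := hF.sz
    have hs2 := hF'.sz
    simp only [List.length_cons] at hqS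
    have huB : ∀ x ∈ u, x < pe.B := fun x hx =>
      lt_of_lt_of_le (hF'.acc u (by simp) x hx) M.B
    have hqB : ∀ x ∈ q, x < pe.B := fun x hx => lt_of_lt_of_le (hFq.f x hx) M.B
    have hfu : pe.Fits u := ⟨by omega, huB⟩
    -- the body of the procedure
    have hbody : PEx pe [engP kT kA hδ] (pbody [engP kT kA hδ] 0) q i u i
        (1 + (tu + 1 + 1) + 1) (max 0 (max eu 0)) := by
      show PEx pe [engP kT kA hδ] (engP kT kA hδ) q i u i _ _
      refine .seq (v' := tow ((0, q, [], []) : ES)) (.asg (fits_es M (by norm_num) hFq)) ?_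
      refine .seq g2 ?_
      have := PEx.asg (e := pe) (pr := [engP kT kA hδ]) (f := finF) (hf := ptf_finF)
        (v := tow ((1, u, [], []) : ES)) (i := i) (by rw [finF_tow]; exact hfu)
      rwa [finF_tow] at this
    have e2 : pushL (u.length :: (u ++ tow ((0, f, (5 :: q) :: reqs, acc) : ES))) =
        tow ((0, f, reqs, acc ++ [u]) : ES) := pushL_tow _ _
    have h1 : PEx pe [engP kT kA hδ] (rndP kT kA hδ) (tow ((0, f, (5 :: q) :: reqs, acc) : ES))
        i (tow ((0, f, reqs, acc ++ [u]) : ES)) i
        (1 + (tu + 1 + 1) + 1 + 1 + 1 + 1 + 1 + 1 + 1 + 1) (max (max 0 (max eu 0) + 1) 0) := by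
      refine .ite_false (by rw [noR_tow]; rfl) (.ite_false (by rw [isK_tow]; rfl)
        (.ite_false (by rw [isK_tow]; rfl) (.ite_false (by rw [isK_tow]; rfl) ?_)))
      rw [← e2]
      refine .seq (t := 1 + (tu + 1 + 1) + 1 + 1) (t' := 1)
        (.call (g := arg) (hg := ptf_arg) (u := u) ?_ ?_ ?_) (.asg ?_)
      · rw [arg_tow]
        exact ⟨by omega, hqB⟩
      · rw [arg_tow]
        exact hbody
      · have h5 := fits_es M (m := 0) (by norm_num) hF
        refine ⟨?_, ?_⟩
        · rw [List.length_cons, List.length_append, len_es]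
          omega
        · intro x hx
          rw [List.mem_cons, List.mem_append] at hx
          rcases hx with rfl | hx | hx
          · omega
          · exact huB x hx
          · exact h5.2 x hx
      · rw [e2]
        exact fits_es M (by norm_num) hF'
    refine ⟨_, _, .whl_step (by rw [runF_tow]; rfl) h1 h2, ?_, ?_⟩
    · rw [mul_arith]
      omega
    · simp only [max_le_iff]
      omega

/-- **the engine**: the procedure realises 578's machine -/
theorem eng_PEx (M : Mt pe O kT kA Cx) (hTw : ∀ i, i < O.L → O.T i < pe.B)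
    (hAw : ∀ i, i < O.L → O.A i < pe.B) (hXw : ∀ q, O.DX q → O.X q < pe.B)
    {q r : List ℕ} {n d : ℕ} (h : Ev O δ q [] [] r n d) (hr : pe.Fits r) (i : ℕ) :
    ∃ t d', PEx pe [engP kT kA hδ] (engP kT kA hδ) q i r i t d' ∧ t ≤ (Cx + 20) * n + 5 ∧
      d' ≤ d := by
  obtain ⟨t, d', h1, h2, h3⟩ := loop_PEx hδ M hTw hAw hXw h i
  have hFq : O.Fit q [] [] := by
    cases h with
    | stop hF _ _ => exact hF
    | next hF _ _ _ => exact hF
  have h4 : PEx pe [engP kT kA hδ] (.asg finF ptf_finF) (tow ((1, r, [], []) : ES)) i r i 1 0 := by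
    have := PEx.asg (e := pe) (pr := [engP kT kA hδ]) (f := finF) (hf := ptf_finF)
      (v := tow ((1, r, [], []) : ES)) (i := i) (by rw [finF_tow]; exact hr)
    rwa [finF_tow] at this
  refine ⟨_, _, .seq (v' := tow ((0, q, [], []) : ES)) (.asg (fits_es M (by norm_num) hFq))
    (.seq h1 h4), ?_, ?_⟩
  · omega
  · simp only [max_le_iff]
    omega

end loop

end Crest.Agent.R288.Eng726
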