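import Crest.Agent.R288.Main_901

/-!
# R288, [PROG] (helper901): the fields `env`, `N`, `NM` of `Pgc578.Hyp` for the constant `konO`

`env_konO : Env (wld pe N τ a1 a2 R) (konO (v0 x y ε)) Z` in every machine environment of the input,
for `2 ^ cPad h ≤ Z`, `16 (Z + 2)² ≤ og cS kS rS 3 L ≤ L`.
-/

set_option autoImplicit false

namespace Crest.Agent.R288.EnvK901

open Filter
open Crest.Agent.R295 HL Pt949 Crest.Agent.R295.Rnd627 Crest.Agent.R288.Pl726
open Crest.Agent.R288.Phe940 Crest.Agent.R288.Top791 Crest.Agent.R288.Front327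
open Crest.Agent.R288.Shell12
open Crest.Agent.R288.Pgb578 (Env Wd)
open Crest.Agent.R288.PadK901 Crest.Agent.R288.Main901
open Crest.Agent.R288.Asm12 (hh)
open Crest.Agent.R288.PltT365 (v0 tapeW tapeD RunPL)

variable {x y : List ℕ} {ε : ℚ} {pe : PEnv}

theorem L_lt (hin : PIn x y ε pe) : (inp x y ε).length + 2 < pe.B := by
  refine lt_of_lt_of_le ?_ hin.B
  have h1 := inp_length x y ε
  generalize (inp x y ε).length = L at *
  calc L + 2 < (L + 2) * (L + 2) := by nlinarith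
    _ ≤ (L + 2) * (L + 2) * (L + 2) := Nat.le_mul_of_pos_right _ (by omega)
    _ = (L + 2) ^ 3 := by ring

theorem konO_snd_zero (v : List ℕ) : ∀ a ∈ (konO v).2, a = 0 := by
  intro a ha
  have e : (konO v).2 = List.replicate (2 ^ cPad (ParP901.hE v)) 0 := congrArg Prod.snd (konO_eq v)
  rw [e] at ha
  exact List.eq_of_mem_replicate ha

theorem pad_le_of {Z : ℕ} (h : 2 ^ cPad (hh x y ε) ≤ Z) : (konO (v0 x y ε)).2.length ≤ Z := by
  rw [konO_len]
  exact h

/-- **the constants of a run** -/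
theorem env_konO (hin : PIn x y ε pe) {cS kS rS Z N R a1 a2 : ℕ} {τ : ℕ → ℕ} (h1 : a1 < 50)
    (hS : pe.S = og cS kS rS 3 (inp x y ε).length)
    (hL : og cS kS rS 3 (inp x y ε).length ≤ (inp x y ε).length)
    (hZ : 2 ^ cPad (hh x y ε) ≤ Z)
    (h16 : 16 * (Z + 2) ^ 2 ≤ og cS kS rS 3 (inp x y ε).length) :
    Env (wld pe N τ a1 a2 R) (konO (v0 x y ε)) Z := by
  have hB := L_lt hin
  have hlen := inp_length x y ε
  have h64 : 64 ≤ cPad (hh x y ε) := by
    unfold cPad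
    have := Nat.mul_pos (Par806.W_pos (hh x y ε)) (Par806.Lg_pos (hh x y ε))
    nlinarith
  have h64' : 64 ≤ Z := (h64.trans (Nat.lt_two_pow_self).le).trans hZ
  have hSL : pe.S ≤ (inp x y ε).length := hS ▸ hL
  have hclg : hh x y ε ≤ (inp x y ε).length :=
    Nat.clog_le_of_le_pow (Nat.lt_two_pow_self).le
  refine ⟨?_, ?_, ?_, ?_, by omega, ⟨?_, ?_⟩, ?_, ?_⟩
  · show 16 * (Z + 2) ^ 2 ≤ pe.S
    rw [hS]; exact h16
  · show pe.S < pe.B
    omega
  · show 0 < pe.L
    rw [hin.L]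
    positivity
  · exact hin.word a1 0 h1
  · show 4 ≤ Z
    omega
  · intro a ha
    show a < pe.B
    have e : (konO (v0 x y ε)).1 = [hh x y ε, x.length, y.length, (inp x y ε).length] := rfl
    rw [e] at ha
    simp only [List.mem_cons, List.not_mem_nil, or_false] at ha
    rcases ha with ha | ha | ha | ha <;> omega
  · exact pad_le_of hZ
  · intro a ha
    show a < pe.B
    rw [konO_snd_zero _ a ha]
    omega

/-- fields `N`, `NM` -/
theorem N_pos {τ : ℕ → ℕ} {a1 a2 R : ℕ} : 0 < (wld pe (2 ^ tapeW x y ε) τ a1 a2 R).N :=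
  Nat.two_pow_pos _

theorem N_le (hin : PIn x y ε pe) {τ : ℕ → ℕ} {a1 a2 R : ℕ} :
    (wld pe (2 ^ tapeW x y ε) τ a1 a2 R).N ≤ (wld pe (2 ^ tapeW x y ε) τ a1 a2 R).M := hin.R

end Crest.Agent.R288.EnvK901
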