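import Crest.Agent.R288.ParD_806
import Crest.Agent.R288.ArrX_984
import Crest.Agent.R288.Cnt_308
import Crest.Agent.R288.Cel_734

/-!
# R288, R6 of #5086 (helper806): the numeric side conditions of the lane law for `ParO331.parOf h`

* `jks_len_le` : number of entries read by a jump;
* `ev_eta` : `(#jks + 1) 2^(-sJ) d ≤ 2^(-C W Lg)` for all constants `C`, `d`;
* `ev_JPar` : `ArrX984.JPar (parOf h) b w d η (sJ h)`;
* `LaneN`, `ev_LaneN` : all other lines.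
-/

set_option autoImplicit false
set_option maxHeartbeats 400000

open Filter

namespace Crest.Agent.R288.LanePar806

open Crest.Agent.R288 Crest.Agent.R288.Alg45 Crest.Agent.R288.Par806 Crest.Agent.R288.ParO331
  Crest.Agent.R288.Asy720 Crest.Agent.R288.ArrB147 Crest.Agent.R288.Cnt308

theorem length_flatMap_le {α β : Type} (l : List α) (f : α → List β) (c : ℕ)
    (h : ∀ a ∈ l, (f a).length ≤ c) : (l.flatMap f).length ≤ l.length * c := by
  induction l with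
  | nil => simp
  | cons a l ih =>
    rw [List.flatMap_cons, List.length_append, List.length_cons, Nat.succ_mul, Nat.add_comm]
    exact Nat.add_le_add (ih fun b hb => h b (List.mem_cons_of_mem _ hb)) (h a List.mem_cons_self)

/-- number of entries read by a jump -/
theorem jks_len_le (P : Par) (c : Cel) : (jks P c).length ≤ nJ P * (18 * 4 ^ P.pb) := by
  unfold jks
  refine (length_flatMap_le _ _ (18 * 4 ^ P.pb) fun p _ => ?_).trans ?_
  · rw [List.length_map, List.length_range]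
    exact Cel734.csz_le P _
  · rw [List.length_range]
    exact Nat.mul_le_mul_right _ (acells_len P _ _)

/-- `nJ (parOf h)` is polylogarithmic -/
theorem ev_nJ : ∀ᶠ h : ℕ in atTop, nJ (parOf h) ≤ 2 ^ (15 * Mg h) := by
  filter_upwards [ev_le_Mg 1 5, ev_le_W 2] with h h1 h2
  have hM : 32 ≤ Mg h := by
    calc 32 = 1 * 2 ^ 5 := by norm_num
      _ ≤ 1 * W h ^ 5 := Nat.mul_le_mul_left _ (Nat.pow_le_pow_left h2 _)
      _ ≤ Mg h := h1
  have e1 : (parOf h).a1 = 13 * Mg h := by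
    show a1 h = 13 * Mg h
    unfold a1 bb
    ring
  have e2 : (parOf h).a2 = 8 := rfl
  have e3 : (parOf h).r = 40 := rfl
  unfold nJ
  rw [e1, e2, e3]
  have h3 : 13 * Mg h + 8 + 1 ≤ 2 ^ (Mg h + 4) := by
    have := Nat.lt_two_pow_self (n := Mg h)
    rw [pow_add]
    omega
  have h4 : (2 * 40 + 1) * 2 ^ (13 * Mg h) + 2 ≤ 2 ^ (13 * Mg h + 7) := by
    have : 1 ≤ 2 ^ (13 * Mg h) := Nat.one_le_two_pow
    rw [pow_add]
    omega
  calc (13 * Mg h + 8 + 1) * ((2 * 40 + 1) * 2 ^ (13 * Mg h) + 2)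
      ≤ 2 ^ (Mg h + 4) * 2 ^ (13 * Mg h + 7) := Nat.mul_le_mul h3 h4
    _ = 2 ^ (14 * Mg h + 11) := by rw [← pow_add]; congr 1; ring
    _ ≤ 2 ^ (15 * Mg h) := Nat.pow_le_pow_right (by norm_num) (by omega)

/-- number of entries: `2 ^ (33 W Lg)` -/
theorem ev_jks : ∀ᶠ h : ℕ in atTop, ∀ c : Cel, (jks (parOf h) c).length + 1 ≤ 2 ^ (33 * (W h * Lg h)) := by
  filter_upwards [ev_nJ, ev_exp_le_Lg 6 0 15] with h h1 h2 c
  have h3 := jks_len_le (parOf h) c
  have e1 : (4 : ℕ) ^ (parOf h).pb = 2 ^ (32 * (W h * Lg h)) := by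
    show (4 : ℕ) ^ pb h = _
    rw [show (4 : ℕ) = 2 ^ 2 by norm_num, ← pow_mul]
    congr 1
    unfold pb
    ring
  have h4 : (jks (parOf h) c).length ≤ 2 ^ (15 * Mg h) * (18 * 2 ^ (32 * (W h * Lg h))) := by
    refine h3.trans ?_
    rw [e1]
    exact Nat.mul_le_mul_right _ h1
  have h5 : 15 * Mg h + 6 ≤ W h * Lg h := by
    have : Lg h ≤ W h * Lg h := Nat.le_mul_of_pos_left _ (W_pos h)
    omega
  have h6 : ∀ A B : ℕ, 1 ≤ A → 1 ≤ B → A * (18 * B) + 1 ≤ 64 * (A * B) := by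
    intro A B hA hB
    have a1 : 1 ≤ A * B := Nat.mul_pos hA hB
    have a2 : A * (18 * B) = 18 * (A * B) := by ring
    omega
  have h7 : 64 * (2 ^ (15 * Mg h) * 2 ^ (32 * (W h * Lg h))) = 2 ^ (6 + (15 * Mg h + 32 * (W h * Lg h))) := by
    rw [pow_add 2 6, pow_add 2 (15 * Mg h)]
    norm_num
  calc (jks (parOf h) c).length + 1
      ≤ 2 ^ (15 * Mg h) * (18 * 2 ^ (32 * (W h * Lg h))) + 1 := Nat.add_le_add_right h4 1
    _ ≤ 64 * (2 ^ (15 * Mg h) * 2 ^ (32 * (W h * Lg h))) := h6 _ _ Nat.one_le_two_pow Nat.one_le_two_pow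
    _ = 2 ^ (6 + (15 * Mg h + 32 * (W h * Lg h))) := h7
    _ ≤ 2 ^ (33 * (W h * Lg h)) := Nat.pow_le_pow_right (by norm_num) (by omega)

theorem two_half (m k : ℕ) : (2 : ℝ) ^ m * (1 / 2) ^ (m + k) = (1 / 2) ^ k := by
  rw [pow_add, ← mul_assoc, ← mul_pow, mul_one_div_cancel (by norm_num : (2 : ℝ) ≠ 0), one_pow, one_mul]

/-- the failure probability of a jump, with real constants -/
theorem ev_eta (C : ℕ) (d : ℝ) : ∀ᶠ h : ℕ in atTop, ∀ c : Cel,
    (((jks (parOf h) c).length : ℝ) + 1) * (1 / 2) ^ sJ h * d ≤ (1 / 2) ^ (C * (W h * Lg h)) := by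
  obtain ⟨n, hn⟩ := pow_unbounded_of_one_lt |d| (by norm_num : (1 : ℝ) < 2)
  filter_upwards [ev_jks, ev_le_W (C + 34), ev_const_Lg n] with h h1 h2 h3 c
  have h4 : (((jks (parOf h) c).length : ℝ) + 1) ≤ 2 ^ (33 * (W h * Lg h)) := by
    exact_mod_cast h1 c
  have h5 : d ≤ 2 ^ n := (le_abs_self d).trans hn.le
  have h6 : (33 * (W h * Lg h) + n) + C * (W h * Lg h) ≤ sJ h := by
    have e : sJ h = W h * (W h * Lg h) := by unfold sJ; ring
    rw [e]
    have a1 : (C + 34) * (W h * Lg h) ≤ W h * (W h * Lg h) := Nat.mul_le_mul_right _ h2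
    have a2 : Lg h ≤ W h * Lg h := Nat.le_mul_of_pos_left _ (W_pos h)
    have e2 : (C + 34) * (W h * Lg h) = C * (W h * Lg h) + 34 * (W h * Lg h) := by ring
    omega
  have h7 : (0 : ℝ) ≤ (1 / 2) ^ sJ h := by positivity
  calc (((jks (parOf h) c).length : ℝ) + 1) * (1 / 2) ^ sJ h * d
      ≤ 2 ^ (33 * (W h * Lg h)) * (1 / 2) ^ sJ h * 2 ^ n := by
        have a1 : (0 : ℝ) ≤ (((jks (parOf h) c).length : ℝ) + 1) * (1 / 2) ^ sJ h := by positivity
        calc (((jks (parOf h) c).length : ℝ) + 1) * (1 / 2) ^ sJ h * d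
            ≤ (((jks (parOf h) c).length : ℝ) + 1) * (1 / 2) ^ sJ h * 2 ^ n :=
              mul_le_mul_of_nonneg_left h5 a1
          _ ≤ _ := by gcongr
    _ = 2 ^ (33 * (W h * Lg h) + n) * (1 / 2) ^ sJ h := by rw [pow_add]; ring
    _ ≤ 2 ^ (33 * (W h * Lg h) + n) * (1 / 2) ^ ((33 * (W h * Lg h) + n) + C * (W h * Lg h)) := by
        refine mul_le_mul_of_nonneg_left ?_ (by positivity)
        exact pow_le_pow_of_le_one (by norm_num) (by norm_num) h6
    _ = (1 / 2) ^ (C * (W h * Lg h)) := two_half _ _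

/-- `C ≤ 2 ^ c0`, real constants -/
theorem ev_c0 (C : ℝ) : ∀ᶠ h : ℕ in atTop, C ≤ 2 ^ (parOf h).c0 := by
  obtain ⟨n, hn⟩ := pow_unbounded_of_one_lt C (by norm_num : (1 : ℝ) < 2)
  filter_upwards [ev_le_W n] with h h1
  refine hn.le.trans ?_
  show (2 : ℝ) ^ n ≤ 2 ^ c0 h
  refine pow_le_pow_right₀ (by norm_num) ?_
  exact h1.trans (W_le_Mg h)

/-- `C * 4 ^ bb ≤ mJ`, real constants -/
theorem ev_mJ (C : ℝ) : ∀ᶠ h : ℕ in atTop,
    C * 4 ^ ((parOf h).a2 + (parOf h).bb + 2) ≤ (parOf h).mJ := by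
  obtain ⟨n, hn⟩ := pow_unbounded_of_one_lt (C * 4 ^ 10) (by norm_num : (1 : ℝ) < 2)
  filter_upwards [ev_le_W n] with h h1
  have e1 : ((parOf h).mJ : ℝ) = 4 ^ (bb h + Mg h) := by
    show ((mJ h : ℕ) : ℝ) = _
    unfold mJ
    push_cast
    rfl
  have e2 : (parOf h).a2 + (parOf h).bb + 2 = 10 + bb h := by
    show 8 + bb h + 2 = 10 + bb h
    ring
  rw [e1, e2, pow_add, ← mul_assoc, pow_add, mul_comm ((4 : ℝ) ^ bb h)]
  refine mul_le_mul_of_nonneg_right ?_ (by positivity)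
  refine hn.le.trans ?_
  calc (2 : ℝ) ^ n ≤ 2 ^ Mg h := pow_le_pow_right₀ (by norm_num) (h1.trans (W_le_Mg h))
    _ ≤ 4 ^ Mg h := pow_le_pow_left₀ (by norm_num) (by norm_num) _

/-- `C * 4 ^ nb ≤ mX`, real constants -/
theorem ev_mX (C : ℝ) : ∀ᶠ h : ℕ in atTop, C * 4 ^ (parOf h).nb ≤ (parOf h).mX := by
  obtain ⟨n, hn⟩ := pow_unbounded_of_one_lt C (by norm_num : (1 : ℝ) < 2)
  filter_upwards [ev_le_W n] with h h1
  have e1 : ((parOf h).mX : ℝ) = 2 ^ (W h * Lg h) * 4 ^ nb h := by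
    show ((mX h : ℕ) : ℝ) = _
    unfold mX
    push_cast
    rw [pow_add, pow_mul, mul_comm]
    norm_num
  rw [e1]
  refine mul_le_mul_of_nonneg_right ?_ (by positivity)
  refine hn.le.trans (pow_le_pow_right₀ (by norm_num) ?_)
  exact h1.trans (Nat.le_mul_of_pos_right _ (Lg_pos h))

/-- **`JPar` for the table**: any real constants, `η = 2^(-C W Lg)` -/
theorem ev_JPar (C : ℕ) {b w d : ℝ} (hb : 0 ≤ b) (hw : 0 ≤ w) (h1 : 8 + b * 2 ^ 8 ≤ d) (h2 : 32 ≤ d) :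
    ∀ᶠ h : ℕ in atTop,
      ArrX984.JPar (parOf h) b w d ((1 / 2) ^ (C * (W h * Lg h))) (sJ h) := by
  filter_upwards [ev_eta C d, ev_mJ (3 * w)] with h g1 g2
  refine ⟨by show 8 ≤ 40; norm_num, ?_, ?_, hb, hw, h1, h2, g2, g1, by positivity⟩
  · show 12 * sJ h + 1 = 2 * (6 * sJ h) + 1
    ring
  · show 0 < mJ h
    unfold mJ
    positivity

/-- the other lines -/
structure LaneN (h : ℕ) : Prop where
  g : 0 < (parOf h).g
  γ : 0 < (parOf h).γ
  um : 0 < (parOf h).um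
  pm : 0 < (parOf h).pm
  K : 0 < (parOf h).K
  E : 0 < (parOf h).E
  n : 0 < (parOf h).n
  r : 20 ≤ (parOf h).r
  δi : 4 < (parOf h).δi
  Creg : (parOf h).Creg = 8
  a2 : (parOf h).a2 = 8
  du : (parOf h).du = 8
  mJ : 0 < (parOf h).mJ
  mX : 0 < (parOf h).mX
  gJ : (parOf h).gJ = 12 * sJ h + 1
  gX : (parOf h).gX = 12 * sX h + 1
  pb : 10 ≤ (parOf h).pb
  /-- `Λ = 2 ^ lam` -/
  Λ_N : 8 * (parOf h).N ≤ 2 ^ lam h
  Λ_bb : 2 ^ ((parOf h).bb + (parOf h).a2 + 8) ≤ 2 ^ lam h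
  c0 : 32 * 4 ^ (parOf h).a2 * (parOf h).Creg ≤ 2 ^ (parOf h).c0
  a1 : (parOf h).bb + 8 ≤ (parOf h).a1
  /-- all steps divide `Dm` -/
  grd : K0O h ≤ (parOf h).pb + (HH h + 1)
  K0 : K0P h = K0O h

theorem ev_LaneN : ∀ᶠ h : ℕ in atTop, LaneN h := by
  filter_upwards [ev_ParN, ev_ParOK 40, ev_c0 ((32 * 4 ^ 8 * 8 : ℕ) : ℝ)] with h hN hO hc
  have hW := W_pos h
  have hL := Lg_pos h
  have hM := Mg_pos h
  have e1 : pb h = 16 * (W h * Lg h) := by unfold Par806.pb; ring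
  have hWL : 0 < W h * Lg h := Nat.mul_pos hW hL
  have hn : nn h = (parOf h).n := rfl
  refine
    { g := ?_, γ := ?_, um := ?_, pm := Nat.succ_pos _, K := hO.KK_pos, E := ?_, n := ?_
      r := by show 20 ≤ 40; norm_num
      δi := ?_, Creg := rfl, a2 := rfl, du := rfl, mJ := ?_, mX := ?_, gJ := rfl, gX := rfl
      pb := ?_, Λ_N := ?_, Λ_bb := ?_, c0 := ?_, a1 := ?_, grd := ?_, K0 := rfl }
  · show 0 < gg h
    unfold gg
    positivity
  · show 0 < gam h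
    unfold gam
    positivity
  · show 0 < um h
    unfold Par806.um gg Par806.Creg
    positivity
  · show 0 < EE h
    unfold EE
    positivity
  · show 0 < nn h
    unfold nn
    positivity
  · show 4 < Par806.δi h
    have := hN.δi_ge
    omega
  · show 0 < Par806.mJ h
    unfold Par806.mJ
    positivity
  · show 0 < Par806.mX h
    unfold Par806.mX
    positivity
  · show 10 ≤ Par806.pb h
    omega
  · show 8 * 2 ^ nn h ≤ 2 ^ lam h
    have h3 := hO.lam_ge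
    calc 8 * 2 ^ nn h = 2 ^ (nn h + 3) := by rw [pow_add]; ring
      _ ≤ 2 ^ lam h := Nat.pow_le_pow_right (by norm_num) (by omega)
  · refine Nat.pow_le_pow_right (by norm_num) ?_
    show bb h + 8 + 8 ≤ lam h
    have h3 := hO.lam_ge
    omega
  · show 32 * 4 ^ 8 * 8 ≤ 2 ^ (parOf h).c0
    exact_mod_cast hc
  · show bb h + 8 ≤ Par806.a1 h
    have h3 := hO.a1_ge
    omega
  · exact hN.K0_grd

end Crest.Agent.R288.LanePar806
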