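import Crest.Agent.R288.AsmC_331
import Crest.Agent.R288.GoodI_829
import Crest.Agent.R288.DrI_308
import Crest.Agent.R288.LawU_944
import Crest.Agent.R288.DomB_20

/-!
# R288, [PROB] (helper829): the block `ProbBlock` of a configuration

* `GX C Λ X`: `Good829.GoodX` (line (A3)) of the configuration `C` up to the index `Λ`;
  `good_GX : C.Good X → GX C (E K + 1) X`; `GX.mono`.
* **`prob_cfg`**: `C.ProbBlock` from draws (308), INIT failure (772), the second moment of the lanes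
  (944) for histories which are good below, and the numerical sum.
-/

set_option autoImplicit false

namespace Crest.Agent.R288.ProbB829

open Finset Crest.GraphRAM Crest.Agent.R295.Rnd627 Crest.Agent.R288.Bridge331
open Crest.Agent.R295.Prob791 Crest.Agent.R288.Tape829 Crest.Agent.R288.Good829
open Crest.Agent.R288.Alg45 Crest.Agent.R288.Dom20 Crest.Agent.R288.Asm331
open Crest.Agent.R288.AdmR944 Crest.Agent.R288.LawS944 Crest.Agent.R288.LawU944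
open Crest.Agent.R288.XB715

theorem sysU_eq (P : Par) (leaf : St → Option ℕ) (U : St → RT ℕ) :
    sysU P leaf U = sysA P leaf U := rfl

/-- good numbers (A3) of all indices `< Λ` -/
def GX (C : Cfg) (Λ : ℕ) (X : ℕ → ℕ × St → ℕ) : Prop :=
  GoodX C.P C.leaf (2 ^ C.W) Λ C.Om (fun s b => C.GU s.2 b) X

variable {C : Cfg} {X : ℕ → ℕ × St → ℕ} {Λ : ℕ}

theorem mem_Om {l : ℕ} {p : ℕ × St} : p ∈ C.Om l ↔ p.1 ≤ C.K0 ∧ Dom C.P C.I p.2 :=
  mem_OmP (N_pos C.P)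

theorem GX.mono (h : GX C Λ X) {Λ' : ℕ} (hΛ : Λ' ≤ Λ) : GX C Λ' X := GoodX.mono h hΛ

theorem GX.of_allGood (h : AllGood (Λ + 1) C.Om
    ((sysU C.P C.leaf C.U).Gd (2 ^ C.W) (fun s b => C.GU s.2 b) C.dev 0) X) : GX C (Λ + 1) X :=
  goodX_of_allGood (U := C.U) h

theorem good_GX (h : C.Good X) : GX C (C.P.E * C.P.K + 1) X := GX.of_allGood h

/-- the classes of the states of the domain leave room for the menus -/
def ClsOK (C : Cfg) (F : St → ℕ) : Prop := ∀ y, Dom C.P C.I y → cls F y + C.P.a2 ≤ C.K0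

/-- **[PROB] of a configuration.** -/
theorem prob_cfg (C : Cfg) {v : ℝ}
    (hgX : C.P.gX = 12 * C.s + 1) (hmX : 0 < C.P.mX) (hK : 0 < C.P.K)
    (ho : ∀ l < C.P.E * C.P.K + 1, C.o l ≤ C.o (l + 1))
    (hS : ∀ l < C.P.E * C.P.K + 1, ∀ X, ∀ x ∈ C.Om l,
      ((sysU C.P C.leaf C.U).tRT l (lo l X) x).cnt.All (2 ^ C.W)
        fun y => C.o l + y.2 ≤ C.o (l + 1))
    (hδ₀ : 0 ≤ C.δ₀)
    (hU : ∀ y, Dom C.P C.I y → (C.U y).Pr (2 ^ C.W) (fun b => ¬ C.GU y b) ≤ C.δ₀)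
    (hv : 3 * v * 4 ^ C.P.nb ≤ C.P.mX)
    (hV : ∀ e < C.P.E, ∀ k < C.P.K, ∀ X, GX C (idx C.P e k) X → ∀ κ z, Dom C.P C.I z →
      adm C.P (FE C.P X e) κ z = true →
      ((lanePair C.P C.leaf (FE C.P X e) (Xe C.P X e) k κ z).Ev (2 ^ C.W)
        fun a : ℕ => (a : ℝ) ^ 2) ≤ v * 4 ^ κ)
    (hsum : ((OmP C.P.N C.I C.P.Dm C.K0).card : ℝ) * C.δ₀ +
      (C.P.E * C.P.K : ℕ) * ((OmP C.P.N C.I C.P.Dm C.K0).card * (1 / 2 : ℝ) ^ C.s) ≤ 1 / 3) :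
    C.ProbBlock := by
  have hq := q_floor hmX
  refine ofSys_prob (A := sysU C.P C.leaf C.U) (eL := 1) (Nat.two_pow_pos _) hgX hmX hq.1 hq.2
    (fun x => by unfold Cfg.dev; positivity) (fun x => ?_) ho hS hδ₀ (fun x hx => ?_)
    (fun l hl X hX x hx ha => ?_) ?_
  · have := (cdiv_bounds (2 ^ x.1) (Nat.two_pow_pos C.P.nb)).1
    show (2 : ℝ) ^ x.1 / 2 ^ C.P.nb + 1 ≤ ((cdiv (2 ^ x.1) (2 ^ C.P.nb) + 1 : ℕ) : ℝ)
    push_cast at this ⊢
    linarith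
  · exact hU x.2 (mem_Om.1 hx).2
  · obtain ⟨κ, z⟩ := x
    have hkK : l % C.P.K < C.P.K := Nat.mod_lt _ hK
    have hi := idx_surj (P := C.P) l
    have he : l / C.P.K < C.P.E := Nat.div_lt_of_lt_mul (by rwa [Nat.mul_comm] at hl)
    have hX' : GX C (idx C.P (l / C.P.K) (l % C.P.K)) X := by
      rw [hi]; exact GX.of_allGood hX
    rw [← hi] at ha ⊢
    rw [sysU_eq, adm_lo hkK] at ha
    have h1 := hV _ he _ hkK X hX' κ z (mem_Om.1 hx).2 ha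
    have e1 : (sysU C.P C.leaf C.U).lane (idx C.P (l / C.P.K) (l % C.P.K))
        (lo (idx C.P (l / C.P.K) (l % C.P.K)) X) (κ, z) =
        lanePair C.P C.leaf (FE C.P X (l / C.P.K)) (Xe C.P X (l / C.P.K)) (l % C.P.K) κ z := by
      show lanePair C.P C.leaf (FE C.P (lo (idx C.P (l / C.P.K) (l % C.P.K)) X)
          (epo C.P (idx C.P (l / C.P.K) (l % C.P.K))))
        (Xe C.P (lo (idx C.P (l / C.P.K) (l % C.P.K)) X)
          (epo C.P (idx C.P (l / C.P.K) (l % C.P.K))))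
        (rnk C.P (idx C.P (l / C.P.K) (l % C.P.K))) κ z = _
      rw [epo_idx hkK, rnk_idx hkK, Good829.FE_lo C.P (by unfold idx; omega)]
      exact lanePair_congr C.P (fun i hi' => Xe_lo hi') κ z
    rw [e1]
    have h4 : ((2 : ℝ) ^ κ / 2 ^ C.P.nb) ^ 2 * 4 ^ C.P.nb = 4 ^ κ := by
      rw [div_pow, ← pow_mul, ← pow_mul, show (4 : ℝ) = 2 ^ 2 by norm_num, ← pow_mul, ← pow_mul,
        Nat.mul_comm 2 κ, Nat.mul_comm 2 C.P.nb]
      field_simp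
    have h5 : (0 : ℝ) ≤ ((2 : ℝ) ^ κ / 2 ^ C.P.nb) ^ 2 := by positivity
    show 3 * _ ≤ ((C.P.mX : ℕ) : ℝ) * ((2 : ℝ) ^ κ / 2 ^ C.P.nb) ^ 2
    have h6 : 3 * (v * 4 ^ κ) ≤ (C.P.mX : ℝ) * ((2 : ℝ) ^ κ / 2 ^ C.P.nb) ^ 2 := by
      have := mul_le_mul_of_nonneg_right hv h5
      calc 3 * (v * 4 ^ κ) = 3 * v * 4 ^ C.P.nb * ((2 : ℝ) ^ κ / 2 ^ C.P.nb) ^ 2 := by
            rw [← h4]; ring
        _ ≤ _ := this
    linarith
  · show ((OmP C.P.N C.I C.P.Dm C.K0).card : ℝ) * C.δ₀ + ∑ l ∈ range (C.P.E * C.P.K),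
      ((OmP C.P.N C.I C.P.Dm C.K0).card : ℝ) * (1 / 2 : ℝ) ^ C.s ≤ 1 / 3
    rw [sum_const, card_range, nsmul_eq_mul]
    exact hsum

end Crest.Agent.R288.ProbB829
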