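import Crest.Agent.R288.AnaLip_364
import Crest.Agent.R288.AdmR_944
import Crest.Agent.R288.LeafO_690
import Crest.Agent.R288.ProbB_829

/-!
# R288, RT (helper829): `FOk` of the unit functions of a good history

For `C : Asm331.Cfg` with the INIT of 772 (`AnaLip364.LipOk`), the leaf values of 690 and soundness of
the unit functions (`gst ≤ FE`, 548): `fok_of_good : FOk C.leaf (FE C.P X e) (Dom C.P C.I) Λ` for all
`e ≤ E`, and `clsOK_of_good`.
-/

set_option autoImplicit false

namespace Crest.Agent.R288.FOkG829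

open Crest.Agent.R288.Alg45 Crest.Agent.R288.Dom20 Crest.Agent.R288.Asm331
open Crest.Agent.R288.AdmR944 Crest.Agent.R288.AnaLip364 Crest.Agent.R288.GSt442
open Crest.Agent.R288.ProbB829

variable {C : Cfg} {X : ℕ → ℕ × St → ℕ} {x y : List ℕ} {g p L Λ e : ℕ} {ζ : ℝ}

/-- what `FOk` needs of a unit function `F`, leaf values of 690 -/
theorem fok_of {leaf : St → Option ℕ} {F : St → ℕ} {Dm : St → Prop} {n : ℕ}
    (hleaf : ∀ s, Dm s → leaf s = LeafO690.leafO x y n Λ s)
    (hS : ∀ s, Dm s → gst x y n s ≤ F s)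
    (hζ : ζ ≤ 1 / 7)
    (hlip : ∀ s s', Dm s → Dm s' → s'.i = s.i → s'.j = s.j →
      (F s : ℝ) ≤ (1 + ζ) * (F s' + (Alg45.dist s s' : ℕ))) :
    FOk leaf F Dm Λ where
  leaf_le s hs c hc := by
    rw [hleaf s hs] at hc
    have h1 := (LeafO690.leafO_le hc).2
    have h2 := hS s hs
    omega
  act s hs hc := by
    rw [hleaf s hs, LeafO690.leafO_eq_none_iff] at hc
    have h2 := hS s hs
    omega
  coer s hs := ((exact_gst x y n (le_max_left _ _) (le_max_right _ _)).ge s).trans (hS s hs)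
  lip s s' hs hs' hi hj := by
    have h1 := hlip s s' hs hs' hi hj
    have h2 : (0 : ℝ) ≤ (F s' : ℝ) + (Alg45.dist s s' : ℕ) := by positivity
    have h3 : (7 : ℝ) * F s ≤ 8 * (F s' + (Alg45.dist s s' : ℕ)) := by nlinarith
    have h4 : 7 * F s ≤ 8 * (F s' + Alg45.dist s s') := by exact_mod_cast h3
    omega

/-- **a good history has admissible unit functions** -/
theorem fok_of_good (h : C.Good X) (hO : LipOk C x y g p L ζ) (hζ : ζ ≤ 1 / 7)
    (hleaf : ∀ s, Dom C.P C.I s → C.leaf s = LeafO690.leafO x y C.P.n Λ s)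
    (he : e ≤ C.P.E) (hS : ∀ s, Dom C.P C.I s → gst x y C.P.n s ≤ FE C.P X e s) :
    FOk C.leaf (FE C.P X e) (Dom C.P C.I) Λ :=
  fok_of hleaf hS hζ fun _ _ hs hs' hi hj => lip' h hO he hs hs' hi.symm hj.symm

theorem clsOK_of_good (h : C.Good X) (hO : LipOk C x y g p L ζ) (e : ℕ) :
    ClsOK C (FE C.P X e) := fun _ hs => cls_le h hO e hs

end Crest.Agent.R288.FOkG829
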