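/-
# Row 288, RT.LANE2 / R3 (helper944) on ALG v2.2: the lane law, complete

* `bL`, `dL`, `vL`, `wL` : the constants; for `Creg`, `a2` fixed they are absolute constants.
* **`LaneNum P W Λ s top`** : all numeric side conditions.
* **`lane_sq`** : `E lanePair ≤ 7 · 2^κ`, `E lanePair² ≤ vL · 4^κ`; **`body_sq`** : body entries;
* **`arrOk`** : `ArrOk` (low, stay, retire, pair) at every macro height `i + 1`, with the error
  `η 2^κ` resp. `0` at tiny classes.
-/
import Crest.Agent.R288.LawX_944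
import Crest.Agent.R288.Cnt_308

set_option autoImplicit false

namespace Crest.Agent.R288.LaneLaw944

open Crest.Agent.R288.Alg45 Crest.Agent.R288.XB715 Crest.Agent.R288.AdmR944
  Crest.Agent.R288.LawS944 Crest.Agent.R288.LawU944 Crest.Agent.R288.LawV944
  Crest.Agent.R288.LawX944 Crest.Agent.R288.Dom20 Crest.Agent.R288.ArrB147
  Crest.Agent.R288.ArrG147 Crest.Agent.R288.ArrV984 Crest.Agent.R288.ArrW984
  Crest.Agent.R295.Rnd627 Crest.Agent.R295.Rnd627.RT

/-- mean of a body entry in units `2^κ` -/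
def bL (P : Par) : ℕ := 16 * (9 * P.Creg + 2)
/-- price of an option in units `2^κ` -/
def dL (P : Par) : ℕ := 32 + bL P * 2 ^ P.a2
/-- second moment of a lane in units `4^κ` -/
def vL (P : Par) : ℕ := 2 * (dL P ^ 2 + 4 ^ P.a2 * bL P ^ 2)
/-- second moment of a body entry in units `4^κ` -/
def wL (P : Par) : ℕ := bL P ^ 2 + vL P

/-- number of entries of one joint draw -/
def eL (P : Par) : ℕ := Cnt308.nJ P * (18 * 4 ^ P.pb)

/-- all numeric side conditions of the lane law; `top` = largest class of the domain -/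
structure LaneNum (P : Par) (W Λ s top : ℕ) : Prop where
  W0 : 0 < W
  dl : 2 ^ P.dl ∣ W
  g : 0 < P.g
  um : 0 < P.um
  pm : 0 < P.pm
  r : 1 ≤ P.r
  Creg : 1 ≤ P.Creg
  pb : 10 ≤ P.pb
  N : 8 * P.N ≤ Λ
  tiny : 4 * 2 ^ (P.bb + 1 + P.a2) ≤ Λ
  c0 : 2 * 4 ^ P.a2 * (16 * P.Creg) ≤ 2 ^ P.c0
  gJ : P.gJ = 2 * (6 * s) + 1
  mJ : 3 * wL P * 4 ^ (P.a2 + P.bb + 2) ≤ P.mJ
  ent : (eL P + 1) * dL P ≤ 2 ^ s
  grid : GrdOK P (top + 1 + P.a2)

variable {P : Par} {W Λ s top : ℕ} {leaf : St → Option ℕ} {F : St → ℕ} {X : ℕ → ℕ → St → ℕ}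
  {k I : ℕ}

theorem csz_le (P : Par) (κ : ℕ) : csz P κ ≤ 18 * 4 ^ P.pb := by
  have h1 : gpt P κ ≤ 2 ^ P.pb := Nat.pow_le_pow_right (by norm_num) (min_le_right _ _)
  have h2 : 1 ≤ gpt P κ := Nat.one_le_two_pow
  have h3 : (4 : ℕ) ^ P.pb = 2 ^ P.pb * 2 ^ P.pb := by
    rw [show (4 : ℕ) = 2 * 2 by norm_num, mul_pow]
  unfold csz cu cv
  rw [h3]
  calc gpt P κ * (17 * gpt P κ + 1) ≤ gpt P κ * (18 * gpt P κ) :=
        Nat.mul_le_mul_left _ (by omega)
    _ = 18 * (gpt P κ * gpt P κ) := by ring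
    _ ≤ 18 * (2 ^ P.pb * 2 ^ P.pb) := by gcongr

theorem length_flatMap_le {α β : Type} (l : List α) (f : α → List β) (C : ℕ)
    (h : ∀ a ∈ l, (f a).length ≤ C) : (l.flatMap f).length ≤ l.length * C := by
  induction l with
  | nil => simp
  | cons a l ih =>
    rw [List.flatMap_cons, List.length_append, List.length_cons]
    have h1 := h a (by simp)
    have h2 := ih fun b hb => h b (by simp [hb])
    calc (f a).length + (l.flatMap f).length ≤ C + l.length * C := Nat.add_le_add h1 h2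
      _ = (l.length + 1) * C := by ring

theorem jks_length (P : Par) (c : Cel) : (jks P c).length ≤ eL P := by
  unfold jks
  refine (length_flatMap_le _ _ (18 * 4 ^ P.pb) fun p _ => ?_).trans ?_
  · rw [List.length_map, List.length_range]
    exact csz_le P _
  · rw [List.length_range]
    exact Nat.mul_le_mul_right _ (Cnt308.acells_len P c.κ c.m)

namespace LaneNum

variable (h : LaneNum P W Λ s top)
include h

theorem ent' (c : Cel) :
    ((jks P c).length + 1 : ℝ) * (1 / 2) ^ s * (32 + (bL P : ℝ) * 2 ^ P.a2) ≤ 1 := by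
  have h1 : ((jks P c).length + 1) * dL P ≤ 2 ^ s :=
    (Nat.mul_le_mul_right _ (Nat.succ_le_succ (jks_length P c))).trans h.ent
  have h2 : (((jks P c).length + 1 : ℝ)) * dL P ≤ 2 ^ s := by exact_mod_cast h1
  have h3 : (dL P : ℝ) = 32 + (bL P : ℝ) * 2 ^ P.a2 := by unfold dL; push_cast; ring
  rw [← h3, one_div, inv_pow, mul_right_comm, ← div_eq_mul_inv, div_le_one (by positivity)]
  exact h2

theorem mJ_pos : 0 < P.mJ := by
  have h2 := h.mJ
  have h3 : 0 < wL P := by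
    unfold wL bL
    have := h.Creg
    positivity
  have : 0 < 3 * wL P * 4 ^ (P.a2 + P.bb + 2) := by positivity
  omega

theorem c0' : 2 * 4 ^ P.a2 * (16 * (P.Creg : ℝ)) ≤ 2 ^ P.c0 := by exact_mod_cast h.c0

theorem wC_le : wC P.a2 P.c0 (bL P) (dL P) (16 * P.Creg) ≤ wL P := by
  have h1 : (1 : ℝ) ≤ 4 ^ P.a2 := one_le_pow₀ (by norm_num)
  have h2 := h.c0'
  have h3 : (16 * (P.Creg : ℝ)) ≤ 2 ^ P.c0 := by
    have h4 : (0 : ℝ) ≤ 16 * P.Creg := by positivity
    nlinarith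
  have h4 : vC P.a2 (bL P) (dL P) = (vL P : ℝ) := by unfold vC vL; push_cast; ring
  unfold wC wL
  push_cast
  rw [h4]
  have h5 : 16 * (P.Creg : ℝ) * vL P / 2 ^ P.c0 ≤ vL P := by
    rw [div_le_iff₀ (by positivity)]
    have : (0 : ℝ) ≤ vL P := Nat.cast_nonneg _
    nlinarith
  linarith

theorem arr_grid {κ : ℕ} {y : St} (htop : ∀ y, Dom P I y → cls F y ≤ top) (hy : Dom P I y)
    (ha : adm P F κ y = true) : ∀ κ' ≤ κ + P.a2, (gst P κ' : ℤ) ∣ (P.Dm : ℤ) := by
  intro κ' hκ'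
  have h1 := (AdmR944.adm_iff.1 ha).2.2.1
  have h2 := htop y hy
  exact_mod_cast h.grid κ' (by omega)

/-- both step laws hold -/
theorem steps (hF : FOk leaf F (Dom P I) Λ) (htop : ∀ y, Dom P I y → cls F y ≤ top) :
    (∀ v, 0 ≤ v → BodyStep P W leaf F X k (Dom P I) 7 v (bL P)
      ((bL P : ℝ) ^ 2 + 16 * P.Creg * v / 2 ^ P.c0)) ∧
    (∀ w, 0 ≤ w → w ≤ wC P.a2 P.c0 (bL P) (dL P) (16 * P.Creg) →
      ArrStep P W leaf F X k (Dom P I) 7 ((dL P : ℝ) ^ 2 + 4 ^ P.a2 * w) (bL P) w) := by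
  constructor
  · intro v hv
    have h1 := body_step (P := P) (W := W) (leaf := leaf) (F := F) (X := X) (k := k) (I := I)
      h.g h.um h.pm h.r h.W0 h.dl hF h.N h.Creg h.pb
      (fun y hy => h.grid _ (by have := htop y hy; omega)) (m := 7) (by norm_num) hv
    have e : (16 * ((7 + 2) * (P.Creg : ℝ) + 2)) = bL P := by unfold bL; push_cast; ring
    rw [e] at h1
    exact h1
  · intro w hw hwC sub κ y hy _ ha hb
    have h1 := arr_step (sub := sub) (X := X) (k := k) hF hy ha (h.arr_grid htop hy ha) h.W0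
      (b := bL P) (Nat.cast_nonneg _) hw hb h.gJ ?_ h.tiny ?_ (h.ent' _)
    · refine h1.mono le_rfl (le_of_eq ?_)
      unfold dL; push_cast; ring
    · exact h.mJ_pos
    · have h2 : (3 * (wL P : ℝ)) * 4 ^ (P.a2 + P.bb + 2) ≤ P.mJ := by exact_mod_cast h.mJ
      refine le_trans ?_ h2
      gcongr
      exact hwC.trans h.wC_le

/-- **the lane law**: mean and second moment of every lane of an admissible pair of the domain -/
theorem lane_sq (hF : FOk leaf F (Dom P I) Λ) (htop : ∀ y, Dom P I y → cls F y ≤ top)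
    (κ : ℕ) (z : St) (hz : Dom P I z) (ha : adm P F κ z = true) :
    ((lanePair P leaf F X k κ z).Ev W fun a => (a : ℝ)) ≤ 7 * 2 ^ κ ∧
      ((lanePair P leaf F X k κ z).Ev W fun a => (a : ℝ) ^ 2) ≤ vL P * 4 ^ κ := by
  have hs := h.steps (X := X) (k := k) hF htop
  have h1 := LawU944.lane_law (P := P) (W := W) (leaf := leaf) (F := F) (X := X) (k := k)
    (Dm := Dom P I) (fun y hy => hy.inD) hF (m := 7) (b := bL P) (d := dL P)
    (Γ := 16 * P.Creg) (by norm_num) ?_ (by positivity) h.c0' hs.1 hs.2 κ z hz ha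
  · refine ⟨h1.1, h1.2.trans (le_of_eq ?_)⟩
    congr 1
    unfold vC vL; push_cast; ring
  · have : 32 ≤ dL P := Nat.le_add_right _ _
    have : (32 : ℝ) ≤ dL P := by exact_mod_cast this
    linarith

/-- mean and second moment of every body entry -/
theorem body_sq (hF : FOk leaf F (Dom P I) Λ) (htop : ∀ y, Dom P I y → cls F y ≤ top)
    (i κ : ℕ) (z : St) (hi : z.i = i + 1) (hz : Dom P I z) (ha : adm P F κ z = true) :
    MS (bL P) (wL P) κ (ms P W (bdy P leaf F X k i) κ z) := by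
  have hs := h.steps (X := X) (k := k) hF htop
  have h1 := LawU944.body_law (P := P) (W := W) (leaf := leaf) (F := F) (X := X) (k := k)
    (Dm := Dom P I) (fun y hy => hy.inD) hF (m := 7) (b := bL P) (d := dL P)
    (Γ := 16 * P.Creg) (by norm_num) ?_ (by positivity) h.c0' hs.1 hs.2 i κ z hi hz ha
  · exact h1.mono le_rfl h.wC_le
  · have : 32 ≤ dL P := Nat.le_add_right _ _
    have : (32 : ℝ) ≤ dL P := by exact_mod_cast this
    linarith

/-- the jump at every macro height `i + 1`, classes `≥ bb + 2` -/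
theorem arrOk (hF : FOk leaf F (Dom P I) Λ) (htop : ∀ y, Dom P I y → cls F y ≤ top)
    (i κ : ℕ) (z : St) (hi : z.i = i + 1) (hz : Dom P I z) (ha : adm P F κ z = true)
    (hκ : P.bb + 2 ≤ κ) :
    ArrOk P W F (bdy P leaf F X k i) (celOf κ z) (cidx P (celOf κ z) z)
      (((eL P + 1 : ℕ) * (1 / 2 : ℝ) ^ s * dL P) * 2 ^ κ) := by
  have hM := h.mJ_pos
  refine arrOk_big (sub := fun c => arrT P leaf F X k i c) (b := bL P) (w := wL P) hF hz ha
    (h.arr_grid htop hz ha) h.W0 (Nat.cast_nonneg _) (Nat.cast_nonneg _) ?_ h.gJ hM hκ ?_ ?_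
  · intro κ' z' hz' hD' ha'
    exact h.body_sq hF htop i κ' z' (by omega) hD' ha'
  · exact_mod_cast h.mJ
  · have h3 : (dL P : ℝ) = 32 + (bL P : ℝ) * 2 ^ P.a2 := by unfold dL; push_cast; ring
    rw [← h3]
    have h4 : (((jks P (celOf κ z)).length + 1 : ℝ)) ≤ ((eL P + 1 : ℕ) : ℝ) := by
      push_cast
      have : ((jks P (celOf κ z)).length : ℝ) ≤ eL P := by exact_mod_cast jks_length P _
      linarith
    gcongr

/-- the jump at tiny classes -/
theorem arrOk_tiny (hF : FOk leaf F (Dom P I) Λ) (i κ : ℕ) (z : St)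
    (hz : Dom P I z) (ha : adm P F κ z = true) (hκ : 4 * 2 ^ (κ + P.a2) ≤ Λ) :
    ArrOk P W F (bdy P leaf F X k i) (celOf κ z) (cidx P (celOf κ z) z) 0 :=
  LawX944.arrOk_tiny (sub := fun c => arrT P leaf F X k i c) hF hz ha h.W0
    (by rw [h.gJ]; omega) h.mJ_pos hκ

/-- the jump at every macro height `i + 1`, all classes -/
theorem arrOk_all (hF : FOk leaf F (Dom P I) Λ) (htop : ∀ y, Dom P I y → cls F y ≤ top)
    (i κ : ℕ) (z : St) (hi : z.i = i + 1) (hz : Dom P I z) (ha : adm P F κ z = true) :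
    ∃ e : ℝ, 0 ≤ e ∧ e ≤ (((eL P + 1 : ℕ) * (1 / 2 : ℝ) ^ s * dL P) * 2 ^ κ) ∧
      ArrOk P W F (bdy P leaf F X k i) (celOf κ z) (cidx P (celOf κ z) z) e := by
  rcases Nat.lt_or_ge κ (P.bb + 2) with hκ | hκ
  · refine ⟨0, le_rfl, by positivity, h.arrOk_tiny hF i κ z hz ha ?_⟩
    exact (Nat.mul_le_mul_left 4 (Nat.pow_le_pow_right (by norm_num) (by omega))).trans h.tiny
  · exact ⟨_, by positivity, le_rfl, h.arrOk hF htop i κ z hi hz ha hκ⟩

end LaneNum

end Crest.Agent.R288.LaneLaw944
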