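import Crest.Agent.R288.ProbO_12
import Crest.Agent.R288.FOkG_829
import Crest.Agent.R288.LaneLaw_944
import Crest.Agent.R288.StmF_616

/-!
# R288 (S0433), [PROB] (helper12): the block [PROB] from its open leaves

* `LaneStm`: the numeric side conditions of the lane law (R6, 806) at the concrete configuration;
* **`prob_block_of`** : `ProbStm` from 155's `Szs`, 866's `LipStm`, 548's `SoundStm` and `LaneStm`.
-/

set_option autoImplicit false

namespace Crest.Agent.R288.ProbO12

open Filter Crest.GraphRAM Crest.Agent.R295.Rnd627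
open Crest.Agent.R288.Alg45 Crest.Agent.R288.Dom20 Crest.Agent.R288.Asm331
open Crest.Agent.R288.Par806 Crest.Agent.R288.ParO331 Crest.Agent.R288.Asm12
open Crest.Agent.R288.PltT365 Crest.Agent.R288.Tape829 Crest.Agent.R288.LaneLaw944
open Crest.Agent.R288.Asy720 Crest.Agent.R288.Shell12 Crest.Agent.R288.StmF616
open Crest.Agent.R288.FOkG829

/-- **R6**: the numbers of the lane law; `s` = failure exponent of a jump, `top = K0O h - 8` = largest
class of the unit functions on the domain -/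
def LaneStm : Prop := Ev fun x y ε =>
  LaneNum (cfgO x y ε).P (2 ^ (cfgO x y ε).W) (2 ^ lam (hh x y ε)) (sJ (hh x y ε))
    (K0O (hh x y ε) - 8)

/-- the constant of the second moments -/
def vO : ℕ := 2 * ((32 + 16 * (9 * 8 + 2) * 2 ^ 8) ^ 2 + 4 ^ 8 * (16 * (9 * 8 + 2)) ^ 2)

/-- **[PROB]** from its open leaves -/
theorem prob_block_of (hSz : ∀ᶠ h : ℕ in atTop, PgW155.Szs 200 h (parOf h)) {ζ : ℕ → ℝ}
    (hL : LipStm ζ) (hS : SoundStm) (hN : LaneStm) : ProbStm := by
  refine prob_of_sq hSz (v := (vO : ℝ)) ?_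
  refine ((hL.and hS).and hN).mono ?_
  rintro x y ε hn ⟨⟨⟨⟨p, hO⟩, hζ⟩, hS⟩, hN⟩ X hX e k he hk κ z hz ha
  have hF : AdmR944.FOk (cfgO x y ε).leaf (FE (cfgO x y ε).P X e)
      (Dom (cfgO x y ε).P (cfgO x y ε).I) (2 ^ lam (hh x y ε)) :=
    fok_of_good hX hO hζ (fun _ _ => rfl) he.le fun s hs => hS X hX e he.le s hs
  have hc := clsOK_of_good hX hO e
  refine (hN.lane_sq (X := Xe (cfgO x y ε).P X e) (k := k) hF (fun s hs => ?_) κ z hz ha).2
  have h1 : cls (FE (cfgO x y ε).P X e) s + 8 ≤ K0O (hh x y ε) := hc s hs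
  omega

end Crest.Agent.R288.ProbO12
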