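import Crest.Agent.R288.Sound_512
import Crest.Agent.R288.StmF_616
import Crest.Agent.R288.BndG_734

/-!
# Row 288 (helper734): [SOUND] and its consequences at the concrete configuration `cfgO x y ε`

From `StmF616.LipStm ζ` only:
* `sndOkO`     : `Sound512.SndOk (cfgO x y ε)`;
* **`soundStm`** : `StmF616.SoundStm` (`G ≤ FE e` on the domain);
* `soundX`     : `G ≤ X (idx e k) (κ, z)`; `soundR` : `G ≤ C.R`; `soundA` : `G ≤` body means;
* `fokStm`     : `AdmR944.FOk` of all units with `Λ = 2 ^ lam`; `clsStm` : classes;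
* `hgStm`      : leaf values `≤ FE e + 1`;
* **`hypStm`** : `Bnd275.Hyp` of all units.
-/

set_option autoImplicit false

namespace Crest.Agent.R288.SndO734

open Filter Crest.Agent.R288.Alg45 Crest.Agent.R288.Asm331 Crest.Agent.R288.Asm12
open Crest.Agent.R288.Dom20 Crest.Agent.R288.Par806 Crest.Agent.R288.ParO331
open Crest.Agent.R288.AnaLip364 Crest.Agent.R288.AnaStart364 Crest.Agent.R288.StmF616
open Crest.Agent.R288.Sound512 Crest.Agent.R288.SoundG453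

/-- all steps up to `K0 + 1` divide `Dm` -/
theorem ev_grdOK1 : ∀ᶠ h : ℕ in atTop, GrdOK (parOf h) (K0O h + 1) := by
  filter_upwards [ev_W_ge 32] with h h1
  refine grdOK_of_pow (H := nn h * II h + 1) (parOf h) rfl ?_
  show K0O h + 1 ≤ pb h + (nn h * II h + 1)
  have h2 := Lg_pos h
  have h3 : gI h + Lg h + 32 ≤ pb h := by
    unfold gI pb
    nlinarith
  unfold K0O HH
  omega

theorem ev_dl : ∀ᶠ h : ℕ in atTop, dl h + 2 ≤ 2 * h := by
  filter_upwards [((sm_W (j := 0) (by norm_num)).mul sm_Lg).mul_le 8, eventually_ge_atTop 2]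
    with h h1 h2
  have h3 : 8 * (W h * Lg h) ≤ h := h1
  unfold dl
  have e : 8 * W h * Lg h = 8 * (W h * Lg h) := by ring
  rw [e]
  omega

theorem gg_pos (h : ℕ) : 0 < gg h := by
  unfold gg
  exact Nat.mul_pos (pow_pos (W_pos h) _) (pow_pos (Lg_pos h) _)

theorem um_pos (h : ℕ) : 0 < um h := by
  unfold um
  exact Nat.mul_pos (Nat.mul_pos (gg_pos h) (Nat.succ_pos _)) (by unfold Creg; norm_num)

/-- **the numbers of the soundness at `cfgO`** -/
theorem sndOkO : Ev fun x y ε => SndOk (cfgO x y ε) := by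
  refine Ev.of (P := fun h => GrdOK (parOf h) (K0O h + 1) ∧ 1 ≤ W h ∧ dl h + 2 ≤ 2 * h)
    (by filter_upwards [ev_grdOK1, ev_W_ge 1, ev_dl] with h h1 h2 h3; exact ⟨h1, h2, h3⟩) ?_
  rintro x y ε hN ⟨h1, h2, h3⟩
  have h4 := Lg_pos (hh x y ε)
  refine ⟨h1, ?_, ?_, ?_, ?_, ?_⟩
  · show 10 ≤ pb (hh x y ε)
    unfold pb
    nlinarith
  · show 1 ≤ rr
    unfold rr
    norm_num
  · exact gg_pos (hh x y ε)
  · exact um_pos (hh x y ε)
  · show dl (hh x y ε) ≤ 2 * Nat.size (x.length + y.length)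
    have := hN.le_size
    omega

/-- leaf values of the configuration -/
theorem leafO' (x y : List ℕ) (ε : ℚ) (s : St) :
    (cfgO x y ε).leaf s = LeafO690.leafO x y (cfgO x y ε).P.n (2 ^ lam (hh x y ε)) s := rfl

variable {ζ : ℕ → ℝ}

/-- **[ANA.N1]** : the units are above the exact cost -/
theorem soundStm (hL : LipStm ζ) : SoundStm := by
  refine (hL.and sndOkO).mono fun x y ε _ h X hX e he s hs => ?_
  obtain ⟨⟨⟨p, h1⟩, h2⟩, h3⟩ := h
  exact sound_F hX h1 h2 h3 (fun s _ => leafO' x y ε s) he hs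

/-- the numbers are above the exact cost -/
theorem soundX (hL : LipStm ζ) : Ev fun x y ε => ∀ X, (cfgO x y ε).Good X →
    ∀ e < (cfgO x y ε).P.E, ∀ k < (cfgO x y ε).P.K, ∀ κ ≤ (cfgO x y ε).K0, ∀ s,
      Dom (cfgO x y ε).P (cfgO x y ε).I s → Gx x y ε s ≤ X (idx (cfgO x y ε).P e k) (κ, s) := by
  refine (hL.and sndOkO).mono fun x y ε _ h X hX e he k hk κ hκ s hs => ?_
  obtain ⟨⟨⟨p, h1⟩, h2⟩, h3⟩ := h
  exact sound_X hX h1 h2 h3 (fun s _ => leafO' x y ε s) he hk hκ hs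

/-- the lane means are above the exact cost -/
theorem soundR (hL : LipStm ζ) : Ev fun x y ε => ∀ X, (cfgO x y ε).Good X →
    ∀ e < (cfgO x y ε).P.E, ∀ k < (cfgO x y ε).P.K, ∀ κ s,
      Dom (cfgO x y ε).P (cfgO x y ε).I s →
      adm (cfgO x y ε).P (FE (cfgO x y ε).P X e) κ s = true →
        (Gx x y ε s : ℝ) ≤ (cfgO x y ε).R X e k κ s := by
  refine (hL.and sndOkO).mono fun x y ε _ h X hX e he k hk κ s hs ha => ?_
  obtain ⟨⟨⟨p, h1⟩, h2⟩, h3⟩ := h
  exact sound_R hX h1 h2 h3 (fun s _ => leafO' x y ε s) he hk hs ha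

/-- the body means are above the exact cost -/
theorem soundA (hL : LipStm ζ) : Ev fun x y ε => ∀ X, (cfgO x y ε).Good X →
    ∀ e < (cfgO x y ε).P.E, ∀ k < (cfgO x y ε).P.K, ∀ κ s,
      Dom (cfgO x y ε).P (cfgO x y ε).I s → 0 < s.i →
      adm (cfgO x y ε).P (FE (cfgO x y ε).P X e) κ s = true →
        (Gx x y ε s : ℝ) ≤ XB715.RS (cfgO x y ε).P (2 ^ (cfgO x y ε).W)
          (LawU944.bdy (cfgO x y ε).P (cfgO x y ε).leaf (FE (cfgO x y ε).P X e)
            (Xe (cfgO x y ε).P (Tape829.lo (idx (cfgO x y ε).P e k) X) e) k (s.i - 1)) κ s := by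
  refine (hL.and sndOkO).mono fun x y ε _ h X hX e he k hk κ s hs hi ha => ?_
  obtain ⟨⟨⟨p, h1⟩, h2⟩, h3⟩ := h
  exact sound_A hX h1 h2 h3 (fun s _ => leafO' x y ε s) he hk hs hi ha

/-- **944's facts of the units** (R4 at `cfgO`) -/
theorem fokStm (hL : LipStm ζ) : Ev fun x y ε => ∀ X, (cfgO x y ε).Good X →
    ∀ e ≤ (cfgO x y ε).P.E, AdmR944.FOk (cfgO x y ε).leaf (FE (cfgO x y ε).P X e)
      (Dom (cfgO x y ε).P (cfgO x y ε).I) (2 ^ lam (hh x y ε)) := by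
  refine (hL.and sndOkO).mono fun x y ε _ h X hX e he => ?_
  obtain ⟨⟨⟨p, h1⟩, h2⟩, h3⟩ := h
  exact fok hX h1 h2 h3 (fun s _ => leafO' x y ε s) he

/-- classes of the units -/
theorem clsStm (hL : LipStm ζ) : Ev fun x y ε => ∀ X, (cfgO x y ε).Good X → ∀ e s,
    Dom (cfgO x y ε).P (cfgO x y ε).I s →
      Alg45.cls (FE (cfgO x y ε).P X e) s + (cfgO x y ε).P.a2 ≤ (cfgO x y ε).K0 := by
  refine hL.mono fun x y ε _ h X hX e s hs => ?_
  obtain ⟨⟨p, h1⟩, -⟩ := h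
  exact cls_le hX h1 e hs

/-- **P9 at `cfgO`**: the leaf values are at most the units plus one -/
theorem hgStm (hL : LipStm ζ) : Ev fun x y ε => ∀ X, (cfgO x y ε).Good X →
    ∀ e ≤ (cfgO x y ε).P.E, ∀ s, Dom (cfgO x y ε).P (cfgO x y ε).I s → ∀ c,
      (cfgO x y ε).leaf s = some c → c ≤ FE (cfgO x y ε).P X e s + 1 :=
  (fokStm hL).mono fun _ _ _ _ h X hX e he s hs c hc => (h X hX e he).leaf_le s hs c hc

/-- **P5d at `cfgO`**: the hypotheses of the size bounds -/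
theorem hypStm (hL : LipStm ζ) : Ev fun x y ε => ∀ X, (cfgO x y ε).Good X →
    ∀ e ≤ (cfgO x y ε).P.E, Bnd275.Hyp (cfgO x y ε).P (cfgO x y ε).leaf
      (FE (cfgO x y ε).P X e) (BndG734.okBlk (cfgO x y ε)) := by
  refine ((hL.and sndOkO).and (soundStm hL)).mono fun x y ε _ h X hX e he => ?_
  obtain ⟨⟨⟨⟨p, h1⟩, h2⟩, h3⟩, h4⟩ := h
  refine BndG734.hyp_of_good hX h1 (h3.r) ?_ ?_ (le_trans (by norm_num) h3.pb)
    (h3.grd.mono _ (Nat.le_succ _)) he (fun s hs => h4 X hX e he s hs) ?_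
  · show 0 < 12 * sJ (hh x y ε) + 1
    omega
  · show 0 < mJ (hh x y ε)
    unfold mJ
    positivity
  · intro s hs c hc
    exact HG hX h1 h2 h3 (fun s _ => leafO' x y ε s) he hs hc

end Crest.Agent.R288.SndO734
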