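import Crest.Agent.R288.LawN_147
import Crest.Agent.R288.SndO_734
import Crest.Agent.R288.LipO_364
import Crest.Agent.R288.ProbZ_12
import Crest.Agent.R288.LanePar_806

/-!
# R288 [ANA] (helper147): the laws of the lanes at the concrete configuration `cfgO x y ε`

* `ev_eta C` : `eta (parOf h) (sJ h) ≤ (1/2) ^ (C W Lg)`;
* **`laneStm`** : `ProbO12.LaneStm`;
* **`hypO`** : `LawN147.Hyp` at `cfgO`; **`lawO`** : `WinH330.Law`; **`jaO`**, **`oscO`**, **`nearO`**.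
-/

set_option autoImplicit false

namespace Crest.Agent.R288.LawO147

open Filter Crest.Agent.R288.Alg45 Crest.Agent.R288.Asm331 Crest.Agent.R288.Asm12
open Crest.Agent.R288.Dom20 Crest.Agent.R288.Par806 Crest.Agent.R288.ParO331
open Crest.Agent.R288.StmF616 Crest.Agent.R288.ProbO12 Crest.Agent.R288.LaneLaw944
open Crest.Agent.R288.LawN147 Crest.Agent.R288.LanePar806 Crest.Agent.R288.Cnt308
open Crest.Agent.R288.SndO734

/-! ### the failure probability of a jump -/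

/-- number of entries of a joint draw -/
theorem ev_eL : ∀ᶠ h : ℕ in atTop, eL (parOf h) + 1 ≤ 2 ^ (33 * (W h * Lg h)) := by
  filter_upwards [ev_nJ, ev_exp_le_Lg 6 0 15] with h h1 h2
  have e1 : (4 : ℕ) ^ (parOf h).pb = 2 ^ (32 * (W h * Lg h)) := by
    show (4 : ℕ) ^ pb h = _
    rw [show (4 : ℕ) = 2 ^ 2 by norm_num, ← pow_mul]
    congr 1
    unfold pb
    ring
  have h4 : eL (parOf h) ≤ 2 ^ (15 * Mg h) * (18 * 2 ^ (32 * (W h * Lg h))) := by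
    unfold eL
    rw [e1]
    exact Nat.mul_le_mul_right _ h1
  have h5 : 15 * Mg h + 6 ≤ W h * Lg h := by
    have : Lg h ≤ W h * Lg h := Nat.le_mul_of_pos_left _ (W_pos h)
    omega
  have h6 : ∀ A B : ℕ, 1 ≤ A → 1 ≤ B → A * (18 * B) + 1 ≤ 64 * (A * B) := by
    intro A B hA hB
    have a1 : 1 ≤ A * B := Nat.mul_pos hA hB
    have a2 : A * (18 * B) = 18 * (A * B) := by ring
    omega
  have h7 : 64 * (2 ^ (15 * Mg h) * 2 ^ (32 * (W h * Lg h))) =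
      2 ^ (6 + (15 * Mg h + 32 * (W h * Lg h))) := by
    rw [pow_add 2 6, pow_add 2 (15 * Mg h)]
    norm_num
  calc eL (parOf h) + 1
      ≤ 2 ^ (15 * Mg h) * (18 * 2 ^ (32 * (W h * Lg h))) + 1 := Nat.add_le_add_right h4 1
    _ ≤ 64 * (2 ^ (15 * Mg h) * 2 ^ (32 * (W h * Lg h))) :=
        h6 _ _ Nat.one_le_two_pow Nat.one_le_two_pow
    _ = 2 ^ (6 + (15 * Mg h + 32 * (W h * Lg h))) := h7
    _ ≤ 2 ^ (33 * (W h * Lg h)) := Nat.pow_le_pow_right (by norm_num) (by omega)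

theorem bL_parOf (h : ℕ) : bL (parOf h) = 1184 := rfl

theorem dL_parOf (h : ℕ) : dL (parOf h) = 303136 := by
  unfold dL
  rw [bL_parOf, parOf_a2]
  norm_num

theorem wL_parOf (h : ℕ) : wL (parOf h) = 1184 ^ 2 + 2 * (303136 ^ 2 + 4 ^ 8 * 1184 ^ 2) := by
  unfold wL vL
  rw [bL_parOf, dL_parOf, parOf_a2]

/-- exponents -/
theorem ev_sJ (C : ℕ) : ∀ᶠ h : ℕ in atTop, (33 * (W h * Lg h) + 19) + C * (W h * Lg h) ≤ sJ h := by
  filter_upwards [ev_le_W (C + 34), ev_const_Lg 19] with h h2 h3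
  have e : sJ h = W h * (W h * Lg h) := by unfold sJ; ring
  rw [e]
  have a1 : (C + 34) * (W h * Lg h) ≤ W h * (W h * Lg h) := Nat.mul_le_mul_right _ h2
  have a2 : Lg h ≤ W h * Lg h := Nat.le_mul_of_pos_left _ (W_pos h)
  generalize W h * Lg h = A at a1 a2 ⊢
  have e2 : (C + 34) * A = C * A + 34 * A := by ring
  omega

theorem eta_aux {a d : ℝ} {m k s : ℕ} (ha : a ≤ 2 ^ m) (hd0 : 0 ≤ d)
    (hd : d ≤ 2 ^ 19) (hs : (m + 19) + k ≤ s) : a * (1 / 2) ^ s * d ≤ (1 / 2) ^ k := by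
  calc a * (1 / 2) ^ s * d ≤ 2 ^ m * (1 / 2) ^ s * 2 ^ 19 := by gcongr
    _ = 2 ^ (m + 19) * (1 / 2) ^ s := by rw [pow_add]; ring
    _ ≤ 2 ^ (m + 19) * (1 / 2) ^ ((m + 19) + k) := by
        refine mul_le_mul_of_nonneg_left ?_ (by positivity)
        exact pow_le_pow_of_le_one (by norm_num) (by norm_num) hs
    _ = (1 / 2) ^ k := two_half _ _

/-- **the failure probability of a jump times the price** -/
theorem ev_eta (C : ℕ) : ∀ᶠ h : ℕ in atTop,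
    eta (parOf h) (sJ h) ≤ (1 / 2) ^ (C * (W h * Lg h)) := by
  filter_upwards [ev_eL, ev_sJ C] with h h1 h6
  have h4 : ((eL (parOf h) + 1 : ℕ) : ℝ) ≤ 2 ^ (33 * (W h * Lg h)) := by exact_mod_cast h1
  have h5 : (dL (parOf h) : ℝ) ≤ 2 ^ 19 := by
    rw [dL_parOf]
    norm_num
  exact eta_aux h4 (Nat.cast_nonneg _) h5 h6

/-! ### `LaneNum` -/

/-- **all numeric side conditions of the lane law at the table** -/
theorem ev_laneNum : ∀ᶠ h : ℕ in atTop, ∀ w, dl h ≤ w →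
    LaneNum (parOf h) (2 ^ w) (2 ^ lam h) (sJ h) (K0O h - 8) := by
  filter_upwards [ev_LaneN, ev_grdOK1, ev_eL, ev_sJ 0,
    ev_mJ ((3 * (1184 ^ 2 + 2 * (303136 ^ 2 + 4 ^ 8 * 1184 ^ 2)) : ℕ) : ℝ)] with h hN hG hE hs hm w hw
  refine
    { W0 := by positivity
      dl := pow_dvd_pow 2 hw
      g := hN.g
      um := hN.um
      pm := hN.pm
      r := by have := hN.r; omega
      Creg := by show 1 ≤ 8; norm_num
      pb := hN.pb
      N := hN.Λ_N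
      tiny := ?_
      c0 := ?_
      gJ := by rw [hN.gJ]; ring
      mJ := ?_
      ent := ?_
      grid := ?_ }
  · refine le_trans ?_ hN.Λ_bb
    calc 4 * 2 ^ ((parOf h).bb + 1 + (parOf h).a2) = 2 ^ ((parOf h).bb + (parOf h).a2 + 3) := by
          rw [show (parOf h).bb + (parOf h).a2 + 3 = 2 + ((parOf h).bb + 1 + (parOf h).a2) by omega,
            pow_add 2 2]
          norm_num
      _ ≤ 2 ^ ((parOf h).bb + (parOf h).a2 + 8) := Nat.pow_le_pow_right (by norm_num) (by omega)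
  · have := hN.c0
    calc 2 * 4 ^ (parOf h).a2 * (16 * (parOf h).Creg) = 32 * 4 ^ (parOf h).a2 * (parOf h).Creg := by
          ring
      _ ≤ _ := this
  · rw [wL_parOf]
    exact_mod_cast hm
  · rw [dL_parOf]
    calc (eL (parOf h) + 1) * 303136 ≤ 2 ^ (33 * (W h * Lg h)) * 2 ^ 19 :=
          Nat.mul_le_mul hE (by norm_num)
      _ = 2 ^ (33 * (W h * Lg h) + 19) := by rw [pow_add]
      _ ≤ 2 ^ sJ h := Nat.pow_le_pow_right (by norm_num) (by omega)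
  · intro κ hκ
    refine hG κ ?_
    rw [parOf_a2] at hκ
    have : 8 ≤ K0O h := by unfold K0O; omega
    omega

/-- **R6** = `ProbO12.LaneStm` -/
theorem laneStm : LaneStm := by
  refine Ev.of (P := fun h => (∀ w, dl h ≤ w →
      LaneNum (parOf h) (2 ^ w) (2 ^ lam h) (sJ h) (K0O h - 8)) ∧ dl h + 2 ≤ 2 * h)
    (by filter_upwards [ev_laneNum, ev_dl] with h h1 h2; exact ⟨h1, h2⟩) ?_
  rintro x y ε hN ⟨h1, h2⟩
  refine h1 _ ?_
  show dl (hh x y ε) ≤ 2 * Nat.size (x.length + y.length)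
  have := hN.le_size
  omega

/-! ### the laws at `cfgO` -/

/-- the hypotheses -/
theorem hypO {ζ : ℕ → ℝ} (hL : LipStm ζ) : Ev fun x y ε => ∀ X, (cfgO x y ε).Good X →
    ∃ p, Hyp (cfgO x y ε) X x y (gI (hh x y ε)) p (hh x y ε) (2 ^ lam (hh x y ε))
      (sJ (hh x y ε)) (ζ (hh x y ε)) := by
  refine ((hL.and sndOkO).and laneStm).mono fun x y ε _ h X hX => ?_
  obtain ⟨⟨⟨⟨p, h1⟩, h2⟩, h3⟩, h4⟩ := h
  exact ⟨p, ⟨hX, h1, h2, h3, fun _ _ => rfl, by show 8 ≤ 40; norm_num, h4⟩⟩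

/-- small numbers -/
theorem ev_bb (C : ℕ) : ∀ᶠ h : ℕ in atTop, C ≤ bb h := by
  filter_upwards [ev_le_W C] with h h1
  have h2 := W_le_Mg h
  have h3 : Mg h ≤ bb h := by unfold bb; omega
  omega

theorem ev_eta_bb : ∀ᶠ h : ℕ in atTop,
    eta (parOf h) (sJ h) * 2 ^ bb h ≤ 1 ∧ 2 / 2 ^ bb h + eta (parOf h) (sJ h) ≤ 1 := by
  filter_upwards [ev_eta 1, ev_exp_le_Lg 0 0 12, ev_bb 2] with h h1 h2 h3
  have h5 : bb h ≤ 1 * (W h * Lg h) := by
    have : Lg h ≤ W h * Lg h := Nat.le_mul_of_pos_left _ (W_pos h)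
    have e : bb h = 12 * Mg h := by unfold bb; ring
    omega
  have h0 := eta_nonneg (parOf h) (sJ h)
  have h6 : eta (parOf h) (sJ h) * 2 ^ bb h ≤ 1 := by
    calc eta (parOf h) (sJ h) * 2 ^ bb h ≤ (1 / 2) ^ (1 * (W h * Lg h)) * 2 ^ bb h := by gcongr
      _ ≤ (1 / 2) ^ bb h * 2 ^ bb h := by
          refine mul_le_mul_of_nonneg_right ?_ (by positivity)
          exact pow_le_pow_of_le_one (by norm_num) (by norm_num) h5
      _ = 1 := by rw [← mul_pow]; norm_num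
  refine ⟨h6, ?_⟩
  have h7 : (4 : ℝ) ≤ 2 ^ bb h := by
    calc (4 : ℝ) = 2 ^ 2 := by norm_num
      _ ≤ 2 ^ bb h := pow_le_pow_right₀ (by norm_num) h3
  have h8 : (0 : ℝ) < 2 ^ bb h := by positivity
  have h9 : (2 : ℝ) / 2 ^ bb h ≤ 1 / 2 := by
    rw [div_le_div_iff₀ h8 (by norm_num)]
    linarith
  have h10 : eta (parOf h) (sJ h) ≤ 1 / 2 := by
    by_contra hc
    push Not at hc
    have : 1 / 2 * (4 : ℝ) ≤ eta (parOf h) (sJ h) * 2 ^ bb h :=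
      mul_le_mul hc.le h7 (by norm_num) h0
    linarith
  linarith

/-- the constant of the retreat against the table (`b_le` of `NearP_484`) -/
theorem bJ_le {h : ℕ} (h1 : eta (parOf h) (sJ h) * 2 ^ bb h ≤ 1) :
    (2 / 2 ^ bb h + eta (parOf h) (sJ h)) * 2 ^ bb h ≤ 3 := by
  have h8 : (2 : ℝ) ^ bb h ≠ 0 := by positivity
  rw [add_mul, div_mul_cancel₀ _ h8]
  linarith

/-- **the law of the lanes at `cfgO`** -/
theorem lawO {ζ : ℕ → ℝ} (hL : LipStm ζ) (C : ℕ) : Ev fun x y ε => ∀ X, (cfgO x y ε).Good X →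
    ∀ e < (cfgO x y ε).P.E, WinH330.Law (cfgO x y ε) X e (An (cfgO x y ε) X e)
      ((1 / 2) ^ (C * (W (hh x y ε) * Lg (hh x y ε)))) 1 (2 * 2 ^ nn (hh x y ε) + 1) := by
  have hη : Ev fun x y ε => eta (parOf (hh x y ε)) (sJ (hh x y ε)) ≤
        (1 / 2) ^ (C * (W (hh x y ε) * Lg (hh x y ε))) ∧
      eta (parOf (hh x y ε)) (sJ (hh x y ε)) * 2 ^ bb (hh x y ε) ≤ 1 ∧
      2 / 2 ^ bb (hh x y ε) + eta (parOf (hh x y ε)) (sJ (hh x y ε)) ≤ 1 :=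
    Ev.of (P := fun h => eta (parOf h) (sJ h) ≤ (1 / 2) ^ (C * (W h * Lg h)) ∧
        eta (parOf h) (sJ h) * 2 ^ bb h ≤ 1 ∧ 2 / 2 ^ bb h + eta (parOf h) (sJ h) ≤ 1)
      (by filter_upwards [ev_eta C, ev_eta_bb] with h h1 h2; exact ⟨h1, h2⟩)
      fun _ _ _ _ h => h
  refine ((hypO hL).and hη).mono fun x y ε _ h X hX e he => ?_
  obtain ⟨h1, h2, h3, h4⟩ := h
  obtain ⟨p, hp⟩ := h1 X hX
  exact law hp he h2 h4 le_rfl

/-- **(J) at every block of the domain, at `cfgO`** -/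
theorem jaO {ζ : ℕ → ℝ} (hL : LipStm ζ) : Ev fun x y ε => ∀ X, (cfgO x y ε).Good X →
    ∀ e ≤ (cfgO x y ε).P.E, ∀ k, ∀ z, Dom (cfgO x y ε).P (cfgO x y ε).I z →
      ArrLip195.JA (cfgO x y ε).P (FE (cfgO x y ε).P X e) (An (cfgO x y ε) X e k)
        ((cfgO x y ε).R X e k) (JaC195.ee (cfgO x y ε).P (eta (cfgO x y ε).P (sJ (hh x y ε))))
        z.i z.j := by
  refine (hypO hL).mono fun x y ε _ h X hX e he k z hz => ?_
  obtain ⟨p, hp⟩ := h X hX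
  exact ja hp he k hz

/-- the constant of the arrival Lipschitz inequality -/
noncomputable def bO (ζ : ℕ → ℝ) (h : ℕ) : ℝ :=
  2 / 2 ^ bb h + eta (parOf h) (sJ h) + 4 / 2 ^ a1 h + 6 / 2 ^ pb h + 5 * ζ h

/-- **arrival Lipschitz and oscillation input for all ranks, at `cfgO`** -/
theorem oscO {ζ : ℕ → ℝ} (hL : LipStm ζ) (hζ : ∀ᶠ h : ℕ in atTop, ζ h ≤ 1 / 8 ∧ bO ζ h ≤ 1) :
    Ev fun x y ε => ∀ X, (cfgO x y ε).Good X → ∀ e < (cfgO x y ε).P.E,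
      ∀ k < (cfgO x y ε).P.K, OscI283.OscR (cfgO x y ε).P (FE (cfgO x y ε).P X e)
        (Dom (cfgO x y ε).P (cfgO x y ε).I) (Xe (cfgO x y ε).P X e k)
        (ArrLip195.numR (cfgO x y ε).P (FE (cfgO x y ε).P X e) ((cfgO x y ε).R X e k))
        (bO ζ (hh x y ε)) (2 / 2 ^ nb (hh x y ε)) (ζ (hh x y ε)) 4 (1 + 2 * 1) 0 := by
  have hz : Ev fun x y ε => ζ (hh x y ε) ≤ 1 / 8 ∧ bO ζ (hh x y ε) ≤ 1 :=
    Ev.of (P := fun h => ζ h ≤ 1 / 8 ∧ bO ζ h ≤ 1) hζ fun _ _ _ _ h => h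
  refine ((hypO hL).and hz).mono fun x y ε _ h X hX e he k hk => ?_
  obtain ⟨h1, h2, h3⟩ := h
  obtain ⟨p, hp⟩ := h1 X hX
  exact oscR hp he h2 (by show 5 ≤ 8; norm_num) h3 k hk

/-! ### with the `ζ` of `LipO_364` -/

open Crest.Agent.R288.LipO364 (ζO ζO_nonneg lipStm)

/-- `b' 2^bb ≤ 14`, `b' ≤ 1`, `ζ ≤ 1/8` -/
theorem ev_bO : ∀ᶠ h : ℕ in atTop,
    ζO h ≤ 1 / 8 ∧ 0 ≤ bO ζO h ∧ bO ζO h ≤ 1 ∧ bO ζO h * 2 ^ bb h ≤ 14 := by
  filter_upwards [ev_eta_bb, ev_exp_le_Lg 0 0 12, ev_bb 4, ev_LaneN, ev_const_Lg 8]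
    with h h1 h2 h3 h4 h5
  have e1 : bb h = 12 * Mg h := by unfold bb; ring
  have hA : bb h ≤ Lg h := by omega
  have hB : bb h ≤ a1 h := by have := h4.a1; exact (Nat.le_add_right _ 8).trans this
  have hC : bb h ≤ pb h := by
    have : Lg h ≤ W h * Lg h := Nat.le_mul_of_pos_left _ (W_pos h)
    have e2 : pb h = 16 * (W h * Lg h) := by unfold pb; ring
    omega
  have q : ∀ (c : ℝ) (m n : ℕ), 0 ≤ c → m ≤ n → c / 2 ^ n * 2 ^ m ≤ c := by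
    intro c m n hc hmn
    rw [div_mul_eq_mul_div, div_le_iff₀ (by positivity)]
    exact mul_le_mul_of_nonneg_left (pow_le_pow_right₀ (by norm_num) hmn) hc
  have hζ : 5 * ζO h * 2 ^ bb h ≤ 1 := by
    have g1 : (2 : ℝ) ^ 5 / 2 ^ (8 * Lg h) * 2 ^ (bb h + 8) ≤ 2 ^ 5 :=
      q _ _ _ (by norm_num) (by omega)
    have g2 : (2 : ℝ) ^ (bb h + 8) = 256 * 2 ^ bb h := by rw [pow_add]; ring
    rw [g2] at g1
    unfold ζO
    linarith
  have hζ0 := ζO_nonneg h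
  have h0 := eta_nonneg (parOf h) (sJ h)
  have hpos : 0 ≤ bO ζO h := by unfold bO; positivity
  have h16 : (16 : ℝ) ≤ 2 ^ bb h := by
    calc (16 : ℝ) = 2 ^ 4 := by norm_num
      _ ≤ 2 ^ bb h := pow_le_pow_right₀ (by norm_num) h3
  have hb : bO ζO h * 2 ^ bb h ≤ 14 := by
    have g1 := q 2 (bb h) (bb h) (by norm_num) le_rfl
    have g2 := q 4 (bb h) (a1 h) (by norm_num) hB
    have g3 := q 6 (bb h) (pb h) (by norm_num) hC
    have g4 := h1.1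
    unfold bO
    linarith
  refine ⟨?_, hpos, ?_, hb⟩
  · have : ζO h * 16 ≤ ζO h * 2 ^ bb h := mul_le_mul_of_nonneg_left h16 hζ0
    linarith
  · have : bO ζO h * 16 ≤ bO ζO h * 2 ^ bb h := mul_le_mul_of_nonneg_left h16 hpos
    linarith

/-- no open hypothesis -/
theorem hypZ : Ev fun x y ε => ∀ X, (cfgO x y ε).Good X →
    ∃ p, Hyp (cfgO x y ε) X x y (gI (hh x y ε)) p (hh x y ε) (2 ^ lam (hh x y ε))
      (sJ (hh x y ε)) (ζO (hh x y ε)) := hypO lipStm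

theorem lawZ (C : ℕ) : Ev fun x y ε => ∀ X, (cfgO x y ε).Good X →
    ∀ e < (cfgO x y ε).P.E, WinH330.Law (cfgO x y ε) X e (An (cfgO x y ε) X e)
      ((1 / 2) ^ (C * (W (hh x y ε) * Lg (hh x y ε)))) 1 (2 * 2 ^ nn (hh x y ε) + 1) :=
  lawO lipStm C

theorem jaZ : Ev fun x y ε => ∀ X, (cfgO x y ε).Good X →
    ∀ e ≤ (cfgO x y ε).P.E, ∀ k, ∀ z, Dom (cfgO x y ε).P (cfgO x y ε).I z →
      ArrLip195.JA (cfgO x y ε).P (FE (cfgO x y ε).P X e) (An (cfgO x y ε) X e k)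
        ((cfgO x y ε).R X e k) (JaC195.ee (cfgO x y ε).P (eta (cfgO x y ε).P (sJ (hh x y ε))))
        z.i z.j := jaO lipStm

theorem oscZ : Ev fun x y ε => ∀ X, (cfgO x y ε).Good X → ∀ e < (cfgO x y ε).P.E,
      ∀ k < (cfgO x y ε).P.K, OscI283.OscR (cfgO x y ε).P (FE (cfgO x y ε).P X e)
        (Dom (cfgO x y ε).P (cfgO x y ε).I) (Xe (cfgO x y ε).P X e k)
        (ArrLip195.numR (cfgO x y ε).P (FE (cfgO x y ε).P X e) ((cfgO x y ε).R X e k))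
        (bO ζO (hh x y ε)) (2 / 2 ^ nb (hh x y ε)) (ζO (hh x y ε)) 4 (1 + 2 * 1) 0 :=
  oscO lipStm (by filter_upwards [ev_bO] with h h1; exact ⟨h1.1, h1.2.2.1⟩)

end Crest.Agent.R288.LawO147
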