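import Crest.Agent.R288.OscA_283

/-!
# R288: oscillation and size of the calm losses, instance for the numbers (helper283)

* `OscR P F Dom X Rn b ν ζ c1 c2 c3` : the facts about ONE rank on a good tape: `F` and the own-label arrival
  mean `Rn` almost Lipschitz, the numbers `X` close to `Rn` at the own pair.
* `numSt_near` : `numSt` is close to `Rn` at every end piece of class `≤ κ + du` (tiny classes: `F`).
* `osc_calm`   : two letters of any inner node differ by at most `(24 * 4^n / 2^sb + 2 (b+ν)(1+ζ)) * unt`.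
* `excess_calm` : the same as `γ * excess * g ≤ unt` (the clip of `fac` is never active).
* `VV_le_sum`, `sum_le_VV`, `calm_le` : size of the calm values.
-/

set_option autoImplicit false

namespace Crest.Agent.R288.OscI283

open Finset Crest.Agent.R288.Osc68 Crest.Agent.R288.OscW283 Crest.Agent.R288.Alg45
  Crest.Agent.R288.OscA283

/-- one rank on a good tape; `Rn y` = mean of the arrival value in own label -/
structure OscR (P : Par) (F : St → ℕ) (Dom : St → Prop) (X : ℕ → St → ℕ) (Rn : St → ℝ)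
    (b ν ζ c1 c2 c3 : ℝ) : Prop where
  b0 : 0 ≤ b
  ν0 : 0 ≤ ν
  ζ0 : 0 ≤ ζ
  c1_0 : 0 ≤ c1
  c2_0 : 0 ≤ c2
  c3_0 : 0 ≤ c3
  lipF : ∀ y z, Dom y → Dom z → y.i = z.i → y.j = z.j →
    (F y : ℝ) ≤ (1 + ζ) * (F z + dist y z) + c3
  lipR : ∀ y z, Dom y → Dom z → y.i = z.i → y.j = z.j →
    |Rn y - Rn z| ≤ 2 * dist y z + b * max (F y : ℝ) (F z) + c2
  R0 : ∀ y, Dom y → 0 ≤ Rn y
  RF : ∀ y, Dom y → Rn y ≤ 2 * F y + c2
  XR : ∀ y, Dom y → |((dist y (rdn P (cls F y) y) + X (cls F y) (rdn P (cls F y) y) : ℕ) : ℝ) - Rn y|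
    ≤ ν * F y + c1

variable {P : Par} {F : St → ℕ} {Dom : St → Prop} {X : ℕ → St → ℕ} {Rn : St → ℝ}
  {b ν ζ c1 c2 c3 : ℝ}

theorem lt_two_pow_cls (F : St → ℕ) (y : St) : F y < 2 ^ (cls F y + 1) :=
  Nat.lt_pow_succ_log_self (by norm_num) _

/-- `numSt` is close to the own-label mean -/
theorem numSt_near (h : OscR P F Dom X Rn b ν ζ c1 c2 c3) {κ : ℕ} {y : St} (hy : Dom y)
    (hc : cls F y ≤ κ + P.du) :
    |(numSt P F κ X y : ℝ) - Rn y| ≤ ν * F y + (c1 + c2 + 4 * (2 ^ κ / 2 ^ P.dl)) := by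
  have hF0 : (0 : ℝ) ≤ F y := Nat.cast_nonneg _
  have hν := mul_nonneg h.ν0 hF0
  have hq : (0 : ℝ) ≤ 4 * (2 ^ κ / 2 ^ P.dl) := by positivity
  unfold numSt
  by_cases h1 : cls F y + P.dl < κ ∨ κ + P.du < cls F y
  · rw [if_pos h1]
    have h2 : cls F y + P.dl < κ := by omega
    have h3 : F y < 2 ^ (κ - P.dl) :=
      (lt_two_pow_cls F y).trans_le (Nat.pow_le_pow_right (by norm_num) (by omega))
    have h4 : (F y : ℝ) < 2 ^ κ / 2 ^ P.dl := by
      have h5 : (F y : ℝ) < 2 ^ (κ - P.dl) := by exact_mod_cast h3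
      have h6 : (2 : ℝ) ^ (κ - P.dl) = 2 ^ κ / 2 ^ P.dl := by
        rw [eq_div_iff (by positivity), ← pow_add]
        congr 1
        omega
      rw [← h6]; exact h5
    have h7 := h.R0 y hy
    have h8 := h.RF y hy
    have := h.c1_0
    have := h.c2_0
    rw [abs_le]
    constructor <;> linarith
  · rw [if_neg h1]
    have h2 := h.XR y hy
    have := h.c2_0
    linarith

/-- the numbers of the end pieces are at most `(2 + ν) F + c` -/
theorem numSt_le (h : OscR P F Dom X Rn b ν ζ c1 c2 c3) (κ : ℕ) {y : St} (hy : Dom y) :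
    (numSt P F κ X y : ℝ) ≤ (2 + ν) * F y + (c1 + c2) := by
  have hF0 : (0 : ℝ) ≤ F y := Nat.cast_nonneg _
  have hν := mul_nonneg h.ν0 hF0
  have := h.c1_0
  have := h.c2_0
  unfold numSt
  by_cases h1 : cls F y + P.dl < κ ∨ κ + P.du < cls F y
  · rw [if_pos h1]; linarith
  · rw [if_neg h1]
    have h2 := (abs_le.1 (h.XR y hy)).2
    have h3 := h.RF y hy
    linarith

/-- **oscillation of the calm losses**: `Xs i` = numbers of rank `i`, `i < K` -/
theorem osc_calm {K : ℕ} {Xs : ℕ → ℕ → St → ℕ} {Rs : ℕ → St → ℝ}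
    (h : ∀ i < K, OscR P F Dom (Xs i) (Rs i) b ν ζ c1 c2 c3) {κ : ℕ} {x : St}
    (hdn : ∀ q < 2 ^ P.n, ∀ a < nlet P F κ x, ∀ c < nlet P F κ x, Dom (npiece P F κ x q a c))
    (hdt : ∀ q < 2 ^ P.n, Dom (tpiece P F κ x q))
    (hcl : ∀ q < 2 ^ P.n, ∀ a < nlet P F κ x, ∀ c < nlet P F κ x,
      cls F (npiece P F κ x q a c) ≤ κ + P.du)
    (hβ1 : (b + ν) * (1 + ζ) ≤ 1)
    (hc : c1 + 2 * c2 + 4 * (2 ^ κ / 2 ^ P.dl) + (b + ν) * c3 ≤ 2 * ((1 / 2 ^ P.sb) * F x))
    {E : ℕ → ℕ → ℕ → ℕ → ℕ}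
    (hE : ∀ i < K, ∀ q < 2 ^ P.n, ∀ a < nlet P F κ x, ∀ c < nlet P F κ x,
      E i q a c = numSt P F κ (Xs i) (npiece P F κ x q a c))
    {i : ℕ} (hi : i < K) {t p : ℕ} (ht : t < P.n) (hp : p < 2 ^ (P.n - (t + 1))) {a c z z' : ℕ}
    (ha : a < nlet P F κ x) (hc' : c < nlet P F κ x) (hz : z < nlet P F κ x)
    (hz' : z' < nlet P F κ x) :
    (VV P.γ (nlet P F κ x) (unt P F κ x) E t i (2 * p) a z : ℝ)
        + VV P.γ (nlet P F κ x) (unt P F κ x) E t i (2 * p + 1) z c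
      ≤ VV P.γ (nlet P F κ x) (unt P F κ x) E t i (2 * p) a z'
        + VV P.γ (nlet P F κ x) (unt P F κ x) E t i (2 * p + 1) z' c
        + (24 * 4 ^ P.n / 2 ^ P.sb + 2 * ((b + ν) * (1 + ζ))) * unt P F κ x (t + 1) p := by
  have hh := h i hi
  have b0 := hh.b0
  have ν0 := hh.ν0
  have ζ0 := hh.ζ0
  have k1 := hh.c1_0
  have k2 := hh.c2_0
  have k3 := hh.c3_0
  have hdl : (0 : ℝ) ≤ 4 * (2 ^ κ / 2 ^ P.dl) := by positivity
  have key := osc_unit (Y := St) (ds := fun y z => (dist y z : ℝ))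
    (X := fun y => (numSt P F κ (Xs i) y : ℝ)) (R := Rs i) (F := fun y => (F y : ℝ))
    (y := npiece P F κ x) (zs := tpiece P F κ x) (n := P.n) (M := fun _ z => z < nlet P F κ x)
    (r := 0) (V := fun t p a c => (VV P.γ (nlet P F κ x) (unt P F κ x) E t i p a c : ℝ))
    (b := b) (ν := ν) (d := (1 / 2 ^ P.sb) * F x) (D := 3 * (1 / 2 ^ P.sb) * F x) (Λ := 1 + ζ)
    (σ := 3 * (1 / 2 ^ P.sb)) (Fx := F x) (U := unt P F κ x (t + 1) p)
    (c1 := c1 + c2 + 4 * (2 ^ κ / 2 ^ P.dl)) (c2 := 2 * ((1 / 2 ^ P.sb) * F x) + c2) (c3 := c3)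
    (btw_calm P F κ x E i)
    (fun q hq a c ha hc => by
      show ((VV P.γ (nlet P F κ x) (unt P F κ x) E 0 i q a c : ℕ) : ℝ) = _
      rw [VV, hE i hi q hq a ha c hc])
    b0 ν0 (by linarith) hβ1 (by positivity) (by positivity) (by positivity) k3 (by positivity)
    (by nlinarith) le_rfl (fun _ _ => Nat.cast_nonneg _)
    (fun q _ a c ha hc => ⟨Nat.cast_nonneg _, dist_npiece_real P F κ x q ha hc⟩)
    (fun q hq a c ha hc => numSt_near hh (hdn q hq a ha c hc) (hcl q hq a ha c hc))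
    (fun q hq a c ha hc => by
      have h1 := hh.lipR (npiece P F κ x q a c) (tpiece P F κ x q) (hdn q hq a ha c hc) (hdt q hq)
        rfl rfl
      have h2 := dist_npiece_real P F κ x q ha hc
      linarith)
    (fun q hq a c ha hc => hh.lipF (npiece P F κ x q a c) (tpiece P F κ x q) (hdn q hq a ha c hc)
      (hdt q hq) rfl rfl)
    ht hp ha hc' hz hz' (sum_tpiece_le_unt P F κ x (t + 1) p) (le_unt P F κ x (t + 1) p)
    (Nat.cast_nonneg _)
  have e : 8 * 4 ^ P.n * (3 * (1 / 2 ^ P.sb : ℝ)) = 24 * 4 ^ P.n / 2 ^ P.sb := by ring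
  rw [e] at key
  simpa using key

/-- **the clip is never active** (form of `state_two`, `near_inner`: `gn = γ`, `gd = 1`) -/
theorem excess_calm {K : ℕ} {Xs : ℕ → ℕ → St → ℕ} {Rs : ℕ → St → ℝ}
    (h : ∀ i < K, OscR P F Dom (Xs i) (Rs i) b ν ζ c1 c2 c3) {κ : ℕ} {x : St}
    (hdn : ∀ q < 2 ^ P.n, ∀ a < nlet P F κ x, ∀ c < nlet P F κ x, Dom (npiece P F κ x q a c))
    (hdt : ∀ q < 2 ^ P.n, Dom (tpiece P F κ x q))
    (hcl : ∀ q < 2 ^ P.n, ∀ a < nlet P F κ x, ∀ c < nlet P F κ x,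
      cls F (npiece P F κ x q a c) ≤ κ + P.du)
    (hβ1 : (b + ν) * (1 + ζ) ≤ 1)
    (hc : c1 + 2 * c2 + 4 * (2 ^ κ / 2 ^ P.dl) + (b + ν) * c3 ≤ 2 * ((1 / 2 ^ P.sb) * F x))
    {g : ℕ} (hg : (24 * 4 ^ P.n / 2 ^ P.sb + 2 * ((b + ν) * (1 + ζ))) * (P.γ * g) ≤ 1)
    {E : ℕ → ℕ → ℕ → ℕ → ℕ}
    (hE : ∀ i < K, ∀ q < 2 ^ P.n, ∀ a < nlet P F κ x, ∀ c < nlet P F κ x,
      E i q a c = numSt P F κ (Xs i) (npiece P F κ x q a c))
    {i : ℕ} (hi : i < K) {t p : ℕ} (ht : t < P.n) (hp : p < 2 ^ (P.n - (t + 1))) {a c z : ℕ}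
    (ha : a < nlet P F κ x) (hc' : c < nlet P F κ x) (hz : z < nlet P F κ x) :
    P.γ * (VV P.γ (nlet P F κ x) (unt P F κ x) E t i (2 * p) a z
        + VV P.γ (nlet P F κ x) (unt P F κ x) E t i (2 * p + 1) z c
        - minR (nlet P F κ x) (fun z => VV P.γ (nlet P F κ x) (unt P F κ x) E t i (2 * p) a z
        + VV P.γ (nlet P F κ x) (unt P F κ x) E t i (2 * p + 1) z c)) * g
      ≤ 1 * unt P F κ x (t + 1) p :=
  excess_nat (u := fun z => VV P.γ (nlet P F κ x) (unt P F κ x) E t i (2 * p) a z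
        + VV P.γ (nlet P F κ x) (unt P F κ x) E t i (2 * p + 1) z c) (nlet_pos P F κ x)
    (by push_cast; exact hg)
    (fun z hz z' hz' => by
      have := osc_calm h hdn hdt hcl hβ1 hc hE hi ht hp ha hc' hz hz'
      push_cast
      linarith) hz

/-! ### size of the values -/

/-- the value of a node is at most the sum of upper bounds of its ends -/
theorem VV_le_sum {γ B n : ℕ} {U : ℕ → ℕ → ℕ} {E : ℕ → ℕ → ℕ → ℕ → ℕ} (hB : 0 < B)
    (hU : ∀ t p, 0 < U t p) {i : ℕ} {m : ℕ → ℕ}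
    (hm : ∀ q < 2 ^ n, ∀ a < B, ∀ c < B, E i q a c ≤ m q) {a c : ℕ} (ha : a < B) (hc : c < B) :
    VV γ B U E n i 0 a c ≤ ∑ q ∈ range (2 ^ n), m q := by
  have key : ∀ t ≤ n, ∀ p < 2 ^ (n - t), ∀ a < B, ∀ c < B,
      VV γ B U E t i p a c ≤ ∑ q ∈ blk t p, m q := by
    intro t
    induction t with
    | zero =>
      intro _ p hp a ha c hc
      rw [blk_zero, sum_singleton, VV]
      exact hm p (by simpa using hp) a ha c hc
    | succ t ih =>
      intro ht p hp a ha c hc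
      have hp2 : 2 * p + 1 < 2 ^ (n - t) := by
        have : n - t = (n - (t + 1)) + 1 := by omega
        rw [this, pow_succ]
        omega
      obtain ⟨z, hz, h1⟩ := (hv_between (gn := γ) (gd := 1) (B := B) (U := U (t + 1) p)
        (w0 := fun _ => 1)
        (us := fun i' z => VV γ B U E t i' (2 * p) a z + VV γ B U E t i' (2 * p + 1) z c)
        hB one_pos (hU _ _) (fun _ _ => one_pos) i).1
      have h2 := ih (by omega) (2 * p) (by omega) a ha z hz
      have h3 := ih (by omega) (2 * p + 1) hp2 z hz c hc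
      have e : ∑ q ∈ blk (t + 1) p, m q = ∑ q ∈ blk t (2 * p), m q + ∑ q ∈ blk t (2 * p + 1), m q := by
        unfold blk
        have e1 : p * 2 ^ (t + 1) = 2 * p * 2 ^ t := by ring
        have e2 : (p + 1) * 2 ^ (t + 1) = (2 * p + 1 + 1) * 2 ^ t := by ring
        rw [e1, e2]
        rw [Finset.sum_Ico_consecutive m (Nat.mul_le_mul_right _ (by omega))
          (Nat.mul_le_mul_right _ (by omega))]
      rw [e, VV]
      exact h1.trans (add_le_add h2 h3)
  have h := key n le_rfl 0 (by simp) a ha c hc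
  have e : blk n 0 = range (2 ^ n) := by unfold blk; simp [Nat.Ico_zero_eq_range]
  rwa [e] at h

/-- the value of a node is at least the sum of lower bounds of its ends -/
theorem sum_le_VV {γ B n : ℕ} {U : ℕ → ℕ → ℕ} {E : ℕ → ℕ → ℕ → ℕ → ℕ} (hB : 0 < B)
    (hU : ∀ t p, 0 < U t p) {i : ℕ} {m : ℕ → ℕ}
    (hm : ∀ q < 2 ^ n, ∀ a < B, ∀ c < B, m q ≤ E i q a c) {a c : ℕ} (ha : a < B) (hc : c < B) :
    ∑ q ∈ range (2 ^ n), m q ≤ VV γ B U E n i 0 a c := by
  have key : ∀ t ≤ n, ∀ p < 2 ^ (n - t), ∀ a < B, ∀ c < B,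
      ∑ q ∈ blk t p, m q ≤ VV γ B U E t i p a c := by
    intro t
    induction t with
    | zero =>
      intro _ p hp a ha c hc
      rw [blk_zero, sum_singleton, VV]
      exact hm p (by simpa using hp) a ha c hc
    | succ t ih =>
      intro ht p hp a ha c hc
      have hp2 : 2 * p + 1 < 2 ^ (n - t) := by
        have : n - t = (n - (t + 1)) + 1 := by omega
        rw [this, pow_succ]
        omega
      obtain ⟨z, hz, h1⟩ := (hv_between (gn := γ) (gd := 1) (B := B) (U := U (t + 1) p)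
        (w0 := fun _ => 1)
        (us := fun i' z => VV γ B U E t i' (2 * p) a z + VV γ B U E t i' (2 * p + 1) z c)
        hB one_pos (hU _ _) (fun _ _ => one_pos) i).2
      have h2 := ih (by omega) (2 * p) (by omega) a ha z hz
      have h3 := ih (by omega) (2 * p + 1) hp2 z hz c hc
      have e : ∑ q ∈ blk (t + 1) p, m q = ∑ q ∈ blk t (2 * p), m q + ∑ q ∈ blk t (2 * p + 1), m q := by
        unfold blk
        have e1 : p * 2 ^ (t + 1) = 2 * p * 2 ^ t := by ring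
        have e2 : (p + 1) * 2 ^ (t + 1) = (2 * p + 1 + 1) * 2 ^ t := by ring
        rw [e1, e2]
        rw [Finset.sum_Ico_consecutive m (Nat.mul_le_mul_right _ (by omega))
          (Nat.mul_le_mul_right _ (by omega))]
      rw [e, VV]
      exact (add_le_add h2 h3).trans h1
  have h := key n le_rfl 0 (by simp) a ha c hc
  have e : blk n 0 = range (2 ^ n) := by unfold blk; simp [Nat.Ico_zero_eq_range]
  rwa [e] at h

theorem le_maxR {n a : ℕ} {f : ℕ → ℕ} (ha : a < n) : f a ≤ maxR n f := by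
  unfold maxR
  have : ∀ (l : List ℕ) (m : ℕ), m ≤ l.foldl (fun m a => max m (f a)) m ∧
      ∀ b ∈ l, f b ≤ l.foldl (fun m a => max m (f a)) m := by
    intro l
    induction l with
    | nil => intro m; simp
    | cons c l ih =>
      intro m
      rw [List.foldl_cons]
      obtain ⟨h1, h2⟩ := ih (max m (f c))
      refine ⟨(le_max_left _ _).trans h1, fun b hb => ?_⟩
      rcases List.mem_cons.1 hb with rfl | hb
      · exact (le_max_right _ _).trans h1
      · exact h2 b hb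
  exact (this _ 0).2 a (List.mem_range.2 ha)

/-- regular states: the near pieces cost `≤ Creg F x` together -/
theorem regular_sum {κ : ℕ} {x : St} (h : regular P F κ x) :
    ∑ q ∈ range (2 ^ P.n), maxR (nlet P F κ x) (fun a => maxR (nlet P F κ x) fun c =>
      F (npiece P F κ x q a c)) ≤ P.Creg * F x := by
  unfold regular at h
  rw [sumR_eq] at h
  exact h

/-- in a regular state every near piece costs at most `Creg F x` -/
theorem regular_npiece {κ : ℕ} {x : St} (h : regular P F κ x) {q a c : ℕ} (hq : q < 2 ^ P.n)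
    (ha : a < nlet P F κ x) (hc : c < nlet P F κ x) :
    F (npiece P F κ x q a c) ≤ P.Creg * F x := by
  refine le_trans ?_ (regular_sum h)
  refine le_trans ?_ (single_le_sum (f := fun q => maxR (nlet P F κ x) (fun a =>
    maxR (nlet P F κ x) fun c => F (npiece P F κ x q a c))) (fun _ _ => Nat.zero_le _)
    (mem_range.2 hq))
  exact (le_maxR (f := fun c => F (npiece P F κ x q a c)) hc).trans
    (le_maxR (f := fun a => maxR (nlet P F κ x) fun c => F (npiece P F κ x q a c)) ha)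

/-- hence its class is at most `κ + du` if `Creg ≤ 2^(du - 2)` and `cls F x ≤ κ + 1` -/
theorem regular_cls {κ : ℕ} {x : St} (h : regular P F κ x) (hx : cls F x ≤ κ + 1)
    (hC : 4 * P.Creg ≤ 2 ^ P.du) {q a c : ℕ} (hq : q < 2 ^ P.n) (ha : a < nlet P F κ x)
    (hc : c < nlet P F κ x) : cls F (npiece P F κ x q a c) ≤ κ + P.du := by
  have h1 := regular_npiece h hq ha hc
  have h2 : F x < 2 ^ (κ + 2) :=
    (lt_two_pow_cls F x).trans_le (Nat.pow_le_pow_right (by norm_num) (by omega))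
  by_contra hlt
  have hlt' : κ + P.du + 1 ≤ cls F (npiece P F κ x q a c) := by omega
  rcases Nat.eq_zero_or_pos (F (npiece P F κ x q a c)) with h0 | h0
  · unfold cls at hlt'
    rw [h0] at hlt'
    simp at hlt'
  · have h3 : 2 ^ (κ + P.du + 1) ≤ F (npiece P F κ x q a c) :=
      (Nat.pow_le_pow_right (by norm_num) hlt').trans (Nat.pow_log_le_self 2 h0.ne')
    have h4 : P.Creg * F x ≤ P.Creg * 2 ^ (κ + 2) := Nat.mul_le_mul_left _ h2.le
    have h5 : P.Creg * 2 ^ (κ + 2) = 4 * P.Creg * 2 ^ κ := by ring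
    have h6 : 4 * P.Creg * 2 ^ κ ≤ 2 ^ P.du * 2 ^ κ := Nat.mul_le_mul_right _ hC
    have h7 : 2 ^ (κ + P.du + 1) = 2 * (2 ^ P.du * 2 ^ κ) := by ring
    have h8 : 0 < 2 ^ P.du * 2 ^ κ := by positivity
    omega

/-- **size of the calm values** of a regular state -/
theorem calm_le {Xs : ℕ → St → ℕ} {Rs : St → ℝ}
    (h : OscR P F Dom Xs Rs b ν ζ c1 c2 c3) {κ : ℕ} {x : St} (hreg : regular P F κ x)
    (hdn : ∀ q < 2 ^ P.n, ∀ a < nlet P F κ x, ∀ c < nlet P F κ x, Dom (npiece P F κ x q a c))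
    {E : ℕ → ℕ → ℕ → ℕ → ℕ} {i : ℕ}
    (hE : ∀ q < 2 ^ P.n, ∀ a < nlet P F κ x, ∀ c < nlet P F κ x,
      E i q a c ≤ numSt P F κ Xs (npiece P F κ x q a c)) :
    (VV P.γ (nlet P F κ x) (unt P F κ x) E P.n i 0 0 0 : ℝ)
      ≤ (2 + ν) * (P.Creg * F x) + 2 ^ P.n * (c1 + c2 + 1) := by
  have ν0 := h.ν0
  have k1 := h.c1_0
  have k2 := h.c2_0
  set m : ℕ → ℕ := fun q => maxR (nlet P F κ x) (fun a => maxR (nlet P F κ x) fun c =>
      F (npiece P F κ x q a c)) with hm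
  have h1 : VV P.γ (nlet P F κ x) (unt P F κ x) E P.n i 0 0 0
      ≤ ∑ q ∈ range (2 ^ P.n), ⌈(2 + ν) * (m q : ℝ) + (c1 + c2)⌉₊ := by
    refine VV_le_sum (nlet_pos P F κ x) (unt_pos P F κ x) (fun q hq a ha c hc => ?_)
      (nlet_pos P F κ x) (nlet_pos P F κ x)
    refine (hE q hq a ha c hc).trans ?_
    have h2 := numSt_le h κ (hdn q hq a ha c hc)
    have h3 : F (npiece P F κ x q a c) ≤ m q :=
      (le_maxR (f := fun c => F (npiece P F κ x q a c)) hc).trans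
        (le_maxR (f := fun a => maxR (nlet P F κ x) fun c => F (npiece P F κ x q a c)) ha)
    have h4 : (F (npiece P F κ x q a c) : ℝ) ≤ m q := by exact_mod_cast h3
    have h5 : (numSt P F κ Xs (npiece P F κ x q a c) : ℝ) ≤ (2 + ν) * (m q : ℝ) + (c1 + c2) := by
      have := mul_le_mul_of_nonneg_left h4 (by linarith : (0 : ℝ) ≤ 2 + ν)
      linarith
    exact_mod_cast h5.trans (Nat.le_ceil _)
  have h2 : ((∑ q ∈ range (2 ^ P.n), ⌈(2 + ν) * (m q : ℝ) + (c1 + c2)⌉₊ : ℕ) : ℝ)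
      ≤ ∑ q ∈ range (2 ^ P.n), ((2 + ν) * (m q : ℝ) + (c1 + c2 + 1)) := by
    push_cast
    refine sum_le_sum fun q _ => ?_
    have h0 : (0 : ℝ) ≤ (2 + ν) * (m q : ℝ) + (c1 + c2) := by positivity
    have := (Nat.ceil_lt_add_one h0).le
    linarith
  have h3 : ∑ q ∈ range (2 ^ P.n), ((2 + ν) * (m q : ℝ) + (c1 + c2 + 1))
      = (2 + ν) * ((∑ q ∈ range (2 ^ P.n), m q : ℕ) : ℝ) + 2 ^ P.n * (c1 + c2 + 1) := by
    rw [sum_add_distrib, ← mul_sum, sum_const, card_range, nsmul_eq_mul]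
    push_cast
    ring
  have h4 : ((∑ q ∈ range (2 ^ P.n), m q : ℕ) : ℝ) ≤ P.Creg * F x := by
    exact_mod_cast regular_sum hreg
  have h5 : (VV P.γ (nlet P F κ x) (unt P F κ x) E P.n i 0 0 0 : ℝ)
      ≤ ((∑ q ∈ range (2 ^ P.n), ⌈(2 + ν) * (m q : ℝ) + (c1 + c2)⌉₊ : ℕ) : ℝ) := by
    exact_mod_cast h1
  have h6 := mul_le_mul_of_nonneg_left h4 (by linarith : (0 : ℝ) ≤ 2 + ν)
  linarith

end Crest.Agent.R288.OscI283
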