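import Crest.Agent.R288.PotS_644
import Crest.Agent.R288.Dom_20

/-!
# R288 [WINSTM] (helper330): what the windows of one epoch deliver, and the epoch bound

Target = `PotS644.epoch_ok_dist` (= `PotR644.epoch_bound_dist` on one state type), `V := G + C0`.

`structure WinIn`: facts about ONE epoch at the states `x` of the domain `InD N I D`; `hat x` = rounded
state (`rdn (cls F x) x`), `R x` = arrival value in own label (`leaf ? G x : dist x (hat x) + Rp x`),
`Rp x` = mean over the ranks of the value of the pair `(cls F x, hat x)`, `df x` = defect of (F3') at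
`hat x`, `Sc x m` = "m is a comparator staircase of `hat x`".

* `WinIn.epoch` : `R x + lam Φ x ≤ (1+ρ)^{x.i} (1 + c + κ₁ x.i) (G x + C0)`;
* `WinIn.epoch_le` : `R x ≤ (1+θ) (1 + c + κ₁ I) (G x + C0)`.
-/

set_option autoImplicit false

namespace Crest.Agent.R288.WinStm330

open Finset
open Crest.Agent.R288.Alg45 (St)
open Crest.Agent.R288.PotF245 Crest.Agent.R288.Dom20

/-- piece `q` of the cut sequence `m` below the state `x` -/
def pcs (N : ℕ) (x : St) (m : ℕ → ℤ) (q : ℕ) : St := ⟨x.i - 1, N * x.j + q, m q, m (q + 1)⟩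

/-- the list of the pieces -/
def pcl (N : ℕ) (x : St) (m : ℕ → ℤ) : List St := (List.range N).map (pcs N x m)

theorem sum_pcl (N : ℕ) (x : St) (m : ℕ → ℤ) (f : St → ℝ) :
    ((pcl N x m).map f).sum = ∑ q ∈ range N, f (pcs N x m q) := by
  unfold pcl
  rw [List.map_map]
  generalize pcs N x m = g
  induction N with
  | zero => simp
  | succ N ih => rw [List.range_succ, List.map_append, List.sum_append, ih, sum_range_succ]; simp

/-- displacement -/
def av (x : St) : ℝ := ((x.v - x.u : ℤ) : ℝ)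

theorem sum_av (N : ℕ) (x : St) (m : ℕ → ℤ) :
    ∑ q ∈ range N, av (pcs N x m q) = ((m N - m 0 : ℤ) : ℝ) := by
  unfold av pcs
  induction N with
  | zero => simp
  | succ N ih => rw [sum_range_succ, ih]; push_cast; ring

/-- energy of a staircase `m` against the slope `θ` -/
noncomputable def enS (N : ℕ) (F : St → ℕ) (θ : ℝ) (x : St) (m : ℕ → ℤ) : ℝ :=
  ∑ q ∈ range N, (F (pcs N x m q) : ℝ) * (av (pcs N x m q) / F (pcs N x m q) - θ) ^ 2

/-- sum over the pieces -/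
def sm (N : ℕ) (f : St → ℝ) (x : St) (m : ℕ → ℤ) : ℝ := ∑ q ∈ range N, f (pcs N x m q)

/-- **what one epoch delivers** (see the header) -/
structure WinIn (N I D : ℕ) (G F : St → ℕ) (lf : St → Prop) (hat : St → St)
    (Sc : St → (ℕ → ℤ) → Prop) (R Rp df : St → ℝ) (C0 : ℕ) (Lam β p ζ δ b1 k1 κn s kd e4 e5 r1 : ℝ) :
    Prop where
  /-- coercivity -/
  ge : ∀ x, InD N I D x → (x.v - x.u).natAbs ≤ G x
  GF : ∀ x, InD N I D x → G x ≤ F x
  FB : ∀ x, InD N I D x → (F x : ℝ) ≤ β * (G x + C0)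
  /-- active states -/
  act : ∀ x, InD N I D x → ¬ lf x → 1 ≤ x.i ∧ Lam < G x
  /-- value of a leaf -/
  leaf : ∀ x, InD N I D x → lf x → R x ≤ G x + e5 * (G x + C0)
  hat_i : ∀ x, InD N I D x → (hat x).i = x.i
  hat_in : ∀ x, InD N I D x → ¬ lf x → InD N I D (hat x)
  hat_dist : ∀ x, InD N I D x → ¬ lf x → (Alg45.dist x (hat x) : ℝ) ≤ p * F x
  hat_G : ∀ x, InD N I D x → ¬ lf x → G (hat x) ≤ G x + Alg45.dist x (hat x)
  hat_F : ∀ x, InD N I D x → ¬ lf x → |(F x : ℝ) - F (hat x)| ≤ ζ * F x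
  /-- arrival value in own label -/
  arr : ∀ x, InD N I D x → ¬ lf x → R x ≤ Alg45.dist x (hat x) + Rp x
  hat_leaf : ∀ x, InD N I D x → ¬ lf x → lf (hat x) → Rp x ≤ G (hat x) + e5 * (G x + C0)
  /-- retired pairs -/
  ret : ∀ x, InD N I D x → ¬ lf x → ¬ lf (hat x) → (1 - δ) * F (hat x) ≤ |av (hat x)| →
    Rp x ≤ (1 + b1) * F (hat x)
  /-- (F3') at the rounded state -/
  f3 : ∀ x, InD N I D x → ¬ lf x → ¬ lf (hat x) → ∀ m, Sc x m →
    (F (hat x) : ℝ) ≤ sm N (fun y => F y) (hat x) m + df x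
  df0 : ∀ x, InD N I D x → ¬ lf x → 0 ≤ df x
  dfV : ∀ x, InD N I D x → ¬ lf x → df x ≤ kd * (G x + C0)
  /-- every comparator -/
  far : ∀ x, InD N I D x → ¬ lf x → ¬ lf (hat x) → ∀ m, Sc x m →
    Rp x ≤ sm N R (hat x) m + k1 * max (F (hat x) : ℝ) (sm N (fun y => F y) (hat x) m)
      + e4 * (G x + C0)
  /-- straight comparators -/
  near : ∀ x, InD N I D x → ¬ lf x → ¬ lf (hat x) → |av (hat x)| < (1 - δ) * F (hat x) →
    ∀ m, Sc x m → enS N F (av (hat x) / F (hat x)) (hat x) m ≤ s ^ 2 * F (hat x) →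
    sm N (fun y => F y) (hat x) m - F (hat x) ≤ s * F (hat x) → df x ≤ s * F (hat x) →
    Rp x ≤ sm N R (hat x) m + κn * F (hat x) + e4 * (G x + C0)
  /-- the comparator: an optimal staircase rounded to the window grid -/
  cmp : ∀ x, InD N I D x → ¬ lf x → ¬ lf (hat x) → ∃ m, Sc x m ∧ m 0 = (hat x).u ∧
    m N = (hat x).v ∧ (∀ q ≤ N, -(D : ℤ) ≤ m q ∧ m q ≤ D) ∧
    sm N (fun y => G y) (hat x) m ≤ G (hat x) + r1 * (G x + C0)

variable {N I D : ℕ} {G F : St → ℕ} {lf : St → Prop} {hat : St → St}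
  {Sc : St → (ℕ → ℤ) → Prop} {R Rp df : St → ℝ} {C0 : ℕ}
  {Lam β p ζ δ b1 k1 κn s kd e4 e5 r1 : ℝ}

theorem abs_av (x : St) : |av x| = ((x.v - x.u).natAbs : ℝ) := by
  unfold av
  rw [← Int.cast_abs, Nat.cast_natAbs]

theorem abs_av_sub (x y : St) : |av x - av y| ≤ Alg45.dist x y := by
  unfold av Alg45.dist
  have h : |(((x.v - x.u) - (y.v - y.u) : ℤ) : ℝ)|
      = ((((x.v - x.u) - (y.v - y.u)).natAbs : ℕ) : ℝ) := by
    rw [← Int.cast_abs, Nat.cast_natAbs]
  have h1 : ((x.v - x.u) - (y.v - y.u)).natAbs ≤ (x.u - y.u).natAbs + (x.v - y.v).natAbs := by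
    omega
  have h2 : ((((x.v - x.u) - (y.v - y.u)).natAbs : ℕ) : ℝ)
      ≤ (((x.u - y.u).natAbs + (x.v - y.v).natAbs : ℕ) : ℝ) := by exact_mod_cast h1
  rw [← h] at h2
  push_cast at h2 ⊢
  exact h2

theorem Phi_le {F a : St → ℝ} {x : St} (h : |a x| ≤ F x) : Phi F a x ≤ 3 * F x := by
  unfold Phi
  have h0 : 0 ≤ F x := (abs_nonneg _).trans h
  rcases h0.eq_or_lt with h1 | h1
  · rw [← h1]; simp
  · have h2 : a x ^ 2 / F x ≤ F x := by
      rw [div_le_iff₀ h1, ← sq_abs]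
      nlinarith [abs_nonneg (a x)]
    linarith

theorem WinIn.av_le (W : WinIn N I D G F lf hat Sc R Rp df C0 Lam β p ζ δ b1 k1 κn s kd e4 e5 r1) {x : St}
    (hx : InD N I D x) : |av x| ≤ F x := by
  rw [abs_av]
  exact_mod_cast (W.ge x hx).trans (W.GF x hx)

/-- **the epoch bound** -/
theorem WinIn.epoch (W : WinIn N I D G F lf hat Sc R Rp df C0 Lam β p ζ δ b1 k1 κn s kd e4 e5 r1)
    {lam c ρ κ₁ : ℝ} (hN : 0 < N) (hLam : 0 < Lam) (hβ : 0 ≤ β) (hp : 0 ≤ p) (hζ : 0 ≤ ζ)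
    (hδ0 : 0 ≤ δ) (hδ : δ < 1) (hb1 : 0 ≤ b1) (hk1 : 0 ≤ k1) (hκn : 0 ≤ κn) (hs : 0 < s)
    (hs1 : s ≤ 1) (he4 : 0 ≤ e4) (hkd : 0 ≤ kd)
    (hlam : k1 * (1 + s ^ 2) ≤ lam * s ^ 2)
    (hρ : p * β + r1 + N * C0 / Lam ≤ ρ) (hr1 : 0 ≤ r1)
    (hc : (1 + b1) * (1 + p * β) ≤ (1 - δ) * (1 + c - p * β - 3 * lam * β))
    (hc5 : e5 + 2 * (p * β) + 3 * lam * β ≤ c)
    (hκ₁ : κn * ((1 + ζ) * β) + (2 * lam + k1 / s) * kd + ((p * β + e4) + 5 * lam * ((p + ζ) * β))
      ≤ κ₁)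
    (x : St) (hx : InD N I D x) :
    R x + lam * Phi (fun y => (F y : ℝ)) av x
      ≤ (1 + ρ) ^ x.i * (1 + c + κ₁ * x.i) * (G x + C0) := by
  have hs2 : (0 : ℝ) < s ^ 2 := by positivity
  have hlk : k1 ≤ lam := by
    by_contra h
    push Not at h
    nlinarith [mul_lt_mul_of_pos_right h hs2]
  have hlam0 : 0 ≤ lam := hk1.trans hlk
  have hNR : (0 : ℝ) ≤ N := Nat.cast_nonneg _
  have hC0R : (0 : ℝ) ≤ C0 := Nat.cast_nonneg _
  have hρ0 : 0 ≤ ρ := le_trans (by positivity) hρ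
  have hV0 : ∀ y : St, (0 : ℝ) ≤ (G y : ℝ) + C0 := fun y => by positivity
  have hpβ : 0 ≤ p * β := mul_nonneg hp hβ
  have hlβ : 0 ≤ lam * β := mul_nonneg hlam0 hβ
  -- consequences of `hc`
  have hc1 : 1 + p * β ≤ 1 + c - p * β - 3 * lam * β := by
    have h1 : 1 + p * β ≤ (1 + b1) * (1 + p * β) :=
      le_mul_of_one_le_left (by linarith) (by linarith)
    have h2 : 0 ≤ 1 + c - p * β - 3 * lam * β := by
      by_contra h
      push Not at h
      have : (1 - δ) * (1 + c - p * β - 3 * lam * β) < 0 :=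
        mul_neg_of_pos_of_neg (by linarith) h
      linarith
    have h3 : (1 - δ) * (1 + c - p * β - 3 * lam * β) ≤ 1 * (1 + c - p * β - 3 * lam * β) :=
      mul_le_mul_of_nonneg_right (by linarith) h2
    linarith
  have hc0 : 0 ≤ c := by linarith
  have hκ₁0 : 0 ≤ κ₁ := by
    refine le_trans ?_ hκ₁
    have : 0 ≤ k1 / s := div_nonneg hk1 hs.le
    positivity
  -- the potential of a state
  have hΦ : ∀ y, InD N I D y → lam * Phi (fun y => (F y : ℝ)) av y
      ≤ 3 * lam * β * (G y + C0) := by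
    intro y hy
    have h1 := Phi_le (F := fun y => (F y : ℝ)) (a := av) (x := y) (W.av_le hy)
    have h2 := W.FB y hy
    calc lam * Phi (fun y => (F y : ℝ)) av y ≤ lam * (3 * (β * (G y + C0))) := by
          refine mul_le_mul_of_nonneg_left (h1.trans ?_) hlam0
          linarith
      _ = _ := by ring
  have hleafV : ∀ y, InD N I D y → lf y →
      R y + lam * Phi (fun y => (F y : ℝ)) av y ≤ (1 + c) * (G y + C0) := by
    intro y hy hl
    have h1 := W.leaf y hy hl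
    have h2 := hΦ y hy
    have h3 : (1 + e5 + 3 * lam * β) * ((G y : ℝ) + C0) ≤ (1 + c) * (G y + C0) :=
      mul_le_mul_of_nonneg_right (by linarith) (hV0 y)
    linarith
  have key := PotS644.epoch_ok_dist (σ := St) (Ok := fun h y => InD N I D y ∧ y.i = h)
    (F := fun y => (F y : ℝ)) (a := av) (R := R) (V := fun y => (G y : ℝ) + C0)
    (k1 := k1) (κ := κn) (s := s) (lam := lam) (c := c) (CF := (1 + ζ) * β) (kd := kd)
    (κe := p * β + e4) (r := (p + ζ) * β) (κ₁ := κ₁) (ρ := ρ)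
    (fun h y hy => W.av_le hy.1) (fun h y _ => hV0 y) hk1 hκn hs hs1 hc0 hρ0 hlam hκ₁ hκ₁0
    (fun y hy => by
      refine hleafV y hy.1 ?_
      by_contra h
      have := (W.act y hy.1 h).1
      omega) ?_ x.i x ⟨hx, rfl⟩
  · exact key
  · intro h x ⟨hx, hxi⟩
    by_cases hl : lf x
    · exact Or.inl (hleafV x hx hl)
    have hGL := (W.act x hx hl).2
    have hFV := W.FB x hx
    have hGFx : (G x : ℝ) ≤ F x := by exact_mod_cast W.GF x hx
    have hdist := W.hat_dist x hx hl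
    have hdistV : (Alg45.dist x (hat x) : ℝ) ≤ p * β * (G x + C0) := by
      calc (Alg45.dist x (hat x) : ℝ) ≤ p * F x := hdist
        _ ≤ p * (β * (G x + C0)) := mul_le_mul_of_nonneg_left hFV hp
        _ = _ := by ring
    have hGh : (G (hat x) : ℝ) ≤ G x + Alg45.dist x (hat x) := by
      exact_mod_cast W.hat_G x hx hl
    have hF := abs_le.1 (W.hat_F x hx hl)
    have harr := W.arr x hx hl
    have hin := W.hat_in x hx hl
    have hΦx := hΦ x hx
    by_cases hlh : lf (hat x)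
    · left
      have h1 := W.hat_leaf x hx hl hlh
      have h2 : (1 + e5 + 2 * (p * β) + 3 * lam * β) * ((G x : ℝ) + C0) ≤ (1 + c) * (G x + C0) :=
        mul_le_mul_of_nonneg_right (by linarith) (hV0 x)
      linarith
    by_cases hret : (1 - δ) * F (hat x) ≤ |av (hat x)|
    · left
      have h1 := W.ret x hx hl hlh hret
      have h2 : |av (hat x)| ≤ G (hat x) := by
        rw [abs_av]; exact_mod_cast W.ge _ hin
      have h3 : (1 - δ) * F (hat x) ≤ (1 + p * β) * (G x + C0) := by linarith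
      have h4 : (1 - δ) * ((1 + b1) * F (hat x)) ≤
          (1 - δ) * ((1 + c - p * β - 3 * lam * β) * (G x + C0)) := by
        calc (1 - δ) * ((1 + b1) * F (hat x)) = (1 + b1) * ((1 - δ) * F (hat x)) := by ring
          _ ≤ (1 + b1) * ((1 + p * β) * (G x + C0)) :=
              mul_le_mul_of_nonneg_left h3 (by linarith)
          _ = (1 + b1) * (1 + p * β) * (G x + C0) := by ring
          _ ≤ (1 - δ) * (1 + c - p * β - 3 * lam * β) * (G x + C0) :=
              mul_le_mul_of_nonneg_right hc (hV0 x)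
          _ = _ := by ring
      have h5 : (1 + b1) * F (hat x) ≤ (1 + c - p * β - 3 * lam * β) * (G x + C0) :=
        le_of_mul_le_mul_left h4 (by linarith)
      linarith
    push Not at hret
    right
    obtain ⟨m, hSc, h0, hmN, hD, hcG⟩ := W.cmp x hx hl hlh
    have hact := W.act (hat x) hin hlh
    have hFh : (0 : ℝ) < F (hat x) := by
      have h1 : (G (hat x) : ℝ) ≤ F (hat x) := by exact_mod_cast W.GF _ hin
      linarith [hact.2]
    have hFx : (0 : ℝ) < F x := by linarith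
    have hih : (hat x).i = h + 1 := by rw [W.hat_i x hx, hxi]
    have hsF : ∀ f : St → ℝ, ((pcl N (hat x) m).map f).sum = sm N f (hat x) m :=
      fun f => sum_pcl N (hat x) m f
    refine ⟨hat x, pcl N (hat x) m, df x, Alg45.dist x (hat x) + e4 * (G x + C0), ?_,
      W.av_le hin, ?_, hFx, hFh, ?_, W.df0 x hx hl, W.dfV x hx hl, ?_, ?_, ?_, ?_, ?_, ?_, ?_⟩
    · -- pieces in the domain
      intro y hy
      unfold pcl at hy
      obtain ⟨q, hq, rfl⟩ := List.mem_map.1 hy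
      have hq := List.mem_range.1 hq
      refine ⟨hin.child (by omega) hq (hD q hq.le) (hD (q + 1) hq), ?_⟩
      show (hat x).i - 1 = h
      omega
    · -- sum of `V`
      rw [hsF]
      have e1 : sm N (fun y => (G y : ℝ) + C0) (hat x) m
          = sm N (fun y => (G y : ℝ)) (hat x) m + N * C0 := by
        unfold sm
        rw [sum_add_distrib, sum_const, card_range, nsmul_eq_mul]
      rw [e1]
      have h1 : (N : ℝ) * C0 ≤ N * C0 / Lam * (G x + C0) := by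
        rw [div_mul_eq_mul_div, le_div_iff₀ hLam]
        exact mul_le_mul_of_nonneg_left (by linarith) (by positivity)
      have h3 : (p * β + r1 + N * C0 / Lam) * ((G x : ℝ) + C0) ≤ ρ * (G x + C0) :=
        mul_le_mul_of_nonneg_right hρ (hV0 x)
      linarith
    · -- size of `F (hat x)`
      calc (F (hat x) : ℝ) ≤ (1 + ζ) * F x := by linarith [hF.1]
        _ ≤ (1 + ζ) * (β * (G x + C0)) := mul_le_mul_of_nonneg_left hFV (by linarith)
        _ = _ := by ring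
    · linarith
    · -- displacement
      refine (abs_av_sub x (hat x)).trans (hdistV.trans ?_)
      have : 0 ≤ ζ * β * ((G x : ℝ) + C0) := by positivity
      show p * β * ((G x : ℝ) + C0) ≤ (p + ζ) * β * (G x + C0)
      linarith
    · refine (W.hat_F x hx hl).trans ?_
      have h1 : ζ * F x ≤ ζ * (β * (G x + C0)) := mul_le_mul_of_nonneg_left hFV hζ
      have h2 : 0 ≤ p * β * ((G x : ℝ) + C0) := by positivity
      show ζ * F x ≤ (p + ζ) * β * (G x + C0)
      linarith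
    · rw [hsF]
      unfold sm
      rw [sum_av, h0, hmN]
      rfl
    · rw [hsF]
      exact W.f3 x hx hl hlh m hSc
    · rw [hsF, hsF]
      intro h1 h2 h3
      have e2 : En (fun y => (F y : ℝ)) av (av (hat x) / F (hat x)) (pcl N (hat x) m)
          = enS N F (av (hat x) / F (hat x)) (hat x) m := by
        unfold En
        rw [hsF]
        rfl
      rw [e2] at h1
      have := W.near x hx hl hlh hret m hSc h1 h2 h3
      linarith
    · rw [hsF, hsF]
      have h1 := W.far x hx hl hlh m hSc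
      have h2 : max (F (hat x) : ℝ) (sm N (fun y => (F y : ℝ)) (hat x) m)
          = F (hat x) + max (sm N (fun y => (F y : ℝ)) (hat x) m - F (hat x)) 0 := by
        rcases le_total (F (hat x) : ℝ) (sm N (fun y => (F y : ℝ)) (hat x) m) with h3 | h3
        · rw [max_eq_right h3, max_eq_left (by linarith)]; ring
        · rw [max_eq_left h3, max_eq_right (by linarith)]; ring
      rw [h2] at h1
      linarith

/-- the bound without potential, uniform in the height -/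
theorem WinIn.epoch_le (W : WinIn N I D G F lf hat Sc R Rp df C0 Lam β p ζ δ b1 k1 κn s kd e4 e5 r1)
    {lam c ρ κ₁ θ : ℝ} (hN : 0 < N) (hLam : 0 < Lam) (hβ : 0 ≤ β) (hp : 0 ≤ p) (hζ : 0 ≤ ζ)
    (hδ0 : 0 ≤ δ) (hδ : δ < 1) (hb1 : 0 ≤ b1) (hk1 : 0 ≤ k1) (hκn : 0 ≤ κn) (hs : 0 < s)
    (hs1 : s ≤ 1) (he4 : 0 ≤ e4) (hkd : 0 ≤ kd)
    (hlam : k1 * (1 + s ^ 2) ≤ lam * s ^ 2)
    (hρ : p * β + r1 + N * C0 / Lam ≤ ρ) (hr1 : 0 ≤ r1)
    (hc : (1 + b1) * (1 + p * β) ≤ (1 - δ) * (1 + c - p * β - 3 * lam * β))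
    (hc5 : e5 + 2 * (p * β) + 3 * lam * β ≤ c)
    (hκ₁ : κn * ((1 + ζ) * β) + (2 * lam + k1 / s) * kd + ((p * β + e4) + 5 * lam * ((p + ζ) * β))
      ≤ κ₁)
    (hθ : (1 + ρ) ^ I ≤ 1 + θ) (x : St) (hx : InD N I D x) :
    R x ≤ (1 + θ) * (1 + c + κ₁ * I) * (G x + C0) := by
  have key := W.epoch hN hLam hβ hp hζ hδ0 hδ hb1 hk1 hκn hs hs1 he4 hkd hlam hρ hr1 hc hc5 hκ₁ x hx
  have hs2 : (0 : ℝ) < s ^ 2 := by positivity
  have hlk : k1 ≤ lam := by
    by_contra h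
    push Not at h
    nlinarith [mul_lt_mul_of_pos_right h hs2]
  have hlam0 : 0 ≤ lam := hk1.trans hlk
  have hρ0 : 0 ≤ ρ := le_trans (by positivity) hρ
  have hpβ : 0 ≤ p * β := mul_nonneg hp hβ
  have hlβ : 0 ≤ lam * β := mul_nonneg hlam0 hβ
  have hc0 : 0 ≤ c := by
    have h1 : 1 + p * β ≤ (1 + b1) * (1 + p * β) :=
      le_mul_of_one_le_left (by linarith) (by linarith)
    by_contra h
    push Not at h
    have h2 : (1 - δ) * (1 + c - p * β - 3 * lam * β) ≤ (1 - δ) * 1 :=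
      mul_le_mul_of_nonneg_left (by linarith) (by linarith)
    nlinarith
  have hκ₁0 : 0 ≤ κ₁ := by
    refine le_trans ?_ hκ₁
    have : 0 ≤ k1 / s := div_nonneg hk1 hs.le
    positivity
  have hP : 0 ≤ Phi (fun y => (F y : ℝ)) av x :=
    add_nonneg (div_nonneg (sq_nonneg _) (Nat.cast_nonneg _)) (by positivity)
  have hi : x.i ≤ I := hx.1
  have h1 : (1 + ρ) ^ x.i ≤ 1 + θ := (pow_le_pow_right₀ (by linarith) hi).trans hθ
  have h2 : 1 + c + κ₁ * (x.i : ℝ) ≤ 1 + c + κ₁ * I := by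
    have : (x.i : ℝ) ≤ I := by exact_mod_cast hi
    nlinarith
  have h3 : 0 ≤ 1 + c + κ₁ * (x.i : ℝ) := by positivity
  have h4 : (0 : ℝ) ≤ (1 + ρ) ^ x.i := by positivity
  have h5 : (1 + ρ) ^ x.i * (1 + c + κ₁ * (x.i : ℝ)) ≤ (1 + θ) * (1 + c + κ₁ * I) :=
    mul_le_mul h1 h2 h3 (h4.trans h1)
  have h6 := mul_le_mul_of_nonneg_right h5 (show (0 : ℝ) ≤ (G x : ℝ) + C0 by positivity)
  have h7 := mul_nonneg hlam0 hP
  linarith

/-- **`ChainU616.Ana.ep`**: with `β = B ≤ B₀` and `kd`, `e5` affine in `B` the bound is affine in `B` -/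
theorem WinIn.ep {kd0 kd1 e50 e51 B B₀ : ℝ}
    (W : WinIn N I D G F lf hat Sc R Rp df C0 Lam B p ζ δ b1 k1 κn s (kd0 + kd1 * B) e4
      (e50 + e51 * B) r1)
    {lam ρ θ ca cq κa κq : ℝ} (hN : 0 < N) (hLam : 0 < Lam) (hB : 0 ≤ B) (hBB : B ≤ B₀)
    (hp : 0 ≤ p) (hζ : 0 ≤ ζ)
    (hδ0 : 0 ≤ δ) (hδ : δ < 1) (hb1 : 0 ≤ b1) (hk1 : 0 ≤ k1) (hκn : 0 ≤ κn) (hs : 0 < s)
    (hs1 : s ≤ 1) (he4 : 0 ≤ e4) (hkd0 : 0 ≤ kd0) (hkd1 : 0 ≤ kd1)
    (hr1 : 0 ≤ r1) (he51 : 0 ≤ e51)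
    (hlam : k1 * (1 + s ^ 2) ≤ lam * s ^ 2)
    (hρ : p * B₀ + r1 + N * C0 / Lam ≤ ρ) (hθ : (1 + ρ) ^ I ≤ 1 + θ)
    (hc : (1 + b1) * (1 + p * B₀) ≤ (1 - δ) * (1 + ca - p * B₀))
    (hca : e50 + 2 * (p * B₀) ≤ ca) (hcq : e51 + 3 * lam ≤ cq)
    (hκa : (2 * lam + k1 / s) * kd0 + e4 ≤ κa)
    (hκq : κn * (1 + ζ) + (2 * lam + k1 / s) * kd1 + p + 5 * lam * (p + ζ) ≤ κq)
    (x : St) (hx : InD N I D x) :
    R x ≤ ((1 + θ) * (1 + ca + κa * I) + (1 + θ) * (cq + κq * I) * B) * (G x + C0) := by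
  have hs2 : (0 : ℝ) < s ^ 2 := by positivity
  have hlk : k1 ≤ lam := by
    by_contra h
    push Not at h
    nlinarith [mul_lt_mul_of_pos_right h hs2]
  have hlam0 : 0 ≤ lam := hk1.trans hlk
  have hpB : p * B ≤ p * B₀ := mul_le_mul_of_nonneg_left hBB hp
  have hpB0 : 0 ≤ p * B := mul_nonneg hp hB
  have h1 := W.epoch_le (lam := lam) (c := ca + cq * B) (ρ := ρ) (κ₁ := κa + κq * B) (θ := θ)
    hN hLam hB hp hζ hδ0 hδ hb1 hk1 hκn hs hs1 he4 (by positivity) hlam (by linarith) hr1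
    (by
      have h2 : (1 + b1) * (1 + p * B) ≤ (1 + b1) * (1 + p * B₀) :=
        mul_le_mul_of_nonneg_left (by linarith) (by linarith)
      have h3 : (1 - δ) * (1 + ca - p * B₀)
          ≤ (1 - δ) * (1 + (ca + cq * B) - p * B - 3 * lam * B) := by
        refine mul_le_mul_of_nonneg_left ?_ (by linarith)
        have h4 : (e51 + 3 * lam) * B ≤ cq * B := mul_le_mul_of_nonneg_right hcq hB
        have h5 : 0 ≤ e51 * B := mul_nonneg he51 hB
        linarith
      linarith)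
    (by
      have h4 : (e51 + 3 * lam) * B ≤ cq * B := mul_le_mul_of_nonneg_right hcq hB
      linarith)
    (by
      have h4 : (κn * (1 + ζ) + (2 * lam + k1 / s) * kd1 + p + 5 * lam * (p + ζ)) * B ≤ κq * B :=
        mul_le_mul_of_nonneg_right hκq hB
      linarith)
    hθ x hx
  refine h1.trans (le_of_eq ?_)
  ring

end Crest.Agent.R288.WinStm330
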