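import Crest.Agent.R288.PlanI_693
import Crest.Agent.R288.AlgS_125
import Crest.Agent.R288.WinStm_330

/-!
# R288 [PLANJ]: (A12) for integer staircases, in the letters of `WinStm330.WinIn.near`, helper693

* `IsSt_of_letters`, `pcs_eq_piece`, `sm_eq_letters`, `enS_eq_letters`
* **`plan_stair`** : a straight comparator `m` (energy `≤ s² F`, growth `≤ s F`, defect `≤ s F`) of a
  state which is not `R1`: the state is regular and the pieces of `m` are near pieces.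
-/

set_option autoImplicit false

namespace Crest.Agent.R288.PlanJ693

open Finset Crest.Agent.R288.Alg45 Crest.Agent.R288.WinStm330
open Crest.Agent.R288.PlanI693 (Chd enr EnI)

variable (P : Par) (F : St → ℕ) (κ : ℕ) (x : St)

theorem pcs_eq_pc (m : ℕ → ℤ) (q : ℕ) : pcs P.N x m q = AlgS125.pc P x m q := rfl

theorem pcs_eq_piece {m : ℕ → ℤ} {c : ℕ → ℕ} (h : ∀ q ≤ P.N, cut P κ x q (c q) = m q) {q : ℕ}
    (hq : q < P.N) : pcs P.N x m q = piece P κ x q (c q) (c (q + 1)) := by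
  unfold pcs piece
  rw [h q hq.le, h (q + 1) hq]

theorem sm_eq_letters {m : ℕ → ℤ} {c : ℕ → ℕ} (h : ∀ q ≤ P.N, cut P κ x q (c q) = m q)
    (f : St → ℝ) : sm P.N f x m = ∑ q ∈ range P.N, f (piece P κ x q (c q) (c (q + 1))) := by
  unfold sm
  exact sum_congr rfl fun q hq => by rw [pcs_eq_piece P κ x h (mem_range.1 hq)]

theorem enS_eq_letters {m : ℕ → ℤ} {c : ℕ → ℕ} (h : ∀ q ≤ P.N, cut P κ x q (c q) = m q) :
    enS P.N F (av x / F x) x m = enr P F κ x c := by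
  unfold enS enr EnI
  refine sum_congr rfl fun q hq => ?_
  have hq := mem_range.1 hq
  have e1 : av (piece P κ x q (c q) (c (q + 1)))
      = (cut P κ x (q + 1) (c (q + 1)) : ℝ) - cut P κ x q (c q) := by
    unfold av piece; push_cast; ring
  have e2 : av x = (x.v : ℝ) - x.u := by unfold av; push_cast; ring
  rw [pcs_eq_piece P κ x h hq, e1, e2]

/-- **(A12) for integer staircases.** -/
theorem plan_stair {m : ℕ → ℤ} {d ζ C s W : ℝ} (hm : AlgS125.IsSt P κ x m) (hx : 0 < F x)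
    (hxD : inD P x) (hr : 1 ≤ P.r) (hgD : gst P κ ∣ P.Dm)
    (hδ : 4 < P.δi) (hR : ¬ R1 P F x)
    (hcoer : ∀ y : St, Chd P x y → |(y.v : ℝ) - y.u| ≤ F y)
    (hζ : 0 ≤ ζ) (hζ1 : ζ ≤ 1) (hC : 0 ≤ C)
    (hlip : ∀ y z : St, Chd P x y → Chd P x z → y.j = z.j →
      (F y : ℝ) ≤ (1 + ζ) * (F z + Alg45.dist y z) + C)
    (h3 : ∀ m' : ℕ → ℤ, AlgS125.IsSt P κ x m' → (F x : ℝ) ≤ sm P.N (fun y => F y) x m' + d)
    (hs : 0 ≤ s) (hs1 : s ≤ 1) (hE : enS P.N F (av x / F x) x m ≤ s ^ 2 * F x)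
    (hdr : sm P.N (fun y => (F y : ℝ)) x m - F x ≤ s * F x)
    (hds : d ≤ s * F x) (hW : 2 * (P.r : ℝ) * 2 ^ κ ≤ W)
    (hsmall : 7 * s * F x + (ζ * (4 * F x + 3 * W) + 2 * C)
      ≤ 4 * (1 / (P.δi : ℝ)) * (1 / 2 ^ P.sb) * F x)
    (hreg : (1 + ζ) * ((1 + s) * F x + 4 * P.N * (1 / 2 ^ P.sb * F x)) + P.N * C
      ≤ P.Creg * F x) :
    regular P F κ x ∧
    ∃ z : ℕ → ℕ, (∀ j, z j < nlet P F κ x) ∧ z 0 = 0 ∧ z P.N = 0 ∧
      (∀ j, 0 < j → j < P.N → pos P κ x (near P F κ x j (z j)) = m j) ∧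
      ∀ q < P.N, npiece P F κ x q (z q) (z (q + 1)) = pcs P.N x m q := by
  obtain ⟨c, hc, -, -, hcut⟩ := hm.letters P hgD
  have hxu : |x.u| ≤ (P.Dm : ℤ) := by
    have := hxD.1
    rw [abs_le]
    omega
  have hmin : ∀ c' : ℕ → ℕ, (∀ q < P.N, c' q < WA P κ) →
      (F x : ℝ) ≤ (∑ q ∈ range P.N, (F (piece P κ x q (c' q) (c' (q + 1))) : ℝ)) + d := by
    intro c' _
    have h := h3 _ (AlgS125.isSt_cut P c' hgD hxu)
    rwa [sm_eq_letters P κ x (c := c') (fun q _ => rfl)] at h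
  rw [enS_eq_letters P F κ x hcut] at hE
  rw [sm_eq_letters P κ x hcut] at hdr
  obtain ⟨h1, z, h2, h3', h4, h5, h6⟩ := PlanI693.plan_good P F κ x hx hxD hr hgD hδ hR
    (fun q _ => hc q) hcoer hζ hζ1 hC hlip hmin hs hs1 hE hdr hds hW hsmall hreg
  refine ⟨h1, z, h2, h3', h4, ?_, ?_⟩
  · intro j hj0 hj
    rw [(h5 j hj0 hj).1, ← hcut j hj.le, AlgS125.cut_inner P hj0 hj]
  · intro q hq
    rw [h6 q hq, pcs_eq_piece P κ x hcut hq]

end Crest.Agent.R288.PlanJ693
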