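import Crest.Agent.R288.RegE_441
import Crest.Agent.R288.OscI_283
import Crest.Agent.R288.PlanJ_693
import Crest.Agent.R288.HullB_407
import Crest.Agent.R288.AdmR_944

/-!
# R288 [WINSTM.NEAR] (helper482): the field `near` of `WinStm330.WinIn`

Straight comparators `m : IsSt P κ x m` of an active state `x` (`x = hat ..`, `κ = cls ..`) in the pair `(κ, x)`.

* `NearNum` : the numeric side conditions at one pair `(κ, x)`;
* `near_sums` : `∑_k bodyNum ≤ ∑_k ∑_q Rs k (piece q of m) + error` (plan_stair + near_body + numSt_near);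
* `near_mean` : the same for the means over the ranks;
* **`near_field`** : `Rp ≤ sm N Rm x m + κn * F x + e4 * V`.
-/

set_option autoImplicit false

namespace Crest.Agent.R288.WinNear482

open Finset Crest.Agent.R288.Alg45 Crest.Agent.R288.WinStm330
open Crest.Agent.R288.OscI283 (OscR)
open Crest.Agent.R288.PlanI693 (Chd)
open Crest.Agent.R288.AlgS125 (IsSt)
open Crest.Agent.R288.RegE441 (numE calmN Reg)

/-- numeric side conditions at the pair `(κ, x)`; `s` = straightness, `ζ`, `C` = Lipschitz constants of `F`,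
`b, ν, c1, c2, c3` = constants of `OscR` -/
structure NearNum (P : Par) (F : St → ℕ) (κ : ℕ) (x : St) (b ν ζ c1 c2 c3 s : ℝ) : Prop where
  r1 : 1 ≤ P.r
  g0 : 0 < P.g
  G2 : 2 ≤ P.g * (P.n + 1)
  γ0 : 0 < P.γ
  um0 : 0 < P.um
  pm0 : 0 < P.pm
  K0 : 0 < P.K
  δ4 : 4 < P.δi
  Creg1 : 1 ≤ P.Creg
  Creg_du : 4 * P.Creg ≤ 2 ^ P.du
  s0 : 0 ≤ s
  s1 : s ≤ 1
  ζ1 : ζ ≤ 1
  /-- targets near the cuts -/
  small : 7 * s * F x + (ζ * (4 * F x + 3 * (2 * (P.r : ℝ) * 2 ^ κ)) + 2 * c3)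
      ≤ 4 * (1 / (P.δi : ℝ)) * (1 / 2 ^ P.sb) * F x
  /-- regularity -/
  reg : (1 + ζ) * ((1 + s) * F x + 4 * P.N * (1 / 2 ^ P.sb * F x)) + P.N * c3 ≤ P.Creg * F x
  /-- no clip at the inner nodes -/
  β1 : (b + ν) * (1 + ζ) ≤ 1
  oscc : c1 + 2 * c2 + 4 * (2 ^ κ / 2 ^ P.dl) + (b + ν) * c3 ≤ 2 * ((1 / 2 ^ P.sb) * F x)
  clip : (24 * 4 ^ P.n / 2 ^ P.sb + 2 * ((b + ν) * (1 + ζ))) * (P.γ * ((P.g * (P.n + 1) : ℕ) : ℝ)) ≤ 1
  /-- no clip at the root -/
  root : ((P.g * (P.n + 1) : ℕ) : ℝ) * ((2 + ν) * (P.Creg * F x) + 2 ^ P.n * (c1 + c2 + 1))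
      ≤ P.um * (F x + 1)

variable {P : Par} {F : St → ℕ} {X : ℕ → ℕ → St → ℕ} {Rs : ℕ → St → ℝ} {Dom : St → Prop}
  {leaf : St → Option ℕ} {b ν ζ c1 c2 c3 s : ℝ} {κ : ℕ} {x : St}

/-- error of one near window, sum over the ranks -/
noncomputable def err (P : Par) (F : St → ℕ) (κ : ℕ) (x : St) (ν c1 c2 : ℝ) (m : ℕ → ℤ) : ℝ :=
  Reg P F κ x + P.K * (2 * 2 ^ P.n + 2)
    + P.K * (ν * sm P.N (fun y => F y) x m + P.N * (c1 + c2 + 4 * (2 ^ κ / 2 ^ P.dl)))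

/-- **near windows, sums over the ranks** -/
theorem near_sums (hO : ∀ k < P.K, OscR P F Dom (X k) (Rs k) b ν ζ c1 c2 c3)
    (hN : NearNum P F κ x b ν ζ c1 c2 c3 s)
    (hDom : ∀ y, Chd P x y → Dom y) (hg : ∀ y, Chd P x y → gst P (cls F y) ∣ P.Dm)
    (hx : 0 < F x) (hxD : inD P x) (hgκ : gst P κ ∣ P.Dm)
    (hadm : adm P F κ x = true) (hleaf : leaf x = none) (hR1 : ¬ R1 P F x)
    (hcoer : ∀ y : St, Chd P x y → |(y.v : ℝ) - y.u| ≤ F y)
    {d : ℝ} (h3 : ∀ m' : ℕ → ℤ, IsSt P κ x m' → (F x : ℝ) ≤ sm P.N (fun y => F y) x m' + d)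
    {m : ℕ → ℤ} (hm : IsSt P κ x m)
    (hE : enS P.N F (av x / F x) x m ≤ s ^ 2 * F x)
    (hdr : sm P.N (fun y => (F y : ℝ)) x m - F x ≤ s * F x) (hds : d ≤ s * F x) :
    ∑ k ∈ range P.K, (bodyNum P leaf F X k (fun _ => X k) κ x : ℝ)
      ≤ ∑ k ∈ range P.K, sm P.N (Rs k) x m + err P F κ x ν c1 c2 m := by
  have hO0 := hO 0 hN.K0
  obtain ⟨hreg, z, hz, -, -, -, hnp⟩ := PlanJ693.plan_stair P F κ x (W := 2 * (P.r : ℝ) * 2 ^ κ) hm hx
    hxD hN.r1 hgκ hN.δ4 hR1 hcoer hO0.ζ0 hN.ζ1 hO0.c3_0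
    (fun y w hy hw hj => hO0.lipF y w (hDom y hy) (hDom w hw) (hy.1.trans hw.1.symm) hj)
    h3 hN.s0 hN.s1 hE hdr hds le_rfl hN.small hN.reg
  have hNn : P.N = 2 ^ P.n := rfl
  have hcls : cls F x ≤ κ + 1 := (AdmR944.adm_iff.1 hadm).2.2.2
  have hdn : ∀ q < 2 ^ P.n, ∀ a c, Chd P x (npiece P F κ x q a c) := fun q hq a c =>
    PlanI693.piece_chd P κ x hN.r1 hxD (by rw [hNn]; exact hq) _ _
  have hdt : ∀ q < 2 ^ P.n, Chd P x (tpiece P F κ x q) := fun q hq =>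
    PlanI693.piece_chd P κ x hN.r1 hxD (by rw [hNn]; exact hq) _ _
  have hcl : ∀ q < 2 ^ P.n, ∀ a < nlet P F κ x, ∀ c < nlet P F κ x,
      cls F (npiece P F κ x q a c) ≤ κ + P.du := fun q hq a ha c hc =>
    OscI283.regular_cls hreg hcls hN.Creg_du hq ha hc
  have hcalm : ∀ k < P.K, ((P.g * (P.n + 1) : ℕ) : ℝ) * (calmN P F X κ x k : ℝ)
      ≤ P.um * (F x + 1) := by
    intro k hk
    refine le_trans (mul_le_mul_of_nonneg_left ?_ (Nat.cast_nonneg _)) hN.root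
    exact OscI283.calm_le (hO k hk) hreg (fun q hq a _ c _ => hDom _ (hdn q hq a c))
      (E := numE P F X κ x) (fun q _ a _ c _ => le_rfl)
  have hν := hO0.ν0
  have hH : RegE441.Hyp P F X κ x (P.g * (P.n + 1)) z := by
    refine
      { g0 := hN.g0
        gG := le_rfl
        G2 := hN.G2
        γ0 := hN.γ0
        um0 := hN.um0
        pm0 := hN.pm0
        reg := hreg
        cs := fun q _ _ => hz q
        osc := ?_
        rng := ?_
        rngF := ?_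
        hull := ?_ }
    · intro t ht p hp a ha c hc k hk w hw
      exact OscI283.excess_calm (K := P.K) (Xs := X) (Rs := Rs) (Dom := Dom) hO
        (fun q hq a _ c _ => hDom _ (hdn q hq a c)) (fun q hq => hDom _ (hdt q hq)) hcl hN.β1 hN.oscc
        hN.clip (E := numE P F X κ x) (fun i _ q _ a _ c _ => rfl) hk ht hp ha hc hw
    · intro k hk
      have := hcalm k hk
      exact_mod_cast this
    · have h1 : ((P.g * (P.n + 1) : ℕ) : ℝ) * (F x : ℝ) ≤ P.um * (F x + 1) := by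
        refine le_trans (mul_le_mul_of_nonneg_left ?_ (Nat.cast_nonneg _)) hN.root
        have h2 : (1 : ℝ) ≤ P.Creg := by exact_mod_cast hN.Creg1
        have h3 : (0 : ℝ) ≤ F x := Nat.cast_nonneg _
        have h4 : (F x : ℝ) ≤ P.Creg * F x := by nlinarith
        have h5 : (P.Creg * F x : ℝ) ≤ (2 + ν) * (P.Creg * F x) := by nlinarith
        have h6 : (0 : ℝ) ≤ 2 ^ P.n * (c1 + c2 + 1) := by
          have := hO0.c1_0
          have := hO0.c2_0
          positivity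
        linarith
      exact_mod_cast h1
    · intro k hk q hq a c
      have hy := hdn q hq a c
      unfold numE numSt
      split_ifs
      · exact HullB407.hull_le_F _ _ _
      · exact HullB407.hull_le_own (hg _ hy) hy.2.2.2
  refine (RegE441.near_body P F X κ x hH hadm hleaf hR1).trans ?_
  -- end values
  have hend : ∀ k < P.K, ∑ q ∈ range (2 ^ P.n), (numE P F X κ x k q (z q) (z (q + 1)) : ℝ)
      ≤ sm P.N (Rs k) x m + (ν * sm P.N (fun y => F y) x m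
        + P.N * (c1 + c2 + 4 * (2 ^ κ / 2 ^ P.dl))) := by
    intro k hk
    have e : sm P.N (Rs k) x m + (ν * sm P.N (fun y => F y) x m
        + P.N * (c1 + c2 + 4 * (2 ^ κ / 2 ^ P.dl)))
        = ∑ q ∈ range (2 ^ P.n), (Rs k (pcs P.N x m q) + (ν * F (pcs P.N x m q)
          + (c1 + c2 + 4 * (2 ^ κ / 2 ^ P.dl)))) := by
      unfold sm
      rw [hNn, sum_add_distrib, sum_add_distrib, sum_const, card_range, nsmul_eq_mul, mul_sum]
    rw [e]
    refine sum_le_sum fun q hq => ?_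
    have hq := mem_range.1 hq
    have hq' : q < P.N := hq
    have h1 : numE P F X κ x k q (z q) (z (q + 1)) = numSt P F κ (X k) (pcs P.N x m q) := by
      unfold numE
      rw [hnp q hq']
    rw [h1]
    have hyD : Dom (pcs P.N x m q) := by
      rw [← hnp q hq']
      exact hDom _ (hdn q hq _ _)
    have hyc : cls F (pcs P.N x m q) ≤ κ + P.du := by
      rw [← hnp q hq']
      exact hcl q hq _ (hz q) _ (hz (q + 1))
    have h2 := (abs_le.1 (OscI283.numSt_near (hO k hk) hyD hyc)).2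
    linarith
  have h2 := sum_le_sum fun k hk => hend k (mem_range.1 hk)
  rw [sum_add_distrib, sum_const, card_range, nsmul_eq_mul] at h2
  unfold err
  linarith

/-- **near windows, means over the ranks**; `Rk k` = value of rank `k` at the pair `(κ, x)` -/
theorem near_mean (hO : ∀ k < P.K, OscR P F Dom (X k) (Rs k) b ν ζ c1 c2 c3)
    (hN : NearNum P F κ x b ν ζ c1 c2 c3 s)
    (hDom : ∀ y, Chd P x y → Dom y) (hg : ∀ y, Chd P x y → gst P (cls F y) ∣ P.Dm)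
    (hx : 0 < F x) (hxD : inD P x) (hgκ : gst P κ ∣ P.Dm)
    (hadm : adm P F κ x = true) (hleaf : leaf x = none) (hR1 : ¬ R1 P F x)
    (hcoer : ∀ y : St, Chd P x y → |(y.v : ℝ) - y.u| ≤ F y)
    {d : ℝ} (h3 : ∀ m' : ℕ → ℤ, IsSt P κ x m' → (F x : ℝ) ≤ sm P.N (fun y => F y) x m' + d)
    {m : ℕ → ℤ} (hm : IsSt P κ x m)
    (hE : enS P.N F (av x / F x) x m ≤ s ^ 2 * F x)
    (hdr : sm P.N (fun y => (F y : ℝ)) x m - F x ≤ s * F x) (hds : d ≤ s * F x)
    {Rk : ℕ → ℝ} {c : ℝ}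
    (hR : ∀ k < P.K, Rk k ≤ bodyNum P leaf F X k (fun _ => X k) κ x + c) :
    (∑ k ∈ range P.K, Rk k) / P.K ≤ sm P.N (fun y => (∑ k ∈ range P.K, Rs k y) / P.K) x m
      + (err P F κ x ν c1 c2 m / P.K + c) := by
  have hK : (0 : ℝ) < P.K := by exact_mod_cast hN.K0
  have h1 := near_sums hO hN hDom hg hx hxD hgκ hadm hleaf hR1 hcoer h3 hm hE hdr hds
  have h2 := sum_le_sum fun k hk => hR k (mem_range.1 hk)
  rw [sum_add_distrib, sum_const, card_range, nsmul_eq_mul] at h2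
  have e : sm P.N (fun y => (∑ k ∈ range P.K, Rs k y) / P.K) x m
      = (∑ k ∈ range P.K, sm P.N (Rs k) x m) / P.K := by
    unfold sm
    rw [← sum_div, sum_comm]
  have e2 : (∑ k ∈ range P.K, sm P.N (Rs k) x m) / P.K + (err P F κ x ν c1 c2 m / P.K + c)
      = (∑ k ∈ range P.K, sm P.N (Rs k) x m + err P F κ x ν c1 c2 m + P.K * c) / P.K := by
    field_simp
    ring
  rw [e, e2]
  exact div_le_div_of_nonneg_right (by linarith) hK.le

theorem lt_four_pow (hadm : adm P F κ x = true) : (F x : ℝ) ≤ 4 * 2 ^ κ := by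
  exact_mod_cast (AdmR944.lt_of_adm hadm).le

/-- number of near letters of a pair -/
theorem nlet_le (hadm : adm P F κ x = true) : nlet P F κ x ≤ 2 ^ (P.pb + 4) := by
  have h1 : F x < 2 ^ (κ + 2) := by
    have := AdmR944.lt_of_adm hadm
    have e : 2 ^ (κ + 2) = 4 * 2 ^ κ := by rw [pow_add]; ring
    omega
  have h2 : rad P F κ x ≤ 2 ^ (P.pb + 2) := by
    unfold rad gst
    refine (Nat.div_le_div_right (Nat.div_le_self _ _)).trans ?_
    refine Nat.div_le_of_le_mul ?_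
    rw [← pow_add]
    exact h1.le.trans (Nat.pow_le_pow_right (by norm_num) (by omega))
  have h3 : 2 ^ (P.pb + 4) = 4 * 2 ^ (P.pb + 2) := by
    rw [show P.pb + 4 = 2 + (P.pb + 2) by ring, pow_add]; norm_num
  have h4 : 0 < 2 ^ (P.pb + 2) := by positivity
  unfold nlet
  omega

theorem log_nlet_le (hadm : adm P F κ x = true) : Real.log (nlet P F κ x) ≤ P.pb + 4 := by
  have h0 : (0 : ℝ) < nlet P F κ x := by
    have : 0 < nlet P F κ x := by unfold nlet; omega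
    exact_mod_cast this
  have h1 : ((nlet P F κ x : ℕ) : ℝ) ≤ 2 ^ (P.pb + 4) := by exact_mod_cast nlet_le hadm
  calc Real.log (nlet P F κ x) ≤ Real.log (2 ^ (P.pb + 4)) := Real.log_le_log h0 h1
    _ = (P.pb + 4 : ℕ) * Real.log 2 := by rw [Real.log_pow]
    _ ≤ (P.pb + 4 : ℕ) * 1 := by
        refine mul_le_mul_of_nonneg_left ?_ (Nat.cast_nonneg _)
        have := Real.log_two_lt_d9
        linarith
    _ = P.pb + 4 := by push_cast; ring

/-- coefficient of `F x` in the error of a near window -/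
noncomputable def kn (P : Par) (ν s c : ℝ) : ℝ :=
  ((P.um : ℝ) / P.pm + (P.pb + 4) / P.γ * (P.n * P.Creg + 1) + 1 / P.g) / P.K + ν * (1 + s)
    + 8 * P.N / 2 ^ P.dl + 2 * c

/-- additive part of the error of a near window -/
noncomputable def an (P : Par) (c1 c2 c : ℝ) : ℝ :=
  ((P.um : ℝ) / P.pm + (P.pb + 4) / P.γ * 2 ^ P.n) / P.K + (2 * 2 ^ P.n + 2) + P.N * (c1 + c2) + c

/-- `2^κ ≤ 2 F x` at an admissible pair of positive value -/
theorem pow_le (hadm : adm P F κ x = true) (hx : 0 < F x) : (2 : ℝ) ^ κ ≤ 2 * F x := by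
  exact_mod_cast AdmR944.ge_of_adm hadm hx.ne'

theorem err_le (hN : NearNum P F κ x b ν ζ c1 c2 c3 s) (hν : 0 ≤ ν) (hx : 0 < F x)
    (hadm : adm P F κ x = true) {m : ℕ → ℤ}
    (hdr : sm P.N (fun y => (F y : ℝ)) x m - F x ≤ s * F x) {c8 τ : ℝ} (hτ : 0 ≤ τ) :
    err P F κ x ν c1 c2 m / P.K + (c8 + τ * 2 ^ κ) ≤ kn P ν s τ * F x + an P c1 c2 c8 := by
  have hK : (0 : ℝ) < P.K := by exact_mod_cast hN.K0
  have hγ : (0 : ℝ) < P.γ := by exact_mod_cast hN.γ0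
  have hF0 : (0 : ℝ) ≤ F x := Nat.cast_nonneg _
  have hpow := pow_le hadm hx
  have hlog := log_nlet_le hadm
  have h1 : Reg P F κ x ≤ ((P.um : ℝ) / P.pm + (P.pb + 4) / P.γ * (P.n * P.Creg + 1) + 1 / P.g) * F x
      + ((P.um : ℝ) / P.pm + (P.pb + 4) / P.γ * 2 ^ P.n) := by
    unfold Reg
    have h2 : Real.log (nlet P F κ x) / P.γ * ((P.n * P.Creg + 1) * F x + 2 ^ P.n)
        ≤ (P.pb + 4) / P.γ * ((P.n * P.Creg + 1) * F x + 2 ^ P.n) := by
      refine mul_le_mul_of_nonneg_right (div_le_div_of_nonneg_right hlog hγ.le) (by positivity)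
    have e : (P.um : ℝ) * (F x + 1) / P.pm = (P.um : ℝ) / P.pm * F x + (P.um : ℝ) / P.pm := by ring
    rw [e]
    have e2 : (F x : ℝ) / P.g = 1 / P.g * F x := by ring
    rw [e2]
    linarith
  have h2 : ν * sm P.N (fun y => (F y : ℝ)) x m ≤ ν * ((1 + s) * F x) :=
    mul_le_mul_of_nonneg_left (by linarith) hν
  have h3 : (P.N : ℝ) * (c1 + c2 + 4 * (2 ^ κ / 2 ^ P.dl))
      ≤ 8 * P.N / 2 ^ P.dl * F x + P.N * (c1 + c2) := by
    have h4 : (2 : ℝ) ^ κ / 2 ^ P.dl ≤ 2 * F x / 2 ^ P.dl :=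
      div_le_div_of_nonneg_right hpow (by positivity)
    have h5 : (0 : ℝ) ≤ P.N := Nat.cast_nonneg _
    calc (P.N : ℝ) * (c1 + c2 + 4 * (2 ^ κ / 2 ^ P.dl))
        ≤ P.N * (c1 + c2 + 4 * (2 * F x / 2 ^ P.dl)) := by gcongr
      _ = _ := by ring
  have h4 : τ * 2 ^ κ ≤ 2 * τ * F x := by nlinarith
  have h5 : err P F κ x ν c1 c2 m / P.K ≤ (((P.um : ℝ) / P.pm + (P.pb + 4) / P.γ * (P.n * P.Creg + 1)
      + 1 / P.g) * F x + ((P.um : ℝ) / P.pm + (P.pb + 4) / P.γ * 2 ^ P.n)) / P.K + (2 * 2 ^ P.n + 2)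
      + (ν * ((1 + s) * F x) + (8 * P.N / 2 ^ P.dl * F x + P.N * (c1 + c2))) := by
    unfold err
    rw [div_le_iff₀ hK, add_mul, add_mul, div_mul_cancel₀ _ hK.ne']
    have h6 := mul_le_mul_of_nonneg_left (add_le_add h2 h3) hK.le
    nlinarith
  unfold kn an
  have e : (((P.um : ℝ) / P.pm + (P.pb + 4) / P.γ * (P.n * P.Creg + 1) + 1 / P.g) * F x
      + ((P.um : ℝ) / P.pm + (P.pb + 4) / P.γ * 2 ^ P.n)) / P.K
      = ((P.um : ℝ) / P.pm + (P.pb + 4) / P.γ * (P.n * P.Creg + 1) + 1 / P.g) / P.K * F x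
        + ((P.um : ℝ) / P.pm + (P.pb + 4) / P.γ * 2 ^ P.n) / P.K := by ring
  rw [e] at h5
  nlinarith

/-- **the field `near` of `WinStm330.WinIn`** at the rounded state `x`, class `κ`; `V` = any number with
`an ≤ e4 * V` (`V = G + C0`) -/
theorem near_field (hO : ∀ k < P.K, OscR P F Dom (X k) (Rs k) b ν ζ c1 c2 c3)
    (hN : NearNum P F κ x b ν ζ c1 c2 c3 s)
    (hDom : ∀ y, Chd P x y → Dom y) (hg : ∀ y, Chd P x y → gst P (cls F y) ∣ P.Dm)
    (hx : 0 < F x) (hxD : inD P x) (hgκ : gst P κ ∣ P.Dm)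
    (hadm : adm P F κ x = true) (hleaf : leaf x = none) (hR1 : ¬ R1 P F x)
    (hcoer : ∀ y : St, Chd P x y → |(y.v : ℝ) - y.u| ≤ F y)
    {d : ℝ} (h3 : ∀ m' : ℕ → ℤ, IsSt P κ x m' → (F x : ℝ) ≤ sm P.N (fun y => F y) x m' + d)
    {m : ℕ → ℤ} (hm : IsSt P κ x m)
    (hE : enS P.N F (av x / F x) x m ≤ s ^ 2 * F x)
    (hdr : sm P.N (fun y => (F y : ℝ)) x m - F x ≤ s * F x) (hds : d ≤ s * F x)
    {Rk A : ℕ → ℝ} {c8 τ : ℝ} (hτ : 0 ≤ τ)
    (hJ : ∀ k < P.K, Rk k ≤ A k + τ * 2 ^ κ)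
    (hA : ∀ k < P.K, A k ≤ bodyNum P leaf F X k (fun _ => X k) κ x + c8)
    {e4 V : ℝ} (hV : an P c1 c2 c8 ≤ e4 * V) :
    (∑ k ∈ range P.K, Rk k) / P.K ≤ sm P.N (fun y => (∑ k ∈ range P.K, Rs k y) / P.K) x m
      + kn P ν s τ * F x + e4 * V := by
  have h1 := near_mean (Rk := Rk) (c := c8 + τ * 2 ^ κ) hO hN hDom hg hx hxD hgκ hadm hleaf hR1 hcoer
    h3 hm hE hdr hds (fun k hk => by
      have := hJ k hk
      have := hA k hk
      linarith)
  have h2 := err_le (c8 := c8) hN (hO 0 hN.K0).ν0 hx hadm hdr hτ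
  linarith

end Crest.Agent.R288.WinNear482
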