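import Crest.Agent.R288.PlanK_693
import Crest.Agent.R288.ParO_331
import Crest.Agent.R288.WinNear_482

/-!
# R288 [W7], numeric side conditions of NEAR for the table (helper484)

`P = ParO331.parOf h`, `ParOK C h`, `1024 ≤ C`; at every pair `(κ, x)` with `2 ^ lam ≤ 2 F x` and `2 ^ κ ≤ 2 F x`.
`b` = constant of 283's `OscR` (`b * 2 ^ bb ≤ 64`), `ν = 2 / 2 ^ nb`, `c1 = 4`, `c2 ≤ 32`, `s = sP P`.

* `clip_le`, `bν_le`, `oscc_le`, `root_le`, `rngF_le`, `small_le`, `reg_le` : the single lines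
* **`nearNum`** : `WinNear482.NearNum`
* `b_le` : the constant of `OscJ283.oscR_of_JA`.
-/

set_option autoImplicit false

namespace Crest.Agent.R288.NearP484

open Crest.Agent.R288.Alg45 Crest.Agent.R288.ParO331
open Crest.Agent.R288.Par806 (ParOK nn δi sb Lg Mg W bb gg gam um pm lam dl nb pb a1)
open Crest.Agent.R288.PlanK693 (sP PlanNum)

variable {C h : ℕ} {ζ b c2 : ℝ}

/-- `γ G = gam gg (nn+1)`, `G = g (n+1)` -/
def GG (h : ℕ) : ℕ := gg h * (nn h + 1)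

theorem sb_ge (hp : ParOK C h) (hC : 1024 ≤ C) : 1024 * (gam h * GG h * 4 ^ nn h) ≤ 2 ^ sb h := by
  have hW := Par806.W_pos h
  have hL := Par806.Lg_pos h
  calc 1024 * (gam h * GG h * 4 ^ nn h) ≤ C * (gam h * GG h * 4 ^ nn h) :=
        Nat.mul_le_mul_right _ hC
    _ = C * (gam h * gg h * (nn h + 1)) * 4 ^ nn h := by unfold GG; ring
    _ ≤ C * W h ^ 10 * Lg h ^ 2 * (gam h * gg h * (nn h + 1)) * 4 ^ nn h := by
        refine Nat.mul_le_mul_right _ (Nat.mul_le_mul_right _ ?_)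
        calc C = C * 1 * 1 := by ring
          _ ≤ C * W h ^ 10 * Lg h ^ 2 :=
            Nat.mul_le_mul (Nat.mul_le_mul_left _ (Nat.pow_pos hW)) (Nat.pow_pos hL)
    _ ≤ 2 ^ sb h := hp.osc'

theorem bb_ge (hp : ParOK C h) (hC : 1024 ≤ C) : 1024 * (gam h * GG h) ≤ 2 ^ bb h := by
  have hW := Par806.W_pos h
  have hL := Par806.Lg_pos h
  calc 1024 * (gam h * GG h) ≤ C * (gam h * GG h) := Nat.mul_le_mul_right _ hC
    _ = C * (gam h * gg h * (nn h + 1)) := by unfold GG; ring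
    _ ≤ C * W h ^ 10 * Lg h ^ 2 * (gam h * gg h * (nn h + 1)) := by
        refine Nat.mul_le_mul_right _ ?_
        calc C = C * 1 * 1 := by ring
          _ ≤ C * W h ^ 10 * Lg h ^ 2 :=
            Nat.mul_le_mul (Nat.mul_le_mul_left _ (Nat.pow_pos hW)) (Nat.pow_pos hL)
    _ ≤ 2 ^ bb h := hp.osc

/-- lengths -/
theorem len (hp : ParOK C h) (hC : 1024 ≤ C) :
    bb h + 16 ≤ 4 * Lg h ∧ bb h + 16 ≤ nb h ∧ bb h ≤ pb h ∧ bb h ≤ a1 h ∧ sb h + 16 ≤ dl h ∧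
      sb h + 16 ≤ lam h ∧ nn h + 16 ≤ lam h := by
  have h1 := hp.exp_ge
  have h2 := hp.nb_ge
  have h3 := hp.pb_ge
  have h4 := hp.a1_ge
  have h5 := hp.dl_ge
  have h6 := hp.lam_ge
  have e : bb h = 12 * Mg h := rfl
  have hM : 1024 * Mg h ≤ C * Mg h := Nat.mul_le_mul_right _ hC
  have hL : 1024 * Lg h ≤ C * Lg h := Nat.mul_le_mul_right _ hC
  have hn : 1024 * nn h ≤ C * nn h := Nat.mul_le_mul_right _ hC
  have hL1 := Par806.Lg_pos h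
  have hML := Par806.Mg_le_Lg h
  refine ⟨by omega, by omega, by omega, by omega, by omega, by omega, by omega⟩

theorem div_two_pow_le {a e : ℝ} {m n : ℕ} (h : m ≤ n) (ha : 0 ≤ a) (he : e = 2 ^ n) :
    a / e * 2 ^ m ≤ a := by
  have h0 : (0 : ℝ) < 2 ^ n := by positivity
  rw [he, div_mul_eq_mul_div, div_le_iff₀ h0]
  exact mul_le_mul_of_nonneg_left (pow_le_pow_right₀ (by norm_num) h) ha

/-- `ζ 2^bb ≤ 1` and `ζ ≤ 1/64` -/
theorem zeta_bb (hp : ParOK C h) (hC : 1024 ≤ C) (hζ0 : 0 ≤ ζ) (hζ : ζ * 2 ^ (4 * Lg h) ≤ 1) :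
    ζ * 2 ^ bb h ≤ 1 / 64 := by
  obtain ⟨h1, -⟩ := len hp hC
  have h2 : (2 : ℝ) ^ (bb h + 6) ≤ 2 ^ (4 * Lg h) := pow_le_pow_right₀ (by norm_num) (by omega)
  have h3 := mul_le_mul_of_nonneg_left h2 hζ0
  rw [pow_add] at h3
  norm_num at h3 ⊢
  linarith

theorem zeta_le (hp : ParOK C h) (hC : 1024 ≤ C) (hζ0 : 0 ≤ ζ) (hζ : ζ * 2 ^ (4 * Lg h) ≤ 1) :
    ζ ≤ 1 / 64 := by
  have h1 := zeta_bb hp hC hζ0 hζ
  have h2 : (1 : ℝ) ≤ 2 ^ bb h := one_le_pow₀ (by norm_num)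
  nlinarith

theorem nu_bb (hp : ParOK C h) (hC : 1024 ≤ C) : (2 : ℝ) / 2 ^ nb h * 2 ^ bb h ≤ 2 :=
  div_two_pow_le (by have := len hp hC; omega) (by norm_num) rfl

/-- **the constant of 283's `OscR`** -/
theorem b_le (hp : ParOK C h) (hC : 1024 ≤ C) (hζ0 : 0 ≤ ζ) (hζ : ζ * 2 ^ (4 * Lg h) ≤ 1)
    (hb : b * 2 ^ bb h ≤ 32) :
    (b + 4 / 2 ^ a1 h + 6 / 2 ^ pb h + 5 * ζ) * 2 ^ bb h ≤ 64 := by
  obtain ⟨-, -, h1, h2, -⟩ := len hp hC
  have e1 : (4 : ℝ) / 2 ^ a1 h * 2 ^ bb h ≤ 4 := div_two_pow_le h2 (by norm_num) rfl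
  have e2 : (6 : ℝ) / 2 ^ pb h * 2 ^ bb h ≤ 6 := div_two_pow_le h1 (by norm_num) rfl
  have e3 := zeta_bb hp hC hζ0 hζ
  linarith

/-! ### the single lines -/

/-- no clip at the inner nodes -/
theorem clip_le (hp : ParOK C h) (hC : 1024 ≤ C) (hζ0 : 0 ≤ ζ) (hζ : ζ * 2 ^ (4 * Lg h) ≤ 1)
    (hb0 : 0 ≤ b) (hb : b * 2 ^ bb h ≤ 64) :
    (24 * 4 ^ nn h / 2 ^ sb h + 2 * ((b + 2 / 2 ^ nb h) * (1 + ζ))) * ((gam h : ℝ) * (GG h : ℕ)) ≤ 1 := by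
  have h1 : (1024 : ℝ) * (gam h * GG h * 4 ^ nn h) ≤ 2 ^ sb h := by exact_mod_cast sb_ge hp hC
  have h2 : (1024 : ℝ) * (gam h * GG h) ≤ 2 ^ bb h := by exact_mod_cast bb_ge hp hC
  have hs : (0 : ℝ) < 2 ^ sb h := by positivity
  have hB : (0 : ℝ) < 2 ^ bb h := by positivity
  have hg : (0 : ℝ) ≤ (gam h : ℝ) * (GG h : ℕ) := by positivity
  have a1 : 24 * 4 ^ nn h / 2 ^ sb h * ((gam h : ℝ) * (GG h : ℕ)) ≤ 24 / 1024 := by
    rw [div_mul_eq_mul_div, div_le_iff₀ hs]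
    linarith
  have hζ1 := zeta_le hp hC hζ0 hζ
  have hν := nu_bb hp hC
  have a2 : (b + 2 / 2 ^ nb h) * 2 ^ bb h ≤ 66 := by linarith
  have hbν : 0 ≤ b + 2 / 2 ^ nb h := by positivity
  have a3 : (b + 2 / 2 ^ nb h) * (1 + ζ) ≤ (b + 2 / 2 ^ nb h) * 2 :=
    mul_le_mul_of_nonneg_left (by linarith) hbν
  have a4 : (b + 2 / 2 ^ nb h) * (1024 * ((gam h : ℝ) * (GG h : ℕ))) ≤ 66 :=
    (mul_le_mul_of_nonneg_left h2 hbν).trans a2
  have a5 : 2 * ((b + 2 / 2 ^ nb h) * (1 + ζ)) * ((gam h : ℝ) * (GG h : ℕ))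
      ≤ 2 * ((b + 2 / 2 ^ nb h) * 2) * ((gam h : ℝ) * (GG h : ℕ)) :=
    mul_le_mul_of_nonneg_right (by linarith) hg
  rw [add_mul]
  linarith

theorem bν_le (hp : ParOK C h) (hC : 1024 ≤ C) (hζ0 : 0 ≤ ζ) (hζ : ζ * 2 ^ (4 * Lg h) ≤ 1)
    (hb0 : 0 ≤ b) (hb : b * 2 ^ bb h ≤ 64) : (b + 2 / 2 ^ nb h) * (1 + ζ) ≤ 1 / 4 := by
  have hζ1 := zeta_le hp hC hζ0 hζ
  have hν := nu_bb hp hC
  have hbν : 0 ≤ b + 2 / 2 ^ nb h := by positivity
  have hB : (1024 : ℝ) ≤ 2 ^ bb h := by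
    have h2 := bb_ge hp hC
    have h3 : 0 < gam h * GG h := by
      unfold GG gam gg
      have hW := Par806.W_pos h
      have hL := Par806.Lg_pos h
      positivity
    have h4 : 1024 ≤ 2 ^ bb h := by
      calc 1024 = 1024 * 1 := rfl
        _ ≤ 1024 * (gam h * GG h) := Nat.mul_le_mul_left _ h3
        _ ≤ _ := h2
    exact_mod_cast h4
  have a1 : (b + 2 / 2 ^ nb h) * 1024 ≤ 66 := by
    have := mul_le_mul_of_nonneg_left hB hbν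
    linarith
  have a3 : (b + 2 / 2 ^ nb h) * (1 + ζ) ≤ (b + 2 / 2 ^ nb h) * 2 :=
    mul_le_mul_of_nonneg_left (by linarith) hbν
  linarith

/-- additive constants against the near radius -/
theorem oscc_le (hp : ParOK C h) (hC : 1024 ≤ C) (hc2 : c2 ≤ 32) {f k : ℝ}
    (hf : (2 : ℝ) ^ lam h ≤ 2 * f) (hk : k ≤ 2 * f) :
    4 + 2 * c2 + 4 * (k / 2 ^ dl h) ≤ 2 * ((1 / 2 ^ sb h) * f) := by
  obtain ⟨-, -, -, -, h1, h2, -⟩ := len hp hC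
  have hs : (0 : ℝ) < 2 ^ sb h := by positivity
  have hd : (0 : ℝ) < 2 ^ dl h := by positivity
  have a1 : (2 : ℝ) ^ (sb h + 16) ≤ 2 ^ dl h := pow_le_pow_right₀ (by norm_num) h1
  have a2 : (2 : ℝ) ^ (sb h + 16) ≤ 2 ^ lam h := pow_le_pow_right₀ (by norm_num) h2
  rw [pow_add] at a1 a2
  norm_num at a1 a2
  have hf0 : 0 ≤ f := by
    have : (0 : ℝ) < 2 ^ lam h := by positivity
    linarith
  have b1 : k / 2 ^ dl h ≤ 2 * f / (2 ^ sb h * 65536) :=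
    div_le_div₀ (by linarith) hk (by positivity) a1
  have b2 : 2 * f / (2 ^ sb h * 65536) = 1 / 32768 * ((1 / 2 ^ sb h) * f) := by
    ring
  have b3 : (32768 : ℝ) ≤ (1 / 2 ^ sb h) * f := by
    rw [one_div, inv_mul_eq_div, le_div_iff₀ hs]
    linarith
  rw [b2] at b1
  linarith

/-- no clip at the root -/
theorem root_le (hp : ParOK C h) (hC : 1024 ≤ C) (hc2 : c2 ≤ 32) {f : ℝ}
    (hf : (2 : ℝ) ^ lam h ≤ 2 * f) :
    ((GG h : ℕ) : ℝ) * ((2 + 2 / 2 ^ nb h) * (8 * f) + 2 ^ nn h * (4 + c2 + 1)) ≤ um h * (f + 1) := by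
  obtain ⟨-, -, -, -, -, -, h1⟩ := len hp hC
  have a2 : (2 : ℝ) ^ (nn h + 16) ≤ 2 ^ lam h := pow_le_pow_right₀ (by norm_num) h1
  rw [pow_add] at a2
  norm_num at a2
  have hn : (0 : ℝ) < 2 ^ nn h := by positivity
  have hf0 : 0 ≤ f := by linarith
  have hν : (2 : ℝ) / 2 ^ nb h ≤ 2 := by
    rw [div_le_iff₀ (by positivity)]
    have : (1 : ℝ) ≤ 2 ^ nb h := one_le_pow₀ (by norm_num)
    linarith
  have e : (um h : ℝ) = (GG h : ℕ) * 40 := by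
    have : um h = GG h * 40 := rfl
    rw [this]
    push_cast
    ring
  rw [e, mul_assoc]
  refine mul_le_mul_of_nonneg_left ?_ (Nat.cast_nonneg _)
  have b1 : (2 + 2 / 2 ^ nb h) * (8 * f) ≤ 4 * (8 * f) :=
    mul_le_mul_of_nonneg_right (by linarith) (by linarith)
  have b2 : (2 : ℝ) ^ nn h * (4 + c2 + 1) ≤ 2 ^ nn h * 64 :=
    mul_le_mul_of_nonneg_left (by linarith) hn.le
  linarith

theorem rngF_le (f : ℕ) : GG h * f ≤ um h * (f + 1) := by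
  have e : um h = GG h * 40 := rfl
  rw [e]
  calc GG h * f ≤ GG h * (40 * (f + 1)) := Nat.mul_le_mul_left _ (by omega)
    _ = GG h * 40 * (f + 1) := by ring

theorem small_le {P : Par} (hP : PlanNum P ζ) {f k : ℝ} (hf : 0 ≤ f) (hk : k ≤ 2 * f) :
    7 * sP P * f + (ζ * (4 * f + 3 * (2 * (P.r : ℝ) * k)) + 2 * 0)
      ≤ 4 * (1 / (P.δi : ℝ)) * (1 / 2 ^ P.sb) * f := by
  have h1 := mul_le_mul_of_nonneg_right hP.small hf
  have h2 : ζ * (4 * f + 3 * (2 * (P.r : ℝ) * k)) ≤ ζ * (4 * f + 12 * P.r * f) := by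
    refine mul_le_mul_of_nonneg_left ?_ hP.ζ0
    have : (6 * P.r : ℝ) * k ≤ 6 * P.r * (2 * f) := mul_le_mul_of_nonneg_left hk (by positivity)
    linarith
  linarith

theorem reg_le {P : Par} (hP : PlanNum P ζ) {f : ℝ} (hf : 0 ≤ f) :
    (1 + ζ) * ((1 + sP P) * f + 4 * P.N * (1 / 2 ^ P.sb * f)) + P.N * 0 ≤ P.Creg * f := by
  have h1 := mul_le_mul_of_nonneg_right hP.reg hf
  linarith

/-- the plan numbers of the table -/
theorem planNum (hp : ParOK C h) (hC : 1024 ≤ C) (hζ0 : 0 ≤ ζ) (hζ : ζ * 2 ^ (4 * Lg h) ≤ 1) :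
    PlanNum (parOf h) ζ :=
  PlanK693.planNum hp (by omega) rfl rfl rfl (by show 1 ≤ 40; norm_num) (by show 40 ≤ 40; norm_num)
    (by show 8 ≤ 8; norm_num) hζ0 hζ

/-- **all numeric side conditions of the near window, for the table** -/
theorem nearNum (hp : ParOK C h) (hC : 1024 ≤ C) (hζ0 : 0 ≤ ζ) (hζ : ζ * 2 ^ (4 * Lg h) ≤ 1)
    (hb0 : 0 ≤ b) (hb : b * 2 ^ bb h ≤ 64) (hc2 : c2 ≤ 32) {F : St → ℕ} {κ : ℕ} {x : St}
    (hF : 2 ^ lam h ≤ 2 * F x) (hκ : 2 ^ κ ≤ 2 * F x) :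
    WinNear482.NearNum (parOf h) F κ x b (2 / 2 ^ nb h) ζ 4 c2 0 (sP (parOf h)) := by
  have hW := Par806.W_pos h
  have hL := Par806.Lg_pos h
  have hP := planNum hp hC hζ0 hζ
  have hFR : (2 : ℝ) ^ lam h ≤ 2 * (F x : ℝ) := by exact_mod_cast hF
  have hκR : (2 : ℝ) ^ κ ≤ 2 * (F x : ℝ) := by exact_mod_cast hκ
  have hgg : 0 < gg h := by unfold gg; positivity
  have hF0 : (0 : ℝ) ≤ F x := Nat.cast_nonneg _
  refine
    { r1 := by show 1 ≤ 40; norm_num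
      g0 := hgg
      G2 := ?_
      γ0 := by show 0 < gam h; unfold gam; positivity
      um0 := by show 0 < um h; unfold um; positivity
      pm0 := Nat.succ_pos _
      K0 := hp.KK_pos
      δ4 := hP.δ4
      Creg1 := by show 1 ≤ 8; norm_num
      Creg_du := by show 4 * 8 ≤ 2 ^ 8; norm_num
      s0 := (PlanK693.sP_pos hP.δ4).le
      s1 := PlanK693.sP_le_one hP.δ4
      ζ1 := hP.ζ1
      small := small_le hP hF0 hκR
      reg := reg_le hP hF0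
      β1 := (bν_le hp hC hζ0 hζ hb0 hb).trans (by norm_num)
      oscc := ?_
      clip := clip_le hp hC hζ0 hζ hb0 hb
      root := root_le hp hC hc2 hFR }
  · show 2 ≤ gg h * (nn h + 1)
    have h1 : 1 ≤ nn h := by
      unfold nn
      have := Par806.Mg_pos h
      exact Nat.mul_pos this (Nat.pow_pos hW)
    calc 2 = 1 * 2 := rfl
      _ ≤ gg h * (nn h + 1) := Nat.mul_le_mul hgg (by omega)
  · have := oscc_le hp hC hc2 hFR hκR
    show 4 + 2 * c2 + 4 * ((2 : ℝ) ^ κ / 2 ^ dl h) + (b + 2 / 2 ^ nb h) * 0 ≤ 2 * ((1 / 2 ^ sb h) * F x)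
    rw [mul_zero, add_zero]
    exact this

end Crest.Agent.R288.NearP484
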