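import Crest.Agent.R288.FarA_131
import Crest.Agent.R288.WinStm_330

/-!
# R288, fields f3, df0, dfV of `WinStm330.WinIn` (helper131)

`F'` = unit of the epoch before, `X` = numbers of that epoch, `F = FNext P F' X`.  At the state `h = hat x`
(any state of the domain): `κ' = cls F' h`, `h' = rdn P κ' h` = own pair of `h` in the epoch before.

* `adF P F' ζ τ η h` = additive part of `FarA131.f3_final` at `h`;
* `dfF P F' F ζ τ η h = ζ F h + adF h` (330: `df x := dfF .. (hat x)`);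
* **`f3_hat`** : `F h ≤ ∑_q F (piece q) + dfF h` for every window staircase of any class;
* `dfF_nonneg`, **`dfF_le`** : `dfF h ≤ kd (G x + C0)` with
  `kd = ζ b + kA b' + kB / Lam`, `kA`, `kB` explicit.
-/

set_option autoImplicit false

namespace Crest.Agent.R288.WinF3131

open Finset Crest.Agent.R288.Alg45 Crest.Agent.R288.AlgS125 Crest.Agent.R288.FarA131
  Crest.Agent.R288.WinStm330 Crest.Agent.R288.Dom20

variable (P : Par)

theorem pcs_eq (x : St) (m : ℕ → ℤ) (q : ℕ) : pcs P.N x m q = pc P x m q := rfl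

/-- deviation of a number of class `κ` -/
noncomputable def shf (κ : ℕ) : ℝ := (2 : ℝ) ^ κ / 2 ^ P.nb + ((cdiv (2 ^ κ) (2 ^ P.nb) : ℕ) + 1)

theorem shf_nonneg (κ : ℕ) : 0 ≤ shf P κ := by unfold shf; positivity

theorem shf_le (κ : ℕ) : shf P κ ≤ 2 * ((2 : ℝ) ^ κ / 2 ^ P.nb) + 2 := by
  unfold shf
  have h1 := AlgS125.cdiv_cast_lt (a := 2 ^ κ) (b := 2 ^ P.nb) (by positivity)
  push_cast at h1
  linarith

/-- additive part of (F3') at the state `h` -/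
noncomputable def adF (F' : St → ℕ) (ζ τ η : ℝ) (h : St) : ℝ :=
  (1 + ζ) * (2 * P.N * gst P (cls F' h)) + 2 * gst P (cls F' h)
    + Zfar P (F' (rdn P (cls F' h) h)) η / P.K + (shf P (cls F' h) + τ * 2 ^ cls F' h + 1)

/-- defect of (F3') at the state `h` -/
noncomputable def dfF (F' F : St → ℕ) (ζ τ η : ℝ) (h : St) : ℝ := ζ * F h + adF P F' ζ τ η h

variable {P}

theorem adF_nonneg {F' : St → ℕ} {ζ τ η : ℝ} (hζ : 0 ≤ ζ) (hτ : 0 ≤ τ) (hη : 0 ≤ η) (h : St) :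
    0 ≤ adF P F' ζ τ η h := by
  have h1 := shf_nonneg P (cls F' h)
  have h2 := Zfar_nonneg P (Fx := F' (rdn P (cls F' h) h)) hη
  unfold adF
  positivity

theorem dfF_nonneg {F' F : St → ℕ} {ζ τ η : ℝ} (hζ : 0 ≤ ζ) (hτ : 0 ≤ τ) (hη : 0 ≤ η) (h : St) :
    0 ≤ dfF P F' F ζ τ η h := by
  have h1 := adF_nonneg (P := P) (F' := F') hζ hτ hη h
  unfold dfF
  positivity

/-- **(F3') at a state `h` of the domain, every staircase of every window grid**; `κ` arbitrary -/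
theorem f3_hat (hK : 0 < P.K) {F' : St → ℕ} {X : ℕ → ℕ → St → ℕ} {R A : ℕ → ℝ} {ζ τ η : ℝ}
    (hζ : 0 ≤ ζ) (hτ : 0 ≤ τ) (hη : 0 ≤ η) (hr : 3 ≤ P.r) {h : St} (hin : inD P h)
    (hD' : gst P (cls F' h) ∣ P.Dm)
    (hcoer : ∀ m : ℕ → ℤ, m 0 = h.u → m P.N = h.v → (∀ q, 0 < q → q < P.N → |m q| ≤ P.Dm) →
      ∀ q < P.N, (m (q + 1) - m q).natAbs ≤ FNext P F' X (pc P h m q))
    (hX : ∀ k < P.K, (X k (cls F' h) (rdn P (cls F' h) h) : ℝ) ≤ R k + shf P (cls F' h))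
    (hRA : ∀ k < P.K, R k ≤ A k + τ * 2 ^ cls F' h)
    (hO : Opt P F' X (cls F' h) (rdn P (cls F' h) h) A η)
    (hlip : ∀ q < P.N, ∀ z z' : St, z.i = h.i - 1 → z'.i = h.i - 1 → z.j = P.N * h.j + q →
      z'.j = P.N * h.j + q → inD P z → inD P z' →
      (FNext P F' X z : ℝ) ≤ (1 + ζ) * ((FNext P F' X z' : ℝ) + (Alg45.dist z z' : ℝ)))
    {κ : ℕ} {m : ℕ → ℤ} (hm : IsSt P κ h m) :
    (FNext P F' X h : ℝ) ≤ sm P.N (fun y => (FNext P F' X y : ℝ)) h m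
      + dfF P F' (FNext P F' X) ζ τ η h := by
  have key := f3_final P hK (F := F') (X := X) (R := R) (A := A) (η := η) (ζ := ζ)
    (σ := shf P (cls F' h)) (τ := τ * 2 ^ cls F' h) hζ hη (shf_nonneg P _) (by positivity) hD' hin
    hm.zero hm.last hm.dom hr (hcoer m hm.zero hm.last hm.dom) hX hRA hO hlip
  have e1 : sm P.N (fun y => (FNext P F' X y : ℝ)) h m
      = ∑ q ∈ range P.N, (FNext P F' X (pc P h m q) : ℝ) := rfl
  rw [e1]
  set S := ∑ q ∈ range P.N, (FNext P F' X (pc P h m q) : ℝ) with hS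
  have hS0 : 0 ≤ S := sum_nonneg fun _ _ => Nat.cast_nonneg _
  have hA0 := adF_nonneg (P := P) (F' := F') hζ hτ hη h
  have key' : (FNext P F' X h : ℝ) ≤ (1 + ζ) * S + adF P F' ζ τ η h := key
  unfold dfF
  rcases le_total (FNext P F' X h : ℝ) S with h1 | h1
  · have h2 : 0 ≤ ζ * (FNext P F' X h : ℝ) := by positivity
    linarith
  · have h2 : ζ * S ≤ ζ * (FNext P F' X h : ℝ) := mul_le_mul_of_nonneg_left h1 hζ
    linarith

/-! ### size of the defect -/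

variable (P)

/-- slope and constant of `adF` in `f = F' h` -/
noncomputable def kA (τ : ℝ) : ℝ :=
  (4 * P.N + 2) / 2 ^ P.pb + 3 * (P.um * Real.log (P.pm + 1) + 2) / P.K + 2 / 2 ^ P.nb + τ

noncomputable def kB (τ η : ℝ) : ℝ :=
  (4 * P.N + 2) * (1 / 2 ^ P.pb + 1) + 6 * (P.um * Real.log (P.pm + 1) + 2) / P.K + 2 / 2 ^ P.nb
    + τ + η + 4

variable {P}

theorem logpm (P : Par) : 0 ≤ Real.log ((P.pm : ℝ) + 1) :=
  Real.log_nonneg (by linarith [Nat.cast_nonneg (α := ℝ) P.pm])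

theorem kA_nonneg {τ : ℝ} (hτ : 0 ≤ τ) : 0 ≤ kA P τ := by
  have := logpm P
  unfold kA
  positivity

theorem kB_nonneg {τ η : ℝ} (hτ : 0 ≤ τ) (hη : 0 ≤ η) : 0 ≤ kB P τ η := by
  have := logpm P
  unfold kB
  positivity

theorem two_pow_cls_le (F : St → ℕ) (h : St) : (2 : ℝ) ^ cls F h ≤ F h + 1 := by
  unfold cls
  rcases Nat.eq_zero_or_pos (F h) with h0 | h0
  · rw [h0]; simp
  · have h1 : (2 : ℕ) ^ Nat.log 2 (F h) ≤ F h := Nat.pow_log_le_self 2 h0.ne'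
    have h2 : ((2 : ℝ) ^ Nat.log 2 (F h)) ≤ F h := by exact_mod_cast h1
    linarith

theorem gst_le_real (κ : ℕ) : (gst P κ : ℝ) ≤ 2 ^ κ / 2 ^ P.pb + 1 := by
  have h := HullB407.gst_le P κ
  have h2 : (gst P κ : ℝ) * 2 ^ P.pb ≤ 2 ^ κ + 2 ^ P.pb := by exact_mod_cast h
  rw [div_add_one (by positivity : (2 : ℝ) ^ P.pb ≠ 0), le_div_iff₀ (by positivity)]
  exact h2

/-- `adF h ≤ kA F'(h) + kB` -/
theorem adF_le (hK : 0 < P.K) (hg : 1 ≤ P.g) (hpb : 2 ≤ P.pb) {F' : St → ℕ} {ζ τ η : ℝ}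
    (hζ1 : ζ ≤ 1) (hτ : 0 ≤ τ) {h : St}
    (hlip : (F' (rdn P (cls F' h) h) : ℝ)
      ≤ (1 + ζ) * ((F' h : ℝ) + (Alg45.dist (rdn P (cls F' h) h) h : ℝ))) :
    adF P F' ζ τ η h ≤ kA P τ * F' h + kB P τ η := by
  have hL := logpm P
  set L := Real.log ((P.pm : ℝ) + 1) with hLdef
  set f : ℝ := (F' h : ℝ) with hf
  have hf0 : 0 ≤ f := Nat.cast_nonneg _
  have hK' : (0 : ℝ) < P.K := by exact_mod_cast hK
  have hN0 : (0 : ℝ) ≤ P.N := Nat.cast_nonneg _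
  have hum : (0 : ℝ) ≤ P.um := Nat.cast_nonneg _
  have h2 : (2 : ℝ) ^ cls F' h ≤ f + 1 := two_pow_cls_le F' h
  have hpow : (0 : ℝ) < 2 ^ P.pb := by positivity
  have hnb : (0 : ℝ) < 2 ^ P.nb := by positivity
  have hg1 : (gst P (cls F' h) : ℝ) ≤ (f + 1) / 2 ^ P.pb + 1 :=
    (gst_le_real _).trans (by
      have := div_le_div_of_nonneg_right h2 hpow.le
      linarith)
  have hpb4 : (4 : ℝ) ≤ 2 ^ P.pb := by
    calc (4 : ℝ) = 2 ^ 2 := by norm_num
      _ ≤ 2 ^ P.pb := pow_le_pow_right₀ (by norm_num) hpb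
  have hdist : (Alg45.dist (rdn P (cls F' h) h) h : ℝ) ≤ 2 * gst P (cls F' h) := by
    have := HullB407.dist_rdn (P := P) (cls F' h) h
    rw [HullB407.dist_comm]
    exact_mod_cast this
  have hF : (F' (rdn P (cls F' h) h) : ℝ) ≤ 3 * f + 5 := by
    have h3 : (f + 1) / 2 ^ P.pb ≤ (f + 1) / 4 :=
      div_le_div_of_nonneg_left (by linarith) (by norm_num) hpb4
    have h4 : (1 + ζ) * (f + (Alg45.dist (rdn P (cls F' h) h) h : ℝ))
        ≤ 2 * (f + 2 * ((f + 1) / 4 + 1)) := by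
      refine mul_le_mul (by linarith) (by linarith) ?_ (by norm_num)
      positivity
    refine hlip.trans (h4.trans (le_of_eq ?_))
    ring
  -- the four parts
  have p1 : (1 + ζ) * (2 * P.N * gst P (cls F' h)) + 2 * gst P (cls F' h)
      ≤ (4 * P.N + 2) * ((f + 1) / 2 ^ P.pb + 1) := by
    have h5 : (1 + ζ) * (2 * P.N * gst P (cls F' h)) + 2 * gst P (cls F' h)
        ≤ (4 * P.N + 2) * gst P (cls F' h) := by
      have h6 : ζ * (2 * P.N * gst P (cls F' h)) ≤ 1 * (2 * P.N * (gst P (cls F' h) : ℝ)) :=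
        mul_le_mul_of_nonneg_right hζ1 (by positivity)
      linarith
    exact h5.trans (mul_le_mul_of_nonneg_left hg1 (by positivity))
  have p2 : Zfar P (F' (rdn P (cls F' h) h)) η / P.K
      ≤ 3 * (P.um * L + 2) / P.K * (f + 2) + (η + 1) := by
    have hgi : 1 / (P.g : ℝ) ≤ 1 := by
      rw [div_le_one (by exact_mod_cast (show 0 < P.g by omega))]
      exact_mod_cast hg
    have hFx : (0 : ℝ) ≤ F' (rdn P (cls F' h) h) := Nat.cast_nonneg _
    have h7 : Zfar P (F' (rdn P (cls F' h) h)) η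
        ≤ (P.um * L + 2) * (3 * (f + 2)) + P.K * (η + 1) := by
      unfold Zfar
      have h8 : (P.um * ((F' (rdn P (cls F' h) h) : ℝ) + 1)) * L ≤ P.um * L * (3 * (f + 2)) := by
        have : (P.um * ((F' (rdn P (cls F' h) h) : ℝ) + 1)) * L
            = P.um * L * ((F' (rdn P (cls F' h) h) : ℝ) + 1) := by ring
        rw [this]
        exact mul_le_mul_of_nonneg_left (by linarith) (by positivity)
      have h9 : (1 + 1 / (P.g : ℝ)) * F' (rdn P (cls F' h) h) ≤ 2 * (3 * (f + 2)) :=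
        mul_le_mul (by linarith) (by linarith) hFx (by norm_num)
      have h10 : (P.um * L + 2) * (3 * (f + 2)) = P.um * L * (3 * (f + 2)) + 2 * (3 * (f + 2)) := by
        ring
      linarith
    rw [div_le_iff₀ hK']
    refine h7.trans (le_of_eq ?_)
    field_simp
  have p3 : shf P (cls F' h) ≤ 2 / 2 ^ P.nb * (f + 1) + 2 := by
    refine (shf_le P _).trans ?_
    have h11 := div_le_div_of_nonneg_right h2 hnb.le
    have h12 : 2 / 2 ^ P.nb * (f + 1) = 2 * ((f + 1) / 2 ^ P.nb) := by ring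
    rw [h12]
    linarith
  have p4 : τ * 2 ^ cls F' h ≤ τ * (f + 1) := mul_le_mul_of_nonneg_left h2 hτ
  have e : kA P τ * f + kB P τ η
      = (4 * P.N + 2) * ((f + 1) / 2 ^ P.pb + 1)
        + (3 * (P.um * L + 2) / P.K * (f + 2) + (η + 1))
        + (2 / 2 ^ P.nb * (f + 1) + 2) + τ * (f + 1) + 1 := by
    unfold kA kB
    rw [← hLdef]
    field_simp
    ring
  rw [e]
  unfold adF
  linarith

/-- **size of the defect** against `V = G + C0`; `b V` bounds `F (hat x)`, `b' V` bounds `F' (hat x)` -/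
theorem dfF_le (hK : 0 < P.K) (hg : 1 ≤ P.g) (hpb : 2 ≤ P.pb) {F' F : St → ℕ}
    {ζ τ η b b' kd Lam V : ℝ} (hζ : 0 ≤ ζ) (hζ1 : ζ ≤ 1) (hτ : 0 ≤ τ) (hη : 0 ≤ η) {h : St}
    (hlip : (F' (rdn P (cls F' h) h) : ℝ)
      ≤ (1 + ζ) * ((F' h : ℝ) + (Alg45.dist (rdn P (cls F' h) h) h : ℝ)))
    (hLam : 0 < Lam) (hV : Lam ≤ V) (hF : (F h : ℝ) ≤ b * V) (hF' : (F' h : ℝ) ≤ b' * V)
    (hkd : ζ * b + kA P τ * b' + kB P τ η / Lam ≤ kd) :
    dfF P F' F ζ τ η h ≤ kd * V := by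
  have h1 := adF_le (η := η) hK hg hpb hζ1 hτ hlip
  have h2 : ζ * (F h : ℝ) ≤ ζ * (b * V) := mul_le_mul_of_nonneg_left hF hζ
  have h3 : kA P τ * (F' h : ℝ) ≤ kA P τ * (b' * V) :=
    mul_le_mul_of_nonneg_left hF' (kA_nonneg hτ)
  have h4 : kB P τ η ≤ kB P τ η / Lam * V := by
    rw [div_mul_eq_mul_div, le_div_iff₀ hLam]
    exact mul_le_mul_of_nonneg_left hV (kB_nonneg hτ hη)
  have h5 : (ζ * b + kA P τ * b' + kB P τ η / Lam) * V ≤ kd * V :=
    mul_le_mul_of_nonneg_right hkd (by linarith)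
  unfold dfF
  linarith

end Crest.Agent.R288.WinF3131
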