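import Crest.Agent.R288.StmA_616
import Crest.Agent.R288.WinStm_330
import Crest.Agent.R288.AlgS_125

/-!
# R288 [A13.WIN], interface (helper330): the letters of the window instance

Over an arbitrary `C : Asm331.Cfg`, a history `X` and an epoch `e`; letters = `StmA616` (`hat`, `Rp`,
`Rm`), unit function `FE C.P X e`, staircases `AlgS125.IsSt C.P (cls F y) (hat y)`.

* `lf`      : leaf states (macro height 0 or `leaf` defined)
* `Law`     : what is known about the lanes of one epoch (body means `A k κ z`); `τ` tiny, `τF ≤ 1`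
* `FarF`, `NearF`, `F3F`, `SmallF` : the fields of `WinStm330.WinIn`
* `Win`, `win_of` : the instance from the fields
-/

set_option autoImplicit false

namespace Crest.Agent.R288.WinH330

open Finset Crest.Agent.R288.Alg45 Crest.Agent.R288.Dom20 Crest.Agent.R288.Asm331
  Crest.Agent.R288.WinStm330 Crest.Agent.R288.StmA616

variable (C : Cfg) (X : ℕ → ℕ × St → ℕ) (e : ℕ)

/-- leaf states -/
def lf (y : St) : Prop := y.i = 0 ∨ (C.leaf y).isSome = true

/-- window staircases of the own pair -/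
def Sc (y : St) (m : ℕ → ℤ) : Prop := AlgS125.IsSt C.P (cls (FE C.P X e) y) (StmA616.hat C X e y) m

/-- **the lanes of one epoch**: `A k κ z` = mean of the body entry of rank `k` at the pair `(κ, z)` -/
structure Law (A : ℕ → ℕ → St → ℝ) (τ τF c8 : ℝ) : Prop where
  /-- (A5) the jump never loses (all macro heights; height 0: `A := R`) -/
  J : ∀ k < C.P.K, ∀ κ z, (κ, z) ∈ OmP C.P.N C.I C.P.Dm C.K0 →
    adm C.P (FE C.P X e) κ z = true → C.R X e k κ z ≤ A k κ z + τ * 2 ^ κ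
  /-- retiring is an option of the jump (own letter `τF ≤ 1`, about `2 / 2^bb`) -/
  upF : ∀ k < C.P.K, ∀ κ z, (κ, z) ∈ OmP C.P.N C.I C.P.Dm C.K0 →
    adm C.P (FE C.P X e) κ z = true → C.R X e k κ z ≤ FE C.P X e z + τF * 2 ^ κ
  /-- (A8) the body mean is at most the body value with the numbers of rank `k` as ends -/
  body : ∀ k < C.P.K, ∀ κ z, (κ, z) ∈ OmP C.P.N C.I C.P.Dm C.K0 → 1 ≤ z.i →
    adm C.P (FE C.P X e) κ z = true →
    A k κ z ≤ bodyNum C.P C.leaf (FE C.P X e) (Xe C.P X e) k (fun _ => Xe C.P X e k) κ z + c8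
  /-- macro height 0 -/
  bot : ∀ k < C.P.K, ∀ κ z, (κ, z) ∈ OmP C.P.N C.I C.P.Dm C.K0 →
    adm C.P (FE C.P X e) κ z = true → z.i = 0 →
    C.R X e k κ z ≤ botNum C.P C.leaf (FE C.P X e) κ z

/-- states of the domain -/
def Ok (y : St) : Prop := InD C.P.N C.I C.P.Dm y

/-- FAR (helper974) -/
def FarF (G : St → ℕ) (C0 : ℕ) (k1 e4 : ℝ) : Prop :=
  ∀ x, Ok C x → ¬ lf C x → ¬ lf C (StmA616.hat C X e x) → ∀ m, Sc C X e x m →
    StmA616.Rp C X e x ≤ sm C.P.N (StmA616.Rm C X e) (StmA616.hat C X e x) m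
      + k1 * max (FE C.P X e (StmA616.hat C X e x) : ℝ)
        (sm C.P.N (fun y => FE C.P X e y) (StmA616.hat C X e x) m)
      + e4 * (G x + C0)

/-- NEAR (helper440, helper482) -/
def NearF (G : St → ℕ) (df : St → ℝ) (C0 : ℕ) (δ κn s e4 : ℝ) : Prop :=
  ∀ x, Ok C x → ¬ lf C x → ¬ lf C (StmA616.hat C X e x) →
    |WinStm330.av (StmA616.hat C X e x)| < (1 - δ) * FE C.P X e (StmA616.hat C X e x) →
    ∀ m, Sc C X e x m →
    enS C.P.N (FE C.P X e) (WinStm330.av (StmA616.hat C X e x) / FE C.P X e (StmA616.hat C X e x))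
      (StmA616.hat C X e x) m ≤ s ^ 2 * FE C.P X e (StmA616.hat C X e x) →
    sm C.P.N (fun y => FE C.P X e y) (StmA616.hat C X e x) m - FE C.P X e (StmA616.hat C X e x)
      ≤ s * FE C.P X e (StmA616.hat C X e x) →
    df x ≤ s * FE C.P X e (StmA616.hat C X e x) →
    StmA616.Rp C X e x ≤ sm C.P.N (StmA616.Rm C X e) (StmA616.hat C X e x) m
      + κn * FE C.P X e (StmA616.hat C X e x) + e4 * (G x + C0)

/-- (F3') (helper131) -/
def F3F (df : St → ℝ) : Prop :=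
  ∀ x, Ok C x → ¬ lf C x → ¬ lf C (StmA616.hat C X e x) → ∀ m, Sc C X e x m →
    (FE C.P X e (StmA616.hat C X e x) : ℝ)
      ≤ sm C.P.N (fun y => FE C.P X e y) (StmA616.hat C X e x) m + df x

/-- the small fields (helper453) -/
structure SmallF (G : St → ℕ) (C0 : ℕ) (p ζ δ b1 e5 r1 : ℝ) : Prop where
  hat_in : ∀ x, Ok C x → ¬ lf C x → Ok C (StmA616.hat C X e x)
  hat_dist : ∀ x, Ok C x → ¬ lf C x →
    (Alg45.dist x (StmA616.hat C X e x) : ℝ) ≤ p * FE C.P X e x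
  hat_G : ∀ x, Ok C x → ¬ lf C x →
    G (StmA616.hat C X e x) ≤ G x + Alg45.dist x (StmA616.hat C X e x)
  hat_F : ∀ x, Ok C x → ¬ lf C x →
    |(FE C.P X e x : ℝ) - FE C.P X e (StmA616.hat C X e x)| ≤ ζ * FE C.P X e x
  leaf : ∀ x, Ok C x → lf C x → StmA616.Rm C X e x ≤ G x + e5 * (G x + C0)
  hat_leaf : ∀ x, Ok C x → ¬ lf C x → lf C (StmA616.hat C X e x) →
    StmA616.Rp C X e x ≤ G (StmA616.hat C X e x) + e5 * (G x + C0)
  ret : ∀ x, Ok C x → ¬ lf C x → ¬ lf C (StmA616.hat C X e x) →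
    (1 - δ) * FE C.P X e (StmA616.hat C X e x) ≤ |WinStm330.av (StmA616.hat C X e x)| →
    StmA616.Rp C X e x ≤ (1 + b1) * FE C.P X e (StmA616.hat C X e x)
  cmp : ∀ x, Ok C x → ¬ lf C x → ¬ lf C (StmA616.hat C X e x) → ∃ m, Sc C X e x m ∧
    m 0 = (StmA616.hat C X e x).u ∧ m C.P.N = (StmA616.hat C X e x).v ∧
    (∀ q ≤ C.P.N, -(C.P.Dm : ℤ) ≤ m q ∧ m q ≤ C.P.Dm) ∧
    sm C.P.N (fun y => G y) (StmA616.hat C X e x) m
      ≤ G (StmA616.hat C X e x) + r1 * (G x + C0)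

/-- **the window instance** -/
def Win (G : St → ℕ) (df : St → ℝ) (C0 : ℕ) (Lam β p ζ δ b1 k1 κn s kd e4 e5 r1 : ℝ) : Prop :=
  WinIn C.P.N C.I C.P.Dm G (FE C.P X e) (lf C) (StmA616.hat C X e) (Sc C X e) (StmA616.Rm C X e)
    (StmA616.Rp C X e) df C0 Lam β p ζ δ b1 k1 κn s kd e4 e5 r1

/-- the instance from the fields -/
theorem win_of {G : St → ℕ} {df : St → ℝ} {C0 : ℕ}
    {Lam β p ζ δ b1 k1 κn s kd e4 e5 r1 : ℝ}
    (ge : ∀ x, Ok C x → (x.v - x.u).natAbs ≤ G x)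
    (GF : ∀ x, Ok C x → G x ≤ FE C.P X e x)
    (FB : ∀ x, Ok C x → (FE C.P X e x : ℝ) ≤ β * (G x + C0))
    (act : ∀ x, Ok C x → ¬ lf C x → Lam < G x)
    (S : SmallF C X e G C0 p ζ δ b1 e5 r1)
    (f3 : F3F C X e df) (df0 : ∀ x, Ok C x → ¬ lf C x → 0 ≤ df x)
    (dfV : ∀ x, Ok C x → ¬ lf C x → df x ≤ kd * (G x + C0))
    (far : FarF C X e G C0 k1 e4) (near : NearF C X e G df C0 δ κn s e4) :
    Win C X e G df C0 Lam β p ζ δ b1 k1 κn s kd e4 e5 r1 where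
  ge := ge
  GF := GF
  FB := FB
  act x hx hl := ⟨by
    by_contra h
    exact hl (Or.inl (by omega)), act x hx hl⟩
  leaf := S.leaf
  hat_i _ _ := rfl
  hat_in := S.hat_in
  hat_dist := S.hat_dist
  hat_G := S.hat_G
  hat_F := S.hat_F
  arr _ _ _ := le_rfl
  hat_leaf := S.hat_leaf
  ret := S.ret
  f3 := f3
  df0 := df0
  dfV := dfV
  far := far
  near := near
  cmp := S.cmp

end Crest.Agent.R288.WinH330
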