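import Crest.Agent.R288.ParC_895

/-!
# R288 leaf [PAR], analysis side (helper895): the real parameters of one window / one epoch

All errors of the analysis side are at most `C / h ^ 3`.  For EVERY constant `C`:

* `sR` = threshold `s` of the good windows, `k1R C` = far loss, `lamR C = 2 k1 / s²`, `knR C` = near loss;
* `structure ParA C h` = all inequalities between them (`II` = number of macro levels), **`ev_parA`**:
  `∀ C, ∀ᶠ h, ParA C h`;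
* `ParA.near_sum`, `ParA.bad_sum`, ... in the form used by `PotS644.epoch_ok` and `ChainU616`.
-/

set_option autoImplicit false

open Filter

namespace Crest.Agent.R288.Par895

open Crest.Agent.R288.Asy720 Crest.Agent.R288.Par806

/-- threshold of a good window: `2 ^ -(sb + 5) / δi` -/
noncomputable def sR (h : ℕ) : ℝ := (((2 : ℝ) ^ (sb h + 5)) * (δi h : ℝ))⁻¹

/-- far loss (against every staircase): mode regret `um (log pm + 1)`, mean over the ranks -/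
noncomputable def k1R (C : ℝ) (h : ℕ) : ℝ := C * ((um h : ℝ) * Lg h + 1) / KK h + C / (h : ℝ) ^ 3

/-- coefficient of the potential -/
noncomputable def lamR (C : ℝ) (h : ℕ) : ℝ := 2 * k1R C h / sR h ^ 2

/-- near loss: regret of the letters, of the mode choice, share of wild -/
noncomputable def knR (C : ℝ) (h : ℕ) : ℝ :=
  C * ((nn h : ℝ) * (pb h + 1) / gam h + (um h : ℝ) / pm h + (gg h : ℝ)⁻¹) / KK h + C / (h : ℝ) ^ 3

theorem sR_pos (h : ℕ) : 0 < sR h := by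
  have h1 : 0 < δi h := by unfold δi; have := W_pos h; positivity
  unfold sR
  positivity

theorem ord_sR_inv : Ord 0 0 fun h => (sR h)⁻¹ :=
  (((ord_two_pow_sb.mul_const 32)).mul0 ord_δi).congr fun h => by
    unfold sR
    rw [inv_inv, pow_add]
    norm_num

theorem ord_h3 : Ord 0 (-3) fun h => ((h : ℝ) ^ 3)⁻¹ := by
  have h1 := ord_inv_h.pow 3
  refine (h1.congr fun h => (inv_pow _ _).symm).lex (Or.inr ⟨by norm_num, by norm_num⟩)

theorem ord_k1R (C : ℝ) : Ord 0 (-1) (k1R C) := by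
  have h1 : Ord 0 (-1) fun h => (C * ((um h : ℝ) * Lg h + 1)) * (KK h : ℝ)⁻¹ :=
    (((ord_um.mul0 ord_Lg).add (Ord.const 1)).const_mul C).zmul ord_KK_inv
  have h2 : Ord 0 (-1) fun h => C * ((h : ℝ) ^ 3)⁻¹ := (ord_h3.const_mul C).weak (by norm_num)
  exact (h1.add h2).congr fun h => by unfold k1R; rw [div_eq_mul_inv, div_eq_mul_inv]

theorem ord_lamR (C : ℝ) : Ord 0 (-1) (lamR C) :=
  (((ord_k1R C).const_mul 2).mul0 (ord_sR_inv.pow0 2)).congr fun h => by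
    unfold lamR
    rw [inv_pow, div_eq_mul_inv]

theorem ord_k1s (C : ℝ) : Ord 0 (-1) fun h => k1R C h / sR h :=
  ((ord_k1R C).mul0 ord_sR_inv).congr fun h => by rw [div_eq_mul_inv]

theorem k1R_nonneg {C : ℝ} (hC : 0 ≤ C) (h : ℕ) : 0 ≤ k1R C h := by
  unfold k1R; positivity

theorem knR_nonneg {C : ℝ} (hC : 0 ≤ C) (h : ℕ) : 0 ≤ knR C h := by
  unfold knR; positivity

theorem lamR_nonneg {C : ℝ} (hC : 0 ≤ C) (h : ℕ) : 0 ≤ lamR C h := by
  have := k1R_nonneg hC h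
  unfold lamR; positivity

theorem sR_le_one (h : ℕ) : sR h ≤ 1 := by
  have h1 : 1 ≤ δi h := by
    have h0 : 0 < δi h := by unfold δi; have := W_pos h; positivity
    omega
  have h2 : (1 : ℝ) ≤ δi h := by exact_mod_cast h1
  have h3 : (1 : ℝ) ≤ (2 : ℝ) ^ (sb h + 5) := one_le_pow₀ (by norm_num)
  unfold sR
  refine inv_le_one_of_one_le₀ ?_
  nlinarith

theorem lam_ok {C : ℝ} (hC : 0 ≤ C) (h : ℕ) : k1R C h * (1 + sR h ^ 2) ≤ lamR C h * sR h ^ 2 := by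
  have h1 := sR_pos h
  have h2 : sR h ^ 2 ≤ 1 := pow_le_one₀ h1.le (sR_le_one h)
  have h3 := k1R_nonneg hC h
  have h4 : lamR C h * sR h ^ 2 = 2 * k1R C h := by
    unfold lamR
    field_simp
  rw [h4]
  nlinarith

/-! ### the two lines which are only small in `W` -/

theorem ev_real_KK : ∀ᶠ h : ℕ in atTop, 0 < (KK h : ℝ) ∧
    (h : ℝ) ≤ 2 * KK h * ((W h : ℝ) ^ 8 * (Lg h : ℝ) ^ 3) := by
  filter_upwards [ev_le_KK, ev_KK_pos] with h h1 h2
  exact ⟨by exact_mod_cast h2, by exact_mod_cast h1⟩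

theorem noflag_aux {I K w L : ℝ} (hw : 0 < w) (hL : 0 < L) (hK : 0 < K)
    (h5 : I ≤ 4 * (K * (w ^ 8 * L ^ 3))) : I / (w ^ 12 * L ^ 3 * K) ≤ 4 / w ^ 4 := by
  rw [div_le_div_iff₀ (by positivity) (by positivity)]
  calc I * w ^ 4 ≤ 4 * (K * (w ^ 8 * L ^ 3)) * w ^ 4 := by gcongr
    _ = 4 * (w ^ 12 * L ^ 3 * K) := by ring

/-- `II / (g K) ≤ 4 / W ^ 4` -/
theorem ev_noflag : ∀ᶠ h : ℕ in atTop, (II h : ℝ) * ((gg h : ℝ)⁻¹ / KK h) ≤ 4 / (W h : ℝ) ^ 4 := by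
  filter_upwards [ev_real_KK, eventually_ge_atTop 1] with h ⟨hK, hhK⟩ hh
  have hW : (0 : ℝ) < W h := by exact_mod_cast W_pos h
  have hL : (0 : ℝ) < Lg h := by exact_mod_cast Lg_pos h
  have hg : (gg h : ℝ) = (W h : ℝ) ^ 12 * (Lg h : ℝ) ^ 3 := by unfold gg; push_cast; ring
  have hII : (II h : ℝ) ≤ 2 * h := by
    have h1 := II_le h
    have h2 : (II h : ℝ) ≤ h + 1 := by exact_mod_cast h1
    have h3 : (1 : ℝ) ≤ h := by exact_mod_cast hh
    linarith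
  have h4 : (II h : ℝ) ≤ 4 * (KK h * ((W h : ℝ) ^ 8 * (Lg h : ℝ) ^ 3)) := by linarith
  have e : (II h : ℝ) * ((gg h : ℝ)⁻¹ / KK h) = II h / (gg h * KK h) := by
    rw [div_eq_mul_inv, div_eq_mul_inv, mul_inv]
  rw [e, hg]
  exact noflag_aux hW hL hK h4

theorem letters_aux {I n p K w L : ℝ} (hw : 0 < w) (hL : 0 < L) (hK : 0 < K)
    (h5 : I * n ≤ 4 * (K * (w ^ 8 * L ^ 3))) (hp0 : 0 ≤ p) (hp : p ≤ 20 * (w * L)) :
    I * (n * p / (w ^ 14 * L ^ 4) / K) ≤ 80 / w ^ 5 := by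
  have e : I * (n * p / (w ^ 14 * L ^ 4) / K) = (I * n) * p / (w ^ 14 * L ^ 4 * K) := by
    rw [div_div, mul_div_assoc', ← mul_assoc]
  rw [e, div_le_div_iff₀ (by positivity) (by positivity)]
  calc (I * n) * p * w ^ 5 ≤ 4 * (K * (w ^ 8 * L ^ 3)) * (20 * (w * L)) * w ^ 5 := by
        gcongr
    _ = 80 * (w ^ 14 * L ^ 4 * K) := by ring

/-- `II nn (pb + 1) / (gam K) ≤ 80 / W ^ 5` -/
theorem ev_letters : ∀ᶠ h : ℕ in atTop,
    (II h : ℝ) * ((nn h : ℝ) * (pb h + 1) / gam h / KK h) ≤ 80 / (W h : ℝ) ^ 5 := by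
  filter_upwards [ev_real_KK, eventually_ge_atTop 1, ev_exp_le_Lg 1 1 0] with h ⟨hK, hhK⟩ hh hn
  have hW : (0 : ℝ) < W h := by exact_mod_cast W_pos h
  have hW1 : (1 : ℝ) ≤ W h := by exact_mod_cast W_pos h
  have hL : (0 : ℝ) < Lg h := by exact_mod_cast Lg_pos h
  have hL1 : (1 : ℝ) ≤ Lg h := by exact_mod_cast Lg_pos h
  have hg : (gam h : ℝ) = (W h : ℝ) ^ 14 * (Lg h : ℝ) ^ 4 := by unfold gam; push_cast; ring
  have hp : (pb h : ℝ) + 1 ≤ 20 * (W h * Lg h) := by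
    have h1 : (pb h : ℝ) = 16 * W h * Lg h := by unfold pb; push_cast; ring
    have h2 : (1 : ℝ) ≤ (W h : ℝ) * Lg h := one_le_mul_of_one_le_of_one_le hW1 hL1
    rw [h1]
    linarith
  have hp0 : (0 : ℝ) ≤ (pb h : ℝ) + 1 := by
    have : (0 : ℝ) ≤ (pb h : ℝ) := Nat.cast_nonneg _
    linarith
  have hnh : (nn h : ℝ) ≤ h := by
    have h1 : Lg h ≤ h := by
      unfold Lg il
      simp only [Function.iterate_one]
      exact Nat.log_lt_self 2 (by omega)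
    have h4 : nn h ≤ h := by omega
    exact_mod_cast h4
  have hII : (II h : ℝ) * nn h ≤ 2 * h := by
    have h1 : (II h : ℕ) * nn h ≤ h + nn h := by
      unfold II
      rw [Nat.add_mul, one_mul]
      exact Nat.add_le_add_right (Nat.div_mul_le_self _ _) _
    have h2 : (II h : ℝ) * nn h ≤ h + nn h := by exact_mod_cast h1
    linarith
  rw [hg]
  refine letters_aux hW hL hK ?_ hp0 hp
  linarith

/-- negative order: eventually below `1 / (c W ^ k)` -/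
theorem Ord.ev_le {a b : ℝ} {f : ℕ → ℝ} (hf : Ord a b f) (h : a < 0 ∨ (a = 0 ∧ b < 0)) {c : ℝ}
    (hc : 0 < c) (k : ℕ) : ∀ᶠ h : ℕ in atTop, f h ≤ 1 / (c * (W h : ℝ) ^ k) := by
  filter_upwards [hf.mul_le_one h ((ord_W.pow0 k).const_mul c)] with h h1
  have hW : (0 : ℝ) < (W h : ℝ) := by exact_mod_cast W_pos h
  have h2 : (0 : ℝ) < c * (W h : ℝ) ^ k := by positivity
  rw [le_div_iff₀ h2]
  exact (le_abs_self _).trans h1

theorem W_real_pos (h : ℕ) : (0 : ℝ) < (W h : ℝ) := by exact_mod_cast W_pos h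

/-- `C / W ^ (k+1) ≤ 1 / (c W ^ k)` eventually -/
theorem ev_div_W (C : ℝ) {c : ℝ} (hc : 0 < c) (k : ℕ) :
    ∀ᶠ h : ℕ in atTop, C / (W h : ℝ) ^ (k + 1) ≤ 1 / (c * (W h : ℝ) ^ k) := by
  filter_upwards [tendsto_WR.eventually_ge_atTop (C * c)] with h h1
  have hW := W_real_pos h
  rw [div_le_div_iff₀ (by positivity) (by positivity), pow_succ]
  have h2 : C * c * (W h : ℝ) ^ k ≤ W h * (W h : ℝ) ^ k :=
    mul_le_mul_of_nonneg_right h1 (by positivity)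
  calc C * (c * (W h : ℝ) ^ k) = C * c * (W h : ℝ) ^ k := by ring
    _ ≤ W h * (W h : ℝ) ^ k := h2
    _ = 1 * ((W h : ℝ) ^ k * W h) := by ring

theorem quarter {w : ℝ} (hw : 0 < w) : 1 / (4 * w ^ 3) + 1 / (4 * w ^ 3) + 1 / (4 * w ^ 3)
    + 1 / (4 * w ^ 3) = 1 / w ^ 3 := by
  field_simp
  norm_num

/-- near loss, all levels together -/
theorem ev_near {C : ℝ} (hC : 0 < C) : ∀ᶠ h : ℕ in atTop, (II h : ℝ) * knR C h ≤ 1 / (W h : ℝ) ^ 3 := by
  have o1 : Ord 0 (-1) fun h => (II h : ℝ) * ((um h : ℝ) / pm h / KK h) := by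
    have := (ord_II.mul (ord_um.mul ord_pm_inv)).mul ord_KK_inv
    refine (this.congr fun h => ?_).lex (Or.inr ⟨by norm_num, by norm_num⟩)
    rw [div_eq_mul_inv, div_eq_mul_inv]
    ring
  have o2 : Ord 0 (-2) fun h => (II h : ℝ) * (C / (h : ℝ) ^ 3) := by
    have := ord_II.mul (ord_h3.const_mul C)
    refine (this.congr fun h => ?_).lex (Or.inr ⟨by norm_num, by norm_num⟩)
    rw [div_eq_mul_inv]
  filter_upwards [ev_letters, ev_noflag,
    (o1.const_mul C).ev_le (Or.inr ⟨rfl, by norm_num⟩) (show (0 : ℝ) < 4 by norm_num) 3,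
    o2.ev_le (Or.inr ⟨rfl, by norm_num⟩) (show (0 : ℝ) < 4 by norm_num) 3,
    ev_div_W (4 * C) (show (0 : ℝ) < 4 by norm_num) 3,
    ev_div_W (80 * C) (show (0 : ℝ) < 4 by norm_num) 3, ev_W_ge 1] with h h1 h2 h3 h4 h5 h6 h7
  have hW := W_real_pos h
  have hW1 : (1 : ℝ) ≤ W h := by exact_mod_cast h7
  have e : (II h : ℝ) * knR C h
      = C * ((II h : ℝ) * ((nn h : ℝ) * (pb h + 1) / gam h / KK h))
        + C * ((II h : ℝ) * ((um h : ℝ) / pm h / KK h))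
        + C * ((II h : ℝ) * ((gg h : ℝ)⁻¹ / KK h)) + (II h : ℝ) * (C / (h : ℝ) ^ 3) := by
    unfold knR
    ring
  rw [e, ← quarter hW]
  have h8 : C * ((II h : ℝ) * ((nn h : ℝ) * (pb h + 1) / gam h / KK h)) ≤ 1 / (4 * (W h : ℝ) ^ 3) := by
    calc _ ≤ C * (80 / (W h : ℝ) ^ 5) := mul_le_mul_of_nonneg_left h1 hC.le
      _ = 80 * C / (W h : ℝ) ^ 5 := by ring
      _ ≤ 80 * C / (W h : ℝ) ^ (3 + 1) := by
          refine div_le_div_of_nonneg_left (by positivity) (by positivity) ?_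
          exact pow_le_pow_right₀ hW1 (by norm_num)
      _ ≤ _ := h6
  have h9 : C * ((II h : ℝ) * ((gg h : ℝ)⁻¹ / KK h)) ≤ 1 / (4 * (W h : ℝ) ^ 3) := by
    calc _ ≤ C * (4 / (W h : ℝ) ^ 4) := mul_le_mul_of_nonneg_left h2 hC.le
      _ = 4 * C / (W h : ℝ) ^ (3 + 1) := by ring
      _ ≤ _ := h5
  linarith

/-- all the inequalities of the analysis side, with an arbitrary constant `C` -/
structure ParA (C : ℕ) (h : ℕ) : Prop where
  h1 : 1 ≤ h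
  CW : C ≤ W h
  Ch : C ≤ h
  KK0 : 0 < KK h
  CK : C ≤ KK h
  /-- near loss, all levels -/
  near : (II h : ℝ) * knR C h ≤ 1 / (W h : ℝ) ^ 3
  /-- coefficient of the potential -/
  lamle : lamR C h ≤ 1 / (W h : ℝ) ^ 3
  /-- defects, all levels -/
  bad : (II h : ℝ) * ((2 * lamR C h + k1R C h / sR h) * k1R C h) ≤ 1 / (W h : ℝ) ^ 3
  /-- roundings, all levels -/
  err : (II h : ℝ) * (C / (h : ℝ) ^ 3) ≤ 1 / (W h : ℝ) ^ 3
  lamerr : (II h : ℝ) * (lamR C h * (C / (h : ℝ) ^ 3)) ≤ 1 / (W h : ℝ) ^ 3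
  /-- the comparator staircases -/
  rho : (1 + C / (h : ℝ) ^ 3) ^ II h ≤ 1 + 1 / (W h : ℝ) ^ 3
  /-- the plan -/
  plan : 7 * sR h + C * ((2 : ℝ) ^ nn h * (C / (h : ℝ) ^ 3)) ≤ 4 * (1 / (δi h : ℝ)) * (1 / 2 ^ sb h)
  k1s : C * k1R C h ≤ sR h
  /-- oscillation of the letters -/
  osc : C * (gam h * gg h * (nn h + 1)) ≤ 2 ^ bb h
  osc' : C * (4 ^ nn h * 2 ^ bb h) ≤ 2 ^ sb h
  /-- precisions -/
  tlam : (C : ℝ) * 2 ^ (C * nn h + C * Mg h) * (h : ℝ) ^ C / 2 ^ lam h ≤ 1 / (h : ℝ) ^ 3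
  tpb : (C : ℝ) * 2 ^ (C * nn h + C * Mg h) * (h : ℝ) ^ C * (2 ^ lB h * 2 ^ lB h * 2 ^ gI h * 2 ^ lam h)
    / 2 ^ pb h ≤ 1 / (h : ℝ) ^ 3
  tnb : (C : ℝ) * 2 ^ (C * nn h + C * Mg h) * (h : ℝ) ^ C * (2 ^ lB h * 2 ^ lam h) / 2 ^ nb h
    ≤ 1 / (h : ℝ) ^ 3
  tdl : (C : ℝ) * 2 ^ (C * nn h + C * Mg h) * (h : ℝ) ^ C * (2 ^ lB h * 2 ^ lam h) / 2 ^ dl h
    ≤ 1 / (h : ℝ) ^ 3
  tal : (C : ℝ) * 2 ^ (C * nn h + C * Mg h) * (h : ℝ) ^ C * (2 ^ lB h * 2 ^ lam h) / 2 ^ al h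
    ≤ 1 / (h : ℝ) ^ 3
  /-- number of epochs -/
  epochs : C * W h * h ^ C * 2 ^ lB h ≤ 4 ^ (2 * lB h)
  EE_eq : EE h = 2 * (2 * lB h)
  /-- lanes -/
  c0ge : C ≤ 2 ^ c0 h
  mJge : C * 4 ^ bb h ≤ mJ h
  mXge : C * 4 ^ nb h ≤ mX h
  jump : C * 2 ^ (C * nn h + C * Mg h) * h ^ C * 2 ^ (C * pb h) ≤ 2 ^ (W h ^ 2 * Lg h)
  union : C * h ^ C * 2 ^ (C * h) * 2 ^ (C * pb h) ≤ 2 ^ (W h * h)

theorem ord_tC (C : ℕ) : Ord 0 C fun h => (C : ℝ) * 2 ^ (C * nn h + C * Mg h) * (h : ℝ) ^ C := by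
  have := (((ord_two_pow_nn C C).const_mul (C : ℝ)).zmul (ord_h.pow C))
  refine this.lex ?_
  right
  constructor
  · simp
  · simp

/-- a precision line from an order with negative first component -/
theorem ev_tiny {a b : ℝ} {f : ℕ → ℝ} (hf : Ord a b f) (ha : a < 0) :
    ∀ᶠ h : ℕ in atTop, f h ≤ 1 / (h : ℝ) ^ 3 := by
  have h1 : Ord a (b + 3) fun h => f h * (h : ℝ) ^ 3 := by
    have := hf.mul (ord_h.pow 3)
    refine this.lex (Or.inr ⟨by norm_num, by norm_num⟩)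
  filter_upwards [h1.le_one (Or.inl ha), eventually_ge_atTop 1] with h h2 h3
  have h4 : (0 : ℝ) < h := by exact_mod_cast h3
  rw [le_div_iff₀ (by positivity)]
  exact (le_abs_self _).trans h2

theorem one_add_pow_le {x : ℝ} (hx : 0 ≤ x) (n : ℕ) (h : n * x ≤ 1) : (1 + x) ^ n ≤ 1 + 2 * (n * x) := by
  have h1 : (1 + x) ^ n ≤ Real.exp (n * x) := by
    rw [Real.exp_nat_mul]
    exact pow_le_pow_left₀ (by positivity) (by linarith [Real.add_one_le_exp x]) n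
  have h0 : 0 ≤ (n : ℝ) * x := by positivity
  have h2 := Real.abs_exp_sub_one_le (x := n * x) (by rwa [abs_of_nonneg h0])
  rw [abs_of_nonneg h0] at h2
  linarith [le_abs_self (Real.exp (n * x) - 1)]

theorem ev_rho (C : ℕ) : ∀ᶠ h : ℕ in atTop,
    (1 + (C : ℝ) / (h : ℝ) ^ 3) ^ II h ≤ 1 + 1 / (W h : ℝ) ^ 3 := by
  have o2 : Ord 0 (-2) fun h => (II h : ℝ) * ((C : ℝ) / (h : ℝ) ^ 3) := by
    have := ord_II.mul (ord_h3.const_mul C)
    refine (this.congr fun h => ?_).lex (Or.inr ⟨by norm_num, by norm_num⟩)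
    rw [div_eq_mul_inv]
  filter_upwards [o2.ev_le (Or.inr ⟨rfl, by norm_num⟩) (show (0 : ℝ) < 2 by norm_num) 3,
    o2.le_one (Or.inr ⟨rfl, by norm_num⟩)] with h h1 h2
  have h3 := one_add_pow_le (x := (C : ℝ) / (h : ℝ) ^ 3) (by positivity) (II h)
    ((le_abs_self _).trans h2)
  have hW := W_real_pos h
  have e : 2 * (1 / (2 * (W h : ℝ) ^ 3)) = 1 / (W h : ℝ) ^ 3 := by
    field_simp
  linarith

theorem ev_plan (C : ℕ) : ∀ᶠ h : ℕ in atTop,
    7 * sR h + C * ((2 : ℝ) ^ nn h * (C / (h : ℝ) ^ 3)) ≤ 4 * (1 / (δi h : ℝ)) * (1 / 2 ^ sb h) := by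
  have o1 : Ord 0 (-3) fun h =>
      ((C : ℝ) * ((2 : ℝ) ^ nn h * (C / (h : ℝ) ^ 3))) * ((2 : ℝ) ^ sb h * (δi h : ℝ)) := by
    have := ((ord_N.zmul (ord_h3.const_mul (C : ℝ))).const_mul (C : ℝ)).mul0
      (ord_two_pow_sb.mul0 ord_δi)
    exact this.congr fun h => by rw [div_eq_mul_inv]
  filter_upwards [o1.le_one (Or.inr ⟨rfl, by norm_num⟩)] with h h1
  have h2 := (le_abs_self _).trans h1
  have hd : (0 : ℝ) < δi h := by
    have : 0 < δi h := by unfold δi; have := W_pos h; positivity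
    exact_mod_cast this
  have hb : (0 : ℝ) < (2 : ℝ) ^ sb h := by positivity
  set T := (C : ℝ) * ((2 : ℝ) ^ nn h * (C / (h : ℝ) ^ 3)) with hT
  have e1 : sR h = 1 / 32 * (1 / ((2 : ℝ) ^ sb h * (δi h : ℝ))) := by
    unfold sR
    rw [pow_add]
    field_simp
    norm_num
  have e2 : 4 * (1 / (δi h : ℝ)) * (1 / 2 ^ sb h) = 4 * (1 / ((2 : ℝ) ^ sb h * (δi h : ℝ))) := by
    field_simp
  have h3 : T ≤ 1 / ((2 : ℝ) ^ sb h * (δi h : ℝ)) := by
    rw [le_div_iff₀ (by positivity)]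
    exact h2
  have h4 : 0 < 1 / ((2 : ℝ) ^ sb h * (δi h : ℝ)) := by positivity
  rw [e1, e2]
  linarith

theorem ev_osc (C : ℕ) : ∀ᶠ h : ℕ in atTop, C * (gam h * gg h * (nn h + 1)) ≤ 2 ^ bb h := by
  filter_upwards [ev_le_two_pow_Mg (2 * C) 28 7 1] with h h1
  have hW := W_pos h
  have hM := Mg_pos h
  have hn : nn h + 1 ≤ 2 * (Mg h * W h ^ 2) := by
    have : 1 ≤ Mg h * W h ^ 2 := Nat.mul_pos hM (by positivity)
    unfold nn
    omega
  calc C * (gam h * gg h * (nn h + 1)) ≤ C * (gam h * gg h * (2 * (Mg h * W h ^ 2))) := by gcongr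
    _ = 2 * C * W h ^ 28 * Lg h ^ 7 * Mg h ^ 1 := by unfold gam gg; ring
    _ ≤ 2 ^ ((7 + 1) * Mg h) := h1
    _ ≤ 2 ^ bb h := Nat.pow_le_pow_right (by norm_num) (by unfold bb; omega)

theorem ev_osc' (C : ℕ) : ∀ᶠ h : ℕ in atTop, C * (4 ^ nn h * 2 ^ bb h) ≤ 2 ^ sb h := by
  filter_upwards [ev_le_Mg C 0] with h h1
  have h2 : C ≤ 2 ^ (2 * Mg h) := by
    simp only [pow_zero, mul_one] at h1
    calc C ≤ Mg h := h1
      _ ≤ 2 ^ Mg h := Nat.lt_two_pow_self.le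
      _ ≤ 2 ^ (2 * Mg h) := Nat.pow_le_pow_right (by norm_num) (by omega)
  calc C * (4 ^ nn h * 2 ^ bb h) ≤ 2 ^ (2 * Mg h) * (4 ^ nn h * 2 ^ bb h) := by gcongr
    _ = 2 ^ sb h := by
        unfold sb
        rw [show (4 : ℕ) = 2 ^ 2 by norm_num, ← pow_mul, pow_add, pow_add]
        ring

theorem ev_epochs (C : ℕ) : ∀ᶠ h : ℕ in atTop, C * W h * h ^ C * 2 ^ lB h ≤ 4 ^ (2 * lB h) := by
  have o1 : Ord (-3) (C - 12) fun h =>
      ((C : ℝ) * W h * (h : ℝ) ^ C * 2 ^ lB h) * ((2 : ℝ) ^ EE h)⁻¹ := by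
    have := (((ord_W.const_mul (C : ℝ)).zmul (ord_h.pow C)).mul ord_B0).mul ord_EE_inv
    refine this.lex (Or.inr ⟨by norm_num, ?_⟩)
    ring_nf
    exact le_rfl
  filter_upwards [o1.le_one (Or.inl (by norm_num))] with h h1
  have h2 := (le_abs_self _).trans h1
  have h3 : (0 : ℝ) < (2 : ℝ) ^ EE h := by positivity
  rw [← div_eq_mul_inv, div_le_one h3] at h2
  have h4 : C * W h * h ^ C * 2 ^ lB h ≤ 2 ^ EE h := by exact_mod_cast h2
  refine h4.trans (le_of_eq ?_)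
  rw [show (4 : ℕ) = 2 ^ 2 by norm_num, ← pow_mul]
  congr 1
  unfold EE lB
  ring

theorem h_le_two_pow (h : ℕ) : h ≤ 2 ^ Lg h := (lt_two_pow_Lg h).le

theorem ev_jump (C : ℕ) : ∀ᶠ h : ℕ in atTop,
    C * 2 ^ (C * nn h + C * Mg h) * h ^ C * 2 ^ (C * pb h) ≤ 2 ^ (W h ^ 2 * Lg h) := by
  filter_upwards [ev_exp_le_Lg 0 C C, ev_W_ge (20 * C + 4)] with h h1 h2
  have hL := Lg_pos h
  have h3 : C ≤ 2 ^ (C * Lg h) := by
    calc C ≤ 2 ^ C := Nat.lt_two_pow_self.le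
      _ ≤ 2 ^ (C * Lg h) := Nat.pow_le_pow_right (by norm_num) (Nat.le_mul_of_pos_right _ hL)
  have h4 : h ^ C ≤ 2 ^ (C * Lg h) := by
    calc h ^ C ≤ (2 ^ Lg h) ^ C := Nat.pow_le_pow_left (h_le_two_pow h) _
      _ = 2 ^ (C * Lg h) := by rw [← pow_mul, mul_comm]
  calc C * 2 ^ (C * nn h + C * Mg h) * h ^ C * 2 ^ (C * pb h)
      ≤ 2 ^ (C * Lg h) * 2 ^ Lg h * 2 ^ (C * Lg h) * 2 ^ (C * pb h) := by
        gcongr
        · norm_num
        · omega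
    _ = 2 ^ (C * Lg h + Lg h + C * Lg h + C * pb h) := by rw [← pow_add, ← pow_add, ← pow_add]
    _ ≤ 2 ^ (W h ^ 2 * Lg h) := by
        refine Nat.pow_le_pow_right (by norm_num) ?_
        have e : C * Lg h + Lg h + C * Lg h + C * pb h = (2 * C + 1 + 16 * C * W h) * Lg h := by
          unfold pb; ring
        rw [e]
        refine Nat.mul_le_mul_right _ ?_
        nlinarith

theorem ev_union (C : ℕ) : ∀ᶠ h : ℕ in atTop,
    C * h ^ C * 2 ^ (C * h) * 2 ^ (C * pb h) ≤ 2 ^ (W h * h) := by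
  have s1 : Sm 0 (fun h => W h ^ 1 * Lg h ^ 1 * Mg h ^ 0) := sm_poly 1 1 0
  filter_upwards [s1.mul_le (16 * C + 1), sm_Lg.mul_le (C + 1), ev_W_ge (C + 3),
    eventually_ge_atTop C] with h h1 h2 h3 h4
  simp only [pow_zero, mul_one, pow_one] at h1
  change _ ≤ h at h1
  change _ ≤ h at h2
  have h5 : C ≤ 2 ^ h := h4.trans Nat.lt_two_pow_self.le
  have h6 : h ^ C ≤ 2 ^ h := by
    calc h ^ C ≤ (2 ^ Lg h) ^ C := Nat.pow_le_pow_left (h_le_two_pow h) _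
      _ = 2 ^ (C * Lg h) := by rw [← pow_mul, mul_comm]
      _ ≤ 2 ^ h := Nat.pow_le_pow_right (by norm_num) (by nlinarith)
  have h7 : C * pb h ≤ h := by
    have e : C * pb h = 16 * C * (W h * Lg h) := by unfold pb; ring
    rw [e]
    nlinarith
  calc C * h ^ C * 2 ^ (C * h) * 2 ^ (C * pb h) ≤ 2 ^ h * 2 ^ h * 2 ^ (C * h) * 2 ^ h := by
        gcongr
        norm_num
    _ = 2 ^ (h + h + C * h + h) := by rw [← pow_add, ← pow_add, ← pow_add]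
    _ ≤ 2 ^ (W h * h) := by
        refine Nat.pow_le_pow_right (by norm_num) ?_
        calc h + h + C * h + h = (C + 3) * h := by ring
          _ ≤ W h * h := Nat.mul_le_mul_right _ h3

theorem ev_c0 (C : ℕ) : ∀ᶠ h : ℕ in atTop, C ≤ 2 ^ c0 h := by
  filter_upwards [ev_le_Mg C 0] with h h1
  simp only [pow_zero, mul_one] at h1
  exact h1.trans Nat.lt_two_pow_self.le

theorem ev_mJ (C : ℕ) : ∀ᶠ h : ℕ in atTop, C * 4 ^ bb h ≤ mJ h := by
  filter_upwards [ev_le_Mg C 0] with h h1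
  simp only [pow_zero, mul_one] at h1
  have h2 : C ≤ 4 ^ Mg h := h1.trans (Nat.lt_pow_self (by norm_num)).le
  calc C * 4 ^ bb h ≤ 4 ^ Mg h * 4 ^ bb h := by gcongr
    _ = mJ h := by unfold mJ; rw [pow_add, mul_comm]

theorem ev_mX (C : ℕ) : ∀ᶠ h : ℕ in atTop, C * 4 ^ nb h ≤ mX h := by
  filter_upwards [ev_W_ge C] with h h1
  have h2 : C ≤ 2 ^ (W h * Lg h) := by
    calc C ≤ W h := h1
      _ ≤ W h * Lg h := Nat.le_mul_of_pos_right _ (Lg_pos h)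
      _ ≤ _ := Nat.lt_two_pow_self.le
  calc C * 4 ^ nb h ≤ 2 ^ (W h * Lg h) * 4 ^ nb h := by gcongr
    _ = mX h := by
        unfold mX
        rw [show (4 : ℕ) = 2 ^ 2 by norm_num, ← pow_mul, pow_add, mul_comm]

/-- **all the inequalities, for every constant** -/
theorem ev_parA (C : ℕ) : ∀ᶠ h : ℕ in atTop, ParA C h := by
  have hC0 : (0 : ℝ) ≤ (C : ℝ) := Nat.cast_nonneg _
  have hC1 : (0 : ℝ) < (C : ℝ) + 1 := by positivity
  -- near
  have near : ∀ᶠ h : ℕ in atTop, (II h : ℝ) * knR C h ≤ 1 / (W h : ℝ) ^ 3 := by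
    filter_upwards [ev_near hC1] with h h1
    refine le_trans (mul_le_mul_of_nonneg_left ?_ (Nat.cast_nonneg _)) h1
    unfold knR
    gcongr <;> linarith
  have obad : Ord 0 (-1) fun h =>
      (II h : ℝ) * ((2 * lamR C h + k1R C h / sR h) * k1R C h) := by
    have := ord_II.mul ((((ord_lamR C).const_mul 2).add (ord_k1s C)).mul (ord_k1R C))
    exact this.lex (Or.inr ⟨by norm_num, by norm_num⟩)
  have oerr : Ord 0 (-2) fun h => (II h : ℝ) * ((C : ℝ) / (h : ℝ) ^ 3) := by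
    have := ord_II.mul (ord_h3.const_mul C)
    refine (this.congr fun h => ?_).lex (Or.inr ⟨by norm_num, by norm_num⟩)
    rw [div_eq_mul_inv]
  have olam : Ord 0 (-3) fun h => (II h : ℝ) * (lamR C h * ((C : ℝ) / (h : ℝ) ^ 3)) := by
    have := ord_II.mul ((ord_lamR C).mul (ord_h3.const_mul C))
    refine (this.congr fun h => ?_).lex (Or.inr ⟨by norm_num, by norm_num⟩)
    rw [div_eq_mul_inv]
  have ok1s : Ord 0 (-1) fun h => ((C : ℝ) * k1R C h) * (sR h)⁻¹ :=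
    ((ord_k1R C).const_mul C).mul0 ord_sR_inv
  have one : (0 : ℝ) < 1 := one_pos
  have tB : Ord (-11) (C + 8) fun h => (C : ℝ) * 2 ^ (C * nn h + C * Mg h) * (h : ℝ) ^ C *
      (2 ^ lB h * 2 ^ lB h * 2 ^ gI h * 2 ^ lam h) / 2 ^ pb h := by
    have := ((ord_tC C).mul (((ord_B0.mul ord_B0).mul ord_gI).mul ord_Lam)).mul ord_P
    refine (this.congr fun h => ?_).lex (Or.inl (by norm_num))
    rw [div_eq_mul_inv]
  have t2 : ∀ {e : ℕ → ℕ}, (Ord (-8) 0 fun h => ((2 : ℝ) ^ e h)⁻¹) →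
      ∀ᶠ h : ℕ in atTop, (C : ℝ) * 2 ^ (C * nn h + C * Mg h) * (h : ℝ) ^ C * (2 ^ lB h * 2 ^ lam h)
        / 2 ^ e h ≤ 1 / (h : ℝ) ^ 3 := by
    intro e he
    have := ((ord_tC C).mul (ord_B0.mul ord_Lam)).mul he
    exact ev_tiny (this.congr fun h => by rw [div_eq_mul_inv]) (by norm_num)
  filter_upwards [eventually_ge_atTop 1, ev_W_ge C, eventually_ge_atTop C, ev_KK_pos,
    Sm.le_KK (Sm.const 0 C), near,
    (ord_lamR C).ev_le (Or.inr ⟨rfl, by norm_num⟩) one 3,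
    obad.ev_le (Or.inr ⟨rfl, by norm_num⟩) one 3,
    oerr.ev_le (Or.inr ⟨rfl, by norm_num⟩) one 3,
    olam.ev_le (Or.inr ⟨rfl, by norm_num⟩) one 3,
    ev_rho C, ev_plan C, ok1s.le_one (Or.inr ⟨rfl, by norm_num⟩), ev_osc C, ev_osc' C,
    ev_tiny (((ord_tC C).mul ord_Lam_inv).congr fun h => (div_eq_mul_inv _ _)) (by norm_num),
    ev_tiny tB (by norm_num), t2 ord_nu, t2 ord_dl, t2 ord_al, ev_epochs C, ev_c0 C, ev_mJ C,
    ev_mX C, ev_jump C, ev_union C]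
    with h a1 a2 a3 a4 a5 a6 a7 a8 a9 a10 a11 a12 a13 a14 a15 a16 a17 a18 a19 a20 a21 a22 a23 a24 a25 a26
  rw [one_mul] at a7 a8 a9 a10
  exact
  { h1 := a1, CW := a2, Ch := a3, KK0 := a4, CK := a5, near := a6, lamle := a7, bad := a8, err := a9
    lamerr := a10, rho := a11, plan := a12
    k1s := by
      have h1 := (le_abs_self _).trans a13
      have h2 := sR_pos h
      rwa [← div_eq_mul_inv, div_le_one h2] at h1
    osc := a14, osc' := a15, tlam := a16, tpb := a17, tnb := a18, tdl := a19, tal := a20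
    epochs := a21
    EE_eq := by unfold EE lB; ring
    c0ge := a22, mJge := a23, mXge := a24, jump := a25, union := a26 }

end Crest.Agent.R288.Par895
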