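import Crest.Agent.R288.PlanJ_693
import Crest.Agent.R288.ParC_806

/-!
# R288 [PLANK]: the numbers of (A12) for the parameter table, helper693

* `sP P = 1 / (4 δi 2^sb)` : straightness of a comparator
* `PlanNum P ζ` : the two numeric lines of the plan; **`planNum`** : they hold for the table
* **`plan_final`** : `PlanJ693.plan_stair` with the numbers plugged in (every `κ` with `2^κ ≤ 2 F x`)
-/

set_option autoImplicit false

namespace Crest.Agent.R288.PlanK693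

open Finset Crest.Agent.R288.Alg45 Crest.Agent.R288.WinStm330
open Crest.Agent.R288.PlanI693 (Chd)
open Crest.Agent.R288.Par806 (ParOK nn δi sb Lg Mg W bb)

/-- straightness: energy `≤ sP² F`, growth `≤ sP F`, defect `≤ sP F` -/
noncomputable def sP (P : Par) : ℝ := 1 / (4 * P.δi * 2 ^ P.sb)

/-- the numeric lines of the plan -/
structure PlanNum (P : Par) (ζ : ℝ) : Prop where
  r1 : 1 ≤ P.r
  δ4 : 4 < P.δi
  ζ0 : 0 ≤ ζ
  ζ1 : ζ ≤ 1
  small : 7 * sP P + ζ * (4 + 12 * P.r) ≤ 4 * (1 / (P.δi : ℝ)) * (1 / 2 ^ P.sb)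
  reg : (1 + ζ) * ((1 + sP P) + 4 * P.N * (1 / 2 ^ P.sb)) ≤ P.Creg

theorem sP_pos {P : Par} (h : 4 < P.δi) : 0 < sP P := by
  have : (0 : ℝ) < P.δi := by exact_mod_cast (by omega : 0 < P.δi)
  unfold sP
  positivity

theorem sP_le_one {P : Par} (h : 4 < P.δi) : sP P ≤ 1 := by
  have h1 : (1 : ℝ) ≤ P.δi := by exact_mod_cast (by omega : 1 ≤ P.δi)
  have h2 : (1 : ℝ) ≤ 2 ^ P.sb := one_le_pow₀ (by norm_num)
  unfold sP
  rw [div_le_one (by positivity)]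
  nlinarith

/-- **the numeric lines hold for the table** -/
theorem planNum {C h : ℕ} (hp : ParOK C h) (hC : 16 ≤ C) {P : Par} (h1 : P.δi = δi h)
    (h2 : P.sb = sb h) (h3 : P.n = nn h) (hr1 : 1 ≤ P.r) (hr : P.r ≤ 40) (h5 : 8 ≤ P.Creg)
    {ζ : ℝ} (hζ0 : 0 ≤ ζ) (hζ : ζ * 2 ^ (4 * Lg h) ≤ 1) : PlanNum P ζ := by
  have hW := hp.W_ge
  have hW1 : 16 ≤ W h := hC.trans hW
  have hMg : 1 ≤ Mg h := Par806.Mg_pos h
  have hδ : 4 < P.δi := by
    rw [h1]; unfold δi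
    nlinarith
  have hexp := hp.exp_ge
  -- `δi 2^sb 2^8 ≤ 2^(4 Lg)`
  have hLW : W h ≤ Lg h := Par806.W_le_Lg h
  have hLg : Lg h ≤ 2 ^ Mg h := hp.Lg_le
  have hδ2 : δi h ≤ 2 ^ (2 * Mg h + 2) := by
    unfold δi
    calc 4 * W h ^ 2 ≤ 4 * (2 ^ Mg h) ^ 2 := by gcongr; exact hLW.trans hLg
      _ = 2 ^ (2 * Mg h + 2) := by rw [← pow_mul]; ring
  have hprod : δi h * 2 ^ sb h * 2 ^ 8 ≤ 2 ^ (4 * Lg h) := by
    calc δi h * 2 ^ sb h * 2 ^ 8 ≤ 2 ^ (2 * Mg h + 2) * 2 ^ sb h * 2 ^ 8 := by gcongr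
      _ = 2 ^ (2 * Mg h + 2 + sb h + 8) := by rw [← pow_add, ← pow_add]
      _ ≤ 2 ^ (4 * Lg h) := by
          apply Nat.pow_le_pow_right (by norm_num)
          have e : sb h = 14 * Mg h + 2 * nn h := by unfold sb bb; ring
          have a1 : 16 * nn h ≤ C * nn h := Nat.mul_le_mul_right _ hC
          have a2 : 16 * Mg h ≤ C * Mg h := Nat.mul_le_mul_right _ hC
          omega
  have hζδ : ζ * (δi h * 2 ^ sb h * 2 ^ 8) ≤ 1 := by
    refine le_trans (mul_le_mul_of_nonneg_left ?_ hζ0) hζ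
    exact_mod_cast hprod
  have hδpos : (0 : ℝ) < δi h := by
    have : 0 < δi h := by rw [← h1]; omega
    exact_mod_cast this
  have hδ1 : (1 : ℝ) ≤ δi h := by
    have : 1 ≤ δi h := by rw [← h1]; omega
    exact_mod_cast this
  have hs1 : (1 : ℝ) ≤ 2 ^ sb h := one_le_pow₀ (by norm_num)
  have hT : (0 : ℝ) < δi h * 2 ^ sb h := by positivity
  have hT1 : (1 : ℝ) ≤ δi h * 2 ^ sb h := by nlinarith
  -- `ζ ≤ 1/256`
  have hζ2 : ζ ≤ 1 / 256 := by
    have : ζ * (1 * 2 ^ 8) ≤ ζ * (δi h * 2 ^ sb h * 2 ^ 8) := by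
      apply mul_le_mul_of_nonneg_left _ hζ0
      nlinarith
    norm_num at this ⊢
    linarith
  have hsb : (14 : ℕ) + 2 * nn h ≤ sb h := by
    have e : sb h = 14 * Mg h + 2 * nn h := by unfold sb bb; ring
    omega
  have hN : (P.N : ℝ) * (1 / 2 ^ sb h) ≤ 1 / 2 ^ 14 := by
    have e : (P.N : ℝ) = 2 ^ nn h := by unfold Par.N; rw [h3]; push_cast; rfl
    rw [e, mul_one_div, div_le_div_iff₀ (by positivity) (by positivity), one_mul]
    calc (2 : ℝ) ^ nn h * 2 ^ 14 = 2 ^ (nn h + 14) := by rw [pow_add]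
      _ ≤ 2 ^ sb h := pow_le_pow_right₀ (by norm_num) (by omega)
  have hsP : sP P = 1 / (4 * (δi h * 2 ^ sb h)) := by
    unfold sP; rw [h1, h2]; ring
  have hsP16 : sP P ≤ 1 / 4 := by
    rw [hsP, div_le_div_iff₀ (by positivity) (by norm_num)]
    linarith
  refine ⟨hr1, hδ, hζ0, hζ2.trans (by norm_num), ?_, ?_⟩
  · have hrr : (P.r : ℝ) ≤ 40 := by exact_mod_cast hr
    have e1 : ζ * (4 + 12 * P.r) ≤ ζ * 484 := mul_le_mul_of_nonneg_left (by linarith) hζ0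
    have e2 : ζ ≤ 1 / (δi h * 2 ^ sb h * 2 ^ 8) := by
      rw [le_div_iff₀ (by positivity)]; exact hζδ
    have e3 : (1 : ℝ) / (δi h * 2 ^ sb h * 2 ^ 8) = 1 / 256 * (1 / (δi h * 2 ^ sb h)) := by
      field_simp; norm_num
    rw [e3] at e2
    have e4 : sP P = 1 / 4 * (1 / (δi h * 2 ^ sb h)) := by rw [hsP]; field_simp
    have e5 : 4 * (1 / (P.δi : ℝ)) * (1 / 2 ^ P.sb) = 4 * (1 / (δi h * 2 ^ sb h)) := by
      rw [h1, h2]; field_simp
    have e6 : (0 : ℝ) < 1 / (δi h * 2 ^ sb h) := by positivity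
    rw [e4, e5]
    linarith
  · have h8 : (8 : ℝ) ≤ P.Creg := by exact_mod_cast h5
    rw [h2]
    have e0 : 4 * (P.N : ℝ) * (1 / 2 ^ sb h) ≤ 4 * (1 / 2 ^ 14) := by
      rw [mul_assoc]; exact mul_le_mul_of_nonneg_left hN (by norm_num)
    have e1 : (0 : ℝ) ≤ 4 * (P.N : ℝ) * (1 / 2 ^ sb h) := by positivity
    have e2 : 0 < sP P := sP_pos hδ
    have e3 : (1 + ζ) * ((1 + sP P) + 4 * P.N * (1 / 2 ^ sb h)) ≤ 2 * 2 := by
      refine mul_le_mul (by linarith) ?_ (by positivity) (by norm_num)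
      norm_num at e0 ⊢
      linarith
    linarith

variable (P : Par) (F : St → ℕ) (x : St)

/-- `2^κ ≤ F x` for the own class -/
theorem two_pow_cls_le (hx : 0 < F x) : (2 : ℝ) ^ cls F x ≤ F x := by
  have h : 2 ^ cls F x ≤ F x := Nat.pow_log_le_self 2 hx.ne'
  exact_mod_cast h

/-- **(A12), final form**: straight comparators of a state which is not `R1` run through near pieces
(Lipschitz property without constant, numbers of the table); the scale `κ` only has to satisfy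
`2^κ ≤ 2 F x` (pairs `(cls F y, ŷ)`: `x = ŷ`). -/
theorem plan_final {κ : ℕ} {m : ℕ → ℤ} {d ζ : ℝ} (hn : PlanNum P ζ) (hκ : 2 ^ κ ≤ 2 * F x)
    (hm : AlgS125.IsSt P κ x m) (hx : 0 < F x) (hxD : inD P x)
    (hgD : gst P κ ∣ P.Dm) (hR : ¬ R1 P F x)
    (hcoer : ∀ y : St, Chd P x y → |(y.v : ℝ) - y.u| ≤ F y)
    (hlip : ∀ y z : St, Chd P x y → Chd P x z → y.j = z.j →
      (F y : ℝ) ≤ (1 + ζ) * (F z + Alg45.dist y z))
    (h3 : ∀ m' : ℕ → ℤ, AlgS125.IsSt P κ x m' →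
      (F x : ℝ) ≤ sm P.N (fun y => F y) x m' + d)
    (hE : enS P.N F (av x / F x) x m ≤ sP P ^ 2 * F x)
    (hdr : sm P.N (fun y => (F y : ℝ)) x m - F x ≤ sP P * F x) (hds : d ≤ sP P * F x) :
    regular P F κ x ∧
    ∃ z : ℕ → ℕ, (∀ j, z j < nlet P F κ x) ∧ z 0 = 0 ∧ z P.N = 0 ∧
      (∀ j, 0 < j → j < P.N → pos P κ x (near P F κ x j (z j)) = m j) ∧
      ∀ q < P.N, npiece P F κ x q (z q) (z (q + 1)) = pcs P.N x m q := by
  have hF : (0 : ℝ) < F x := by exact_mod_cast hx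
  have hκ' : (2 : ℝ) ^ κ ≤ 2 * F x := by exact_mod_cast hκ
  refine PlanJ693.plan_stair P F κ x (C := 0) (W := 4 * P.r * F x) hm hx hxD hn.r1 hgD
    hn.δ4 hR hcoer hn.ζ0 hn.ζ1 le_rfl (fun y z h1 h2 h3 => by
      have := hlip y z h1 h2 h3
      linarith) h3 (sP_pos hn.δ4).le (sP_le_one hn.δ4) hE hdr hds ?_ ?_ ?_
  · calc 2 * (P.r : ℝ) * 2 ^ κ ≤ 2 * (P.r : ℝ) * (2 * F x) :=
          mul_le_mul_of_nonneg_left hκ' (by positivity)
      _ = 4 * P.r * F x := by ring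
  · have h1 := mul_le_mul_of_nonneg_right hn.small hF.le
    have e : 7 * sP P * F x + (ζ * (4 * F x + 3 * (4 * P.r * F x)) + 2 * 0)
        = (7 * sP P + ζ * (4 + 12 * P.r)) * F x := by ring
    rw [e]
    exact h1
  · have h1 := mul_le_mul_of_nonneg_right hn.reg hF.le
    have e : (1 + ζ) * ((1 + sP P) * F x + 4 * P.N * (1 / 2 ^ P.sb * F x)) + P.N * 0
        = (1 + ζ) * ((1 + sP P) + 4 * P.N * (1 / 2 ^ P.sb)) * F x := by ring
    rw [e]
    exact h1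

/-- the scale condition at a rounded state: `κ = cls F y`, `F y ≤ 2 F x` -/
theorem two_pow_cls_le' {y : St} (hy : 0 < F y) (h : F y ≤ 2 * F x) :
    2 ^ cls F y ≤ 2 * F x :=
  (Nat.pow_log_le_self 2 hy.ne').trans h

end Crest.Agent.R288.PlanK693
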