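import Crest.Agent.R288.ParO_331
import Crest.Agent.R288.Par_895
import Crest.Agent.R288.PlanK_693

/-!
# R288, ANA.W7: the real letters of the analysis side as functions of the height `h` (helper895)

`P = ParO331.parOf h`.  Letters: `zO` = approximate Lipschitz defect `ζ` (INIT precision `pI = 2^(8 Lg)`), `tauO` =
loss of the jump against staying / of `R ≤ A + τ 2^κ`, `C0O` = additive constant of `V = G + C0`, `c8O` = roundings of
one body, `pO` = relative step of a grid, `nuO` = shift of a number, `deO = 4/δi` = retire margin, `sO` = threshold of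
good windows (693's `sP`), `GcO = (n+1) g` = clip constant.  All of them with their orders (`Par895.Ord`).
-/

set_option autoImplicit false

open Filter

namespace Crest.Agent.R288.WinNumL895

open Crest.Agent.R288.Asy720 Crest.Agent.R288.Par806 Crest.Agent.R288.Par895 Crest.Agent.R288.ParO331

/-- `ζ` -/
noncomputable def zO (h : ℕ) : ℝ := 32 / 2 ^ (8 * Lg h)
/-- `τ` -/
noncomputable def tauO (h : ℕ) : ℝ := 1 / (h : ℝ) ^ 9
/-- `C0` -/
def C0O (h : ℕ) : ℕ := h ^ 2
/-- roundings of one body (LaneN_540) -/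
noncomputable def c8O (h : ℕ) : ℝ := 2 * 2 ^ nn h + 1
/-- grid step of class `κ` is at most `pO/2 * 2^κ` -/
noncomputable def pO (h : ℕ) : ℝ := 2 / 2 ^ pb h
/-- shift of a number -/
noncomputable def nuO (h : ℕ) : ℝ := 2 / 2 ^ nb h
/-- retire margin -/
noncomputable def deO (h : ℕ) : ℝ := 4 / (δi h : ℝ)
/-- threshold of good windows -/
noncomputable def sO (h : ℕ) : ℝ := PlanK693.sP (parOf h)
/-- clip constant -/
def GcO (h : ℕ) : ℕ := (nn h + 1) * gg h
/-- leaves: `G ≤ LamO` -/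
noncomputable def LamO (h : ℕ) : ℝ := 2 ^ lam h
/-- start factor: `F 0 ≤ B0O (G + C0)` -/
def B0O (h : ℕ) : ℕ := 16 * 2 ^ gI h * h + 8

/-- `2 ^ (-8 Lg)` -/
theorem ord_2Lg (k : ℕ) : Ord 0 (-k) fun h => ((2 : ℝ) ^ (k * Lg h))⁻¹ := by
  have := ord_two_pow_inv (e := fun h => k * Lg h) 0 k fun h => by push_cast; ring
  simpa using this

theorem ord_z : Ord 0 (-8) zO :=
  ((ord_2Lg 8).const_mul 32).congr fun h => by
    unfold zO; rw [div_eq_mul_inv]
theorem ord_tau : Ord 0 (-9) tauO := by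
  have h1 := ord_inv_h.pow 9
  refine (h1.congr fun h => ?_).lex (Or.inr ⟨by norm_num, by norm_num⟩)
  unfold tauO
  rw [one_div, inv_pow]
theorem ord_C0 : Ord 0 2 fun h => (C0O h : ℝ) := by
  have h1 := ord_h.pow 2
  refine (h1.congr fun h => ?_).lex (Or.inr ⟨by norm_num, by norm_num⟩)
  unfold C0O; push_cast; rfl
theorem ord_C0_inv : Ord 0 (-2) fun h => (C0O h : ℝ)⁻¹ := by
  have h1 := ord_inv_h.pow 2
  refine (h1.congr fun h => ?_).lex (Or.inr ⟨by norm_num, by norm_num⟩)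
  unfold C0O; push_cast; rw [inv_pow]
theorem ord_c8 : Ord 0 0 c8O := ((ord_N.const_mul 2).add (Ord.const 1)).congr fun _ => rfl
theorem ord_p : Ord (-16) 0 pO := (ord_P.const_mul 2).congr fun h => by
  unfold pO; rw [div_eq_mul_inv]
theorem ord_nuO : Ord (-8) 0 nuO := (ord_nu.const_mul 2).congr fun h => by
  unfold nuO; rw [div_eq_mul_inv]
theorem ord_s_inv : Ord 0 0 fun h => (sO h)⁻¹ :=
  ((ord_δi.mul0 ord_two_pow_sb).const_mul 4).congr fun h => by
    unfold sO PlanK693.sP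
    simp only [parOf_δi, parOf_sb]
    rw [one_div, inv_inv]
    ring
theorem ord_LamO : Ord 1 0 LamO := ord_Lam
theorem ord_LamO_inv : Ord (-1) 0 fun h => (LamO h)⁻¹ := ord_Lam_inv
theorem ord_B0O : Ord 1 1 fun h => (B0O h : ℝ) := by
  have h1 : Ord 1 1 fun h => 16 * (2 : ℝ) ^ gI h * h :=
    ((ord_gI.const_mul 16).mul ord_h).lex (Or.inr ⟨by norm_num, by norm_num⟩)
  have h2 : Ord 1 1 fun _ => (8 : ℝ) := (Ord.const 8).lt (by norm_num) 1
  exact (h1.add h2).congr fun h => by unfold B0O; push_cast; ring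
theorem ord_Gc : Ord 0 0 fun h => (GcO h : ℝ) :=
  ((ord_nn.add (Ord.const 1)).mul0 ord_gg).congr fun h => by unfold GcO; push_cast; ring
/-- `log (pm + 1) ≤ Lg + 2` -/
theorem log_pm_le (h : ℕ) : Real.log ((pm h : ℝ) + 1) ≤ Lg h + 2 := by
  have h1 : ((pm h : ℝ) + 1) ≤ (2 : ℝ) ^ (Lg h + 2) := by
    have h2 : pm h + 1 ≤ 2 ^ (Lg h + 2) := by
      have h3 := lt_two_pow_Lg h
      have h4 : 1 ≤ 2 ^ Lg h := Nat.one_le_two_pow
      unfold pm
      rw [pow_add]
      omega
    exact_mod_cast h2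
  have h0 : (0 : ℝ) < (pm h : ℝ) + 1 := by positivity
  have h5 := Real.log_le_log h0 h1
  rw [Real.log_pow] at h5
  have h6 : Real.log 2 ≤ 1 := by
    have := Real.log_two_lt_d9
    linarith
  have h7 : ((Lg h + 2 : ℕ) : ℝ) * Real.log 2 ≤ ((Lg h + 2 : ℕ) : ℝ) * 1 :=
    mul_le_mul_of_nonneg_left h6 (Nat.cast_nonneg _)
  push_cast at h5 h7
  linarith
theorem ord_log_pm : Ord 0 0 fun h => Real.log ((pm h : ℝ) + 1) :=
  (ord_Lg.add (Ord.const 2)).of_le
    (Eventually.of_forall fun h => Real.log_nonneg (by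
      have : (0 : ℝ) ≤ pm h := Nat.cast_nonneg _
      linarith))
    (Eventually.of_forall log_pm_le)

end Crest.Agent.R288.WinNumL895
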