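import Crest.Agent.R288.WinNumB_948
import Crest.Agent.R288.WinNumL_895
import Crest.Agent.R288.WinNear_482
import Crest.Agent.R288.WinF3_131
import Crest.Agent.R288.WinH_330
import Crest.Agent.R288.StmF_616
import Crest.Agent.R288.LipO_364

/-!
# R288 / WinNumE_948 : the letters of one epoch as functions of `h` (leaf ANA.W7)

All letters of `WinStm330.WinIn.ep` at `P = ParO331.parOf h` (`C0 = h²`, `Λ = 2^lam`, `B₀ = StmF616.B0O h`):
`structure NumE h` = the hypotheses of `WinIn.ep` and the four lines of `StmF616.NumR`; **`ev_numE`**,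
**`numR`**, **`epO`**, **`epStm_of`**.
-/

set_option autoImplicit false

open Filter

namespace Crest.Agent.R288.WinNumE948

open Crest.Agent.R288.Asy720 Crest.Agent.R288.Par806 Crest.Agent.R288.Par895
open Crest.Agent.R288.ParO331 Crest.Agent.R288.WinNumB948 Crest.Agent.R288.WinNumL895
open Crest.Agent.R288.Alg45 (St)

/-! ### the letters -/

/-- Lipschitz defect of the unit functions -/
noncomputable def zE (h : ℕ) : ℝ := LipO364.ζO h
/-- loss of a jump -/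
noncomputable def tE (h : ℕ) : ℝ := (1 / 2) ^ (4 * (W h * Lg h))
/-- additive error of one body -/
noncomputable def c8E (h : ℕ) : ℝ := 8 * 2 ^ nn h + 8
/-- relative step of a grid -/
noncomputable def pE (h : ℕ) : ℝ := 2 / 2 ^ pb h
/-- shift of a number -/
noncomputable def nuE (h : ℕ) : ℝ := 2 / 2 ^ nb h
/-- retire margin -/
noncomputable def dE (h : ℕ) : ℝ := 4 / (δi h : ℝ)
/-- threshold of the good windows -/
noncomputable def sE (h : ℕ) : ℝ := PlanK693.sP (parOf h)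
/-- far loss -/
noncomputable def k1E (h : ℕ) : ℝ :=
  ((um h : ℝ) * Real.log ((pm h : ℝ) + 1) + 1 + 1 / gg h) / KK h + 2 * tE h + 2 / 2 ^ nb h
/-- near loss -/
noncomputable def knE (h : ℕ) : ℝ := WinNear482.kn (parOf h) (nuE h) (sE h) (tE h)
/-- coefficient of the potential -/
noncomputable def lamE (h : ℕ) : ℝ := 2 * k1E h / sE h ^ 2
/-- defect `kd0 + kd1 β` -/
noncomputable def kd0E (h : ℕ) : ℝ := WinF3131.kB (parOf h) (tE h) (c8E h + 2) / 2 ^ lam h
noncomputable def kd1E (h : ℕ) : ℝ := 2 * zE h + 2 * WinF3131.kA (parOf h) (tE h)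
/-- change of the unit by a rounding -/
noncomputable def zhE (h : ℕ) : ℝ := 2 * (zE h + pE h)
/-- additive errors of far and near windows -/
noncomputable def e4E (h : ℕ) : ℝ :=
  ((um h : ℝ) * Real.log ((pm h : ℝ) + 1) / KK h
    + ((um h : ℝ) / pm h + ((pb h : ℝ) + 4) / gam h * 2 ^ nn h) / KK h
    + 100 * 2 ^ nn h + c8E h + 100) / 2 ^ lam h
/-- leaves: `e50 + e51 β` -/
noncomputable def e50E (h : ℕ) : ℝ := (1 + c8E h + tE h) / (StmF616.C0O h : ℝ)
noncomputable def e51E (h : ℕ) : ℝ := 2 * pE h + tE h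
/-- retired states -/
noncomputable def b1E (h : ℕ) : ℝ := c8E h / 2 ^ lam h + 2 * tE h
/-- the comparator -/
noncomputable def r1E (h : ℕ) : ℝ := 2 ^ nn h * pE h * StmF616.B0O h + 2 * 2 ^ nn h / 2 ^ lam h
noncomputable def rhoE (h : ℕ) : ℝ :=
  pE h * StmF616.B0O h + r1E h + 2 ^ nn h * (StmF616.C0O h : ℝ) / 2 ^ lam h
noncomputable def thE (h : ℕ) : ℝ := 2 * ((II h : ℝ) * rhoE h)
noncomputable def caE (h : ℕ) : ℝ := e50E h + 3 * (pE h * StmF616.B0O h) + 2 * (b1E h + dE h)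
noncomputable def cqE (h : ℕ) : ℝ := e51E h + 3 * lamE h
noncomputable def kaE (h : ℕ) : ℝ := (2 * lamE h + k1E h / sE h) * kd0E h + e4E h
noncomputable def kqE (h : ℕ) : ℝ :=
  knE h * (1 + zhE h) + (2 * lamE h + k1E h / sE h) * kd1E h + pE h + 5 * lamE h * (pE h + zhE h)
/-- **the two numbers of an epoch** -/
noncomputable def aRE (h : ℕ) : ℝ := (1 + thE h) * (1 + caE h + kaE h * II h)
noncomputable def qRE (h : ℕ) : ℝ := (1 + thE h) * (cqE h + kqE h * II h)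

/-! ### signs -/

theorem zE_nonneg (h : ℕ) : 0 ≤ zE h := LipO364.ζO_nonneg h
theorem tE_pos (h : ℕ) : 0 < tE h := by unfold tE; positivity
theorem tE_le_one (h : ℕ) : tE h ≤ 1 := pow_le_one₀ (by norm_num) (by norm_num)
theorem c8E_pos (h : ℕ) : 0 < c8E h := by unfold c8E; positivity
theorem pE_pos (h : ℕ) : 0 < pE h := by unfold pE; positivity
theorem nuE_pos (h : ℕ) : 0 < nuE h := by unfold nuE; positivity
theorem dE_nonneg (h : ℕ) : 0 ≤ dE h := div_nonneg (by norm_num) (Nat.cast_nonneg _)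
theorem B0_nonneg (h : ℕ) : 0 ≤ StmF616.B0O h := Nat.cast_nonneg _
theorem logpm_nonneg (h : ℕ) : 0 ≤ Real.log ((pm h : ℝ) + 1) :=
  Real.log_nonneg (by linarith [Nat.cast_nonneg (α := ℝ) (pm h)])

theorem sP_real {d p : ℝ} (hd : 1 ≤ d) (hp : 1 ≤ p) : 0 < 1 / (4 * d * p) ∧ 1 / (4 * d * p) ≤ 1 := by
  have h1 : 1 ≤ 4 * d * p := by nlinarith
  exact ⟨by positivity, (div_le_one (by linarith)).2 h1⟩

theorem sE_eq (h : ℕ) : sE h = 1 / (4 * (δi h : ℝ) * 2 ^ sb h) := by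
  unfold sE PlanK693.sP
  rw [parOf_δi, parOf_sb]

theorem δi_pos (h : ℕ) : 0 < δi h :=
  Nat.mul_pos (by norm_num) (Nat.pow_pos (W_pos h))

theorem sE_both (h : ℕ) : 0 < sE h ∧ sE h ≤ 1 := by
  rw [sE_eq]
  exact sP_real (Nat.one_le_cast.2 (δi_pos h)) (one_le_pow₀ (by norm_num))

theorem sE_pos (h : ℕ) : 0 < sE h := (sE_both h).1
theorem sE_le_one (h : ℕ) : sE h ≤ 1 := (sE_both h).2

theorem k1E_nonneg (h : ℕ) : 0 ≤ k1E h := by
  have h1 := logpm_nonneg h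
  have h2 := (tE_pos h).le
  have h3 : (0 : ℝ) ≤ um h := Nat.cast_nonneg _
  have h4 : (0 : ℝ) ≤ KK h := Nat.cast_nonneg _
  have h5 : (0 : ℝ) ≤ 1 / (gg h : ℝ) := div_nonneg zero_le_one (Nat.cast_nonneg _)
  unfold k1E
  have h6 : 0 ≤ ((um h : ℝ) * Real.log ((pm h : ℝ) + 1) + 1 + 1 / gg h) / KK h :=
    div_nonneg (by have := mul_nonneg h3 h1; linarith) h4
  have h7 : (0 : ℝ) ≤ 2 / 2 ^ nb h := by positivity
  linarith

theorem lamE_nonneg (h : ℕ) : 0 ≤ lamE h := by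
  have h1 := k1E_nonneg h
  unfold lamE
  positivity

theorem kn_nonneg (P : Alg45.Par) {ν s c : ℝ} (hν : 0 ≤ ν) (hs : 0 ≤ s) (hc : 0 ≤ c) :
    0 ≤ WinNear482.kn P ν s c := by
  unfold WinNear482.kn
  positivity

theorem knE_nonneg (h : ℕ) : 0 ≤ knE h :=
  kn_nonneg _ (nuE_pos h).le (sE_pos h).le (tE_pos h).le

theorem kd0E_nonneg (h : ℕ) : 0 ≤ kd0E h :=
  div_nonneg (WinF3131.kB_nonneg (tE_pos h).le (by linarith [c8E_pos h])) (by positivity)

theorem kd1E_nonneg (h : ℕ) : 0 ≤ kd1E h := by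
  have h1 := zE_nonneg h
  have h2 := WinF3131.kA_nonneg (P := parOf h) (tE_pos h).le
  unfold kd1E
  linarith

theorem zhE_nonneg (h : ℕ) : 0 ≤ zhE h := by
  have h1 := zE_nonneg h
  have h2 := (pE_pos h).le
  unfold zhE
  linarith

theorem e4E_nonneg (h : ℕ) : 0 ≤ e4E h := by
  have h1 := logpm_nonneg h
  have h2 := (c8E_pos h).le
  have a1 : (0 : ℝ) ≤ um h := Nat.cast_nonneg _
  have a2 : (0 : ℝ) ≤ KK h := Nat.cast_nonneg _
  have a3 : (0 : ℝ) ≤ pm h := Nat.cast_nonneg _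
  have a4 : (0 : ℝ) ≤ gam h := Nat.cast_nonneg _
  have a5 : (0 : ℝ) ≤ pb h := Nat.cast_nonneg _
  have h3 : 0 ≤ (um h : ℝ) * Real.log ((pm h : ℝ) + 1) / KK h := div_nonneg (mul_nonneg a1 h1) a2
  have h4 : 0 ≤ ((um h : ℝ) / pm h + ((pb h : ℝ) + 4) / gam h * 2 ^ nn h) / KK h :=
    div_nonneg (add_nonneg (div_nonneg a1 a3)
      (mul_nonneg (div_nonneg (by linarith) a4) (by positivity))) a2
  have h5 : (0 : ℝ) ≤ 100 * 2 ^ nn h := by positivity
  unfold e4E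
  refine div_nonneg ?_ (by positivity)
  linarith

theorem e50E_nonneg (h : ℕ) : 0 ≤ e50E h := by
  have h2 := (tE_pos h).le
  have h3 := (c8E_pos h).le
  exact div_nonneg (by linarith) (Nat.cast_nonneg _)

theorem e51E_nonneg (h : ℕ) : 0 ≤ e51E h := by
  have h1 := (pE_pos h).le
  have h2 := (tE_pos h).le
  unfold e51E
  linarith

theorem b1E_nonneg (h : ℕ) : 0 ≤ b1E h := by
  have h2 := (tE_pos h).le
  have h3 : 0 ≤ c8E h / 2 ^ lam h := div_nonneg (c8E_pos h).le (by positivity)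
  unfold b1E
  linarith

theorem r1E_nonneg (h : ℕ) : 0 ≤ r1E h := by
  have h1 := (pE_pos h).le
  have h4 := B0_nonneg h
  unfold r1E
  positivity

theorem rhoE_nonneg (h : ℕ) : 0 ≤ rhoE h := by
  have h1 := (pE_pos h).le
  have h4 := B0_nonneg h
  have h5 := r1E_nonneg h
  have h6 : (0 : ℝ) ≤ 2 ^ nn h * (StmF616.C0O h : ℝ) / 2 ^ lam h :=
    div_nonneg (mul_nonneg (by positivity) (Nat.cast_nonneg _)) (by positivity)
  unfold rhoE
  have := mul_nonneg h1 h4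
  linarith

/-! ### orders -/

theorem ord_z : Ord 0 (-8) zE :=
  ((ord_2Lg 8).const_mul 32).congr fun h => by
    unfold zE LipO364.ζO
    rw [div_eq_mul_inv]
    norm_num

theorem ord_t : Ord (-4) 0 tE := by
  have := ord_two_pow_inv (e := fun h => 4 * (W h * Lg h)) 4 0 fun h => by push_cast; ring
  rw [neg_zero] at this
  refine this.congr fun h => ?_
  unfold tE
  rw [one_div, inv_pow]

theorem ord_c8 : Ord 0 0 c8E := ((ord_N.const_mul 8).add (Ord.const 8)).congr fun _ => rfl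
theorem ord_p : Ord (-16) 0 pE := (ord_P.const_mul 2).congr fun h => by
  unfold pE; rw [div_eq_mul_inv]
theorem ord_nu' : Ord (-8) 0 nuE := (ord_nu.const_mul 2).congr fun h => by
  unfold nuE; rw [div_eq_mul_inv]
theorem ord_s : Ord 0 0 fun h => (sE h)⁻¹ := ord_s_inv
theorem ord_B : Ord 1 1 StmF616.B0O := ord_B0O.congr fun _ => rfl
theorem ord_C : Ord 0 2 fun h => (StmF616.C0O h : ℝ) := WinNumL895.ord_C0
theorem ord_C_inv : Ord 0 (-2) fun h => (StmF616.C0O h : ℝ)⁻¹ := WinNumL895.ord_C0_inv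

theorem ord_gg_inv : Ord 0 0 fun h => (1 : ℝ) / gg h :=
  (Ord.const 1).of_le (Eventually.of_forall fun h => div_nonneg zero_le_one (Nat.cast_nonneg _))
    (Eventually.of_forall fun h => by
      have h1 : 1 ≤ gg h := gg_pos h
      have h2 : (1 : ℝ) ≤ gg h := Nat.one_le_cast.2 h1
      rw [div_le_one (by linarith)]
      exact h2)

theorem ord_gam_inv : Ord 0 0 fun h => (gam h : ℝ)⁻¹ :=
  (Ord.const 1).of_le (Eventually.of_forall fun h => inv_nonneg.2 (Nat.cast_nonneg _))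
    (Eventually.of_forall fun h => by
      have h1 : 1 ≤ gam h := gam_pos h
      have h2 : (1 : ℝ) ≤ gam h := Nat.one_le_cast.2 h1
      exact inv_le_one_of_one_le₀ h2)

theorem ord_umlog : Ord 0 0 fun h => (um h : ℝ) * Real.log ((pm h : ℝ) + 1) := ord_um.mul0 ord_log_pm

theorem ord_k1 : Ord 0 (-1) k1E := by
  have h1 : Ord 0 (-1) fun h => ((um h : ℝ) * Real.log ((pm h : ℝ) + 1) + 1 + 1 / gg h)
      * (KK h : ℝ)⁻¹ := ((ord_umlog.add (Ord.const 1)).add ord_gg_inv).zmul ord_KK_inv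
  have h2 : Ord 0 (-1) fun h => 2 * tE h := (ord_t.const_mul 2).lt (by norm_num) _
  have h3 : Ord 0 (-1) nuE := ord_nu'.lt (by norm_num) _
  exact ((h1.add h2).add h3).congr fun h => by
    unfold k1E nuE
    rw [div_eq_mul_inv (a := (um h : ℝ) * Real.log ((pm h : ℝ) + 1) + 1 + 1 / gg h)]

theorem ord_lamE : Ord 0 (-1) lamE :=
  ((ord_k1.const_mul 2).mul0 (ord_s.pow0 2)).congr fun h => by
    unfold lamE
    rw [inv_pow, div_eq_mul_inv]

theorem ord_q : Ord 0 (-1) fun h => 2 * lamE h + k1E h / sE h :=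
  (ord_lamE.const_mul 2).add ((ord_k1.mul0 ord_s).congr fun _ => div_eq_mul_inv _ _)

theorem ord_kA : Ord 0 (-1) fun h => WinF3131.kA (parOf h) (tE h) := by
  have h1 : Ord 0 (-1) fun h => (4 * (2 : ℝ) ^ nn h + 2) * ((2 : ℝ) ^ pb h)⁻¹ :=
    (((ord_N.const_mul 4).add (Ord.const 2)).zmul ord_P).lt (by norm_num) _
  have h2 : Ord 0 (-1) fun h => 3 * ((um h : ℝ) * Real.log ((pm h : ℝ) + 1) + 2) * (KK h : ℝ)⁻¹ :=
    ((ord_umlog.add (Ord.const 2)).const_mul 3).zmul ord_KK_inv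
  have h3 : Ord 0 (-1) nuE := ord_nu'.lt (by norm_num) _
  have h4 : Ord 0 (-1) tE := ord_t.lt (by norm_num) _
  refine (((h1.add h2).add h3).add h4).congr fun h => ?_
  unfold WinF3131.kA nuE
  simp only [parOf_N, parOf_pb, parOf_um, parOf_pm, parOf_K, parOf_nb]
  rw [div_eq_mul_inv, div_eq_mul_inv (a := 3 * ((um h : ℝ) * Real.log ((pm h : ℝ) + 1) + 2))]
  push_cast
  rfl

theorem ord_kB : Ord 0 0 fun h => WinF3131.kB (parOf h) (tE h) (c8E h + 2) := by
  have h1 : Ord 0 0 fun h => (4 * (2 : ℝ) ^ nn h + 2) * (((2 : ℝ) ^ pb h)⁻¹ + 1) :=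
    ((ord_N.const_mul 4).add (Ord.const 2)).mul0
      ((ord_P.lt (show (-16 : ℝ) < 0 by norm_num) 0).add (Ord.const 1))
  have h2 : Ord 0 0 fun h => 6 * ((um h : ℝ) * Real.log ((pm h : ℝ) + 1) + 2) * (KK h : ℝ)⁻¹ :=
    (((ord_umlog.add (Ord.const 2)).const_mul 6).zmul ord_KK_inv).weak (by norm_num)
  have h3 : Ord 0 0 nuE := ord_nu'.lt (by norm_num) _
  have h4 : Ord 0 0 tE := ord_t.lt (by norm_num) _
  refine (((((h1.add h2).add h3).add h4).add (ord_c8.add (Ord.const 2))).add (Ord.const 4)).congr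
    fun h => ?_
  unfold WinF3131.kB nuE
  simp only [parOf_N, parOf_pb, parOf_um, parOf_pm, parOf_K, parOf_nb]
  rw [one_div, div_eq_mul_inv (a := 6 * ((um h : ℝ) * Real.log ((pm h : ℝ) + 1) + 2))]
  push_cast
  rfl

theorem ord_kd0 : Ord (-1) 0 kd0E :=
  (ord_kB.zmul ord_Lam_inv).congr fun h => by unfold kd0E; rw [div_eq_mul_inv]

theorem ord_kd1 : Ord 0 (-1) kd1E :=
  ((ord_z.weak (show (-8 : ℝ) ≤ -1 by norm_num)).const_mul 2).add (ord_kA.const_mul 2)

theorem ord_zh : Ord 0 (-8) zhE :=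
  ((ord_z.add (ord_p.lt (by norm_num) _)).const_mul 2)

theorem ord_e4 : Ord (-1) 0 e4E := by
  have h1 : Ord 0 0 fun h => (um h : ℝ) * Real.log ((pm h : ℝ) + 1) * (KK h : ℝ)⁻¹ :=
    (ord_umlog.zmul ord_KK_inv).weak (by norm_num)
  have h2 : Ord 0 0 fun h => ((um h : ℝ) * (pm h : ℝ)⁻¹ + ((pb h : ℝ) + 4) * (gam h : ℝ)⁻¹ * 2 ^ nn h)
      * (KK h : ℝ)⁻¹ :=
    ((((ord_um.zmul ord_pm_inv).weak (show (-1 : ℝ) ≤ 0 by norm_num)).add
      (((ord_pb.add (Ord.const 4)).mul0 ord_gam_inv).mul0 ord_N)).zmul ord_KK_inv).weak (by norm_num)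
  have h3 : Ord 0 0 fun h => 100 * (2 : ℝ) ^ nn h := ord_N.const_mul 100
  refine (((((h1.add h2).add h3).add ord_c8).add (Ord.const 100)).zmul ord_Lam_inv).congr fun h => ?_
  unfold e4E
  simp only [div_eq_mul_inv]

theorem ord_pB : Ord (-15) 1 fun h => pE h * StmF616.B0O h := by
  have := ord_p.mul ord_B
  norm_num at this
  exact this

theorem ord_e50 : Ord 0 (-2) e50E := by
  have h2 : Ord 0 (-2) fun h => (1 + c8E h + tE h) * (StmF616.C0O h : ℝ)⁻¹ :=
    (((Ord.const 1).add ord_c8).add (ord_t.lt (by norm_num) _)).zmul ord_C_inv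
  exact h2.congr fun h => by unfold e50E; rw [div_eq_mul_inv]

theorem ord_e51 : Ord (-4) 0 e51E :=
  (((ord_p.const_mul 2).lt (show (-16 : ℝ) < -4 by norm_num) 0).add ord_t).congr fun _ => rfl

theorem ord_b1 : Ord (-1) 0 b1E :=
  ((ord_c8.zmul ord_Lam_inv).add ((ord_t.const_mul 2).lt (by norm_num) _)).congr fun h => by
    unfold b1E; rw [div_eq_mul_inv]

theorem ord_r1 : Ord (-1) 0 r1E := by
  have h1 : Ord (-1) 0 fun h => 2 ^ nn h * (pE h * StmF616.B0O h) :=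
    (ord_N.zmul ord_pB).lt (by norm_num) _
  have h2 : Ord (-1) 0 fun h => 2 * (2 : ℝ) ^ nn h * ((2 : ℝ) ^ lam h)⁻¹ :=
    (ord_N.const_mul 2).zmul ord_Lam_inv
  exact (h1.add h2).congr fun h => by unfold r1E; rw [div_eq_mul_inv, mul_assoc (2 ^ nn h)]

theorem ord_rho : Ord (-1) 2 rhoE := by
  have h1 : Ord (-1) 2 fun h => pE h * StmF616.B0O h := ord_pB.lt (by norm_num) _
  have h2 : Ord (-1) 2 fun h => (2 : ℝ) ^ nn h * (StmF616.C0O h : ℝ) * ((2 : ℝ) ^ lam h)⁻¹ := by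
    have := (ord_N.zmul ord_C).mul ord_Lam_inv
    norm_num at this
    exact this
  exact ((h1.add (ord_r1.weak (by norm_num))).add h2).congr fun h => by
    unfold rhoE
    rw [div_eq_mul_inv (a := (2 : ℝ) ^ nn h * (StmF616.C0O h : ℝ))]

/-! ### the near loss -/

theorem near_real {pp n γ g u m K w I a r : ℝ} (hK : 0 < K) (hγ : 0 < γ)
    (hI : 0 ≤ I) (hn : 1 ≤ n) (hp : 0 ≤ pp) (ha : 0 ≤ a)
    (h1 : I * ((36 * (pp + n + a + 1) * n / γ + 36 / g + 36 * u / m) / K) ≤ w)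
    (hg : 0 < g) (hu : 0 ≤ u) (hm : 0 < m)
    (h2 : I * r ≤ w) :
    I * ((u / m + (pp + 4) / γ * (n * 8 + 1) + 1 / g) / K + r) ≤ w + w := by
  have e1 : (u / m + (pp + 4) / γ * (n * 8 + 1) + 1 / g) / K
      ≤ (36 * (pp + n + a + 1) * n / γ + 36 / g + 36 * u / m) / K := by
    refine div_le_div_of_nonneg_right ?_ hK.le
    have e2 : (pp + 4) / γ * (n * 8 + 1) ≤ 36 * (pp + n + a + 1) * n / γ := by
      rw [div_mul_eq_mul_div, div_le_div_iff_of_pos_right hγ]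
      have e3 : (pp + 4) * (n * 8 + 1) ≤ (4 * (pp + 1)) * (9 * n) :=
        mul_le_mul (by linarith) (by linarith) (by linarith) (by linarith)
      have e4 : 0 ≤ n * (n + a) := by positivity
      nlinarith
    have e5 : u / m ≤ 36 * u / m := div_le_div_of_nonneg_right (by linarith) hm.le
    have e6 : 1 / g ≤ 36 / g := div_le_div_of_nonneg_right (by norm_num) hg.le
    linarith
  have e7 := mul_le_mul_of_nonneg_left e1 hI
  rw [mul_add]
  linarith

/-- `II κn ≤ d / 32` -/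
theorem ev_kn : ∀ᶠ h : ℕ in atTop, (II h : ℝ) * knE h ≤ 1 / (6 * (W h : ℝ)) / 32 := by
  have o1 : Ord (-4) 1 fun h => (II h : ℝ) * (nuE h * (1 + sE h) + 8 * 2 ^ nn h * ((2 : ℝ) ^ dl h)⁻¹
      + 2 * tE h) := by
    have a1 : Ord (-4) 0 fun h => nuE h * (1 + sE h) := by
      have : Ord 0 0 fun h => 1 + sE h := by
        refine ((Ord.const 2)).of_le (Eventually.of_forall fun h => ?_)
          (Eventually.of_forall fun h => ?_)
        · have := sE_pos h; linarith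
        · have := sE_le_one h; linarith
      exact (ord_nu'.mul0 this).lt (by norm_num) _
    have a2 : Ord (-4) 0 fun h => 8 * (2 : ℝ) ^ nn h * ((2 : ℝ) ^ dl h)⁻¹ :=
      ((ord_N.const_mul 8).zmul ord_dl).lt (by norm_num) _
    have := ord_II.mul ((a1.add a2).add (ord_t.const_mul 2))
    norm_num at this
    exact this
  filter_upwards [ev_near_small 36, le_d o1 (Or.inl (by norm_num)) (c := 64) (by norm_num),
    ev_KK_pos] with h h1 h2 h3
  have a2 : (0 : ℝ) < KK h := Nat.cast_pos.2 h3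
  have a3 : (1 : ℝ) ≤ nn h := Nat.one_le_cast.2 (nn_pos h)
  have a4 : (0 : ℝ) < gg h := Nat.cast_pos.2 (gg_pos h)
  have a5 : (0 : ℝ) < gam h := Nat.cast_pos.2 (gam_pos h)
  have a6 : (0 : ℝ) < pm h := Nat.cast_pos.2 (pm_pos h)
  have a7 : (0 : ℝ) ≤ II h := Nat.cast_nonneg _
  have a8 : (0 : ℝ) ≤ um h := Nat.cast_nonneg _
  have a9 : (0 : ℝ) ≤ (pb h : ℝ) := Nat.cast_nonneg _
  have a10 : (0 : ℝ) ≤ (Lg h : ℝ) := Nat.cast_nonneg _
  have key := near_real (r := nuE h * (1 + sE h) + 8 * 2 ^ nn h * ((2 : ℝ) ^ dl h)⁻¹ + 2 * tE h)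
    a2 a5 a7 a3 a9 a10 h1 a4 a8 a6 h2
  have e : knE h = ((um h : ℝ) / pm h + ((pb h : ℝ) + 4) / gam h * ((nn h : ℝ) * 8 + 1) + 1 / gg h)
      / KK h + (nuE h * (1 + sE h) + 8 * 2 ^ nn h * ((2 : ℝ) ^ dl h)⁻¹ + 2 * tE h) := by
    unfold knE WinNear482.kn
    rw [parOf_um, parOf_pm, parOf_pb, parOf_γ, parOf_n, parOf_Creg, parOf_g, parOf_K, parOf_N,
      parOf_dl, Nat.cast_pow, Nat.cast_ofNat, Nat.cast_ofNat,
      div_eq_mul_inv (a := 8 * (2 : ℝ) ^ nn h)]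
    ring
  rw [e]
  refine key.trans (le_of_eq ?_)
  ring

/-! ### the numbers -/

/-- the smallness lines (`d = δO h = 1/(6 W h)`) -/
structure SmE (h : ℕ) : Prop where
  d0 : 0 < StmF616.δO h
  d1 : StmF616.δO h ≤ 1 / 4
  pB : pE h * StmF616.B0O h ≤ StmF616.δO h / 32
  e50 : e50E h ≤ StmF616.δO h / 32
  e51 : e51E h ≤ StmF616.δO h / 64
  b1 : b1E h ≤ StmF616.δO h / 32
  dl : dE h ≤ StmF616.δO h / 32
  lam : lamE h ≤ StmF616.δO h / 64
  nu : nuE h ≤ StmF616.δO h / 32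
  c3 : 5 / (StmF616.C0O h : ℝ) ≤ StmF616.δO h / 32
  rho : (II h : ℝ) * rhoE h ≤ StmF616.δO h / 32
  k0 : (II h : ℝ) * ((2 * lamE h + k1E h / sE h) * kd0E h) ≤ StmF616.δO h / 32
  k1 : (II h : ℝ) * ((2 * lamE h + k1E h / sE h) * kd1E h) ≤ StmF616.δO h / 32
  e4 : (II h : ℝ) * e4E h ≤ StmF616.δO h / 32
  p : (II h : ℝ) * pE h ≤ StmF616.δO h / 32
  ζ : (II h : ℝ) * (5 * lamE h * (pE h + zhE h)) ≤ StmF616.δO h / 32
  kn : (II h : ℝ) * knE h ≤ StmF616.δO h / 32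
  zh : zhE h ≤ 1

theorem ev_smE : ∀ᶠ h : ℕ in atTop, SmE h := by
  have n1 : ((0 : ℝ) < 0) ∨ ((0 : ℝ) = 0 ∧ (-1 : ℝ) < 0) := Or.inr ⟨rfl, by norm_num⟩
  have n2 : ((0 : ℝ) < 0) ∨ ((0 : ℝ) = 0 ∧ (-2 : ℝ) < 0) := Or.inr ⟨rfl, by norm_num⟩
  have m1 : ((-1 : ℝ) < 0) ∨ ((-1 : ℝ) = 0 ∧ (0 : ℝ) < 0) := Or.inl (by norm_num)
  have orho : Ord (-1) 3 fun h => (II h : ℝ) * rhoE h := by
    have := ord_II.mul ord_rho
    norm_num at this
    exact this
  have ok0 : Ord (-1) 0 fun h => (II h : ℝ) * ((2 * lamE h + k1E h / sE h) * kd0E h) := by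
    have := ord_II.mul (ord_q.mul ord_kd0)
    norm_num at this
    exact this
  have ok1 : Ord 0 (-1) fun h => (II h : ℝ) * ((2 * lamE h + k1E h / sE h) * kd1E h) := by
    have := ord_II.mul (ord_q.mul ord_kd1)
    norm_num at this
    exact this
  have oe4 : Ord (-1) 1 fun h => (II h : ℝ) * e4E h := by
    have := ord_II.mul ord_e4
    norm_num at this
    exact this
  have op : Ord (-16) 1 fun h => (II h : ℝ) * pE h := by
    have := ord_II.mul ord_p
    norm_num at this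
    exact this
  have oz : Ord 0 (-1) fun h => (II h : ℝ) * (5 * lamE h * (pE h + zhE h)) := by
    have h1 : Ord 0 (-1) fun h => pE h + zhE h :=
      (ord_p.lt (by norm_num) _).add (ord_zh.weak (by norm_num))
    have := ord_II.mul ((ord_lamE.const_mul 5).mul h1)
    norm_num at this
    exact this
  have oc3 : Ord 0 (-2) fun h => 5 / (StmF616.C0O h : ℝ) :=
    (ord_C_inv.const_mul 5).congr fun h => by rw [div_eq_mul_inv]
  filter_upwards [le_d ord_pB (Or.inl (by norm_num)) (c := 32) (by norm_num),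
    le_d ord_e50 n2 (c := 32) (by norm_num), le_d ord_b1 m1 (c := 32) (by norm_num), ev_delta,
    le_d ord_lamE n1 (c := 64) (by norm_num), le_d ord_nu' (Or.inl (by norm_num)) (c := 32) (by norm_num),
    le_d oc3 n2 (c := 32) (by norm_num), le_d orho (Or.inl (by norm_num)) (c := 32) (by norm_num),
    le_d ok0 m1 (c := 32) (by norm_num), le_d ok1 n1 (c := 32) (by norm_num),
    le_d oe4 (Or.inl (by norm_num)) (c := 32) (by norm_num),
    le_d op (Or.inl (by norm_num)) (c := 32) (by norm_num),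
    le_d oz n1 (c := 32) (by norm_num), ev_kn,
    ord_zh.le_one (Or.inr ⟨rfl, by norm_num⟩),
    le_d ord_e51 (Or.inl (by norm_num)) (c := 64) (by norm_num)]
    with h g1 g2 g3 g4 g5 g6 g7 g8 g9 g10 g11 g12 g13 g14 g15 g16
  have hW : (1 : ℝ) ≤ W h := Nat.one_le_cast.2 (W_pos h)
  have e : StmF616.δO h = 1 / (6 * (W h : ℝ)) := rfl
  constructor
  · rw [e]; positivity
  · rw [e, div_le_div_iff₀ (by positivity) (by norm_num)]
    linarith
  · exact g1
  · exact g2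
  · exact g16
  · exact g3
  · exact g4
  · exact g5
  · exact g6
  · exact g7
  · exact g8
  · exact g9
  · exact g10
  · exact g11
  · exact g12
  · exact g13
  · exact g14
  · exact (le_abs_self _).trans g15

/-- **the numbers of an epoch** : hypotheses of `WinStm330.WinIn.ep` and `StmF616.NumR` -/
structure NumE (h : ℕ) : Prop where
  dlt : dE h < 1
  hlam : k1E h * (1 + sE h ^ 2) ≤ lamE h * sE h ^ 2
  hrho : pE h * StmF616.B0O h + r1E h + ((2 ^ nn h : ℕ) : ℝ) * (StmF616.C0O h : ℝ) / 2 ^ lam h ≤ rhoE h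
  hth : (1 + rhoE h) ^ II h ≤ 1 + thE h
  hc : (1 + b1E h) * (1 + pE h * StmF616.B0O h) ≤ (1 - dE h) * (1 + caE h - pE h * StmF616.B0O h)
  hca : e50E h + 2 * (pE h * StmF616.B0O h) ≤ caE h
  a1 : 1 ≤ aRE h
  q0 : 0 ≤ qRE h
  aδ : aRE h + 5 / (StmF616.C0O h : ℝ) ≤ 1 + StmF616.δO h
  qδ : qRE h + 2 / 2 ^ nb h ≤ StmF616.δO h

theorem hc_real {b t d e D : ℝ} (hb0 : 0 ≤ b) (ht0 : 0 ≤ t) (hd0 : 0 ≤ d) (he0 : 0 ≤ e)
    (hD : D ≤ 1 / 4) (hb : b ≤ D / 32) (ht : t ≤ D / 32) (hd : d ≤ D / 32) :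
    (1 + b) * (1 + t) ≤ (1 - d) * (1 + (e + 3 * t + 2 * (b + d)) - t) := by
  have h8 : (1 - d) * (1 + 2 * t + 2 * (b + d)) ≤ (1 - d) * (1 + (e + 3 * t + 2 * (b + d)) - t) :=
    mul_le_mul_of_nonneg_left (by linarith) (by linarith)
  refine le_trans ?_ h8
  have h9 : (1 + b) * (1 + t) ≤ 1 + b + t + t * (1 / 128) := by nlinarith
  have h10 : 1 + 2 * t + 2 * (b + d) - d - d * (1 / 2) ≤ (1 - d) * (1 + 2 * t + 2 * (b + d)) := by
    have h11 : d * (2 * t + 2 * (b + d)) ≤ d * (1 / 2) :=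
      mul_le_mul_of_nonneg_left (by linarith) hd0
    linarith
  linarith

theorem aR_real {th ca ka D c : ℝ} (hth0 : 0 ≤ th) (hca0 : 0 ≤ ca) (hka0 : 0 ≤ ka) (hD0 : 0 < D)
    (hD : D ≤ 1 / 4) (hth : th ≤ D / 16) (hca : ca ≤ D / 4) (hka : ka ≤ D / 16) (hc : c ≤ D / 32) :
    1 ≤ (1 + th) * (1 + ca + ka) ∧ (1 + th) * (1 + ca + ka) + c ≤ 1 + D := by
  constructor
  · nlinarith [mul_nonneg hth0 hca0, mul_nonneg hth0 hka0]
  · have h3 : (1 + th) * (1 + ca + ka) ≤ (1 + D / 16) * (1 + 5 * D / 16) :=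
      mul_le_mul (by linarith) (by linarith) (by linarith) (by linarith)
    nlinarith

theorem qR_real {th cq kq D c : ℝ} (hth0 : 0 ≤ th) (hcq0 : 0 ≤ cq) (hkq0 : 0 ≤ kq) (hD0 : 0 < D)
    (hD : D ≤ 1 / 4) (hth : th ≤ D / 16) (hcq : cq ≤ 4 * D / 64) (hkq : kq ≤ 10 * D / 64)
    (hc : c ≤ D / 32) :
    0 ≤ (1 + th) * (cq + kq) ∧ (1 + th) * (cq + kq) + c ≤ D := by
  constructor
  · positivity
  · have h3 : (1 + th) * (cq + kq) ≤ 2 * (14 * D / 64) :=
      mul_le_mul (by linarith) (by linarith) (by linarith) (by linarith)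
    linarith

theorem numE_of (h : ℕ) (S : SmE h) : NumE h := by
  have hII : (0 : ℝ) ≤ II h := Nat.cast_nonneg _
  have hs := sE_pos h
  have hk1 := k1E_nonneg h
  have hlam := lamE_nonneg h
  have hkn := knE_nonneg h
  have hkd0 := kd0E_nonneg h
  have hkd1 := kd1E_nonneg h
  have hzh := zhE_nonneg h
  have hp := (pE_pos h).le
  have hB := B0_nonneg h
  have he4 := e4E_nonneg h
  have he5 := e50E_nonneg h
  have he51 := e51E_nonneg h
  have hb1 := b1E_nonneg h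
  have hd := dE_nonneg h
  have hrho := rhoE_nonneg h
  have hpB := mul_nonneg hp hB
  have hD0 := S.d0
  have hD1 := S.d1
  have hq : 0 ≤ 2 * lamE h + k1E h / sE h := by
    have := div_nonneg hk1 hs.le
    linarith
  have hth0 : 0 ≤ thE h := mul_nonneg (by norm_num) (mul_nonneg hII hrho)
  have hth : thE h ≤ StmF616.δO h / 16 := by
    unfold thE
    linarith [S.rho]
  have hca0 : 0 ≤ caE h := by unfold caE; linarith
  have hca : caE h ≤ StmF616.δO h / 4 := by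
    unfold caE
    linarith [S.e50, S.pB, S.b1, S.dl]
  have hka0 : 0 ≤ kaE h * II h := by
    unfold kaE
    exact mul_nonneg (add_nonneg (mul_nonneg hq hkd0) he4) hII
  have hka : kaE h * II h ≤ StmF616.δO h / 16 := by
    have e : kaE h * II h = (II h : ℝ) * ((2 * lamE h + k1E h / sE h) * kd0E h) + (II h : ℝ) * e4E h := by
      unfold kaE
      ring
    rw [e]
    linarith [S.k0, S.e4]
  have hcq0 : 0 ≤ cqE h := by unfold cqE; linarith
  have hcq : cqE h ≤ 4 * StmF616.δO h / 64 := by unfold cqE; linarith [S.lam, S.e51]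
  have hkq0 : 0 ≤ kqE h * II h := by
    unfold kqE
    have h1 := mul_nonneg hkn (show 0 ≤ 1 + zhE h by linarith)
    have h2 := mul_nonneg hq hkd1
    have h3 : 0 ≤ 5 * lamE h * (pE h + zhE h) := mul_nonneg (by linarith) (by linarith)
    exact mul_nonneg (by linarith) hII
  have hkq : kqE h * II h ≤ 10 * StmF616.δO h / 64 := by
    have e : kqE h * II h = (II h : ℝ) * knE h * (1 + zhE h)
        + (II h : ℝ) * ((2 * lamE h + k1E h / sE h) * kd1E h) + (II h : ℝ) * pE h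
        + (II h : ℝ) * (5 * lamE h * (pE h + zhE h)) := by
      unfold kqE
      ring
    have h1 : (II h : ℝ) * knE h * (1 + zhE h) ≤ (II h : ℝ) * knE h * 2 :=
      mul_le_mul_of_nonneg_left (by linarith [S.zh]) (mul_nonneg hII hkn)
    rw [e]
    linarith [S.kn, S.k1, S.p, S.ζ]
  have hA := aR_real hth0 hca0 hka0 hD0 hD1 hth hca hka S.c3
  have hQ := qR_real hth0 hcq0 hkq0 hD0 hD1 hth hcq hkq S.nu
  have hs2 : 0 < sE h ^ 2 := pow_pos hs 2
  have hs3 : sE h ^ 2 ≤ 1 := pow_le_one₀ hs.le (sE_le_one h)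
  exact
  { dlt := by linarith [S.dl]
    hlam := by
      unfold lamE
      rw [div_mul_cancel₀ _ hs2.ne']
      have := mul_le_mul_of_nonneg_left hs3 hk1
      linarith
    hrho := by
      unfold rhoE
      rw [Nat.cast_pow, Nat.cast_ofNat]
    hth := WinNumA948.pow_le (II h) hrho (by linarith [S.rho])
    hc := hc_real hb1 hpB hd he5 hD1 S.b1 S.pB S.dl
    hca := by unfold caE; linarith
    a1 := hA.1
    q0 := hQ.1
    aδ := hA.2
    qδ := hQ.2 }

/-- **the numbers are right for all large `h`** -/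
theorem ev_numE : ∀ᶠ h : ℕ in atTop, NumE h := by
  filter_upwards [ev_smE] with h S
  exact numE_of h S

/-- **open statement 4 of [ANA]** -/
theorem numR : StmF616.NumR aRE qRE := by
  filter_upwards [ev_numE] with h H
  exact ⟨H.a1, H.q0, H.aδ, H.qδ⟩

/-! ### the epoch bound at the concrete configuration -/

open Crest.Agent.R288.WinStm330 Crest.Agent.R288.Dom20 Crest.Agent.R288.Asm331 Crest.Agent.R288.Asm12

/-- the affine bound of one epoch, arbitrary functions -/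
theorem ep_real {h D : ℕ} (H : NumE h) {G F : St → ℕ} {lf : St → Prop} {hat : St → St}
    {Sc : St → (ℕ → ℤ) → Prop} {R Rp df : St → ℝ} {B : ℝ} (hB : 0 ≤ B) (hBB : B ≤ StmF616.B0O h)
    (w : WinIn (2 ^ nn h) (II h) D G F lf hat Sc R Rp df (StmF616.C0O h) (2 ^ lam h) B (pE h) (zhE h)
      (dE h) (b1E h) (k1E h) (knE h) (sE h) (kd0E h + kd1E h * B) (e4E h) (e50E h + e51E h * B)
      (r1E h))
    (x : St) (hx : InD (2 ^ nn h) (II h) D x) :
    R x ≤ (aRE h + qRE h * B) * (G x + (StmF616.C0O h : ℝ)) := by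
  have key := w.ep (B₀ := StmF616.B0O h) (lam := lamE h) (ρ := rhoE h) (θ := thE h) (ca := caE h)
    (cq := cqE h) (κa := kaE h) (κq := kqE h) (by positivity) (by positivity) hB hBB (pE_pos h).le
    (zhE_nonneg h) (dE_nonneg h) H.dlt (b1E_nonneg h) (k1E_nonneg h) (knE_nonneg h) (sE_pos h)
    (sE_le_one h) (e4E_nonneg h) (kd0E_nonneg h) (kd1E_nonneg h) (r1E_nonneg h) (e51E_nonneg h) H.hlam
    H.hrho H.hth H.hc H.hca le_rfl le_rfl le_rfl x hx
  exact key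

/-- the letters of one epoch at `cfgO x y ε`, factor `B` -/
def WinE (x y : List ℕ) (ε : ℚ) (X : ℕ → ℕ × St → ℕ) (e : ℕ) (df : St → ℝ) (B : ℝ) : Prop :=
  WinH330.Win (cfgO x y ε) X e (StmF616.Gx x y ε) df (StmF616.C0O (hh x y ε))
    (2 ^ lam (hh x y ε)) B (pE (hh x y ε)) (zhE (hh x y ε)) (dE (hh x y ε)) (b1E (hh x y ε))
    (k1E (hh x y ε)) (knE (hh x y ε)) (sE (hh x y ε)) (kd0E (hh x y ε) + kd1E (hh x y ε) * B)
    (e4E (hh x y ε)) (e50E (hh x y ε) + e51E (hh x y ε) * B) (r1E (hh x y ε))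

/-- **the epoch bound from the window instance** -/
theorem epO {x y : List ℕ} {ε : ℚ} (H : NumE (hh x y ε)) {X : ℕ → ℕ × St → ℕ} {e : ℕ}
    {df : St → ℝ} {B : ℝ} (hB : 0 ≤ B) (hBB : B ≤ StmF616.B0O (hh x y ε))
    (w : WinE x y ε X e df B) (s : St) (hs : StmF616.OkO x y ε s) :
    StmA616.Rm (cfgO x y ε) X e s ≤ (aRE (hh x y ε) + qRE (hh x y ε) * B)
      * StmA616.Vf (StmF616.Gx x y ε) (StmF616.C0O (hh x y ε)) s :=
  ep_real H hB hBB w s hs

/-- **open statement 3 of [ANA] from the window instances** -/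
theorem epStm_of (hW : Ev fun x y ε => ∀ X, (cfgO x y ε).Good X → ∀ e, e + 2 ≤ (cfgO x y ε).P.E →
      ∀ B, 1 ≤ B → B ≤ StmF616.B0O (hh x y ε) →
      (∀ s, StmF616.OkO x y ε s → (Alg45.FE (cfgO x y ε).P X e s : ℝ)
        ≤ B * StmA616.Vf (StmF616.Gx x y ε) (StmF616.C0O (hh x y ε)) s) →
      (∀ s, StmF616.OkO x y ε s → (Alg45.FE (cfgO x y ε).P X (e + 1) s : ℝ)
        ≤ B * StmA616.Vf (StmF616.Gx x y ε) (StmF616.C0O (hh x y ε)) s) →
      ∃ df, WinE x y ε X (e + 1) df B) : StmF616.EpStm aRE qRE := by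
  have hN : Ev fun x y ε => NumE (hh x y ε) := Ev.of (P := NumE) ev_numE fun _ _ _ _ h => h
  refine (hW.and hN).mono fun x y ε _ h X hX e he B hB1 hBB hF hF' s hs => ?_
  obtain ⟨df, w⟩ := h.1 X hX e he B hB1 hBB hF hF'
  exact epO h.2 (by linarith) hBB w s hs

end Crest.Agent.R288.WinNumE948
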