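import Crest.Agent.R288.WinHy_974
import Crest.Agent.R288.WinNumE_948
import Crest.Agent.R288.LawO_147
import Crest.Agent.R288.NearP_484
import Crest.Agent.R288.SoundD_548

/-!
# R288 [ANA] (helper400): `epStm : StmF616.EpStm aRE qRE` from `WinHy974.win_hyp`

* `numW` : `WinHy974.NumW` at `ParO331.parOf h` with the letters of WinNumE_948, for every factor `1 ≤ B ≤ B0O h`;
* **`epStm`**, **`ana_block`** : `Asm331.AnaStm`.
-/

set_option autoImplicit false

open Filter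

namespace Crest.Agent.R288.EpN400

open Crest.Agent.R288.Alg45 Crest.Agent.R288.Par806 Crest.Agent.R288.ParO331
open Crest.Agent.R288.Asm331 Crest.Agent.R288.Asm12 Crest.Agent.R288.Dom20
open Crest.Agent.R288.WinNumE948 Crest.Agent.R288.LawN147 Crest.Agent.R288.WinHy974
open Crest.Agent.R288.LanePar806 Crest.Agent.R288.LawO147
open Crest.Agent.R288.LipO364 (ζO ζO_nonneg)
open Crest.Agent.R288.WinF3131 (kA kB)

attribute [local irreducible] Par806.nn Par806.sb Par806.bb Par806.gam Par806.gg Par806.um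
  Par806.dl Par806.lam Par806.KK Par806.pm Par806.δi Par806.Lg Par806.Mg Par806.W Par806.pb
  Par806.nb Par806.a1 Par806.lB

theorem zeta_le {h : ℕ} (hN : ParN h) : ζO h * 2 ^ (4 * Lg h) ≤ 1 := by
  have h1 := hN.Lg16
  unfold LipO364.ζO
  rw [div_mul_eq_mul_div, div_le_one (by positivity), ← pow_add]
  exact pow_le_pow_right₀ (by norm_num) (by omega)

/-- the start factor -/
theorem B0_le' {h : ℕ} (hh : 32 ≤ h) : StmF616.B0O h ≤ 2 ^ lB h := by
  have h1 := StmF616.B1_le hh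
  unfold StmF616.B0O
  exact_mod_cast h1

/-- the line `hsm` -/
theorem sm_line {h : ℕ} (hp : ParOK 1024 h) (hh : 32 ≤ h) {B : ℝ}
    (hBB : B ≤ StmF616.B0O h) :
    B * (((2 ^ lam h : ℕ) : ℝ) + (StmF616.C0O h : ℝ)) < 2 ^ (pb h + 1) := by
  have h1 := hp.pb_ge
  have h2 := hp.lam_ge
  have h3 : h < 2 ^ Lg h := hp.h_lt
  have h4 : (StmF616.C0O h : ℝ) ≤ 2 ^ lam h := by
    have h5 : StmF616.C0O h ≤ 2 ^ lam h := by
      unfold StmF616.C0O
      calc h ^ 2 ≤ (2 ^ Lg h) ^ 2 := Nat.pow_le_pow_left h3.le 2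
        _ = 2 ^ (Lg h * 2) := by rw [← pow_mul]
        _ ≤ 2 ^ lam h := Nat.pow_le_pow_right (by norm_num) (by omega)
    exact_mod_cast h5
  have h6 : B ≤ 2 ^ lB h := hBB.trans (B0_le' hh)
  push_cast
  calc B * (2 ^ lam h + (StmF616.C0O h : ℝ)) ≤ 2 ^ lB h * (2 ^ lam h + 2 ^ lam h) :=
        mul_le_mul h6 (by linarith) (by positivity) (by positivity)
    _ = 2 ^ (lB h + lam h + 1) := by rw [pow_succ, pow_add]; ring
    _ < 2 ^ (pb h + 1) := by
        refine pow_lt_pow_right₀ (by norm_num) ?_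
        have h7 : 1 ≤ nn h := by
          have := hp.nn_W
          omega
        omega

theorem kB_mono (P : Par) (τ : ℝ) {η η' : ℝ} (h : η ≤ η') : kB P τ η ≤ kB P τ η' := by
  unfold kB
  linarith

/-- **the numeric hypotheses of the window instance** -/
theorem numW {h : ℕ} (hp : ParOK 1024 h) (hN : ParN h) (hL : LaneN h) (hh : 32 ≤ h)
    (he : eta (parOf h) (sJ h) ≤ tE h)
    (hbb : eta (parOf h) (sJ h) * 2 ^ bb h ≤ 1 ∧ 2 / 2 ^ bb h + eta (parOf h) (sJ h) ≤ 1)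
    (hO : ζO h ≤ 1 / 8 ∧ 0 ≤ bO ζO h ∧ bO ζO h ≤ 1 ∧ bO ζO h * 2 ^ bb h ≤ 14)
    (S : SmE h) {B : ℝ} (hB1 : 1 ≤ B) (hBB : B ≤ StmF616.B0O h) :
    NumW (parOf h) (StmF616.C0O h) (2 ^ lam h) B (ζO h) (eta (parOf h) (sJ h)) (tE h)
      (2 * 2 ^ nn h + 1) (sE h) (k1E h) (kd0E h) (kd1E h) (e4E h)
      (e50E h) (e51E h) (b1E h) (r1E h) ((nn h + 1) * gg h) := by
  have hB0 : 0 ≤ B := by linarith
  have hζ0 := ζO_nonneg h
  have hη0 := eta_nonneg (parOf h) (sJ h)
  have ht0 := (tE_pos h).le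
  have hp0 := (pE_pos h).le
  have hlen := NearP484.len hp le_rfl
  have hΛ : (0 : ℝ) < 2 ^ lam h := by positivity
  have hpow : (1 : ℝ) ≤ 2 ^ nn h := one_le_pow₀ (by norm_num)
  have hnb2 : (2 : ℝ) / 2 ^ nb h ≤ 2 := by
    rw [div_le_iff₀ (by positivity)]
    have : (1 : ℝ) ≤ 2 ^ nb h := one_le_pow₀ (by norm_num)
    linarith
  have hpb : pE h ≤ 1 / 32 := by
    have h1 : 6 ≤ pb h := by
      have := hL.pb
      exact (show 6 ≤ 10 by norm_num).trans this
    have h2 : (2 : ℝ) ^ 6 ≤ 2 ^ pb h := pow_le_pow_right₀ (by norm_num) h1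
    unfold pE
    rw [div_le_div_iff₀ (by positivity) (by norm_num)]
    linarith
  have hpB : pE h * B ≤ 1 := by
    have h1 := mul_le_mul_of_nonneg_left hBB hp0
    have h2 := S.pB
    have h3 := S.d1
    linarith
  have hK0 : (0 : ℝ) ≤ KK h := Nat.cast_nonneg _
  have hum0 : (0 : ℝ) ≤ um h := Nat.cast_nonneg _
  have hlog := logpm_nonneg h
  have hA1 : 0 ≤ (um h : ℝ) * Real.log ((pm h : ℝ) + 1) / KK h :=
    div_nonneg (mul_nonneg hum0 hlog) hK0
  have hA2 : 0 ≤ ((um h : ℝ) / pm h + ((pb h : ℝ) + 4) / gam h * 2 ^ nn h) / KK h := by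
    have g1 : (0 : ℝ) ≤ (um h : ℝ) / pm h := div_nonneg hum0 (Nat.cast_nonneg _)
    have g2 : (0 : ℝ) ≤ ((pb h : ℝ) + 4) / gam h * 2 ^ nn h :=
      mul_nonneg (div_nonneg (by positivity) (Nat.cast_nonneg _)) (by positivity)
    exact div_nonneg (by linarith) hK0
  have he4 : e4E h * 2 ^ lam h = (um h : ℝ) * Real.log ((pm h : ℝ) + 1) / KK h
      + ((um h : ℝ) / pm h + ((pb h : ℝ) + 4) / gam h * 2 ^ nn h) / KK h
      + 100 * 2 ^ nn h + c8E h + 100 := by
    unfold e4E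
    rw [div_mul_cancel₀ _ hΛ.ne']
  have ec8 : c8E h = 8 * 2 ^ nn h + 8 := rfl
  exact
    { hK := hL.K
      hg := hL.g
      hpm := hL.pm
      hnb := by
        show 1 ≤ nb h
        omega
      ha2 := by
        show 5 ≤ 8
        norm_num
      hδ4 := hL.δi.le
      hG2 := by
        have h1 : 1 ≤ gg h := hL.g
        have h2 : 1 ≤ nn h := hL.n
        calc 2 = (1 + 1) * 1 := rfl
          _ ≤ (nn h + 1) * gg h := Nat.mul_le_mul (by omega) h1
      hGg := le_rfl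
      hGum := by
        show (nn h + 1) * gg h * (4 * 8 + 1) ≤ um h
        rw [← hN.um_ge]
        nlinarith
      hζ8 := hO.1
      hζp := by
        show 2 * (ζO h + 2 / 2 ^ pb h) ≤ 1 / 2
        have : (2 : ℝ) / 2 ^ pb h ≤ 1 / 32 := hpb
        linarith [hO.1]
      hC0 := by
        unfold StmF616.C0O
        positivity
      hN4 := by
        show 2 ^ nn h * 4 ≤ 2 ^ lam h
        calc 2 ^ nn h * 4 = 2 ^ (nn h + 2) := by rw [pow_add]; norm_num
          _ ≤ 2 ^ lam h := Nat.pow_le_pow_right (by norm_num) (by omega)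
      hη0 := hη0
      hτη := he
      hbb := hbb.2
      hc8 := le_rfl
      hbO := hO.2.2.1
      hnear := fun F κ z hF hκ =>
        NearP484.nearNum hp le_rfl hζ0 (zeta_le hN) hO.2.1 (hO.2.2.2.trans (by norm_num))
          (by norm_num) hF hκ
      hsm := sm_line hp hh hBB
      he50 := by
        have hC0 : (0 : ℝ) < (StmF616.C0O h : ℝ) := by
          have : 0 < StmF616.C0O h := by unfold StmF616.C0O; positivity
          exact_mod_cast this
        have h1 : (1 + (2 * 2 ^ nn h + 1) + tE h) / (StmF616.C0O h : ℝ)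
            ≤ (1 + c8E h + tE h) / (StmF616.C0O h : ℝ) :=
          div_le_div_of_nonneg_right (by rw [ec8]; linarith) hC0.le
        exact h1
      he51 := le_rfl
      hb1 := by
        have h1 : (2 * 2 ^ nn h + 1 : ℝ) / 2 ^ lam h ≤ c8E h / 2 ^ lam h :=
          div_le_div_of_nonneg_right (by rw [ec8]; linarith) hΛ.le
        unfold b1E
        push_cast
        linarith
      hr1 := by
        have h1 : pE h * B ≤ pE h * StmF616.B0O h := mul_le_mul_of_nonneg_left hBB hp0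
        have h2 := mul_le_mul_of_nonneg_left h1 (show (0 : ℝ) ≤ 2 ^ nn h by positivity)
        have e : (((parOf h).N : ℕ) : ℝ) = 2 ^ nn h := by rw [parOf_N]; push_cast; rfl
        rw [e]
        unfold r1E
        push_cast
        show 2 ^ nn h * (pE h * B) + 2 * 2 ^ nn h / 2 ^ lam h ≤ _
        linarith
      hk1 := le_rfl
      he40 := e4E_nonneg h
      he4f := by
        have e : (((parOf h).N : ℕ) : ℝ) = 2 ^ nn h := by rw [parOf_N]; push_cast; rfl
        rw [e]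
        push_cast
        rw [he4, ec8]
        show (um h : ℝ) * Real.log ((pm h : ℝ) + 1) / KK h + (2 + (2 * 2 ^ nn h + 1))
          + 2 ^ nn h * (2 / 2 ^ nb h + 2) ≤ _
        have h1 : (2 : ℝ) ^ nn h * (2 / 2 ^ nb h + 2) ≤ 2 ^ nn h * 4 :=
          mul_le_mul_of_nonneg_left (by linarith) (by positivity)
        linarith
      he4n := by
        have e : (((parOf h).N : ℕ) : ℝ) = 2 ^ nn h := by rw [parOf_N]; push_cast; rfl
        unfold WinNear482.an
        rw [e]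
        push_cast
        rw [he4, ec8]
        show ((um h : ℝ) / pm h + ((pb h : ℝ) + 4) / gam h * 2 ^ nn h) / KK h
          + (2 * 2 ^ nn h + 2) + 2 ^ nn h * (4 + (1 + 2 * 1)) + (2 * 2 ^ nn h + 1) ≤ _
        linarith
      hkd0 := by
        unfold kd0E
        push_cast
        refine div_le_div_of_nonneg_right (kB_mono _ _ ?_) hΛ.le
        rw [ec8]
        linarith
      hkd1 := by
        have h1 := WinF3131.kA_nonneg (P := parOf h) ht0
        unfold kd1E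
        show (ζO h + kA (parOf h) (tE h)) * (1 + pE h * B) ≤ 2 * ζO h + 2 * kA (parOf h) (tE h)
        have h2 : (ζO h + kA (parOf h) (tE h)) * (1 + pE h * B)
            ≤ (ζO h + kA (parOf h) (tE h)) * 2 :=
          mul_le_mul_of_nonneg_left (by linarith) (by linarith)
        linarith }

/-- `NumW` for all large `h`, all factors -/
theorem ev_numW : ∀ᶠ h : ℕ in atTop, ∀ B : ℝ, 1 ≤ B → B ≤ StmF616.B0O h →
    NumW (parOf h) (StmF616.C0O h) (2 ^ lam h) B (ζO h) (eta (parOf h) (sJ h)) (tE h)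
      (2 * 2 ^ nn h + 1) (sE h) (k1E h) (kd0E h) (kd1E h) (e4E h)
      (e50E h) (e51E h) (b1E h) (r1E h) ((nn h + 1) * gg h) := by
  filter_upwards [ev_ParOK 1024, ev_ParN, ev_LaneN, eventually_ge_atTop 32, ev_eta 4, ev_eta_bb,
    ev_bO, ev_smE] with h h1 h2 h3 h4 h5 h6 h7 h8 B hB1 hBB
  exact numW h1 h2 h3 h4 h5 h6 h7 h8 hB1 hBB

/-- **[A13] the window instances at `cfgO`** -/
theorem winO : Ev fun x y ε => ∀ X, (cfgO x y ε).Good X → ∀ e, e + 2 ≤ (cfgO x y ε).P.E →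
    ∀ B, 1 ≤ B → B ≤ StmF616.B0O (hh x y ε) →
    (∀ s, StmF616.OkO x y ε s → (Alg45.FE (cfgO x y ε).P X e s : ℝ)
      ≤ B * StmA616.Vf (StmF616.Gx x y ε) (StmF616.C0O (hh x y ε)) s) →
    (∀ s, StmF616.OkO x y ε s → (Alg45.FE (cfgO x y ε).P X (e + 1) s : ℝ)
      ≤ B * StmA616.Vf (StmF616.Gx x y ε) (StmF616.C0O (hh x y ε)) s) →
    ∃ df, WinE x y ε X (e + 1) df B := by
  have hW : Ev fun x y ε => ∀ B : ℝ, 1 ≤ B → B ≤ StmF616.B0O (hh x y ε) →
      NumW (parOf (hh x y ε)) (StmF616.C0O (hh x y ε)) (2 ^ lam (hh x y ε)) B (ζO (hh x y ε))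
      (eta (parOf (hh x y ε)) (sJ (hh x y ε))) (tE (hh x y ε))
      (2 * 2 ^ nn (hh x y ε) + 1) (sE (hh x y ε)) (k1E (hh x y ε)) (kd0E (hh x y ε))
      (kd1E (hh x y ε)) (e4E (hh x y ε))
      (e50E (hh x y ε)) (e51E (hh x y ε)) (b1E (hh x y ε)) (r1E (hh x y ε))
      ((nn (hh x y ε) + 1) * gg (hh x y ε)) :=
    Ev.of (P := fun h => ∀ B : ℝ, 1 ≤ B → B ≤ StmF616.B0O h →
      NumW (parOf h) (StmF616.C0O h) (2 ^ lam h) B (ζO h) (eta (parOf h) (sJ h)) (tE h)
      (2 * 2 ^ nn h + 1) (sE h) (k1E h) (kd0E h) (kd1E h) (e4E h)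
      (e50E h) (e51E h) (b1E h) (r1E h) ((nn h + 1) * gg h))
      ev_numW fun _ _ _ _ h => h
  refine (hypZ.and hW).mono fun x y ε _ h X hX e he B hB1 hBB hF hF' => ?_
  obtain ⟨p, H⟩ := h.1 X hX
  have key := win_hyp H rfl (h.2 B hB1 hBB) he hB1 le_rfl hF hF'
  refine ⟨WinF3D131.df (cfgO x y ε) X e (ζO (hh x y ε)) (tE (hh x y ε))
    (2 * 2 ^ nn (hh x y ε) + 1), ?_⟩
  have e6 : (((2 ^ lam (hh x y ε) : ℕ) : ℕ) : ℝ) = 2 ^ lam (hh x y ε) := by push_cast; rfl
  rw [e6] at key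
  exact key

/-- **[ANA], statement 3** -/
theorem epStm : StmF616.EpStm aRE qRE := epStm_of winO

/-- **[ANA]** -/
theorem ana_block : AnaStm := StmF616.anaStm LipO364.lipStm SoundD548.soundStm epStm numR

end Crest.Agent.R288.EpN400
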