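import Crest.Agent.R288.WinHy_974
import Crest.Agent.R288.LawO_147
import Crest.Agent.R288.WinNumE_948
import Crest.Agent.R288.NearP_484
import Crest.Agent.R288.SoundD_548

/-!
# R288 [ANA] (helper974): the window instances at `cfgO`, `EpStm`, `AnaStm`

* `ev_numW` : `WinHy974.NumW` for the table, with the letters of `WinNumE_948`;
* `winE` : `WinNumE948.WinE` for every good history, epoch `e + 1`, factor `B`;
* **`epStm : StmF616.EpStm aRE qRE`**, **`ana_block : Asm331.AnaStm`**.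
-/

set_option autoImplicit false

open Filter

namespace Crest.Agent.R288.EpO974

open Crest.Agent.R288.Alg45 Crest.Agent.R288.Asm331 Crest.Agent.R288.Asm12
open Crest.Agent.R288.Dom20 Crest.Agent.R288.Par806 Crest.Agent.R288.ParO331
open Crest.Agent.R288.StmF616 Crest.Agent.R288.LawN147 Crest.Agent.R288.LawO147
open Crest.Agent.R288.LanePar806 Crest.Agent.R288.WinHy974
open Crest.Agent.R288.WinNumE948 Crest.Agent.R288.WinStm330

/-- a greater additive error at the leaves -/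
theorem mono_e5 {N I D : ℕ} {G F : St → ℕ} {lf : St → Prop} {hat : St → St}
    {Sc : St → (ℕ → ℤ) → Prop} {R Rp df : St → ℝ} {C0 : ℕ}
    {Lam β p ζ δ b1 k1 κn s kd e4 e5 e5' r1 : ℝ}
    (W : WinIn N I D G F lf hat Sc R Rp df C0 Lam β p ζ δ b1 k1 κn s kd e4 e5 r1)
    (h : e5 ≤ e5') :
    WinIn N I D G F lf hat Sc R Rp df C0 Lam β p ζ δ b1 k1 κn s kd e4 e5' r1 :=
  { W with
    leaf := fun x hx hl => by
      have h1 := W.leaf x hx hl
      have h2 := mul_le_mul_of_nonneg_right h (show (0 : ℝ) ≤ (G x : ℝ) + C0 by positivity)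
      linarith
    hat_leaf := fun x hx hn hl => by
      have h1 := W.hat_leaf x hx hn hl
      have h2 := mul_le_mul_of_nonneg_right h (show (0 : ℝ) ≤ (G x : ℝ) + C0 by positivity)
      linarith }

theorem Lam_cast (h : ℕ) : ((2 ^ lam h : ℕ) : ℝ) = 2 ^ lam h := by push_cast; rfl

/-- the window of a leaf is its own grid -/
theorem sm_line {h : ℕ} (hp : ParOK 1024 h) (hh : 32 ≤ h) :
    B0O h * (((2 ^ lam h : ℕ) : ℝ) + (C0O h : ℕ)) < 2 ^ (pb h + 1) := by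
  have h1 : B0O h ≤ 2 ^ lB h := by
    have h1 : AnaLip364.B1 (gI h) h ≤ 2 ^ lB h := StmF616.B1_le hh
    unfold B0O
    exact_mod_cast h1
  have h2 : (C0O h : ℝ) ≤ 2 ^ (2 * Lg h) := by
    have h3 : h ^ 2 ≤ (2 ^ Lg h) ^ 2 := Nat.pow_le_pow_left (lt_two_pow_Lg h).le 2
    have h4 : C0O h ≤ 2 ^ (2 * Lg h) := by
      rw [mul_comm, pow_mul]
      exact h3
    exact_mod_cast h4
  have h3 := hp.pb_ge
  have hL : 1024 * Lg h ≤ pb h := by omega
  have h4 : (2 : ℝ) ^ lam h + 2 ^ (2 * Lg h) ≤ 2 * 2 ^ (lam h + 2 * Lg h) := by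
    have a1 : (2 : ℝ) ^ lam h ≤ 2 ^ (lam h + 2 * Lg h) :=
      pow_le_pow_right₀ (by norm_num) (by omega)
    have a2 : (2 : ℝ) ^ (2 * Lg h) ≤ 2 ^ (lam h + 2 * Lg h) :=
      pow_le_pow_right₀ (by norm_num) (by omega)
    linarith
  rw [Lam_cast]
  have h5 : B0O h * (2 ^ lam h + (C0O h : ℝ)) ≤ 2 ^ lB h * (2 * 2 ^ (lam h + 2 * Lg h)) :=
    mul_le_mul h1 (by linarith) (by positivity) (by positivity)
  have h6 : (2 : ℝ) ^ lB h * (2 * 2 ^ (lam h + 2 * Lg h)) = 2 ^ (lB h + (lam h + 2 * Lg h) + 1) := by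
    rw [pow_succ, pow_add]
    ring
  have hL1 := Lg_pos h
  refine lt_of_le_of_lt (h5.trans (le_of_eq h6)) (pow_lt_pow_right₀ (by norm_num) ?_)
  omega

theorem nn4 (a b c d e : ℕ) {t : ℝ} (ht : 0 ≤ t) :
    (0 : ℝ) ≤ ((a : ℝ) / b + ((c : ℝ) + 4) / d * t) / e := by positivity

theorem nn5 (a c : ℕ) {t : ℝ} (ht : 0 ≤ t) : (0 : ℝ) ≤ (a : ℝ) * t / c := by positivity

/-- additive terms, far -/
theorem far_line (h : ℕ) : ((parOf h).um : ℝ) * Real.log ((parOf h).pm + 1) / (parOf h).K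
    + (2 + c8E h) + (parOf h).N * (2 / 2 ^ (parOf h).nb + 2) ≤ e4E h * ((2 ^ lam h : ℕ) : ℝ) := by
  rw [Lam_cast]
  have h0 : (0 : ℝ) < 2 ^ lam h := by positivity
  unfold e4E
  rw [div_mul_cancel₀ _ h0.ne']
  have hN : ((parOf h).N : ℝ) = 2 ^ nn h := by
    rw [parOf_N]
    push_cast
    rfl
  rw [hN]
  show (um h : ℝ) * Real.log ((pm h : ℝ) + 1) / (KK h : ℝ) + (2 + c8E h)
    + 2 ^ nn h * (2 / 2 ^ nb h + 2) ≤ _
  have h1 : (2 : ℝ) / 2 ^ nb h ≤ 2 := by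
    rw [div_le_iff₀ (by positivity)]
    have : (1 : ℝ) ≤ 2 ^ nb h := one_le_pow₀ (by norm_num)
    linarith
  have h2 : (2 : ℝ) ^ nn h * (2 / 2 ^ nb h + 2) ≤ 2 ^ nn h * 4 :=
    mul_le_mul_of_nonneg_left (by linarith) (by positivity)
  have h3 : (0 : ℝ) ≤ 2 ^ nn h := by positivity
  have h4 : (0 : ℝ) ≤ ((um h : ℝ) / pm h + ((pb h : ℝ) + 4) / gam h * 2 ^ nn h) / KK h :=
    nn4 _ _ _ _ _ h3
  generalize ((um h : ℝ) / pm h + ((pb h : ℝ) + 4) / gam h * 2 ^ nn h) / KK h = A4 at *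
  generalize (um h : ℝ) * Real.log ((pm h : ℝ) + 1) / (KK h : ℝ) = A5 at *
  generalize (2 : ℝ) ^ nn h * (2 / 2 ^ nb h + 2) = A6 at *
  generalize (2 : ℝ) ^ nn h = A7 at *
  generalize c8E h = A8 at *
  linarith

/-- additive terms, near -/
theorem near_line (h : ℕ) : WinNear482.an (parOf h) 4 (1 + 2 * 1) (c8E h)
    ≤ e4E h * ((2 ^ lam h : ℕ) : ℝ) := by
  rw [Lam_cast]
  have h0 : (0 : ℝ) < 2 ^ lam h := by positivity
  unfold e4E WinNear482.an
  rw [div_mul_cancel₀ _ h0.ne']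
  have hN : ((parOf h).N : ℝ) = 2 ^ nn h := by
    rw [parOf_N]
    push_cast
    rfl
  rw [hN]
  show ((um h : ℝ) / (pm h : ℝ) + ((pb h : ℝ) + 4) / (gam h : ℝ) * 2 ^ nn h) / (KK h : ℝ)
    + (2 * 2 ^ nn h + 2) + 2 ^ nn h * (4 + (1 + 2 * 1)) + c8E h ≤ _
  have h3 : (0 : ℝ) ≤ 2 ^ nn h := by positivity
  have h4 := logpm_nonneg h
  have h5 : (0 : ℝ) ≤ (um h : ℝ) * Real.log ((pm h : ℝ) + 1) / KK h := nn5 _ _ h4
  generalize ((um h : ℝ) / pm h + ((pb h : ℝ) + 4) / gam h * 2 ^ nn h) / KK h = A4 at *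
  generalize (um h : ℝ) * Real.log ((pm h : ℝ) + 1) / (KK h : ℝ) = A5 at *
  generalize (2 : ℝ) ^ nn h = A7 at *
  generalize c8E h = A8 at *
  linarith

/-- **the numbers of the window instance** -/
theorem ev_numW : ∀ᶠ h : ℕ in atTop, NumW (parOf h) (C0O h) (2 ^ lam h) (B0O h) (LipO364.ζO h)
    (eta (parOf h) (sJ h)) (tE h) (c8E h) (sE h) (k1E h) (kd0E h) (kd1E h) (e4E h)
    ((1 + c8E h + tE h) / (C0O h : ℕ)) (2 * pE h + tE h) (b1E h) (r1E h)
    (gg h * (nn h + 1)) := by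
  filter_upwards [ev_smE, LawO147.ev_bO, LawO147.ev_eta 4, ev_eta_bb, ev_ParOK 1024, ev_LaneN,
    ev_ParN, eventually_ge_atTop 32] with h S hb hη hηb hO hL hN hh
  have hζ0 := LipO364.ζO_nonneg h
  have hW := W_pos h
  have hLg := Lg_pos h
  have ht := (tE_pos h).le
  have hpb : (8 : ℝ) * (2 / 2 ^ pb h) ≤ 1 := by
    have h1 : (2 : ℝ) ^ 10 ≤ 2 ^ pb h := pow_le_pow_right₀ (by norm_num) hL.pb
    rw [mul_div_assoc', div_le_one (by positivity)]
    linarith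
  have hpB : 2 / 2 ^ pb h * B0O h ≤ 1 := by
    have h1 := S.pB
    have h2 := S.d1
    have h3 : pE h * B0O h = 2 / 2 ^ pb h * B0O h := rfl
    rw [← h3]
    linarith
  have hN' : ((parOf h).N : ℝ) = 2 ^ nn h := by
    rw [parOf_N]
    push_cast
    rfl
  have f1 : 1 ≤ nb h := by
    have : nb h = 8 * (W h * Lg h) := by unfold nb; ring
    have : 1 ≤ W h * Lg h := Nat.mul_pos hW hLg
    omega
  have f2 : 2 ≤ gg h * (nn h + 1) := by
    have h1 := hN.g_ge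
    calc 2 ≤ gg h * 1 := by omega
      _ ≤ gg h * (nn h + 1) := Nat.mul_le_mul_left _ (by omega)
  have f3 : gg h * (nn h + 1) * (4 * 8 + 1) ≤ um h := by
    rw [← hN.um_ge]
    generalize gg h * (nn h + 1) = t
    omega
  have f4 : (0 : ℕ) < C0O h := by
    unfold C0O
    have : 0 < h := by omega
    positivity
  have f5 : (parOf h).N * 4 ≤ 2 ^ lam h := by
    have h1 := hL.Λ_N
    have h2 : (parOf h).N * 4 ≤ 8 * (parOf h).N := by omega
    exact h2.trans h1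
  have f6 : (2 : ℝ) * 2 ^ nn h + 1 ≤ c8E h := by
    unfold c8E
    have h3 : (0 : ℝ) ≤ 2 ^ nn h := by positivity
    linarith
  have f7 : (2 : ℝ) ^ 5 / 2 ^ (8 * Lg h) * 2 ^ (4 * Lg h) ≤ 1 := by
    have g1 : (2 : ℝ) ^ 5 * 2 ^ (4 * Lg h) ≤ 2 ^ (8 * Lg h) := by
      rw [← pow_add]
      exact pow_le_pow_right₀ (by norm_num) (by have := hN.Lg16; omega)
    rw [div_mul_eq_mul_div, div_le_one (by positivity)]
    exact g1
  have f8 : ∀ (F : St → ℕ) (κ : ℕ) (z : St), 2 ^ lam h ≤ 2 * F z → 2 ^ κ ≤ 2 * F z →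
      WinNear482.NearNum (parOf h) F κ z (bOsc (parOf h) (eta (parOf h) (sJ h)) (LipO364.ζO h))
        (2 / 2 ^ nb h) (LipO364.ζO h) 4 (1 + 2 * 1) 0 (sE h) :=
    fun F κ z h1 h2 => NearP484.nearNum hO le_rfl hζ0 f7 hb.2.1 (hb.2.2.2.trans (by norm_num))
      (by norm_num) h1 h2
  have f9 : c8E h / ((2 ^ lam h : ℕ) : ℝ) + 2 * tE h ≤ b1E h := by
    rw [Lam_cast]
    exact le_rfl
  have f10 : ((parOf h).N : ℝ) * (2 / 2 ^ pb h * B0O h) + 2 * (parOf h).N / ((2 ^ lam h : ℕ) : ℝ)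
      ≤ r1E h := by
    rw [Lam_cast, hN']
    refine le_of_eq ?_
    unfold r1E pE
    ring
  have f11 : WinF3131.kB (parOf h) (tE h) (c8E h + 2) / ((2 ^ lam h : ℕ) : ℝ) ≤ kd0E h := by
    rw [Lam_cast]
    exact le_rfl
  have f12 : (LipO364.ζO h + WinF3131.kA (parOf h) (tE h)) * (1 + 2 / 2 ^ pb h * B0O h) ≤
      kd1E h := by
    have h1 := WinF3131.kA_nonneg (P := parOf h) ht
    have h2 : (LipO364.ζO h + WinF3131.kA (parOf h) (tE h)) * (1 + 2 / 2 ^ pb h * B0O h) ≤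
      (LipO364.ζO h + WinF3131.kA (parOf h) (tE h)) * 2 :=
      mul_le_mul_of_nonneg_left (by linarith) (by linarith)
    have h3 : kd1E h = 2 * LipO364.ζO h + 2 * WinF3131.kA (parOf h) (tE h) := rfl
    rw [h3]
    linarith
  have f13 : (2 : ℝ) * (LipO364.ζO h + 2 / 2 ^ pb h) ≤ 1 / 2 := by
    have := hb.1
    linarith
  have f14 : ((um h : ℝ) * Real.log ((pm h : ℝ) + 1) + 1 + 1 / (gg h : ℕ)) / KK h + 2 * tE h
      + 2 / 2 ^ nb h ≤ k1E h := le_rfl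
  have f15 : (5 : ℕ) ≤ 8 := by norm_num
  have f16 := hb.1
  have f17 := hb.2.2.1
  have f18 := sm_line hO hh
  have f19 := far_line h
  have f20 := near_line h
  have f21 := e4E_nonneg h
  have f22 : (nn h + 1) * gg h ≤ gg h * (nn h + 1) := le_of_eq (Nat.mul_comm _ _)
  exact
    { hK := hL.K
      hg := hL.g
      hpm := hL.pm
      hnb := f1
      ha2 := f15
      hδ4 := hL.δi.le
      hG2 := f2
      hGg := f22
      hGum := f3
      hζ8 := f16
      hζp := f13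
      hC0 := f4
      hN4 := f5
      hη0 := eta_nonneg _ _
      hτη := hη
      hbb := hηb.2
      hc8 := f6
      hbO := f17
      hnear := f8
      hsm := f18
      he50 := le_rfl
      he51 := le_rfl
      hb1 := f9
      hr1 := f10
      hk1 := f14
      he40 := f21
      he4f := f19
      he4n := f20
      hkd0 := f11
      hkd1 := f12 }

/-- **the window instances at `cfgO`** -/
theorem winE : Ev fun x y ε => ∀ X, (cfgO x y ε).Good X → ∀ e, e + 2 ≤ (cfgO x y ε).P.E →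
    ∀ B, 1 ≤ B → B ≤ B0O (hh x y ε) →
    (∀ s, OkO x y ε s → (FE (cfgO x y ε).P X e s : ℝ)
      ≤ B * StmA616.Vf (Gx x y ε) (C0O (hh x y ε)) s) →
    (∀ s, OkO x y ε s → (FE (cfgO x y ε).P X (e + 1) s : ℝ)
      ≤ B * StmA616.Vf (Gx x y ε) (C0O (hh x y ε)) s) →
    ∃ df, WinE x y ε X (e + 1) df B := by
  have hN : Ev fun x y ε => NumW (parOf (hh x y ε)) (C0O (hh x y ε)) (2 ^ lam (hh x y ε))
      (B0O (hh x y ε)) (LipO364.ζO (hh x y ε)) (eta (parOf (hh x y ε)) (sJ (hh x y ε)))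
      (tE (hh x y ε)) (c8E (hh x y ε)) (sE (hh x y ε)) (k1E (hh x y ε)) (kd0E (hh x y ε))
      (kd1E (hh x y ε)) (e4E (hh x y ε))
      ((1 + c8E (hh x y ε) + tE (hh x y ε)) / (C0O (hh x y ε) : ℕ))
      (2 * pE (hh x y ε) + tE (hh x y ε)) (b1E (hh x y ε)) (r1E (hh x y ε))
      (gg (hh x y ε) * (nn (hh x y ε) + 1)) :=
    Ev.of ev_numW fun _ _ _ _ h => h
  refine (hypZ.and hN).mono fun x y ε _ h X hX e he B hB1 hBB hF hF' => ?_
  obtain ⟨p, H⟩ := h.1 X hX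
  have w := win_hyp H rfl h.2 he hB1 hBB hF hF'
  unfold WinH330.Win at w
  rw [Lam_cast] at w
  exact ⟨WinF3D131.df (cfgO x y ε) X e (LipO364.ζO (hh x y ε)) (tE (hh x y ε))
    (c8E (hh x y ε)), w⟩

/-- **[ANA.W6]** -/
theorem epStm : EpStm aRE qRE := epStm_of winE

/-- **[ANA]** -/
theorem ana_block : AnaStm := anaStm LipO364.lipStm SoundD548.soundStm epStm WinNumE948.numR

end Crest.Agent.R288.EpO974
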