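import Crest.Agent.R288.PotA_245

/-!
# R288: the epoch theorem with a ROUNDING STEP at the same height (off-grid states)

`PotA_245.epoch_bound` / `PotP_245.epoch_bound_rho` with

* a predicate `Ok` (states of the domain),
* for every `Ok` state `x` either `R + λΦ ≤ (1+c) V` (leaf, retired, height 0), or a state `x'` of the
  SAME height (its rounding to its own grid; `x' = x` allowed) with
  `R x + λ Φ x ≤ R x' + λ Φ x' + κr V x` and a move of `x'` with the one-window hypotheses at `x'`,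
  `∑ V(pieces) ≤ (1+ρ) V x`, `F x' ≤ CF V x`, `d ≤ kd V x`.

* `closureL`      : `PotA245.closure'` with the hypotheses on the members of the list only
* `epoch_round`   : `R + λΦ ≤ (1+ρ)^h (1 + c + κ₁ h) V`
* `epoch_round_R` : the same for `R` alone
* `Phi_round`     : `Φ x ≤ Φ x' + 2 |a - a'| + 3 |F - F'|`
* `F_round`       : the difference of two values of an approximately Lipschitz unit function
* `round_step`    : the rounding step from `R x ≤ dist + R x'`, `F` approximately Lipschitz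
-/

set_option autoImplicit false

namespace Crest.Agent.R288.EpR232

open Crest.Agent.R288.PotF245 Crest.Agent.R288.PotA245

universe u v

section lists

variable {α : Type*} {F a : α → ℝ}

/-- **closure at one state**, hypotheses only on the members of `l` -/
theorem closureL {R : α → ℝ} {A Fx Rx d k1 κ s lam : ℝ} (l : List α)
    (hFa : ∀ y ∈ l, |a y| ≤ F y)
    (hA : |A| ≤ Fx) (hx : 0 < Fx) (hd0 : 0 ≤ d) (hk1 : 0 ≤ k1) (hκ : 0 ≤ κ) (hs : 0 < s)
    (hs1 : s ≤ 1) (hlam : k1 * (1 + s ^ 2) ≤ lam * s ^ 2)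
    (hsum : (l.map a).sum = A) (hd : Fx ≤ (l.map F).sum + d)
    (hnear : En F a (A / Fx) l ≤ s ^ 2 * Fx → (l.map F).sum - Fx ≤ s * Fx → d ≤ s * Fx →
      Rx ≤ (l.map R).sum + κ * Fx)
    (hall : Rx ≤ (l.map R).sum + k1 * (Fx + max ((l.map F).sum - Fx) 0)) :
    Rx + lam * (A ^ 2 / Fx + 2 * Fx)
      ≤ (l.map fun y => R y + lam * Phi F a y).sum + (κ * Fx + (2 * lam + k1 / s) * d) := by
  classical
  set F' : α → ℝ := fun y => if |a y| ≤ F y then F y else |a y| with hF'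
  have hFa' : ∀ y, |a y| ≤ F' y := by
    intro y
    simp only [hF']
    split_ifs with h
    · exact h
    · exact le_rfl
  have e : ∀ y ∈ l, F' y = F y := fun y hy => by simp [hF', hFa y hy]
  have e1 : l.map F' = l.map F := List.map_congr_left e
  have e2 : En F' a (A / Fx) l = En F a (A / Fx) l := by
    unfold En
    congr 1
    apply List.map_congr_left
    intro y hy
    rw [e y hy]
  have e3 : (l.map fun y => R y + lam * Phi F' a y) = l.map fun y => R y + lam * Phi F a y := by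
    apply List.map_congr_left
    intro y hy
    unfold Phi
    rw [e y hy]
  have key := closure' (F := F') (a := a) (R := R) hFa' (Rx := Rx) hA hx hd0 hk1 hκ hs hs1 hlam l
    hsum (by rw [e1]; exact hd) (by rw [e1, e2]; exact hnear) (by rw [e1]; exact hall)
  rw [e3] at key
  exact key

/-- the potential under rounding -/
theorem Phi_round {A A' f f' : ℝ} (hA : |A| ≤ f) (hA' : |A'| ≤ f') :
    A ^ 2 / f + 2 * f ≤ A' ^ 2 / f' + 2 * f' + 2 * |A - A'| + 3 * |f - f'| := by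
  have hf : 0 ≤ f := (abs_nonneg _).trans hA
  have hf' : 0 ≤ f' := (abs_nonneg _).trans hA'
  obtain ⟨t, ht, h1⟩ : ∃ t : ℝ, |t| ≤ 1 ∧ A ^ 2 / f = 2 * t * A - t ^ 2 * f := by
    rcases hf.eq_or_lt with h0 | h0
    · refine ⟨0, by simp, ?_⟩
      rw [← h0]; simp
    · refine ⟨A / f, ?_, ?_⟩
      · rw [abs_div, abs_of_nonneg hf]
        exact div_le_one_of_le₀ hA hf
      · field_simp
        ring
  have h2 : 2 * t * A' - t ^ 2 * f' ≤ A' ^ 2 / f' := by
    rcases hf'.eq_or_lt with h0 | h0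
    · have : A' = 0 := by
        rw [← h0] at hA'
        exact abs_eq_zero.1 (le_antisymm hA' (abs_nonneg _))
      rw [← h0, this]; simp
    · rw [le_div_iff₀ h0]
      nlinarith [sq_nonneg (A' - t * f')]
  have h3 : 2 * t * (A - A') ≤ 2 * |A - A'| := by
    have : t * (A - A') ≤ |t| * |A - A'| := by rw [← abs_mul]; exact le_abs_self _
    nlinarith [abs_nonneg (A - A')]
  have h4 : t ^ 2 * (f' - f) ≤ |f - f'| := by
    have h5 : t ^ 2 ≤ 1 := by
      have := abs_nonneg t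
      nlinarith [sq_abs t]
    have h6 : f' - f ≤ |f - f'| := by rw [abs_sub_comm]; exact le_abs_self _
    have h7 : 0 ≤ t ^ 2 := sq_nonneg t
    nlinarith [abs_nonneg (f - f')]
  have h8 : 2 * f ≤ 2 * f' + 2 * |f - f'| := by
    have := le_abs_self (f - f')
    linarith
  nlinarith

/-- two values of an approximately Lipschitz function -/
theorem F_round {f f' ζ δ c4 : ℝ} (hζ : 0 ≤ ζ) (hζ1 : ζ ≤ 1) (hδ : 0 ≤ δ) (hc : 0 ≤ c4)
    (_hf : 0 ≤ f) (hf' : 0 ≤ f') (h1 : f ≤ (1 + ζ) * (f' + δ) + c4)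
    (h2 : f' ≤ (1 + ζ) * (f + δ) + c4) :
    |f - f'| ≤ ζ * (2 * f' + 2 * δ + c4) + 2 * δ + c4 := by
  rw [abs_le]
  constructor
  · -- `f' - f ≤ ζ f + (1+ζ) δ + c4`
    have h3 : f' - f ≤ ζ * f + (1 + ζ) * δ + c4 := by nlinarith
    have h4 : ζ * f ≤ ζ * ((1 + ζ) * (f' + δ) + c4) := mul_le_mul_of_nonneg_left h1 hζ
    have h5 : ζ * ((1 + ζ) * (f' + δ) + c4) ≤ ζ * (2 * (f' + δ) + c4) := by
      apply mul_le_mul_of_nonneg_left _ hζ
      nlinarith
    have h6 : (1 + ζ) * δ ≤ 2 * δ := by nlinarith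
    linarith
  · have h3 : f - f' ≤ ζ * f' + (1 + ζ) * δ + c4 := by nlinarith
    have h6 : (1 + ζ) * δ ≤ 2 * δ := by nlinarith
    have h7 : ζ * f' ≤ ζ * (2 * f' + 2 * δ + c4) := by
      apply mul_le_mul_of_nonneg_left _ hζ
      linarith
    linarith

/-- **the rounding step** -/
theorem round_step {R R' A A' f f' ζ δ c4 lam : ℝ} (hlam : 0 ≤ lam) (hζ : 0 ≤ ζ) (hζ1 : ζ ≤ 1)
    (hδ : 0 ≤ δ) (hc : 0 ≤ c4) (hA : |A| ≤ f) (hA' : |A'| ≤ f')
    (hR : R ≤ δ + R') (hd : |A - A'| ≤ δ)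
    (h1 : f ≤ (1 + ζ) * (f' + δ) + c4) (h2 : f' ≤ (1 + ζ) * (f + δ) + c4) :
    R + lam * (A ^ 2 / f + 2 * f) ≤ R' + lam * (A' ^ 2 / f' + 2 * f')
      + (δ + lam * (8 * δ + 3 * c4 + 3 * ζ * (2 * f' + 2 * δ + c4))) := by
  have hf : 0 ≤ f := (abs_nonneg _).trans hA
  have hf' : 0 ≤ f' := (abs_nonneg _).trans hA'
  have h3 := Phi_round hA hA'
  have h4 := F_round hζ hζ1 hδ hc hf hf' h1 h2
  have h5 : A ^ 2 / f + 2 * f ≤ A' ^ 2 / f' + 2 * f'
      + (8 * δ + 3 * c4 + 3 * ζ * (2 * f' + 2 * δ + c4)) := by nlinarith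
  have h6 := mul_le_mul_of_nonneg_left h5 hlam
  linarith

end lists

section tree

variable {S : ℕ → Type u} {M : ∀ h, S (h + 1) → Type v}

/-- **one epoch, pointwise, with a rounding step at every height** -/
theorem epoch_round (pc : ∀ h (x : S (h + 1)), M h x → List (S h)) (Ok : ∀ h, S h → Prop)
    {F a R V : ∀ h, S h → ℝ} {k1 κ s lam c CF kd κr κ₁ ρ : ℝ} {H : ℕ}
    (hFa : ∀ h y, Ok h y → |a h y| ≤ F h y) (hV0 : ∀ h y, Ok h y → 0 ≤ V h y)
    (hk1 : 0 ≤ k1) (hκ : 0 ≤ κ) (hs : 0 < s) (hs1 : s ≤ 1) (hc : 0 ≤ c) (hρ : 0 ≤ ρ)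
    (hlam : k1 * (1 + s ^ 2) ≤ lam * s ^ 2)
    (hκ₁ : κ * CF + (2 * lam + k1 / s) * kd + κr ≤ κ₁) (hκ₁0 : 0 ≤ κ₁)
    (hleaf : ∀ x, Ok 0 x → R 0 x + lam * Phi (F 0) (a 0) x ≤ (1 + c) * V 0 x)
    (hstep : ∀ h, h < H → ∀ x : S (h + 1), Ok (h + 1) x →
      R (h + 1) x + lam * Phi (F (h + 1)) (a (h + 1)) x ≤ (1 + c) * V (h + 1) x ∨
      ∃ x' : S (h + 1), ∃ m : M h x', ∃ d : ℝ,
        (∀ y ∈ pc h x' m, Ok h y) ∧ |a (h + 1) x'| ≤ F (h + 1) x' ∧
        R (h + 1) x + lam * Phi (F (h + 1)) (a (h + 1)) x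
          ≤ R (h + 1) x' + lam * Phi (F (h + 1)) (a (h + 1)) x' + κr * V (h + 1) x ∧
        ((pc h x' m).map (V h)).sum ≤ (1 + ρ) * V (h + 1) x ∧
        0 < F (h + 1) x' ∧ F (h + 1) x' ≤ CF * V (h + 1) x ∧
        0 ≤ d ∧ d ≤ kd * V (h + 1) x ∧
        ((pc h x' m).map (a h)).sum = a (h + 1) x' ∧
        F (h + 1) x' ≤ ((pc h x' m).map (F h)).sum + d ∧
        (En (F h) (a h) (a (h + 1) x' / F (h + 1) x') (pc h x' m) ≤ s ^ 2 * F (h + 1) x' →
          ((pc h x' m).map (F h)).sum - F (h + 1) x' ≤ s * F (h + 1) x' →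
          d ≤ s * F (h + 1) x' →
          R (h + 1) x' ≤ ((pc h x' m).map (R h)).sum + κ * F (h + 1) x') ∧
        R (h + 1) x' ≤ ((pc h x' m).map (R h)).sum
          + k1 * (F (h + 1) x' + max (((pc h x' m).map (F h)).sum - F (h + 1) x') 0)) :
    ∀ h, h ≤ H → ∀ x : S h, Ok h x →
      R h x + lam * Phi (F h) (a h) x ≤ (1 + ρ) ^ h * (1 + c + κ₁ * h) * V h x := by
  have hs2 : (0 : ℝ) < s ^ 2 := by positivity
  have hlk : k1 ≤ lam := by
    by_contra h
    push Not at h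
    nlinarith [mul_lt_mul_of_pos_right h hs2]
  have hlam0 : 0 ≤ lam := hk1.trans hlk
  have hq : 0 ≤ 2 * lam + k1 / s := add_nonneg (by linarith) (div_nonneg hk1 hs.le)
  have hρ1 : (1 : ℝ) ≤ 1 + ρ := by linarith
  intro h
  induction h with
  | zero => intro _ x hx; simpa using hleaf x hx
  | succ h ih =>
    intro hH x hx
    have hV := hV0 (h + 1) x hx
    have hcast : ((h + 1 : ℕ) : ℝ) = h + 1 := by push_cast; ring
    have hpow : (1 : ℝ) ≤ (1 + ρ) ^ (h + 1) := one_le_pow₀ hρ1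
    have hcc : 0 ≤ 1 + c + κ₁ * ((h : ℝ) + 1) := by positivity
    rcases hstep h (by omega) x hx with h1 |
        ⟨x', m, d, hok, hax, hr, hVm, hF0, hFV, hd0, hdV, hsum, hd, hnear, hall⟩
    · have h2 : (1 + c) * V (h + 1) x ≤ (1 + c + κ₁ * ((h : ℝ) + 1)) * V (h + 1) x := by
        have : 0 ≤ κ₁ * ((h : ℝ) + 1) * V (h + 1) x := by positivity
        nlinarith
      have h3 : (1 + c + κ₁ * ((h : ℝ) + 1)) * V (h + 1) x
          ≤ (1 + ρ) ^ (h + 1) * (1 + c + κ₁ * ((h : ℝ) + 1)) * V (h + 1) x := by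
        rw [mul_assoc]
        exact le_mul_of_one_le_left (mul_nonneg hcc hV) hpow
      rw [hcast]
      linarith
    · have hcl := closureL (R := R h) (F := F h) (a := a h) (Rx := R (h + 1) x') (pc h x' m)
        (fun y hy => hFa h y (hok y hy)) hax hF0 hd0 hk1 hκ hs hs1 hlam hsum hd hnear hall
      have hpow' : 0 ≤ (1 + ρ) ^ h * (1 + c + κ₁ * (h : ℝ)) := by positivity
      have h2 : ((pc h x' m).map fun y => R h y + lam * Phi (F h) (a h) y).sum
          ≤ (1 + ρ) ^ h * (1 + c + κ₁ * h) * ((pc h x' m).map (V h)).sum := by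
        have hall' : ∀ y ∈ pc h x' m, R h y + lam * Phi (F h) (a h) y
            ≤ (1 + ρ) ^ h * (1 + c + κ₁ * h) * V h y := fun y hy => ih (by omega) y (hok y hy)
        clear hVm hsum hd hnear hall hcl hok
        generalize pc h x' m = l at hall'
        induction l with
        | nil => simp
        | cons y l ihl =>
          simp only [List.map_cons, List.sum_cons]
          have h3 := hall' y (by simp)
          have h4 := ihl fun z hz => hall' z (by simp [hz])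
          nlinarith
      have h5 : (1 + ρ) ^ h * (1 + c + κ₁ * h) * ((pc h x' m).map (V h)).sum
          ≤ (1 + ρ) ^ h * (1 + c + κ₁ * h) * ((1 + ρ) * V (h + 1) x) :=
        mul_le_mul_of_nonneg_left hVm hpow'
      have h6 : κ * F (h + 1) x' + (2 * lam + k1 / s) * d + κr * V (h + 1) x
          ≤ κ₁ * V (h + 1) x := by
        have h7 : κ * F (h + 1) x' ≤ κ * (CF * V (h + 1) x) := mul_le_mul_of_nonneg_left hFV hκ
        have h8 : (2 * lam + k1 / s) * d ≤ (2 * lam + k1 / s) * (kd * V (h + 1) x) :=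
          mul_le_mul_of_nonneg_left hdV hq
        have h9 : (κ * CF + (2 * lam + k1 / s) * kd + κr) * V (h + 1) x ≤ κ₁ * V (h + 1) x :=
          mul_le_mul_of_nonneg_right hκ₁ hV
        linarith
      have h10 : κ₁ * V (h + 1) x ≤ (1 + ρ) ^ (h + 1) * (κ₁ * V (h + 1) x) :=
        le_mul_of_one_le_left (mul_nonneg hκ₁0 hV) hpow
      have h11 : (1 + ρ) ^ (h + 1) = (1 + ρ) ^ h * (1 + ρ) := pow_succ _ _
      rw [hcast]
      calc R (h + 1) x + lam * Phi (F (h + 1)) (a (h + 1)) x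
          ≤ (R (h + 1) x' + lam * Phi (F (h + 1)) (a (h + 1)) x') + κr * V (h + 1) x := hr
        _ ≤ ((pc h x' m).map fun y => R h y + lam * Phi (F h) (a h) y).sum
            + (κ * F (h + 1) x' + (2 * lam + k1 / s) * d) + κr * V (h + 1) x := by
            have : Phi (F (h + 1)) (a (h + 1)) x'
                = a (h + 1) x' ^ 2 / F (h + 1) x' + 2 * F (h + 1) x' := rfl
            rw [this]
            linarith
        _ ≤ (1 + ρ) ^ h * (1 + c + κ₁ * h) * ((1 + ρ) * V (h + 1) x)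
            + (1 + ρ) ^ (h + 1) * (κ₁ * V (h + 1) x) := by linarith
        _ = (1 + ρ) ^ (h + 1) * (1 + c + κ₁ * ((h : ℝ) + 1)) * V (h + 1) x := by
            rw [h11]; ring

/-- the same for `R` alone -/
theorem epoch_round_R (pc : ∀ h (x : S (h + 1)), M h x → List (S h)) (Ok : ∀ h, S h → Prop)
    {F a R V : ∀ h, S h → ℝ} {k1 κ s lam c CF kd κr κ₁ ρ : ℝ} {H : ℕ}
    (hFa : ∀ h y, Ok h y → |a h y| ≤ F h y) (hV0 : ∀ h y, Ok h y → 0 ≤ V h y)
    (hk1 : 0 ≤ k1) (hκ : 0 ≤ κ) (hs : 0 < s) (hs1 : s ≤ 1) (hc : 0 ≤ c) (hρ : 0 ≤ ρ)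
    (hlam : k1 * (1 + s ^ 2) ≤ lam * s ^ 2)
    (hκ₁ : κ * CF + (2 * lam + k1 / s) * kd + κr ≤ κ₁) (hκ₁0 : 0 ≤ κ₁)
    (hleaf : ∀ x, Ok 0 x → R 0 x + lam * Phi (F 0) (a 0) x ≤ (1 + c) * V 0 x)
    (hstep : ∀ h, h < H → ∀ x : S (h + 1), Ok (h + 1) x →
      R (h + 1) x + lam * Phi (F (h + 1)) (a (h + 1)) x ≤ (1 + c) * V (h + 1) x ∨
      ∃ x' : S (h + 1), ∃ m : M h x', ∃ d : ℝ,
        (∀ y ∈ pc h x' m, Ok h y) ∧ |a (h + 1) x'| ≤ F (h + 1) x' ∧
        R (h + 1) x + lam * Phi (F (h + 1)) (a (h + 1)) x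
          ≤ R (h + 1) x' + lam * Phi (F (h + 1)) (a (h + 1)) x' + κr * V (h + 1) x ∧
        ((pc h x' m).map (V h)).sum ≤ (1 + ρ) * V (h + 1) x ∧
        0 < F (h + 1) x' ∧ F (h + 1) x' ≤ CF * V (h + 1) x ∧
        0 ≤ d ∧ d ≤ kd * V (h + 1) x ∧
        ((pc h x' m).map (a h)).sum = a (h + 1) x' ∧
        F (h + 1) x' ≤ ((pc h x' m).map (F h)).sum + d ∧
        (En (F h) (a h) (a (h + 1) x' / F (h + 1) x') (pc h x' m) ≤ s ^ 2 * F (h + 1) x' →
          ((pc h x' m).map (F h)).sum - F (h + 1) x' ≤ s * F (h + 1) x' →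
          d ≤ s * F (h + 1) x' →
          R (h + 1) x' ≤ ((pc h x' m).map (R h)).sum + κ * F (h + 1) x') ∧
        R (h + 1) x' ≤ ((pc h x' m).map (R h)).sum
          + k1 * (F (h + 1) x' + max (((pc h x' m).map (F h)).sum - F (h + 1) x') 0))
    (h : ℕ) (hh : h ≤ H) (x : S h) (hx : Ok h x) :
    R h x ≤ (1 + ρ) ^ h * (1 + c + κ₁ * h) * V h x := by
  have hs2 : (0 : ℝ) < s ^ 2 := by positivity
  have hlk : k1 ≤ lam := by
    by_contra h
    push Not at h
    nlinarith [mul_lt_mul_of_pos_right h hs2]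
  have hlam0 : 0 ≤ lam := hk1.trans hlk
  have h1 := epoch_round pc Ok hFa hV0 hk1 hκ hs hs1 hc hρ hlam hκ₁ hκ₁0 hleaf hstep h hh x hx
  have h2 : 0 ≤ Phi (F h) (a h) x := by
    have h0 : 0 ≤ F h x := (abs_nonneg _).trans (hFa h x hx)
    exact add_nonneg (div_nonneg (sq_nonneg _) h0) (by linarith)
  have h3 := mul_nonneg hlam0 h2
  linarith

end tree

end Crest.Agent.R288.EpR232
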