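import Crest.Agent.R288.Ptw_641
import Crest.Agent.R288.AbovG_552

/-!
# R288 (S0433), STM-A: one epoch with ROUNDED states (helper330)

`Ptw641.Epoch` needs the one-window inequality at EVERY state.  The algorithm gives it only at grid
states (`Gr`), a general state `x` first pays the rounding.  `ER.main`: the claim of `Ptw641` in this
form, on an abstract state type `S` with a height `ht`.

* `ER` : the hypotheses (all real valued functions on the states `Ok`);
* `ER.main` : `R x + lam * pot ≤ cs (ht x) * G x` for every sequence `cs` with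
  `base ≤ cs 0`, `(1 + ρ B) * ((1 + η B) * cs h + κ1 * B) + ρ1 * B ≤ cs (h+1)`;
* `geo` : explicit choice of `cs`, `ER.le` : `R x ≤ (a + κ B) * G x`.
-/

set_option autoImplicit false

namespace Crest.Agent.R288.EpR330

open Finset Crest.Agent.R288.Ptw641

universe u v

variable {S : Type u} {M : Type v}

/-- the potential is Lipschitz -/
theorem pot_move {e F e' F' r : ℝ} (he : |e| ≤ F) (he' : |e'| ≤ F') (h1 : |e - e'| ≤ r)
    (h2 : |F - F'| ≤ r) : pot e F ≤ pot e' F' + 5 * r := by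
  have hF : 0 ≤ F := (abs_nonneg _).trans he
  have hF' : 0 ≤ F' := (abs_nonneg _).trans he'
  have h := AbovG552.persp_lip hF he hF' he'
  unfold pot
  have h3 := (abs_le.1 h2).2
  linarith

/-- What one epoch gives, with rounding of the states. `ρ` = rounding in units of `F`. -/
structure ER (ht : S → ℕ) (pc : S → M → List S) (Ok Gr : S → Prop) (Mv : S → M → Prop)
    (e G F Fp R : S → ℝ) (B b b0 δ lam η κd ζ k1 kK κ0 c0 ρ : ℝ) : Prop where
  ht_pc : ∀ x m, Ok x → 0 < ht x → Mv x m → ∀ y ∈ pc x m, Ok y ∧ ht y + 1 = ht x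
  e_sum : ∀ x m, Ok x → 0 < ht x → Mv x m → ((pc x m).map e).sum = e x
  eG : ∀ x, Ok x → |e x| ≤ G x
  GF : ∀ x, Ok x → G x ≤ F x
  FFp : ∀ x, Ok x → F x ≤ Fp x
  FpB : ∀ x, Ok x → Fp x ≤ B * G x
  F3 : ∀ x m, Ok x → 0 < ht x → Mv x m → F x ≤ (1 + ζ) * ((pc x m).map F).sum + κd * Fp x
  RF : ∀ x, Ok x → R x ≤ (1 + b) * F x
  leaf : ∀ x, Ok x → ht x = 0 → R x ≤ (1 + b0) * G x
  rnd : ∀ x, Ok x → 0 < ht x → ∃ z, Ok z ∧ Gr z ∧ ht z = ht x ∧ R x ≤ R z + ρ * F x ∧
    G z ≤ G x + ρ * F x ∧ |e x - e z| ≤ ρ * F x ∧ |F x - F z| ≤ ρ * F x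
  opt : ∀ x, Ok x → Gr x → 0 < ht x → ∃ m, Mv x m ∧ ((pc x m).map G).sum ≤ G x + η * Fp x ∧
    (|e x| ≤ (1 - 4 * δ) * F x →
      R x ≤ ((pc x m).map R).sum + κ0 * F x ∨
      (c0 * F x ≤ En (pc x m) e F (e x / F x) + max (((pc x m).map F).sum - F x) 0 ∧
        R x ≤ ((pc x m).map R).sum + k1 * F x + kK * ((pc x m).map F).sum))
  hB : 0 ≤ B
  hb : 0 ≤ b
  hb0 : 0 ≤ b0
  hδ : 0 ≤ δ
  hδ' : δ ≤ 1 / 20
  hη : 0 ≤ η
  hκd : 0 ≤ κd
  hζ : 0 ≤ ζ
  hκ0 : 0 ≤ κ0
  hkK : 0 ≤ kK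
  hlam : kK ≤ lam
  hlam1 : lam ≤ 1
  hρ : 0 ≤ ρ
  hc : k1 + kK ≤ (lam - kK) * c0

variable {ht : S → ℕ} {pc : S → M → List S} {Ok Gr : S → Prop} {Mv : S → M → Prop}
  {e G F Fp R : S → ℝ} {B b b0 δ lam η κd ζ k1 kK κ0 c0 ρ : ℝ}

/-- loss of one window relative to `B` -/
def kw (κ0 lam κd ζ : ℝ) : ℝ := κ0 + 2 * lam * (κd + ζ)

namespace ER

variable (E : ER ht pc Ok Gr Mv e G F Fp R B b b0 δ lam η κd ζ k1 kK κ0 c0 ρ)
include E

theorem G0 {x : S} (hx : Ok x) : 0 ≤ G x := (abs_nonneg _).trans (E.eG x hx)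
theorem F0 {x : S} (hx : Ok x) : 0 ≤ F x := (E.G0 hx).trans (E.GF x hx)
theorem Fp0 {x : S} (hx : Ok x) : 0 ≤ Fp x := (E.F0 hx).trans (E.FFp x hx)
theorem eF {x : S} (hx : Ok x) : |e x| ≤ F x := (E.eG x hx).trans (E.GF x hx)
theorem FB {x : S} (hx : Ok x) : F x ≤ B * G x := (E.FFp x hx).trans (E.FpB x hx)

/-- one window -/
theorem window {x : S} {m : M} (hx : Ok x) (hh : 0 < ht x) (hm : Mv x m)
    (hwin : R x ≤ ((pc x m).map R).sum + κ0 * F x ∨
      (c0 * F x ≤ En (pc x m) e F (e x / F x) + max (((pc x m).map F).sum - F x) 0 ∧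
        R x ≤ ((pc x m).map R).sum + k1 * F x + kK * ((pc x m).map F).sum)) :
    R x + lam * pot (e x) (F x)
      ≤ ((pc x m).map fun y => R y + lam * pot (e y) (F y)).sum + kw κ0 lam κd ζ * Fp x := by
  have hl : 0 ≤ lam := E.hkK.trans E.hlam
  have hok : ∀ y ∈ pc x m, Ok y := fun y hy => (E.ht_pc x m hx hh hm y hy).1
  set l := pc x m with hl'
  have hpf : ∀ y ∈ l, |e y| ≤ F y := fun y hy => E.eF (hok y hy)
  have hF := E.F0 hx
  have hFp := E.Fp0 hx
  have hFFp := E.FFp x hx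
  have hS0 : 0 ≤ (l.map F).sum := list_sum_nonneg l F fun y hy => E.F0 (hok y hy)
  have hF3 : F x ≤ (l.map F).sum + (κd + ζ) * Fp x := by
    have h := E.F3 x m hx hh hm
    have hζ := E.hζ
    rcases le_total ((l.map F).sum) (F x) with h1 | h1
    · have : ζ * (l.map F).sum ≤ ζ * Fp x := mul_le_mul_of_nonneg_left (h1.trans hFFp) hζ
      nlinarith
    · have h2 : 0 ≤ (κd + ζ) * Fp x := mul_nonneg (add_nonneg E.hκd hζ) hFp
      linarith
  have hd0 : 0 ≤ (κd + ζ) * Fp x := mul_nonneg (add_nonneg E.hκd E.hζ) hFp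
  have hps := pot_step l e F hpf (E.eF hx) (E.e_sum x m hx hh hm) hd0 hF3
  have hEn : 0 ≤ En l e F (e x / F x) := En_nonneg l _ _ _ fun y hy => E.F0 (hok y hy)
  set q := max ((l.map F).sum - F x) 0 with hq
  have hq0 : 0 ≤ q := le_max_right _ _
  have hqF : (l.map F).sum ≤ F x + q := by
    have : (l.map F).sum - F x ≤ q := le_max_left _ _
    linarith
  rw [list_sum_add, list_sum_mul]
  have hpm := mul_le_mul_of_nonneg_left hps hl
  unfold kw
  rcases hwin with hn | ⟨hfar, hR⟩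
  · have h1 : κ0 * F x ≤ κ0 * Fp x := mul_le_mul_of_nonneg_left hFFp E.hκ0
    have h2 : 0 ≤ lam * En l e F (e x / F x) := mul_nonneg hl hEn
    have h3 : 0 ≤ lam * q := mul_nonneg hl hq0
    nlinarith
  · have h1 : (k1 + kK) * F x ≤ (lam - kK) * c0 * F x := mul_le_mul_of_nonneg_right E.hc hF
    have h2 : (lam - kK) * (c0 * F x) ≤ (lam - kK) * (En l e F (e x / F x) + q) :=
      mul_le_mul_of_nonneg_left hfar (by linarith [E.hlam])
    have h3 : kK * (l.map F).sum ≤ kK * (F x + q) := mul_le_mul_of_nonneg_left hqF E.hkK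
    have h4 : 0 ≤ kK * En l e F (e x / F x) := mul_nonneg E.hkK hEn
    have h5 : 0 ≤ κ0 * Fp x := mul_nonneg E.hκ0 hFp
    nlinarith

/-- retired states -/
theorem retired {x : S} (hx : Ok x) (h : (1 - 4 * δ) * F x ≤ |e x|) :
    R x + lam * pot (e x) (F x) ≤ (1 + b + 3 * lam) * (1 + 5 * δ) * G x := by
  have hl : 0 ≤ lam := E.hkK.trans E.hlam
  have h1 := E.RF x hx
  have h2 := pot_le (E.eF hx)
  have h3 : R x + lam * pot (e x) (F x) ≤ (1 + b + 3 * lam) * F x := by nlinarith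
  have hb1 : 0 ≤ 1 + b + 3 * lam := by have := E.hb; positivity
  have h4 : (1 - 4 * δ) * F x ≤ G x := h.trans (E.eG x hx)
  have h5 : 1 ≤ (1 + 5 * δ) * (1 - 4 * δ) := by
    have := E.hδ; have := E.hδ'
    nlinarith
  have h6 : (1 + 5 * δ) * ((1 - 4 * δ) * F x) ≤ (1 + 5 * δ) * G x :=
    mul_le_mul_of_nonneg_left h4 (by have := E.hδ; positivity)
  have h7 : F x ≤ (1 + 5 * δ) * (1 - 4 * δ) * F x := by
    have := E.F0 hx
    nlinarith
  have h8 : F x ≤ (1 + 5 * δ) * G x := by linarith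
  calc R x + lam * pot (e x) (F x) ≤ _ := h3
    _ ≤ (1 + b + 3 * lam) * ((1 + 5 * δ) * G x) := mul_le_mul_of_nonneg_left h8 hb1
    _ = _ := by ring

/-- **The epoch theorem with rounded states.** -/
theorem main {cs : ℕ → ℝ} (h0 : 1 + b0 + 3 * lam * B ≤ cs 0)
    (hR : ∀ h, (1 + ρ * B) * ((1 + b + 3 * lam) * (1 + 5 * δ)) + 6 * ρ * B ≤ cs (h + 1))
    (hcs0 : ∀ h, 0 ≤ cs h)
    (hs : ∀ h, (1 + ρ * B) * ((1 + η * B) * cs h + kw κ0 lam κd ζ * B) + 6 * ρ * B ≤ cs (h + 1)) :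
    ∀ h x, Ok x → ht x = h → R x + lam * pot (e x) (F x) ≤ cs h * G x := by
  have hl : 0 ≤ lam := E.hkK.trans E.hlam
  have hρ := E.hρ
  have hB := E.hB
  have hkw : 0 ≤ kw κ0 lam κd ζ := by
    unfold kw
    have := E.hκ0; have := E.hκd; have := E.hζ
    positivity
  intro h
  induction h with
  | zero =>
    intro x hx hx0
    have h1 := E.leaf x hx hx0
    have h2 := pot_le (E.eF hx)
    have h3 := E.FB hx
    have hG := E.G0 hx
    have h4 : lam * pot (e x) (F x) ≤ 3 * lam * B * G x := by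
      calc lam * pot (e x) (F x) ≤ lam * (3 * (B * G x)) :=
            mul_le_mul_of_nonneg_left (h2.trans (by linarith)) hl
        _ = _ := by ring
    have h5 := mul_le_mul_of_nonneg_right h0 hG
    nlinarith
  | succ h ih =>
    -- grid states
    have grid : ∀ z, Ok z → Gr z → ht z = h + 1 → ∀ c, (1 + b + 3 * lam) * (1 + 5 * δ) ≤ c →
        (1 + η * B) * cs h + kw κ0 lam κd ζ * B ≤ c →
        R z + lam * pot (e z) (F z) ≤ c * G z := by
      intro z hz hgz hhz c hc1 hc2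
      have hGz := E.G0 hz
      by_cases hret : |e z| ≤ (1 - 4 * δ) * F z
      · obtain ⟨m, hm, hmG, hwin⟩ := E.opt z hz hgz (by omega)
        have h1 := E.window hz (by omega) hm (hwin hret)
        have hpcs := E.ht_pc z m hz (by omega) hm
        have h2 : ((pc z m).map fun y => R y + lam * pot (e y) (F y)).sum
            ≤ cs h * ((pc z m).map G).sum := by
          rw [← list_sum_mul]
          exact list_sum_le _ _ _ fun y hy => ih y (hpcs y hy).1 (by have := (hpcs y hy).2; omega)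
        have h3 : ((pc z m).map G).sum ≤ (1 + η * B) * G z := by
          have : η * Fp z ≤ η * (B * G z) := mul_le_mul_of_nonneg_left (E.FpB z hz) E.hη
          linarith
        have h4 := mul_le_mul_of_nonneg_left h3 (hcs0 h)
        have h5 : kw κ0 lam κd ζ * Fp z ≤ kw κ0 lam κd ζ * (B * G z) :=
          mul_le_mul_of_nonneg_left (E.FpB z hz) hkw
        have h6 := mul_le_mul_of_nonneg_right hc2 hGz
        nlinarith
      · push Not at hret
        exact (E.retired hz hret.le).trans (mul_le_mul_of_nonneg_right hc1 hGz)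
    intro x hx hhx
    obtain ⟨z, hz, hgz, hhz, hRz, hGz, hez, hFz⟩ := E.rnd x hx (by omega)
    set c := max ((1 + b + 3 * lam) * (1 + 5 * δ)) ((1 + η * B) * cs h + kw κ0 lam κd ζ * B)
      with hc
    have h1 := grid z hz hgz (by omega) c (le_max_left _ _) (le_max_right _ _)
    have h2 := pot_move (E.eF hx) (E.eF hz) hez hFz
    have hG := E.G0 hx
    have hFB := E.FB hx
    have hc0 : 0 ≤ c := by
      refine le_trans ?_ (le_max_left _ _)
      have := E.hb; have := E.hδ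
      positivity
    have h3 : c * G z ≤ c * (G x + ρ * F x) := mul_le_mul_of_nonneg_left hGz hc0
    have h4 : lam * pot (e x) (F x) ≤ lam * pot (e z) (F z) + 5 * (ρ * F x) := by
      have h5 := mul_le_mul_of_nonneg_left h2 hl
      have h6 : lam * (5 * (ρ * F x)) ≤ 1 * (5 * (ρ * F x)) :=
        mul_le_mul_of_nonneg_right E.hlam1 (by have := E.F0 hx; positivity)
      linarith
    have h7 : R x + lam * pot (e x) (F x) ≤ c * (G x + ρ * F x) + 6 * (ρ * F x) := by linarith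
    have h8 : ρ * F x ≤ ρ * B * G x := by
      rw [mul_assoc]
      exact mul_le_mul_of_nonneg_left hFB hρ
    have h9 : c * (G x + ρ * F x) + 6 * (ρ * F x) ≤ ((1 + ρ * B) * c + 6 * ρ * B) * G x := by
      have := mul_le_mul_of_nonneg_left h8 hc0
      nlinarith
    have h10 : (1 + ρ * B) * c + 6 * ρ * B ≤ cs (h + 1) := by
      rcases max_choice ((1 + b + 3 * lam) * (1 + 5 * δ))
        ((1 + η * B) * cs h + kw κ0 lam κd ζ * B) with h' | h'
      · rw [hc, h']; exact hR h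
      · rw [hc, h']; exact hs h
    exact h7.trans (h9.trans (mul_le_mul_of_nonneg_right h10 hG))

end ER

/-- explicit sequence: `cs h = q^h (a + k h)` -/
theorem geo {q a k s1 s2 s3 : ℝ} (hq : 1 ≤ q) (ha : 0 ≤ a) (hk : 0 ≤ k) (hs1 : s1 ≤ q)
    (hs2 : s2 ≤ k) (h : ℕ) (hs3 : s3 ≤ a) :
    s1 * (q ^ h * (a + k * h)) + s2 ≤ q ^ (h + 1) * (a + k * (h + 1 : ℕ)) ∧
      s3 ≤ q ^ (h + 1) * (a + k * (h + 1 : ℕ)) ∧ 0 ≤ q ^ h * (a + k * h) := by
  have hqh : 1 ≤ q ^ h := one_le_pow₀ hq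
  have hqh1 : 1 ≤ q ^ (h + 1) := one_le_pow₀ hq
  have h0 : 0 ≤ q ^ h * (a + k * h) := by positivity
  refine ⟨?_, ?_, h0⟩
  · have h1 : s1 * (q ^ h * (a + k * h)) ≤ q * (q ^ h * (a + k * h)) :=
      mul_le_mul_of_nonneg_right hs1 h0
    have h2 : s2 ≤ q ^ (h + 1) * k := hs2.trans (le_mul_of_one_le_left hk hqh1)
    have h3 : q ^ (h + 1) * (a + k * (h + 1 : ℕ)) = q * (q ^ h * (a + k * h)) + q ^ (h + 1) * k := by
      push_cast
      ring
    linarith
  · have h1 : a ≤ a + k * (h + 1 : ℕ) := by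
      have : 0 ≤ k * ((h + 1 : ℕ) : ℝ) := by positivity
      linarith
    have h2 : a + k * ((h + 1 : ℕ) : ℝ) ≤ q ^ (h + 1) * (a + k * (h + 1 : ℕ)) :=
      le_mul_of_one_le_left (by positivity) hqh1
    linarith

/-- **conclusion of an epoch**: `R ≤ (a + κ B) G` at all heights `≤ H` -/
theorem ER.le (E : ER ht pc Ok Gr Mv e G F Fp R B b b0 δ lam η κd ζ k1 kK κ0 c0 ρ) {H : ℕ}
    {q a κ t : ℝ} (hq1 : 1 ≤ q) (hq : (1 + ρ * B) * (1 + η * B) ≤ q)
    (ha1 : 1 + b0 ≤ a)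
    (ha2 : (1 + ρ * B) * ((1 + b + 3 * lam) * (1 + 5 * δ)) ≤ a)
    (hκ : (1 + ρ * B) * kw κ0 lam κd ζ + 6 * ρ + 3 * lam ≤ κ)
    (ht' : q ^ H ≤ t) :
    ∀ x, Ok x → ht x ≤ H → R x ≤ t * (a + κ * B * (H + 1)) * G x := by
  have hl : 0 ≤ lam := E.hkK.trans E.hlam
  have hB := E.hB
  have hρ := E.hρ
  have hkw : 0 ≤ kw κ0 lam κd ζ := by
    unfold kw
    have := E.hκ0; have := E.hκd; have := E.hζ
    positivity
  have hκ0' : 0 ≤ κ := le_trans (by positivity) hκ
  have ha : 0 ≤ a := le_trans (by have := E.hb0; positivity) ha1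
  have hkB : ((1 + ρ * B) * kw κ0 lam κd ζ + 6 * ρ + 3 * lam) * B ≤ κ * B :=
    mul_le_mul_of_nonneg_right hκ hB
  have hA : 0 ≤ a + κ * B := by positivity
  set cs : ℕ → ℝ := fun h => q ^ h * ((a + κ * B) + κ * B * h) with hcs
  have hg := fun h : ℕ => geo (q := q) (a := a + κ * B) (k := κ * B)
    (s1 := (1 + ρ * B) * (1 + η * B)) (s2 := (1 + ρ * B) * kw κ0 lam κd ζ * B + 6 * ρ * B)
    (s3 := (1 + ρ * B) * ((1 + b + 3 * lam) * (1 + 5 * δ)) + 6 * ρ * B) hq1 hA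
    (by positivity) hq (by
      have : 0 ≤ 3 * lam * B := by positivity
      nlinarith) h (by
      have : 0 ≤ 3 * lam * B := by positivity
      have h2 : 0 ≤ (1 + ρ * B) * kw κ0 lam κd ζ * B := by positivity
      nlinarith)
  have key := E.main (cs := cs) (by
      simp only [hcs, pow_zero, one_mul, Nat.cast_zero, mul_zero, add_zero]
      have h2 : 0 ≤ (1 + ρ * B) * kw κ0 lam κd ζ * B := by positivity
      have h3 : 0 ≤ 6 * ρ * B := by positivity
      nlinarith)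
    (fun h => (hg h).2.1) (fun h => (hg h).2.2) (fun h => by
      have := (hg h).1
      simp only [hcs]
      nlinarith)
  intro x hx hh
  have h1 := key (ht x) x hx rfl
  have h2 : 0 ≤ lam * pot (e x) (F x) := mul_nonneg hl (pot_nonneg (E.F0 hx))
  have hG := E.G0 hx
  have h3 : cs (ht x) ≤ t * (a + κ * B * (H + 1)) := by
    have h4 : q ^ (ht x) ≤ t := (pow_le_pow_right₀ hq1 hh).trans ht'
    have h5 : (a + κ * B) + κ * B * (ht x : ℝ) ≤ a + κ * B * (H + 1) := by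
      have : (ht x : ℝ) ≤ H := by exact_mod_cast hh
      have h6 : κ * B * (ht x : ℝ) ≤ κ * B * H := mul_le_mul_of_nonneg_left this (by positivity)
      linarith
    have h7 : 0 ≤ q ^ (ht x) := by positivity
    calc cs (ht x) = q ^ (ht x) * ((a + κ * B) + κ * B * (ht x : ℝ)) := rfl
      _ ≤ t * (a + κ * B * (H + 1)) :=
        mul_le_mul h4 h5 (by positivity) (h7.trans h4)
  have h8 := mul_le_mul_of_nonneg_right h3 hG
  linarith

end Crest.Agent.R288.EpR330
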