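import Crest.Agent.R288.PotA_245

/-!
# R288 (helper61): the epoch theorem with the ROUNDING STEP built in (ALG-U)

Target of WINSTM/CHAIN in the shape of `PotP245.epoch_bound_rho`, but

* no dependent types: `α` = states, `β` = pairs `(κ, z)` (scale, grid state), predicates
  `Ok h y` (state with `h` macro levels below it, inside the finite domain), `Ad h z` (admissible pair,
  `h + 1` macro levels below);
* the window inequalities (near / all / F3') are asked ONLY at pairs `z` (grid states, staircases with the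
  outer cuts of `z`), the pieces `y ∈ l` are arbitrary (off-grid) states;
* a state `y` is compared with ITS pair by one inequality
  `R y + λΦ(y) ≤ R' z + λΦ'(z) + kr V(y)`, `V'(z) ≤ (1+ρ) V(y)`
  (for `R y := dist y z + R' z` this is the Lipschitz bound `Phi_lip` of the potential);
* leaf / retired / expensive states: the alternative `R + λΦ ≤ (1+c) V` at a state or at a pair.

`epoch_pairs`   : `R + λΦ ≤ ((1+ρ)²)^h (1 + c + (κ₁+kr) h) V`.
`epoch_pairs_R` : the same for `R` alone.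
`Phi_lip`       : `a²/F + 2F ≤ a'²/F' + 2F' + 2|a-a'| + 3|F-F'|`.
`round_step`    : the rounding inequality from `dist`, approximate Lipschitz of `F` with an additive constant.
-/

set_option autoImplicit false

namespace Crest.Agent.R288.EpR61

open Crest.Agent.R288.PotF245 Crest.Agent.R288.PotA245

/-- **the potential is Lipschitz** in the displacement and in the cost -/
theorem Phi_lip {a F a' F' : ℝ} (h : |a| ≤ F) (h' : |a'| ≤ F') :
    a ^ 2 / F + 2 * F ≤ a' ^ 2 / F' + 2 * F' + 2 * |a - a'| + 3 * |F - F'| := by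
  have hF : 0 ≤ F := (abs_nonneg _).trans h
  have hF' : 0 ≤ F' := (abs_nonneg _).trans h'
  have hFF : F - F' ≤ |F - F'| := le_abs_self _
  rcases hF.eq_or_lt with h0 | h0
  · have : a = 0 := by
      rw [← h0] at h
      exact abs_eq_zero.1 (le_antisymm h (abs_nonneg _))
    rw [← h0, this]
    simp only [div_zero]
    have h1 : 0 ≤ a' ^ 2 / F' := div_nonneg (sq_nonneg _) hF'
    have h2 := abs_nonneg (0 - a')
    have h3 := abs_nonneg (0 - F')
    linarith
  · rcases hF'.eq_or_lt with h1 | h1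
    · have ha' : a' = 0 := by
        rw [← h1] at h'
        exact abs_eq_zero.1 (le_antisymm h' (abs_nonneg _))
      rw [← h1, ha']
      simp only [div_zero, sub_zero]
      have h2 : a ^ 2 / F ≤ |a| := by
        rw [div_le_iff₀ h0, ← sq_abs, sq]
        exact mul_le_mul_of_nonneg_left h (abs_nonneg _)
      have h3 : |F| = F := abs_of_pos h0
      rw [h3]
      have h4 := abs_nonneg a
      linarith
    · set t := a / F with ht
      have hat : a = t * F := by rw [ht]; field_simp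
      have ht1 : |t| ≤ 1 := by
        rw [ht, abs_div, abs_of_pos h0, div_le_one h0]
        exact h
      have e1 : a ^ 2 / F = 2 * t * a - t ^ 2 * F := by
        rw [hat]; field_simp; ring
      have e2 : 2 * t * a' - t ^ 2 * F' ≤ a' ^ 2 / F' := by
        rw [le_div_iff₀ h1]
        nlinarith [sq_nonneg (a' - t * F')]
      have e3 : 2 * t * a - 2 * t * a' ≤ 2 * |a - a'| := by
        have h2 : t * (a - a') ≤ |t| * |a - a'| := by
          rw [← abs_mul]
          exact le_abs_self _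
        have h3 : |t| * |a - a'| ≤ 1 * |a - a'| := mul_le_mul_of_nonneg_right ht1 (abs_nonneg _)
        nlinarith
      have e4 : t ^ 2 * F' - t ^ 2 * F ≤ |F - F'| := by
        have h2 : t ^ 2 ≤ 1 := by
          rw [← sq_abs]
          exact pow_le_one₀ (abs_nonneg _) ht1
        have h3 : F' - F ≤ |F - F'| := by
          rw [abs_sub_comm]
          exact le_abs_self _
        have h5 := abs_nonneg (F - F')
        nlinarith [sq_nonneg t]
      rw [e1]
      linarith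

/-- `closure'` for a list of admissible states -/
theorem closure_mem {α : Type*} {Ok : α → Prop} {F a R : α → ℝ} (hFa : ∀ y, Ok y → |a y| ≤ F y)
    {A Fx Rx d k1 κ s lam : ℝ}
    (hA : |A| ≤ Fx) (hx : 0 < Fx) (hd0 : 0 ≤ d) (hk1 : 0 ≤ k1) (hκ : 0 ≤ κ) (hs : 0 < s)
    (hs1 : s ≤ 1) (hlam : k1 * (1 + s ^ 2) ≤ lam * s ^ 2)
    (l : List α) (hl : ∀ y ∈ l, Ok y) (hsum : (l.map a).sum = A) (hd : Fx ≤ (l.map F).sum + d)
    (hnear : En F a (A / Fx) l ≤ s ^ 2 * Fx → (l.map F).sum - Fx ≤ s * Fx → d ≤ s * Fx →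
      Rx ≤ (l.map R).sum + κ * Fx)
    (hall : Rx ≤ (l.map R).sum + k1 * (Fx + max ((l.map F).sum - Fx) 0)) :
    Rx + lam * (A ^ 2 / Fx + 2 * Fx)
      ≤ (l.map fun y => R y + lam * Phi F a y).sum + (κ * Fx + (2 * lam + k1 / s) * d) := by
  obtain ⟨l', hl'⟩ : ∃ l' : List {y // Ok y}, l'.map Subtype.val = l :=
    ⟨l.pmap (fun y h => ⟨y, h⟩) hl, by rw [List.map_pmap]; simp⟩
  have e : ∀ f : α → ℝ, (l.map f).sum = (l'.map fun y => f y.1).sum := by
    intro f
    rw [← hl', List.map_map]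
    rfl
  have eE : ∀ θ, En F a θ l = En (fun y : {y // Ok y} => F y.1) (fun y => a y.1) θ l' := by
    intro θ
    unfold En
    rw [e]
  rw [e] at hsum hd hall ⊢
  rw [e R, eE, e F] at hnear
  rw [e F] at hall
  exact closure' (F := fun y : {y // Ok y} => F y.1) (a := fun y => a y.1) (R := fun y => R y.1)
    (fun y => hFa y.1 y.2) hA hx hd0 hk1 hκ hs hs1 hlam l' hsum hd hnear hall

section epoch

variable {α β : Type*} {Ok : ℕ → α → Prop} {Ad : ℕ → β → Prop}
  {F a R V : α → ℝ} {F' a' R' V' : β → ℝ} {k1 κ s lam c CF kd κ₁ kr ρ : ℝ}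

/-- **the epoch theorem, states and pairs** -/
theorem epoch_pairs
    (hFa : ∀ h y, Ok h y → |a y| ≤ F y) (hFa' : ∀ h z, Ad h z → |a' z| ≤ F' z)
    (hV0 : ∀ h y, Ok h y → 0 ≤ V y) (hV0' : ∀ h z, Ad h z → 0 ≤ V' z)
    (hk1 : 0 ≤ k1) (hκ : 0 ≤ κ) (hs : 0 < s) (hs1 : s ≤ 1) (hc : 0 ≤ c) (hρ : 0 ≤ ρ)
    (hkr : 0 ≤ kr)
    (hlam : k1 * (1 + s ^ 2) ≤ lam * s ^ 2) (hκ₁ : κ * CF + (2 * lam + k1 / s) * kd ≤ κ₁)
    (hκ₁0 : 0 ≤ κ₁)
    (hleaf : ∀ x, Ok 0 x → R x + lam * Phi F a x ≤ (1 + c) * V x)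
    (hround : ∀ h x, Ok (h + 1) x →
      R x + lam * Phi F a x ≤ (1 + c) * V x ∨
      ∃ z, Ad h z ∧ R x + lam * Phi F a x ≤ R' z + lam * Phi F' a' z + kr * V x ∧
        V' z ≤ (1 + ρ) * V x)
    (hstep : ∀ h z, Ad h z →
      R' z + lam * Phi F' a' z ≤ (1 + c) * V' z ∨
      ∃ l : List α, ∃ d : ℝ, (∀ y ∈ l, Ok h y) ∧ (l.map V).sum ≤ (1 + ρ) * V' z ∧
        0 < F' z ∧ F' z ≤ CF * V' z ∧ 0 ≤ d ∧ d ≤ kd * V' z ∧
        (l.map a).sum = a' z ∧ F' z ≤ (l.map F).sum + d ∧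
        (En F a (a' z / F' z) l ≤ s ^ 2 * F' z → (l.map F).sum - F' z ≤ s * F' z →
          d ≤ s * F' z → R' z ≤ (l.map R).sum + κ * F' z) ∧
        R' z ≤ (l.map R).sum + k1 * (F' z + max ((l.map F).sum - F' z) 0)) (h : ℕ) :
    ∀ x, Ok h x →
      R x + lam * Phi F a x ≤ ((1 + ρ) ^ 2) ^ h * (1 + c + (κ₁ + kr) * h) * V x := by
  have hs2 : (0 : ℝ) < s ^ 2 := by positivity
  have hlk : k1 ≤ lam := by
    by_contra h
    push Not at h
    nlinarith [mul_lt_mul_of_pos_right h hs2]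
  have hlam0 : 0 ≤ lam := hk1.trans hlk
  have hq : 0 ≤ 2 * lam + k1 / s := add_nonneg (by linarith) (div_nonneg hk1 hs.le)
  have hρ1 : (1 : ℝ) ≤ 1 + ρ := by linarith
  have hρ2 : (1 : ℝ) ≤ (1 + ρ) ^ 2 := one_le_pow₀ hρ1
  induction h with
  | zero =>
    intro x hx
    simpa using hleaf x hx
  | succ h ih =>
    intro x hx
    have hV := hV0 _ x hx
    have hcast : ((h + 1 : ℕ) : ℝ) = h + 1 := by push_cast; ring
    set T : ℝ := (1 + ρ) ^ 2 with hT
    have hpow' : (1 : ℝ) ≤ T ^ h := one_le_pow₀ hρ2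
    have hpow : (1 : ℝ) ≤ T ^ (h + 1) := one_le_pow₀ hρ2
    have hkk : 0 ≤ (κ₁ + kr) * (h : ℝ) := by positivity
    have hcc : 0 ≤ 1 + c + (κ₁ + kr) * ((h : ℝ) + 1) := by positivity
    have hch : 0 ≤ 1 + c + (κ₁ + kr) * (h : ℝ) := by positivity
    -- a bound of the pair
    have hpair : ∀ z, Ad h z → R' z + lam * Phi F' a' z
        ≤ T ^ h * (1 + ρ) * (1 + c + (κ₁ + kr) * h) * V' z + κ₁ * V' z := by
      intro z hz
      have hV' := hV0' h z hz
      rcases hstep h z hz with h1 | ⟨l, d, hok, hVm, hF0, hFV, hd0, hdV, hsum, hd, hnear, hall⟩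
      · refine h1.trans ?_
        have h2 : (1 + c) * V' z ≤ (1 + c + (κ₁ + kr) * h) * V' z :=
          mul_le_mul_of_nonneg_right (by linarith) hV'
        have h3 : (1 : ℝ) ≤ T ^ h * (1 + ρ) := by nlinarith
        have h4 : (1 + c + (κ₁ + kr) * h) * V' z
            ≤ T ^ h * (1 + ρ) * ((1 + c + (κ₁ + kr) * h) * V' z) :=
          le_mul_of_one_le_left (mul_nonneg hch hV') h3
        have h5 : 0 ≤ κ₁ * V' z := mul_nonneg hκ₁0 hV'
        calc (1 + c) * V' z ≤ _ := h2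
          _ ≤ _ := h4
          _ = T ^ h * (1 + ρ) * (1 + c + (κ₁ + kr) * h) * V' z := by ring
          _ ≤ _ := by linarith
      · have hcl := closure_mem (Ok := Ok h) (R := R) (fun y hy => hFa h y hy) (Rx := R' z)
          (d := d) (k1 := k1) (κ := κ) (s := s) (lam := lam) (hFa' h z hz) hF0 hd0 hk1 hκ hs hs1
          hlam l hok hsum hd hnear hall
        have h3 : 0 ≤ T ^ h * (1 + c + (κ₁ + kr) * h) := by positivity
        have h2 : (l.map fun y => R y + lam * Phi F a y).sum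
            ≤ T ^ h * (1 + c + (κ₁ + kr) * h) * (l.map V).sum := by
          clear hsum hd hnear hall hVm hcl
          induction l with
          | nil => simp
          | cons y l ihl =>
            simp only [List.map_cons, List.sum_cons]
            have h6 := ih y (hok y List.mem_cons_self)
            have h7 := ihl fun w hw => hok w (List.mem_cons_of_mem _ hw)
            rw [mul_add]
            exact add_le_add h6 h7
        have h4 := mul_le_mul_of_nonneg_left hVm h3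
        have h5 : κ * F' z + (2 * lam + k1 / s) * d ≤ κ₁ * V' z := by
          calc κ * F' z + (2 * lam + k1 / s) * d
              ≤ κ * (CF * V' z) + (2 * lam + k1 / s) * (kd * V' z) :=
                add_le_add (mul_le_mul_of_nonneg_left hFV hκ) (mul_le_mul_of_nonneg_left hdV hq)
            _ = (κ * CF + (2 * lam + k1 / s) * kd) * V' z := by ring
            _ ≤ _ := mul_le_mul_of_nonneg_right hκ₁ hV'
        have h6 : Phi F' a' z = a' z ^ 2 / F' z + 2 * F' z := rfl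
        rw [h6]
        calc _ ≤ _ := hcl
          _ ≤ T ^ h * (1 + c + (κ₁ + kr) * h) * ((1 + ρ) * V' z) + κ₁ * V' z := by linarith
          _ = _ := by ring
    rw [hcast]
    rcases hround h x hx with h1 | ⟨z, hz, h1, h2⟩
    · have h3 : (1 + c) * V x ≤ (1 + c + (κ₁ + kr) * ((h : ℝ) + 1)) * V x := by
        refine mul_le_mul_of_nonneg_right ?_ hV
        have : 0 ≤ (κ₁ + kr) * ((h : ℝ) + 1) := by positivity
        linarith
      have h4 : (1 + c + (κ₁ + kr) * ((h : ℝ) + 1)) * V x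
          ≤ T ^ (h + 1) * ((1 + c + (κ₁ + kr) * ((h : ℝ) + 1)) * V x) :=
        le_mul_of_one_le_left (mul_nonneg hcc hV) hpow
      calc _ ≤ _ := h1
        _ ≤ _ := h3
        _ ≤ _ := h4
        _ = _ := by ring
    · have h3 := hpair z hz
      have h4 : T ^ h * (1 + ρ) * (1 + c + (κ₁ + kr) * h) * V' z
          ≤ T ^ h * (1 + ρ) * (1 + c + (κ₁ + kr) * h) * ((1 + ρ) * V x) :=
        mul_le_mul_of_nonneg_left h2 (by positivity)
      have h5 : κ₁ * V' z ≤ κ₁ * ((1 + ρ) * V x) := mul_le_mul_of_nonneg_left h2 hκ₁0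
      have h6 : (1 + ρ) ≤ T ^ (h + 1) := by
        have h7 : (1 + ρ) ≤ T := by rw [hT]; nlinarith
        have h8 : T ≤ T ^ (h + 1) := le_self_pow₀ hρ2 (Nat.succ_ne_zero _)
        exact h7.trans h8
      have h9 : κ₁ * ((1 + ρ) * V x) + kr * V x ≤ T ^ (h + 1) * ((κ₁ + kr) * V x) := by
        have h10 : κ₁ * ((1 + ρ) * V x) ≤ T ^ (h + 1) * (κ₁ * V x) := by
          have := mul_le_mul_of_nonneg_right h6 (mul_nonneg hκ₁0 hV)
          calc κ₁ * ((1 + ρ) * V x) = (1 + ρ) * (κ₁ * V x) := by ring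
            _ ≤ _ := this
        have h11 : kr * V x ≤ T ^ (h + 1) * (kr * V x) :=
          le_mul_of_one_le_left (mul_nonneg hkr hV) hpow
        calc _ ≤ T ^ (h + 1) * (κ₁ * V x) + T ^ (h + 1) * (kr * V x) := add_le_add h10 h11
          _ = _ := by ring
      have e1 : T ^ h * (1 + ρ) * (1 + c + (κ₁ + kr) * h) * ((1 + ρ) * V x)
          = T ^ (h + 1) * ((1 + c + (κ₁ + kr) * h) * V x) := by
        rw [hT]; ring
      calc R x + lam * Phi F a x ≤ R' z + lam * Phi F' a' z + kr * V x := h1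
        _ ≤ T ^ (h + 1) * ((1 + c + (κ₁ + kr) * h) * V x)
            + (κ₁ * ((1 + ρ) * V x) + kr * V x) := by
          rw [← e1]; linarith
        _ ≤ T ^ (h + 1) * ((1 + c + (κ₁ + kr) * h) * V x) + T ^ (h + 1) * ((κ₁ + kr) * V x) := by
          linarith
        _ = _ := by ring

/-- the same, conclusion for `R` alone -/
theorem epoch_pairs_R
    (hFa : ∀ h y, Ok h y → |a y| ≤ F y) (hFa' : ∀ h z, Ad h z → |a' z| ≤ F' z)
    (hV0 : ∀ h y, Ok h y → 0 ≤ V y) (hV0' : ∀ h z, Ad h z → 0 ≤ V' z)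
    (hk1 : 0 ≤ k1) (hκ : 0 ≤ κ) (hs : 0 < s) (hs1 : s ≤ 1) (hc : 0 ≤ c) (hρ : 0 ≤ ρ)
    (hkr : 0 ≤ kr)
    (hlam : k1 * (1 + s ^ 2) ≤ lam * s ^ 2) (hκ₁ : κ * CF + (2 * lam + k1 / s) * kd ≤ κ₁)
    (hκ₁0 : 0 ≤ κ₁)
    (hleaf : ∀ x, Ok 0 x → R x + lam * Phi F a x ≤ (1 + c) * V x)
    (hround : ∀ h x, Ok (h + 1) x →
      R x + lam * Phi F a x ≤ (1 + c) * V x ∨
      ∃ z, Ad h z ∧ R x + lam * Phi F a x ≤ R' z + lam * Phi F' a' z + kr * V x ∧
        V' z ≤ (1 + ρ) * V x)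
    (hstep : ∀ h z, Ad h z →
      R' z + lam * Phi F' a' z ≤ (1 + c) * V' z ∨
      ∃ l : List α, ∃ d : ℝ, (∀ y ∈ l, Ok h y) ∧ (l.map V).sum ≤ (1 + ρ) * V' z ∧
        0 < F' z ∧ F' z ≤ CF * V' z ∧ 0 ≤ d ∧ d ≤ kd * V' z ∧
        (l.map a).sum = a' z ∧ F' z ≤ (l.map F).sum + d ∧
        (En F a (a' z / F' z) l ≤ s ^ 2 * F' z → (l.map F).sum - F' z ≤ s * F' z →
          d ≤ s * F' z → R' z ≤ (l.map R).sum + κ * F' z) ∧
        R' z ≤ (l.map R).sum + k1 * (F' z + max ((l.map F).sum - F' z) 0)) (h : ℕ) :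
    ∀ x, Ok h x → R x ≤ ((1 + ρ) ^ 2) ^ h * (1 + c + (κ₁ + kr) * h) * V x := by
  intro x hx
  have h1 := epoch_pairs hFa hFa' hV0 hV0' hk1 hκ hs hs1 hc hρ hkr hlam hκ₁ hκ₁0 hleaf hround
    hstep h x hx
  have hs2 : (0 : ℝ) < s ^ 2 := by positivity
  have hlk : k1 ≤ lam := by
    by_contra h
    push Not at h
    nlinarith [mul_lt_mul_of_pos_right h hs2]
  have h2 : 0 ≤ Phi F a x := by
    have h0 : 0 ≤ F x := (abs_nonneg _).trans (hFa h x hx)
    exact add_nonneg (div_nonneg (sq_nonneg _) h0) (by linarith)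
  have h3 : 0 ≤ lam * Phi F a x := mul_nonneg (hk1.trans hlk) h2
  linarith

end epoch

/-- two-sided approximate Lipschitz (factor `1 + ζ`, constant `C`): difference of two close costs -/
theorem abs_sub_le_of_alip {F F' δ ζ C : ℝ} (hF : 0 ≤ F) (hζ0 : 0 ≤ ζ) (hζ1 : ζ ≤ 1) (hδ : 0 ≤ δ)
    (hC : 0 ≤ C) (h1 : F ≤ (1 + ζ) * (F' + δ) + C) (h2 : F' ≤ (1 + ζ) * (F + δ) + C) :
    |F - F'| ≤ 2 * ζ * F + 4 * δ + 2 * C := by
  rw [abs_le]
  constructor
  · nlinarith [mul_nonneg hζ0 hF, mul_nonneg hζ0 hδ]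
  · have h3 : ζ * F' ≤ ζ * (2 * F + 2 * δ + C) := by
      refine mul_le_mul_of_nonneg_left ?_ hζ0
      nlinarith
    nlinarith [mul_nonneg hζ0 hF, mul_nonneg hζ0 hδ, mul_nonneg hζ0 hC]

/-- **the rounding step**: `x` and its grid state `z` (primes), `R x ≤ δ + R' z`, displacements within
`δ ≤ ε F`, costs approximately Lipschitz with factor `1 + ζ` and constant `C ≤ c' V`, `F ≤ B V` -/
theorem round_step {a F a' F' R R' V δ ζ C B lam ε c' kr : ℝ} (ha : |a| ≤ F) (ha' : |a'| ≤ F')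
    (hV : 0 ≤ V) (hlam : 0 ≤ lam) (hζ0 : 0 ≤ ζ) (hζ1 : ζ ≤ 1) (hδ0 : 0 ≤ δ) (hC : 0 ≤ C)
    (hε : 0 ≤ ε)
    (hd : |a - a'| ≤ δ) (hR : R ≤ δ + R')
    (h1 : F ≤ (1 + ζ) * (F' + δ) + C) (h2 : F' ≤ (1 + ζ) * (F + δ) + C)
    (hδ : δ ≤ ε * F) (hFB : F ≤ B * V) (hCV : C ≤ c' * V)
    (hkr : ((1 + 14 * lam) * ε + 6 * lam * ζ) * B + 6 * lam * c' ≤ kr) :
    R + lam * (a ^ 2 / F + 2 * F) ≤ R' + lam * (a' ^ 2 / F' + 2 * F') + kr * V := by
  have hF : 0 ≤ F := (abs_nonneg _).trans ha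
  have h3 := Phi_lip ha ha'
  have h4 := abs_sub_le_of_alip hF hζ0 hζ1 hδ0 hC h1 h2
  have h5 : a ^ 2 / F + 2 * F ≤ a' ^ 2 / F' + 2 * F' + (14 * δ + 6 * ζ * F + 6 * C) := by linarith
  have h6 := mul_le_mul_of_nonneg_left h5 hlam
  have h7 : (1 + 14 * lam) * δ ≤ (1 + 14 * lam) * (ε * F) :=
    mul_le_mul_of_nonneg_left hδ (by linarith)
  have h8 : ((1 + 14 * lam) * ε + 6 * lam * ζ) * F
      ≤ ((1 + 14 * lam) * ε + 6 * lam * ζ) * (B * V) :=
    mul_le_mul_of_nonneg_left hFB (by positivity)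
  have h9 : 6 * lam * C ≤ 6 * lam * (c' * V) := mul_le_mul_of_nonneg_left hCV (by linarith)
  have h10 := mul_le_mul_of_nonneg_right hkr hV
  nlinarith

end Crest.Agent.R288.EpR61
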