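import Crest.Agent.R288.PotA_245

/-!
# R288: one epoch of ALG-U, pointwise, in index form (helper179; posts 4672, 4628, 4686, 4732)

One type `S` of states with a height `ht`, a domain `Ok`, pieces `y 0 .. y (N-1)`. `F` = unit of the
epoch, `R` = mean arrival cost AT INTEGER STATES, `G` = exact cost, `a = v - u`. The window of `y` is
played at the rounded state `x` (on the grid of the class of `y`): its staircase starts at `x`, not
at `y`, `Rx` = mean cost at the pair of `x`, `ds = dist y x`.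

The defect `d` of `F` at `x` (`= η F_prev(x)` + rounding, up to `η B₀ F` in the early epochs) may be
large: the near inequality is only asked if `d ≤ s F(x)`.

* `closure_on` : `PotA245.closure'` with hypotheses only on the members of the list.
* `Phi_move` : `Φ(y) ≤ Φ(x) + 5 ds + 3 ζF`.
* `EpU.main` : **`R y + λ Φ y ≤ (1+ρ)^h (1 + c + 3 λ B + κ₁ h) G y`**.
* `EpU.le`, `chain3` : the recursion `B (e+2) ≤ a + q₁ B (e+1) + q₂ B e` and its limit.
-/

set_option autoImplicit false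

namespace Crest.Agent.R288.EpU179

open Finset

/-- energy of the pieces -/
noncomputable def En {S : Type*} (F a : S → ℝ) (θ : ℝ) (N : ℕ) (y : ℕ → S) : ℝ :=
  ∑ q ∈ range N, F (y q) * (a (y q) / F (y q) - θ) ^ 2

/-- the potential -/
noncomputable def Phi {S : Type*} (F a : S → ℝ) (y : S) : ℝ := a y ^ 2 / F y + 2 * F y

theorem sq_div_le {a F : ℝ} (h : |a| ≤ F) : a ^ 2 / F ≤ F := by
  have h0 : 0 ≤ F := (abs_nonneg _).trans h
  rcases h0.eq_or_lt with h1 | h1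
  · rw [← h1]; simp
  · rw [div_le_iff₀ h1, ← sq_abs]
    nlinarith [abs_nonneg a]

theorem Phi_nonneg {S : Type*} {F a : S → ℝ} {y : S} (h : |a y| ≤ F y) : 0 ≤ Phi F a y := by
  have h0 : 0 ≤ F y := (abs_nonneg _).trans h
  exact add_nonneg (div_nonneg (sq_nonneg _) h0) (by linarith)

theorem Phi_le {S : Type*} {F a : S → ℝ} {y : S} (h : |a y| ≤ F y) : Phi F a y ≤ 3 * F y := by
  have := sq_div_le h
  unfold Phi
  linarith

/-- tangent inequality of the perspective function -/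
theorem persp {a F t : ℝ} (h : |a| ≤ F) : 2 * t * a - t ^ 2 * F ≤ a ^ 2 / F := by
  have hF : 0 ≤ F := (abs_nonneg _).trans h
  rcases hF.eq_or_lt with h0 | h0
  · rw [← h0] at h ⊢
    have : a = 0 := abs_eq_zero.1 (le_antisymm h (abs_nonneg _))
    simp [this]
  · rw [le_div_iff₀ h0]
    nlinarith [sq_nonneg (a - t * F)]

/-- moving a state changes the potential by the distance -/
theorem Phi_move {a F a' F' ds z : ℝ} (h : |a| ≤ F) (h' : |a'| ≤ F') (hF : 0 < F)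
    (ha : |a - a'| ≤ ds) (h1 : F ≤ F' + ds + z) (h2 : F' ≤ F + ds + z) :
    a ^ 2 / F + 2 * F ≤ a' ^ 2 / F' + 2 * F' + 5 * ds + 3 * z := by
  have hp := persp (t := a / F) h'
  have ht : |a / F| ≤ 1 := by
    rw [abs_div, abs_of_pos hF]
    exact div_le_one_of_le₀ h hF.le
  have e1 : a ^ 2 / F = 2 * (a / F) * a - (a / F) ^ 2 * F := by field_simp; ring
  rw [e1]
  set t := a / F with htd
  have h3 : t * (a - a') ≤ ds := by
    calc t * (a - a') ≤ |t * (a - a')| := le_abs_self _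
      _ = |t| * |a - a'| := abs_mul _ _
      _ ≤ 1 * |a - a'| := mul_le_mul_of_nonneg_right ht (abs_nonneg _)
      _ ≤ ds := by linarith
  have h4 : t ^ 2 ≤ 1 := by
    rw [← sq_abs]
    exact pow_le_one₀ (abs_nonneg _) ht
  have h5 : t ^ 2 * (F' - F) ≤ ds + z := by
    rcases le_total F' F with h6 | h6
    · have : t ^ 2 * (F' - F) ≤ 0 := mul_nonpos_of_nonneg_of_nonpos (sq_nonneg _) (by linarith)
      have hds : 0 ≤ ds := (abs_nonneg _).trans ha
      have : 0 ≤ ds + z := by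
        by_contra hcon
        push Not at hcon
        linarith
      linarith
    · have : t ^ 2 * (F' - F) ≤ 1 * (F' - F) := mul_le_mul_of_nonneg_right h4 (by linarith)
      linarith
  nlinarith

/-- 744's identity, index form -/
theorem En_eq {S : Type*} {F a : S → ℝ} (θ : ℝ) (N : ℕ) (y : ℕ → S)
    (h : ∀ q < N, |a (y q)| ≤ F (y q)) :
    En F a θ N y = ∑ q ∈ range N, a (y q) ^ 2 / F (y q) - 2 * θ * ∑ q ∈ range N, a (y q)
      + θ ^ 2 * ∑ q ∈ range N, F (y q) := by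
  unfold En
  rw [mul_sum, mul_sum, ← sum_sub_distrib, ← sum_add_distrib]
  refine sum_congr rfl fun q hq => ?_
  have h1 := h q (mem_range.1 hq)
  rcases eq_or_ne (F (y q)) 0 with h0 | h0
  · rw [h0] at h1
    have : a (y q) = 0 := abs_eq_zero.1 (le_antisymm h1 (abs_nonneg _))
    simp [h0, this]
  · field_simp
    ring

theorem En_nonneg {S : Type*} {F a : S → ℝ} (θ : ℝ) (N : ℕ) (y : ℕ → S)
    (h : ∀ q < N, |a (y q)| ≤ F (y q)) : 0 ≤ En F a θ N y :=
  sum_nonneg fun q hq => mul_nonneg ((abs_nonneg _).trans (h q (mem_range.1 hq))) (sq_nonneg _)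

/-- **the potential grows along every staircase** up to twice the defect -/
theorem Phi_step {S : Type*} {F a : S → ℝ} {N : ℕ} {y : ℕ → S}
    (h : ∀ q < N, |a (y q)| ≤ F (y q)) {A Fx d : ℝ} (hA : |A| ≤ Fx) (hx : 0 < Fx)
    (hsum : ∑ q ∈ range N, a (y q) = A) (hd0 : 0 ≤ d) (hd : Fx ≤ ∑ q ∈ range N, F (y q) + d) :
    A ^ 2 / Fx + 2 * Fx + En F a (A / Fx) N y + max (∑ q ∈ range N, F (y q) - Fx) 0 - 2 * d
      ≤ ∑ q ∈ range N, Phi F a (y q) := by
  have e0 : ∑ q ∈ range N, Phi F a (y q)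
      = ∑ q ∈ range N, a (y q) ^ 2 / F (y q) + 2 * ∑ q ∈ range N, F (y q) := by
    unfold Phi
    rw [sum_add_distrib, mul_sum]
  rw [e0, En_eq _ _ _ h, hsum]
  set D : ℝ := ∑ q ∈ range N, F (y q) - Fx with hD
  have hDs : ∑ q ∈ range N, F (y q) = Fx + D := by rw [hD]; ring
  rw [hDs]
  have hθ : (A / Fx) ^ 2 ≤ 1 := by
    rw [div_pow, div_le_one (by positivity), ← sq_abs]
    exact pow_le_pow_left₀ (abs_nonneg _) hA 2
  have hθ0 : 0 ≤ (A / Fx) ^ 2 := sq_nonneg _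
  have e1 : A ^ 2 / Fx = (A / Fx) ^ 2 * Fx := by field_simp
  have e2 : 2 * (A / Fx) * A = 2 * ((A / Fx) ^ 2 * Fx) := by field_simp
  rw [e1, e2]
  have hD' : -d ≤ D := by linarith
  have key : (A / Fx) ^ 2 * D + max D 0 - 2 * d ≤ 2 * D := by
    rcases le_total 0 D with h | h
    · rw [max_eq_left h]
      nlinarith
    · rw [max_eq_right h]
      nlinarith [mul_nonneg hθ0 (neg_nonneg.2 h)]
  nlinarith

/-- **closure at one state**: near staircases (small energy, drift AND defect) lose `κ Fx`, all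
staircases lose `k1 (Fx + drift⁺)` -/
theorem closure_on {S : Type*} {F a R : S → ℝ} {N : ℕ} {y : ℕ → S}
    (hFa : ∀ q < N, |a (y q)| ≤ F (y q)) {A Fx Rx d k1 κ s lam : ℝ}
    (hA : |A| ≤ Fx) (hx : 0 < Fx) (hd0 : 0 ≤ d) (hk1 : 0 ≤ k1) (hκ : 0 ≤ κ) (hs : 0 < s)
    (hs1 : s ≤ 1) (hlam : k1 * (1 + s ^ 2) ≤ lam * s ^ 2)
    (hsum : ∑ q ∈ range N, a (y q) = A) (hd : Fx ≤ ∑ q ∈ range N, F (y q) + d)
    (hnear : En F a (A / Fx) N y ≤ s ^ 2 * Fx → ∑ q ∈ range N, F (y q) - Fx ≤ s * Fx →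
      d ≤ s * Fx → Rx ≤ ∑ q ∈ range N, R (y q) + κ * Fx)
    (hall : Rx ≤ ∑ q ∈ range N, R (y q) + k1 * (Fx + max (∑ q ∈ range N, F (y q) - Fx) 0)) :
    Rx + lam * (A ^ 2 / Fx + 2 * Fx)
      ≤ ∑ q ∈ range N, (R (y q) + lam * Phi F a (y q)) + (κ * Fx + (2 * lam + k1 / s) * d) := by
  have hs2 : (0 : ℝ) < s ^ 2 := by positivity
  have hlk : k1 ≤ lam := by
    by_contra h
    push Not at h
    nlinarith [mul_lt_mul_of_pos_right h hs2]
  have hlam0 : 0 ≤ lam := hk1.trans hlk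
  have hs2' : s ^ 2 ≤ s := by nlinarith
  have hP := Phi_step hFa hA hx hsum hd0 hd
  have hE := En_nonneg (F := F) (a := a) (A / Fx) N y hFa
  have hP' := mul_le_mul_of_nonneg_left hP hlam0
  rw [sum_add_distrib, ← mul_sum]
  have hm : 0 ≤ max (∑ q ∈ range N, F (y q) - Fx) 0 := le_max_right _ _
  have hmle : ∑ q ∈ range N, F (y q) - Fx ≤ max (∑ q ∈ range N, F (y q) - Fx) 0 := le_max_left _ _
  generalize max (∑ q ∈ range N, F (y q) - Fx) 0 = D at *
  generalize En F a (A / Fx) N y = E at *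
  have hks : 0 ≤ k1 / s * d := mul_nonneg (div_nonneg hk1 hs.le) hd0
  by_cases hdd : d ≤ s * Fx
  · by_cases hn : E ≤ s ^ 2 * Fx ∧ ∑ q ∈ range N, F (y q) - Fx ≤ s * Fx
    · have h1 := hnear hn.1 hn.2 hdd
      nlinarith [mul_nonneg hlam0 hE, mul_nonneg hlam0 hm]
    · have h2 : s ^ 2 * Fx ≤ E + D := by
        by_contra hc
        push Not at hc
        apply hn
        constructor
        · linarith
        · nlinarith
      have h4 : k1 * (Fx + D) ≤ lam * (E + D) := by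
        have h5 : 0 ≤ lam - k1 := by linarith
        have h6 : (lam - k1) * (s ^ 2 * Fx) ≤ (lam - k1) * (E + D) :=
          mul_le_mul_of_nonneg_left h2 h5
        have h7 : k1 * Fx ≤ (lam - k1) * (s ^ 2 * Fx) := by
          have : k1 ≤ (lam - k1) * s ^ 2 := by nlinarith
          calc k1 * Fx ≤ ((lam - k1) * s ^ 2) * Fx := mul_le_mul_of_nonneg_right this hx.le
            _ = _ := by ring
        nlinarith [mul_nonneg hk1 hE]
      nlinarith [mul_nonneg hκ hx.le]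
  · push Not at hdd
    have h3 : k1 * Fx ≤ k1 / s * d := by
      rw [div_mul_eq_mul_div, le_div_iff₀ hs]
      nlinarith [mul_le_mul_of_nonneg_left hdd.le hk1]
    nlinarith [mul_nonneg hκ hx.le, mul_nonneg (sub_nonneg.2 hlk) hm, mul_nonneg hlam0 hE]

/-- numerical parameters of an epoch: `B` = factor of the unit `F`, `κ` regret of a near window, `k1`
of a far one, `s` threshold, `lam` potential, `ρ` comparator on the grid, `ε` rounding of a state,
`ζ` multiplicative Lipschitz error, `kd` defect, `c` stop -/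
structure Par where
  B : ℝ
  κ : ℝ
  k1 : ℝ
  s : ℝ
  lam : ℝ
  ρ : ℝ
  ε : ℝ
  ζ : ℝ
  kd : ℝ
  c : ℝ

namespace Par

variable (p : Par)

structure Ok : Prop where
  B0 : 0 ≤ p.B
  κ0 : 0 ≤ p.κ
  k10 : 0 ≤ p.k1
  s0 : 0 < p.s
  s1 : p.s ≤ 1
  lam1 : p.k1 * (1 + p.s ^ 2) ≤ p.lam * p.s ^ 2
  ρ0 : 0 ≤ p.ρ
  ε0 : 0 ≤ p.ε
  ζ0 : 0 ≤ p.ζ
  kd0 : 0 ≤ p.kd
  c0 : 0 ≤ p.c

/-- loss per window -/
noncomputable def κ₁ : ℝ :=
  (1 + 5 * p.lam) * p.ε + 3 * p.lam * p.ζ * p.B + p.κ * ((1 + p.ζ) * p.B + p.ε)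
    + (2 * p.lam + p.k1 / p.s) * p.kd

variable {p}

theorem Ok.k1_le (h : p.Ok) : p.k1 ≤ p.lam := by
  have hs2 : (0 : ℝ) < p.s ^ 2 := by have := h.s0; positivity
  by_contra hc
  push Not at hc
  nlinarith [mul_lt_mul_of_pos_right hc hs2, h.lam1, mul_nonneg h.k10 hs2.le, h.k10]

theorem Ok.lam0 (h : p.Ok) : 0 ≤ p.lam := h.k10.trans h.k1_le

theorem Ok.κ₁0 (h : p.Ok) : 0 ≤ p.κ₁ := by
  have := h.lam0
  have := h.B0
  have := h.κ0
  have := h.k10
  have := h.s0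
  have := h.ε0
  have := h.ζ0
  have := h.kd0
  unfold κ₁
  positivity

end Par

/-- **What one epoch of ALG-U gives at single states** -/
structure EpU {S : Type*} (ht : S → ℕ) (Ok : S → Prop) (N : ℕ) (a G F R : S → ℝ) (p : Par) :
    Prop where
  aG : ∀ y, Ok y → |a y| ≤ G y
  GF : ∀ y, Ok y → G y ≤ F y
  FB : ∀ y, Ok y → F y ≤ p.B * G y
  /-- stop: leaf (any height), height `0`, retired states, free states -/
  step : ∀ y, Ok y → R y ≤ (1 + p.c) * G y ∨
    0 < F y ∧ 0 < ht y ∧ ∃ (x : S) (Rx ds d : ℝ) (z : ℕ → S), Ok x ∧ 0 < F x ∧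
      (∀ q < N, Ok (z q) ∧ ht (z q) + 1 = ht y) ∧
      R y ≤ ds + Rx ∧ |a y - a x| ≤ ds ∧ ds ≤ p.ε * G y ∧
      F y ≤ F x + ds + p.ζ * F y ∧ F x ≤ F y + ds + p.ζ * F y ∧
      ∑ q ∈ range N, a (z q) = a x ∧
      ∑ q ∈ range N, G (z q) ≤ (1 + p.ρ) * G y ∧
      0 ≤ d ∧ d ≤ p.kd * G y ∧ F x ≤ ∑ q ∈ range N, F (z q) + d ∧
      (En F a (a x / F x) N z ≤ p.s ^ 2 * F x → ∑ q ∈ range N, F (z q) - F x ≤ p.s * F x →
        d ≤ p.s * F x → Rx ≤ ∑ q ∈ range N, R (z q) + p.κ * F x) ∧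
      Rx ≤ ∑ q ∈ range N, R (z q) + p.k1 * (F x + max (∑ q ∈ range N, F (z q) - F x) 0)

namespace EpU

variable {S : Type*} {ht : S → ℕ} {Ok : S → Prop} {N : ℕ} {a G F R : S → ℝ} {p : Par}

/-- **the epoch theorem** -/
theorem main (E : EpU ht Ok N a G F R p) (hp : p.Ok) : ∀ h y, ht y = h → Ok y →
    R y + p.lam * Phi F a y
      ≤ (1 + p.ρ) ^ h * (1 + p.c + 3 * p.lam * p.B + p.κ₁ * h) * G y := by
  have hlam := hp.lam0
  have hκ₁ := hp.κ₁0
  have hB := hp.B0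
  have hρ1 : (1 : ℝ) ≤ 1 + p.ρ := by have := hp.ρ0; linarith
  have hG0 : ∀ y, Ok y → 0 ≤ G y := fun y hy => (abs_nonneg _).trans (E.aG y hy)
  have hFa : ∀ y, Ok y → |a y| ≤ F y := fun y hy => (E.aG y hy).trans (E.GF y hy)
  have hstop : ∀ (h : ℕ) (y : S), Ok y → R y ≤ (1 + p.c) * G y → R y + p.lam * Phi F a y
      ≤ (1 + p.ρ) ^ h * (1 + p.c + 3 * p.lam * p.B + p.κ₁ * h) * G y := by
    intro h y hy hR
    have h1 := mul_le_mul_of_nonneg_left (Phi_le (hFa y hy)) hlam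
    have h2 := mul_le_mul_of_nonneg_left (E.FB y hy) (mul_nonneg (by norm_num : (0:ℝ) ≤ 3) hlam)
    have h3 : 0 ≤ p.κ₁ * h * G y := by have := hG0 y hy; positivity
    have h4 : R y + p.lam * Phi F a y ≤ (1 + p.c + 3 * p.lam * p.B + p.κ₁ * h) * G y := by
      nlinarith
    have h5 : (1 : ℝ) ≤ (1 + p.ρ) ^ h := one_le_pow₀ hρ1
    have h6 : 0 ≤ (1 + p.c + 3 * p.lam * p.B + p.κ₁ * h) * G y := by
      have := hG0 y hy
      have := hp.c0
      positivity
    calc _ ≤ _ := h4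
      _ ≤ (1 + p.ρ) ^ h * ((1 + p.c + 3 * p.lam * p.B + p.κ₁ * h) * G y) :=
        le_mul_of_one_le_left h6 h5
      _ = _ := by ring
  intro h
  induction h with
  | zero =>
    intro y hy hok
    rcases E.step y hok with h1 | ⟨_, h1, _⟩
    · exact hstop 0 y hok h1
    · omega
  | succ h ih =>
    intro y hy hok
    rcases E.step y hok with h1 | ⟨hFy, _, x, Rx, ds, d, z, hx, hFx, hz, hR, hax, hds, hF1, hF2,
      hsa, hsG, hd0, hdG, hdF, hnear, hall⟩
    · exact hstop (h + 1) y hok h1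
    · have hGy := hG0 y hok
      have hcl := closure_on (R := R) (fun q hq => hFa (z q) (hz q hq).1) (hFa x hx) hFx hd0
        hp.k10 hp.κ0 hp.s0 hp.s1 hp.lam1 hsa hdF hnear hall
      have hmv := Phi_move (ds := ds) (z := p.ζ * F y) (hFa y hok) (hFa x hx) hFy hax
        (by linarith) (by linarith)
      have hmv' := mul_le_mul_of_nonneg_left hmv hlam
      have hsum : ∑ q ∈ range N, (R (z q) + p.lam * Phi F a (z q))
          ≤ (1 + p.ρ) ^ h * (1 + p.c + 3 * p.lam * p.B + p.κ₁ * h) * ∑ q ∈ range N, G (z q) := by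
        rw [mul_sum]
        exact sum_le_sum fun q hq => ih (z q) (by have := (hz q (mem_range.1 hq)).2; omega)
          (hz q (mem_range.1 hq)).1
      set P := (1 + p.ρ) ^ h with hP
      have hP1 : (1 : ℝ) ≤ P := one_le_pow₀ hρ1
      set C := 1 + p.c + 3 * p.lam * p.B + p.κ₁ * h with hC
      have hC0 : 0 ≤ C := by
        have := hp.c0
        rw [hC]
        positivity
      have h2 : P * C * ∑ q ∈ range N, G (z q) ≤ P * C * ((1 + p.ρ) * G y) :=
        mul_le_mul_of_nonneg_left hsG (by positivity)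
      have hζ := hp.ζ0
      have hFyB := E.FB y hok
      -- the loss of this window
      have h3 : p.κ * F x ≤ p.κ * (((1 + p.ζ) * p.B + p.ε) * G y) := by
        refine mul_le_mul_of_nonneg_left ?_ hp.κ0
        have : p.ζ * F y ≤ p.ζ * (p.B * G y) := mul_le_mul_of_nonneg_left hFyB hζ
        nlinarith
      have h4 : (2 * p.lam + p.k1 / p.s) * d ≤ (2 * p.lam + p.k1 / p.s) * (p.kd * G y) :=
        mul_le_mul_of_nonneg_left hdG (add_nonneg (by linarith) (div_nonneg hp.k10 hp.s0.le))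
      have h5 : (1 + 5 * p.lam) * ds ≤ (1 + 5 * p.lam) * (p.ε * G y) :=
        mul_le_mul_of_nonneg_left hds (by linarith)
      have h6 : 3 * p.lam * (p.ζ * F y) ≤ 3 * p.lam * (p.ζ * (p.B * G y)) :=
        mul_le_mul_of_nonneg_left (mul_le_mul_of_nonneg_left hFyB hζ) (by linarith)
      have h7 : R y + p.lam * Phi F a y ≤ P * C * ((1 + p.ρ) * G y) + p.κ₁ * G y := by
        have e1 : p.κ₁ * G y = (1 + 5 * p.lam) * (p.ε * G y) + 3 * p.lam * (p.ζ * (p.B * G y))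
            + p.κ * (((1 + p.ζ) * p.B + p.ε) * G y)
            + (2 * p.lam + p.k1 / p.s) * (p.kd * G y) := by
          unfold Par.κ₁
          ring
        have e2 : Phi F a y = a y ^ 2 / F y + 2 * F y := rfl
        rw [e1, e2]
        have e3 : p.lam * (a x ^ 2 / F x + 2 * F x + 5 * ds + 3 * (p.ζ * F y))
            = p.lam * (a x ^ 2 / F x + 2 * F x) + 5 * p.lam * ds + 3 * p.lam * (p.ζ * F y) := by
          ring
        rw [e3] at hmv'
        have e4 : (1 + 5 * p.lam) * ds = ds + 5 * p.lam * ds := by ring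
        rw [e4] at h5
        linarith
      have h8 : p.κ₁ * G y ≤ P * (1 + p.ρ) * (p.κ₁ * G y) := by
        have h9 : 0 ≤ p.κ₁ * G y := mul_nonneg hκ₁ hGy
        exact le_mul_of_one_le_left h9 (by nlinarith)
      calc R y + p.lam * Phi F a y ≤ P * C * ((1 + p.ρ) * G y) + p.κ₁ * G y := h7
        _ ≤ P * C * ((1 + p.ρ) * G y) + P * (1 + p.ρ) * (p.κ₁ * G y) := by linarith
        _ = _ := by
          rw [hC, hP, pow_succ]
          push_cast
          ring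

/-- conclusion for `R` alone at all heights `≤ H` -/
theorem le (E : EpU ht Ok N a G F R p) (hp : p.Ok) {H : ℕ} {C : ℝ}
    (hC : (1 + p.ρ) ^ H * (1 + p.c + 3 * p.lam * p.B + p.κ₁ * H) ≤ C) {y : S} (hy : ht y ≤ H)
    (hok : Ok y) : R y ≤ C * G y := by
  have h1 := E.main hp (ht y) y rfl hok
  have hFa : |a y| ≤ F y := (E.aG y hok).trans (E.GF y hok)
  have h2 := mul_nonneg hp.lam0 (Phi_nonneg (F := F) (a := a) hFa)
  have hG : 0 ≤ G y := (abs_nonneg _).trans (E.aG y hok)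
  have hρ : (1 : ℝ) ≤ 1 + p.ρ := by have := hp.ρ0; linarith
  have h3 : (1 + p.ρ) ^ ht y ≤ (1 + p.ρ) ^ H := pow_le_pow_right₀ hρ hy
  have h4 : 1 + p.c + 3 * p.lam * p.B + p.κ₁ * (ht y : ℝ)
      ≤ 1 + p.c + 3 * p.lam * p.B + p.κ₁ * H := by
    have : (ht y : ℝ) ≤ H := by exact_mod_cast hy
    have := mul_le_mul_of_nonneg_left this hp.κ₁0
    linarith
  have h5 : 0 ≤ 1 + p.c + 3 * p.lam * p.B + p.κ₁ * (ht y : ℝ) := by
    have := hp.lam0
    have := hp.B0
    have := hp.κ₁0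
    have := hp.c0
    positivity
  have h6 : (1 + p.ρ) ^ ht y * (1 + p.c + 3 * p.lam * p.B + p.κ₁ * (ht y : ℝ)) ≤ C :=
    (mul_le_mul h3 h4 h5 (by positivity)).trans hC
  have := mul_le_mul_of_nonneg_right h6 hG
  linarith

end EpU

/-- `κ₁` is affine in the two factors: `B` and `Bp` (`kd = k₀ + η Bp`) -/
theorem kap1_affine (p : Par) {k₀ η Bp : ℝ} (hkd : p.kd = k₀ + η * Bp) :
    p.κ₁ = ((1 + 5 * p.lam) * p.ε + p.κ * p.ε + (2 * p.lam + p.k1 / p.s) * k₀)
      + (3 * p.lam * p.ζ + p.κ * (1 + p.ζ)) * p.B + (2 * p.lam + p.k1 / p.s) * η * Bp := by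
  unfold Par.κ₁
  rw [hkd]
  ring

/-- the two-step recursion of the factors -/
theorem chain3 {B : ℕ → ℝ} {a q₁ q₂ C : ℝ} (ha : 0 ≤ a) (h1 : 0 ≤ q₁) (h2 : 0 ≤ q₂)
    (hq : q₁ + q₂ ≤ 1 / 2) (hC : 0 ≤ C) (hB0 : B 0 ≤ 2 * a + C) (hB1 : B 1 ≤ 2 * a + C)
    (h : ∀ i, B (i + 2) ≤ a + q₁ * B (i + 1) + q₂ * B i) (i : ℕ) :
    B (2 * i) ≤ 2 * a + C / 2 ^ i ∧ B (2 * i + 1) ≤ 2 * a + C / 2 ^ i := by
  induction i with
  | zero => simpa using ⟨hB0, hB1⟩
  | succ i ih =>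
    obtain ⟨h3, h4⟩ := ih
    have hpos : 0 ≤ C / 2 ^ i := by positivity
    have e1 : C / 2 ^ (i + 1) = C / 2 ^ i / 2 := by rw [pow_succ]; field_simp
    set D := C / 2 ^ i with hD
    have h5 : B (2 * i + 2) ≤ 2 * a + D / 2 := by
      have := h (2 * i)
      nlinarith
    refine ⟨by rw [e1]; exact h5, ?_⟩
    have h6 := h (2 * i + 1)
    have e2 : 2 * (i + 1) + 1 = 2 * i + 1 + 2 := by ring
    rw [e2, e1]
    have e3 : 2 * i + 1 + 1 = 2 * i + 2 := by ring
    rw [e3] at h6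
    nlinarith

end Crest.Agent.R288.EpU179
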