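import Crest.Agent.R288.PotA_245

/-!
# R288 / EpoR_948 : the epoch theorem with ARRIVAL ROUNDING (ALG-U form)

In ALG-U a raw state `y` (a piece of the caller's grid staircase) is played at the pair
`(cls F y, rdn y)`: `R y = dist y z + Rp`, `z = rdn y`, `Rp` = mean lane value of the pair, and the window
inequality (near / all) is available for `Rp` and the pieces of `z`, NOT of `y`; `R` itself is Lipschitz only up
to `b F`, so the pieces of `y` cannot be used.  `V` is any function (`G`, or `G + C0`), `d` = defect of (F3').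

* `Phi_move`      : `Φ(y) ≤ Φ(z) + 2 |a y - a z| + 2 (F y - F z)⁺`
* `epoch_round`   : **`R y + λ Φ y ≤ (1+ρ)^(2h+1) (A + κ₁ h) V y`** at every raw state of height `h`
* `epoch_round_R` : the same for `R`.
-/

set_option autoImplicit false

namespace Crest.Agent.R288.EpoR948

open Crest.Agent.R288.PotF245 Crest.Agent.R288.PotA245

universe u v

/-- the potential is Lipschitz -/
theorem Phi_move {a F a' F' : ℝ} (h : |a| ≤ F) (h' : |a'| ≤ F') :
    a ^ 2 / F + 2 * F ≤ a' ^ 2 / F' + 2 * F' + 2 * |a - a'| + 2 * max (F - F') 0 := by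
  have hF : 0 ≤ F := (abs_nonneg a).trans h
  have hF' : 0 ≤ F' := (abs_nonneg a').trans h'
  -- slope at `(a, F)`
  obtain ⟨t, ht, hta⟩ : ∃ t : ℝ, |t| ≤ 1 ∧ a = t * F := by
    rcases hF.eq_or_lt with h0 | h0
    · refine ⟨0, by simp, ?_⟩
      rw [← h0] at h
      simp [abs_nonpos_iff.1 h]
    · refine ⟨a / F, ?_, by field_simp⟩
      rw [abs_div, abs_of_pos h0, div_le_one h0]
      exact h
  have ht2 : t ^ 2 ≤ 1 := (sq_le_one_iff_abs_le_one t).2 ht
  have ht0 : 0 ≤ t ^ 2 := sq_nonneg t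
  have e1 : a ^ 2 / F = t ^ 2 * F := by
    rcases hF.eq_or_lt with h0 | h0
    · rw [← h0]; simp
    · rw [hta]; field_simp
  -- tangent
  have e2 : 2 * t * a' - t ^ 2 * F' ≤ a' ^ 2 / F' := by
    rcases hF'.eq_or_lt with h0 | h0
    · rw [← h0] at h' ⊢
      simp [abs_nonpos_iff.1 h']
    · rw [le_div_iff₀ h0]
      nlinarith [sq_nonneg (a' - t * F')]
  have e3 : t ^ 2 * F = 2 * t * a - t ^ 2 * F := by rw [hta]; ring
  have e4 : 2 * t * (a - a') ≤ 2 * |a - a'| := by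
    have : t * (a - a') ≤ |t| * |a - a'| := by
      rw [← abs_mul]; exact le_abs_self _
    nlinarith [abs_nonneg (a - a')]
  have hm : 0 ≤ max (F - F') 0 := le_max_right _ _
  have hm' : F - F' ≤ max (F - F') 0 := le_max_left _ _
  have e5 : (2 - t ^ 2) * (F - F') ≤ 2 * max (F - F') 0 := by
    rcases le_total 0 (F - F') with h0 | h0
    · rw [max_eq_left h0]; nlinarith
    · rw [max_eq_right h0]; nlinarith
  rw [e1]
  nlinarith

variable {S : ℕ → Type u} {M : ∀ h, S (h + 1) → Type v}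

/-- **one epoch with arrival rounding.**  `Rz` = value of the played pair `(cls F y, z)`, `z = rdn y`. -/
theorem epoch_round (pc : ∀ h (x : S (h + 1)), M h x → List (S h)) {F a R V : ∀ h, S h → ℝ}
    {k1 κ s lam A CF kd κw κ₁ ρ μ : ℝ} (Ok : ∀ h, S h → Prop)
    (hok : ∀ h x m, Ok (h + 1) x → ∀ y ∈ pc h x m, Ok h y)
    (hFa : ∀ h y, |a h y| ≤ F h y) (hV0 : ∀ h y, 0 ≤ V h y)
    (hk1 : 0 ≤ k1) (hκ : 0 ≤ κ) (hs : 0 < s) (hs1 : s ≤ 1) (hA : 0 ≤ A) (hρ : 0 ≤ ρ) (hμ : 0 ≤ μ)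
    (hlam : k1 * (1 + s ^ 2) ≤ lam * s ^ 2)
    (hκw : κ * CF + (2 * lam + k1 / s) * kd ≤ κw) (hκw0 : 0 ≤ κw) (hκ₁ : κw + μ ≤ κ₁)
    (hleaf : ∀ y, Ok 0 y → R 0 y + lam * Phi (F 0) (a 0) y ≤ A * V 0 y)
    (hstep : ∀ h (y : S (h + 1)), Ok (h + 1) y →
      -- stop: leaf
      R (h + 1) y + lam * Phi (F (h + 1)) (a (h + 1)) y ≤ A * V (h + 1) y ∨
      -- arrival at the pair of the rounded state `z`
      ∃ z : S (h + 1), ∃ dd Rz : ℝ, Ok (h + 1) z ∧ 0 ≤ dd ∧
        R (h + 1) y ≤ dd + Rz ∧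
        |a (h + 1) y - a (h + 1) z| ≤ dd ∧
        dd + lam * (2 * dd + 2 * max (F (h + 1) y - F (h + 1) z) 0) ≤ μ * V (h + 1) y ∧
        V (h + 1) z ≤ (1 + ρ) * V (h + 1) y ∧
        -- stop: leaf, R1
        (Rz + lam * Phi (F (h + 1)) (a (h + 1)) z ≤ A * V (h + 1) z ∨
        -- window
        ∃ m : M h z, ∃ d : ℝ, ((pc h z m).map (V h)).sum ≤ (1 + ρ) * V (h + 1) z ∧
        0 < F (h + 1) z ∧ F (h + 1) z ≤ CF * V (h + 1) z ∧
        0 ≤ d ∧ d ≤ kd * V (h + 1) z ∧
        ((pc h z m).map (a h)).sum = a (h + 1) z ∧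
        F (h + 1) z ≤ ((pc h z m).map (F h)).sum + d ∧
        (En (F h) (a h) (a (h + 1) z / F (h + 1) z) (pc h z m) ≤ s ^ 2 * F (h + 1) z →
          ((pc h z m).map (F h)).sum - F (h + 1) z ≤ s * F (h + 1) z →
          d ≤ s * F (h + 1) z →
          Rz ≤ ((pc h z m).map (R h)).sum + κ * F (h + 1) z) ∧
        Rz ≤ ((pc h z m).map (R h)).sum
          + k1 * (F (h + 1) z + max (((pc h z m).map (F h)).sum - F (h + 1) z) 0))) :
    ∀ h (y : S h), Ok h y →
      R h y + lam * Phi (F h) (a h) y ≤ (1 + ρ) ^ (2 * h) * (A + κ₁ * h) * V h y := by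
  have hs2 : (0 : ℝ) < s ^ 2 := by positivity
  have hlk : k1 ≤ lam := by
    by_contra h
    push Not at h
    nlinarith [mul_lt_mul_of_pos_right h hs2]
  have hlam0 : 0 ≤ lam := hk1.trans hlk
  have hq : 0 ≤ 2 * lam + k1 / s := add_nonneg (by linarith) (div_nonneg hk1 hs.le)
  have hρ1 : (1 : ℝ) ≤ 1 + ρ := by linarith
  have hκ₁0 : 0 ≤ κ₁ := by linarith
  intro h
  induction h with
  | zero => intro y hy; simpa using hleaf y hy
  | succ h ih =>
    intro y hy
    have hV := hV0 (h + 1) y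
    have hcast : ((h + 1 : ℕ) : ℝ) = h + 1 := by push_cast; ring
    have hh0 : (0 : ℝ) ≤ h := Nat.cast_nonneg h
    set q : ℝ := (1 + ρ) ^ (2 * h) with hqd
    have hq1 : 1 ≤ q := one_le_pow₀ hρ1
    have hqs : (1 + ρ) ^ (2 * (h + 1)) = q * ((1 + ρ) * (1 + ρ)) := by rw [hqd]; ring
    have hρρ : 0 ≤ ρ * ρ := mul_nonneg hρ hρ
    have hr2 : 1 + ρ ≤ (1 + ρ) * (1 + ρ) := by linarith
    have hAk : 0 ≤ A + κ₁ * h := by positivity
    have hqA : 0 ≤ q * (A + κ₁ * h) := mul_nonneg (by linarith) hAk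
    have hqA' : q * (A + κ₁ * h) ≤ q * (A + κ₁ * h) * (1 + ρ) := le_mul_of_one_le_right hqA hρ1
    rw [hcast, hqs]
    -- final estimate
    have hfin : ∀ T : ℝ, T ≤ (q * (A + κ₁ * h) * ((1 + ρ) * (1 + ρ)) + κw * (1 + ρ) + μ) * V (h + 1) y →
        T ≤ q * ((1 + ρ) * (1 + ρ)) * (A + κ₁ * (h + 1)) * V (h + 1) y := by
      intro T hT
      refine hT.trans (mul_le_mul_of_nonneg_right ?_ hV)
      have h1 : 1 + ρ ≤ q * ((1 + ρ) * (1 + ρ)) := hr2.trans (le_mul_of_one_le_left (by linarith) hq1)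
      have h2 : 1 ≤ q * ((1 + ρ) * (1 + ρ)) := hρ1.trans h1
      have h3 : κw * (1 + ρ) ≤ q * ((1 + ρ) * (1 + ρ)) * κw := by
        rw [mul_comm κw]; exact mul_le_mul_of_nonneg_right h1 hκw0
      have h4 : μ ≤ q * ((1 + ρ) * (1 + ρ)) * μ := le_mul_of_one_le_left hμ h2
      have h5 : q * ((1 + ρ) * (1 + ρ)) * (κw + μ) ≤ q * ((1 + ρ) * (1 + ρ)) * κ₁ :=
        mul_le_mul_of_nonneg_left hκ₁ (by linarith)
      calc _ ≤ q * (A + κ₁ * h) * ((1 + ρ) * (1 + ρ)) + q * ((1 + ρ) * (1 + ρ)) * (κw + μ) := by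
            linarith
        _ ≤ q * (A + κ₁ * h) * ((1 + ρ) * (1 + ρ)) + q * ((1 + ρ) * (1 + ρ)) * κ₁ := by linarith
        _ = _ := by ring
    -- the stop bound
    have hstop : ∀ W : ℝ, 0 ≤ W → A * W ≤ (q * (A + κ₁ * h) * (1 + ρ) + κw) * W := by
      intro W hW
      refine mul_le_mul_of_nonneg_right ?_ hW
      have h1 : A + κ₁ * h ≤ q * (A + κ₁ * h) := le_mul_of_one_le_left hAk hq1
      have h2 := mul_nonneg hκ₁0 hh0
      linarith
    rcases hstep h y hy with h1 | ⟨z, dd, Rz, hz, hdd, hR, hda, hμV, hVz, hwin⟩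
    · refine hfin _ (h1.trans ((hstop _ hV).trans (mul_le_mul_of_nonneg_right ?_ hV)))
      have h2 : q * (A + κ₁ * h) * (1 + ρ) ≤ q * (A + κ₁ * h) * ((1 + ρ) * (1 + ρ)) :=
        mul_le_mul_of_nonneg_left hr2 hqA
      have h3 : κw ≤ κw * (1 + ρ) := le_mul_of_one_le_right hκw0 hρ1
      linarith
    · have hVz0 := hV0 (h + 1) z
      have hPhi : Phi (F (h + 1)) (a (h + 1)) y ≤ Phi (F (h + 1)) (a (h + 1)) z
          + (2 * dd + 2 * max (F (h + 1) y - F (h + 1) z) 0) := by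
        have := Phi_move (hFa (h + 1) y) (hFa (h + 1) z)
        unfold Phi
        linarith
      have hround : R (h + 1) y + lam * Phi (F (h + 1)) (a (h + 1)) y
          ≤ Rz + lam * Phi (F (h + 1)) (a (h + 1)) z + μ * V (h + 1) y := by
        have := mul_le_mul_of_nonneg_left hPhi hlam0
        linarith
      have hpair : Rz + lam * Phi (F (h + 1)) (a (h + 1)) z
          ≤ (q * (A + κ₁ * h) * (1 + ρ) + κw) * V (h + 1) z := by
        rcases hwin with h1 | ⟨m, d, hVm, hF0, hFV, hd0, hdV, hsum, hd, hnear, hall⟩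
        · exact h1.trans (hstop _ hVz0)
        · have hcl := closure' (R := R h) (hFa h) (Rx := Rz) (d := d) (k1 := k1) (κ := κ)
            (s := s) (lam := lam) (hFa (h + 1) z) hF0 hd0 hk1 hκ hs hs1 hlam (pc h z m) hsum hd
            hnear hall
          have hok' := hok h z m hz
          have h2 : ((pc h z m).map fun y => R h y + lam * Phi (F h) (a h) y).sum
              ≤ q * (A + κ₁ * h) * ((pc h z m).map (V h)).sum := by
            clear hVm hsum hd hnear hall hcl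
            revert hok'
            generalize pc h z m = l
            intro hok'
            induction l with
            | nil => simp
            | cons y l ihl =>
              simp only [List.map_cons, List.sum_cons]
              have h3 := ih y (hok' y (by simp))
              have h4 := ihl fun b hb => hok' b (by simp [hb])
              rw [mul_add]
              exact add_le_add h3 h4
          have h4 := mul_le_mul_of_nonneg_left hVm hqA
          have h5 : κ * F (h + 1) z + (2 * lam + k1 / s) * d ≤ κw * V (h + 1) z := by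
            calc κ * F (h + 1) z + (2 * lam + k1 / s) * d
                ≤ κ * (CF * V (h + 1) z) + (2 * lam + k1 / s) * (kd * V (h + 1) z) :=
                  add_le_add (mul_le_mul_of_nonneg_left hFV hκ) (mul_le_mul_of_nonneg_left hdV hq)
              _ = (κ * CF + (2 * lam + k1 / s) * kd) * V (h + 1) z := by ring
              _ ≤ _ := mul_le_mul_of_nonneg_right hκw hVz0
          have h6 : Phi (F (h + 1)) (a (h + 1)) z
              = a (h + 1) z ^ 2 / F (h + 1) z + 2 * F (h + 1) z := rfl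
          rw [h6]
          calc _ ≤ _ := hcl
            _ ≤ q * (A + κ₁ * h) * ((1 + ρ) * V (h + 1) z) + κw * V (h + 1) z := by linarith
            _ = _ := by ring
      have hz2 : (q * (A + κ₁ * h) * (1 + ρ) + κw) * V (h + 1) z
          ≤ (q * (A + κ₁ * h) * (1 + ρ) + κw) * ((1 + ρ) * V (h + 1) y) :=
        mul_le_mul_of_nonneg_left hVz (by
          have := mul_nonneg hqA (show (0 : ℝ) ≤ 1 + ρ by linarith)
          linarith)
      refine hfin _ ?_
      calc _ ≤ _ := hround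
        _ ≤ (q * (A + κ₁ * h) * (1 + ρ) + κw) * ((1 + ρ) * V (h + 1) y) + μ * V (h + 1) y := by
            linarith
        _ = _ := by ring

/-- one side condition: when the rounding error `dd` and the multiplicative Lipschitz defect of `F` are small against
`V`, the `μ`-line of `epoch_round` holds. -/
theorem mu_line {dd lam ζ C Fy Fz Vy cf μ : ℝ} (hlam : 0 ≤ lam) (hdd : 0 ≤ dd) (hζ : 0 ≤ ζ)
    (hC : 0 ≤ C) (hF : Fy ≤ (1 + ζ) * (Fz + dd) + C) (hFz : 0 ≤ Fz) (hFzV : Fz ≤ cf * Vy)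
    (h : dd + lam * (2 * dd + 2 * (ζ * (cf * Vy) + (1 + ζ) * dd + C)) ≤ μ * Vy) :
    dd + lam * (2 * dd + 2 * max (Fy - Fz) 0) ≤ μ * Vy := by
  refine le_trans ?_ h
  have h1 : max (Fy - Fz) 0 ≤ ζ * (cf * Vy) + (1 + ζ) * dd + C := by
    refine max_le ?_ (by have := hFz.trans hFzV; positivity)
    have := mul_le_mul_of_nonneg_left hFzV hζ
    nlinarith
  have := mul_le_mul_of_nonneg_left (show 2 * dd + 2 * max (Fy - Fz) 0
    ≤ 2 * dd + 2 * (ζ * (cf * Vy) + (1 + ζ) * dd + C) by linarith) hlam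
  linarith

/-- stop line at a leaf (`R = G ≤ V`, `F ≤ CF V`) -/
theorem stop_leaf {R F a V lam CF A : ℝ} (hlam : 0 ≤ lam) (ha : |a| ≤ F) (hR : R ≤ V)
    (hF : F ≤ CF * V) (hV : 0 ≤ V) (hA : 1 + 3 * lam * CF ≤ A) :
    R + lam * (a ^ 2 / F + 2 * F) ≤ A * V := by
  have h1 : a ^ 2 / F + 2 * F ≤ 3 * F := by
    have := Phi_move (a := a) (F := F) (a' := 0) (F' := 0) ha (by simp)
    have h0 : 0 ≤ F := (abs_nonneg a).trans ha
    have h2 : a ^ 2 / F ≤ F := by
      rcases h0.eq_or_lt with h | h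
      · rw [← h]; simp
      · rw [div_le_iff₀ h, ← sq_abs]
        nlinarith [abs_nonneg a]
    linarith
  have h2 : lam * (a ^ 2 / F + 2 * F) ≤ lam * (3 * (CF * V)) :=
    mul_le_mul_of_nonneg_left (h1.trans (by linarith)) hlam
  have h3 : (1 + 3 * lam * CF) * V ≤ A * V := mul_le_mul_of_nonneg_right hA hV
  linarith

/-- stop line at an (R1) state: `F ≤ (1+5δ) V`, `R ≤ (1+b) F` -/
theorem stop_r1 {R F a V lam b δ A : ℝ} (hlam : 0 ≤ lam) (hb : 0 ≤ b) (ha : |a| ≤ F)
    (hR : R ≤ (1 + b) * F) (hF : F ≤ (1 + 5 * δ) * V) (hV : 0 ≤ V)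
    (hA : (1 + b + 3 * lam) * (1 + 5 * δ) ≤ A) :
    R + lam * (a ^ 2 / F + 2 * F) ≤ A * V := by
  have h0 : 0 ≤ F := (abs_nonneg a).trans ha
  have h2 : a ^ 2 / F ≤ F := by
    rcases h0.eq_or_lt with h | h
    · rw [← h]; simp
    · rw [div_le_iff₀ h, ← sq_abs]
      nlinarith [abs_nonneg a]
  have h3 : lam * (a ^ 2 / F + 2 * F) ≤ lam * (3 * F) := mul_le_mul_of_nonneg_left (by linarith) hlam
  have h4 : (1 + b + 3 * lam) * F ≤ (1 + b + 3 * lam) * ((1 + 5 * δ) * V) :=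
    mul_le_mul_of_nonneg_left hF (by linarith)
  have h5 : (1 + b + 3 * lam) * (1 + 5 * δ) * V ≤ A * V := mul_le_mul_of_nonneg_right hA hV
  linarith

end Crest.Agent.R288.EpoR948
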