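import Crest.Agent.R288.PotP_245

/-!
# R288: one epoch, pointwise, WITH THE ROUNDING OF THE STATE (helper495)

In ALG-U an arriving integer state `x` (a piece of the previous window) is first rounded to the grid of
its own class, `x ↦ x^`; the window is played at `x^`, so the displacements of the pieces add up to
`a(x^)`, not to `a(x)`, and the window inequalities hold at `x^`. All landed epoch theorems
(`PotA245.epoch_bound`, `PotP245.epoch_bound_rho`, `Ptw641.EpochU`) ask `∑ a(y_j) = a(x)`.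

* `phi_round` : `|a²/F - a'²/F'| ≤ 2 |a - a'| + |F - F'|` if `|a| ≤ F`, `|a'| ≤ F'`;
  `Phi_round` : the same for `Φ = a²/F + 2F` with `2 |a - a'| + 3 |F - F'|`.
* `closure_mem` : `PotA245.closure'` with the hypothesis `|a| ≤ F` only at the pieces.
* `epoch_round` : class `Ok` of states; at each `Ok` state `x` either `R + λΦ ≤ (1+c) V` or there are
  numbers `A Fx Rx d` (= values at `x^`) and a list `l` of `Ok` pieces of `x^` with
  `R(x) + λΦ(x) ≤ Rx + λ (A²/Fx + 2 Fx) + τ V(x)` and the window hypotheses for `A, Fx, Rx`: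
  **`R + λΦ ≤ (1+ρ)^h (1 + c + (κ₁ + τ) h) V`**.
-/

set_option autoImplicit false

namespace Crest.Agent.R288.EpochR495

open Crest.Agent.R288.PotF245 Crest.Agent.R288.PotA245

universe u v

/-- the quotient `a²/F` under rounding -/
theorem phi_round {a a' F F' : ℝ} (h : |a| ≤ F) (h' : |a'| ≤ F') :
    a ^ 2 / F - a' ^ 2 / F' ≤ 2 * |a - a'| + |F - F'| := by
  have hF : 0 ≤ F := (abs_nonneg _).trans h
  have hF' : 0 ≤ F' := (abs_nonneg _).trans h'
  have hnn : 0 ≤ 2 * |a - a'| + |F - F'| := by positivity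
  rcases hF.eq_or_lt with h0 | h0
  · have ha : a = 0 := by
      rw [← h0] at h
      exact abs_eq_zero.1 (le_antisymm h (abs_nonneg _))
    rw [ha]
    have : 0 ≤ a' ^ 2 / F' := div_nonneg (sq_nonneg _) hF'
    simp only [ne_eq, OfNat.ofNat_ne_zero, not_false_eq_true, zero_pow, zero_div, zero_sub]
    rw [ha] at hnn
    have h2 : (0 : ℝ) - a' = -a' := by ring
    rw [h2] at hnn
    linarith
  rcases hF'.eq_or_lt with h0' | h0'
  · have ha : a' = 0 := by
      rw [← h0'] at h'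
      exact abs_eq_zero.1 (le_antisymm h' (abs_nonneg _))
    rw [ha, ← h0']
    simp only [div_zero, sub_zero]
    have h1 : a ^ 2 / F ≤ |a| := by
      rw [div_le_iff₀ h0, ← sq_abs, pow_two]
      exact mul_le_mul_of_nonneg_left h (abs_nonneg _)
    have := abs_nonneg a
    have := abs_nonneg F
    linarith
  · have e : a ^ 2 / F - a' ^ 2 / F' = (a - a') * ((a + a') / F')
        + (F' - F) * (a ^ 2 / (F * F')) := by
      field_simp
      ring
    have e' : a ^ 2 / F - a' ^ 2 / F' = (a - a') * ((a + a') / F)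
        + (F' - F) * (a' ^ 2 / (F * F')) := by
      field_simp
      ring
    rcases le_total F F' with hle | hle
    · rw [e]
      have h1 : (a - a') * ((a + a') / F') ≤ |a - a'| * 2 := by
        calc (a - a') * ((a + a') / F') ≤ |(a - a') * ((a + a') / F')| := le_abs_self _
          _ = |a - a'| * |(a + a') / F'| := abs_mul _ _
          _ ≤ |a - a'| * 2 := by
            refine mul_le_mul_of_nonneg_left ?_ (abs_nonneg _)
            rw [abs_div, abs_of_pos h0', div_le_iff₀ h0']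
            have := abs_add_le a a'
            linarith
      have h2 : (F' - F) * (a ^ 2 / (F * F')) ≤ |F - F'| := by
        have h3 : a ^ 2 / (F * F') ≤ 1 := by
          rw [div_le_one (mul_pos h0 h0'), ← sq_abs]
          nlinarith [abs_nonneg a]
        have h4 : 0 ≤ a ^ 2 / (F * F') := by positivity
        rw [abs_sub_comm, abs_of_nonneg (by linarith)]
        nlinarith
      linarith
    · rw [e']
      have h1 : (a - a') * ((a + a') / F) ≤ |a - a'| * 2 := by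
        calc (a - a') * ((a + a') / F) ≤ |(a - a') * ((a + a') / F)| := le_abs_self _
          _ = |a - a'| * |(a + a') / F| := abs_mul _ _
          _ ≤ |a - a'| * 2 := by
            refine mul_le_mul_of_nonneg_left ?_ (abs_nonneg _)
            rw [abs_div, abs_of_pos h0, div_le_iff₀ h0]
            have := abs_add_le a a'
            linarith
      have h2 : (F' - F) * (a' ^ 2 / (F * F')) ≤ |F - F'| := by
        have h4 : 0 ≤ a' ^ 2 / (F * F') := by positivity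
        have h5 := abs_nonneg (F - F')
        nlinarith
      linarith

/-- the potential under rounding: `a, F` = values at `x`, `a', F'` = values at the rounded state -/
theorem Phi_round {a a' F F' : ℝ} (h : |a| ≤ F) (h' : |a'| ≤ F') :
    a ^ 2 / F + 2 * F ≤ a' ^ 2 / F' + 2 * F' + (2 * |a - a'| + 3 * |F - F'|) := by
  have h1 := phi_round h h'
  have h2 := le_abs_self (F - F')
  linarith

section lists

variable {α : Type*} {F a : α → ℝ}

theorem En_congr {F' : α → ℝ} {θ : ℝ} {l : List α} (h : ∀ y ∈ l, F' y = F y) :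
    En F' a θ l = En F a θ l := by
  unfold En
  congr 1
  exact List.map_congr_left fun y hy => by rw [h y hy]

/-- **closure at one state**, `|a| ≤ F` only at the pieces -/
theorem closure_mem {R : α → ℝ} {A Fx Rx d k1 κ s lam : ℝ} (l : List α)
    (hFa : ∀ y ∈ l, |a y| ≤ F y)
    (hA : |A| ≤ Fx) (hx : 0 < Fx) (hd0 : 0 ≤ d) (hk1 : 0 ≤ k1) (hκ : 0 ≤ κ) (hs : 0 < s)
    (hs1 : s ≤ 1) (hlam : k1 * (1 + s ^ 2) ≤ lam * s ^ 2)
    (hsum : (l.map a).sum = A) (hd : Fx ≤ (l.map F).sum + d)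
    (hnear : En F a (A / Fx) l ≤ s ^ 2 * Fx → (l.map F).sum - Fx ≤ s * Fx → d ≤ s * Fx →
      Rx ≤ (l.map R).sum + κ * Fx)
    (hall : Rx ≤ (l.map R).sum + k1 * (Fx + max ((l.map F).sum - Fx) 0)) :
    Rx + lam * (A ^ 2 / Fx + 2 * Fx)
      ≤ (l.map fun y => R y + lam * Phi F a y).sum + (κ * Fx + (2 * lam + k1 / s) * d) := by
  classical
  set F' : α → ℝ := fun y => if |a y| ≤ F y then F y else |a y| with hF'
  have e0 : ∀ y ∈ l, F' y = F y := fun y hy => if_pos (hFa y hy)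
  have hFa' : ∀ y, |a y| ≤ F' y := fun y => by
    simp only [hF']
    split_ifs with h
    · exact h
    · exact le_rfl
  have e1 : l.map F' = l.map F := List.map_congr_left e0
  have e2 : (l.map fun y => R y + lam * Phi F' a y) = l.map fun y => R y + lam * Phi F a y :=
    List.map_congr_left fun y hy => by
      simp only [Phi]
      rw [e0 y hy]
  have h := closure' (F := F') (a := a) (R := R) hFa' hA hx hd0 hk1 hκ hs hs1 hlam l hsum
    (by rw [e1]; exact hd)
    (by rw [e1, En_congr e0]; exact hnear) (by rw [e1]; exact hall)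
  rw [e2] at h
  exact h

end lists

/-- **one epoch, pointwise at every `Ok` state, with the rounding of the state** -/
theorem epoch_round {S : ℕ → Type u} {F a R V : ∀ h, S h → ℝ} {Ok : ∀ h, S h → Prop}
    {k1 κ s lam c CF kd κ₁ ρ τ : ℝ} {H : ℕ}
    (hFa : ∀ h y, Ok h y → |a h y| ≤ F h y) (hV0 : ∀ h y, Ok h y → 0 ≤ V h y)
    (hk1 : 0 ≤ k1) (hκ : 0 ≤ κ) (hs : 0 < s) (hs1 : s ≤ 1) (hc : 0 ≤ c) (hρ : 0 ≤ ρ)
    (hτ : 0 ≤ τ) (hlam : k1 * (1 + s ^ 2) ≤ lam * s ^ 2)
    (hκ₁ : κ * CF + (2 * lam + k1 / s) * kd ≤ κ₁) (hκ₁0 : 0 ≤ κ₁)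
    (hleaf : ∀ x, Ok 0 x → R 0 x + lam * Phi (F 0) (a 0) x ≤ (1 + c) * V 0 x)
    (hstep : ∀ h, h < H → ∀ x : S (h + 1), Ok (h + 1) x →
      R (h + 1) x + lam * Phi (F (h + 1)) (a (h + 1)) x ≤ (1 + c) * V (h + 1) x ∨
      ∃ (l : List (S h)) (A Fx Rx d : ℝ), (∀ y ∈ l, Ok h y) ∧
        R (h + 1) x + lam * Phi (F (h + 1)) (a (h + 1)) x
          ≤ Rx + lam * (A ^ 2 / Fx + 2 * Fx) + τ * V (h + 1) x ∧
        (l.map (V h)).sum ≤ (1 + ρ) * V (h + 1) x ∧
        |A| ≤ Fx ∧ 0 < Fx ∧ Fx ≤ CF * V (h + 1) x ∧ 0 ≤ d ∧ d ≤ kd * V (h + 1) x ∧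
        (l.map (a h)).sum = A ∧ Fx ≤ (l.map (F h)).sum + d ∧
        (En (F h) (a h) (A / Fx) l ≤ s ^ 2 * Fx → (l.map (F h)).sum - Fx ≤ s * Fx →
          d ≤ s * Fx → Rx ≤ (l.map (R h)).sum + κ * Fx) ∧
        Rx ≤ (l.map (R h)).sum + k1 * (Fx + max ((l.map (F h)).sum - Fx) 0)) :
    ∀ h, h ≤ H → ∀ x : S h, Ok h x →
      R h x + lam * Phi (F h) (a h) x ≤ (1 + ρ) ^ h * (1 + c + (κ₁ + τ) * h) * V h x := by
  have hs2 : (0 : ℝ) < s ^ 2 := by positivity
  have hlk : k1 ≤ lam := by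
    by_contra h
    push Not at h
    nlinarith [mul_lt_mul_of_pos_right h hs2]
  have hlam0 : 0 ≤ lam := hk1.trans hlk
  have hq : 0 ≤ 2 * lam + k1 / s := add_nonneg (by linarith) (div_nonneg hk1 hs.le)
  have hρ1 : (1 : ℝ) ≤ 1 + ρ := by linarith
  intro h
  induction h with
  | zero => intro _ x hx; simpa using hleaf x hx
  | succ h ih =>
    intro hH x hx
    have hV := hV0 (h + 1) x hx
    have hcast : ((h + 1 : ℕ) : ℝ) = h + 1 := by push_cast; ring
    have hpow : (1 : ℝ) ≤ (1 + ρ) ^ (h + 1) := one_le_pow₀ hρ1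
    have hcc : 0 ≤ 1 + c + (κ₁ + τ) * ((h : ℝ) + 1) := by positivity
    rcases hstep h (by omega) x hx with h1 |
      ⟨l, A, Fx, Rx, d, hOk, hR, hVm, hA, hF0, hFV, hd0, hdV, hsum, hd, hnear, hall⟩
    · have h2 : (1 + c) * V (h + 1) x ≤ (1 + c + (κ₁ + τ) * ((h : ℝ) + 1)) * V (h + 1) x := by
        have : 0 ≤ (κ₁ + τ) * ((h : ℝ) + 1) * V (h + 1) x := by positivity
        nlinarith
      have h3 : (1 + c + (κ₁ + τ) * ((h : ℝ) + 1)) * V (h + 1) x
          ≤ (1 + ρ) ^ (h + 1) * ((1 + c + (κ₁ + τ) * ((h : ℝ) + 1)) * V (h + 1) x) :=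
        le_mul_of_one_le_left (mul_nonneg hcc hV) hpow
      rw [hcast]
      calc _ ≤ _ := h1
        _ ≤ _ := h2
        _ ≤ _ := h3
        _ = _ := by ring
    · have hcl := closure_mem (R := R h) (F := F h) (a := a h) (Rx := Rx) (d := d) (k1 := k1)
        (κ := κ) (s := s) (lam := lam) l (fun y hy => hFa h y (hOk y hy)) hA hF0 hd0 hk1 hκ hs
        hs1 hlam hsum hd hnear hall
      have h3 : 0 ≤ (1 + ρ) ^ h * (1 + c + (κ₁ + τ) * (h : ℝ)) := by positivity
      have h2 : (l.map fun y => R h y + lam * Phi (F h) (a h) y).sum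
          ≤ (1 + ρ) ^ h * (1 + c + (κ₁ + τ) * h) * (l.map (V h)).sum := by
        clear hVm hsum hd hnear hall hcl
        induction l with
        | nil => simp
        | cons y l ihl =>
          simp only [List.map_cons, List.sum_cons]
          have h4 := ih (by omega) y (hOk y (by simp))
          have h5 := ihl fun z hz => hOk z (by simp [hz])
          nlinarith
      have h4 := mul_le_mul_of_nonneg_left hVm h3
      have h5 : κ * Fx + (2 * lam + k1 / s) * d + τ * V (h + 1) x ≤ (κ₁ + τ) * V (h + 1) x := by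
        have : κ * Fx + (2 * lam + k1 / s) * d ≤ κ₁ * V (h + 1) x := by
          calc κ * Fx + (2 * lam + k1 / s) * d
              ≤ κ * (CF * V (h + 1) x) + (2 * lam + k1 / s) * (kd * V (h + 1) x) :=
                add_le_add (mul_le_mul_of_nonneg_left hFV hκ) (mul_le_mul_of_nonneg_left hdV hq)
            _ = (κ * CF + (2 * lam + k1 / s) * kd) * V (h + 1) x := by ring
            _ ≤ _ := mul_le_mul_of_nonneg_right hκ₁ hV
        linarith
      have h5' : (κ₁ + τ) * V (h + 1) x ≤ (1 + ρ) ^ (h + 1) * ((κ₁ + τ) * V (h + 1) x) :=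
        le_mul_of_one_le_left (mul_nonneg (by linarith) hV) hpow
      have h7 : (1 + ρ) ^ h * (1 + c + (κ₁ + τ) * (h : ℝ)) * ((1 + ρ) * V (h + 1) x)
          = (1 + ρ) ^ (h + 1) * (1 + c + (κ₁ + τ) * (h : ℝ)) * V (h + 1) x := by ring
      rw [hcast]
      calc _ ≤ _ := hR
        _ ≤ (1 + ρ) ^ h * (1 + c + (κ₁ + τ) * (h : ℝ)) * ((1 + ρ) * V (h + 1) x)
            + (1 + ρ) ^ (h + 1) * ((κ₁ + τ) * V (h + 1) x) := by linarith
        _ = _ := by rw [h7]; ring

/-- conclusion for `R` alone -/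
theorem epoch_round_R {S : ℕ → Type u} {F a R V : ∀ h, S h → ℝ} {Ok : ∀ h, S h → Prop}
    {k1 κ s lam c CF kd κ₁ ρ τ : ℝ} {H : ℕ}
    (hFa : ∀ h y, Ok h y → |a h y| ≤ F h y) (hV0 : ∀ h y, Ok h y → 0 ≤ V h y)
    (hk1 : 0 ≤ k1) (hκ : 0 ≤ κ) (hs : 0 < s) (hs1 : s ≤ 1) (hc : 0 ≤ c) (hρ : 0 ≤ ρ)
    (hτ : 0 ≤ τ) (hlam : k1 * (1 + s ^ 2) ≤ lam * s ^ 2)
    (hκ₁ : κ * CF + (2 * lam + k1 / s) * kd ≤ κ₁) (hκ₁0 : 0 ≤ κ₁)
    (hleaf : ∀ x, Ok 0 x → R 0 x + lam * Phi (F 0) (a 0) x ≤ (1 + c) * V 0 x)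
    (hstep : ∀ h, h < H → ∀ x : S (h + 1), Ok (h + 1) x →
      R (h + 1) x + lam * Phi (F (h + 1)) (a (h + 1)) x ≤ (1 + c) * V (h + 1) x ∨
      ∃ (l : List (S h)) (A Fx Rx d : ℝ), (∀ y ∈ l, Ok h y) ∧
        R (h + 1) x + lam * Phi (F (h + 1)) (a (h + 1)) x
          ≤ Rx + lam * (A ^ 2 / Fx + 2 * Fx) + τ * V (h + 1) x ∧
        (l.map (V h)).sum ≤ (1 + ρ) * V (h + 1) x ∧
        |A| ≤ Fx ∧ 0 < Fx ∧ Fx ≤ CF * V (h + 1) x ∧ 0 ≤ d ∧ d ≤ kd * V (h + 1) x ∧
        (l.map (a h)).sum = A ∧ Fx ≤ (l.map (F h)).sum + d ∧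
        (En (F h) (a h) (A / Fx) l ≤ s ^ 2 * Fx → (l.map (F h)).sum - Fx ≤ s * Fx →
          d ≤ s * Fx → Rx ≤ (l.map (R h)).sum + κ * Fx) ∧
        Rx ≤ (l.map (R h)).sum + k1 * (Fx + max ((l.map (F h)).sum - Fx) 0))
    {h : ℕ} (hh : h ≤ H) (x : S h) (hx : Ok h x) :
    R h x ≤ (1 + ρ) ^ h * (1 + c + (κ₁ + τ) * h) * V h x := by
  have hs2 : (0 : ℝ) < s ^ 2 := by positivity
  have hlk : k1 ≤ lam := by
    by_contra h
    push Not at h
    nlinarith [mul_lt_mul_of_pos_right h hs2]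
  have h1 := epoch_round hFa hV0 hk1 hκ hs hs1 hc hρ hτ hlam hκ₁ hκ₁0 hleaf hstep h hh x hx
  have h2 : 0 ≤ lam * Phi (F h) (a h) x := by
    refine mul_nonneg (hk1.trans hlk) ?_
    have h3 := hFa h x hx
    have h0 : 0 ≤ F h x := (abs_nonneg _).trans h3
    exact add_nonneg (div_nonneg (sq_nonneg _) h0) (by linarith)
  linarith

end Crest.Agent.R288.EpochR495
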