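import Crest.Agent.R288.LaneM_540
import Crest.Agent.R288.LawU_944
import Crest.Agent.R288.Cel_734
import Crest.Agent.R288.DomB_20
import Crest.Agent.R288.AsmC_331
import Crest.Agent.R288.GoodI_829

/-!
# R288 (helper540), leaf N4: the body and bottom laws of the lanes of a good history (ALG v2.2)

* geometry: `pos_lo`, `pos_hi`, `cut_mem`, `endOk_piece`, `endsOk`, `rdOk` — the near pieces of an
  admissible pair of the domain are requested, its entry can be read;
* `RL` = exact mean of a lane, `AL` = mean of the body entry of a pair;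
  `RL_nadm` (number `F z` at an inadmissible pair), `RL_bot` (macro height 0);
* **`AL_le_bodyNum`** : `AL ≤ bodyNum .. (fun _ => Y) .. + 2^(n+1) + 1` if `RL ≤ Y` at the own pairs of
  the near pieces;
* for `C : Asm331.Cfg`: `Ae` (body mean of rank `k` of epoch `e`), **`law_body`**, **`law_bot`**,
  `Ae_leaf`, **`le_Ae`** (one step of soundness).
-/

set_option autoImplicit false

namespace Crest.Agent.R288.LaneN540

open Finset Crest.Agent.R295.Rnd627 Crest.Agent.R295.Rnd627.RT Crest.Agent.R288.Alg45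
open Crest.Agent.R288.XB715 Crest.Agent.R288.LaneM540
open Crest.Agent.R288.Cel734 (InC)

variable {P : Par} {leaf : St → Option ℕ} {F : St → ℕ} {X : ℕ → ℕ → St → ℕ} {k : ℕ} {W : ℕ}

/-! ### geometry -/

/-- lower end of the letters -/
theorem pos_lo {κ : ℕ} {m : ℤ} {x : St} (hx : x.u.natAbs ≤ P.Dm) (h : m * 2 ^ κ ≤ x.u) (a : ℕ) :
    (m - P.r) * 2 ^ κ ≤ pos P κ x a := by
  have h3 : m * 2 ^ κ ≤ rd P κ x.u := by
    have h4 := Cel734.rd_mono P (κ := κ) h
    rwa [Cel734.rd_eq_self P ((Cel734.gstZ_dvd P κ).mul_left m)] at h4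
  have h5 := Cel734.rd_le P κ x.u
  have h6 : (m - P.r) * 2 ^ κ = m * 2 ^ κ - P.r * 2 ^ κ := by ring
  have h7 : (0 : ℤ) ≤ P.r * 2 ^ κ := by positivity
  have h8 : (0 : ℤ) ≤ a * (gst P κ : ℤ) := by positivity
  have h9 : x.u ≤ (P.Dm : ℤ) := by omega
  rw [h6]
  unfold pos wlo whi
  refine le_min (le_min ?_ ?_) ?_
  · linarith
  · linarith
  · have := le_max_right (-(P.Dm : ℤ)) (rd P κ x.u - P.r * 2 ^ κ)
    linarith

/-- upper end of the letters -/
theorem pos_hi {κ : ℕ} {m : ℤ} {x : St} (h : x.u < (m + 1) * 2 ^ κ) (a : ℕ) :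
    pos P κ x a ≤ (m + 1 + P.r) * 2 ^ κ := by
  have h5 := Cel734.rd_le P κ x.u
  have h6 : (m + 1 + P.r) * 2 ^ κ = (m + 1) * 2 ^ κ + P.r * 2 ^ κ := by ring
  rw [h6]
  unfold pos whi
  refine (min_le_left _ _).trans ((min_le_right _ _).trans ?_)
  linarith

/-- first diagonal of a piece -/
theorem piece_u {c : Cel} {x : St} (hx : x.u.natAbs ≤ P.Dm) (h1 : c.m * 2 ^ c.κ ≤ x.u)
    (h2 : x.u < (c.m + 1) * 2 ^ c.κ) {q a b : ℕ} (hq : q < P.N) :
    (c.m - P.r) * 2 ^ c.κ ≤ (piece P c.κ x q a b).u ∧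
      (piece P c.κ x q a b).u ≤ (c.m + 1 + P.r) * 2 ^ c.κ := by
  have hr : (0 : ℤ) ≤ P.r * 2 ^ c.κ := by positivity
  have e1 : (c.m - P.r) * 2 ^ c.κ = c.m * 2 ^ c.κ - P.r * 2 ^ c.κ := by ring
  have e2 : (c.m + 1 + P.r) * 2 ^ c.κ = (c.m + 1) * 2 ^ c.κ + P.r * 2 ^ c.κ := by ring
  show _ ≤ cut P c.κ x q a ∧ cut P c.κ x q a ≤ _
  unfold cut
  split_ifs with h
  · rw [e1, e2]
    constructor <;> linarith
  · omega
  · exact ⟨pos_lo hx h1 a, pos_hi h2 a⟩

theorem endOk_piece {κ : ℕ} {z : St} (hz : z.u.natAbs ≤ P.Dm) {q : ℕ} (hq : q < P.N) (a b : ℕ) :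
    EndOk P F (celOf κ z) q (piece P κ z q a b) where
  hi := rfl
  hj := rfl
  mem := fun _ _ => by
    have h0 := Cel734.two_pow_posZ κ
    have h := piece_u (P := P) (c := celOf κ z) (x := z) hz (Int.ediv_mul_le _ h0.ne')
      (Int.lt_ediv_add_one_mul_self _ h0) (a := a) (b := b) hq
    rw [Cel734.celOf_rdn]
    exact Cel734.div_mem_cellsIn h.1 h.2

/-- **the near pieces are requested** -/
theorem endsOk {κ : ℕ} {z : St} (hz : z.u.natAbs ≤ P.Dm) : EndsOk P F (celOf κ z) z :=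
  fun _ hq _ _ _ _ => endOk_piece hz hq _ _

/-- **the entry of an admissible pair can be read** -/
theorem rdOk {κ : ℕ} {z : St} (hz : inD P z) (ha : adm P F κ z = true) :
    RdOk P (celOf κ z) z := fun f => Cel734.rdt_tabC P (Cel734.adm_inC P hz ha) f

/-! ### lanes -/

/-- exact mean of a lane -/
noncomputable def RL (P : Par) (W : ℕ) (leaf : St → Option ℕ) (F : St → ℕ)
    (X : ℕ → ℕ → St → ℕ) (k κ : ℕ) (z : St) : ℝ :=
  (lanePair P leaf F X k κ z).Ev W fun a : ℕ => (a : ℝ)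

theorem RL_eq (κ : ℕ) (z : St) :
    RL P W leaf F X k κ z = RS P W (fun c => arrT P leaf F X k z.i c) κ z := by
  unfold RL RS lanePair
  simp only [Ev_bind, Ev_ret]

/-- mean of the body entry of the pair `(κ, z)`, `z.i > 0` -/
noncomputable def AL (P : Par) (W : ℕ) (leaf : St → Option ℕ) (F : St → ℕ)
    (X : ℕ → ℕ → St → ℕ) (k κ : ℕ) (z : St) : ℝ :=
  RS P W (LawU944.bdy P leaf F X k (z.i - 1)) κ z

theorem AL_eq (κ : ℕ) (z : St) :
    AL P W leaf F X k κ z =
      BM P W leaf F X k (fun c => arrT P leaf F X k (z.i - 1) c) (celOf κ z) z := rfl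

/-- macro height 0 -/
theorem RL_bot {κ : ℕ} {z : St} (hC : InC P (celOf κ z) z) (hi : z.i = 0) :
    RL P W leaf F X k κ z = botNum P leaf F κ z := by
  rw [RL_eq]
  unfold RS
  rw [hi]
  show (RT.ret (tabC P (celOf κ z) fun y => botNum P leaf F (celOf κ z).κ y)).Ev W _ = _
  rw [Ev_ret, Cel734.rdt_tabC P hC]
  rfl

/-- an inadmissible pair -/
theorem RL_nadm (hW : 0 < W) {κ : ℕ} {z : St} (hC : InC P (celOf κ z) z)
    (ha : adm P F κ z = false) : RL P W leaf F X k κ z = F z := by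
  rcases Nat.eq_zero_or_pos z.i with hi | hi
  · rw [RL_bot hC hi]
    unfold botNum
    rw [if_pos ha]
  · obtain ⟨i, hi⟩ : ∃ i, z.i = i + 1 := ⟨z.i - 1, by omega⟩
    rw [RL_eq]
    unfold RS
    rw [hi]
    show (arrOf P F _ (celOf κ z)).Ev W _ = _
    unfold arrOf
    rw [Ev_bind]
    have h1 : ∀ Es B, rdt P (celOf κ z) ((List.range (csz P (celOf κ z).κ)).map fun t =>
        arrNum P F (celOf κ z).κ (cst P (celOf κ z) t)
          (jest P Es ((acells P (celOf κ z).κ (celOf κ z).m).idxOf ((celOf κ z).κ, (celOf κ z).m)) t)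
          (jent B ((acells P (celOf κ z).κ (celOf κ z).m).idxOf ((celOf κ z).κ, (celOf κ z).m)) t)
          (jcand P (celOf κ z) Es B)) z = F z := by
      intro Es B
      rw [Cel734.rdt_map_range P hC, Cel734.cst_cidx P hC]
      unfold arrNum
      exact if_pos ha
    simp only [Ev_bind, Ev_ret, h1, Ev_const hW]

/-- **the body mean is at most the body value with the numbers `Y` at the ends** -/
theorem AL_le_bodyNum (hW : 0 < W) (hd : 2 ^ P.dl ∣ W) (hg : 0 < P.g) (hum : 0 < P.um) {κ : ℕ}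
    {z : St} (hz : inD P z) (ha : adm P F κ z = true) (Y : ℕ → St → ℕ)
    (hY : ∀ q < P.N, ∀ a b, κ ≤ cls F (npiece P F κ z q a b) + P.dl →
      cls F (npiece P F κ z q a b) ≤ κ + P.du →
      RL P W leaf F X k (cls F (npiece P F κ z q a b))
          (rdn P (cls F (npiece P F κ z q a b)) (npiece P F κ z q a b)) ≤
        Y (cls F (npiece P F κ z q a b))
          (rdn P (cls F (npiece P F κ z q a b)) (npiece P F κ z q a b))) :
    AL P W leaf F X k κ z ≤
      (bodyNum P leaf F X k (fun _ => Y) κ z : ℕ) + (2 * 2 ^ P.n + 1) := by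
  rw [AL_eq]
  refine body_le_num (c := celOf κ z) hW hd hg hum (rdOk hz ha) (endsOk hz.1) Y ?_
  intro _ _ _ _ q hq a _ b _
  show numR P F κ _ (npiece P F κ z q a b) ≤ (numSt P F κ Y (npiece P F κ z q a b) : ℕ)
  rw [numR_cast]
  unfold numR
  split_ifs with h
  · exact le_rfl
  · have h1 := hY q hq a b (by omega) (by omega)
    rw [RL_eq] at h1
    exact add_le_add le_rfl h1

/-- the body entry of an inadmissible pair -/
theorem AL_nadm (hW : 0 < W) {κ : ℕ} {z : St} (hC : InC P (celOf κ z) z)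
    (ha : adm P F κ z = false) : AL P W leaf F X k κ z = F z :=
  body_F (c := celOf κ z) hW (fun f => Cel734.rdt_tabC P hC f) ha

/-- the body entry of a leaf -/
theorem AL_leaf (hW : 0 < W) {κ : ℕ} {z : St} (hz : inD P z) (ha : adm P F κ z = true) {v : ℕ}
    (hl : leaf z = some v) : AL P W leaf F X k κ z = v :=
  body_leaf (c := celOf κ z) hW (rdOk hz ha) ha hl

/-- R1 or irregular -/
theorem AL_wild (hW : 0 < W) {κ : ℕ} {z : St} (hz : inD P z) (ha : adm P F κ z = true)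
    (hl : leaf z = none) (hR : R1 P F z ∨ ¬ regular P F κ z) :
    AL P W leaf F X k κ z = (wild P F X κ z k : ℕ) :=
  body_wild (c := celOf κ z) hW (rdOk hz ha) ha hl hR

/-- **soundness of the body mean** : `g` = any number below `F z`, the leaf value, `W` and the sums over
the near staircases -/
theorem le_AL (hW : 0 < W) (hd : 2 ^ P.dl ∣ W) (hg : 0 < P.g) (hum : 0 < P.um) {κ : ℕ} {z : St}
    (hz : inD P z) (ha : adm P F κ z = true) {g : ℝ} (hF : g ≤ F z)
    (hleaf : ∀ v, leaf z = some v → g ≤ v) (hwild : g ≤ (wild P F X κ z k : ℕ))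
    (hst : leaf z = none → ∀ m : ℕ → ℕ, (∀ q, m q < nlet P F κ z) →
      g ≤ ∑ q ∈ range P.N, numR P F κ (RS P W fun c => arrT P leaf F X k (z.i - 1) c)
        (npiece P F κ z q (m q) (m (q + 1)))) :
    g ≤ AL P W leaf F X k κ z :=
  le_body (c := celOf κ z) hW hd hg hum (rdOk hz ha) (endsOk hz.1) hF hleaf hwild hst

/-- the arrival numbers of the lower macro height are the lanes of the pairs of that height -/
theorem RS_arrT {i κ : ℕ} {z : St} (hi : z.i = i) :
    RS P W (fun c => arrT P leaf F X k i c) κ z = RL P W leaf F X k κ z := by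
  rw [RL_eq, hi]

/-! ### the lanes of a good history -/

open Crest.Agent.R288.Asm331 Crest.Agent.R288.Dom20

variable {C : Cfg} {H : ℕ → ℕ × St → ℕ}

/-- body mean of rank `k` of epoch `e` at the pair `(κ, z)` -/
noncomputable def Ae (C : Cfg) (H : ℕ → ℕ × St → ℕ) (e k κ : ℕ) (z : St) : ℝ :=
  AL C.P (2 ^ C.W) C.leaf (FE C.P H e) (Xe C.P H e) k κ z

theorem R_eq (C : Cfg) (H : ℕ → ℕ × St → ℕ) (e k κ : ℕ) (z : St) :
    C.R H e k κ z = RL C.P (2 ^ C.W) C.leaf (FE C.P H e) (Xe C.P H e) k κ z := by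
  unfold Cfg.R RL
  rw [Good829.lanePair_congr C.P (X := Xe C.P (Tape829.lo (idx C.P e k) H) e)
    (X' := Xe C.P H e) (fun i hi => Xe_lo hi)]

/-- what is used of the domain and of the unit function -/
structure Un (C : Cfg) (F : St → ℕ) : Prop where
  coer : ∀ y, InD C.P.N C.I C.P.Dm y → (y.v - y.u).natAbs ≤ F y
  cls : ∀ y, InD C.P.N C.I C.P.Dm y → cls F y ≤ C.K0
  grd : ∀ κ ≤ C.K0, gst C.P κ ∣ C.P.Dm

theorem inD_of {N I D : ℕ} {s : St} (h : InD N I D s) : s.u.natAbs ≤ D ∧ s.v.natAbs ≤ D := by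
  obtain ⟨-, -, h3, h4⟩ := h
  omega

theorem N_pos (P : Par) : 0 < P.N := by unfold Par.N; positivity

variable {F' : St → ℕ}

/-- the own pair of a state of the domain -/
theorem Un.own (hU : Un C F') {y : St} (hy : InD C.P.N C.I C.P.Dm y) :
    (Alg45.cls F' y, rdn C.P (Alg45.cls F' y) y) ∈ OmP C.P.N C.I C.P.Dm C.K0 ∧
      InC C.P (celOf (Alg45.cls F' y) (rdn C.P (Alg45.cls F' y) y))
        (rdn C.P (Alg45.cls F' y) y) := by
  have hg := hU.grd _ (hU.cls y hy)
  have hy' : Dom C.P C.I y := hy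
  refine ⟨(mem_OmP (N_pos C.P)).2 ⟨hU.cls y hy, hy'.rdn hg⟩, Cel734.inC_rdn C.P hg (inD_of hy) ?_⟩
  have h1 : F' y < 2 ^ (Alg45.cls F' y + 1) := Nat.lt_pow_succ_log_self (by norm_num) _
  have h2 := hU.coer y hy
  rw [pow_succ] at h1
  omega

/-- **a lane is at most its number**, admissible or not -/
theorem R_le (h : C.Good H) {e k κ : ℕ} {z : St} (he : e < C.P.E) (hk : k < C.P.K)
    (hs : (κ, z) ∈ OmP C.P.N C.I C.P.Dm C.K0) (hC : InC C.P (celOf κ z) z) :
    C.R H e k κ z ≤ H (idx C.P e k) (κ, z) := by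
  cases ha : adm C.P (FE C.P H e) κ z with
  | true => exact (C.good_num h he hk hs ha).1
  | false =>
    rw [C.good_alt h he hk hs ha, R_eq, RL_nadm (by positivity) hC ha]

/-- **Law.body** -/
theorem law_body (h : C.Good H) {e k κ : ℕ} (hU : Un C (FE C.P H e)) (he : e < C.P.E)
    (hk : k < C.P.K) (hd : C.P.dl ≤ C.W) (hg : 0 < C.P.g) (hum : 0 < C.P.um) (hr : 1 ≤ C.P.r)
    {z : St} (hz : InD C.P.N C.I C.P.Dm z) (hi : 1 ≤ z.i)
    (ha : adm C.P (FE C.P H e) κ z = true) :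
    Ae C H e k κ z ≤
      (bodyNum C.P C.leaf (FE C.P H e) (Xe C.P H e) k (fun _ => Xe C.P H e k) κ z : ℕ) +
        (2 * 2 ^ C.P.n + 1) := by
  refine AL_le_bodyNum (by positivity) (Nat.pow_dvd_pow 2 hd) hg hum (inD_of hz) ha _ ?_
  intro q hq a b _ _
  have hy : InD C.P.N C.I C.P.Dm (npiece C.P (FE C.P H e) κ z q a b) :=
    Dom.npiece (P := C.P) (I := C.I) hz hr hi hq (FE C.P H e) κ a b
  obtain ⟨h1, h2⟩ := hU.own hy
  rw [← R_eq]
  exact R_le h he hk h1 h2

/-- macro height 0 -/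
theorem R_bot {e k κ : ℕ} {z : St} (hz : inD C.P z) (hi : z.i = 0)
    (ha : adm C.P (FE C.P H e) κ z = true) :
    C.R H e k κ z = ((C.leaf z).getD (1 + (z.v - z.u).natAbs) : ℕ) := by
  rw [R_eq, RL_bot (Cel734.adm_inC C.P hz ha) hi]
  unfold botNum
  rw [if_neg (by simp [ha])]

/-- **Law.bot** -/
theorem law_bot {e k κ : ℕ} {z : St} {g : ℕ} (hz : inD C.P z) (hi : z.i = 0)
    (ha : adm C.P (FE C.P H e) κ z = true) {v : ℕ} (hl : C.leaf z = some v) (hv : v ≤ g + 1) :
    C.R H e k κ z ≤ g + 1 := by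
  rw [R_bot hz hi ha, hl]
  exact_mod_cast hv

theorem Ae_leaf {e k κ : ℕ} {z : St} (hz : inD C.P z) (ha : adm C.P (FE C.P H e) κ z = true)
    {v : ℕ} (hl : C.leaf z = some v) : Ae C H e k κ z = v :=
  AL_leaf (by positivity) hz ha hl

theorem Ae_nadm {e k κ : ℕ} {z : St} (hC : InC C.P (celOf κ z) z)
    (ha : adm C.P (FE C.P H e) κ z = false) : Ae C H e k κ z = FE C.P H e z :=
  AL_nadm (by positivity) hC ha

theorem R_nadm {e k κ : ℕ} {z : St} (hC : InC C.P (celOf κ z) z)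
    (ha : adm C.P (FE C.P H e) κ z = false) : C.R H e k κ z = FE C.P H e z := by
  rw [R_eq, RL_nadm (by positivity) hC ha]

end Crest.Agent.R288.LaneN540
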