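import Crest.Agent.R288.LaneLaw_944
import Crest.Agent.R288.LaneN_540
import Crest.Agent.R288.ArrX_984

/-!
# R288, (A5) = (J) at every admissible pair, for the real lanes (helper984)

Names of LaneN_540: `RL` = mean of the lane, `AL` = mean of the body entry (macro height `≥ 1`);
`LaneNum` of LaneLaw_944 = the numeric side conditions.

* `eta P s` : loss by bad estimates, in units `2^κ`; `th P κ` : the threshold; `eJ P s κ = 2 th + eta 2^κ`.
* `law_lane` : (low), (third) `RL ≤ AL + eta 2^κ`, (upF), (upM) at every admissible pair of height `≥ 1`.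
* `ja_lane` : `ArrLip195.JA` on every block of height `≥ 1`; `ja_zero` : height `0` (`A := R`, `e ≥ 1`).
* `ja_cfg`, `third_cfg`, `upF_cfg` : the same for a configuration `C` (`C.R`, `Ae`).
-/

set_option autoImplicit false

namespace Crest.Agent.R288.JC984

open Crest.Agent.R295.Rnd627 Crest.Agent.R295.Rnd627.RT Crest.Agent.R288.Alg45
  Crest.Agent.R288.ArrX984 Crest.Agent.R288.XB715 Crest.Agent.R288.LaneN540
  Crest.Agent.R288.LaneLaw944 Crest.Agent.R288.LawU944 Crest.Agent.R288.AdmR944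
  Crest.Agent.R288.Dom20 Crest.Agent.R288.ArrLip195

/-- loss by bad estimates in units `2^κ` -/
noncomputable def eta (P : Par) (s : ℕ) : ℝ := ((eL P + 1 : ℕ) : ℝ) * (1 / 2 : ℝ) ^ s * dL P

/-- threshold of the jump -/
def th (P : Par) (κ : ℕ) : ℕ := 2 ^ κ / 2 ^ P.bb

/-- error of the jump -/
noncomputable def eJ (P : Par) (s κ : ℕ) : ℝ := 2 * (th P κ : ℝ) + eta P s * 2 ^ κ

theorem eta_nonneg (P : Par) (s : ℕ) : 0 ≤ eta P s := by unfold eta; positivity

theorem eJ_nonneg (P : Par) (s κ : ℕ) : 0 ≤ eJ P s κ := by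
  have := eta_nonneg P s
  unfold eJ
  positivity

theorem th_le (P : Par) (κ : ℕ) : (th P κ : ℝ) ≤ 2 ^ κ / 2 ^ P.bb := by
  unfold th
  have h := Nat.cast_div_le (α := ℝ) (m := 2 ^ κ) (n := 2 ^ P.bb)
  push_cast at h
  exact h

/-- `e κ ≤ b 2^κ`, `b = 2 / 2^bb + eta` -/
theorem eJ_le (P : Par) (s κ : ℕ) : eJ P s κ ≤ (2 / 2 ^ P.bb + eta P s) * 2 ^ κ := by
  have h := th_le P κ
  have e : (2 / 2 ^ P.bb + eta P s) * 2 ^ κ = 2 * (2 ^ κ / 2 ^ P.bb) + eta P s * 2 ^ κ := by ring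
  unfold eJ
  rw [e]
  linarith

variable {P : Par} {W Λ s top I k : ℕ} {leaf : St → Option ℕ} {F : St → ℕ}
  {X : ℕ → ℕ → St → ℕ}

theorem gd_of (h : LaneNum P W Λ s top) (htop : ∀ y, Dom P I y → cls F y ≤ top) {κ : ℕ} {y : St}
    (hy : Dom P I y) (ha : adm P F κ y = true) : GD P (κ + P.a2) :=
  h.arr_grid htop hy ha

/-- **the law of the jump at every admissible pair of height `≥ 1`** -/
theorem law_rs (h : LaneNum P W Λ s top) (hr : 8 ≤ P.r) (hF : FOk leaf F (Dom P I) Λ)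
    (htop : ∀ y, Dom P I y → cls F y ≤ top) {i κ : ℕ} {y : St} (hi : y.i = i + 1)
    (hy : Dom P I y) (ha : adm P F κ y = true) :
    Law P W F (bdy P leaf F X k i) κ y (eta P s * 2 ^ κ) := by
  obtain ⟨e, he0, he, hok⟩ := h.arrOk_all (X := X) (k := k) hF htop i κ y hi hy ha
  have h1 := Law.of_arrOk hy.inD ha hr (isTab_bdy W leaf F X k i) (gd_of h htop hy ha) hok
  have he' : e ≤ eta P s * 2 ^ κ := he
  exact ⟨h1.low, h1.stay.trans (by linarith), h1.retire.trans (by linarith),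
    fun κ' z hz => (h1.pair κ' z hz).trans (by linarith)⟩

theorem RL_succ {i κ : ℕ} {y : St} (hi : y.i = i + 1) : RL P W leaf F X k κ y =
    RS P W (fun c => arrOf P F (bdy P leaf F X k i) c) κ y := by
  rw [RL_eq, hi]
  rfl

theorem AL_succ {i κ : ℕ} {z : St} (hi : z.i = i + 1) : AL P W leaf F X k κ z =
    RS P W (bdy P leaf F X k i) κ z := by
  unfold AL
  rw [hi, Nat.add_sub_cancel]

section lane

variable (h : LaneNum P W Λ s top) (hr : 8 ≤ P.r) (hF : FOk leaf F (Dom P I) Λ)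
  (htop : ∀ y, Dom P I y → cls F y ≤ top) {κ : ℕ} {y : St} (hi : 1 ≤ y.i)
  (hy : Dom P I y) (ha : adm P F κ y = true)

include h hr hF htop hi hy ha

/-- **third line of (A5)** -/
theorem third : RL P W leaf F X k κ y ≤ AL P W leaf F X k κ y + eta P s * 2 ^ κ := by
  obtain ⟨i, hi'⟩ : ∃ i, y.i = i + 1 := ⟨y.i - 1, by omega⟩
  rw [RL_succ hi', AL_succ hi']
  exact (law_rs h hr hF htop hi' hy ha).stay

/-- retire -/
theorem upF : RL P W leaf F X k κ y ≤ F y + eJ P s κ := by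
  obtain ⟨i, hi'⟩ : ∃ i, y.i = i + 1 := ⟨y.i - 1, by omega⟩
  rw [RL_succ hi']
  have h1 := (law_rs (X := X) (k := k) h hr hF htop hi' hy ha).retire
  unfold eJ th
  linarith

/-- jump -/
theorem upM {κ' : ℕ} {z : St} (hz : Cand P F κ y κ' z) : RL P W leaf F X k κ y ≤
    Alg45.dist y z + AL P W leaf F X k κ' z + eJ P s κ := by
  obtain ⟨i, hi'⟩ : ∃ i, y.i = i + 1 := ⟨y.i - 1, by omega⟩
  rw [RL_succ hi', AL_succ (hz.1.trans hi')]
  have h1 := (law_rs (X := X) (k := k) h hr hF htop hi' hy ha).pair κ' z hz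
  unfold eJ th
  linarith

/-- lower bound -/
theorem low {m : ℝ} (hm : m ≤ F y)
    (hc : ∀ κ' z, Cand P F κ y κ' z → m ≤ Alg45.dist y z + AL P W leaf F X k κ' z) :
    m ≤ RL P W leaf F X k κ y := by
  obtain ⟨i, hi'⟩ : ∃ i, y.i = i + 1 := ⟨y.i - 1, by omega⟩
  rw [RL_succ hi']
  refine (law_rs h hr hF htop hi' hy ha).low m hm fun κ' z hz => ?_
  have := hc κ' z hz
  rwa [AL_succ (hz.1.trans hi')] at this

end lane

theorem blk_dom {i j : ℕ} (hi : i ≤ I) (hj : j < P.N ^ (I - i)) {y : St} (hy : Blk P i j y) :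
    Dom P I y := by
  obtain ⟨h1, h2, h3, h4⟩ := hy
  refine ⟨by omega, by rw [h1, h2]; exact hj, ?_, ?_⟩ <;> constructor <;> omega

/-- **(J) on every block of height `≥ 1`** -/
theorem ja_lane (h : LaneNum P W Λ s top) (hr : 8 ≤ P.r) (hF : FOk leaf F (Dom P I) Λ)
    (htop : ∀ y, Dom P I y → cls F y ≤ top) {i j : ℕ} (hi1 : 1 ≤ i) (hi : i ≤ I)
    (hj : j < P.N ^ (I - i)) {A R : ℕ → St → ℝ}
    (hA : ∀ κ z, Blk P i j z → A κ z = AL P W leaf F X k κ z)
    (hR : ∀ κ z, Blk P i j z → R κ z = RL P W leaf F X k κ z) {e : ℕ → ℝ}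
    (he : ∀ κ, eJ P s κ ≤ e κ) : JA P F A R e i j where
  A0 := by
    intro κ z hz _
    rw [hA κ z hz]
    exact RS_nonneg _ _ _ κ z
  e0 := fun κ => (eJ_nonneg P s κ).trans (he κ)
  low := by
    intro κ y hy ha m hm h1 h2
    have hD := blk_dom hi hj hy
    rw [hR κ y hy]
    refine low h hr hF htop (by rw [hy.1]; exact hi1) hD ha hm fun κ' z hz => ?_
    have hzB : Blk P i j z := ⟨hz.1.trans hy.1, hz.2.1.trans hy.2.1, hz.2.2.1.dom⟩
    cases hadm : adm P F κ' z with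
    | true =>
      rw [← hA κ' z hzB]
      exact h2 κ' z hzB hadm hz.2.2.2.1 hz.2.2.2.2.1 hz.2.2.2.2.2
    | false =>
      have h3 : AL P W leaf F X k κ' z = F z := by
        obtain ⟨i', hi'⟩ : ∃ i', z.i = i' + 1 := ⟨z.i - 1, by rw [hzB.1]; omega⟩
        rw [AL_succ hi']
        have hC := (bodyConst_bdy (P := P) (W := W) (leaf := leaf) (F := F) (X := X) (k := k) i')
          (celOf κ' z) (cidx P (celOf κ' z) z) (Cell488.cidx_lt P hz.2.2.1)
        rw [Cell488.cst_cidx P hz.2.2.1] at hC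
        exact ArrW984.emn_const h.W0 (hC.1 hadm)
      rw [h3]
      exact h1 z hzB
  upF := by
    intro κ y hy ha
    rw [hR κ y hy]
    have h1 := upF (X := X) (k := k) h hr hF htop (by rw [hy.1]; exact hi1) (blk_dom hi hj hy) ha
    have h2 := he κ
    linarith
  upM := by
    intro κ y hy ha κ' z hz hadm k1 k2 hd
    rw [hR κ y hy, hA κ' z hz]
    have h1 := upM (X := X) (k := k) h hr hF htop (by rw [hy.1]; exact hi1) (blk_dom hi hj hy) ha
      (κ' := κ') (z := z) ⟨hz.1.trans hy.1.symm, hz.2.1.trans hy.2.1.symm,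
        ArrG147.adm_inC hadm hz.2.2, k1, k2, hd⟩
    have h2 := he κ
    linarith

/-! ### height `0` -/

/-- the lane value at height `0` -/
def bv (leaf : St → Option ℕ) (y : St) : ℕ := (leaf y).getD (1 + (y.v - y.u).natAbs)

theorem RL_zero {κ : ℕ} {y : St} (hd : inD P y) (ha : adm P F κ y = true) (hi : y.i = 0) :
    RL P W leaf F X k κ y = bv leaf y := by
  rw [RL_bot (Cel734.adm_inC P hd ha) hi]
  unfold botNum bv
  rw [if_neg (by simp [ha])]

/-- at height `0` the lane is at most `F + 1` -/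
theorem RL_zero_le {κ : ℕ} {y : St} (hF : FOk leaf F (Dom P I) Λ) (hy : Dom P I y)
    (ha : adm P F κ y = true) (hi : y.i = 0) : RL P W leaf F X k κ y ≤ F y + 1 := by
  rw [RL_zero hy.inD ha hi]
  have h : bv leaf y ≤ F y + 1 := by
    unfold bv
    cases hl : leaf y with
    | none =>
      have := hF.coer y hy
      simp only [Option.getD_none]
      omega
    | some c =>
      have := hF.leaf_le y hy c hl
      simpa using this
  exact_mod_cast h

/-- **(J) on the blocks of height `0`**: `A := R`, `e ≥ 1` -/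
theorem ja_zero (hF : FOk leaf F (Dom P I) Λ) {j : ℕ} (hj : j < P.N ^ I) {A R : ℕ → St → ℝ}
    (hA : ∀ κ z, Blk P 0 j z → A κ z = RL P W leaf F X k κ z)
    (hR : ∀ κ z, Blk P 0 j z → R κ z = RL P W leaf F X k κ z) {G : St → ℕ}
    (hlo : ∀ y, Blk P 0 j y → G y ≤ bv leaf y) (hup : ∀ y, Blk P 0 j y → bv leaf y ≤ G y + 1)
    (hGl : ∀ y z, Blk P 0 j y → Blk P 0 j z → G y ≤ G z + Alg45.dist y z) {e : ℕ → ℝ}
    (he : ∀ κ, 1 ≤ e κ) : JA P F A R e 0 j where
  A0 := by
    intro κ z hz _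
    rw [hA κ z hz]
    exact Ev_nonneg fun _ => Nat.cast_nonneg _
  e0 := fun κ => le_trans zero_le_one (he κ)
  low := by
    intro κ y hy ha m _ _ h2
    have h3 := h2 κ y hy ha (by omega) (by omega) (by simp [Alg45.dist])
    rw [hA κ y hy] at h3
    rw [hR κ y hy]
    have h4 : Alg45.dist y y = 0 := by simp [Alg45.dist]
    rw [h4] at h3
    simpa using h3
  upF := by
    intro κ y hy ha
    rw [hR κ y hy]
    have h1 := RL_zero_le (W := W) (X := X) (k := k) hF
      (blk_dom (Nat.zero_le I) (by simpa using hj) hy) ha hy.1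
    have h2 := he κ
    linarith
  upM := by
    intro κ y hy ha κ' z hz hadm _ _ _
    rw [hR κ y hy, hA κ' z hz, RL_zero hy.2.2 ha hy.1, RL_zero hz.2.2 hadm hz.1]
    have h1 := hup y hy
    have h2 := hGl y z hy hz
    have h3 := hlo z hz
    have h4 : bv leaf y ≤ Alg45.dist y z + bv leaf z + 1 := by omega
    have h5 : (bv leaf y : ℝ) ≤ Alg45.dist y z + bv leaf z + 1 := by exact_mod_cast h4
    have h6 := he κ
    linarith

/-! ### a configuration -/

section cfg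

open Crest.Agent.R288.Asm331

variable {C : Cfg} {H : ℕ → ℕ × St → ℕ} {e₁ : ℕ}

/-- body mean at height `≥ 1`, lane mean at height `0` -/
noncomputable def A0 (C : Cfg) (H : ℕ → ℕ × St → ℕ) (e k κ : ℕ) (z : St) : ℝ :=
  if z.i = 0 then C.R H e k κ z else Ae C H e k κ z

theorem A0_zero {e k κ : ℕ} {z : St} (hi : z.i = 0) : A0 C H e k κ z = C.R H e k κ z := if_pos hi

theorem A0_pos {e k κ : ℕ} {z : St} (hi : 1 ≤ z.i) : A0 C H e k κ z = Ae C H e k κ z :=
  if_neg (by omega)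

variable (h : LaneNum C.P (2 ^ C.W) Λ s top) (hr : 8 ≤ C.P.r)
  (hF : FOk C.leaf (FE C.P H e₁) (Dom C.P C.I) Λ)
  (htop : ∀ y, Dom C.P C.I y → cls (FE C.P H e₁) y ≤ top)

include h hr hF htop

/-- **third line of (A5)**: `R ≤ A + eta 2^κ` at every admissible pair of the domain -/
theorem third_cfg (k : ℕ) {κ : ℕ} {z : St} (hz : Dom C.P C.I z)
    (ha : adm C.P (FE C.P H e₁) κ z = true) :
    C.R H e₁ k κ z ≤ A0 C H e₁ k κ z + eta C.P s * 2 ^ κ := by
  rcases Nat.eq_zero_or_pos z.i with hi | hi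
  · rw [A0_zero hi]
    have := eta_nonneg C.P s
    have : 0 ≤ eta C.P s * 2 ^ κ := by positivity
    linarith
  · rw [A0_pos hi, R_eq]
    exact third h hr hF htop hi hz ha

/-- **retire**: `R ≤ F + e` at every admissible pair of the domain of height `≥ 1` -/
theorem upF_cfg (k : ℕ) {κ : ℕ} {z : St} (hz : Dom C.P C.I z) (hi : 1 ≤ z.i)
    (ha : adm C.P (FE C.P H e₁) κ z = true) :
    C.R H e₁ k κ z ≤ FE C.P H e₁ z + eJ C.P s κ := by
  rw [R_eq]
  exact upF h hr hF htop hi hz ha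

/-- **retire** at every height, with `+ 1` -/
theorem upF_cfg' (k : ℕ) {κ : ℕ} {z : St} (hz : Dom C.P C.I z)
    (ha : adm C.P (FE C.P H e₁) κ z = true) :
    C.R H e₁ k κ z ≤ FE C.P H e₁ z + eJ C.P s κ + 1 := by
  rcases Nat.eq_zero_or_pos z.i with hi | hi
  · rw [R_eq]
    have h1 := RL_zero_le (W := 2 ^ C.W) (X := Xe C.P H e₁) (k := k) hF hz ha hi
    have h2 := eJ_nonneg C.P s κ
    linarith
  · have := upF_cfg h hr hF htop k hz hi ha
    linarith

/-- **(J) on every block of the domain** -/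
theorem ja_cfg (k : ℕ) {i j : ℕ} (hi : i ≤ C.I) (hj : j < C.P.N ^ (C.I - i)) {G : St → ℕ}
    (hlo : ∀ y, Blk C.P 0 j y → G y ≤ bv C.leaf y) (hup : ∀ y, Blk C.P 0 j y → bv C.leaf y ≤ G y + 1)
    (hGl : ∀ y z, Blk C.P 0 j y → Blk C.P 0 j z → G y ≤ G z + Alg45.dist y z) :
    JA C.P (FE C.P H e₁) (A0 C H e₁ k) (C.R H e₁ k) (fun κ => eJ C.P s κ + 1) i j := by
  rcases Nat.eq_zero_or_pos i with hi0 | hi1
  · subst hi0
    refine ja_zero (W := 2 ^ C.W) (X := Xe C.P H e₁) (k := k) hF (by simpa using hj)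
      (fun κ z hz => ?_) (fun κ z _ => R_eq C H e₁ k κ z) hlo hup hGl fun κ => ?_
    · rw [A0_zero hz.1]
      exact R_eq C H e₁ k κ z
    · have := eJ_nonneg C.P s κ
      linarith
  · refine ja_lane (X := Xe C.P H e₁) (k := k) h hr hF htop hi1 hi hj
      (fun κ z hz => ?_) (fun κ z _ => R_eq C H e₁ k κ z) fun κ => ?_
    · rw [A0_pos (by rw [hz.1]; exact hi1)]
      rfl
    · linarith

end cfg

end Crest.Agent.R288.JC984
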