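import Crest.Agent.R288.LaneNum_806
import Crest.Agent.R288.JC_984

/-!
# R288 (helper806): the failure price `eta` of the jump at `ParO331.parOf h` is at most `2^(-C W Lg)` for every `C`
-/

set_option autoImplicit false
set_option maxHeartbeats 400000

open Filter

namespace Crest.Agent.R288.LanePar806

open Crest.Agent.R288 Crest.Agent.R288.Alg45 Crest.Agent.R288.Par806 Crest.Agent.R288.ParO331
  Crest.Agent.R288.Asy720 Crest.Agent.R288.Cnt308 Crest.Agent.R288.LaneLaw944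

theorem ev_eL33 : ∀ᶠ h : ℕ in atTop, eL (parOf h) + 1 ≤ 2 ^ (33 * (W h * Lg h)) := by
  filter_upwards [ev_nJ, ev_exp_le_Lg 6 0 15] with h h1 h2
  have e1 : (4 : ℕ) ^ (parOf h).pb = 2 ^ (32 * (W h * Lg h)) := by
    show (4 : ℕ) ^ pb h = _
    rw [show (4 : ℕ) = 2 ^ 2 by norm_num, ← pow_mul]
    congr 1
    unfold pb
    ring
  have h4 : eL (parOf h) ≤ 2 ^ (15 * Mg h) * (18 * 2 ^ (32 * (W h * Lg h))) := by
    unfold eL
    rw [e1]
    exact Nat.mul_le_mul_right _ h1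
  have h5 : 15 * Mg h + 6 ≤ W h * Lg h := by
    have : Lg h ≤ W h * Lg h := Nat.le_mul_of_pos_left _ (W_pos h)
    omega
  have h6 : ∀ A B : ℕ, 1 ≤ A → 1 ≤ B → A * (18 * B) + 1 ≤ 64 * (A * B) := by
    intro A B hA hB
    have a1 : 1 ≤ A * B := Nat.mul_pos hA hB
    have a2 : A * (18 * B) = 18 * (A * B) := by ring
    omega
  have h7 : 64 * (2 ^ (15 * Mg h) * 2 ^ (32 * (W h * Lg h))) = 2 ^ (6 + (15 * Mg h + 32 * (W h * Lg h))) := by
    rw [pow_add 2 6, pow_add 2 (15 * Mg h)]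
    norm_num
  calc eL (parOf h) + 1
      ≤ 2 ^ (15 * Mg h) * (18 * 2 ^ (32 * (W h * Lg h))) + 1 := Nat.add_le_add_right h4 1
    _ ≤ 64 * (2 ^ (15 * Mg h) * 2 ^ (32 * (W h * Lg h))) := h6 _ _ Nat.one_le_two_pow Nat.one_le_two_pow
    _ = 2 ^ (6 + (15 * Mg h + 32 * (W h * Lg h))) := h7
    _ ≤ 2 ^ (33 * (W h * Lg h)) := Nat.pow_le_pow_right (by norm_num) (by omega)

theorem mul3_le {a b c A D : ℝ} (ha : a ≤ A) (hc : c ≤ D) (h0 : 0 ≤ a) (hb : 0 ≤ b) (hc0 : 0 ≤ c) :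
    a * b * c ≤ A * b * D :=
  mul_le_mul (mul_le_mul_of_nonneg_right ha hb) hc hc0 (mul_nonneg (h0.trans ha) hb)

/-- **the failure price of a jump**, for every constant `C` -/
theorem ev_etaL (C : ℕ) : ∀ᶠ h : ℕ in atTop,
    ((eL (parOf h) + 1 : ℕ) : ℝ) * (1 / 2 : ℝ) ^ sJ h * dL (parOf h) ≤ (1 / 2) ^ (C * (W h * Lg h)) := by
  filter_upwards [ev_eL33, ev_le_W (C + 34), ev_const_Lg 19] with h h1 h2 h3
  have h4 : ((eL (parOf h) + 1 : ℕ) : ℝ) ≤ 2 ^ (33 * (W h * Lg h)) := by exact_mod_cast h1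
  have h5 : (dL (parOf h) : ℝ) ≤ 2 ^ 19 := by
    rw [dL_parOf]
    norm_num
  have h6 : (33 * (W h * Lg h) + 19) + C * (W h * Lg h) ≤ sJ h := by
    have e : sJ h = W h * (W h * Lg h) := by unfold sJ; ring
    rw [e]
    have a1 : (C + 34) * (W h * Lg h) ≤ W h * (W h * Lg h) := Nat.mul_le_mul_right _ h2
    have a2 : Lg h ≤ W h * Lg h := Nat.le_mul_of_pos_left _ (W_pos h)
    have e2 : (C + 34) * (W h * Lg h) = C * (W h * Lg h) + 34 * (W h * Lg h) := by ring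
    omega
  calc ((eL (parOf h) + 1 : ℕ) : ℝ) * (1 / 2 : ℝ) ^ sJ h * dL (parOf h)
      ≤ 2 ^ (33 * (W h * Lg h)) * (1 / 2) ^ sJ h * 2 ^ 19 :=
        mul3_le h4 h5 (Nat.cast_nonneg _) (pow_nonneg (by norm_num) _) (Nat.cast_nonneg _)
    _ = 2 ^ (33 * (W h * Lg h) + 19) * (1 / 2) ^ sJ h := by rw [pow_add]; ring
    _ ≤ 2 ^ (33 * (W h * Lg h) + 19) * (1 / 2) ^ ((33 * (W h * Lg h) + 19) + C * (W h * Lg h)) := by
        refine mul_le_mul_of_nonneg_left ?_ (by positivity)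
        exact pow_le_pow_of_le_one (by norm_num) (by norm_num) h6
    _ = (1 / 2) ^ (C * (W h * Lg h)) := two_half _ _

/-- 984's `eta` -/
theorem ev_etaP (C : ℕ) : ∀ᶠ h : ℕ in atTop,
    JC984.eta (parOf h) (sJ h) ≤ (1 / 2) ^ (C * (W h * Lg h)) := ev_etaL C

end Crest.Agent.R288.LanePar806
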