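import Crest.Agent.R288.Chain_128
import Crest.Agent.R288.InitA_772

/-!
# R288 (S0433): the cost on all integer diagonals and the start promise (helper128)

* `cdz x y h j u v` = how far `u`, `v` are from the admissible diagonals at the two ends of the node
  `(h, j)`; **`gx = gn + cdz`**: coercive (`|u - v| ≤ gx`), `1`-Lipschitz, exact binary split
  `gx_succ : gx (h + 1) j = mpl (gx h (2 j)) (gx h (2 j + 1))` on ALL integer diagonals;
  `gx_root` = edit distance;
* `W_of_mpl`: `gx (h + r) j = W (gx h) r j`; `stair_of_split`: a binary subsolution is a macro one;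
* `V0 = max ((T0 + cdz) / 2) |u - v|`: `Prom`, `V0 ≤ gx ≤ 16 2^g L V0`;
* `mac h0 n f i j = f (h0 + n i) j`: the macro functions; `ok_of_Tt`: `Data.Ok` of `Chain_128` for
  `T0 = mac V0`, `G = mac gx`.
-/

set_option autoImplicit false

namespace Crest.Agent.R288.Ext128

open Crest.GraphRAM Crest.Agent.R288.Ed Crest.Agent.R288.GameA347 Crest.Agent.R288.NodeA785
open Crest.Agent.R288.VI684 Crest.Agent.R288.Init772 Crest.Agent.R288.Chain128

theorem dz_eq (u v : ℤ) : dz u v = (((u - v).natAbs : ℕ) : ℝ) := by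
  unfold dz
  rw [Nat.cast_natAbs, Int.cast_abs]
  push_cast
  rfl

theorem dz_eq' (u v : ℤ) : dz u v = |((u - v : ℤ) : ℝ)| := by
  unfold dz
  push_cast
  rfl

/-! ### clip distances -/

/-- distance of `u` from the admissible diagonals at the row `a` -/
def cd (n a : ℕ) (u : ℤ) : ℕ := (u - clip n a u).natAbs

theorem cd_adm {n a : ℕ} {u : ℤ} (h : Adm n a u) : cd n a u = 0 := by
  unfold cd; rw [clip_of_adm h]; simp

/-- clipping does not lose length -/
theorem cd_add (n a : ℕ) (u u' : ℤ) :
    cd n a u + (clip n a u - clip n a u').natAbs ≤ cd n a u' + (u - u').natAbs := by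
  unfold cd clip pos; omega

theorem cd_lip (n a : ℕ) (u u' : ℤ) : cd n a u ≤ cd n a u' + (u - u').natAbs := by
  have := cd_add n a u u'; omega

section

variable (x y : List ℕ)

/-- distance of the state from the admissible ones -/
def cdz (h j : ℕ) (u v : ℤ) : ℝ :=
  (cd y.length (lo x.length h j) u : ℝ) + cd y.length (hi x.length h j) v

/-- the cost of a node on all integer diagonals -/
def gx (h j : ℕ) (u v : ℤ) : ℝ := (gn x y h j u v : ℝ) + cdz x y h j u v

theorem cdz_nonneg (h j : ℕ) (u v : ℤ) : 0 ≤ cdz x y h j u v := by unfold cdz; positivity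

theorem gx_nonneg (h j : ℕ) (u v : ℤ) : 0 ≤ gx x y h j u v := by
  have := cdz_nonneg x y h j u v
  unfold gx; positivity

theorem cdz_le_gx (h j : ℕ) (u v : ℤ) : cdz x y h j u v ≤ gx x y h j u v := by
  unfold gx
  have : (0 : ℝ) ≤ gn x y h j u v := Nat.cast_nonneg _
  linarith

theorem gn_le_gx (h j : ℕ) (u v : ℤ) : (gn x y h j u v : ℝ) ≤ gx x y h j u v := by
  have := cdz_nonneg x y h j u v
  unfold gx; linarith

/-- on admissible states nothing changes -/
theorem gx_adm {h j : ℕ} {u v : ℤ} (hu : Adm y.length (lo x.length h j) u)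
    (hv : Adm y.length (hi x.length h j) v) : gx x y h j u v = gn x y h j u v := by
  unfold gx cdz
  rw [cd_adm hu, cd_adm hv]; simp

theorem gn_clip (h j : ℕ) (u v : ℤ) : gn x y h j (clip y.length (lo x.length h j) u)
    (clip y.length (hi x.length h j) v) = gn x y h j u v := by
  unfold gn; rw [g_clip]

/-- the cost from the clipped state -/
theorem gx_eq_clip (h j : ℕ) (u v : ℤ) : gx x y h j u v =
    gx x y h j (clip y.length (lo x.length h j) u) (clip y.length (hi x.length h j) v) +
      cdz x y h j u v := by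
  rw [gx_adm x y (adm_clip _ _ _) (adm_clip _ _ _), gn_clip]
  rfl

/-- the root is the edit distance -/
theorem gx_root {H : ℕ} (hH : x.length ≤ 2 ^ H) :
    gx x y H 0 0 ((y.length : ℤ) - x.length) = editDist x y := by
  rw [gx_adm x y, gn_root x y hH]
  · rw [lo_zero]; constructor <;> omega
  · rw [hi_root hH]; constructor <;> omega

theorem gx_coer (h j : ℕ) : Coer (gx x y h j) := by
  intro u v
  have h1 := gn_ge x y h j (adm_clip y.length (lo x.length h j) u)
    (adm_clip y.length (hi x.length h j) v)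
  rw [gn_clip] at h1
  have h2 : (u - v).natAbs ≤ gn x y h j u v +
      (cd y.length (lo x.length h j) u + cd y.length (hi x.length h j) v) := by
    unfold cd; omega
  rw [dz_eq]
  unfold gx cdz
  exact_mod_cast h2

theorem gx_lip (h j : ℕ) : Lip (gx x y h j) := by
  intro u v u' v'
  have h1 := gn_lip x y h j (clip y.length (lo x.length h j) u)
    (clip y.length (lo x.length h j) u') (clip y.length (hi x.length h j) v)
    (clip y.length (hi x.length h j) v')
  rw [gn_clip, gn_clip] at h1
  have h2 := cd_add y.length (lo x.length h j) u u'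
  have h3 := cd_add y.length (hi x.length h j) v v'
  have h4 : gn x y h j u v + (cd y.length (lo x.length h j) u + cd y.length (hi x.length h j) v) ≤
      gn x y h j u' v' + (cd y.length (lo x.length h j) u' + cd y.length (hi x.length h j) v') +
        ((u - u').natAbs + (v - v').natAbs) := by omega
  rw [dz_eq, dz_eq]
  unfold gx cdz
  exact_mod_cast h4

theorem cdz_lip (h j : ℕ) : Lip (cdz x y h j) := by
  intro u v u' v'
  have h2 := cd_lip y.length (lo x.length h j) u u'
  have h3 := cd_lip y.length (hi x.length h j) v v'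
  have h4 : (cd y.length (lo x.length h j) u + cd y.length (hi x.length h j) v) ≤
      (cd y.length (lo x.length h j) u' + cd y.length (hi x.length h j) v') +
        ((u - u').natAbs + (v - v').natAbs) := by omega
  rw [dz_eq, dz_eq]
  unfold cdz
  exact_mod_cast h4

/-- splitting -/
theorem cdz_split (h j : ℕ) (u m v : ℤ) :
    cdz x y (h + 1) j u v ≤ cdz x y h (2 * j) u m + cdz x y h (2 * j + 1) m v := by
  unfold cdz
  rw [lo_succ, hi_succ]
  have h1 : (0 : ℝ) ≤ cd y.length (hi x.length h (2 * j)) m := Nat.cast_nonneg _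
  have h2 : (0 : ℝ) ≤ cd y.length (lo x.length h (2 * j + 1)) m := Nat.cast_nonneg _
  linarith

theorem gx_split_le (h j : ℕ) (u m v : ℤ) :
    gx x y (h + 1) j u v ≤ gx x y h (2 * j) u m + gx x y h (2 * j + 1) m v := by
  have h1 : (gn x y (h + 1) j u v : ℝ) ≤ (gn x y h (2 * j) u m : ℝ) + gn x y h (2 * j + 1) m v := by
    exact_mod_cast gn_split_le x y h j u v m
  have h2 := cdz_split x y h j u m v
  unfold gx
  linarith

theorem exists_gx_split (h j : ℕ) (u v : ℤ) : ∃ m : ℤ,
    Adm y.length (lo x.length h (2 * j + 1)) m ∧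
    gx x y (h + 1) j u v = gx x y h (2 * j) u m + gx x y h (2 * j + 1) m v := by
  obtain ⟨m, hm, he⟩ := exists_gn_split x y h j u v
  refine ⟨m, hm, ?_⟩
  unfold gx cdz
  rw [lo_succ, hi_succ, he, hi_left, cd_adm hm]
  push_cast
  ring

/-- **exact binary split on all integer diagonals** -/
theorem gx_succ (h j : ℕ) : gx x y (h + 1) j = mpl (gx x y h (2 * j)) (gx x y h (2 * j + 1)) := by
  funext u v
  apply le_antisymm
  · exact le_mpl fun m => gx_split_le x y h j u m v
  · obtain ⟨m, _, hm⟩ := exists_gx_split x y h j u v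
    rw [hm]
    exact mpl_le (gx_coer x y h _) (gx_coer x y h _) u v m

end

/-! ### from binary levels to windows -/

theorem W_of_mpl {f : Fn} (hf : ∀ h j, f (h + 1) j = mpl (f h (2 * j)) (f h (2 * j + 1)))
    (h r j : ℕ) : f (h + r) j = W (f h) r j := by
  induction r generalizing j with
  | zero => rfl
  | succ r ih => rw [← add_assoc, hf, W_succ, ih, ih]

theorem stair_of_split {f : Fn}
    (hf : ∀ h j u m v, f (h + 1) j u v ≤ f h (2 * j) u m + f h (2 * j + 1) m v) (h r : ℕ) :
    ∀ (j : ℕ) (m : ℕ → ℤ), f (h + r) j (m 0) (m (2 ^ r)) ≤ stair (f h) r j m := by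
  induction r with
  | zero => intro j m; simp [stair_zero]
  | succ r ih =>
    intro j m
    rw [stair_succ]
    have h1 := ih (2 * j) m
    have h2 := ih (2 * j + 1) (fun t => m (2 ^ r + t))
    have h3 := hf (h + r) j (m 0) (m (2 ^ r)) (m (2 ^ (r + 1)))
    simp only [add_zero] at h2
    have e : 2 ^ r + 2 ^ r = 2 ^ (r + 1) := by rw [pow_succ]; ring
    rw [e] at h2
    rw [← add_assoc]
    linarith

/-- a version with a bound on the heights -/
theorem stair_of_split' {f : Fn} {H : ℕ}
    (hf : ∀ h j u m v, h + 1 ≤ H → f (h + 1) j u v ≤ f h (2 * j) u m + f h (2 * j + 1) m v)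
    (h r : ℕ) (hr : h + r ≤ H) :
    ∀ (j : ℕ) (m : ℕ → ℤ), f (h + r) j (m 0) (m (2 ^ r)) ≤ stair (f h) r j m := by
  induction r with
  | zero => intro j m; simp [stair_zero]
  | succ r ih =>
    intro j m
    rw [stair_succ]
    have h1 := ih (by omega) (2 * j) m
    have h2 := ih (by omega) (2 * j + 1) (fun t => m (2 ^ r + t))
    have h3 := hf (h + r) j (m 0) (m (2 ^ r)) (m (2 ^ (r + 1))) (by omega)
    simp only [add_zero] at h2
    have e : 2 ^ r + 2 ^ r = 2 ^ (r + 1) := by rw [pow_succ]; ring
    rw [e] at h2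
    rw [← add_assoc]
    linarith

/-- the macro function of a binary one: bottom height `h0`, windows of `n` levels -/
def mac (h0 n : ℕ) (f : Fn) : Fn := fun i j => f (h0 + n * i) j

theorem mac_succ (h0 n : ℕ) (f : Fn) (i j : ℕ) : mac h0 n f (i + 1) j = f (h0 + n * i + n) j := by
  unfold mac
  rw [show h0 + n * (i + 1) = h0 + n * i + n by ring]

theorem mac_W {f : Fn} (hf : ∀ h j, f (h + 1) j = mpl (f h (2 * j)) (f h (2 * j + 1)))
    (h0 n i j : ℕ) (u v : ℤ) : mac h0 n f (i + 1) j u v = W (mac h0 n f i) n j u v := by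
  rw [mac_succ, W_of_mpl hf]
  rfl

/-! ### the start promise on all integer diagonals -/

section promise

variable (x y : List ℕ) (g L : ℕ)

/-- half of the start promise plus the distance from the admissible states; above the height
`2 L - 1` constant zero (never used) -/
noncomputable def T1 (h j : ℕ) (u v : ℤ) : ℝ :=
  if h + 1 ≤ 2 * L then (T0 x y g L h j u v + cdz x y h j u v) / 2 else 0

/-- **the start promise** -/
noncomputable def V0 (h j : ℕ) (u v : ℤ) : ℝ := max (T1 x y g L h j u v) (dz u v)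

variable {g L}

theorem T0_lip (hg : 1 ≤ g) {h : ℕ} (hL : h + 1 ≤ 4 * L) (j : ℕ) :
    Lip (T0 x y g L h j) := by
  refine Lip.mk (fun u u' v => ?_) (fun u v v' => ?_)
  · rw [dz_eq']; exact T0_lip_left x y hg hL j u u' v
  · rw [dz_eq']; exact T0_lip_right x y hL j u v v'

/-- `T0 ≤ gx` on all integer diagonals -/
theorem T0_le_gx (hg : 1 ≤ g) {h : ℕ} (hL : h + 1 ≤ 4 * L) (j : ℕ) (u v : ℤ) :
    T0 x y g L h j u v ≤ gx x y h j u v := by
  have h1 := T0_lip x y hg hL j u v (clip y.length (lo x.length h j) u)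
    (clip y.length (hi x.length h j) v)
  have h2 := T0_le_gn x y hg hL j _ _ (adm_clip y.length (lo x.length h j) u)
    (adm_clip y.length (hi x.length h j) v)
  rw [gn_clip] at h2
  have h3 : dz u (clip y.length (lo x.length h j) u) + dz v (clip y.length (hi x.length h j) v) =
      cdz x y h j u v := by
    rw [dz_eq, dz_eq]; rfl
  rw [h3] at h1
  unfold gx
  linarith

theorem T1_lip (hg : 1 ≤ g) (h j : ℕ) : Lip (T1 x y g L h j) := by
  intro u v u' v'
  unfold T1
  split_ifs with hL
  · have h1 := T0_lip x y hg (g := g) (L := L) (by omega : h + 1 ≤ 4 * L) j u v u' v'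
    have h2 := cdz_lip x y h j u v u' v'
    linarith
  · have := add_nonneg (dz_nonneg u u') (dz_nonneg v v')
    linarith

theorem T1_nonneg (h j : ℕ) (u v : ℤ) : 0 ≤ T1 x y g L h j u v := by
  unfold T1
  split_ifs with hL
  · have h1 := T0_nonneg x y (g := g) (L := L) (by omega : h + 1 ≤ 4 * L) j u v
    have h2 := cdz_nonneg x y h j u v
    linarith
  · exact le_rfl

theorem T1_split (hg : 1 ≤ g) (h j : ℕ) (u m v : ℤ) :
    T1 x y g L (h + 1) j u v ≤ T1 x y g L h (2 * j) u m + T1 x y g L h (2 * j + 1) m v := by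
  have hA := T1_nonneg x y (g := g) (L := L) h (2 * j) u m
  have hB := T1_nonneg x y (g := g) (L := L) h (2 * j + 1) m v
  by_cases hL : h + 1 + 1 ≤ 2 * L
  · have e1 : T1 x y g L (h + 1) j u v = (T0 x y g L (h + 1) j u v + cdz x y (h + 1) j u v) / 2 := by
      unfold T1; rw [if_pos hL]
    have e2 : T1 x y g L h (2 * j) u m = (T0 x y g L h (2 * j) u m + cdz x y h (2 * j) u m) / 2 := by
      unfold T1; rw [if_pos (by omega)]
    have e3 : T1 x y g L h (2 * j + 1) m v =
        (T0 x y g L h (2 * j + 1) m v + cdz x y h (2 * j + 1) m v) / 2 := by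
      unfold T1; rw [if_pos (by omega)]
    rw [e1, e2, e3]
    have h1 := T0_split x y (L := L) hg (by omega : h + 2 ≤ 4 * L) j u m v
    have h2 := cdz_split x y h j u m v
    linarith
  · have e1 : T1 x y g L (h + 1) j u v = 0 := by
      unfold T1; rw [if_neg hL]
    rw [e1]
    linarith

theorem T1_le_gx (hg : 1 ≤ g) (h j : ℕ) (u v : ℤ) : T1 x y g L h j u v ≤ gx x y h j u v := by
  have h0 := gx_nonneg x y h j u v
  unfold T1
  split_ifs with hL
  · have h1 := T0_le_gx x y hg (g := g) (L := L) (by omega : h + 1 ≤ 4 * L) j u v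
    have h2 := cdz_le_gx x y h j u v
    linarith
  · exact h0

theorem V0_le_gx (hg : 1 ≤ g) (h j : ℕ) (u v : ℤ) : V0 x y g L h j u v ≤ gx x y h j u v :=
  max_le (T1_le_gx x y hg h j u v) (gx_coer x y h j u v)

/-- **quality of the start promise**: `B₀ = 16 2^g L` (heights below `2 L`) -/
theorem gx_le_V0 {h : ℕ} (hL : h + 1 ≤ 2 * L) (j : ℕ) (u v : ℤ) :
    gx x y h j u v ≤ 16 * 2 ^ g * L * V0 x y g L h j u v := by
  have h1 := gn_le_T0 x y (g := g) hL j u v
  have hc := cdz_nonneg x y h j u v
  have hp : (1 : ℝ) ≤ 2 ^ g := one_le_pow₀ (by norm_num)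
  have hl : (1 : ℝ) ≤ L := by
    have : 1 ≤ L := by omega
    exact_mod_cast this
  have hB : (1 : ℝ) ≤ 8 * 2 ^ g * L := by nlinarith
  have h2 : cdz x y h j u v ≤ 8 * 2 ^ g * L * cdz x y h j u v := le_mul_of_one_le_left hc hB
  have h3 : gx x y h j u v ≤ 16 * 2 ^ g * L * T1 x y g L h j u v := by
    unfold T1 gx
    rw [if_pos hL]
    linarith
  refine h3.trans (mul_le_mul_of_nonneg_left (le_max_left _ _) (by positivity))

/-- the macro start promise is a promise -/
theorem prom_V0 (hg : 1 ≤ g) (h0 n : ℕ) : Prom n (mac h0 n (V0 x y g L)) := by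
  have := promise_max (n := n) (T := mac h0 n (T1 x y g L)) (fun i j => T1_lip x y hg _ j)
    (fun i j m => by
      rw [mac_succ]
      exact stair_of_split (fun h j u m v => T1_split x y hg h j u m v) (h0 + n * i) n j m)
  exact this

end promise

/-! ### heights above the root: exact extension -/

/-- `T` up to the height `I`, above it the exact extension by `W` -/
noncomputable def ext (n I : ℕ) (T : Fn) : Fn
  | 0, j => T 0 j
  | i + 1, j => if i + 1 ≤ I then T (i + 1) j else W (ext n I T i) n j

theorem ext_of_le {n I : ℕ} {T : Fn} {i : ℕ} (h : i ≤ I) (j : ℕ) : ext n I T i j = T i j := by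
  cases i with
  | zero => rfl
  | succ i => unfold ext; rw [if_pos h]

theorem ext_of_lt {n I : ℕ} {T : Fn} {i : ℕ} (h : I < i + 1) (j : ℕ) :
    ext n I T (i + 1) j = W (ext n I T i) n j := by
  rw [ext, if_neg (by omega)]

theorem prom_ext {n I : ℕ} {T : Fn} (hT : Prom n T) : Prom n (ext n I T) := by
  have hc : ∀ i j, Coer (ext n I T i j) := by
    intro i
    induction i with
    | zero => intro j; exact hT.coer 0 j
    | succ i ih =>
      intro j
      by_cases h : i + 1 ≤ I
      · rw [ext_of_le h]; exact hT.coer _ j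
      · rw [ext_of_lt (by omega)]; exact W_coer ih n j
  refine ⟨hc, fun i => ?_, fun i j u v => ?_⟩
  · induction i with
    | zero => intro j; exact hT.lip 0 j
    | succ i ih =>
      intro j
      by_cases h : i + 1 ≤ I
      · rw [ext_of_le h]; exact hT.lip _ j
      · rw [ext_of_lt (by omega)]; exact W_lip (hc i) ih n j
  · by_cases h : i + 1 ≤ I
    · rw [ext_of_le h]
      have e : ext n I T i = T i := funext fun j => ext_of_le (by omega) j
      rw [e]
      exact hT.sub i j u v
    · rw [ext_of_lt (by omega)]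

/-! ### the data of the chain -/

section chain

variable (x y : List ℕ) (g L h0 n I : ℕ) (lam : ℝ) (Tt : ℕ → Fn)

/-- the chain for the strings `x`, `y`; root at the macro height `I` -/
noncomputable def dat : Data where
  n := n
  T0 := ext n I (mac h0 n (V0 x y g L))
  G := mac h0 n (gx x y)
  lam := lam
  Tt := Tt

theorem G_mac (i j : ℕ) (u v : ℤ) :
    mac h0 n (gx x y) (i + 1) j u v = W (mac h0 n (gx x y) i) n j u v :=
  mac_W (gx_succ x y) h0 n i j u v

variable {g L h0 n I lam Tt}

/-- **the hypotheses of the chain hold for the strings**, `B₀ = 16 2^g L` -/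
theorem ok (hg : 1 ≤ g) (hL : h0 + n * I + 1 ≤ 2 * L) (hlam : 1 ≤ lam)
    (hTt : ∀ r i j u v, (dat x y g L h0 n I lam Tt).Vs r i j u v ≤ Tt r i j u v) :
    (dat x y g L h0 n I lam Tt).Ok (16 * 2 ^ g * L) := by
  have hP := prom_V0 x y (g := g) (L := L) hg h0 n
  have hE := prom_ext (I := I) hP
  have hl : (1 : ℝ) ≤ L := by
    have : 1 ≤ L := by omega
    exact_mod_cast this
  have hp : (1 : ℝ) ≤ 2 ^ g := one_le_pow₀ (by norm_num)
  have hB : (0 : ℝ) < 16 * 2 ^ g * L := by positivity
  refine ⟨hlam, hE, ?_, ?_, fun i j => gx_lip x y _ j, fun i j u v => G_mac x y h0 n i j u v, hTt⟩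
  · show ∀ i j u v, ext n I (mac h0 n (V0 x y g L)) i j u v ≤ mac h0 n (gx x y) i j u v
    intro i
    induction i with
    | zero => intro j u v; exact V0_le_gx x y hg _ j u v
    | succ i ih =>
      intro j u v
      by_cases h : i + 1 ≤ I
      · rw [ext_of_le h]; exact V0_le_gx x y hg _ j u v
      · rw [ext_of_lt (by omega), G_mac]
        exact W_mono (hE.coer i) n j (fun t _ u v => ih _ u v) u v
  · show ∀ i j u v, mac h0 n (gx x y) i j u v ≤
      16 * 2 ^ g * L * ext n I (mac h0 n (V0 x y g L)) i j u v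
    have key : ∀ i j u v, (16 * 2 ^ g * L : ℝ)⁻¹ * mac h0 n (gx x y) i j u v ≤
        ext n I (mac h0 n (V0 x y g L)) i j u v := by
      intro i
      induction i with
      | zero =>
        intro j u v
        rw [inv_mul_le_iff₀ hB]
        exact gx_le_V0 x y (by simp only [Nat.mul_zero, Nat.add_zero]; omega) j u v
      | succ i ih =>
        intro j u v
        by_cases h : i + 1 ≤ I
        · rw [ext_of_le h, inv_mul_le_iff₀ hB]
          have h2 : n * (i + 1) ≤ n * I := Nat.mul_le_mul_left _ h
          exact gx_le_V0 x y (by omega) j u v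
        · rw [ext_of_lt (by omega), G_mac]
          exact mul_W_le (by positivity) (hE.coer i) n (fun j => gx_coer x y _ j) ih j u v
    intro i j u v
    have h1 := key i j u v
    rwa [inv_mul_le_iff₀ hB] at h1

/-- **after `log (16 2^g L) / log lam` rounds the promise at the root is the edit distance** -/
theorem Vs_root (hg : 1 ≤ g) (hL : h0 + n * I + 1 ≤ 2 * L) (hlam : 1 ≤ lam)
    (hTt : ∀ r i j u v, (dat x y g L h0 n I lam Tt).Vs r i j u v ≤ Tt r i j u v)
    (hx : x.length ≤ 2 ^ (h0 + n * I)) {r : ℕ} (hr : 16 * 2 ^ g * (L : ℝ) ≤ lam ^ r) :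
    (dat x y g L h0 n I lam Tt).Vs r I 0 0 ((y.length : ℤ) - x.length) = editDist x y := by
  rw [Data.Vs_eq_G (ok x y hg hL hlam hTt) hr]
  exact gx_root x y hx

end chain

end Crest.Agent.R288.Ext128
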