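import Crest.Agent.R288.AlgS_125
import Crest.Agent.R288.Hull_131

/-!
# R288, leaf HULL part 3 (helper131): (F3') for every integer staircase of every state

`Fe` = unit of the epoch, `Fn` = next unit (hull of the mean), `κ = cls Fe y`, `z = rdn P κ y` (the pair
of the state `y`).  The far inequality of the window of the pair `(κ, z)` (711's `Win.far` /
`window_irregular`), the mean of the hulls (`Hull131.sum_hull_cmean`) and the multiplicative Lipschitz
property of `Fn` (364) give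

`Fn y ≤ (1 + ζ) ∑_q Fn (piece q of m) + ((1 + ζ) 2 N g_κ + 2 g_κ + Z / K + err)`

for EVERY integer staircase `m` of `y` inside the domain (so also for the grid of any other class of `y`).
ALG v2 names (`IsSt` with the domain field).
-/

set_option autoImplicit false

namespace Crest.Agent.R288.F3P131

open Finset Crest.Agent.R288.Alg45 Crest.Agent.R288.AlgS125

variable (P : Par)

/-- displacement of a cut is at most the sum of the displacements of the pieces before it -/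
theorem cut_le_sum (m : ℕ → ℤ) (f : ℕ → ℕ) {n : ℕ}
    (h : ∀ q < n, (m (q + 1) - m q).natAbs ≤ f q) {q : ℕ} (hq : q ≤ n) :
    (m q - m 0).natAbs ≤ ∑ i ∈ range n, f i := by
  have h1 : ∀ q ≤ n, (m q - m 0).natAbs ≤ ∑ i ∈ range q, f i := by
    intro q hq
    induction q with
    | zero => simp
    | succ q ih =>
      rw [sum_range_succ]
      have h2 := ih (by omega)
      have h3 := h q (by omega)
      have h4 : (m (q + 1) - m 0).natAbs ≤ (m (q + 1) - m q).natAbs + (m q - m 0).natAbs := by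
        have : m (q + 1) - m 0 = (m (q + 1) - m q) + (m q - m 0) := by ring
        rw [this]
        exact Int.natAbs_add_le _ _
      omega
  exact (h1 q hq).trans (sum_le_sum_of_subset (range_mono hq))

/-- the rounded staircase of the pair -/
theorem exists_round {κ : ℕ} {y : St} {m : ℕ → ℤ} (hD : gst P κ ∣ P.Dm) (h0 : m 0 = y.u)
    (hN : m P.N = y.v) (hr : ∀ q, 0 < q → q < P.N → |m q - (rdn P κ y).u| ≤ P.r * 2 ^ κ)
    (hdm : ∀ q, 0 < q → q < P.N → |m q| ≤ P.Dm) :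
    ∃ m' : ℕ → ℤ, IsSt P κ (rdn P κ y) m' ∧ ∀ q ≤ P.N, m' q ≤ m q ∧ m q < m' q + gst P κ := by
  have hNp : 0 < P.N := N_pos P
  let m1 : ℕ → ℤ := fun q => if q = 0 then (rdn P κ y).u else if q = P.N then (rdn P κ y).v else m q
  have e0 : m1 0 = (rdn P κ y).u := if_pos rfl
  have eN : m1 P.N = (rdn P κ y).v := by
    simp only [m1]
    rw [if_neg (by omega)]
    simp
  have ei : ∀ q, 0 < q → q < P.N → m1 q = m q := by
    intro q hq hq'
    simp only [m1]
    rw [if_neg (by omega), if_neg (by omega)]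
  obtain ⟨m', h1, h2, h3⟩ := isSt_rd P (κ := κ) (x := rdn P κ y) (m := m1) hD e0 eN
    (fun q hq hq' => by rw [ei q hq hq']; exact hr q hq hq')
    (fun q hq hq' => by rw [ei q hq hq']; exact hdm q hq hq')
  refine ⟨m', h1, fun q hq => ?_⟩
  rcases Nat.eq_zero_or_pos q with rfl | hq0
  · rw [h1.zero, h0]
    exact ⟨rd_le P κ y.u, lt_rd P κ y.u⟩
  · rcases Nat.lt_or_ge q P.N with hq1 | hq1
    · rw [← ei q hq0 hq1]
      exact ⟨h2 q, h3 q⟩
    · obtain rfl : q = P.N := by omega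
      rw [h1.last, hN]
      exact ⟨rd_le P κ y.v, lt_rd P κ y.v⟩

/-- **(F3')**, every integer staircase (inside the domain) of every state. -/
theorem f3_int {K : ℕ} (hK : 0 < K) {Fe Fn : St → ℕ} {A : ℕ → ℝ} {C : ℕ → St → ℕ}
    {ζ Z err Xb : ℝ} (hζ : 0 ≤ ζ) (hZ : 0 ≤ Z) (herr : 0 ≤ err) {y : St} {m : ℕ → ℤ}
    (hD : gst P (cls Fe y) ∣ P.Dm) (h0 : m 0 = y.u) (hN : m P.N = y.v)
    (hdm : ∀ q, 0 < q → q < P.N → |m q| ≤ P.Dm) (hr : 3 ≤ P.r) (hFe : Fn y ≤ Fe y)
    (hcoer : ∀ q < P.N, (m (q + 1) - m q).natAbs ≤ Fn (pc P y m q))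
    (hown : (Fn y : ℝ) ≤ (Alg45.dist y (rdn P (cls Fe y) y) : ℝ) + Xb)
    (hXb : Xb ≤ (∑ k ∈ range K, A k) / K + err)
    (hfar : ∀ m' : ℕ → ℤ, IsSt P (cls Fe y) (rdn P (cls Fe y) y) m' →
      ∑ k ∈ range K, A k
        ≤ ∑ k ∈ range K, ∑ q ∈ range P.N, (C k (pc P (rdn P (cls Fe y) y) m' q) : ℝ) + Z)
    (hC : ∀ m' : ℕ → ℤ, IsSt P (cls Fe y) (rdn P (cls Fe y) y) m' → ∀ q < P.N,
      ∑ k ∈ range K, C k (pc P (rdn P (cls Fe y) y) m' q)
        ≤ K * Fn (pc P (rdn P (cls Fe y) y) m' q))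
    (hlip : ∀ m' : ℕ → ℤ, IsSt P (cls Fe y) (rdn P (cls Fe y) y) m' → ∀ q < P.N,
      (Fn (pc P (rdn P (cls Fe y) y) m' q) : ℝ) ≤ (1 + ζ) * ((Fn (pc P y m q) : ℝ)
        + (Alg45.dist (pc P (rdn P (cls Fe y) y) m' q) (pc P y m q) : ℝ))) :
    (Fn y : ℝ) ≤ (1 + ζ) * ∑ q ∈ range P.N, (Fn (pc P y m q) : ℝ)
      + ((1 + ζ) * (2 * P.N * gst P (cls Fe y)) + 2 * gst P (cls Fe y) + Z / K + err) := by
  set κ := cls Fe y with hκ
  set z := rdn P κ y with hz
  have hK' : (0 : ℝ) < K := by exact_mod_cast hK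
  have hg0 : (0 : ℝ) ≤ gst P κ := Nat.cast_nonneg _
  have hN0 : (0 : ℝ) ≤ P.N := Nat.cast_nonneg _
  have hrest : 0 ≤ (1 + ζ) * (2 * (P.N : ℝ) * gst P κ) + 2 * gst P κ + Z / K + err := by
    positivity
  by_cases hin : ∀ q, 0 < q → q < P.N → |m q - z.u| ≤ P.r * 2 ^ κ
  · obtain ⟨m', hm', hmm⟩ := exists_round P hD h0 hN hin hdm
    have hd : ∀ q < P.N, (Alg45.dist (pc P z m' q) (pc P y m q) : ℝ) ≤ 2 * gst P κ := by
      intro q hq
      have h1 := hmm q (by omega)
      have h2 := hmm (q + 1) (by omega)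
      have h3 : Alg45.dist (pc P z m' q) (pc P y m q) ≤ 2 * gst P κ := by
        unfold Alg45.dist pc
        simp only
        omega
      exact_mod_cast h3
    have h4 := hfar m' hm'
    have h5 : ∑ k ∈ range K, ∑ q ∈ range P.N, (C k (pc P z m' q) : ℝ)
        ≤ K * ((1 + ζ) * (∑ q ∈ range P.N, (Fn (pc P y m q) : ℝ) + P.N * (2 * gst P κ))) := by
      rw [sum_comm]
      calc ∑ q ∈ range P.N, ∑ k ∈ range K, (C k (pc P z m' q) : ℝ)
          ≤ ∑ q ∈ range P.N, (K : ℝ) * ((1 + ζ) * ((Fn (pc P y m q) : ℝ) + 2 * gst P κ)) := by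
            refine sum_le_sum fun q hq => ?_
            have hq' := mem_range.1 hq
            have h6 : (∑ k ∈ range K, (C k (pc P z m' q) : ℝ)) ≤ K * (Fn (pc P z m' q) : ℝ) := by
              exact_mod_cast hC m' hm' q hq'
            refine h6.trans (mul_le_mul_of_nonneg_left ?_ hK'.le)
            refine (hlip m' hm' q hq').trans (mul_le_mul_of_nonneg_left ?_ (by linarith))
            linarith [hd q hq']
        _ = _ := by
            rw [← mul_sum, ← mul_sum, sum_add_distrib, sum_const, card_range, nsmul_eq_mul]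
    have h7 : (∑ k ∈ range K, A k) / K
        ≤ (1 + ζ) * (∑ q ∈ range P.N, (Fn (pc P y m q) : ℝ) + P.N * (2 * gst P κ)) + Z / K := by
      rw [div_le_iff₀ hK', add_mul, div_mul_cancel₀ _ hK'.ne']
      linarith
    have h8 : (Alg45.dist y z : ℝ) ≤ 2 * gst P κ := by
      have : Alg45.dist y z ≤ 2 * gst P κ := (dist_rdn P κ y).le
      exact_mod_cast this
    calc (Fn y : ℝ) ≤ (Alg45.dist y z : ℝ) + Xb := hown
      _ ≤ 2 * gst P κ + ((1 + ζ) * (∑ q ∈ range P.N, (Fn (pc P y m q) : ℝ)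
            + P.N * (2 * gst P κ)) + Z / K + err) := by linarith
      _ = _ := by ring
  · -- a cut far away: the sum is large
    push Not at hin
    obtain ⟨q, hq0, hqN, hq⟩ := hin
    have h1 := cut_le_sum m (fun q => Fn (pc P y m q)) (n := P.N) hcoer (q := q) (by omega)
    have h2 : Fe y < 2 ^ (κ + 1) := by
      rw [hκ]
      exact Nat.lt_pow_succ_log_self (by norm_num) _
    have h3 : (rdn P κ y).u ≤ y.u ∧ y.u < (rdn P κ y).u + gst P κ := ⟨rd_le P κ _, lt_rd P κ _⟩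
    have h4 : gst P κ ≤ 2 ^ κ := gst_le_pow P κ
    have h5 : (3 : ℤ) * 2 ^ κ ≤ P.r * 2 ^ κ := by
      have : (3 : ℤ) ≤ P.r := by exact_mod_cast hr
      have h6 : (0 : ℤ) ≤ 2 ^ κ := by positivity
      nlinarith
    have h6 : Fn y ≤ ∑ q ∈ range P.N, Fn (pc P y m q) := by
      refine le_trans ?_ h1
      rw [h0]
      have h7 : (2 : ℕ) ^ (κ + 1) = 2 * 2 ^ κ := by ring
      have h8 : ((2 ^ κ : ℕ) : ℤ) = (2 : ℤ) ^ κ := by push_cast; rfl
      rw [← hz] at h3
      have h9 : (P.r : ℤ) * 2 ^ κ < |m q - z.u| := hq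
      have h10 : |m q - z.u| ≤ |m q - y.u| + gst P κ := by
        have h11 : m q - z.u = (m q - y.u) + (y.u - z.u) := by ring
        rw [h11]
        refine (abs_add_le _ _).trans ?_
        have : |y.u - z.u| ≤ gst P κ := by
          rw [abs_le]
          constructor <;> omega
        linarith
      have h12 : ((m q - y.u).natAbs : ℤ) = |m q - y.u| := Int.natCast_natAbs _
      have h13 : (gst P κ : ℤ) ≤ 2 ^ κ := by exact_mod_cast h4
      have h14 : (Fe y : ℤ) < 2 * 2 ^ κ := by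
        have : (Fe y : ℤ) < ((2 ^ (κ + 1) : ℕ) : ℤ) := by exact_mod_cast h2
        rw [h7] at this
        push_cast at this
        linarith
      have h15 : (Fn y : ℤ) ≤ Fe y := by exact_mod_cast hFe
      have h16 : (Fn y : ℤ) ≤ ((m q - y.u).natAbs : ℤ) := by
        rw [h12]
        linarith
      exact_mod_cast h16
    have h7 : (Fn y : ℝ) ≤ ∑ q ∈ range P.N, (Fn (pc P y m q) : ℝ) := by exact_mod_cast h6
    have h8 : 0 ≤ ζ * ∑ q ∈ range P.N, (Fn (pc P y m q) : ℝ) :=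
      mul_nonneg hζ (sum_nonneg fun q _ => Nat.cast_nonneg _)
    linarith

end Crest.Agent.R288.F3P131
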