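import Crest.Agent.R288.ArrLipA_195
import Crest.Agent.R288.AnaLip_364
import Crest.Agent.R288.DomB_20

/-!
# R288 (helper974): `ArrLip195.FL` on every block of the domain, from a good history

* **`fl_of_good`** : the hypothesis `hFL` of `far_cfg`, `near_cfg`, `f3F`, `oscR_cfg`.
* `fl_dom` : the same, indexed by a state of the domain.
-/

set_option autoImplicit false

namespace Crest.Agent.R288.FLg974

open Crest.Agent.R288.Alg45 Crest.Agent.R288.Dom20 Crest.Agent.R288.Asm331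
open Crest.Agent.R288.AnaLip364

variable {C : Cfg} {X : ℕ → ℕ × St → ℕ} {x y : List ℕ} {g p L : ℕ} {ζ : ℝ}

/-- **`FL` from a good history** (any soundness function `G` with `|v - u| ≤ G`) -/
theorem fl_of_good' (h : C.Good X) (hO : LipOk C x y g p L ζ) (hζ : ζ ≤ 1 / 8) (hpb : 5 ≤ C.P.pb)
    (hgr : GrdOK C.P C.K0) {G : St → ℕ} (hG : ∀ s, InD C.P.N C.I C.P.Dm s → (s.v - s.u).natAbs ≤ G s)
    {e : ℕ} (he : e ≤ C.P.E) (hGF : ∀ s, InD C.P.N C.I C.P.Dm s → G s ≤ FE C.P X e s) :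
    ∀ i j, i ≤ C.I → j < C.P.N ^ (C.I - i) → ArrLip195.FL C.P (FE C.P X e) ζ i j := by
  intro i j hi hj
  have hD : ∀ s, ArrLip195.Blk C.P i j s → InD C.P.N C.I C.P.Dm s :=
    fun s hs => InD_of_Blk hi hj hs
  exact
    { pb := hpb
      ζ0 := hO.z0
      ζ1 := hζ
      lip := fun s s' hs hs' => (lip h hO hi hj he).2 s s' hs hs'
      coer := fun s hs => (hG s (hD s hs)).trans (hGF s (hD s hs))
      dvd := fun s hs => hgr _ ((Nat.le_add_right _ _).trans (cls_le h hO e (hD s hs))) }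

/-- **`FL` from a good history** -/
theorem fl_of_good (h : C.Good X) (hO : LipOk C x y g p L ζ) (hζ : ζ ≤ 1 / 8) (hpb : 5 ≤ C.P.pb)
    (hgr : GrdOK C.P C.K0) {e : ℕ} (he : e ≤ C.P.E)
    (hGF : ∀ s, InD C.P.N C.I C.P.Dm s → GSt442.gst x y C.P.n s ≤ FE C.P X e s) :
    ∀ i j, i ≤ C.I → j < C.P.N ^ (C.I - i) → ArrLip195.FL C.P (FE C.P X e) ζ i j :=
  fl_of_good' h hO hζ hpb hgr
    (fun s _ => (GSt442.exact_gst x y C.P.n hO.x_le hO.y_le).ge s) he hGF

/-- at the block of a state of the domain -/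
theorem fl_dom {F : St → ℕ}
    (hFL : ∀ i j, i ≤ C.I → j < C.P.N ^ (C.I - i) → ArrLip195.FL C.P F ζ i j) :
    ∀ y, Dom C.P C.I y → ArrLip195.FL C.P F ζ y.i y.j :=
  fun _ hy => hFL _ _ hy.1 hy.2.1

/-- the classes of the units are pairs of the tapes -/
theorem cls_le_K0 (h : C.Good X) (hO : LipOk C x y g p L ζ) (e : ℕ) :
    ∀ s, InD C.P.N C.I C.P.Dm s → cls (FE C.P X e) s ≤ C.K0 :=
  fun _ hs => (Nat.le_add_right _ _).trans (cls_le h hO e hs)

end Crest.Agent.R288.FLg974
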