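import Crest.Agent.R288.RegD_711
import Crest.Agent.R288.F3P_131
import Crest.Agent.R288.HullB_407

/-!
# R288, (A10) + (A11) of the SPEC #4877 in ALG v2 names (helper131)

`x` = a pair state of class `κ`, `A k` = body mean of rank `k` at `(κ, x)` (real numbers),
`wild P F X κ x k` = lagged minimum, `hull P F (X k)` = end values of the wild options.

* `wild_pair` : R1 / irregular state;
* `calm_pair` : state with root decision (`RegD711.NatWin`);
* `opt_leaf`  : leaf state;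
* `Opt`, **`far_pair`** = (A10): every window staircase, every admissible pair;
* **`f3_final`** = (A11): `FNext` at every state of the domain, every integer staircase of the domain.
-/

set_option autoImplicit false

namespace Crest.Agent.R288.FarA131

open Finset Crest.Agent.R288.Alg45 Crest.Agent.R288.AlgS125 Crest.Agent.R288.RegC711
  Crest.Agent.R288.RegD711

variable (P : Par)

/-- regret of the far inequality -/
noncomputable def Zfar (Fx : ℕ) (η : ℝ) : ℝ :=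
  (P.um * (Fx + 1) : ℝ) * Real.log (P.pm + 1) + (1 + 1 / (P.g : ℝ)) * Fx + P.K * (η + 1)

theorem Zfar_nonneg {Fx : ℕ} {η : ℝ} (hη : 0 ≤ η) : 0 ≤ Zfar P Fx η := by
  have h1 : 0 ≤ Real.log ((P.pm : ℝ) + 1) :=
    Real.log_nonneg (by linarith [Nat.cast_nonneg (α := ℝ) P.pm])
  unfold Zfar
  positivity

section pair

variable {F : St → ℕ} {X : ℕ → ℕ → St → ℕ} {κ : ℕ} {x : St} {m : ℕ → ℤ} {A : ℕ → ℝ} {η : ℝ}

theorem Vst_le_real (hD : gst P κ ∣ P.Dm) (h : IsSt P κ x m) (k : ℕ) :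
    ((Vst P κ x (hull P F (X k)) : ℕ) : ℝ)
      ≤ ∑ q ∈ range P.N, (hull P F (X k) (pc P x m q) : ℝ) := by
  have := AlgS125.Vst_le P hD (hull P F (X k)) h
  exact_mod_cast this

/-- no calm option: the value is the running minimum -/
theorem wild_pair (hD : gst P κ ∣ P.Dm) (hA : ∀ k < P.K, A k ≤ (wild P F X κ x k : ℝ) + η)
    (h : IsSt P κ x m) :
    ∑ k ∈ range P.K, A k
      ≤ ∑ k ∈ range P.K, ∑ q ∈ range P.N, (hull P F (X k) (pc P x m q) : ℝ) + F x + P.K * η := by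
  have h1 := window_irregular (K := P.K) (F := (F x : ℝ)) (e := 0)
    (W := fun k => ((wild P F X κ x k : ℕ) : ℝ))
    (V := fun k => ((Vst P κ x (hull P F (X k)) : ℕ) : ℝ))
    (S := fun k => ∑ q ∈ range P.N, (hull P F (X k) (pc P x m q) : ℝ)) (A := A) (η := η)
    (Nat.cast_nonneg _) le_rfl (by simp [wild, Wm_zero]) (fun k _ => Nat.cast_nonneg _)
    (fun k _ => Nat.cast_nonneg _)
    (fun k _ => by
      unfold wild
      rw [Wm_succ, Nat.cast_min, min_comm, add_zero])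
    (fun k _ => Vst_le_real P hD h k) hA
  linarith

/-- the root decision of the pair: calm numbers `c`, mode weights `wc`, `ww` -/
def Root (F : St → ℕ) (X : ℕ → ℕ → St → ℕ) (κ : ℕ) (x : St) (G : ℕ) (c wc ww : ℕ → ℕ) : Prop :=
  NatWin P.K P.n P.g G 1 P.um (F x + 1) (F x) P.pm c (wild P F X κ x)
    (fun k => Vst P κ x (hull P F (X k))) wc ww

/-- calm option -/
theorem calm_pair (hD : gst P κ ∣ P.Dm) {G : ℕ} {c wc ww : ℕ → ℕ} (hw : Root P F X κ x G c wc ww)
    (hA : ∀ k < P.K, A k ≤ (1 - 1 / (P.g : ℝ)) * mix (wc k) (ww k) (c k) (wild P F X κ x k)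
      + 1 / (P.g : ℝ) * wild P F X κ x k + η)
    (h : IsSt P κ x m) :
    ∑ k ∈ range P.K, A k
      ≤ ∑ k ∈ range P.K, ∑ q ∈ range P.N, (hull P F (X k) (pc P x m q) : ℝ)
        + (P.um * (F x + 1) : ℝ) * Real.log (P.pm + 1) + (1 + 1 / (P.g : ℝ)) * F x + P.K * η := by
  have h1 := NatWin.far hw hA (S := fun k => ∑ q ∈ range P.N, (hull P F (X k) (pc P x m q) : ℝ))
    fun k _ => Vst_le_real P hD h k
  push_cast at h1
  rw [div_one] at h1
  exact h1

/-- what is known about the body means `A k` of a pair: leaf, wild, or modal -/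
def Opt (F : St → ℕ) (X : ℕ → ℕ → St → ℕ) (κ : ℕ) (x : St) (A : ℕ → ℝ) (η : ℝ) : Prop :=
  (∀ m : ℕ → ℤ, IsSt P κ x m → ∀ k < P.K,
    A k ≤ ∑ q ∈ range P.N, (hull P F (X k) (pc P x m q) : ℝ) + (η + 1)) ∨
  (∀ k < P.K, A k ≤ (wild P F X κ x k : ℝ) + η) ∨
  ∃ (G : ℕ) (c wc ww : ℕ → ℕ), Root P F X κ x G c wc ww ∧
    ∀ k < P.K, A k ≤ (1 - 1 / (P.g : ℝ)) * mix (wc k) (ww k) (c k) (wild P F X κ x k)
      + 1 / (P.g : ℝ) * wild P F X κ x k + η

/-- leaf pair: value `c ≤ G x + 1`, `G` below every staircase and below the numbers -/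
theorem opt_leaf {G : St → ℕ} {c : ℕ} (hc : c ≤ G x + 1) (hA : ∀ k < P.K, A k ≤ c + η)
    (hG : ∀ m : ℕ → ℤ, IsSt P κ x m → G x ≤ ∑ q ∈ range P.N, G (pc P x m q))
    (hs : ∀ m : ℕ → ℤ, IsSt P κ x m → ∀ k < P.K, ∀ q < P.N,
      G (pc P x m q) ≤ hull P F (X k) (pc P x m q)) : Opt P F X κ x A η := by
  refine Or.inl fun m hm k hk => ?_
  have h1 : (c : ℝ) ≤ (G x : ℝ) + 1 := by exact_mod_cast hc
  have h2 : (G x : ℝ) ≤ ∑ q ∈ range P.N, (G (pc P x m q) : ℝ) := by exact_mod_cast hG m hm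
  have h3 : ∑ q ∈ range P.N, (G (pc P x m q) : ℝ)
      ≤ ∑ q ∈ range P.N, (hull P F (X k) (pc P x m q) : ℝ) :=
    sum_le_sum fun q hq => by exact_mod_cast hs m hm k hk q (mem_range.1 hq)
  have h4 := hA k hk
  linarith

/-- **(A10)** every window staircase -/
theorem far_pair (hD : gst P κ ∣ P.Dm) (hO : Opt P F X κ x A η) (h : IsSt P κ x m) :
    ∑ k ∈ range P.K, A k
      ≤ ∑ k ∈ range P.K, ∑ q ∈ range P.N, (hull P F (X k) (pc P x m q) : ℝ)
        + Zfar P (F x) η := by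
  have hl : 0 ≤ (P.um * (F x + 1) : ℝ) * Real.log (P.pm + 1) := by
    have : 0 ≤ Real.log ((P.pm : ℝ) + 1) :=
      Real.log_nonneg (by linarith [Nat.cast_nonneg (α := ℝ) P.pm])
    positivity
  have hF : 0 ≤ 1 / (P.g : ℝ) * F x := by positivity
  have hF' : (0 : ℝ) ≤ F x := Nat.cast_nonneg _
  have hK : (0 : ℝ) ≤ P.K := Nat.cast_nonneg _
  unfold Zfar
  rcases hO with hA | hA | ⟨G, c, wc, ww, hw, hA⟩
  · have h1 : ∑ k ∈ range P.K, A k ≤ ∑ k ∈ range P.K,
        (∑ q ∈ range P.N, (hull P F (X k) (pc P x m q) : ℝ) + (η + 1)) :=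
      sum_le_sum fun k hk => hA m h k (mem_range.1 hk)
    rw [sum_add_distrib, sum_const, card_range, nsmul_eq_mul] at h1
    linarith
  · have h1 := wild_pair P hD hA h
    linarith
  · have h1 := calm_pair P hD hw hA h
    linarith

end pair

/-- **(A11)** `F_{e+1}` at every state `y` of the domain, every integer staircase of the domain;
`κ = cls F y`, `z = rdn P κ y` = own pair of `y`.  `R k`, `A k` = arrival and body mean of rank `k` there. -/
theorem f3_final (hK : 0 < P.K) {F : St → ℕ} {X : ℕ → ℕ → St → ℕ} {R A : ℕ → ℝ}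
    {η ζ σ τ : ℝ} (hζ : 0 ≤ ζ) (hη : 0 ≤ η) (hσ : 0 ≤ σ) (hτ : 0 ≤ τ) {y : St} {m : ℕ → ℤ}
    (hD : gst P (cls F y) ∣ P.Dm) (hy : inD P y) (h0 : m 0 = y.u) (hN : m P.N = y.v)
    (hdm : ∀ q, 0 < q → q < P.N → |m q| ≤ P.Dm) (hr : 3 ≤ P.r)
    (hcoer : ∀ q < P.N, (m (q + 1) - m q).natAbs ≤ FNext P F X (pc P y m q))
    (hX : ∀ k < P.K, (X k (cls F y) (rdn P (cls F y) y) : ℝ) ≤ R k + σ)
    (hRA : ∀ k < P.K, R k ≤ A k + τ)
    (hO : Opt P F X (cls F y) (rdn P (cls F y) y) A η)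
    (hlip : ∀ q < P.N, ∀ z z' : St, z.i = y.i - 1 → z'.i = y.i - 1 → z.j = P.N * y.j + q →
      z'.j = P.N * y.j + q → inD P z → inD P z' →
      (FNext P F X z : ℝ) ≤ (1 + ζ) * ((FNext P F X z' : ℝ) + (Alg45.dist z z' : ℝ))) :
    (FNext P F X y : ℝ) ≤ (1 + ζ) * ∑ q ∈ range P.N, (FNext P F X (pc P y m q) : ℝ)
      + ((1 + ζ) * (2 * P.N * gst P (cls F y)) + 2 * gst P (cls F y)
        + Zfar P (F (rdn P (cls F y) y)) η / P.K + (σ + τ + 1)) := by
  have hK' : (0 : ℝ) < P.K := by exact_mod_cast hK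
  have hin : ∀ (z : St) (m' : ℕ → ℤ), inD P z → m' 0 = z.u → m' P.N = z.v →
      (∀ q, 0 < q → q < P.N → |m' q| ≤ P.Dm) → ∀ q < P.N, inD P (pc P z m' q) := by
    intro z m' hz e0 eN hd q hq
    have key : ∀ q ≤ P.N, (m' q).natAbs ≤ P.Dm := by
      intro q hq
      rcases Nat.eq_zero_or_pos q with rfl | hq0
      · rw [e0]; exact hz.1
      · rcases Nat.lt_or_ge q P.N with hq1 | hq1
        · have := hd q hq0 hq1
          rw [abs_le] at this
          omega
        · obtain rfl : q = P.N := by omega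
          rw [eN]; exact hz.2
    exact ⟨key q hq.le, key (q + 1) hq⟩
  have hz : inD P (rdn P (cls F y) y) := HullB407.inD_rdn hD hy
  refine F3P131.f3_int P hK (A := A) (C := fun k => hull P F (X k))
    (Xb := (Xbar P X (cls F y) (rdn P (cls F y) y) : ℝ)) hζ (Zfar_nonneg P hη)
    (by linarith) hD h0 hN hdm hr (HullB407.FNext_le_F F X y) hcoer
    (by exact_mod_cast HullB407.FNext_le_own hD hy) ?_
    (fun m' hm' => far_pair P hD hO hm') (fun m' _ q _ => HullB407.sum_hull_le hK F X _) ?_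
  · have h1 := HullB407.Xbar_le hK X (cls F y) (rdn P (cls F y) y)
    have h2 : ∑ k ∈ range P.K, (X k (cls F y) (rdn P (cls F y) y) : ℝ)
        ≤ ∑ k ∈ range P.K, A k + P.K * (σ + τ) := by
      calc ∑ k ∈ range P.K, (X k (cls F y) (rdn P (cls F y) y) : ℝ)
          ≤ ∑ k ∈ range P.K, (A k + (σ + τ)) :=
            sum_le_sum fun k hk => by
              have h3 := hX k (mem_range.1 hk)
              have h4 := hRA k (mem_range.1 hk)
              linarith
        _ = _ := by rw [sum_add_distrib, sum_const, card_range, nsmul_eq_mul]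
    have h3 : (∑ k ∈ range P.K, (X k (cls F y) (rdn P (cls F y) y) : ℝ)) / P.K
        ≤ (∑ k ∈ range P.K, A k) / P.K + (σ + τ) := by
      rw [div_add' _ _ _ hK'.ne', div_le_div_iff_of_pos_right hK']
      linarith
    linarith
  · intro m' hm' q hq
    exact hlip q hq _ _ rfl rfl rfl rfl (hin _ _ hz hm'.zero hm'.last hm'.dom q hq) (hin _ _ hy h0 hN hdm q hq)

end Crest.Agent.R288.FarA131
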