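import Crest.Agent.R288.Bridge_331
import Crest.Agent.R288.EnvM_12

/-!
# R288: fill an array with random words, then a core that needs good words only (helper331)

* `words D : RT (List ℕ)` (`= RT.reps D RT.draw`): `D` random words.
* `fillC x y k n`: array `k` := `var n` random words (loop variable `x`, word variable `y`).
* `fillC_rea`: it realises `words D` with cost `4 D + 2`; `Filled`: the final state.
* **`HPR.fill`**: if the core runs well (on every stream) from every filled state whose words are
  good, and the words are bad with probability `≤ δ`, then `HPR` for `fillC ;; core`.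
* `HPR.rea_then`: the same for any command realising a randomized computation.
* `Pr_words_val`: a computation run on the first `D` words (padded by `0`) has the law of the
  computation, if it never draws more than `D` words. `Pr_words_add`: splitting.
-/

set_option autoImplicit false

namespace Crest.Agent.R288.Fill331

open Crest.Agent.R295 Crest.Agent.R295.HL Crest.Agent.R295.HL.Exp Crest.Agent.R295.HL.Cmd
open Crest.Agent.R295.Rnd627 Crest.Agent.R288.MedH559 Crest.Agent.R288.Bridge331
open Crest.Agent.R295.TopH791

universe u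

/-- `D` random words -/
def words (D : ℕ) : RT (List ℕ) := RT.reps D RT.draw

/-- array `k` := `var n` random words -/
def fillC (x y k n : ℕ) : Cmd :=
  forUp x 0 (var n) (.rnd y ;; put k (var x) (var y))

/-- the state after the array `k` has been filled with the words `l` -/
structure Filled (x y k : ℕ) (s : State) (l : List ℕ) (s' : State) : Prop where
  seg : s'.Seg k 0 l
  reg : ∀ z, z ≠ x → z ≠ y → s'.reg z = s.reg z
  arr : ∀ k', k' ≠ k → s'.arr k' = s.arr k'
  rest : ∀ i, l.length ≤ i → s'.arr k i = s.arr k i

theorem Filled.get {x y k : ℕ} {s s' : State} {l : List ℕ} (h : Filled x y k s l s') {i : ℕ}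
    (hi : i < l.length) : s'.arr k i = l.getD i 0 := by
  have := h.seg i hi
  rw [Nat.zero_add] at this
  rw [this, List.getD_eq_getElem _ _ hi]

theorem run_draw (M : ℕ) (ρ : ℕ → ℕ) (i : ℕ) : RT.draw.run M ρ i = (ρ i % M, i + 1) := rfl

theorem nxt_words (M D : ℕ) (ρ : ℕ → ℕ) (i : ℕ) : (words D).nxt M ρ i = i + D := by
  induction D generalizing i with
  | zero => rfl
  | succ D ih =>
    have h := run_reps_succ' M D RT.draw ρ i
    have h2 : (RT.reps D RT.draw).nxt M ρ i = i + D := ih i
    unfold words RT.nxt
    rw [h, h2]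
    rfl

theorem length_val_words (M D : ℕ) (ρ : ℕ → ℕ) (i : ℕ) : ((words D).val M ρ i).length = D :=
  length_val_reps M D RT.draw ρ i

theorem val_words_succ (M D : ℕ) (ρ : ℕ → ℕ) (i : ℕ) :
    (words (D + 1)).val M ρ i = (words D).val M ρ i ++ [ρ (i + D) % M] := by
  have h := run_reps_succ' M D RT.draw ρ i
  have h2 : (RT.reps D RT.draw).nxt M ρ i = i + D := nxt_words M D ρ i
  unfold words RT.val
  rw [h, h2]
  rfl

/-- the words -/
theorem getD_val_words (M D : ℕ) (ρ : ℕ → ℕ) (i j : ℕ) (hj : j < D) :
    ((words D).val M ρ i).getD j 0 = ρ (i + j) % M := by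
  induction D with
  | zero => exact absurd hj (Nat.not_lt_zero j)
  | succ D ih =>
    rw [val_words_succ]
    have hl := length_val_words M D ρ i
    rcases Nat.lt_succ_iff_lt_or_eq.1 hj with h | rfl
    · rw [List.getD_append _ _ _ _ (by rw [hl]; exact h)]
      exact ih h
    · rw [List.getD_append_right _ _ _ _ (by rw [hl]), hl, Nat.sub_self]
      rfl

/-- **the fill command** -/
theorem fillC_rea {e : Env} {x y k n D T : ℕ} {s : State} (hxn : x ≠ n) (hyn : y ≠ n)
    (hxy : x ≠ y) (hN : s.reg n = D) (hL : D ≤ e.L) (hB : D < e.B) (hT : 4 * D + 2 ≤ T) :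
    Rea e (fillC x y k n) s T (words D) (fun l s' => l.length = D ∧ Filled x y k s l s') := by
  unfold Rea fillC
  refine Runs.forUp (A := 0) (N := D) (m := 2)
    (I := fun j s' => s'.drawn = s.drawn + j ∧ Filled x y k s ((words j).val e.B e.ρ s.drawn) s')
    ?_ ?_ (by omega) (by omega) ?_ ?_ ?_ ?_ (by omega)
  · simp; omega
  · simp
  · refine ⟨rfl, fun i hi => absurd hi (Nat.not_lt_zero i), ?_, fun _ _ => rfl, fun _ _ => rfl⟩
    intro z hz _
    rw [State.setReg_reg, if_neg hz]
  · rintro j s' - hj ⟨-, g⟩ -
    simp [g.reg n (Ne.symm hxn) (Ne.symm hyn), hN]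
  · rintro j s' - hj ⟨g0, g⟩ gx
    have hlen := length_val_words e.B j e.ρ s.drawn
    refine Runs.seq (n := 1) (m := 1) (R := fun s2 => s2 = s'.draw y (e.ρ s'.drawn % e.B)) ?_ ?_
      le_rfl
    · rw [runs_iff_wp, wp_rnd]
      exact ⟨le_rfl, rfl⟩
    rintro s2 rfl
    refine Runs.put ?_ ?_ ?_ ?_
    · exact trivial
    · simp only [val_var, State.draw_reg, if_neg hxy, gx]
      omega
    · exact trivial
    · simp only [val_var, State.draw_reg, if_neg hxy, gx, if_true]
      refine ⟨?_, ?_, ?_, ?_, ?_, ?_⟩
      · simp [hxy, gx]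
      · simp [g0]; ring
      · rw [val_words_succ]
        intro i hi
        rw [List.length_append, List.length_singleton, hlen] at hi
        simp only [State.setReg_arr, State.setArr_arr, State.draw_arr, Nat.zero_add]
        by_cases hij : i = j
        · subst hij
          rw [if_pos ⟨trivial, rfl⟩, List.getElem_append_right (by omega)]
          simp [hlen, g0]
        · have hi' : i < ((words j).val e.B e.ρ s.drawn).length := by omega
          rw [if_neg (fun h => hij h.2), List.getElem_append_left hi']
          have := g.seg i hi'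
          rwa [Nat.zero_add] at this
      · intro z hz hz'
        simp only [State.setReg_reg, State.setArr_reg, State.draw_reg, if_neg hz, if_neg hz']
        exact g.reg z hz hz'
      · intro k' hk'
        funext i
        simp only [State.setReg_arr, State.setArr_arr, State.draw_arr]
        rw [if_neg (fun h => hk' h.1), g.arr k' hk']
      · intro i hi
        rw [length_val_words] at hi
        simp only [State.setReg_arr, State.setArr_arr, State.draw_arr]
        rw [if_neg (fun h => by have := h.2; omega)]
        exact g.rest i (by rw [hlen]; omega)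
  · rintro s' ⟨g0, g⟩ -
    exact ⟨by rw [nxt_words, g0], length_val_words _ _ _ _, g⟩

/-! ### Probabilistic triples -/

section hpr

variable {w L : ℕ} {p q : Cmd} {s : State} {n m N : ℕ} {Q : State → Prop} {δ : ℝ}
  {α : Type u} {t : RT α}

/-- **randomness first**: `p` realises `t`; from every final state of `p` whose result is good the
rest runs well on every stream -/
theorem HPR.rea_then (P : α → Prop) {R : α → State → Prop}
    (h : ∀ ρ, Rea ⟨2 ^ w, L, ρ⟩ p s n t R)
    (h' : ∀ ρ a s', R a s' → P a → Runs ⟨2 ^ w, L, ρ⟩ q s' m Q)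
    (hP : t.Pr (2 ^ w) (fun a => ¬ P a) ≤ δ) (hN : n + m ≤ N) : HPR w L (p ;; q) s N Q δ := by
  refine HPR.of_rt P (t := t) (fun ρ hρ _ => ?_) ?_
  · refine Runs.seq (h ρ) ?_ hN
    rintro s' ⟨-, h2⟩
    exact h' ρ _ s' h2 hρ
  · refine le_trans (RT.Pr_mono_all (Q := fun x : α × ℕ => ¬ P x.1) ?_) ?_
    · refine (all_cnt_of_val t (fun _ m => m ≤ n) s.drawn fun ρ => ?_).mono ?_
      · obtain ⟨s', t', h1, h2, h3, -⟩ := h ρ
        have h4 := h1.drawn_le
        rw [h3] at h4
        have h5 : t.nxt (2 ^ w) ρ s.drawn ≤ s.drawn + t' := h4.2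
        show t.nxt (2 ^ w) ρ s.drawn - s.drawn ≤ n
        omega
      · intro x hx h1 h2
        exact h1 ⟨h2, by omega⟩
    · rw [RT.Pr_cnt (2 ^ w) t fun a => ¬ P a]
      exact hP

/-- **fill the tape, then run a core that needs good words only** -/
theorem HPR.fill {x y k r D : ℕ} (Good : List ℕ → Prop) (hxn : x ≠ r) (hyn : y ≠ r) (hxy : x ≠ y)
    (hr : s.reg r = D) (hL : D ≤ L) (hB : D < 2 ^ w)
    (h : ∀ ρ l s', l.length = D → (∀ a ∈ l, a < 2 ^ w) → Good l → Filled x y k s l s' →
      Runs ⟨2 ^ w, L, ρ⟩ q s' m Q)
    (hP : (words D).Pr (2 ^ w) (fun l => ¬ Good l) ≤ δ) (hN : 4 * D + 2 + m ≤ N) :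
    HPR w L (fillC x y k r ;; q) s N Q δ := by
  have hall : (words D).All (2 ^ w) fun l => l.length = D ∧ ∀ a ∈ l, a < 2 ^ w :=
    RT.All_reps (RT.All_rnd (2 ^ w) (fun v => RT.ret v) _ |>.2 fun v hv => hv) D
  refine HPR.rea_then (t := words D) (n := 4 * D + 2) Good
    (R := fun l s' => (l.length = D ∧ Filled x y k s l s') ∧ ∀ a ∈ l, a < 2 ^ w)
    (fun ρ => ?_) (fun ρ l s' h1 h2 => h ρ l s' h1.1.1 h1.2 h2 h1.1.2) hP hN
  have h1 := fillC_rea (e := ⟨2 ^ w, L, ρ⟩) (k := k) (T := 4 * D + 2) hxn hyn hxy hr hL hB le_rfl
  exact h1.all (Nat.two_pow_pos w) (hall.mono fun l hl => hl.2)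

end hpr

/-! ### Computations on the words -/

section law

variable {α : Type u}

/-- **the law of a computation on the first `D` words** -/
theorem Pr_words_val {M : ℕ} (hM : 0 < M) (t : RT α) (D : ℕ)
    (hD : t.cnt.All M fun x => x.2 ≤ D) (P : α → Prop) :
    (words D).Pr M (fun l => P (t.val M (fun j => l.getD j 0) 0)) = t.Pr M P := by
  classical
  induction t generalizing D with
  | ret a =>
    show (words D).Pr M (fun _ => P a) = (RT.ret a).Pr M P
    rw [RT.Pr_ret]
    by_cases h : P a
    · rw [if_pos h]
      simp only [h]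
      exact RT.Pr_true hM _
    · rw [if_neg h]
      simp only [h]
      exact RT.Pr_false M _
  | rnd k ih =>
    have hD' : ∀ v < M, (k v).cnt.All M fun x => x.2 + 1 ≤ D := by
      have h2 : (RT.rnd fun v => (k v).cnt.map fun x => (x.1, x.2 + 1)).All M
        (fun x : α × ℕ => x.2 ≤ D) := hD
      rw [RT.All_rnd] at h2
      intro v hv
      have h3 := h2 v hv
      unfold RT.map at h3
      rw [RT.All_bind] at h3
      exact h3.mono fun a ha => ha
    cases D with
    | zero =>
      exfalso
      have h3 := (hD' 0 hM).val hM (fun _ => 0) 0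
      exact absurd h3 (Nat.not_succ_le_zero _)
    | succ D =>
      have e1 : (words (D + 1)).Pr M (fun l => P ((RT.rnd k).val M (fun j => l.getD j 0) 0)) =
          (∑ v ∈ Finset.range M, (words D).Pr M
            (fun l => P ((k v).val M (fun j => l.getD j 0) 0))) / M := by
        show (RT.rnd fun v => (words D).bind fun l => RT.ret (v :: l)).Pr M _ = _
        rw [RT.Pr_rnd]
        congr 1
        refine Finset.sum_congr rfl fun v hv => ?_
        have e2 := RT.Pr_map M (words D) (fun l => v :: l)
          (fun l => P ((RT.rnd k).val M (fun j => l.getD j 0) 0))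
        unfold RT.map at e2
        rw [e2]
        congr 1
        funext l
        have e3 : (RT.rnd k).val M (fun j => (v :: l).getD j 0) 0 =
            (k v).val M (fun j => l.getD j 0) 0 := by
          unfold RT.val
          rw [RT.run_rnd]
          have e4 : (v :: l).getD 0 0 % M = v := Nat.mod_eq_of_lt (Finset.mem_range.1 hv)
          rw [e4, RT.run_shift M (k v) _ 0 1]
          rfl
        rw [e3]
      rw [e1, RT.Pr_rnd]
      congr 1
      exact Finset.sum_congr rfl fun v hv => ih v D
        ((hD' v (Finset.mem_range.1 hv)).mono fun x hx => by omega)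

/-- splitting the words -/
theorem words_add (D E : ℕ) :
    words (D + E) = (words D).bind fun l => (words E).bind fun l' => RT.ret (l ++ l') := by
  induction D with
  | zero =>
    show words (0 + E) = (words E).bind fun l' => RT.ret ([] ++ l')
    rw [Nat.zero_add]
    simp only [List.nil_append]
    exact (RT.bind_ret _).symm
  | succ D ih =>
    show words (D + 1 + E) = (RT.reps (D + 1) RT.draw).bind _
    rw [RT.reps_succ, Nat.add_right_comm]
    show (RT.reps (D + E + 1) RT.draw) = _
    rw [RT.reps_succ]
    simp only [RT.bind_assoc, RT.ret_bind]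
    congr 1
    funext v
    have ih' : RT.reps (D + E) RT.draw =
      (words D).bind fun l => (words E).bind fun l' => RT.ret (l ++ l') := ih
    rw [ih']
    simp only [RT.bind_assoc, RT.ret_bind, List.cons_append]
    rfl

theorem Pr_words_add (M D E : ℕ) (P : List ℕ → Prop) :
    (words (D + E)).Pr M P = (words D).Ev M fun l => (words E).Pr M fun l' => P (l ++ l') := by
  rw [words_add, RT.Pr_bind]
  congr 1
  funext l
  exact RT.Pr_map M (words E) (fun l' => l ++ l') P

end law

end Crest.Agent.R288.Fill331
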