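import Crest.Agent.R288.TreeA_330

/-!
# R288: capped flags for `TreeA330.main`

The greedy (same rank) levels are chosen by independent flags. Every table call draws its own list of
flags, so the number of effective greedy flags has to be bounded by a number `cap` always; for lists
of later flags with at least `cap` times `true` the flag of the current step is ignored.

* `main_fnL`: `TreeA330.main` for arbitrary value functions, an invariant of the states, and local
  regrets `reg l s` which depend on the list `l` of the later flags;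
* `EL_pow_count`, `EL_pow_le`, `tail_le`, `tail_exp`: the number of flags, exponential moment, tail;
* `effn cap l`: the number of effective flags; `effn_eq : effn cap l = min cap (l.count true)`;
* `main_cap`: local regrets `reg h s` for lists with less than `cap` flags and `bad h s` for the
  others: the total is at most `K * cmp + acc reg + tail * acc bad`.
-/

set_option autoImplicit false

namespace Crest.Agent.R288.Flag668

open Finset Crest.Agent.R288.TreeA330

variable {S A J : Type*} [Fintype J]

/-- `TreeA330.main` for arbitrary value functions `R k l s`, an invariant `ok` of the states and local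
regrets which depend on the list of the later flags -/
theorem main_fnL (G : Game S A J) (zs : ℕ → S → A) {p : ℕ → ℝ} (hp : ∀ i, 0 ≤ p i ∧ p i ≤ 1)
    (hom : ∀ h s a j, 0 ≤ G.om h s a j) (K : ℕ) (R : ℕ → List Bool → S → ℝ)
    {ok : ℕ → S → Prop} (hok : ∀ h s j, ok (h + 1) s → ok h (G.nx h s (zs h s) j))
    (h0 : ∀ k s, ok 0 s → R k [] s ≤ G.F s) (reg : List Bool → S → ℝ) (H : ℕ)
    (hreg : ∀ l : List Bool, l.length < H → ∀ s, ok (l.length + 1) s →
      ∑ k ∈ range K, ((1 - p l.length) *
          (R k (false :: l) s - Q G l.length (R k l) s (zs l.length s))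
        + p l.length * (R k (true :: l) s - Q G l.length (R k l) s (zs l.length s)))
        ≤ reg l s) (s : S) (hs : ok H s) :
    EL p H (fun l => ∑ k ∈ range K, R k l s) ≤ K * TreeA330.cmp G zs H s
      + acc G zs H (fun h s => EL p h fun l => reg l s) s := by
  induction H generalizing s with
  | zero =>
    have h1 : ∑ k ∈ range K, R k [] s ≤ ∑ _k ∈ range K, G.F s :=
      sum_le_sum fun k _ => h0 k s hs
    simp only [sum_const, card_range, nsmul_eq_mul] at h1
    simpa [EL, TreeA330.cmp] using h1
  | succ h ih =>
    have ih' := fun s hs => ih (fun l hl s hs => hreg l (by omega) s hs) s hs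
    have h1 : EL p (h + 1) (fun l => ∑ k ∈ range K, R k l s)
        = EL p h (fun l => ∑ k ∈ range K, ((1 - p h) *
              (R k (false :: l) s - Q G l.length (R k l) s (zs l.length s))
            + p h * (R k (true :: l) s - Q G l.length (R k l) s (zs l.length s)))
          + ∑ k ∈ range K, Q G l.length (R k l) s (zs l.length s)) := by
      refine EL_congr h fun l _ => ?_
      rw [mul_sum, mul_sum, ← sum_add_distrib, ← sum_add_distrib]
      refine sum_congr rfl fun k _ => ?_
      ring
    rw [h1, EL_add]
    have h2 : EL p h (fun l => ∑ k ∈ range K, ((1 - p h) *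
              (R k (false :: l) s - Q G l.length (R k l) s (zs l.length s))
            + p h * (R k (true :: l) s - Q G l.length (R k l) s (zs l.length s))))
        ≤ EL p h (fun l => reg l s) := by
      refine EL_mono hp h fun l hl => ?_
      have := hreg l (by omega) s (by rw [hl]; exact hs)
      rw [hl] at this ⊢
      exact this
    have h3 : EL p h (fun l => ∑ k ∈ range K, Q G l.length (R k l) s (zs l.length s))
        = K * G.c h s (zs h s) + ∑ j, G.om h s (zs h s) j
            * EL p h (fun l => ∑ k ∈ range K, R k l (G.nx h s (zs h s) j)) := by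
      have : EL p h (fun l => ∑ k ∈ range K, Q G l.length (R k l) s (zs l.length s))
          = EL p h (fun l => K * G.c h s (zs h s) + ∑ j, G.om h s (zs h s) j
            * ∑ k ∈ range K, R k l (G.nx h s (zs h s) j)) := by
        refine EL_congr h fun l hl => ?_
        unfold Q
        rw [sum_add_distrib, sum_const, card_range, nsmul_eq_mul, hl, sum_comm]
        congr 1
        exact sum_congr rfl fun j _ => by rw [mul_sum]
      rw [this, EL_add, EL_const, EL_sum]
      congr 1
      exact sum_congr rfl fun j _ => EL_smul _ _ _ _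
    have h4 : ∑ j, G.om h s (zs h s) j
          * EL p h (fun l => ∑ k ∈ range K, R k l (G.nx h s (zs h s) j))
        ≤ ∑ j, G.om h s (zs h s) j * (K * TreeA330.cmp G zs h (G.nx h s (zs h s) j)
            + acc G zs h (fun h s => EL p h fun l => reg l s) (G.nx h s (zs h s) j)) :=
      sum_le_sum fun j _ => mul_le_mul_of_nonneg_left (ih' _ (hok h s j hs)) (hom _ _ _ _)
    have h5 : ∑ j, G.om h s (zs h s) j * (K * TreeA330.cmp G zs h (G.nx h s (zs h s) j)
            + acc G zs h (fun h s => EL p h fun l => reg l s) (G.nx h s (zs h s) j))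
        = K * ∑ j, G.om h s (zs h s) j * TreeA330.cmp G zs h (G.nx h s (zs h s) j)
          + ∑ j, G.om h s (zs h s) j
            * acc G zs h (fun h s => EL p h fun l => reg l s) (G.nx h s (zs h s) j) := by
      rw [mul_sum, ← sum_add_distrib]
      exact sum_congr rfl fun j _ => by ring
    rw [h3]
    have h6 : (K : ℝ) * TreeA330.cmp G zs (h + 1) s = K * G.c h s (zs h s)
        + K * ∑ j, G.om h s (zs h s) j * TreeA330.cmp G zs h (G.nx h s (zs h s) j) := by
      simp only [TreeA330.cmp, Q]
      ring
    rw [h6, acc_succ]
    linarith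

/-! ### the number of flags -/

theorem EL_pow_count (p : ℕ → ℝ) (x : ℝ) (h : ℕ) :
    EL p h (fun l => x ^ l.count true) = ∏ i ∈ range h, (1 + p i * (x - 1)) := by
  induction h with
  | zero => simp [EL]
  | succ h ih =>
    have h1 : EL p (h + 1) (fun l => x ^ l.count true)
        = EL p h (fun l => (1 + p h * (x - 1)) * x ^ l.count true) := by
      refine EL_congr h fun l _ => ?_
      simp only [List.count_cons, beq_true]
      simp only [Bool.false_eq_true, if_false, if_true, Nat.add_zero, pow_succ]
      ring
    rw [h1, EL_smul, ih, prod_range_succ]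
    ring

theorem EL_pow_le {p : ℕ → ℝ} {P x : ℝ} (hp : ∀ i, 0 ≤ p i) (hP : ∀ i, p i ≤ P) (hx : 1 ≤ x)
    (h : ℕ) : EL p h (fun l => x ^ l.count true) ≤ (1 + P * (x - 1)) ^ h := by
  rw [EL_pow_count]
  calc _ ≤ ∏ _i ∈ range h, (1 + P * (x - 1)) := by
        refine prod_le_prod (fun i _ => ?_) fun i _ => ?_
        · have := mul_nonneg (hp i) (sub_nonneg.2 hx)
          linarith
        · have := mul_le_mul_of_nonneg_right (hP i) (sub_nonneg.2 hx)
          linarith
    _ = _ := by rw [prod_const, card_range]

/-- indicator of the lists with at least `cap` flags -/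
noncomputable def many (cap : ℕ) (l : List Bool) : ℝ := if cap ≤ l.count true then 1 else 0

theorem many_nonneg (cap : ℕ) (l : List Bool) : 0 ≤ many cap l := by
  unfold many; split_ifs <;> norm_num

theorem tail_le {p : ℕ → ℝ} (hp : ∀ i, 0 ≤ p i ∧ p i ≤ 1) {P x : ℝ} (hP : ∀ i, p i ≤ P)
    (hx : 1 ≤ x) (cap h : ℕ) :
    EL p h (many cap) ≤ (1 + P * (x - 1)) ^ h / x ^ cap := by
  have hx0 : 0 < x := lt_of_lt_of_le one_pos hx
  have hc : 0 < x ^ cap := pow_pos hx0 _
  calc EL p h (many cap) ≤ EL p h (fun l => (x ^ cap)⁻¹ * x ^ l.count true) := by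
        refine EL_mono hp h fun l _ => ?_
        unfold many
        split_ifs with h1
        · calc (1 : ℝ) = (x ^ cap)⁻¹ * x ^ cap := (inv_mul_cancel₀ hc.ne').symm
            _ ≤ (x ^ cap)⁻¹ * x ^ l.count true :=
                mul_le_mul_of_nonneg_left (pow_le_pow_right₀ hx h1) (inv_nonneg.2 hc.le)
        · exact mul_nonneg (inv_nonneg.2 hc.le) (pow_nonneg hx0.le _)
    _ = (x ^ cap)⁻¹ * EL p h (fun l => x ^ l.count true) := EL_smul _ _ _ _
    _ ≤ (x ^ cap)⁻¹ * (1 + P * (x - 1)) ^ h :=
        mul_le_mul_of_nonneg_left (EL_pow_le (fun i => (hp i).1) hP hx h) (inv_nonneg.2 hc.le)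
    _ = _ := by rw [div_eq_inv_mul]

/-- the tail of the number of flags: at most `exp (2 P h - cap)` -/
theorem tail_exp {p : ℕ → ℝ} (hp : ∀ i, 0 ≤ p i ∧ p i ≤ 1) {P : ℝ} (hP0 : 0 ≤ P)
    (hP : ∀ i, p i ≤ P) (cap h : ℕ) :
    EL p h (many cap) ≤ Real.exp (2 * P * h - cap) := by
  have he : (1 : ℝ) ≤ Real.exp 1 := by
    have := Real.add_one_le_exp (1 : ℝ); linarith
  have he2 : Real.exp 1 - 1 ≤ 2 := by
    have := Real.exp_one_lt_d9; linarith
  have h1 : 1 + P * (Real.exp 1 - 1) ≤ Real.exp (2 * P) := by
    have h2 := Real.add_one_le_exp (2 * P)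
    have h3 := mul_le_mul_of_nonneg_left he2 hP0
    linarith
  have h0 : 0 ≤ 1 + P * (Real.exp 1 - 1) := by
    have := mul_nonneg hP0 (sub_nonneg.2 he); linarith
  calc EL p h (many cap) ≤ (1 + P * (Real.exp 1 - 1)) ^ h / Real.exp 1 ^ cap :=
        tail_le hp hP he cap h
    _ ≤ Real.exp (2 * P) ^ h / Real.exp 1 ^ cap := by
        gcongr
    _ = Real.exp (2 * P * h - cap) := by
        rw [← Real.exp_nat_mul, ← Real.exp_nat_mul, ← Real.exp_sub]
        congr 1
        ring

/-- the number of effective flags: a flag is effective if less than `cap` of the later ones are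
`true` -/
def effn (cap : ℕ) : List Bool → ℕ
  | [] => 0
  | b :: l => (if b = true ∧ l.count true < cap then 1 else 0) + effn cap l

theorem effn_eq (cap : ℕ) (l : List Bool) : effn cap l = min cap (l.count true) := by
  induction l with
  | nil => simp [effn]
  | cons b l ih =>
    rw [effn, ih, List.count_cons]
    cases b
    · simp
    · by_cases hc : l.count true < cap
      · simp only [true_and, hc, if_true, beq_self_eq_true]
        omega
      · simp only [true_and, hc, if_false, beq_self_eq_true, if_true]
        omega

theorem effn_le (cap : ℕ) (l : List Bool) : effn cap l ≤ cap := by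
  rw [effn_eq]; exact min_le_left _ _

/-- the effective flag of the current step -/
def eff (cap : ℕ) (b : Bool) (l : List Bool) : Bool := b && decide (l.count true < cap)

theorem eff_of_lt {cap : ℕ} {l : List Bool} (b : Bool) (h : l.count true < cap) :
    eff cap b l = b := by simp [eff, h]

theorem eff_of_le {cap : ℕ} {l : List Bool} (b : Bool) (h : cap ≤ l.count true) :
    eff cap b l = false := by
  have : ¬ l.count true < cap := not_lt.2 h
  simp [eff, this]

theorem effn_cons (cap : ℕ) (b : Bool) (l : List Bool) :
    effn cap (b :: l) = (if eff cap b l = true then 1 else 0) + effn cap l := by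
  rw [effn]
  congr 1
  simp [eff]

theorem acc_EL_split (G : Game S A J) (zs : ℕ → S → A) {p : ℕ → ℝ} (hom : ∀ h s a j, 0 ≤ G.om h s a j) {t : ℝ} {cap H : ℕ}
    (ht : ∀ h < H, EL p h (many cap) ≤ t) {reg bad : ℕ → S → ℝ} (hbad : ∀ h s, 0 ≤ bad h s)
    (s : S) :
    acc G zs H (fun h s => EL p h fun l => reg h s + many cap l * bad h s) s
      ≤ acc G zs H reg s + t * acc G zs H bad s := by
  have h1 : acc G zs H reg s + t * acc G zs H bad s
      = acc G zs H (fun h s => reg h s + t * bad h s) s := by
    rw [acc_add, acc_smul]
  rw [h1]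
  refine acc_mono G zs hom H (fun h hh s => ?_) s
  have h2 : (fun l => reg h s + many cap l * bad h s)
      = fun l => (fun _ => reg h s) l + bad h s * many cap l := by
    funext l; ring
  rw [h2, EL_add, EL_const, EL_smul]
  have := mul_le_mul_of_nonneg_left (ht h hh) (hbad h s)
  linarith

/-- **capped flags**: local regrets `reg h s` for lists with less than `cap` flags, `reg + bad` for
the others -/
theorem main_cap (G : Game S A J) (zs : ℕ → S → A) {p : ℕ → ℝ} (hp : ∀ i, 0 ≤ p i ∧ p i ≤ 1)
    {P : ℝ} (hP0 : 0 ≤ P) (hP : ∀ i, p i ≤ P)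
    (hom : ∀ h s a j, 0 ≤ G.om h s a j) (K : ℕ) (R : ℕ → List Bool → S → ℝ)
    {ok : ℕ → S → Prop} (hok : ∀ h s j, ok (h + 1) s → ok h (G.nx h s (zs h s) j))
    (h0 : ∀ k s, ok 0 s → R k [] s ≤ G.F s) (reg bad : ℕ → S → ℝ) (hbad : ∀ h s, 0 ≤ bad h s)
    (cap H : ℕ)
    (hreg : ∀ l : List Bool, l.length < H → l.count true < cap → ∀ s, ok (l.length + 1) s →
      ∑ k ∈ range K, ((1 - p l.length) *
          (R k (false :: l) s - Q G l.length (R k l) s (zs l.length s))
        + p l.length * (R k (true :: l) s - Q G l.length (R k l) s (zs l.length s)))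
        ≤ reg l.length s)
    (hreg' : ∀ l : List Bool, l.length < H → cap ≤ l.count true → ∀ s, ok (l.length + 1) s →
      ∑ k ∈ range K, ((1 - p l.length) *
          (R k (false :: l) s - Q G l.length (R k l) s (zs l.length s))
        + p l.length * (R k (true :: l) s - Q G l.length (R k l) s (zs l.length s)))
        ≤ reg l.length s + bad l.length s) (s : S) (hs : ok H s) :
    EL p H (fun l => ∑ k ∈ range K, R k l s) ≤ K * TreeA330.cmp G zs H s + acc G zs H reg s
      + Real.exp (2 * P * H - cap) * acc G zs H bad s := by
  have h1 := main_fnL G zs hp hom K R hok h0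
    (fun l s => reg l.length s + many cap l * bad l.length s) H (fun l hl s hs => by
      by_cases hc : l.count true < cap
      · have := hreg l hl hc s hs
        have h2 : many cap l = 0 := by
          unfold many
          rw [if_neg (not_le.2 hc)]
        simp only [h2, zero_mul, add_zero]
        exact this
      · have := hreg' l hl (not_lt.1 hc) s hs
        have h2 : many cap l = 1 := by
          unfold many
          rw [if_pos (not_lt.1 hc)]
        simp only [h2, one_mul]
        exact this) s hs
  have h3 : acc G zs H (fun h s => EL p h fun l => reg l.length s + many cap l * bad l.length s) s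
      = acc G zs H (fun h s => EL p h fun l => reg h s + many cap l * bad h s) s := by
    refine acc_congr G zs H (fun h _ s => ?_) s
    exact EL_congr h fun l hl => by rw [hl]
  rw [h3] at h1
  have h4 := acc_EL_split G zs (p := p) hom (t := Real.exp (2 * P * H - cap)) (cap := cap) (H := H)
    (fun h hh => (tail_exp hp hP0 hP cap h).trans (Real.exp_le_exp.2 (by
      have : (h : ℝ) ≤ H := by exact_mod_cast hh.le
      have := mul_le_mul_of_nonneg_left this (mul_nonneg (by norm_num : (0:ℝ) ≤ 2) hP0)
      linarith))) (reg := reg) hbad s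
  linarith

/-- the capped form of `TreeA330.main` for players with kernels: the kernel of a step uses the
effective flag -/
def capq {A : Type*} (cap : ℕ) (q : Bool → List Bool → S → A → ℝ) : Bool → List Bool → S → A → ℝ :=
  fun b l s a => q (eff cap b l) l s a

end Crest.Agent.R288.Flag668
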