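import Crest.Agent.R288.InpA_39
import Crest.Agent.R288.TopA_791

/-!
# R288 leaf [I] (helper39): the input words of S0433

`inp x y ε`, `wl a x y ε`, `Symb` of `TopA_791`; lengths, positions, segments of the initial state,
bounds of the word length from above and below, size of `ratWords ε` against the word length.
-/

set_option autoImplicit false

namespace Crest.Agent.R288.Inp39

open Crest.GraphRAM Crest.Agent.R288.Top791 Crest.Agent.R295

variable {a : ℕ} {x y : List ℕ} {ε : ℚ}

/-! ### length -/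

theorem six_le (x y : List ℕ) (h0 : 0 < ε) (h1 : ε < 1) :
    x.length + y.length + 6 ≤ (inp x y ε).length := by
  have := four_le_ratWords h0 h1
  rw [inp_length]
  omega

theorem ratWords_length_eq (x y : List ℕ) (ε : ℚ) :
    (ratWords ε).length = (inp x y ε).length - (2 + x.length + y.length) := by
  rw [inp_length]
  omega

/-- the input is at most twice as long as the strings -/
theorem inp_le_two_mul (h : 2 + (ratWords ε).length ≤ x.length + y.length) :
    (inp x y ε).length ≤ 2 * (x.length + y.length) := by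
  rw [inp_length]
  omega

theorem inp_add_two_le (h : 4 + (ratWords ε).length ≤ x.length + y.length) :
    (inp x y ε).length + 2 ≤ 2 * (x.length + y.length) := by
  rw [inp_length]
  omega

/-! ### positions -/

theorem inp_cons (x y : List ℕ) (ε : ℚ) :
    inp x y ε = x.length :: y.length :: (x ++ y ++ ratWords ε) := rfl

theorem inp_zero (x y : List ℕ) (ε : ℚ) : (inp x y ε)[0]? = some x.length := rfl

theorem inp_one (x y : List ℕ) (ε : ℚ) : (inp x y ε)[1]? = some y.length := rfl

theorem inp_x {i : ℕ} (h : i < x.length) : (inp x y ε)[2 + i]? = some x[i] := by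
  rw [inp_cons, show 2 + i = i + 1 + 1 by omega, List.getElem?_cons_succ, List.getElem?_cons_succ,
    List.append_assoc, List.getElem?_append_left h, List.getElem?_eq_getElem h]

theorem inp_y {i : ℕ} (h : i < y.length) : (inp x y ε)[2 + x.length + i]? = some y[i] := by
  rw [inp_cons, show 2 + x.length + i = x.length + i + 1 + 1 by omega, List.getElem?_cons_succ,
    List.getElem?_cons_succ, List.append_assoc, List.getElem?_append_right (by omega),
    Nat.add_sub_cancel_left, List.getElem?_append_left h, List.getElem?_eq_getElem h]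

theorem inp_w (x y : List ℕ) (ε : ℚ) (i : ℕ) :
    (inp x y ε)[2 + x.length + y.length + i]? = (ratWords ε)[i]? := by
  rw [inp_cons, show 2 + x.length + y.length + i = x.length + y.length + i + 1 + 1 by omega,
    List.getElem?_cons_succ, List.getElem?_cons_succ, List.getElem?_append_right (by simp),
    List.length_append, Nat.add_sub_cancel_left]

theorem inp_drop (x y : List ℕ) (ε : ℚ) :
    (inp x y ε).drop (2 + x.length + y.length) = ratWords ε := by
  apply List.ext_getElem?
  intro i
  rw [List.getElem?_drop, inp_w]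

/-- the numerator word `i` -/
theorem inp_num {i : ℕ} (h : i < (bw ε.num.natAbs).length) :
    (inp x y ε)[2 + x.length + y.length + i]? = some ((bw ε.num.natAbs)[i]) := by
  rw [inp_w, ratWords_num h]

theorem inp_sep (x y : List ℕ) (ε : ℚ) :
    (inp x y ε)[2 + x.length + y.length + (bw ε.num.natAbs).length]? = some 2 := by
  rw [inp_w, ratWords_sep]

theorem inp_den {i : ℕ} (h : i < (bw ε.den).length) :
    (inp x y ε)[2 + x.length + y.length + ((bw ε.num.natAbs).length + 1 + i)]? =
      some ((bw ε.den)[i]) := by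
  rw [inp_w, ratWords_den h]

/-! ### the initial state -/

theorem init_arr (input : List ℕ) (i : ℕ) :
    (HL.initState input).arr 0 i = input[i]?.getD 0 := by
  simp [HL.initState]

theorem init_reg0 (input : List ℕ) : (HL.initState input).reg 0 = input.length := by
  simp [HL.initState]

theorem init_reg (input : List ℕ) {v : ℕ} (h : v ≠ 0) : (HL.initState input).reg v = 0 := by
  simp [HL.initState, h]

theorem init_len1 (x y : List ℕ) (ε : ℚ) : (HL.initState (inp x y ε)).arr 0 0 = x.length := by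
  rw [init_arr, inp_zero]
  rfl

theorem init_len2 (x y : List ℕ) (ε : ℚ) : (HL.initState (inp x y ε)).arr 0 1 = y.length := by
  rw [init_arr, inp_one]
  rfl

theorem init_seg_x (x y : List ℕ) (ε : ℚ) : (HL.initState (inp x y ε)).Seg 0 2 x := by
  intro i hi
  rw [init_arr, inp_x hi]
  rfl

theorem init_seg_y (x y : List ℕ) (ε : ℚ) : (HL.initState (inp x y ε)).Seg 0 (2 + x.length) y := by
  intro i hi
  rw [init_arr, inp_y hi]
  rfl

theorem init_seg_xy (x y : List ℕ) (ε : ℚ) : (HL.initState (inp x y ε)).Seg 0 2 (x ++ y) := by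
  intro i hi
  rw [init_arr, inp_cons, show 2 + i = i + 1 + 1 by omega, List.getElem?_cons_succ,
    List.getElem?_cons_succ, List.getElem?_append_left hi, List.getElem?_eq_getElem hi]
  rfl

theorem init_seg_all (input : List ℕ) : (HL.initState input).Seg 0 0 input := by
  intro i hi
  rw [init_arr, Nat.zero_add, List.getElem?_eq_getElem hi]
  rfl

theorem init_seg_w (x y : List ℕ) (ε : ℚ) :
    (HL.initState (inp x y ε)).Seg 0 (2 + x.length + y.length) (ratWords ε) := by
  intro i hi
  rw [init_arr, inp_w, List.getElem?_eq_getElem hi]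
  rfl

theorem init_seg_num (x y : List ℕ) (ε : ℚ) :
    (HL.initState (inp x y ε)).Seg 0 (2 + x.length + y.length) (bw ε.num.natAbs) := by
  intro i hi
  rw [init_arr, inp_num hi]
  rfl

theorem init_sep (x y : List ℕ) (ε : ℚ) :
    (HL.initState (inp x y ε)).arr 0 (2 + x.length + y.length + (bw ε.num.natAbs).length) = 2 := by
  rw [init_arr, inp_sep]
  rfl

theorem init_seg_den (x y : List ℕ) (ε : ℚ) :
    (HL.initState (inp x y ε)).Seg 0
      (2 + x.length + y.length + ((bw ε.num.natAbs).length + 1)) (bw ε.den) := by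
  intro i hi
  rw [init_arr, Nat.add_assoc (2 + x.length + y.length), inp_den hi]
  rfl

/-- a word of the rational part is `2` exactly at the separator -/
theorem init_eq_two_iff (x y : List ℕ) (ε : ℚ) (i : ℕ) :
    (HL.initState (inp x y ε)).arr 0 (2 + x.length + y.length + i) = 2 ↔
      i = (bw ε.num.natAbs).length := by
  rw [init_arr, inp_w, ← ratWords_eq_two_iff (q := ε)]
  cases (ratWords ε)[i]? with
  | none => simp
  | some v => simp

/-! ### word length: upper bounds -/

theorem clog_le_log (n : ℕ) : Nat.clog 2 (n + 2) ≤ Nat.log 2 n + 3 := by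
  refine Nat.clog_le_of_le_pow ?_
  have h := Nat.lt_pow_succ_log_self (b := 2) (by norm_num) n
  have h2 : 2 ^ (Nat.log 2 n + 3) = 4 * 2 ^ (Nat.log 2 n + 1) := by ring
  have h3 : 1 ≤ 2 ^ (Nat.log 2 n + 1) := Nat.one_le_two_pow
  simp only [Nat.succ_eq_add_one] at h
  omega

theorem wl_le (a : ℕ) (x y : List ℕ) (ε : ℚ) :
    wl a x y ε ≤ (a + 3) * (Nat.log 2 (inp x y ε).length + 3) :=
  Nat.mul_le_mul_left _ (clog_le_log _)

/-! ### word length: lower bounds -/

theorem three_mul_clog_le (a : ℕ) (x y : List ℕ) (ε : ℚ) :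
    3 * Nat.clog 2 ((inp x y ε).length + 2) ≤ wl a x y ε :=
  Nat.mul_le_mul_right _ (by omega)

theorem clog_le_wl (a : ℕ) (x y : List ℕ) (ε : ℚ) :
    Nat.clog 2 ((inp x y ε).length + 2) ≤ wl a x y ε := by
  have := three_mul_clog_le a x y ε
  omega

theorem three_le_clog (x y : List ℕ) (ε : ℚ) : 3 ≤ Nat.clog 2 ((inp x y ε).length + 2) := by
  have h := three_le x y ε
  have : 2 ^ 2 < (inp x y ε).length + 2 := by omega
  exact (Nat.lt_clog_iff_pow_lt (by norm_num)).2 this

theorem nine_le_wl (a : ℕ) (x y : List ℕ) (ε : ℚ) : 9 ≤ wl a x y ε := by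
  have := three_mul_clog_le a x y ε
  have := three_le_clog x y ε
  omega

theorem lt_two_pow_clog (x y : List ℕ) (ε : ℚ) :
    (inp x y ε).length < 2 ^ Nat.clog 2 ((inp x y ε).length + 2) :=
  lt_of_lt_of_le (by omega) (Nat.le_pow_clog (by norm_num) _)

theorem length_lt (a : ℕ) (x y : List ℕ) (ε : ℚ) : (inp x y ε).length < 2 ^ wl a x y ε :=
  (lt_two_pow_clog x y ε).trans_le (Nat.pow_le_pow_right (by norm_num) (clog_le_wl a x y ε))

/-- `(L + 2) ^ k ≤ 2 ^ w` for `k ≤ a + 3` -/
theorem pow_le {k : ℕ} (hk : k ≤ a + 3) (x y : List ℕ) (ε : ℚ) :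
    ((inp x y ε).length + 2) ^ k ≤ 2 ^ wl a x y ε :=
  (Nat.pow_le_pow_right (by omega) hk).trans (pow_le_two_wl a x y ε)

/-- powers of `L + 2` from below: `2 ^ (c * k) ≤ (2 (L + 2)) ^ k` with `c = clog 2 (L + 2)` -/
theorem two_pow_clog_le (n : ℕ) : 2 ^ Nat.clog 2 (n + 2) ≤ 2 * (n + 2) := by
  have h : 2 ^ (Nat.clog 2 (n + 2) - 1) < n + 2 := by
    have := Nat.pow_pred_clog_lt_self (b := 2) (by norm_num) (x := n + 2) (by omega)
    simpa [Nat.pred_eq_sub_one] using this
  have h1 : 1 ≤ Nat.clog 2 (n + 2) := Nat.clog_pos (by norm_num) (by omega)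
  obtain ⟨c, hc⟩ : ∃ c, Nat.clog 2 (n + 2) = c + 1 := ⟨_, (Nat.sub_add_cancel h1).symm⟩
  rw [hc] at h ⊢
  rw [Nat.add_sub_cancel] at h
  rw [pow_succ]
  omega

theorem two_pow_wl_le (a : ℕ) (x y : List ℕ) (ε : ℚ) :
    2 ^ wl a x y ε ≤ (2 * ((inp x y ε).length + 2)) ^ (a + 3) := by
  unfold wl
  rw [mul_comm (a + 3), pow_mul]
  exact Nat.pow_le_pow_left (two_pow_clog_le _) _

/-! ### the rational against the word length -/

theorem num_lt_of_le {k : ℕ} (h : (ratWords ε).length ≤ k) : ε.num.natAbs < 2 ^ k :=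
  (num_lt_two_pow ε).trans_le (Nat.pow_le_pow_right (by norm_num) h)

theorem den_lt_of_le {k : ℕ} (h : (ratWords ε).length ≤ k) : ε.den < 2 ^ k :=
  (den_lt_two_pow ε).trans_le (Nat.pow_le_pow_right (by norm_num) h)

theorem num_lt_quarter (h : (ratWords ε).length ≤ wl a x y ε / 4) :
    ε.num.natAbs < 2 ^ (wl a x y ε / 4) := num_lt_of_le h

theorem den_lt_quarter (h : (ratWords ε).length ≤ wl a x y ε / 4) :
    ε.den < 2 ^ (wl a x y ε / 4) := den_lt_of_le h

theorem log_le_clog (n m : ℕ) (h : n ≤ m) : Nat.log 2 n ≤ Nat.clog 2 m :=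
  (Nat.log_mono_right h).trans (Nat.log_le_clog 2 m)

/-- for every `ε` and `c`: `c ≤ clog 2 (L + 2)` for long strings, uniformly in `a` -/
theorem eventually_le_clog (ε : ℚ) (c : ℕ) : ∃ N₀ : ℕ, ∀ x y : List ℕ, N₀ ≤ x.length + y.length →
    c ≤ Nat.clog 2 ((inp x y ε).length + 2) := by
  refine ⟨2 ^ c, fun x y h => ?_⟩
  have h1 : 2 ^ c < (inp x y ε).length + 2 := by
    rw [inp_length]
    omega
  exact ((Nat.lt_clog_iff_pow_lt (by norm_num)).2 h1).le

/-- for every `ε`: the rational is short (`c` times its length is at most `w/4` and at most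
`clog 2 (L + 2)`) for long strings, uniformly in `a` -/
theorem eventually_short (ε : ℚ) (c : ℕ) : ∃ N₀ : ℕ, ∀ (a : ℕ) (x y : List ℕ),
    N₀ ≤ x.length + y.length →
    c * (ratWords ε).length ≤ Nat.clog 2 ((inp x y ε).length + 2) ∧
      c * (ratWords ε).length ≤ wl a x y ε / 4 := by
  obtain ⟨N₀, h⟩ := eventually_le_clog ε (2 * (c * (ratWords ε).length))
  refine ⟨N₀, fun a x y hN => ?_⟩
  have h1 := h x y hN
  have h2 := three_mul_clog_le a x y ε
  omega

/-- for long strings the input is at most twice as long -/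
theorem eventually_length (ε : ℚ) : ∃ N₀ : ℕ, ∀ x y : List ℕ, N₀ ≤ x.length + y.length →
    (inp x y ε).length + 2 ≤ 2 * (x.length + y.length) :=
  ⟨4 + (ratWords ε).length, fun _ _ h => inp_add_two_le h⟩

end Crest.Agent.R288.Inp39
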