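import Crest.Agent.R288.Fx3r_307

/-!
# R288 / [F3]: log-sum-exp, softmin, normalised weights in fixed point (pure part)

`n`, `p v : ℕ → ℕ` (prior weights, values), unit `2^-F`, temperature `a / b`, inverse temperature
`β = b / a`; `up = false`: soft minimum, `up = true`: soft maximum.
* `IsExp F β c e`, `IsLog F c N l`: interface of the exponential and the logarithm;
  `IsExp.scale`: `e (d * b / a)` for inverse temperature `b / a`;
* `wm up p v n`: total weight and extreme value over the indices of positive weight;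
* `SS`, `gap`: sum of the weights `p i * e (d i)`, `l (W 2^F) - l S`;
* `lseN up F a b e l p v n`: the fixed point soft minimum / maximum, **`lseN_err`** against `rlse`;
* `wtN up a b e p v n i`: the fixed point weights, **`wtN_err`** (total variation).
-/

set_option autoImplicit false

namespace Crest.Agent.R288.Fx3307

open Finset

/-! ### total weight and extreme value -/

/-- better of two values: minimum (`up = false`) or maximum (`up = true`) -/
def best (up : Bool) (a b : ℕ) : ℕ := bif up then max a b else min a b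

/-- distance to the extreme value -/
def dist (up : Bool) (m v : ℕ) : ℕ := bif up then m - v else v - m

/-- total weight and extreme value over the indices of positive weight -/
def wm (up : Bool) (p v : ℕ → ℕ) : ℕ → ℕ × ℕ
  | 0 => (0, 0)
  | n + 1 => ((wm up p v n).1 + p n,
      if p n = 0 then (wm up p v n).2
      else if (wm up p v n).1 = 0 then v n else best up (wm up p v n).2 (v n))

theorem wm_fst (up : Bool) (p v : ℕ → ℕ) (n : ℕ) : (wm up p v n).1 = ∑ i ∈ range n, p i := by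
  induction n with
  | zero => rfl
  | succ n ih => rw [sum_range_succ, ← ih]; rfl

theorem wm_snd_min {p v : ℕ → ℕ} {n i : ℕ} (hi : i < n) (hp : p i ≠ 0) :
    (wm false p v n).2 ≤ v i := by
  induction n with
  | zero => omega
  | succ n ih =>
    simp only [wm, best, cond_false]
    rcases Nat.lt_succ_iff_lt_or_eq.1 hi with h | h
    · have h1 := ih h
      split_ifs with h2 h3
      · exact h1
      · exfalso
        rw [wm_fst] at h3
        have := Finset.sum_eq_zero_iff.1 h3 i (mem_range.2 h)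
        exact hp this
      · exact (min_le_left _ _).trans h1
    · subst h
      rw [if_neg hp]
      split_ifs with h3
      · exact le_rfl
      · exact min_le_right _ _

theorem wm_snd_max {p v : ℕ → ℕ} {n i : ℕ} (hi : i < n) (hp : p i ≠ 0) :
    v i ≤ (wm true p v n).2 := by
  induction n with
  | zero => omega
  | succ n ih =>
    simp only [wm, best, cond_true]
    rcases Nat.lt_succ_iff_lt_or_eq.1 hi with h | h
    · have h1 := ih h
      split_ifs with h2 h3
      · exact h1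
      · exfalso
        rw [wm_fst] at h3
        have := Finset.sum_eq_zero_iff.1 h3 i (mem_range.2 h)
        exact hp this
      · exact h1.trans (le_max_left _ _)
    · subst h
      rw [if_neg hp]
      split_ifs with h3
      · exact le_rfl
      · exact le_max_right _ _

/-- the extreme value is attained at an index of positive weight -/
theorem wm_snd_mem (up : Bool) {p v : ℕ → ℕ} {n : ℕ} (h : (wm up p v n).1 ≠ 0) :
    ∃ i < n, p i ≠ 0 ∧ v i = (wm up p v n).2 := by
  induction n with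
  | zero => exact absurd rfl h
  | succ n ih =>
    simp only [wm] at h ⊢
    split_ifs with h2 h3
    · rw [h2, add_zero] at h
      obtain ⟨i, hi, h4, h5⟩ := ih h
      exact ⟨i, by omega, h4, h5⟩
    · exact ⟨n, by omega, h2, rfl⟩
    · obtain ⟨i, hi, h4, h5⟩ := ih h3
      cases up with
      | false =>
        simp only [best, cond_false]
        rcases min_choice (wm false p v n).2 (v n) with h6 | h6
        · exact ⟨i, by omega, h4, by rw [h6, h5]⟩
        · exact ⟨n, by omega, h2, by rw [h6]⟩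
      | true =>
        simp only [best, cond_true]
        rcases max_choice (wm true p v n).2 (v n) with h6 | h6
        · exact ⟨i, by omega, h4, by rw [h6, h5]⟩
        · exact ⟨n, by omega, h2, by rw [h6]⟩

theorem wm_fst_ne {up : Bool} {p v : ℕ → ℕ} {n i : ℕ} (hi : i < n) (hp : p i ≠ 0) :
    (wm up p v n).1 ≠ 0 := by
  rw [wm_fst]
  intro h
  exact hp (Finset.sum_eq_zero_iff.1 h i (mem_range.2 hi))

theorem wm_congr {up : Bool} {p v p' v' : ℕ → ℕ} {n : ℕ} (hp : ∀ i < n, p i = p' i)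
    (hv : ∀ i < n, p i ≠ 0 → v i = v' i) : wm up p v n = wm up p' v' n := by
  induction n with
  | zero => rfl
  | succ n ih =>
    have ih' := ih (fun i hi => hp i (by omega)) (fun i hi => hv i (by omega))
    simp only [wm]
    rw [ih', hp n (by omega)]
    by_cases h : p' n = 0
    · simp [h]
    · rw [hv n (by omega) (by rw [hp n (by omega)]; exact h)]

/-- the extreme value is at most any common bound of the values -/
theorem wm_snd_le {up : Bool} {p v : ℕ → ℕ} {n C : ℕ} (h : ∀ i < n, p i ≠ 0 → v i ≤ C) :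
    (wm up p v n).2 ≤ C := by
  by_cases h0 : (wm up p v n).1 = 0
  · have : (wm up p v n).2 = 0 := by
      have hp : ∀ i < n, p i = 0 := by
        rw [wm_fst] at h0
        intro i hi
        exact Finset.sum_eq_zero_iff.1 h0 i (mem_range.2 hi)
      clear h h0
      induction n with
      | zero => rfl
      | succ n ih =>
        simp only [wm]
        rw [if_pos (hp n (by omega))]
        exact ih fun i hi => hp i (by omega)
    omega
  · obtain ⟨i, hi, h1, h2⟩ := wm_snd_mem up h0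
    rw [← h2]
    exact h i hi h1

/-! ### fixed point sums -/

/-- sum of the fixed point weights -/
def SS (p d : ℕ → ℕ) (e : ℕ → ℕ) (n : ℕ) : ℕ := ∑ i ∈ range n, p i * e (d i)

/-- the fixed point gap: `2^F` times `-log` of the normalised weight sum -/
def gap (F : ℕ) (l : ℕ → ℕ) (W S : ℕ) : ℕ := l (W * 2 ^ F) - l S

/-- `e` is a fixed point approximation of `d ↦ exp (-β d)` with `F` bits and error `c` units -/
structure IsExp (F : ℕ) (β c : ℝ) (e : ℕ → ℕ) : Prop where
  le : ∀ d, e d ≤ 2 ^ F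
  err : ∀ d, |(e d : ℝ) - 2 ^ F * Real.exp (-(β * (d / 2 ^ F)))| ≤ c

/-- `l` is a fixed point approximation of `log` up to `N` with `F` bits and error `c` units -/
def IsLog (F : ℕ) (c : ℝ) (N : ℕ) (l : ℕ → ℕ) : Prop :=
  ∀ v, 1 ≤ v → v ≤ N → |(l v : ℝ) - 2 ^ F * Real.log v| ≤ c

theorem IsExp.c_nonneg {F : ℕ} {β c : ℝ} {e : ℕ → ℕ} (h : IsExp F β c e) : 0 ≤ c :=
  (abs_nonneg _).trans (h.err 0)

theorem IsLog.c_nonneg {F : ℕ} {c : ℝ} {N : ℕ} {l : ℕ → ℕ} (h : IsLog F c N l) (hN : 1 ≤ N) :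
    0 ≤ c := (abs_nonneg _).trans (h 1 le_rfl hN)

theorem SS_le {F : ℕ} {β c : ℝ} {e : ℕ → ℕ} (he : IsExp F β c e) (p d : ℕ → ℕ) (n : ℕ) :
    SS p d e n ≤ (∑ i ∈ range n, p i) * 2 ^ F := by
  rw [SS, sum_mul]
  exact sum_le_sum fun i _ => Nat.mul_le_mul_left _ (he.le _)

/-- change of the inverse temperature by scaling the argument with `b / a` -/
theorem IsExp.scale {F : ℕ} {c : ℝ} {e : ℕ → ℕ} (h : IsExp F 1 c e) {a b : ℕ} (ha : 0 < a) :
    IsExp F (b / a) (c + 1) (fun d => e (d * b / a)) := by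
  refine ⟨fun d => h.le _, fun d => ?_⟩
  have hp : (0 : ℝ) < 2 ^ F := by positivity
  have ha' : (0 : ℝ) < a := by exact_mod_cast ha
  have h1 := h.err (d * b / a)
  set y : ℕ := d * b / a with hy
  have h2 : (y : ℝ) ≤ (d : ℝ) * b / a := by
    have := Nat.cast_div_le (α := ℝ) (m := d * b) (n := a)
    rw [hy]
    simpa using this
  have h3 : (d : ℝ) * b / a ≤ y + 1 := by
    have h4 : d * b < a * y + a := by
      have := Nat.mod_lt (d * b) ha
      have := Nat.div_add_mod (d * b) a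
      rw [← hy] at this
      omega
    have h5 : (d : ℝ) * b < a * y + a := by exact_mod_cast h4
    rw [div_le_iff₀ ha']
    nlinarith
  set u : ℝ := 1 * ((y : ℝ) / 2 ^ F) with hu
  set t : ℝ := (b : ℝ) / a * (d / 2 ^ F) with ht
  have hut : u ≤ t ∧ t ≤ u + 1 / 2 ^ F := by
    have e1 : t = ((d : ℝ) * b / a) / 2 ^ F := by rw [ht]; ring
    rw [e1, hu, one_mul, ← add_div]
    exact ⟨div_le_div_of_nonneg_right h2 hp.le, div_le_div_of_nonneg_right h3 hp.le⟩
  have hu0 : 0 ≤ u := by rw [hu]; positivity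
  have h6 : |2 ^ F * Real.exp (-u) - 2 ^ F * Real.exp (-t)| ≤ 1 := by
    have h7 : Real.exp (-t) ≤ Real.exp (-u) := Real.exp_le_exp.2 (by linarith [hut.1])
    rw [← mul_sub, abs_mul, abs_of_pos hp, abs_of_nonneg (by linarith)]
    have h8 : Real.exp (-u) ≤ 1 := Real.exp_le_one_iff.2 (by linarith)
    have h9 : Real.exp (-u) - Real.exp (-t) = Real.exp (-u) * (1 - Real.exp (-(t - u))) := by
      rw [mul_sub, mul_one, ← Real.exp_add]
      congr 2
      ring
    have h10 : 1 - Real.exp (-(t - u)) ≤ t - u := by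
      have := Real.add_one_le_exp (-(t - u))
      linarith
    have h11 : Real.exp (-u) - Real.exp (-t) ≤ 1 / 2 ^ F := by
      rw [h9]
      have h12 : 0 ≤ 1 - Real.exp (-(t - u)) := by
        have : Real.exp (-(t - u)) ≤ 1 := Real.exp_le_one_iff.2 (by linarith [hut.1])
        linarith
      calc Real.exp (-u) * (1 - Real.exp (-(t - u))) ≤ 1 * (1 - Real.exp (-(t - u))) :=
            mul_le_mul_of_nonneg_right h8 h12
        _ ≤ t - u := by linarith
        _ ≤ 1 / 2 ^ F := by linarith [hut.2]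
    calc 2 ^ F * (Real.exp (-u) - Real.exp (-t)) ≤ 2 ^ F * (1 / 2 ^ F) :=
          mul_le_mul_of_nonneg_left h11 hp.le
      _ = 1 := by field_simp
  have h13 := abs_sub_le (e y : ℝ) (2 ^ F * Real.exp (-u)) (2 ^ F * Real.exp (-t))
  calc |((fun d => e (d * b / a)) d : ℝ) - 2 ^ F * Real.exp (-(b / a * (d / 2 ^ F)))|
      = |(e y : ℝ) - 2 ^ F * Real.exp (-t)| := rfl
    _ ≤ c + 1 := by linarith

section err

variable {F n : ℕ} {β c : ℝ} {e : ℕ → ℕ} {p d : ℕ → ℕ}

/-- the exact weight sum -/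
noncomputable def TT (F : ℕ) (β : ℝ) (p d : ℕ → ℕ) (n : ℕ) : ℝ :=
  ∑ i ∈ range n, (p i : ℝ) * Real.exp (-(β * (d i / 2 ^ F)))

theorem SS_err (he : IsExp F β c e) :
    |(SS p d e n : ℝ) - 2 ^ F * TT F β p d n| ≤ c * (∑ i ∈ range n, p i : ℕ) := by
  rw [SS, TT, mul_sum]
  push_cast
  rw [← sum_sub_distrib, mul_sum]
  refine (abs_sum_le_sum_abs _ _).trans (sum_le_sum fun i _ => ?_)
  have h1 : (p i : ℝ) * (e (d i) : ℝ) - 2 ^ F * ((p i : ℝ) * Real.exp (-(β * (d i / 2 ^ F)))) =
      (p i : ℝ) * ((e (d i) : ℝ) - 2 ^ F * Real.exp (-(β * (d i / 2 ^ F)))) := by ring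
  rw [h1, abs_mul, Nat.abs_cast, mul_comm]
  exact mul_le_mul_of_nonneg_right (he.err _) (Nat.cast_nonneg _)

theorem TT_ge {P i : ℕ} (hi : i < n) (hd : d i = 0) (hP : P ≤ p i) : (P : ℝ) ≤ TT F β p d n := by
  have h1 : (p i : ℝ) * Real.exp (-(β * (d i / 2 ^ F))) ≤ TT F β p d n :=
    single_le_sum (f := fun i => (p i : ℝ) * Real.exp (-(β * (d i / 2 ^ F))))
      (fun j _ => by positivity) (mem_range.2 hi)
  rw [hd] at h1
  simp only [Nat.cast_zero, zero_div, mul_zero, neg_zero, Real.exp_zero, mul_one] at h1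
  exact (by exact_mod_cast hP : (P : ℝ) ≤ p i).trans h1

/-- `|r - 1| ≤ ρ ≤ 1/2` implies `|log r| ≤ 2 ρ` -/
theorem abs_log_le {r ρ : ℝ} (h : |r - 1| ≤ ρ) (hρ : ρ ≤ 1 / 2) : |Real.log r| ≤ 2 * ρ := by
  rw [abs_le] at h
  have hr : 0 < r := by linarith [h.1]
  have h1 : Real.log r ≤ r - 1 := Real.log_le_sub_one_of_pos hr
  have h2 : Real.log r⁻¹ ≤ r⁻¹ - 1 := Real.log_le_sub_one_of_pos (inv_pos.2 hr)
  rw [Real.log_inv] at h2
  have h3 : r⁻¹ - 1 ≤ 2 * ρ := by
    rw [inv_eq_one_div, div_sub' hr.ne', div_le_iff₀ hr]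
    nlinarith [h.1, h.2]
  rw [abs_le]
  constructor
  · linarith
  · linarith [h.2]

/-- error of the gap -/
theorem gap_err {c' : ℝ} {l : ℕ → ℕ} (he : IsExp F β c e)
    (hl : IsLog F c' ((∑ i ∈ range n, p i) * 2 ^ F) l) {P i : ℕ} (hP1 : 1 ≤ P) (hi : i < n)
    (hd : d i = 0) (hP : P ≤ p i) (hc : 2 * (c * (∑ i ∈ range n, p i : ℕ)) ≤ P * 2 ^ F)
    (hβ : 0 ≤ β) :
    |(gap F l (∑ i ∈ range n, p i) (SS p d e n) : ℝ) -
      2 ^ F * (-Real.log (TT F β p d n / (∑ i ∈ range n, p i : ℕ)))| ≤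
      2 * c' + 2 * (c * (∑ i ∈ range n, p i : ℕ)) / P := by
  have hp : (0 : ℝ) < 2 ^ F := by positivity
  set W := ∑ i ∈ range n, p i with hW
  set S := SS p d e n with hS
  set T := TT F β p d n with hT
  have hP0 : (0 : ℝ) < P := by exact_mod_cast hP1
  have hPT : (P : ℝ) ≤ T := TT_ge hi hd hP
  have hT0 : 0 < T := hP0.trans_le hPT
  have hPW : P ≤ W := hP.trans (single_le_sum (f := p) (fun _ _ => Nat.zero_le _) (mem_range.2 hi))
  have hW0 : (0 : ℝ) < W := by exact_mod_cast (lt_of_lt_of_le hP1 hPW)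
  have hc0 := he.c_nonneg
  have h1 : |(S : ℝ) - 2 ^ F * T| ≤ c * W := SS_err he
  have hTp : 0 < 2 ^ F * T := mul_pos hp hT0
  have h2 : |(S : ℝ) / (2 ^ F * T) - 1| ≤ c * W / (P * 2 ^ F) := by
    rw [div_sub_one hTp.ne', abs_div, abs_of_pos hTp]
    apply div_le_div₀ (mul_nonneg hc0 hW0.le) h1 (mul_pos hP0 hp)
    rw [mul_comm]
    exact mul_le_mul_of_nonneg_left hPT hp.le
  have h3 : c * W / (P * 2 ^ F) ≤ 1 / 2 := by
    rw [div_le_iff₀ (mul_pos hP0 hp)]
    linarith
  have h4 := abs_log_le h2 h3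
  have hSpos : 0 < (S : ℝ) := by
    have := (abs_le.1 h2).1
    have h5 : (0 : ℝ) < S / (2 ^ F * T) := by linarith
    by_contra hcon
    exact absurd h5 (not_lt.2 (div_nonpos_of_nonpos_of_nonneg (not_lt.1 hcon) hTp.le))
  have hS1 : 1 ≤ S := by
    have : 0 < S := by exact_mod_cast hSpos
    omega
  have hSW : S ≤ W * 2 ^ F := SS_le he p d n
  have h5 := hl S hS1 hSW
  have h6 := hl (W * 2 ^ F) (hS1.trans hSW) le_rfl
  -- the true gap is nonnegative
  have hTW : T ≤ W := by
    rw [hT, TT, hW]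
    push_cast
    refine sum_le_sum fun j _ => ?_
    have : Real.exp (-(β * (d j / 2 ^ F))) ≤ 1 := by
      rw [Real.exp_le_one_iff]
      have : 0 ≤ β * ((d j : ℝ) / 2 ^ F) := by positivity
      linarith
    nlinarith [Nat.cast_nonneg (α := ℝ) (p j)]
  have h7 : 0 ≤ 2 ^ F * (-Real.log (T / W)) := by
    apply mul_nonneg hp.le
    rw [neg_nonneg]
    exact Real.log_nonpos (div_nonneg hT0.le hW0.le) ((div_le_one hW0).2 hTW)
  -- the untruncated difference
  have h8 : |((l (W * 2 ^ F) : ℝ) - l S) - 2 ^ F * (-Real.log (T / W))| ≤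
      2 * c' + 2 * (c * W) / P := by
    have e1 : 2 ^ F * (-Real.log (T / W)) = 2 ^ F * Real.log ((W * 2 ^ F : ℕ) : ℝ) -
        2 ^ F * Real.log S + 2 ^ F * Real.log ((S : ℝ) / (2 ^ F * T)) := by
      push_cast
      rw [Real.log_div hT0.ne' hW0.ne', Real.log_mul hW0.ne' hp.ne', Real.log_div hSpos.ne'
        hTp.ne', Real.log_mul hp.ne' hT0.ne']
      ring
    have e2 : ((l (W * 2 ^ F) : ℝ) - l S) - 2 ^ F * (-Real.log (T / W)) =
        ((l (W * 2 ^ F) : ℝ) - 2 ^ F * Real.log ((W * 2 ^ F : ℕ) : ℝ)) -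
        ((l S : ℝ) - 2 ^ F * Real.log S) - 2 ^ F * Real.log ((S : ℝ) / (2 ^ F * T)) := by
      rw [e1]
      ring
    have e3 : |2 ^ F * Real.log ((S : ℝ) / (2 ^ F * T))| ≤ 2 * (c * W) / P := by
      rw [abs_mul, abs_of_pos hp]
      calc 2 ^ F * |Real.log ((S : ℝ) / (2 ^ F * T))| ≤ 2 ^ F * (2 * (c * W / (P * 2 ^ F))) :=
            mul_le_mul_of_nonneg_left h4 hp.le
        _ = 2 * (c * W) / P := by field_simp
    rw [e2]
    refine (abs_sub _ _).trans ?_
    have := abs_sub ((l (W * 2 ^ F) : ℝ) - 2 ^ F * Real.log ((W * 2 ^ F : ℕ) : ℝ))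
      ((l S : ℝ) - 2 ^ F * Real.log S)
    linarith
  unfold gap
  rcases le_total (l S) (l (W * 2 ^ F)) with h9 | h9
  · rw [Nat.cast_sub h9]
    exact h8
  · rw [Nat.sub_eq_zero_of_le h9]
    have h10 : ((l (W * 2 ^ F) : ℝ)) ≤ l S := by exact_mod_cast h9
    rw [abs_le] at h8 ⊢
    push_cast
    constructor
    · linarith [h8.1]
    · have := hl.c_nonneg (hS1.trans hSW)
      have : 0 ≤ 2 * (c * W) / P := by positivity
      linarith

/-- error of the normalised weights in total variation (twice) -/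
theorem tv_err (he : IsExp F β c e) {P i : ℕ} (hP1 : 1 ≤ P) (hi : i < n)
    (hd : d i = 0) (hP : P ≤ p i) (hc : 2 * (c * (∑ i ∈ range n, p i : ℕ)) ≤ P * 2 ^ F) :
    ∑ j ∈ range n, |(p j * e (d j) : ℕ) / (SS p d e n : ℝ) -
      smin (range n) (fun j => (p j : ℝ)) (fun j => β * (d j / 2 ^ F)) j| ≤
      2 * (c * (∑ i ∈ range n, p i : ℕ)) / (P * 2 ^ F) := by
  have hp : (0 : ℝ) < 2 ^ F := by positivity
  set W := ∑ i ∈ range n, p i with hW
  set S := SS p d e n with hS
  set T := TT F β p d n with hT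
  have hP0 : (0 : ℝ) < P := by exact_mod_cast hP1
  have hPT : (P : ℝ) ≤ T := TT_ge hi hd hP
  have hT0 : 0 < T := hP0.trans_le hPT
  have hPW : P ≤ W := hP.trans (single_le_sum (f := p) (fun _ _ => Nat.zero_le _) (mem_range.2 hi))
  have hW0 : (0 : ℝ) < W := by exact_mod_cast (lt_of_lt_of_le hP1 hPW)
  have hc0 := he.c_nonneg
  have h1 : |(S : ℝ) - 2 ^ F * T| ≤ c * W := SS_err he
  have hTp : 0 < 2 ^ F * T := mul_pos hp hT0
  have hSpos : 0 < (S : ℝ) := by
    have h2 := (abs_le.1 h1).1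
    have h3 : (P : ℝ) * 2 ^ F ≤ 2 ^ F * T := by
      rw [mul_comm]
      exact mul_le_mul_of_nonneg_left hPT hp.le
    have h4 : 0 < (P : ℝ) * 2 ^ F := mul_pos hP0 hp
    linarith
  -- pointwise
  have key : ∀ j ∈ range n, |(p j * e (d j) : ℕ) / (S : ℝ) -
      smin (range n) (fun j => (p j : ℝ)) (fun j => β * (d j / 2 ^ F)) j| ≤
      (p j : ℝ) * c / (2 ^ F * T) + (p j * e (d j) : ℕ) * (c * W / (S * (2 ^ F * T))) := by
    intro j _
    have h5 : smin (range n) (fun j => (p j : ℝ)) (fun j => β * (d j / 2 ^ F)) j =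
        (p j : ℝ) * (2 ^ F * Real.exp (-(β * (d j / 2 ^ F)))) / (2 ^ F * T) := by
      rw [smin, hT, TT]
      rw [mul_left_comm, mul_div_mul_left _ _ hp.ne']
    have h6 : ((p j * e (d j) : ℕ) : ℝ) / S - (p j : ℝ) *
        (2 ^ F * Real.exp (-(β * (d j / 2 ^ F)))) / (2 ^ F * T) =
        (p j : ℝ) * ((e (d j) : ℝ) - 2 ^ F * Real.exp (-(β * (d j / 2 ^ F)))) / (2 ^ F * T) +
        ((p j * e (d j) : ℕ) : ℝ) * ((2 ^ F * T - S) / (S * (2 ^ F * T))) := by
      have := hSpos.ne'
      have := hT0.ne'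
      push_cast
      field_simp
      ring
    rw [h5, h6]
    refine (abs_add_le _ _).trans (add_le_add ?_ ?_)
    · rw [abs_div, abs_mul, Nat.abs_cast, abs_of_pos hTp]
      exact div_le_div_of_nonneg_right (mul_le_mul_of_nonneg_left (he.err _)
        (Nat.cast_nonneg _)) hTp.le
    · rw [abs_mul, Nat.abs_cast, abs_div, abs_of_pos (mul_pos hSpos hTp), abs_sub_comm]
      exact mul_le_mul_of_nonneg_left (div_le_div_of_nonneg_right h1
        (mul_pos hSpos hTp).le) (Nat.cast_nonneg _)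
  refine (sum_le_sum key).trans ?_
  rw [sum_add_distrib, ← sum_div, ← sum_mul, ← sum_mul]
  have h7 : (∑ j ∈ range n, (p j : ℝ)) = W := by rw [hW]; push_cast; rfl
  have h8 : (∑ j ∈ range n, ((p j * e (d j) : ℕ) : ℝ)) = S := by rw [hS, SS]; push_cast; rfl
  rw [h7, h8]
  have h9 : (S : ℝ) * (c * W / (S * (2 ^ F * T))) = c * W / (2 ^ F * T) := by
    have := hSpos.ne'
    field_simp
  have h10 : (W : ℝ) * c / (2 ^ F * T) + c * W / (2 ^ F * T) = 2 * (c * W) / (2 ^ F * T) := by
    ring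
  rw [h9, h10]
  apply div_le_div_of_nonneg_left (by positivity) (mul_pos hP0 hp)
  rw [mul_comm]
  exact mul_le_mul_of_nonneg_left hPT hp.le

end err

/-! ### the values -/

/-- exact value in units `2^-F`: `(2^F/β) lse(β v/2^F)`; negative `β`: soft maximum -/
noncomputable def rlse (F : ℕ) (β : ℝ) (n : ℕ) (p v : ℕ → ℕ) : ℝ :=
  2 ^ F / β * lse (range n) (fun i => (p i : ℝ)) (fun i => β * (v i / 2 ^ F))

/-- final step: extreme value `m`, gap `g`, temperature `a / b` -/
def fin (up : Bool) (m g a b : ℕ) : ℕ := bif up then m - g * a / b else m + g * a / b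

/-- the sign of the inverse temperature -/
def sg (up : Bool) (β : ℝ) : ℝ := bif up then -β else β

/-- the fixed point soft minimum (`up = false`) / soft maximum (`up = true`) -/
def lseN (up : Bool) (F a b : ℕ) (e l : ℕ → ℕ) (p v : ℕ → ℕ) (n : ℕ) : ℕ :=
  fin up (wm up p v n).2 (gap F l (wm up p v n).1
    (SS p (fun i => dist up (wm up p v n).2 (v i)) (fun d => e (d * b / a)) n)) a b

theorem prior_of_ne {p : ℕ → ℕ} {n : ℕ} {i : ℕ} (hi : i < n) (hp : p i ≠ 0) :
    Prior (range n) (fun i => (p i : ℝ)) :=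
  Prior.of_pos (fun _ _ => Nat.cast_nonneg _) (mem_range.2 hi)
    (by exact_mod_cast Nat.pos_of_ne_zero hp)

theorem rlse_eq (up : Bool) {F : ℕ} {β : ℝ} (hβ : 0 < β) {p v : ℕ → ℕ} {n i : ℕ} (hi : i < n)
    (hp : p i ≠ 0) :
    rlse F (sg up β) n p v = (wm up p v n).2 + sg up 1 * (2 ^ F / β *
      (-Real.log (TT F β p (fun i => dist up (wm up p v n).2 (v i)) n /
        (∑ i ∈ range n, p i : ℕ)))) := by
  have hF : (2 : ℝ) ^ F ≠ 0 := by positivity
  have hpr := prior_of_ne hi hp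
  have h1 : -Real.log (TT F β p (fun i => dist up (wm up p v n).2 (v i)) n /
      (∑ i ∈ range n, p i : ℕ)) = lse (range n) (fun i => (p i : ℝ))
        (fun i => β * ((dist up (wm up p v n).2 (v i) : ℕ) / 2 ^ F)) := by
    rw [lse, TT]
    push_cast
    rfl
  rw [h1, rlse]
  cases up with
  | false =>
    have h2 : lse (range n) (fun i => (p i : ℝ)) (fun i => sg false β * (v i / 2 ^ F)) =
        lse (range n) (fun i => (p i : ℝ))
        (fun i => β * ((dist false (wm false p v n).2 (v i) : ℕ) / 2 ^ F)) +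
        β * ((wm false p v n).2 / 2 ^ F) := by
      rw [← lse_add_const hpr]
      refine lse_congr fun j hj hpj => ?_
      have h3 : (wm false p v n).2 ≤ v j :=
        wm_snd_min (mem_range.1 hj) (by exact_mod_cast hpj)
      simp only [dist, sg, cond_false]
      rw [Nat.cast_sub h3]
      ring
    rw [h2]
    simp only [sg, cond_false, one_mul]
    field_simp
    ring
  | true =>
    have h2 : lse (range n) (fun i => (p i : ℝ)) (fun i => sg true β * (v i / 2 ^ F)) =
        lse (range n) (fun i => (p i : ℝ))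
        (fun i => β * ((dist true (wm true p v n).2 (v i) : ℕ) / 2 ^ F)) +
        -(β * ((wm true p v n).2 / 2 ^ F)) := by
      rw [← lse_add_const hpr]
      refine lse_congr fun j hj hpj => ?_
      have h3 : v j ≤ (wm true p v n).2 :=
        wm_snd_max (mem_range.1 hj) (by exact_mod_cast hpj)
      simp only [dist, sg, cond_true]
      rw [Nat.cast_sub h3]
      ring
    rw [h2]
    simp only [sg, cond_true]
    field_simp
    ring

theorem floor_err (g a b : ℕ) (hb : 0 < b) :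
    (g : ℝ) * (a / b) - 1 ≤ ((g * a / b : ℕ) : ℝ) ∧ ((g * a / b : ℕ) : ℝ) ≤ (g : ℝ) * (a / b) := by
  have hb' : (0 : ℝ) < b := by exact_mod_cast hb
  constructor
  · have h4 : g * a < b * (g * a / b) + b := by
      have := Nat.mod_lt (g * a) hb
      have := Nat.div_add_mod (g * a) b
      omega
    have h5 : (g : ℝ) * a < b * ((g * a / b : ℕ) : ℝ) + b := by exact_mod_cast h4
    rw [mul_div_assoc', sub_le_iff_le_add, div_le_iff₀ hb']
    nlinarith
  · have := Nat.cast_div_le (α := ℝ) (m := g * a) (n := b)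
    rw [mul_div_assoc']
    simpa using this

/-- **error of the fixed point soft minimum / maximum** at temperature `a / b` -/
theorem lseN_err (up : Bool) {F : ℕ} {c c' : ℝ} {e l : ℕ → ℕ} (he : IsExp F 1 c e) {a b : ℕ}
    (ha : 0 < a) (hb : 0 < b) {p v : ℕ → ℕ} {n : ℕ}
    (hl : IsLog F c' ((∑ i ∈ range n, p i) * 2 ^ F) l) {P : ℕ} (hP1 : 1 ≤ P)
    (hP : ∀ i < n, p i ≠ 0 → P ≤ p i) (hW : ∑ i ∈ range n, p i ≠ 0)
    (hc : 2 * ((c + 1) * (∑ i ∈ range n, p i : ℕ)) ≤ P * 2 ^ F) :
    |(lseN up F a b e l p v n : ℝ) - rlse F (sg up (b / a)) n p v| ≤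
      (2 * c' + 2 * ((c + 1) * (∑ i ∈ range n, p i : ℕ)) / P) * (a / b) + 1 := by
  have ha' : (0 : ℝ) < a := by exact_mod_cast ha
  have hb' : (0 : ℝ) < b := by exact_mod_cast hb
  have hβ : (0 : ℝ) < b / a := div_pos hb' ha'
  have hW' : (wm up p v n).1 ≠ 0 := by rw [wm_fst]; exact hW
  obtain ⟨i, hi, hpi, hvi⟩ := wm_snd_mem up hW'
  have hdi : (fun i => dist up (wm up p v n).2 (v i)) i = 0 := by
    show dist up (wm up p v n).2 (v i) = 0
    rw [hvi]
    cases up <;> simp [dist]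
  have hg := gap_err (d := fun i => dist up (wm up p v n).2 (v i)) (he.scale (b := b) ha) hl hP1 hi
    hdi (hP i hi hpi) hc hβ.le
  rw [rlse_eq up hβ hi hpi]
  rw [← wm_fst up p v n] at hg ⊢
  set G := gap F l (wm up p v n).1
    (SS p (fun i => dist up (wm up p v n).2 (v i)) (fun d => e (d * b / a)) n) with hG
  set R := -Real.log (TT F (b / a) p (fun i => dist up (wm up p v n).2 (v i)) n /
    ((wm up p v n).1 : ℕ)) with hR
  set m := (wm up p v n).2 with hm
  set E := 2 * c' + 2 * ((c + 1) * ((wm up p v n).1 : ℕ)) / P with hE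
  have h1 : |(G : ℝ) * (a / b) - 2 ^ F / (b / a) * R| ≤ E * (a / b) := by
    have e1 : (G : ℝ) * (a / b) - 2 ^ F / (b / a) * R = ((G : ℝ) - 2 ^ F * R) * (a / b) := by
      field_simp
    rw [e1, abs_mul, abs_of_pos (div_pos ha' hb')]
    exact mul_le_mul_of_nonneg_right hg (div_pos ha' hb').le
  obtain ⟨f1, f2⟩ := floor_err G a b hb
  have hlse : lseN up F a b e l p v n = fin up m G a b := rfl
  rw [hlse]
  rw [abs_le] at h1
  cases up with
  | false =>
    simp only [fin, sg, cond_false, one_mul]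
    push_cast
    rw [abs_le]
    constructor <;> linarith [h1.1, h1.2]
  | true =>
    simp only [fin, sg, cond_true]
    have h2 : 0 ≤ (m : ℝ) + -1 * (2 ^ F / (b / a) * R) := by
      have h3 := rlse_eq true (F := F) hβ (v := v) hi hpi
      simp only [sg, cond_true] at h3
      rw [← wm_fst true p v n, ← hR, ← hm] at h3
      rw [← h3, rlse]
      have h4 : lse (range n) (fun i => (p i : ℝ)) (fun i => -(b / a : ℝ) * (v i / 2 ^ F)) ≤ 0 := by
        rw [← lse_const (prior_of_ne hi hpi) 0]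
        refine lse_mono (prior_of_ne hi hpi) fun j _ _ => ?_
        have : (0 : ℝ) ≤ b / a * (v j / 2 ^ F) := by positivity
        linarith
      have h5 : (0 : ℝ) < 2 ^ F / (b / a) := by positivity
      have e2 : (2 : ℝ) ^ F / -(b / a) = -(2 ^ F / (b / a)) := by rw [div_neg]
      rw [e2]
      nlinarith
    rcases le_total (G * a / b) m with h6 | h6
    · rw [Nat.cast_sub h6]
      rw [abs_le]
      constructor <;> linarith [h1.1, h1.2]
    · rw [Nat.sub_eq_zero_of_le h6]
      have h7 : (m : ℝ) ≤ ((G * a / b : ℕ) : ℝ) := by exact_mod_cast h6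
      rw [abs_le]
      push_cast
      constructor
      · linarith [h1.1, h1.2]
      · have h8 : 0 ≤ E * (a / b) := (abs_nonneg _).trans (abs_le.2 h1)
        linarith

theorem wm_le_lseN (F a b : ℕ) (e l : ℕ → ℕ) (p v : ℕ → ℕ) (n : ℕ) :
    (wm false p v n).2 ≤ lseN false F a b e l p v n := by
  simp only [lseN, fin, cond_false]
  exact Nat.le_add_right _ _

theorem lseN_le_wm (F a b : ℕ) (e l : ℕ → ℕ) (p v : ℕ → ℕ) (n : ℕ) :
    lseN true F a b e l p v n ≤ (wm true p v n).2 := by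
  simp only [lseN, fin, cond_true]
  exact Nat.sub_le _ _

/-- the fixed point softmin / softmax weights -/
def wtN (up : Bool) (a b : ℕ) (e : ℕ → ℕ) (p v : ℕ → ℕ) (n i : ℕ) : ℕ :=
  p i * e (dist up (wm up p v n).2 (v i) * b / a)

/-- their sum -/
theorem SS_eq_wtN (up : Bool) (a b : ℕ) (e : ℕ → ℕ) (p v : ℕ → ℕ) (n : ℕ) :
    SS p (fun i => dist up (wm up p v n).2 (v i)) (fun d => e (d * b / a)) n =
      ∑ i ∈ range n, wtN up a b e p v n i := rfl

theorem wtN_zero (up : Bool) (a b : ℕ) (e : ℕ → ℕ) {p v : ℕ → ℕ} {n i : ℕ} (h : p i = 0) :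
    wtN up a b e p v n i = 0 := by rw [wtN, h, zero_mul]

/-- the weight sum is at most `W 2^F` -/
theorem sum_wtN_le {up : Bool} {F a b : ℕ} {e : ℕ → ℕ} (he : ∀ d, e d ≤ 2 ^ F) (p v : ℕ → ℕ)
    (n : ℕ) : ∑ i ∈ range n, wtN up a b e p v n i ≤ (∑ i ∈ range n, p i) * 2 ^ F := by
  rw [sum_mul]
  exact sum_le_sum fun i _ => Nat.mul_le_mul_left _ (he _)

/-- the weight sum is positive if `e 0` is -/
theorem sum_wtN_pos {up : Bool} {a b : ℕ} {e : ℕ → ℕ} (he : 0 < e 0) {p v : ℕ → ℕ}
    {n : ℕ} (hW : ∑ i ∈ range n, p i ≠ 0) : 0 < ∑ i ∈ range n, wtN up a b e p v n i := by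
  have hW' : (wm up p v n).1 ≠ 0 := by rw [wm_fst]; exact hW
  obtain ⟨i, hi, hpi, hvi⟩ := wm_snd_mem up hW'
  refine sum_pos' (fun _ _ => Nat.zero_le _) ⟨i, mem_range.2 hi, ?_⟩
  have : dist up (wm up p v n).2 (v i) = 0 := by
    rw [hvi]
    cases up <;> simp [dist]
  rw [wtN, this, zero_mul, Nat.zero_div]
  exact Nat.mul_pos (Nat.pos_of_ne_zero hpi) he

/-- **error of the normalised fixed point weights** (sum over all indices) -/
theorem wtN_err (up : Bool) {F : ℕ} {c : ℝ} {e : ℕ → ℕ} (he : IsExp F 1 c e) {a b : ℕ}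
    (ha : 0 < a) {p v : ℕ → ℕ} {n : ℕ} {P : ℕ} (hP1 : 1 ≤ P)
    (hP : ∀ i < n, p i ≠ 0 → P ≤ p i) (hW : ∑ i ∈ range n, p i ≠ 0)
    (hc : 2 * ((c + 1) * (∑ i ∈ range n, p i : ℕ)) ≤ P * 2 ^ F) :
    ∑ j ∈ range n, |(wtN up a b e p v n j : ℝ) / (∑ i ∈ range n, wtN up a b e p v n i : ℕ) -
      smin (range n) (fun j => (p j : ℝ)) (fun j => sg up (b / a) * (v j / 2 ^ F)) j| ≤
      2 * ((c + 1) * (∑ i ∈ range n, p i : ℕ)) / (P * 2 ^ F) := by
  have hW' : (wm up p v n).1 ≠ 0 := by rw [wm_fst]; exact hW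
  obtain ⟨i, hi, hpi, hvi⟩ := wm_snd_mem up hW'
  have hdi : (fun i => dist up (wm up p v n).2 (v i)) i = 0 := by
    show dist up (wm up p v n).2 (v i) = 0
    rw [hvi]
    cases up <;> simp [dist]
  have h := tv_err (d := fun i => dist up (wm up p v n).2 (v i)) (he.scale (b := b) ha) hP1 hi
    hdi (hP i hi hpi) hc
  refine le_of_eq_of_le (sum_congr rfl fun j hj => ?_) h
  congr 2
  have h1 : smin (range n) (fun j => (p j : ℝ)) (fun j => sg up (b / a) * (v j / 2 ^ F)) j =
      smin (range n) (fun j => (p j : ℝ)) (fun j => (b / a : ℝ) *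
        ((dist up (wm up p v n).2 (v j) : ℕ) / 2 ^ F) +
        sg up (b / a) * ((wm up p v n).2 / 2 ^ F)) j := by
    refine smin_congr (fun k hk hpk => ?_) hj
    have hpk' : p k ≠ 0 := by exact_mod_cast hpk
    cases up with
    | false =>
      have h3 : (wm false p v n).2 ≤ v k := wm_snd_min (mem_range.1 hk) hpk'
      simp only [dist, sg, cond_false]
      rw [Nat.cast_sub h3]
      ring
    | true =>
      have h3 : v k ≤ (wm true p v n).2 := wm_snd_max (mem_range.1 hk) hpk'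
      simp only [dist, sg, cond_true]
      rw [Nat.cast_sub h3]
      ring
  rw [h1]
  exact smin_add_const _ _ _

end Crest.Agent.R288.Fx3307
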