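import Crest.Agent.R288.Fx3h_307
import Crest.Agent.R288.Fx2_966

/-!
# R288 / [F3]: commands (softmin tables, soft extreme values) and table operations

* `lseC`: soft minimum / maximum into a variable; `smC`: softmin / softmax weights (or their
  prefix sums) into a table, the weight sum into a variable;
* `minC`: hard minimum / maximum;
* `tabOp`: a table of values, one command per index; `lseTab`, `minTab`.
-/

set_option autoImplicit false

namespace Crest.Agent.R288.Fx3307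

open Crest.Agent.R295 HL Function
open Crest.Agent.Lib.PT (PTF PTCode PTPred PTU Un)
open Crest.Agent.R295.Pt949 Crest.Agent.R295.PtKc949
open Finset (range)

/-- the low part of a state with a variable set -/
theorem LowEq.setBoth {V A : ℕ} {s s' : State} (h : LowEq V A s s') (x v : ℕ) :
    LowEq V A (s.setReg x v) (s'.setReg x v) := Pt949.LowEq.setReg h x v

/-! ### soft extreme value into a variable -/

/-- `x` := soft minimum / maximum -/
noncomputable def lseC (up : Bool) (V A : ℕ) (pw vw n a b F : Exp) {fe : Un × ℕ → ℕ}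
    (he : PTF fe) {fg : Un × ℕ × ℕ → ℕ} (hg : PTF fg) (x : ℕ) : Cmd :=
  lseK up V A pw vw n a b F he hg ;; .set x (.var (V + 4))

theorem lseC_runs {e : Env} {w V A N : ℕ} {up : Bool} {pw vw n a b F : Exp} {Fv av bv : ℕ}
    {fe : Un × ℕ → ℕ} (he : PTF fe) {fg : Un × ℕ × ℕ → ℕ} (hg : PTF fg) {p v : ℕ → ℕ}
    {s : State} (hs : s.Wf e)
    (H : LData e w V A N up pw vw n a b F Fv av bv fe fg p v s)
    (hroom : expT he w ≤ e.L) (hroom' : gapT hg w ≤ e.L) (x : ℕ) :
    Runs e (lseC up V A pw vw n a b F he hg x) s (lseT he hg w N + 1) (fun s' => s'.Wf e ∧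
      LowEq V A (s.setReg x (fin up (wm up p v N).2 (fg (Un.mk Fv, ∑ i ∈ range N, p i,
        ∑ i ∈ range N, wtN up av bv (fun d => fe (Un.mk Fv, d)) p v N i)) av bv)) s') := by
  refine (lseK_runs he hg hs H hroom hroom').seq (m := 1) ?_ le_rfl
  rintro s1 ⟨w1, l1, _, _, _, r4⟩
  refine Runs.set trivial ?_
  rw [Exp.val_var, r4]
  exact ⟨w1.setReg H.hR, LowEq.setBoth l1 _ _⟩

/-! ### hard extreme value -/

/-- `x` := minimum / maximum of the values of positive prior weight -/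
def minC (up : Bool) (V : ℕ) (pw vw n : Exp) (x : ℕ) : Cmd :=
  pass1 up V pw vw n ;; .set x (.var (V + 1))

theorem minC_runs {e : Env} {w V A N : ℕ} (hw : e.B = 2 ^ w) {s : State} (hs : s.Wf e)
    (up : Bool) {pw vw n : Exp} (hpl : Low (V + 1) A pw) (hvl : Low (V + 1) A vw)
    (hnl : Low V A n) (hn : n.ok e s) (hnv : n.val s = N) (p v : ℕ → ℕ)
    (hp : ∀ i < N, pw.ok e (s.setReg V i) ∧ pw.val (s.setReg V i) = p i)
    (hv : ∀ i < N, p i ≠ 0 → vw.ok e (s.setReg V i) ∧ vw.val (s.setReg V i) = v i)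
    (hW : ∑ i ∈ range N, p i < e.B) (x : ℕ) :
    Runs e (minC up V pw vw n x) s (N * 6 + 5) (fun s' => s'.Wf e ∧
      LowEq V A (s.setReg x (wm up p v N).2) s') := by
  refine (pass1_runs hw hs up hpl hvl hnl hn hnv p v hp hv hW).seq (m := 1) ?_ le_rfl
  rintro s1 ⟨w1, l1, r1, _⟩
  refine Runs.set trivial ?_
  rw [Exp.val_var, r1]
  refine ⟨w1.setReg ?_, LowEq.setBoth l1 _ _⟩
  rw [← r1]
  exact w1.1 _

/-! ### weight tables -/

/-- weights (`cum = false`) or prefix sums (`cum = true`) into `k[o, o + n)`, the weight sum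
into the variable `x` -/
noncomputable def smC (up : Bool) (V A : ℕ) (pw vw n a b F : Exp) {fe : Un × ℕ → ℕ}
    (he : PTF fe) (k : ℕ) (o : Exp) (cum : Bool) (x : ℕ) : Cmd :=
  pass1 up V pw vw n ;; pass2 up V A pw vw n a b F he (storeC V k o cum) ;;
    .set x (.var (V + 3))

/-- its cost -/
noncomputable def smT {fe : Un × ℕ → ℕ} (he : PTF fe) (w N : ℕ) : ℕ := N * (expT he w + 12) + 8

/-- the weights of `smC` -/
def qw (up : Bool) (fe : Un × ℕ → ℕ) (Fv av bv : ℕ) (p v : ℕ → ℕ) (N : ℕ) : ℕ → ℕ :=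
  wtN up av bv (fun d => fe (Un.mk Fv, d)) p v N

/-- data of a weight table -/
structure SData (e : Env) (w V A N : ℕ) (up : Bool) (pw vw n a b F : Exp) (Fv av bv : ℕ)
    (fe : Un × ℕ → ℕ) (p v : ℕ → ℕ) (k : ℕ) (o : Exp) (cum : Bool) (s : State) : Prop where
  hw : e.B = 2 ^ w
  h2w : 2 ≤ w
  hLB : e.L ≤ e.B
  hpl : Low (V + 1) A pw
  hvl : Low (V + 1) A vw
  hnl : Low V A n
  hal : Low V A a
  hbl : Low V A b
  hFl : Low V A F
  hol : Low V A o
  hoL : o.val s + N ≤ e.L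
  hn : ∀ i ≤ N, n.ok e (Lst s k (o.val s) cum (qw up fe Fv av bv p v N) i) ∧
    n.val (Lst s k (o.val s) cum (qw up fe Fv av bv p v N) i) = N
  ha : ∀ i < N, a.ok e (Lst s k (o.val s) cum (qw up fe Fv av bv p v N) i) ∧
    a.val (Lst s k (o.val s) cum (qw up fe Fv av bv p v N) i) = av
  hb : ∀ i < N, b.ok e (Lst s k (o.val s) cum (qw up fe Fv av bv p v N) i) ∧
    b.val (Lst s k (o.val s) cum (qw up fe Fv av bv p v N) i) = bv
  hF : ∀ i < N, F.ok e (Lst s k (o.val s) cum (qw up fe Fv av bv p v N) i) ∧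
    F.val (Lst s k (o.val s) cum (qw up fe Fv av bv p v N) i) = Fv
  ho : ∀ i < N, o.ok e (Lst s k (o.val s) cum (qw up fe Fv av bv p v N) i) ∧
    o.val (Lst s k (o.val s) cum (qw up fe Fv av bv p v N) i) = o.val s
  hFw : Fv < w
  hp0 : ∀ i < N, pw.ok e (s.setReg V i) ∧ pw.val (s.setReg V i) = p i
  hv0 : ∀ i < N, p i ≠ 0 → vw.ok e (s.setReg V i) ∧ vw.val (s.setReg V i) = v i
  hp : ∀ i < N, pw.ok e ((Lst s k (o.val s) cum (qw up fe Fv av bv p v N) i).setReg V i) ∧
    pw.val ((Lst s k (o.val s) cum (qw up fe Fv av bv p v N) i).setReg V i) = p i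
  hv : ∀ i < N, p i ≠ 0 →
    vw.ok e ((Lst s k (o.val s) cum (qw up fe Fv av bv p v N) i).setReg V i) ∧
    vw.val ((Lst s k (o.val s) cum (qw up fe Fv av bv p v N) i).setReg V i) = v i
  hvb : ∀ i < N, p i ≠ 0 → v i * bv < e.B
  hW : ∑ i ∈ range N, p i < e.B
  hE : ∀ d, fe (Un.mk Fv, d) < e.B
  hS : ∑ i ∈ range N, qw up fe Fv av bv p v N i < e.B

theorem smC_runs {e : Env} {w V A N : ℕ} {up : Bool} {pw vw n a b F : Exp} {Fv av bv : ℕ}
    {fe : Un × ℕ → ℕ} (he : PTF fe) {p v : ℕ → ℕ} {k : ℕ} {o : Exp} {cum : Bool} {s : State}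
    (hs : s.Wf e) (H : SData e w V A N up pw vw n a b F Fv av bv fe p v k o cum s)
    (hroom : expT he w ≤ e.L) (x : ℕ) :
    Runs e (smC up V A pw vw n a b F he k o cum x) s (smT he w N) (fun s' => s'.Wf e ∧
      LowEq V A ((fill s k (o.val s) (wList cum (qw up fe Fv av bv p v N) N)).setReg x
        (∑ i ∈ range N, qw up fe Fv av bv p v N i)) s') := by
  have hw := H.hw
  have hn0 : n.ok e s ∧ n.val s = N := by
    have := H.hn 0 (Nat.zero_le _)
    rwa [Lst_zero] at this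
  have hNB : N < e.B := by rw [← hn0.2]; exact Exp.val_lt hw hs n hn0.1
  have h1 := pass1_runs hw hs up H.hpl H.hvl H.hnl hn0.1 hn0.2 p v H.hp0 H.hv0 H.hW
  refine h1.seq (m := N * (expT he w + 6) + 4) ?_ (by
    unfold smT
    nlinarith)
  rintro s1 ⟨w1, l1, r1, r2⟩
  have HW : Wts e w V A N up pw vw n a b F Fv av bv (fun d => fe (Un.mk Fv, d)) p v
      (Lst s k (o.val s) cum (qw up fe Fv av bv p v N)) (wm up p v N).2 :=
    { hw := hw, h2w := H.h2w, hLB := H.hLB, hpl := H.hpl, hvl := H.hvl, hnl := H.hnl,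
      hal := H.hal, hbl := H.hbl, hFl := H.hFl, hn := H.hn, ha := H.ha,
      hb := H.hb, hF := H.hF, hFw := H.hFw, hNB := hNB, hp := H.hp,
      hv := H.hv, hd := fun i hi hp => dist_mul_lt H.hvb hi hp, hE := H.hE, hS := H.hS }
  have h2 := pass2_runs he HW hroom (store := storeC V k o cum) (ts := 1)
    (fun i hi s' hs' hlow hV g3 g4 => storeC_runs H.hol (H.ho i hi)
      (by have := H.hoL; omega) H.hLB hw hlow hV g3 g4) w1 (by rw [Lst_zero]; exact l1) r1
  refine h2.seq (m := 1) ?_ (by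
    have h3 : N * (expT he w + 1 + 5) = N * (expT he w + 6) := rfl
    omega)
  rintro s2 ⟨w2, l2, q1, q2, q3⟩
  refine Runs.set trivial ?_
  rw [Exp.val_var, q3]
  exact ⟨w2.setReg H.hS, LowEq.setBoth l2 _ _⟩

/-! ### tables -/

/-- the list of the first `n` values -/
def vList (f : ℕ → ℕ) (n : ℕ) : List ℕ := (List.range n).map f

@[simp] theorem vList_length (f : ℕ → ℕ) (n : ℕ) : (vList f n).length = n := by simp [vList]

theorem vList_succ (f : ℕ → ℕ) (n : ℕ) : vList f (n + 1) = vList f n ++ [f n] := by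
  simp [vList, List.range_succ]

theorem vList_getElem (f : ℕ → ℕ) {n i : ℕ} (h : i < (vList f n).length) :
    (vList f n)[i] = f i := by simp [vList]

/-- cell `o + j` of array `k` := result of the command `K` (left in the variable `r`) for the
index `j` (in the variable `V`), `j < n` -/
def tabOp (V : ℕ) (n : Exp) (K : Cmd) (k : ℕ) (o : Exp) (r : ℕ) : Cmd :=
  forUp V 0 n (K ;; .put k (o + .var V) (.var r))

theorem tabOp_runs {e : Env} {w V A M c : ℕ} (hw : e.B = 2 ^ w) (hLB : e.L ≤ e.B) {n o : Exp}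
    {K : Cmd} {k r : ℕ} (hnl : Low V A n) (hol : Low V A o) {s : State} (hs : s.Wf e)
    (f : ℕ → ℕ) (hoL : o.val s + M ≤ e.L) (hMB : M < e.B)
    (hn : ∀ j ≤ M, n.ok e (fill s k (o.val s) (vList f j)) ∧
      n.val (fill s k (o.val s) (vList f j)) = M)
    (ho : ∀ j < M, o.ok e (fill s k (o.val s) (vList f j)) ∧
      o.val (fill s k (o.val s) (vList f j)) = o.val s)
    (hK : ∀ j < M, ∀ s' : State, s'.Wf e →
      LowEq (V + 1) A ((fill s k (o.val s) (vList f j)).setReg V j) s' →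
      Runs e K s' c (fun s'' => LowEq (V + 1) A ((fill s k (o.val s) (vList f j)).setReg V j) s'' ∧
        s''.reg r = f j)) :
    Runs e (tabOp V n K k o r) s (M * (c + 3) + 2) (fun s' => s'.Wf e ∧
      LowEq V A (fill s k (o.val s) (vList f M)) s') := by
  have hB : 0 < e.B := by rw [hw]; positivity
  have hnil : fill s k (o.val s) (vList f 0) = s := fill_nil s k _
  refine Runs.forUp (A := 0) (N := M) (m := c + 1) (fun j s' => s'.Wf e ∧
    LowEq V A (fill s k (o.val s) (vList f j)) s')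
    (by simpa using hB) (by simp) (Nat.zero_le _) hMB ?_ ?_ ?_ ?_ (by
      rw [Nat.sub_zero])
  · refine ⟨hs.setReg hB, ?_⟩
    rw [hnil]
    exact LowEq.scr (LowEq.refl s) 0 le_rfl
  · rintro j s' _ hj ⟨_, g1⟩ _
    obtain ⟨g2, g3⟩ := hn j hj
    exact ⟨LowEq.ok g1 hnl g2, by rw [LowEq.val g1 hnl, g3]⟩
  · rintro j s' _ hj ⟨g0, g1⟩ g5
    obtain ⟨o1, o2⟩ := ho j hj
    refine ((hK j hj s' g0 (LowEq.up g1 g5)).wf hw g0).seq (m := 1) ?_ le_rfl
    rintro s1 ⟨⟨k1, k2⟩, k3⟩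
    have rV : s1.reg V = j := by
      rw [k1.reg V (by omega), State.setReg_reg, if_pos rfl]
    have l1 : LowEq V A (fill s k (o.val s) (vList f j)) s1 := by
      have h1 : LowEq V A (fill s k (o.val s) (vList f j))
          ((fill s k (o.val s) (vList f j)).setReg V j) :=
        LowEq.scr (LowEq.refl _) _ le_rfl
      exact h1.trans (LowEq.down (by omega) le_rfl k1)
    have ho' := LowEq.ok l1 hol o1
    have hov : o.val s1 = o.val s := by rw [LowEq.val l1 hol, o2]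
    have hval : (o + .var V).val s1 = o.val s + j := by
      rw [Exp.val_add, Exp.val_var, hov, rV]
    have hfB : f j < e.B := by rw [← k2]; exact k3.1 _
    refine Runs.put ⟨ho', trivial, ?_⟩ ?_ trivial ?_
    · rw [Exp.val_var, hov, rV]
      omega
    · rw [hval]
      omega
    · rw [hval, Exp.val_var, k2]
      have hfill : (fill s k (o.val s) (vList f j)).setArr k (o.val s + j) (f j) =
          fill s k (o.val s) (vList f (j + 1)) := by
        rw [vList_succ, fill_snoc, vList_length]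
      refine ⟨?_, (k3.setArr hfB).setReg (by omega), ?_⟩
      · exact rV
      · rw [← hfill]
        exact LowEq.scr (l1.setArr _ _ _) _ le_rfl
  · rintro s' h _
    exact h

/-! ### change of the low state -/

theorem LData.congr {e : Env} {w V A N : ℕ} {up : Bool} {pw vw n a b F : Exp} {Fv av bv : ℕ}
    {fe : Un × ℕ → ℕ} {fg : Un × ℕ × ℕ → ℕ} {p v : ℕ → ℕ} {s s' : State}
    (H : LData e w V A N up pw vw n a b F Fv av bv fe fg p v s) (h : LowEq V A s s') :
    LData e w V A N up pw vw n a b F Fv av bv fe fg p v s' := by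
  have key : ∀ i, LowEq (V + 1) A (s.setReg V i) (s'.setReg V i) := fun i =>
    LowEq.up (LowEq.scr h i le_rfl) (by rw [State.setReg_reg, if_pos rfl])
  exact
    { hw := H.hw, h2w := H.h2w, hLB := H.hLB, hpl := H.hpl, hvl := H.hvl, hnl := H.hnl,
      hal := H.hal, hbl := H.hbl, hFl := H.hFl
      hn := ⟨LowEq.ok h H.hnl H.hn.1, by rw [LowEq.val h H.hnl, H.hn.2]⟩
      ha := ⟨LowEq.ok h H.hal H.ha.1, by rw [LowEq.val h H.hal, H.ha.2]⟩
      hb := ⟨LowEq.ok h H.hbl H.hb.1, by rw [LowEq.val h H.hbl, H.hb.2]⟩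
      hF := ⟨LowEq.ok h H.hFl H.hF.1, by rw [LowEq.val h H.hFl, H.hF.2]⟩
      hFw := H.hFw
      hp := fun i hi => ⟨LowEq.ok (key i) H.hpl (H.hp i hi).1, by
        rw [LowEq.val (key i) H.hpl, (H.hp i hi).2]⟩
      hv := fun i hi hp => ⟨LowEq.ok (key i) H.hvl (H.hv i hi hp).1, by
        rw [LowEq.val (key i) H.hvl, (H.hv i hi hp).2]⟩
      hvb := H.hvb, hW := H.hW, hE := H.hE, hS := H.hS, hG := H.hG, hG' := H.hG', hR := H.hR }

/-! ### the gap with the logarithm of [F2] -/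

open Crest.Agent.R288.Fx2966 (lnF lnF_le lnF_ge lnF_le_nat ptf_lnF)

theorem isLog_lnF (F N : ℕ) : IsLog F 2 N (lnF F) := by
  intro v hv _
  have h1 := lnF_le (F := F) hv
  have h2 := lnF_ge (F := F) hv
  rw [abs_le]
  constructor <;> linarith

/-- the gap as a function of `F, W, S` -/
def gapF (q : Un × ℕ × ℕ) : ℕ := gap q.1.val (lnF q.1.val) q.2.1 q.2.2

theorem ptf_gapF : PTF gapF := by
  have hF : PTU (fun q : Un × ℕ × ℕ => q.1.val) := PTU.val PTF.fst
  have hW : PTF (fun q : Un × ℕ × ℕ => q.2.1) := PTF.comp PTF.fst PTF.snd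
  have hS : PTF (fun q : Un × ℕ × ℕ => q.2.2) := PTF.comp PTF.snd PTF.snd
  exact PTF.natSub (ptf_lnF hF (PTF.natMul hW (PTF.natTwoPow hF))) (ptf_lnF hF hS)

/-- size of the gap -/
theorem gapF_le {F W w : ℕ} (S : ℕ) (h : W * 2 ^ F < 2 ^ w) (hw : 1 ≤ w) :
    gapF (Un.mk F, W, S) ≤ 2 ^ F * w := by
  have h1 : gapF (Un.mk F, W, S) ≤ lnF F (W * 2 ^ F) := Nat.sub_le _ _
  refine h1.trans ((lnF_le_nat F _).trans (Nat.mul_le_mul_left _ ?_))
  rcases Nat.eq_zero_or_pos (W * 2 ^ F) with h0 | h0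
  · rw [h0]
    simpa using hw
  · have := (Nat.log_lt_iff_lt_pow (by norm_num : 1 < 2) h0.ne').2 h
    omega

/-- with `gapF` the fixed point soft extreme value of `Fx3_307` -/
theorem fin_gapF (up : Bool) (fe : Un × ℕ → ℕ) (Fv av bv : ℕ) (p v : ℕ → ℕ) (N : ℕ) :
    fin up (wm up p v N).2 (gapF (Un.mk Fv, ∑ i ∈ range N, p i,
      ∑ i ∈ range N, wtN up av bv (fun d => fe (Un.mk Fv, d)) p v N i)) av bv =
      lseN up Fv av bv (fun d => fe (Un.mk Fv, d)) (lnF Fv) p v N := by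
  rw [lseN, ← wm_fst up p v N]
  rfl

/-- **simple conditions**: `W 2^F < B`, `2^F w a < B`, `v b < B`, `v + 2^F w a < B` -/
theorem LData.of {e : Env} {w V A N : ℕ} {up : Bool} {pw vw n a b F : Exp} {Fv av bv : ℕ}
    {fe : Un × ℕ → ℕ} {p v : ℕ → ℕ} {s : State} (hw : e.B = 2 ^ w) (h2w : 2 ≤ w)
    (hLB : e.L ≤ e.B) (hpl : Low (V + 1) A pw) (hvl : Low (V + 1) A vw) (hnl : Low V A n)
    (hal : Low V A a) (hbl : Low V A b) (hFl : Low V A F) (hn : n.ok e s ∧ n.val s = N)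
    (ha : a.ok e s ∧ a.val s = av) (hb : b.ok e s ∧ b.val s = bv)
    (hF : F.ok e s ∧ F.val s = Fv) (hFw : Fv < w)
    (hp : ∀ i < N, pw.ok e (s.setReg V i) ∧ pw.val (s.setReg V i) = p i)
    (hv : ∀ i < N, p i ≠ 0 → vw.ok e (s.setReg V i) ∧ vw.val (s.setReg V i) = v i)
    (hvb : ∀ i < N, p i ≠ 0 → v i * bv < e.B)
    (hva : ∀ i < N, p i ≠ 0 → v i + 2 ^ Fv * w * av < e.B) (ha0 : 2 ^ Fv * w * av < e.B)
    (ha1 : 1 ≤ av) (hW : (∑ i ∈ range N, p i) * 2 ^ Fv < e.B)
    (hE : ∀ d, fe (Un.mk Fv, d) ≤ 2 ^ Fv) :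
    LData e w V A N up pw vw n a b F Fv av bv fe gapF p v s := by
  have h2F : 1 ≤ 2 ^ Fv := Nat.one_le_two_pow
  have hG : ∀ S, gapF (Un.mk Fv, ∑ i ∈ range N, p i, S) ≤ 2 ^ Fv * w := fun S =>
    gapF_le S (by rw [← hw]; exact hW) (by omega)
  have hm : (wm up p v N).2 + 2 ^ Fv * w * av < e.B := by
    by_cases h0 : (wm up p v N).1 = 0
    · have : (wm up p v N).2 ≤ 0 := by
        apply wm_snd_le
        intro i hi hpi
        exact absurd h0 (wm_fst_ne hi hpi)
      omega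
    · obtain ⟨i, hi, h1, h2⟩ := wm_snd_mem up h0
      rw [← h2]
      exact hva i hi h1
  exact
    { hw := hw, h2w := h2w, hLB := hLB, hpl := hpl, hvl := hvl, hnl := hnl, hal := hal,
      hbl := hbl, hFl := hFl, hn := hn, ha := ha, hb := hb, hF := hF, hFw := hFw, hp := hp,
      hv := hv, hvb := hvb
      hW := lt_of_le_of_lt (Nat.le_mul_of_pos_right _ h2F) hW
      hE := fun d => lt_of_le_of_lt (hE d) (by
        rw [hw]
        exact Nat.pow_lt_pow_right (by norm_num) hFw)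
      hS := lt_of_le_of_lt (sum_wtN_le hE p v N) hW
      hG := lt_of_le_of_lt (Nat.mul_le_mul_right _ (hG _)) ha0
      hG' := lt_of_le_of_lt ((hG _).trans (Nat.le_mul_of_pos_right _ ha1)) ha0
      hR := by
        cases up with
        | true =>
          simp only [fin, cond_true]
          exact lt_of_le_of_lt (Nat.sub_le _ _) (by omega)
        | false =>
          simp only [fin, cond_false]
          refine lt_of_le_of_lt (Nat.add_le_add_left ?_ _) hm
          exact (Nat.div_le_self _ _).trans (Nat.mul_le_mul_right _ (hG _)) }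

/-! ### tables of soft extreme values -/

/-- cell `o + j` of array `k` := soft extreme value over the letters `V+1` of the state `V` -/
noncomputable def lseTab (up : Bool) (V A : ℕ) (M : Exp) (pw vw n a b F : Exp)
    {fe : Un × ℕ → ℕ} (he : PTF fe) {fg : Un × ℕ × ℕ → ℕ} (hg : PTF fg) (k : ℕ) (o : Exp) : Cmd :=
  tabOp V M (lseK up (V + 1) A pw vw n a b F he hg) k o (V + 5)

theorem lseTab_runs {e : Env} {w V A Mv : ℕ} (hw : e.B = 2 ^ w) (hLB : e.L ≤ e.B) {up : Bool}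
    {M pw vw n a b F o : Exp} {k : ℕ} {fe : Un × ℕ → ℕ} (he : PTF fe) {fg : Un × ℕ × ℕ → ℕ}
    (hg : PTF fg) (hMl : Low V A M) (hol : Low V A o) {s : State} (hs : s.Wf e)
    (hroom : expT he w ≤ e.L) (hroom' : gapT hg w ≤ e.L) (N Fv av bv : ℕ → ℕ)
    (p v : ℕ → ℕ → ℕ) {Nm : ℕ} (hNm : ∀ j < Mv, N j ≤ Nm) (f : ℕ → ℕ)
    (hf : ∀ j < Mv, f j = fin up (wm up (p j) (v j) (N j)).2 (fg (Un.mk (Fv j),
      ∑ i ∈ range (N j), p j i, ∑ i ∈ range (N j),
        wtN up (av j) (bv j) (fun d => fe (Un.mk (Fv j), d)) (p j) (v j) (N j) i)) (av j) (bv j))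
    (hoL : o.val s + Mv ≤ e.L) (hMB : Mv < e.B)
    (hM : ∀ j ≤ Mv, M.ok e (fill s k (o.val s) (vList f j)) ∧
      M.val (fill s k (o.val s) (vList f j)) = Mv)
    (ho : ∀ j < Mv, o.ok e (fill s k (o.val s) (vList f j)) ∧
      o.val (fill s k (o.val s) (vList f j)) = o.val s)
    (H : ∀ j < Mv, LData e w (V + 1) A (N j) up pw vw n a b F (Fv j) (av j) (bv j) fe fg (p j)
      (v j) ((fill s k (o.val s) (vList f j)).setReg V j)) :
    Runs e (lseTab up V A M pw vw n a b F he hg k o) s (Mv * (lseT he hg w Nm + 3) + 2)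
      (fun s' => s'.Wf e ∧ LowEq V A (fill s k (o.val s) (vList f Mv)) s') := by
  refine tabOp_runs hw hLB hMl hol hs f hoL hMB hM ho ?_
  intro j hj s' hs' hlow
  have h1 := lseK_runs he hg hs' ((H j hj).congr hlow) hroom hroom'
  refine h1.mono ?_ ?_
  · unfold lseT
    have := Nat.mul_le_mul_right (expT he w + 11) (hNm j hj)
    omega
  · rintro s'' ⟨_, l1, _, _, _, r4⟩
    refine ⟨hlow.trans l1, ?_⟩
    rw [hf j hj]
    exact r4

/-- cell `o + j` of array `k` := minimum / maximum over the letters `V+1` of the state `V` -/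
def minTab (up : Bool) (V : ℕ) (M pw vw n : Exp) (k : ℕ) (o : Exp) : Cmd :=
  tabOp V M (pass1 up (V + 1) pw vw n) k o (V + 2)

theorem minTab_runs {e : Env} {w V A Mv : ℕ} (hw : e.B = 2 ^ w) (hLB : e.L ≤ e.B) {up : Bool}
    {M pw vw n o : Exp} {k : ℕ} (hMl : Low V A M) (hol : Low V A o) (hpl : Low (V + 2) A pw)
    (hvl : Low (V + 2) A vw) (hnl : Low (V + 1) A n) {s : State} (hs : s.Wf e) (N : ℕ → ℕ)
    (p v : ℕ → ℕ → ℕ) {Nm : ℕ} (hNm : ∀ j < Mv, N j ≤ Nm) (f : ℕ → ℕ)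
    (hf : ∀ j < Mv, f j = (wm up (p j) (v j) (N j)).2)
    (hoL : o.val s + Mv ≤ e.L) (hMB : Mv < e.B)
    (hM : ∀ j ≤ Mv, M.ok e (fill s k (o.val s) (vList f j)) ∧
      M.val (fill s k (o.val s) (vList f j)) = Mv)
    (ho : ∀ j < Mv, o.ok e (fill s k (o.val s) (vList f j)) ∧
      o.val (fill s k (o.val s) (vList f j)) = o.val s)
    (hn : ∀ j < Mv, n.ok e ((fill s k (o.val s) (vList f j)).setReg V j) ∧
      n.val ((fill s k (o.val s) (vList f j)).setReg V j) = N j)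
    (hp : ∀ j < Mv, ∀ i < N j,
      pw.ok e (((fill s k (o.val s) (vList f j)).setReg V j).setReg (V + 1) i) ∧
      pw.val (((fill s k (o.val s) (vList f j)).setReg V j).setReg (V + 1) i) = p j i)
    (hv : ∀ j < Mv, ∀ i < N j, p j i ≠ 0 →
      vw.ok e (((fill s k (o.val s) (vList f j)).setReg V j).setReg (V + 1) i) ∧
      vw.val (((fill s k (o.val s) (vList f j)).setReg V j).setReg (V + 1) i) = v j i)
    (hW : ∀ j < Mv, ∑ i ∈ range (N j), p j i < e.B) :
    Runs e (minTab up V M pw vw n k o) s (Mv * (Nm * 6 + 7) + 2)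
      (fun s' => s'.Wf e ∧ LowEq V A (fill s k (o.val s) (vList f Mv)) s') := by
  refine tabOp_runs (c := Nm * 6 + 4) hw hLB hMl hol hs f hoL hMB hM ho ?_
  intro j hj s' hs' hlow
  obtain ⟨n1, n2⟩ := hn j hj
  have key : ∀ i, LowEq (V + 2) A (((fill s k (o.val s) (vList f j)).setReg V j).setReg (V + 1) i)
      (s'.setReg (V + 1) i) := fun i =>
    LowEq.up (LowEq.scr hlow i le_rfl) (by rw [State.setReg_reg, if_pos rfl])
  have h1 := pass1_runs (V := V + 1) (A := A) hw hs' up hpl hvl hnl (LowEq.ok hlow hnl n1)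
    (by rw [LowEq.val hlow hnl, n2]) (p j) (v j)
    (fun i hi => ⟨LowEq.ok (key i) hpl (hp j hj i hi).1, by
      rw [LowEq.val (key i) hpl, (hp j hj i hi).2]⟩)
    (fun i hi h0 => ⟨LowEq.ok (key i) hvl (hv j hj i hi h0).1, by
      rw [LowEq.val (key i) hvl, (hv j hj i hi h0).2]⟩) (hW j hj)
  refine h1.mono ?_ ?_
  · have := Nat.mul_le_mul_right 6 (hNm j hj)
    omega
  · rintro s'' ⟨_, l1, r1, _⟩
    refine ⟨hlow.trans l1, ?_⟩
    rw [hf j hj]
    exact r1

end Crest.Agent.R288.Fx3307
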