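import Mathlib.Analysis.SpecialFunctions.Log.Basic
import Mathlib.Analysis.SpecialFunctions.Exp
import Mathlib.Analysis.Convex.SpecificFunctions.Basic
import Mathlib.Analysis.Complex.ExponentialBounds
import Mathlib.Tactic

/-!
# R288 / [F3]: log-sum-exp, softmin: real part

Real part (any `Finset`, real prior weights `p ≥ 0`, values `x`):
* `lse s p x = -log (Σ p exp(-x) / Σ p)`: `lse_add_const`, `lse_mono`, `lse_lip`, `le_lse`,
  `lse_le`, `lse_le_avg`, `lse_le_gibbs` (variational principle), `lse_eq_gibbs`;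
* `smin s p x i = p i exp(-x i) / Σ p exp(-x)`: `smin_sum`, `smin_eq`, `smin_le_exp`.
* `smin_le_exp`, `smin_add_const`, `smin_congr`, `kl_nonneg`.
-/

set_option autoImplicit false

namespace Crest.Agent.R288.Fx3307

open Finset

/-! ### real log-sum-exp -/

section real

variable {ι : Type*}

/-- log-sum-exp (minimum form) with prior weights `p` -/
noncomputable def lse (s : Finset ι) (p x : ι → ℝ) : ℝ :=
  -Real.log ((∑ i ∈ s, p i * Real.exp (-(x i))) / ∑ i ∈ s, p i)

/-- softmin weights -/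
noncomputable def smin (s : Finset ι) (p x : ι → ℝ) (i : ι) : ℝ :=
  p i * Real.exp (-(x i)) / ∑ j ∈ s, p j * Real.exp (-(x j))

variable {s : Finset ι} {p x y : ι → ℝ}

/-- prior weights: nonnegative with positive total -/
structure Prior (s : Finset ι) (p : ι → ℝ) : Prop where
  nonneg : ∀ i ∈ s, 0 ≤ p i
  pos : 0 < ∑ i ∈ s, p i

theorem Prior.of_pos (h : ∀ i ∈ s, 0 ≤ p i) {i : ι} (hi : i ∈ s) (hp : 0 < p i) : Prior s p :=
  ⟨h, Finset.sum_pos' h ⟨i, hi, hp⟩⟩

theorem Prior.exists_pos (h : Prior s p) : ∃ i ∈ s, 0 < p i := by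
  by_contra hc
  push Not at hc
  exact absurd h.pos (not_lt.2 (Finset.sum_nonpos hc))

theorem Prior.Z_pos (h : Prior s p) (x : ι → ℝ) : 0 < ∑ i ∈ s, p i * Real.exp (-(x i)) := by
  obtain ⟨i, hi, hp⟩ := h.exists_pos
  exact Finset.sum_pos' (fun j hj => mul_nonneg (h.nonneg j hj) (Real.exp_pos _).le)
    ⟨i, hi, mul_pos hp (Real.exp_pos _)⟩

theorem exp_neg_lse (h : Prior s p) (x : ι → ℝ) :
    Real.exp (-(lse s p x)) = (∑ i ∈ s, p i * Real.exp (-(x i))) / ∑ i ∈ s, p i := by
  rw [lse, neg_neg, Real.exp_log (div_pos (h.Z_pos x) h.pos)]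

/-- adding a constant -/
theorem lse_add_const (h : Prior s p) (x : ι → ℝ) (c : ℝ) :
    lse s p (fun i => x i + c) = lse s p x + c := by
  have h1 : (∑ i ∈ s, p i * Real.exp (-(x i + c))) =
      (∑ i ∈ s, p i * Real.exp (-(x i))) * Real.exp (-c) := by
    rw [Finset.sum_mul]
    refine Finset.sum_congr rfl fun i _ => ?_
    rw [neg_add, Real.exp_add]
    ring
  rw [lse, lse, h1, mul_div_right_comm, Real.log_mul (div_pos (h.Z_pos x) h.pos).ne'
    (Real.exp_pos _).ne', Real.log_exp]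
  ring

/-- monotone -/
theorem lse_mono (h : Prior s p) (hxy : ∀ i ∈ s, p i ≠ 0 → x i ≤ y i) : lse s p x ≤ lse s p y := by
  rw [lse, lse, neg_le_neg_iff]
  apply Real.log_le_log (div_pos (h.Z_pos y) h.pos)
  apply div_le_div_of_nonneg_right _ h.pos.le
  refine Finset.sum_le_sum fun i hi => ?_
  by_cases hp : p i = 0
  · rw [hp, zero_mul, zero_mul]
  · apply mul_le_mul_of_nonneg_left _ (h.nonneg i hi)
    exact Real.exp_le_exp.2 (neg_le_neg (hxy i hi hp))

theorem lse_congr (hxy : ∀ i ∈ s, p i ≠ 0 → x i = y i) : lse s p x = lse s p y := by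
  rw [lse, lse]
  congr 3
  refine Finset.sum_congr rfl fun i hi => ?_
  by_cases hp : p i = 0
  · rw [hp, zero_mul, zero_mul]
  · rw [hxy i hi hp]

/-- a constant function -/
theorem lse_const (h : Prior s p) (c : ℝ) : lse s p (fun _ => c) = c := by
  rw [lse, ← Finset.sum_mul, mul_div_right_comm, div_self h.pos.ne', one_mul, Real.log_exp, neg_neg]

/-- `1`-Lipschitz in the maximum norm -/
theorem lse_lip (h : Prior s p) {δ : ℝ} (hxy : ∀ i ∈ s, p i ≠ 0 → |x i - y i| ≤ δ) :
    |lse s p x - lse s p y| ≤ δ := by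
  have h1 : lse s p x ≤ lse s p y + δ := by
    rw [← lse_add_const h]
    refine lse_mono h fun i hi hp => ?_
    have := (abs_le.1 (hxy i hi hp)).2
    linarith
  have h2 : lse s p y ≤ lse s p x + δ := by
    rw [← lse_add_const h]
    refine lse_mono h fun i hi hp => ?_
    have := (abs_le.1 (hxy i hi hp)).1
    linarith
  rw [abs_le]
  constructor <;> linarith

/-- lower bound -/
theorem le_lse (h : Prior s p) {m : ℝ} (hm : ∀ i ∈ s, p i ≠ 0 → m ≤ x i) : m ≤ lse s p x := by
  rw [← lse_const h m]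
  exact lse_mono h hm

/-- upper bound by one value -/
theorem lse_le (h : Prior s p) {i : ι} (hi : i ∈ s) (hp : 0 < p i) :
    lse s p x ≤ x i + Real.log ((∑ j ∈ s, p j) / p i) := by
  have h1 : p i * Real.exp (-(x i)) ≤ ∑ j ∈ s, p j * Real.exp (-(x j)) :=
    Finset.single_le_sum (f := fun j => p j * Real.exp (-(x j)))
      (fun j hj => mul_nonneg (h.nonneg j hj) (Real.exp_pos _).le) hi
  have h2 : Real.log (p i * Real.exp (-(x i)) / ∑ j ∈ s, p j) ≤
      Real.log ((∑ j ∈ s, p j * Real.exp (-(x j))) / ∑ j ∈ s, p j) :=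
    Real.log_le_log (div_pos (mul_pos hp (Real.exp_pos _)) h.pos)
      (div_le_div_of_nonneg_right h1 h.pos.le)
  rw [Real.log_div (mul_pos hp (Real.exp_pos _)).ne' h.pos.ne', Real.log_mul hp.ne'
    (Real.exp_pos _).ne', Real.log_exp] at h2
  rw [lse, Real.log_div h.pos.ne' hp.ne']
  linarith

/-- Jensen -/
theorem lse_le_avg (h : Prior s p) (x : ι → ℝ) :
    lse s p x ≤ (∑ i ∈ s, p i * x i) / ∑ i ∈ s, p i := by
  set P := ∑ i ∈ s, p i with hP
  set a := (∑ i ∈ s, p i * x i) / P with ha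
  -- subtract the average
  have h1 : lse s p x = lse s p (fun i => x i - a) + a := by
    rw [← lse_add_const h]
    exact lse_congr fun i _ _ => by ring
  have h2 : (1 : ℝ) ≤ (∑ i ∈ s, p i * Real.exp (-(x i - a))) / P := by
    rw [one_le_div h.pos]
    have h3 : ∑ i ∈ s, p i * (1 - (x i - a)) ≤ ∑ i ∈ s, p i * Real.exp (-(x i - a)) := by
      refine Finset.sum_le_sum fun i hi => mul_le_mul_of_nonneg_left ?_ (h.nonneg i hi)
      have := Real.add_one_le_exp (-(x i - a))
      linarith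
    have h4 : ∑ i ∈ s, p i * (1 - (x i - a)) = P - (∑ i ∈ s, p i * x i) + a * P := by
      rw [hP, Finset.mul_sum, ← Finset.sum_sub_distrib, ← Finset.sum_add_distrib]
      refine Finset.sum_congr rfl fun i _ => ?_
      ring
    have h5 : a * P = ∑ i ∈ s, p i * x i := by
      rw [ha]
      exact div_mul_cancel₀ _ h.pos.ne'
    rw [h4, h5] at h3
    linarith
  have h6 : lse s p (fun i => x i - a) ≤ 0 := by
    rw [lse, Left.neg_nonpos_iff]
    exact Real.log_nonneg h2
  linarith

/-! ### softmin -/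

theorem smin_nonneg (h : Prior s p) (x : ι → ℝ) {i : ι} (hi : i ∈ s) : 0 ≤ smin s p x i :=
  div_nonneg (mul_nonneg (h.nonneg i hi) (Real.exp_pos _).le) (h.Z_pos x).le

theorem smin_sum (h : Prior s p) (x : ι → ℝ) : ∑ i ∈ s, smin s p x i = 1 := by
  unfold smin
  rw [← Finset.sum_div, div_self (h.Z_pos x).ne']

/-- the softmin weight through `lse` -/
theorem smin_eq (h : Prior s p) (x : ι → ℝ) (i : ι) :
    smin s p x i = p i / (∑ j ∈ s, p j) * Real.exp (lse s p x - x i) := by
  have h1 := exp_neg_lse h x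
  have h2 : Real.exp (lse s p x - x i) = Real.exp (-(x i)) / Real.exp (-(lse s p x)) := by
    rw [← Real.exp_sub]
    congr 1
    ring
  rw [h2, h1, smin]
  have := (h.Z_pos x).ne'
  have := h.pos.ne'
  field_simp

/-- perturbation of softmin -/
theorem smin_le_exp (h : Prior s p) {δ : ℝ} (hxy : ∀ i ∈ s, p i ≠ 0 → |x i - y i| ≤ δ) {i : ι}
    (hi : i ∈ s) : smin s p x i ≤ Real.exp (2 * δ) * smin s p y i := by
  by_cases hp : p i = 0
  · simp [smin, hp]
  have h1 := lse_lip h hxy
  have h2 := hxy i hi hp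
  rw [smin_eq h, smin_eq h, mul_left_comm, ← Real.exp_add]
  apply mul_le_mul_of_nonneg_left _ (div_nonneg (h.nonneg i hi) h.pos.le)
  rw [Real.exp_le_exp]
  rw [abs_le] at h1 h2
  linarith [h1.1, h1.2, h2.1, h2.2]

/-- the weights do not change under a constant shift -/
theorem smin_add_const (x : ι → ℝ) (c : ℝ) (i : ι) :
    smin s p (fun j => x j + c) i = smin s p x i := by
  have h1 : (∑ i ∈ s, p i * Real.exp (-(x i + c))) =
      (∑ i ∈ s, p i * Real.exp (-(x i))) * Real.exp (-c) := by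
    rw [Finset.sum_mul]
    refine Finset.sum_congr rfl fun i _ => ?_
    rw [neg_add, Real.exp_add]
    ring
  simp only [smin]
  rw [h1, neg_add, Real.exp_add, ← mul_assoc, mul_div_mul_right _ _ (Real.exp_pos _).ne']

theorem smin_congr (hxy : ∀ i ∈ s, p i ≠ 0 → x i = y i) {i : ι} (hi : i ∈ s) :
    smin s p x i = smin s p y i := by
  have h1 : ∀ i ∈ s, p i * Real.exp (-(x i)) = p i * Real.exp (-(y i)) := by
    intro i hi
    by_cases hp : p i = 0
    · rw [hp, zero_mul, zero_mul]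
    · rw [hxy i hi hp]
  rw [smin, smin, h1 i hi, Finset.sum_congr rfl h1]

/-! ### the variational principle -/

/-- nonnegativity of the relative entropy (finite form, not necessarily normalised) -/
theorem kl_nonneg {ν q : ι → ℝ} (hν : ∀ i ∈ s, 0 ≤ ν i) (hq : ∀ i ∈ s, 0 ≤ q i)
    (hsum : ∑ i ∈ s, q i ≤ ∑ i ∈ s, ν i) (hac : ∀ i ∈ s, q i = 0 → ν i = 0) :
    0 ≤ ∑ i ∈ s, ν i * Real.log (ν i / q i) := by
  have key : ∀ i ∈ s, ν i - q i ≤ ν i * Real.log (ν i / q i) := by
    intro i hi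
    rcases (hν i hi).eq_or_lt with h0 | h0
    · rw [← h0]
      have := hq i hi
      simp only [zero_sub, zero_div, zero_mul]
      linarith
    · have hqi : 0 < q i := lt_of_le_of_ne (hq i hi) fun h => h0.ne' (hac i hi h.symm)
      have h1 : Real.log (q i / ν i) ≤ q i / ν i - 1 := Real.log_le_sub_one_of_pos (div_pos hqi h0)
      have h2 : Real.log (ν i / q i) = -Real.log (q i / ν i) := by
        rw [← Real.log_inv, inv_div]
      rw [h2]
      have h3 : ν i * (q i / ν i) = q i := mul_div_cancel₀ _ h0.ne'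
      nlinarith
  calc (0 : ℝ) ≤ ∑ i ∈ s, (ν i - q i) := by
        rw [Finset.sum_sub_distrib]
        linarith
    _ ≤ _ := Finset.sum_le_sum key

/-- Gibbs variational principle, inequality -/
theorem lse_le_gibbs (h : Prior s p) {ν : ι → ℝ} (hν : ∀ i ∈ s, 0 ≤ ν i)
    (h1 : ∑ i ∈ s, ν i = 1) (hac : ∀ i ∈ s, p i = 0 → ν i = 0) (x : ι → ℝ) :
    lse s p x ≤ ∑ i ∈ s, ν i * x i +
      ∑ i ∈ s, ν i * Real.log (ν i / (p i / ∑ j ∈ s, p j)) := by
  have h2 := kl_nonneg (s := s) (ν := ν) (q := smin s p x) hν (fun i hi => smin_nonneg h x hi)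
    (by rw [smin_sum h, h1]) (by
      intro i hi hq
      refine hac i hi ?_
      rw [smin, div_eq_zero_iff] at hq
      rcases hq with hq | hq
      · exact (mul_eq_zero.1 hq).resolve_right (Real.exp_pos _).ne'
      · exact absurd hq (h.Z_pos x).ne')
  have h3 : ∀ i ∈ s, ν i * Real.log (ν i / smin s p x i) =
      ν i * Real.log (ν i / (p i / ∑ j ∈ s, p j)) + ν i * x i - ν i * lse s p x := by
    intro i hi
    by_cases h0 : ν i = 0
    · rw [h0]; simp
    have hpi : p i ≠ 0 := fun hp => h0 (hac i hi hp)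
    have hpi' : 0 < p i := lt_of_le_of_ne (h.nonneg i hi) (Ne.symm hpi)
    have hr : 0 < p i / ∑ j ∈ s, p j := div_pos hpi' h.pos
    have hs : smin s p x i ≠ 0 := by
      rw [smin_eq h]
      exact (mul_pos hr (Real.exp_pos _)).ne'
    rw [Real.log_div h0 hs, Real.log_div h0 hr.ne', smin_eq h, Real.log_mul hr.ne'
      (Real.exp_pos _).ne', Real.log_exp]
    ring
  rw [Finset.sum_congr rfl h3, Finset.sum_sub_distrib, Finset.sum_add_distrib, ← Finset.sum_mul,
    h1, one_mul] at h2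
  linarith

/-- Gibbs variational principle, equality for softmin -/
theorem lse_eq_gibbs (h : Prior s p) (x : ι → ℝ) :
    lse s p x = ∑ i ∈ s, smin s p x i * x i +
      ∑ i ∈ s, smin s p x i * Real.log (smin s p x i / (p i / ∑ j ∈ s, p j)) := by
  have h3 : ∀ i ∈ s, smin s p x i * x i +
      smin s p x i * Real.log (smin s p x i / (p i / ∑ j ∈ s, p j)) =
      smin s p x i * lse s p x := by
    intro i hi
    by_cases hp : p i = 0
    · simp [smin, hp]
    have hpi' : 0 < p i := lt_of_le_of_ne (h.nonneg i hi) (Ne.symm hp)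
    have hr : 0 < p i / ∑ j ∈ s, p j := div_pos hpi' h.pos
    have h4 : smin s p x i / (p i / ∑ j ∈ s, p j) = Real.exp (lse s p x - x i) := by
      rw [smin_eq h, mul_div_cancel_left₀ _ hr.ne']
    rw [h4, Real.log_exp]
    ring
  rw [← Finset.sum_add_distrib, Finset.sum_congr rfl h3, ← Finset.sum_mul, smin_sum h, one_mul]

end real

end Crest.Agent.R288.Fx3307
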