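import Crest.Agent.R288.Med_559

/-!
# R288 [GA0]: definitions for the pure analysis of #2262 (cost form, relative form #3920)

Minimisation game: state `s`, letters `z`, the child `nx s z j u` (`u` a random word `< W`, `j` the
index of the same-tier copy), growth `rho s z ≥ 1`, cost `cb s z`, prior `pr s`, start promise `x0`.
Dense case: `rho = 1`, `cb = 0`, `kk = 1`, `x0 0 = η * cost`, `x0 (h+1) = 0`.

* `smin p x` : soft minimum; `smin_tangent`, `mean_le_smin`, `Ev_le_smin` (Jensen),
  `exp_neg_Ev_le`, `Ev_sqdev_le`, `Ev_mean`, `Ev_mean_sqdev`.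
* `Game`, `Game.av` (average over the children), `Game.Ok` : one round and its axioms (the
  computed functions `phi`, `rp` may be rounded).
* `Tab` (random table), `Game.comb`, `Game.next m R` : the next tier after the tier `R`,
  `Game.tier W m i h : RT (Tab St Z)` : the random table of tier `i` at height `h`.
-/

set_option autoImplicit false

namespace Crest.Agent.R288.GA0596

open Finset Crest.Agent.R295.Rnd627 Crest.Agent.R295.Rnd627.RT Crest.Agent.R288.Med559

/-! ### Soft minimum -/

section smin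

variable {Z : Type} [Fintype Z]

/-- the soft minimum with prior `p` -/
noncomputable def smin (p x : Z → ℝ) : ℝ := -Real.log (∑ z, p z * Real.exp (-(x z)))

/-- a prior: positive, total mass one -/
structure Prior (p : Z → ℝ) : Prop where
  pos : ∀ z, 0 < p z
  sum : ∑ z, p z = 1

variable {p : Z → ℝ}

theorem Prior.nonempty (hp : Prior p) : Nonempty Z := by
  by_contra h
  rw [not_nonempty_iff] at h
  have := hp.sum
  simp at this

theorem Prior.part_pos (hp : Prior p) (x : Z → ℝ) : 0 < ∑ z, p z * Real.exp (-(x z)) := by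
  have := hp.nonempty
  exact Finset.sum_pos (fun z _ => mul_pos (hp.pos z) (Real.exp_pos _)) univ_nonempty

theorem exp_neg_smin (hp : Prior p) (x : Z → ℝ) :
    Real.exp (-(smin p x)) = ∑ z, p z * Real.exp (-(x z)) := by
  rw [smin, neg_neg, Real.exp_log (hp.part_pos x)]

theorem smin_mono (hp : Prior p) {x y : Z → ℝ} (h : ∀ z, x z ≤ y z) : smin p x ≤ smin p y := by
  unfold smin
  refine neg_le_neg (Real.log_le_log (hp.part_pos y) ?_)
  exact Finset.sum_le_sum fun z _ =>
    mul_le_mul_of_nonneg_left (Real.exp_le_exp.2 (neg_le_neg (h z))) (hp.pos z).le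

theorem smin_add (hp : Prior p) (x : Z → ℝ) (c : ℝ) :
    smin p (fun z => x z + c) = smin p x + c := by
  unfold smin
  have : ∑ z, p z * Real.exp (-(x z + c)) = (∑ z, p z * Real.exp (-(x z))) * Real.exp (-c) := by
    rw [Finset.sum_mul]
    refine Finset.sum_congr rfl fun z _ => ?_
    rw [neg_add, Real.exp_add, mul_assoc]
  rw [this, Real.log_mul (hp.part_pos x).ne' (Real.exp_pos _).ne', Real.log_exp]
  ring

theorem smin_const (hp : Prior p) (c : ℝ) : smin p (fun _ => c) = c := by
  unfold smin
  rw [← Finset.sum_mul, hp.sum, one_mul, Real.log_exp, neg_neg]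

theorem smin_le (hp : Prior p) (x : Z → ℝ) (z : Z) : smin p x ≤ x z - Real.log (p z) := by
  unfold smin
  have h : p z * Real.exp (-(x z)) ≤ ∑ z, p z * Real.exp (-(x z)) :=
    Finset.single_le_sum (f := fun z => p z * Real.exp (-(x z)))
      (fun z _ => mul_nonneg (hp.pos z).le (Real.exp_pos _).le) (Finset.mem_univ z)
  have h2 := Real.log_le_log (mul_pos (hp.pos z) (Real.exp_pos _)) h
  rw [Real.log_mul (hp.pos z).ne' (Real.exp_pos _).ne', Real.log_exp] at h2
  linarith

/-- the soft minimum lies below its tangents -/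
theorem smin_tangent (hp : Prior p) (x a : Z → ℝ) :
    smin p x ≤ smin p a + ∑ z, (p z * Real.exp (-(a z)) / ∑ z, p z * Real.exp (-(a z))) *
      (x z - a z) := by
  set N := ∑ z, p z * Real.exp (-(a z)) with hN
  have hN0 : 0 < N := hp.part_pos a
  set t0 := ∑ z, (p z * Real.exp (-(a z)) / N) * (x z - a z) with ht0
  have hNt : N * t0 = ∑ z, p z * Real.exp (-(a z)) * (x z - a z) := by
    rw [ht0, Finset.mul_sum]
    refine Finset.sum_congr rfl fun z _ => ?_
    field_simp
  have key : N * Real.exp (-t0) ≤ ∑ z, p z * Real.exp (-(x z)) := by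
    have h1 : ∀ z, p z * Real.exp (-(a z)) * (Real.exp (-t0) * (1 + t0 - (x z - a z))) ≤
        p z * Real.exp (-(x z)) := by
      intro z
      have h2 : Real.exp (-t0) * (1 + t0 - (x z - a z)) ≤ Real.exp (-(x z - a z)) := by
        have h3 := Real.add_one_le_exp (t0 - (x z - a z))
        have h4 : Real.exp (-(x z - a z)) = Real.exp (-t0) * Real.exp (t0 - (x z - a z)) := by
          rw [← Real.exp_add]; congr 1; ring
        rw [h4]
        exact mul_le_mul_of_nonneg_left (by linarith) (Real.exp_pos _).le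
      calc p z * Real.exp (-(a z)) * (Real.exp (-t0) * (1 + t0 - (x z - a z)))
          ≤ p z * Real.exp (-(a z)) * Real.exp (-(x z - a z)) :=
            mul_le_mul_of_nonneg_left h2 (mul_nonneg (hp.pos z).le (Real.exp_pos _).le)
        _ = p z * Real.exp (-(x z)) := by
            rw [mul_assoc, ← Real.exp_add]; congr 2; ring
    have h5 : ∑ z, p z * Real.exp (-(a z)) * (Real.exp (-t0) * (1 + t0 - (x z - a z))) =
        N * Real.exp (-t0) := by
      have : ∀ z, p z * Real.exp (-(a z)) * (Real.exp (-t0) * (1 + t0 - (x z - a z))) =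
          (Real.exp (-t0) * (1 + t0)) * (p z * Real.exp (-(a z))) -
            Real.exp (-t0) * (p z * Real.exp (-(a z)) * (x z - a z)) := fun z => by ring
      simp only [this]
      rw [Finset.sum_sub_distrib, ← Finset.mul_sum, ← Finset.mul_sum, ← hN, ← hNt]
      ring
    rw [← h5]
    exact Finset.sum_le_sum fun z _ => h1 z
  have h6 := Real.log_le_log (mul_pos hN0 (Real.exp_pos _)) key
  rw [Real.log_mul hN0.ne' (Real.exp_pos _).ne', Real.log_exp] at h6
  unfold smin
  rw [← hN]
  linarith

end smin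

/-! ### Means of lists -/

/-- mean of `f` over a list of `m` samples -/
noncomputable def mean {α : Type} (m : ℕ) (l : List α) (f : α → ℝ) : ℝ := (l.map f).sum / m

section mean

variable {α Z : Type} [Fintype Z] {m : ℕ}

theorem sum_map_sub (l : List α) (f g : α → ℝ) :
    (l.map fun a => f a - g a).sum = (l.map f).sum - (l.map g).sum := by
  induction l with
  | nil => simp
  | cons a l ih => simp only [List.map_cons, List.sum_cons, ih]; ring

theorem mean_sub (l : List α) (f g : α → ℝ) :
    mean m l (fun a => f a - g a) = mean m l f - mean m l g := by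
  unfold mean
  rw [sum_map_sub, sub_div]

theorem Ev_mean {W : ℕ} (hW : 0 < W) (hm : 0 < m) (t : RT α) (f : α → ℝ) :
    (reps m t).Ev W (fun l => mean m l f) = t.Ev W f := by
  unfold mean
  rw [Ev_div, Ev_reps_sum hW]
  have : (m : ℝ) ≠ 0 := Nat.cast_ne_zero.2 hm.ne'
  field_simp

theorem Ev_mean_sqdev {W : ℕ} (hW : 0 < W) (hm : 0 < m) (t : RT α) (f : α → ℝ) :
    (reps m t).Ev W (fun l => (mean m l f - t.Ev W f) ^ 2) =
      (t.Ev W fun a => (f a - t.Ev W f) ^ 2) / m := by
  have h := Ev_reps_sqdev hW t f m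
  have hm' : (m : ℝ) ≠ 0 := Nat.cast_ne_zero.2 hm.ne'
  have e : (fun l : List α => (mean m l f - t.Ev W f) ^ 2) =
      fun l => (1 / (m : ℝ) ^ 2) * ((l.map f).sum - m * t.Ev W f) ^ 2 := by
    funext l
    unfold mean
    field_simp
  rw [e, Ev_mul_left, h]
  field_simp

theorem mean_le_smin {p : Z → ℝ} (hp : Prior p) (hm : 0 < m) {l : List α} (hl : l.length = m)
    (f : α → ℝ) (g : α → Z → ℝ) (h : ∀ a ∈ l, f a ≤ smin p (g a)) :
    mean m l f ≤ smin p (fun z => mean m l fun a => g a z) := by
  set a : Z → ℝ := fun z => mean m l fun a => g a z with ha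
  set q : Z → ℝ := fun z => p z * Real.exp (-(a z)) / ∑ z, p z * Real.exp (-(a z)) with hq
  set C := smin p a with hC
  have hm' : (0 : ℝ) < m := Nat.cast_pos.2 hm
  have h1 : ∀ l' : List α, (∀ t ∈ l', f t ≤ smin p (g t)) →
      (l'.map f).sum ≤ l'.length * C +
        ∑ z, q z * ((l'.map fun t => g t z).sum - l'.length * a z) := by
    intro l'
    induction l' with
    | nil => intro _; simp
    | cons t l' ih =>
      intro hh
      have h2 := ih fun t' ht' => hh t' (List.mem_cons_of_mem _ ht')
      have h3 : f t ≤ C + ∑ z, q z * (g t z - a z) :=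
        (hh t List.mem_cons_self).trans (smin_tangent hp (g t) a)
      simp only [List.map_cons, List.sum_cons, List.length_cons]
      have h4 : ∑ z, q z * (g t z + (l'.map fun t => g t z).sum -
          ((l'.length + 1 : ℕ) : ℝ) * a z) =
          ∑ z, q z * (g t z - a z) +
            ∑ z, q z * ((l'.map fun t => g t z).sum - l'.length * a z) := by
        rw [← Finset.sum_add_distrib]
        refine Finset.sum_congr rfl fun z _ => ?_
        push_cast
        ring
      rw [h4]
      push_cast
      linarith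
  have h5 := h1 l h
  rw [hl] at h5
  have h6 : ∀ z, (l.map fun t => g t z).sum - m * a z = 0 := by
    intro z
    simp only [ha, mean]
    field_simp
    ring
  simp only [h6, mul_zero, Finset.sum_const_zero, add_zero] at h5
  unfold mean
  rw [div_le_iff₀ hm']
  linarith

theorem Ev_le_smin {p : Z → ℝ} (hp : Prior p) {W : ℕ} (hW : 0 < W) {t : RT α}
    (f : α → ℝ) (g : α → Z → ℝ) (h : t.All W fun a => f a ≤ smin p (g a)) :
    t.Ev W f ≤ smin p (fun z => t.Ev W fun a => g a z) := by
  set a : Z → ℝ := fun z => t.Ev W fun a => g a z with ha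
  set q : Z → ℝ := fun z => p z * Real.exp (-(a z)) / ∑ z, p z * Real.exp (-(a z)) with hq
  set C := smin p a with hC
  have h1 : t.Ev W f ≤ t.Ev W (fun b => C + ∑ z, q z * (g b z - a z)) :=
    Ev_mono_all (h.mono fun b hb => hb.trans (smin_tangent hp (g b) a))
  rw [Ev_add, Ev_const hW, Ev_sum] at h1
  have h2 : ∀ z, t.Ev W (fun b => q z * (g b z - a z)) = 0 := by
    intro z
    rw [Ev_mul_left, Ev_sub, Ev_const hW]
    simp [ha]
  simp only [h2, Finset.sum_const_zero, add_zero] at h1
  exact h1

/-- Jensen for the exponential -/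
theorem exp_neg_Ev_le {W : ℕ} (hW : 0 < W) (t : RT α) (f : α → ℝ) :
    Real.exp (-(t.Ev W f)) ≤ t.Ev W fun a => Real.exp (-(f a)) := by
  set d := t.Ev W f with hd
  have h : t.Ev W (fun a => Real.exp (-d) * (1 + d - f a)) ≤ t.Ev W fun a => Real.exp (-(f a)) := by
    refine Ev_mono fun a => ?_
    have h3 := Real.add_one_le_exp (d - f a)
    have h4 : Real.exp (-(f a)) = Real.exp (-d) * Real.exp (d - f a) := by
      rw [← Real.exp_add]; congr 1; ring
    rw [h4]
    exact mul_le_mul_of_nonneg_left (by linarith) (Real.exp_pos _).le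
  rw [Ev_mul_left, Ev_sub, Ev_const hW, ← hd] at h
  linarith

/-- the second moment is least around the mean -/
theorem Ev_sqdev_le {W : ℕ} (hW : 0 < W) (t : RT α) (f : α → ℝ) (c : ℝ) :
    t.Ev W (fun a => (f a - t.Ev W f) ^ 2) ≤ t.Ev W fun a => (f a - c) ^ 2 := by
  set d := t.Ev W f with hd
  have e : (fun a => (f a - c) ^ 2) =
      fun a => (f a - d) ^ 2 + ((2 * (d - c)) * (f a - d) + (d - c) ^ 2) := by
    funext a; ring
  rw [e, Ev_add, Ev_add, Ev_mul_left, Ev_sub, Ev_const hW, Ev_const hW, ← hd]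
  have := sq_nonneg (d - c)
  linarith

/-- the value of a function of the `j`-th repetition -/
theorem Ev_reps_getD {W : ℕ} (hW : 0 < W) (t : RT α) (d : α) (f : α → ℝ) (k j : ℕ) (hj : j < k) :
    (reps k t).Ev W (fun l => f (l.getD j d)) = t.Ev W f := by
  induction k generalizing j with
  | zero => omega
  | succ k ih =>
    rw [Ev_reps_succ]
    cases j with
    | zero => simp only [List.getD_cons_zero, Ev_const hW]
    | succ j =>
      simp only [List.getD_cons_succ, ih j (by omega), Ev_const hW]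

end mean

/-! ### Games and tiers -/

/-- data of one round -/
structure Game (St Z : Type) where
  /-- number of same-tier copies of the child used at height `h + 1` (usually `1`) -/
  kk : ℕ → ℕ
  /-- child after letter `z`, in copy `j`, with random word `u` -/
  nx : St → Z → ℕ → ℕ → St
  /-- prior on the letters -/
  pr : St → Z → ℝ
  /-- growth of the unit -/
  rho : St → Z → ℝ
  /-- cost of the step -/
  cb : St → Z → ℝ
  /-- start promise (height, state); at height `0` the leaf cost -/
  x0 : ℕ → St → ℝ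
  /-- the computed `min B (smin (pr s) x)` -/
  phi : St → (Z → ℝ) → ℝ
  /-- the computed product `rho s z * y` -/
  rp : St → Z → ℝ → ℝ

/-- a random table: promise `X`, promise after each letter `V`, increment `Y` -/
structure Tab (St Z : Type) where
  X : St → ℝ
  V : St → Z → ℝ
  Y : St → ℝ

instance (St Z : Type) : Inhabited (Tab St Z) := ⟨⟨fun _ => 0, fun _ _ => 0, fun _ => 0⟩⟩

namespace Game

variable {St Z : Type} (G : Game St Z)

/-- average of `f` over the children of `s` after letter `z` (height `h + 1` to `h`) -/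
noncomputable def av (W h : ℕ) (s : St) (z : Z) (f : St → ℝ) : ℝ :=
  (∑ j ∈ range (G.kk h), draw.Ev W fun u => f (G.nx s z j u)) / G.kk h

/-- the table of a leaf -/
def leafT : Tab St Z := ⟨G.x0 0, fun _ _ => 0, fun _ => 0⟩

/-- average of the increments of the child tables `cs` seen from `(s, z)` -/
noncomputable def inc (h : ℕ) (u : ℕ) (cs : List (Tab St Z)) (s : St) (z : Z) : ℝ :=
  (∑ j ∈ range (G.kk h), G.rp s z ((cs.getD j default).Y (G.nx s z j u))) / G.kk h

/-- drift of the samples: mean of `V - X` -/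
noncomputable def dl (m : ℕ) (l : List (Tab St Z)) (s : St) (z : Z) : ℝ :=
  mean m l fun t => t.V s z - t.X s

/-- the table of the next tier from `m` samples `l` of the current tier at the same height, the
word `u` and the same-tier child tables `cs` -/
noncomputable def comb (m h : ℕ) (l : List (Tab St Z)) (u : ℕ) (cs : List (Tab St Z)) :
    Tab St Z where
  X s := mean m l (fun t => t.X s) + G.phi s fun z => dl m l s z + G.inc h u cs s z
  V s z := mean m l (fun t => t.V s z) + G.inc h u cs s z
  Y s := G.phi s fun z => dl m l s z + G.inc h u cs s z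

/-- the next tier -/
noncomputable def next (m : ℕ) (R : ℕ → RT (Tab St Z)) : ℕ → RT (Tab St Z)
  | 0 => ret G.leafT
  | h + 1 => (reps m (R (h + 1))).bind fun l => rnd fun u =>
      (reps (G.kk h) (next m R h)).bind fun cs => ret (G.comb m h l u cs)

/-- tier `0`: the start promise, no randomness -/
noncomputable def tier0 (W : ℕ) : ℕ → RT (Tab St Z)
  | 0 => ret G.leafT
  | h + 1 => ret ⟨G.x0 (h + 1), fun s z => G.cb s z + G.rho s z * G.av W h s z (G.x0 h), fun _ => 0⟩

/-- the random table of tier `i` at height `h` -/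
noncomputable def tier (W m : ℕ) : ℕ → ℕ → RT (Tab St Z)
  | 0 => G.tier0 W
  | i + 1 => G.next m (tier W m i)

/-- mean promise of the tier `R` -/
noncomputable def tm (W : ℕ) (R : ℕ → RT (Tab St Z)) (h : ℕ) (s : St) : ℝ :=
  (R h).Ev W fun t => t.X s

/-- axioms: `B` truncation of the increments, `δ` error of `phi`, `δ'` error of `rp`, `r` bound
of `rho`, `η` the unit (one nat is `1 / η` of the promise) -/
structure Ok [Fintype Z] (W : ℕ) (B δ δ' r η : ℝ) : Prop where
  hW : 0 < W
  hB : 0 ≤ B
  hδ : 0 ≤ δ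
  hδ' : 0 ≤ δ'
  hη : 0 < η
  kk_pos : ∀ h, 0 < G.kk h
  prior : ∀ s, Prior (G.pr s)
  one_le_rho : ∀ s z, 1 ≤ G.rho s z
  rho_le : ∀ s z, G.rho s z ≤ r
  le_cb : ∀ s z, η * (G.rho s z - 1) ≤ G.cb s z
  phi_le_B : ∀ s x, G.phi s x ≤ B
  phi_le : ∀ s x, G.phi s x ≤ smin (G.pr s) x
  phi_nonneg : ∀ s x, 0 ≤ smin (G.pr s) x → 0 ≤ G.phi s x
  le_phi : ∀ s x, min B (smin (G.pr s) x) - δ ≤ G.phi s x
  le_rp : ∀ s z y, 0 ≤ y → y ≤ G.rp s z y
  rp_le : ∀ s z y, 0 ≤ y → G.rp s z y ≤ G.rho s z * y
  rho_le_rp : ∀ s z y, 0 ≤ y → G.rho s z * y - δ' ≤ G.rp s z y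
  x0_nonneg : ∀ h s, 0 ≤ G.x0 h s
  x0_sub : ∀ h s, G.x0 (h + 1) s ≤
    smin (G.pr s) fun z => G.cb s z + G.rho s z * G.av W h s z (G.x0 h)

/-- what is kept from tier to tier: `v` bounds the variances, `lam` the rounding error of the
linear relation -/
structure Inv [Fintype Z] (W : ℕ) (R : ℕ → RT (Tab St Z)) (v lam : ℝ) : Prop where
  /-- pathwise: the promise is below the soft minimum over the letters -/
  sub : ∀ h, (R (h + 1)).All W fun t => ∀ s, t.X s ≤ smin (G.pr s) (t.V s)
  leaf : ∀ s, tm W R 0 s = G.x0 0 s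
  x0_le : ∀ h s, G.x0 h s ≤ tm W R h s
  lin_le : ∀ h s z, (R (h + 1)).Ev W (fun t => t.V s z) ≤
    G.cb s z + G.rho s z * G.av W h s z (tm W R h)
  le_lin : ∀ h s z, G.cb s z + G.rho s z * G.av W h s z (tm W R h) - lam ≤
    (R (h + 1)).Ev W fun t => t.V s z
  varD : ∀ h s z, (R (h + 1)).Ev W (fun t => (t.V s z - t.X s -
    (R (h + 1)).Ev W fun t => t.V s z - t.X s) ^ 2) ≤ v
  varX : ∀ h s, (R h).Ev W (fun t => (t.X s - tm W R h s) ^ 2) ≤ v

variable {G}

theorem next_zero (m : ℕ) (R : ℕ → RT (Tab St Z)) : G.next m R 0 = ret G.leafT := rfl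

theorem next_succ (m : ℕ) (R : ℕ → RT (Tab St Z)) (h : ℕ) :
    G.next m R (h + 1) = (reps m (R (h + 1))).bind fun l => rnd fun u =>
      (reps (G.kk h) (G.next m R h)).bind fun cs => ret (G.comb m h l u cs) := rfl

theorem Ev_next (W m : ℕ) (R : ℕ → RT (Tab St Z)) (h : ℕ) (f : Tab St Z → ℝ) :
    (G.next m R (h + 1)).Ev W f = (reps m (R (h + 1))).Ev W fun l => draw.Ev W fun u =>
      (reps (G.kk h) (G.next m R h)).Ev W fun cs => f (G.comb m h l u cs) := by
  rw [next_succ, Ev_bind]
  congr 1
  funext l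
  rw [Ev_rnd, Ev_draw]
  congr 1
  refine Finset.sum_congr rfl fun u _ => ?_
  rw [Ev_bind]
  rfl

theorem All_next (W m : ℕ) (R : ℕ → RT (Tab St Z)) (h : ℕ) (P : Tab St Z → Prop) :
    (G.next m R (h + 1)).All W P ↔ (reps m (R (h + 1))).All W fun l => ∀ u < W,
      (reps (G.kk h) (G.next m R h)).All W fun cs => P (G.comb m h l u cs) := by
  rw [next_succ, All_bind]
  simp only [All_rnd, All_bind, All_ret]

end Game

end Crest.Agent.R288.GA0596
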