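import Crest.Agent.R288.GA0_596

/-!
# R288 [GA1]: pathwise and linear facts of the tier scheme; soundness

For a tier `R` with `G.Inv W R v lam` and its next tier `N = G.next m R`:
* `All_Y` : `0 ≤ Y ≤ B` pathwise; `next_sub` : `X ≤ smin V` pathwise.
* `tm_next` : `tm N = tm R + E Y`; `next_lin_le`, `next_le_lin`.
* `tm_le_smin`, `tm_le_super` : soundness.
* `next_inv` (the variances are arguments), `tier0_inv`.
-/

set_option autoImplicit false

namespace Crest.Agent.R288.GA0596

open Finset Crest.Agent.R295.Rnd627 Crest.Agent.R295.Rnd627.RT Crest.Agent.R288.Med559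

namespace Game

variable {St Z : Type} {G : Game St Z}

/-! ### The average over the children -/

section av

variable {W h : ℕ} {s : St} {z : Z}

theorem av_add (f g : St → ℝ) :
    G.av W h s z (fun x => f x + g x) = G.av W h s z f + G.av W h s z g := by
  unfold av
  rw [← add_div, ← Finset.sum_add_distrib]
  simp only [Ev_add]

theorem av_mul_left (c : ℝ) (f : St → ℝ) :
    G.av W h s z (fun x => c * f x) = c * G.av W h s z f := by
  unfold av
  simp only [Ev_mul_left, ← Finset.mul_sum]
  ring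

theorem av_const (hW : 0 < W) (hk : 0 < G.kk h) (c : ℝ) : G.av W h s z (fun _ => c) = c := by
  unfold av
  simp only [Ev_const hW]
  have : (G.kk h : ℝ) ≠ 0 := Nat.cast_ne_zero.2 hk.ne'
  simp
  field_simp

theorem av_mono {f g : St → ℝ} (hfg : ∀ x, f x ≤ g x) :
    G.av W h s z f ≤ G.av W h s z g := by
  unfold av
  exact div_le_div_of_nonneg_right
    (Finset.sum_le_sum fun j _ => Ev_mono fun u => hfg _) (Nat.cast_nonneg _)

theorem av_nonneg {f : St → ℝ} (hf : ∀ x, 0 ≤ f x) : 0 ≤ G.av W h s z f := by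
  unfold av
  exact div_nonneg (Finset.sum_nonneg fun j _ => Ev_nonneg fun u => hf _) (Nat.cast_nonneg _)

end av

/-- bounded increments -/
def YB (B : ℝ) (t : Tab St Z) : Prop := ∀ s, 0 ≤ t.Y s ∧ t.Y s ≤ B

theorem YB.getD {B : ℝ} (hB : 0 ≤ B) {cs : List (Tab St Z)} (h : ∀ c ∈ cs, YB B c) (j : ℕ) :
    YB B (cs.getD j default) := by
  by_cases hj : j < cs.length
  · rw [List.getD_eq_getElem _ _ hj]
    exact h _ (List.getElem_mem hj)
  · rw [List.getD_eq_default _ _ (not_lt.1 hj)]
    intro s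
    exact ⟨le_rfl, hB⟩

variable [Fintype Z] {W m : ℕ} {B δ δ' r η v lam : ℝ} {R : ℕ → RT (Tab St Z)}

theorem inc_nonneg (ok : G.Ok W B δ δ' r η) {h u : ℕ} {cs : List (Tab St Z)}
    (hcs : ∀ c ∈ cs, YB B c) (s : St) (z : Z) : 0 ≤ G.inc h u cs s z := by
  unfold inc
  refine div_nonneg (Finset.sum_nonneg fun j _ => ?_) (Nat.cast_nonneg _)
  have h1 := (YB.getD ok.hB hcs j (G.nx s z j u)).1
  exact h1.trans (ok.le_rp s z _ h1)

theorem inc_le (ok : G.Ok W B δ δ' r η) {h u : ℕ} {cs : List (Tab St Z)}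
    (hcs : ∀ c ∈ cs, YB B c) (s : St) (z : Z) : G.inc h u cs s z ≤ r * B := by
  unfold inc
  have hk : (0 : ℝ) < G.kk h := Nat.cast_pos.2 (ok.kk_pos h)
  rw [div_le_iff₀ hk]
  have h1 : ∀ j ∈ range (G.kk h), G.rp s z ((cs.getD j default).Y (G.nx s z j u)) ≤ r * B := by
    intro j _
    have h2 := YB.getD ok.hB hcs j (G.nx s z j u)
    refine (ok.rp_le s z _ h2.1).trans ?_
    exact mul_le_mul (ok.rho_le s z) h2.2 h2.1
      ((zero_le_one.trans (ok.one_le_rho s z)).trans (ok.rho_le s z))
  refine (Finset.sum_le_sum h1).trans ?_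
  rw [Finset.sum_const, card_range, nsmul_eq_mul]
  linarith

/-- samples below their soft minimum -/
def Sub (G : Game St Z) (t : Tab St Z) : Prop := ∀ s, t.X s ≤ smin (G.pr s) (t.V s)

/-- good lists of samples -/
def GoodL (G : Game St Z) (m : ℕ) (l : List (Tab St Z)) : Prop :=
  l.length = m ∧ ∀ t ∈ l, Sub G t

theorem All_GoodL (inv : G.Inv W R v lam) (h : ℕ) :
    (reps m (R (h + 1))).All W (GoodL G m) := All_reps (inv.sub h) m

theorem smin_dl_nonneg (ok : G.Ok W B δ δ' r η) (hm : 0 < m) {l : List (Tab St Z)}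
    (hl : GoodL G m l) (s : St) : 0 ≤ smin (G.pr s) fun z => dl m l s z := by
  have h1 := mean_le_smin (ok.prior s) hm hl.1 (fun t => t.X s) (fun t z => t.V s z)
    (fun t ht => hl.2 t ht s)
  have h2 : (fun z => dl m l s z) =
      fun z => (mean m l fun t => t.V s z) + (-(mean m l fun t => t.X s)) := by
    funext z
    unfold dl
    rw [mean_sub]
    ring
  rw [h2, smin_add (ok.prior s)]
  linarith

theorem comb_YB (ok : G.Ok W B δ δ' r η) (hm : 0 < m) {h u : ℕ} {l cs : List (Tab St Z)}
    (hl : GoodL G m l) (hcs : ∀ c ∈ cs, YB B c) : YB B (G.comb m h l u cs) := by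
  intro s
  refine ⟨ok.phi_nonneg _ _ ?_, ok.phi_le_B _ _⟩
  refine (smin_dl_nonneg ok hm hl s).trans (smin_mono (ok.prior s) fun z => ?_)
  have := inc_nonneg (h := h) (u := u) ok hcs s z
  linarith

theorem comb_Sub (ok : G.Ok W B δ δ' r η) {h u : ℕ} {l cs : List (Tab St Z)} :
    Sub G (G.comb m h l u cs) := by
  intro s
  simp only [comb]
  have h1 := ok.phi_le s fun z => dl m l s z + G.inc h u cs s z
  have h2 : (fun z => (mean m l fun t => t.V s z) + G.inc h u cs s z) =
      fun z => (dl m l s z + G.inc h u cs s z) + mean m l fun t => t.X s := by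
    funext z
    unfold dl
    rw [mean_sub]
    ring
  rw [h2, smin_add (ok.prior s)]
  linarith

/-- **the increments lie in `[0, B]`** -/
theorem All_Y (ok : G.Ok W B δ δ' r η) (inv : G.Inv W R v lam) (hm : 0 < m) (h : ℕ) :
    (G.next m R h).All W (YB B) := by
  induction h with
  | zero =>
    rw [next_zero, All_ret]
    intro s
    exact ⟨le_rfl, ok.hB⟩
  | succ h ih =>
    rw [All_next]
    refine (All_GoodL (m := m) inv h).mono fun l hl u _ => ?_
    exact (All_reps ih (G.kk h)).mono fun cs hcs => comb_YB ok hm hl hcs.2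

theorem next_sub (ok : G.Ok W B δ δ' r η) (h : ℕ) :
    (G.next m R (h + 1)).All W (Sub G) := by
  rw [All_next]
  exact All.of_forall fun l u _ => All.of_forall fun cs => comb_Sub ok

/-- mean increment of the tier after `R` -/
noncomputable def dd (G : Game St Z) (W m : ℕ) (R : ℕ → RT (Tab St Z)) (h : ℕ) (s : St) : ℝ :=
  (G.next m R h).Ev W fun t => t.Y s

theorem dd_nonneg (ok : G.Ok W B δ δ' r η) (inv : G.Inv W R v lam) (hm : 0 < m) (h : ℕ) (s : St) :
    0 ≤ dd G W m R h s :=
  Ev_nonneg_all ((All_Y ok inv hm h).mono fun _ ht => (ht s).1)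

theorem dd_le (ok : G.Ok W B δ δ' r η) (inv : G.Inv W R v lam) (hm : 0 < m) (h : ℕ) (s : St) :
    dd G W m R h s ≤ B :=
  Ev_le_const ok.hW ((All_Y ok inv hm h).mono fun _ ht => (ht s).2)

/-- **the promise grows by the mean increment** -/
theorem tm_next (ok : G.Ok W B δ δ' r η) (inv : G.Inv W R v lam) (hm : 0 < m) (h : ℕ) (s : St) :
    tm W (G.next m R) h s = tm W R h s + dd G W m R h s := by
  cases h with
  | zero =>
    have h1 : tm W (G.next m R) 0 s = G.x0 0 s := rfl
    have h2 : dd G W m R 0 s = 0 := rfl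
    rw [h1, h2, inv.leaf, add_zero]
  | succ h =>
    unfold tm dd
    rw [Ev_next, Ev_next]
    have h1 : (R (h + 1)).Ev W (fun t => t.X s) = (reps m (R (h + 1))).Ev W fun l =>
        draw.Ev W fun _ => (reps (G.kk h) (G.next m R h)).Ev W fun _ =>
          mean m l fun t => t.X s := by
      simp only [Ev_const ok.hW]
      rw [Ev_mean ok.hW hm]
    rw [h1, ← Ev_add]
    congr 1
    funext l
    rw [← Ev_add]
    congr 1
    funext u
    rw [← Ev_add]
    rfl

theorem Ev_inc (ok : G.Ok W B δ δ' r η) (h : ℕ) (s : St) (z : Z) :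
    (draw.Ev W fun u => (reps (G.kk h) (G.next m R h)).Ev W fun cs => G.inc h u cs s z) =
      (∑ j ∈ range (G.kk h), draw.Ev W fun u => (G.next m R h).Ev W fun c =>
        G.rp s z (c.Y (G.nx s z j u))) / G.kk h := by
  unfold inc
  simp only [Ev_div, Ev_sum]
  congr 1
  refine Finset.sum_congr rfl fun j hj => ?_
  congr 1
  funext u
  exact Ev_reps_getD ok.hW (G.next m R h) default
    (fun c => G.rp s z (c.Y (G.nx s z j u))) (G.kk h) j (mem_range.1 hj)

theorem Ev_inc_le (ok : G.Ok W B δ δ' r η) (inv : G.Inv W R v lam) (hm : 0 < m) (h : ℕ) (s : St)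
    (z : Z) :
    (draw.Ev W fun u => (reps (G.kk h) (G.next m R h)).Ev W fun cs => G.inc h u cs s z) ≤
      G.rho s z * G.av W h s z (dd G W m R h) := by
  rw [Ev_inc ok]
  unfold av
  rw [← mul_div_assoc, Finset.mul_sum]
  refine div_le_div_of_nonneg_right (Finset.sum_le_sum fun j _ => ?_) (Nat.cast_nonneg _)
  rw [← Ev_mul_left]
  refine Ev_mono fun u => ?_
  unfold dd
  rw [← Ev_mul_left]
  exact Ev_mono_all ((All_Y ok inv hm h).mono fun t ht => ok.rp_le s z _ (ht _).1)

theorem le_Ev_inc (ok : G.Ok W B δ δ' r η) (inv : G.Inv W R v lam) (hm : 0 < m) (h : ℕ) (s : St)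
    (z : Z) : G.rho s z * G.av W h s z (dd G W m R h) - δ' ≤
    (draw.Ev W fun u => (reps (G.kk h) (G.next m R h)).Ev W fun cs => G.inc h u cs s z) := by
  rw [Ev_inc ok]
  have hk : (0 : ℝ) < G.kk h := Nat.cast_pos.2 (ok.kk_pos h)
  have h1 : δ' = (∑ j ∈ range (G.kk h), δ') / G.kk h := by
    rw [Finset.sum_const, card_range, nsmul_eq_mul]
    field_simp
  rw [h1]
  unfold av
  rw [← mul_div_assoc, Finset.mul_sum, ← sub_div, ← Finset.sum_sub_distrib]
  refine div_le_div_of_nonneg_right (Finset.sum_le_sum fun j _ => ?_) (Nat.cast_nonneg _)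
  rw [← Ev_mul_left, ← Ev_const ok.hW draw δ', ← Ev_sub]
  refine Ev_mono fun u => ?_
  unfold dd
  rw [← Ev_mul_left, ← Ev_const ok.hW (G.next m R h) δ', ← Ev_sub]
  exact Ev_mono_all ((All_Y ok inv hm h).mono fun t ht => ok.rho_le_rp s z _ (ht _).1)

theorem Ev_V_next (ok : G.Ok W B δ δ' r η) (hm : 0 < m) (h : ℕ) (s : St) (z : Z) :
    (G.next m R (h + 1)).Ev W (fun t => t.V s z) = (R (h + 1)).Ev W (fun t => t.V s z) +
      draw.Ev W fun u => (reps (G.kk h) (G.next m R h)).Ev W fun cs => G.inc h u cs s z := by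
  rw [Ev_next]
  simp only [comb, Ev_add, Ev_const ok.hW]
  rw [Ev_mean ok.hW hm]

theorem tm_next_fun (ok : G.Ok W B δ δ' r η) (inv : G.Inv W R v lam) (hm : 0 < m) (h : ℕ) :
    tm W (G.next m R) h = fun s => tm W R h s + dd G W m R h s :=
  funext fun s => tm_next ok inv hm h s

theorem next_lin_le (ok : G.Ok W B δ δ' r η) (inv : G.Inv W R v lam) (hm : 0 < m) (h : ℕ) (s : St)
    (z : Z) : (G.next m R (h + 1)).Ev W (fun t => t.V s z) ≤
      G.cb s z + G.rho s z * G.av W h s z (tm W (G.next m R) h) := by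
  rw [Ev_V_next ok hm, tm_next_fun ok inv hm, av_add]
  have h1 := inv.lin_le h s z
  have h2 := Ev_inc_le ok inv hm h s z
  linarith

theorem next_le_lin (ok : G.Ok W B δ δ' r η) (inv : G.Inv W R v lam) (hm : 0 < m) (h : ℕ) (s : St)
    (z : Z) : G.cb s z + G.rho s z * G.av W h s z (tm W (G.next m R) h) - (lam + δ') ≤
      (G.next m R (h + 1)).Ev W (fun t => t.V s z) := by
  rw [Ev_V_next ok hm, tm_next_fun ok inv hm, av_add]
  have h1 := inv.le_lin h s z
  have h2 := le_Ev_inc ok inv hm h s z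
  linarith

/-- every tier is a soft subsolution -/
theorem tm_le_smin (ok : G.Ok W B δ δ' r η) (inv : G.Inv W R v lam) (h : ℕ) (s : St) :
    tm W R (h + 1) s ≤ smin (G.pr s) fun z => G.cb s z + G.rho s z * G.av W h s z (tm W R h) := by
  have h1 := Ev_le_smin (ok.prior s) ok.hW (t := R (h + 1)) (fun t => t.X s) (fun t z => t.V s z)
    ((inv.sub h).mono fun t ht => ht s)
  exact h1.trans (smin_mono (ok.prior s) fun z => inv.lin_le h s z)

/-- **soundness**: every tier is below every soft supersolution -/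
theorem tm_le_super (ok : G.Ok W B δ δ' r η) (inv : G.Inv W R v lam) {Gs : ℕ → St → ℝ}
    (h0 : ∀ s, G.x0 0 s ≤ Gs 0 s)
    (h1 : ∀ h s, (smin (G.pr s) fun z => G.cb s z + G.rho s z * G.av W h s z (Gs h)) ≤
      Gs (h + 1) s) (h : ℕ) (s : St) : tm W R h s ≤ Gs h s := by
  induction h generalizing s with
  | zero => rw [inv.leaf]; exact h0 s
  | succ h ih =>
    refine (tm_le_smin ok inv h s).trans (le_trans (smin_mono (ok.prior s) fun z => ?_) (h1 h s))
    have h2 : G.av W h s z (tm W R h) ≤ G.av W h s z (Gs h) := av_mono ih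
    have h3 := mul_le_mul_of_nonneg_left h2 (zero_le_one.trans (ok.one_le_rho s z))
    linarith

/-- the invariant of the next tier, up to the variances -/
theorem next_inv (ok : G.Ok W B δ δ' r η) (inv : G.Inv W R v lam) (hm : 0 < m)
    (hD : ∀ h s z, (G.next m R (h + 1)).Ev W (fun t => (t.V s z - t.X s -
      (G.next m R (h + 1)).Ev W fun t => t.V s z - t.X s) ^ 2) ≤ v)
    (hX : ∀ h s, (G.next m R h).Ev W (fun t => (t.X s - tm W (G.next m R) h s) ^ 2) ≤ v) :
    G.Inv W (G.next m R) v (lam + δ') where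
  sub := next_sub ok
  leaf := fun _ => rfl
  x0_le := fun h s => by
    rw [tm_next ok inv hm]
    have h1 := inv.x0_le h s
    have h2 := dd_nonneg ok inv hm h s
    linarith
  lin_le := next_lin_le ok inv hm
  le_lin := next_le_lin ok inv hm
  varD := hD
  varX := hX

/-- tier `0` satisfies the invariant -/
theorem tier0_inv (ok : G.Ok W B δ δ' r η) (hv : 0 ≤ v) : G.Inv W (G.tier0 W) v 0 where
  sub := fun h s => by
    have := ok.x0_sub h s
    exact this
  leaf := fun _ => rfl
  x0_le := fun h s => by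
    cases h with
    | zero => exact le_rfl
    | succ h => exact le_rfl
  lin_le := fun h s z => by
    have e : tm W (G.tier0 W) h = G.x0 h := by
      funext s
      cases h with
      | zero => rfl
      | succ h => rfl
    rw [e]
    exact le_rfl
  le_lin := fun h s z => by
    have e : tm W (G.tier0 W) h = G.x0 h := by
      funext s
      cases h with
      | zero => rfl
      | succ h => rfl
    rw [e, sub_zero]
    exact le_rfl
  varD := fun h s z => by simpa [tier0] using hv
  varX := fun h s => by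
    cases h with
    | zero => simpa [tier0, tm] using hv
    | succ h => simpa [tier0, tm] using hv

end Game

end Crest.Agent.R288.GA0596
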