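import Crest.Agent.R288.GA1_596

/-!
# R288 [GA2, relative form]: survival and the gap lemma

* `wt` : the killing weight of a letter (`∑ z, wt = e^{-kap} ≤ 1`), `sv` : survival.
* `surv` : `E e^{-Y} ≤ e^{δ h} (sv + e^{-B})`.
* `gap` : one phase of the sup-gap argument in ratio form.
-/

set_option autoImplicit false

namespace Crest.Agent.R288.GA0596

open Finset Crest.Agent.R295.Rnd627 Crest.Agent.R295.Rnd627.RT Crest.Agent.R288.Med559

namespace Game

variable {St Z : Type} {G : Game St Z}

variable [Fintype Z] {W m : ℕ} {B δ δ' r η v lam : ℝ} {R : ℕ → RT (Tab St Z)}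

/-- the killing weight -/
noncomputable def wt (G : Game St Z) (m : ℕ) (l : List (Tab St Z)) (s : St) (z : Z) : ℝ :=
  G.pr s z * Real.exp (-(dl m l s z))

/-- survival -/
noncomputable def sv (G : Game St Z) (W m : ℕ) (R : ℕ → RT (Tab St Z)) : ℕ → St → ℝ
  | 0, _ => 1
  | h + 1, s => (reps m (R (h + 1))).Ev W fun l => ∑ z, wt G m l s z * G.av W h s z (sv G W m R h)

theorem sv_succ (h : ℕ) (s : St) : sv G W m R (h + 1) s =
    (reps m (R (h + 1))).Ev W fun l => ∑ z, wt G m l s z * G.av W h s z (sv G W m R h) := rfl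

theorem wt_nonneg (ok : G.Ok W B δ δ' r η) (l : List (Tab St Z)) (s : St) (z : Z) :
    0 ≤ wt G m l s z :=
  mul_nonneg ((ok.prior s).pos z).le (Real.exp_pos _).le

theorem wt_sum (ok : G.Ok W B δ δ' r η) (l : List (Tab St Z)) (s : St) :
    ∑ z, wt G m l s z = Real.exp (-(smin (G.pr s) fun z => dl m l s z)) := by
  rw [exp_neg_smin (ok.prior s)]
  rfl

theorem wt_sum_le_one (ok : G.Ok W B δ δ' r η) (hm : 0 < m) {l : List (Tab St Z)}
    (hl : GoodL G m l) (s : St) : ∑ z, wt G m l s z ≤ 1 := by
  rw [wt_sum ok, Real.exp_le_one_iff]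
  have := smin_dl_nonneg ok hm hl s
  linarith

theorem sv_nonneg (ok : G.Ok W B δ δ' r η) (h : ℕ) (s : St) : 0 ≤ sv G W m R h s := by
  induction h generalizing s with
  | zero => exact zero_le_one
  | succ h ih =>
    rw [sv_succ]
    exact Ev_nonneg fun l => Finset.sum_nonneg fun z _ =>
      mul_nonneg (wt_nonneg ok l s z) (av_nonneg ih)

/-- killing pays the price: `∑ wt dl ≤ 1 - ∑ wt` -/
theorem wt_dl_le (ok : G.Ok W B δ δ' r η) (l : List (Tab St Z)) (s : St) :
    ∑ z, wt G m l s z * dl m l s z ≤ 1 - ∑ z, wt G m l s z := by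
  rw [← (ok.prior s).sum, ← Finset.sum_sub_distrib]
  refine Finset.sum_le_sum fun z _ => ?_
  unfold wt
  set x := dl m l s z
  have hp := ((ok.prior s).pos z).le
  have h1 : Real.exp (-x) * x ≤ 1 - Real.exp (-x) := by
    have h2 := Real.add_one_le_exp x
    have h3 : Real.exp (-x) * Real.exp x = 1 := by rw [← Real.exp_add]; simp
    have h4 := mul_le_mul_of_nonneg_left h2 (Real.exp_pos (-x)).le
    rw [h3] at h4
    linarith
  calc G.pr s z * Real.exp (-x) * x = G.pr s z * (Real.exp (-x) * x) := by ring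
    _ ≤ G.pr s z * (1 - Real.exp (-x)) := mul_le_mul_of_nonneg_left h1 hp
    _ = G.pr s z - G.pr s z * Real.exp (-x) := by ring

/-- Jensen for the exponential over a finite average -/
theorem exp_neg_avg_le {k : ℕ} (hk : 0 < k) (f : ℕ → ℝ) :
    Real.exp (-((∑ j ∈ range k, f j) / k)) ≤ (∑ j ∈ range k, Real.exp (-(f j))) / k := by
  set d := (∑ j ∈ range k, f j) / k with hd
  have hk' : (0 : ℝ) < k := Nat.cast_pos.2 hk
  have h1 : ∀ j ∈ range k, Real.exp (-d) * (1 + d - f j) ≤ Real.exp (-(f j)) := by
    intro j _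
    have h3 := Real.add_one_le_exp (d - f j)
    have h4 : Real.exp (-(f j)) = Real.exp (-d) * Real.exp (d - f j) := by
      rw [← Real.exp_add]; congr 1; ring
    rw [h4]
    exact mul_le_mul_of_nonneg_left (by linarith) (Real.exp_pos _).le
  have h2 := Finset.sum_le_sum h1
  rw [← Finset.mul_sum, Finset.sum_sub_distrib, Finset.sum_const, card_range, nsmul_eq_mul] at h2
  have h5 : ∑ j ∈ range k, f j = k * d := by rw [hd]; field_simp
  rw [h5] at h2
  rw [le_div_iff₀ hk']
  linarith

/-- average of `e^{-Y}` over the child tables -/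
noncomputable def ey (G : Game St Z) (h u : ℕ) (cs : List (Tab St Z)) (s : St) (z : Z) : ℝ :=
  (∑ j ∈ range (G.kk h), Real.exp (-((cs.getD j default).Y (G.nx s z j u)))) / G.kk h

theorem exp_inc_le (ok : G.Ok W B δ δ' r η) {h u : ℕ} {cs : List (Tab St Z)}
    (hcs : ∀ c ∈ cs, YB B c) (s : St) (z : Z) :
    Real.exp (-(G.inc h u cs s z)) ≤ ey G h u cs s z := by
  refine le_trans ?_ (exp_neg_avg_le (ok.kk_pos h) _)
  refine Real.exp_le_exp.2 (neg_le_neg ?_)
  unfold inc
  refine div_le_div_of_nonneg_right (Finset.sum_le_sum fun j _ => ?_) (Nat.cast_nonneg _)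
  exact ok.le_rp s z _ (YB.getD ok.hB hcs j _).1

theorem le_ey (ok : G.Ok W B δ δ' r η) {h u : ℕ} {cs : List (Tab St Z)}
    (hcs : ∀ c ∈ cs, YB B c) (s : St) (z : Z) : Real.exp (-B) ≤ ey G h u cs s z := by
  unfold ey
  rw [le_div_iff₀ (Nat.cast_pos.2 (ok.kk_pos h))]
  have h1 : ∀ j ∈ range (G.kk h), Real.exp (-B) ≤
      Real.exp (-((cs.getD j default).Y (G.nx s z j u))) := fun j _ =>
    Real.exp_le_exp.2 (neg_le_neg (YB.getD ok.hB hcs j _).2)
  have h2 := Finset.sum_le_sum h1
  rw [Finset.sum_const, card_range, nsmul_eq_mul] at h2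
  linarith

/-- mean of `e^{-Y}` -/
noncomputable def psi (G : Game St Z) (W m : ℕ) (R : ℕ → RT (Tab St Z)) (h : ℕ) (s : St) : ℝ :=
  (G.next m R h).Ev W fun t => Real.exp (-(t.Y s))

theorem Ev_ey (ok : G.Ok W B δ δ' r η) (h : ℕ) (s : St) (z : Z) :
    (draw.Ev W fun u => (reps (G.kk h) (G.next m R h)).Ev W fun cs => ey G h u cs s z) =
      G.av W h s z (psi G W m R h) := by
  unfold ey av
  simp only [Ev_div, Ev_sum]
  congr 1
  refine Finset.sum_congr rfl fun j hj => ?_
  congr 1
  funext u
  exact Ev_reps_getD ok.hW (G.next m R h) default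
    (fun c => Real.exp (-(c.Y (G.nx s z j u)))) (G.kk h) j (mem_range.1 hj)

/-- pathwise form of the survival inequality -/
theorem exp_phi_le (ok : G.Ok W B δ δ' r η) (hm : 0 < m) {h u : ℕ} {l cs : List (Tab St Z)}
    (hl : GoodL G m l) (hcs : ∀ c ∈ cs, YB B c) (s : St) :
    Real.exp (-((G.comb m h l u cs).Y s)) ≤
      Real.exp δ * (Real.exp (-B) + ∑ z, wt G m l s z * (ey G h u cs s z - Real.exp (-B))) := by
  set b := Real.exp (-B) with hb
  have hb0 : 0 < b := Real.exp_pos _
  simp only [comb]
  set x : Z → ℝ := fun z => dl m l s z + G.inc h u cs s z with hx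
  have h1 := ok.le_phi s x
  have h2 : Real.exp (-(G.phi s x)) ≤ Real.exp δ * Real.exp (-(min B (smin (G.pr s) x))) := by
    rw [← Real.exp_add]
    exact Real.exp_le_exp.2 (by linarith)
  refine h2.trans (mul_le_mul_of_nonneg_left ?_ (Real.exp_pos _).le)
  have hpos : 0 ≤ ∑ z, wt G m l s z * (ey G h u cs s z - b) :=
    Finset.sum_nonneg fun z _ => mul_nonneg (wt_nonneg ok l s z)
      (sub_nonneg.2 (le_ey ok hcs s z))
  rcases min_choice B (smin (G.pr s) x) with h3 | h3
  · rw [h3]
    linarith
  · rw [h3, exp_neg_smin (ok.prior s)]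
    have h4 : ∀ z, G.pr s z * Real.exp (-(x z)) ≤ wt G m l s z * ey G h u cs s z := by
      intro z
      have h5 : G.pr s z * Real.exp (-(x z)) =
          wt G m l s z * Real.exp (-(G.inc h u cs s z)) := by
        unfold wt
        rw [mul_assoc, ← Real.exp_add]
        congr 2
        simp only [hx]
        ring
      rw [h5]
      exact mul_le_mul_of_nonneg_left (exp_inc_le ok hcs s z) (wt_nonneg ok l s z)
    have h6 : ∑ z, wt G m l s z * (ey G h u cs s z - b) =
        ∑ z, wt G m l s z * ey G h u cs s z - (∑ z, wt G m l s z) * b := by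
      rw [Finset.sum_mul, ← Finset.sum_sub_distrib]
      exact Finset.sum_congr rfl fun z _ => by ring
    have h7 := wt_sum_le_one ok hm hl s
    have h8 := Finset.sum_le_sum fun z (_ : z ∈ univ) => h4 z
    rw [h6]
    nlinarith

/-- **survival**: `E e^{-Y} ≤ e^{δ h} (sv + e^{-B})` -/
theorem surv (ok : G.Ok W B δ δ' r η) (inv : G.Inv W R v lam) (hm : 0 < m) (h : ℕ) (s : St) :
    psi G W m R h s ≤ Real.exp (δ * h) * (sv G W m R h s + Real.exp (-B)) := by
  induction h generalizing s with
  | zero =>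
    have h1 : psi G W m R 0 s = 1 := by simp [psi, next_zero, leafT]
    have h2 : sv G W m R 0 s = 1 := rfl
    rw [h1, h2, Nat.cast_zero, mul_zero, Real.exp_zero, one_mul]
    have := Real.exp_pos (-B)
    linarith
  | succ h ih =>
    set b := Real.exp (-B) with hb
    have hb0 : 0 < b := Real.exp_pos _
    have h1 : psi G W m R (h + 1) s ≤ (reps m (R (h + 1))).Ev W fun l =>
        Real.exp δ * (b + ∑ z, wt G m l s z * (G.av W h s z (psi G W m R h) - b)) := by
      unfold psi
      rw [Ev_next]
      refine Ev_mono_all ((All_GoodL (m := m) inv h).mono fun l hl => ?_)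
      have h2 : (draw.Ev W fun u => (reps (G.kk h) (G.next m R h)).Ev W fun cs =>
          Real.exp (-((G.comb m h l u cs).Y s))) ≤
          draw.Ev W fun u => (reps (G.kk h) (G.next m R h)).Ev W fun cs =>
            Real.exp δ * (b + ∑ z, wt G m l s z * (ey G h u cs s z - b)) := by
        refine Ev_mono fun u => Ev_mono_all
          ((All_reps (All_Y ok inv hm h) (G.kk h)).mono fun cs hcs => ?_)
        exact exp_phi_le ok hm hl hcs.2 s
      refine h2.trans (le_of_eq ?_)
      simp only [Ev_mul_left, Ev_add, Ev_sum, Ev_sub, Ev_const ok.hW]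
      congr 2
      refine Finset.sum_congr rfl fun z _ => ?_
      rw [Ev_ey ok]
      rfl
    refine h1.trans ?_
    have hE : (reps m (R (h + 1))).Ev W (fun l =>
        Real.exp δ * (b + ∑ z, wt G m l s z * (G.av W h s z (psi G W m R h) - b))) ≤
        (reps m (R (h + 1))).Ev W (fun l => Real.exp (δ * (h + 1 : ℕ)) *
          ((∑ z, wt G m l s z * G.av W h s z (sv G W m R h)) + b)) := by
      refine Ev_mono_all ((All_GoodL (m := m) inv h).mono fun l hl => ?_)
      have h3 : ∀ z, G.av W h s z (psi G W m R h) ≤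
          Real.exp (δ * h) * (G.av W h s z (sv G W m R h) + b) := by
        intro z
        refine (av_mono ih).trans (le_of_eq ?_)
        rw [av_mul_left, av_add, av_const ok.hW (ok.kk_pos h)]
      set e := Real.exp (δ * h) with he
      have he1 : 1 ≤ e := Real.one_le_exp (mul_nonneg ok.hδ (Nat.cast_nonneg _))
      have h4 : Real.exp (δ * (h + 1 : ℕ)) = Real.exp δ * e := by
        rw [he, ← Real.exp_add]; congr 1; push_cast; ring
      rw [h4, mul_assoc]
      refine mul_le_mul_of_nonneg_left ?_ (Real.exp_pos _).le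
      have h5 : ∑ z, wt G m l s z * (G.av W h s z (psi G W m R h) - b) ≤
          ∑ z, (e * (wt G m l s z * G.av W h s z (sv G W m R h)) + (e * b - b) * wt G m l s z) := by
        refine Finset.sum_le_sum fun z _ => ?_
        have h6 := mul_le_mul_of_nonneg_left (h3 z) (wt_nonneg (m := m) ok l s z)
        linarith
      rw [Finset.sum_add_distrib, ← Finset.mul_sum, ← Finset.mul_sum] at h5
      have h7 := wt_sum_le_one ok hm hl s
      have h8 : 0 ≤ e * b - b := by nlinarith
      have h9 := mul_le_mul_of_nonneg_left h7 h8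
      linarith
    refine hE.trans (le_of_eq ?_)
    rw [Ev_mul_left, Ev_add, Ev_const ok.hW, sv_succ]

/-- mean drift of the tier `R` -/
noncomputable def Dl (W : ℕ) (R : ℕ → RT (Tab St Z)) (h : ℕ) (s : St) (z : Z) : ℝ :=
  (R (h + 1)).Ev W fun t => t.V s z - t.X s

/-- **one phase of the sup-gap argument, in ratio form** -/
theorem gap (ok : G.Ok W B δ δ' r η) (inv : G.Inv W R v lam) (hm : 0 < m) (hlam : 0 ≤ lam)
    {U : ℕ → St → ℝ} {H : ℕ}
    {F c ν : ℝ} (hF : 1 ≤ F) (hν : 0 ≤ ν) (hc0 : 0 ≤ c) (hc : ν + 1 + c ≤ c * η)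
    (hU0 : ∀ s, U 0 s ≤ η + G.x0 0 s)
    (hU1 : ∀ h s z, U (h + 1) s ≤ G.cb s z - η * (G.rho s z - 1) +
      G.rho s z * G.av W h s z (U h))
    (hN : ∀ h s, (reps m (R (h + 1))).Ev W (fun l => ∑ z, wt G m l s z *
      |Dl W R h s z - dl m l s z|) + lam ≤ ν)
    (hT : ∀ h ≤ H, ∀ s, U h s ≤ F * (1 + ν / η) ^ h * (η + tm W R h s)) :
    ∀ h ≤ H, ∀ s, U h s ≤ F * (1 + c) * (1 + ν / η) ^ h * (η + tm W R h s) -
      (F - 1) * η * sv G W m R h s := by
  have hη := ok.hη
  set g := 1 + ν / η with hg
  have hg1 : 1 ≤ g := by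
    have : 0 ≤ ν / η := div_nonneg hν hη.le
    linarith
  intro h
  induction h with
  | zero =>
    intro _ s
    have h1 := hU0 s
    have h2 : sv G W m R 0 s = 1 := rfl
    have h3 := ok.x0_nonneg 0 s
    rw [inv.leaf, h2, pow_zero, mul_one, mul_one]
    have h4 : 0 ≤ (F - 1) * G.x0 0 s := mul_nonneg (by linarith) h3
    have h5 : 0 ≤ F * c * (η + G.x0 0 s) := by positivity
    nlinarith
  | succ h ih =>
    intro hh s
    have ih' := ih (by omega)
    set T := tm W R (h + 1) s with hTdef
    have hT0 : 0 ≤ T := (ok.x0_nonneg (h + 1) s).trans (inv.x0_le (h + 1) s)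
    set y := η + T with hy
    have hyη : η ≤ y := by linarith
    set A1 := F * (1 + c) * g ^ h with hA1
    have hgh : 1 ≤ g ^ h := one_le_pow₀ hg1
    have hA11 : 1 ≤ A1 := by
      have h1 : 1 ≤ F * (1 + c) := by nlinarith
      rw [hA1]
      nlinarith
    -- the one-step inequality for a letter
    have hstep : ∀ z, U (h + 1) s ≤ A1 * (y + Dl W R h s z + lam) -
        (F - 1) * η * G.av W h s z (sv G W m R h) := by
      intro z
      have h1 := hU1 h s z
      have hρ := ok.one_le_rho s z
      have h2 : G.av W h s z (U h) ≤ A1 * (η + G.av W h s z (tm W R h)) -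
          (F - 1) * η * G.av W h s z (sv G W m R h) := by
        refine (av_mono ih').trans (le_of_eq ?_)
        have e : (fun s => F * (1 + c) * g ^ h * (η + tm W R h s) -
            (F - 1) * η * sv G W m R h s) =
            fun s => (A1 * η + A1 * tm W R h s) + (-((F - 1) * η)) * sv G W m R h s := by
          funext s
          ring
        rw [e]
        simp only [av_add, av_mul_left, av_const ok.hW (ok.kk_pos h)]
        ring
      have h3 : 0 ≤ G.av W h s z (sv G W m R h) := av_nonneg (sv_nonneg ok h)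
      have h4 := mul_le_mul_of_nonneg_left h2 (zero_le_one.trans hρ)
      have h5 : 0 ≤ (F - 1) * η * G.av W h s z (sv G W m R h) :=
        mul_nonneg (mul_nonneg (by linarith) hη.le) h3
      have h6 : (F - 1) * η * G.av W h s z (sv G W m R h) ≤
          G.rho s z * ((F - 1) * η * G.av W h s z (sv G W m R h)) := by nlinarith
      have h7 : 0 ≤ G.cb s z - η * (G.rho s z - 1) := sub_nonneg.2 (ok.le_cb s z)
      have h8 : G.cb s z - η * (G.rho s z - 1) ≤ A1 * (G.cb s z - η * (G.rho s z - 1)) := by
        nlinarith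
      have h9 := inv.le_lin h s z
      have h10 : (R (h + 1)).Ev W (fun t => t.V s z) = T + Dl W R h s z := by
        rw [Dl, Ev_sub, hTdef, tm]
        ring
      rw [h10] at h9
      have h11 : A1 * (G.cb s z + G.rho s z * G.av W h s z (tm W R h)) ≤
          A1 * (T + Dl W R h s z + lam) := mul_le_mul_of_nonneg_left (by linarith) (by linarith)
      have h12 : A1 * (y + Dl W R h s z + lam) = A1 * η + A1 * (T + Dl W R h s z + lam) := by
        rw [hy]; ring
      rw [h12]
      nlinarith
    -- the inequality for good samples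
    have hl : ∀ l, GoodL G m l → U (h + 1) s ≤
        A1 * (y * (∑ z, wt G m l s z) + (1 - ∑ z, wt G m l s z) +
          (∑ z, wt G m l s z * |Dl W R h s z - dl m l s z|) + lam) -
          (F - 1) * η * (∑ z, wt G m l s z * G.av W h s z (sv G W m R h)) +
          (1 - ∑ z, wt G m l s z) * (F * g ^ (h + 1) * y) := by
      intro l hgood
      set k := ∑ z, wt G m l s z with hk
      have hk1 : k ≤ 1 := wt_sum_le_one ok hm hgood s
      have h1 : k * U (h + 1) s ≤ A1 * (y * k + (1 - k) +
          (∑ z, wt G m l s z * |Dl W R h s z - dl m l s z|) + lam) -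
          (F - 1) * η * (∑ z, wt G m l s z * G.av W h s z (sv G W m R h)) := by
        have h2 : k * U (h + 1) s ≤ ∑ z, wt G m l s z * (A1 * (y + Dl W R h s z + lam) -
            (F - 1) * η * G.av W h s z (sv G W m R h)) := by
          rw [hk, Finset.sum_mul]
          exact Finset.sum_le_sum fun z _ =>
            mul_le_mul_of_nonneg_left (hstep z) (wt_nonneg ok l s z)
        refine h2.trans ?_
        have h3 : ∑ z, wt G m l s z * (A1 * (y + Dl W R h s z + lam) -
            (F - 1) * η * G.av W h s z (sv G W m R h)) =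
            A1 * (y * k + (∑ z, wt G m l s z * Dl W R h s z) + lam * k) -
            (F - 1) * η * (∑ z, wt G m l s z * G.av W h s z (sv G W m R h)) := by
          rw [hk]
          simp only [Finset.mul_sum, ← Finset.sum_add_distrib, ← Finset.sum_sub_distrib]
          exact Finset.sum_congr rfl fun z _ => by ring
        rw [h3]
        have h4 : ∑ z, wt G m l s z * Dl W R h s z ≤ (1 - k) +
            ∑ z, wt G m l s z * |Dl W R h s z - dl m l s z| := by
          have h5 := wt_dl_le (m := m) ok l s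
          have h6 : ∑ z, wt G m l s z * Dl W R h s z =
              ∑ z, wt G m l s z * dl m l s z +
              ∑ z, wt G m l s z * (Dl W R h s z - dl m l s z) := by
            rw [← Finset.sum_add_distrib]
            exact Finset.sum_congr rfl fun z _ => by ring
          rw [h6]
          refine add_le_add h5 (Finset.sum_le_sum fun z _ => ?_)
          exact mul_le_mul_of_nonneg_left (le_abs_self _) (wt_nonneg ok l s z)
        have h7 : lam * k ≤ lam := by nlinarith
        have h8 : A1 * (y * k + (∑ z, wt G m l s z * Dl W R h s z) + lam * k) ≤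
            A1 * (y * k + (1 - k) +
              (∑ z, wt G m l s z * |Dl W R h s z - dl m l s z|) + lam) :=
          mul_le_mul_of_nonneg_left (by linarith) (by linarith)
        linarith
      have h2 : (1 - k) * U (h + 1) s ≤ (1 - k) * (F * g ^ (h + 1) * y) :=
        mul_le_mul_of_nonneg_left (hT (h + 1) hh s) (by linarith)
      linarith
    -- expectation
    have hE : U (h + 1) s ≤ (reps m (R (h + 1))).Ev W fun l =>
        A1 * (y * (∑ z, wt G m l s z) + (1 - ∑ z, wt G m l s z) +
          (∑ z, wt G m l s z * |Dl W R h s z - dl m l s z|) + lam) -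
          (F - 1) * η * (∑ z, wt G m l s z * G.av W h s z (sv G W m R h)) +
          (1 - ∑ z, wt G m l s z) * (F * g ^ (h + 1) * y) := by
      rw [← Ev_const ok.hW (reps m (R (h + 1))) (U (h + 1) s)]
      exact Ev_mono_all ((All_GoodL (m := m) inv h).mono fun l hgood => hl l hgood)
    set k := (reps m (R (h + 1))).Ev W fun l => ∑ z, wt G m l s z with hk
    have hk1 : k ≤ 1 :=
      Ev_le_const ok.hW ((All_GoodL (m := m) inv h).mono fun l hgood => wt_sum_le_one ok hm hgood s)
    set N := (reps m (R (h + 1))).Ev W fun l =>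
      ∑ z, wt G m l s z * |Dl W R h s z - dl m l s z| with hNdef
    have hNν : N + lam ≤ ν := hN h s
    simp only [Ev_add, Ev_sub, Ev_mul_left, Ev_mul_right, Ev_const ok.hW] at hE
    rw [← hk, ← hNdef, ← sv_succ] at hE
    have hgs : g ^ (h + 1) = g ^ h * g := pow_succ g h
    have hgy : g * y = y + ν / η * y := by rw [hg]; ring
    have hνy : ν ≤ ν / η * y := by
      rw [div_mul_eq_mul_div, le_div_iff₀ hη]
      nlinarith
    have hcν : 0 ≤ c - ν / η := by
      rw [sub_nonneg, div_le_iff₀ hη]
      linarith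
    have hcy : 1 + c ≤ (c - ν / η) * y := by
      have h1 : (c - ν / η) * η ≤ (c - ν / η) * y := mul_le_mul_of_nonneg_left hyη hcν
      have h2 : (c - ν / η) * η = c * η - ν := by field_simp
      linarith
    have hfin : (1 + c) * (y * k + (1 - k) + N + lam) + (1 - k) * (g * y) ≤
        (1 + c) * (g * y) := by
      have h1 : (1 + c) * (y * k + (1 - k) + N + lam) ≤ (1 + c) * (y * k + (1 - k) + ν / η * y) :=
        mul_le_mul_of_nonneg_left (by linarith) (by linarith)
      have h2 : (1 - k) * (1 + c) ≤ (1 - k) * ((c - ν / η) * y) :=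
        mul_le_mul_of_nonneg_left hcy (by linarith)
      rw [hgy]
      nlinarith
    have hFg : 0 ≤ F * g ^ h := by positivity
    have h20 := mul_le_mul_of_nonneg_left hfin hFg
    rw [hgs] at hE ⊢
    have e1 : F * g ^ h * ((1 + c) * (y * k + (1 - k) + N + lam) + (1 - k) * (g * y)) =
        A1 * (y * k + (1 - k) + N + lam) + (1 - k) * (F * (g ^ h * g) * y) := by
      rw [hA1]; ring
    have e2 : F * g ^ h * ((1 + c) * (g * y)) = F * (1 + c) * (g ^ h * g) * y := by ring
    rw [e1, e2] at h20
    linarith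

end Game

end Crest.Agent.R288.GA0596
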