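import Crest.Agent.R288.GA2_596

/-!
# R288 [GA3, relative form]: variances and noise

* `next_varD`, `next_varX` : the variances of the next tier stay below `v ≥ 4 r² B²` (`4 ≤ m`).
* `noise` : the mean noise of an honest step is at most `√(|Z| v / m)`.
-/

set_option autoImplicit false

namespace Crest.Agent.R288.GA0596

open Finset Crest.Agent.R295.Rnd627 Crest.Agent.R295.Rnd627.RT Crest.Agent.R288.Med559

namespace Game

variable {St Z : Type} {G : Game St Z}

variable [Fintype Z] {W m : ℕ} {B δ δ' r η v lam : ℝ} {R : ℕ → RT (Tab St Z)}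

theorem Ev_dl_sqdev (ok : G.Ok W B δ δ' r η) (inv : G.Inv W R v lam) (hm : 0 < m) (h : ℕ) (s : St)
    (z : Z) : (reps m (R (h + 1))).Ev W (fun l => (dl m l s z - Dl W R h s z) ^ 2) ≤ v / m := by
  have h1 := Ev_mean_sqdev ok.hW hm (R (h + 1)) (fun t => t.V s z - t.X s)
  have h2 : (reps m (R (h + 1))).Ev W (fun l => (dl m l s z - Dl W R h s z) ^ 2) =
      (reps m (R (h + 1))).Ev W (fun l => (mean m l (fun t => t.V s z - t.X s) -
        (R (h + 1)).Ev W fun t => t.V s z - t.X s) ^ 2) := rfl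
  rw [h2, h1]
  exact div_le_div_of_nonneg_right (inv.varD h s z) (Nat.cast_nonneg _)

theorem v_div_le {v : ℝ} (hv : 0 ≤ v) (hm : 4 ≤ m) : v / m ≤ v / 4 := by
  refine div_le_div_of_nonneg_left hv (by norm_num) ?_
  exact_mod_cast hm

theorem next_varD (ok : G.Ok W B δ δ' r η) (inv : G.Inv W R v lam) (hm : 4 ≤ m) (hr : 1 ≤ r)
    (hv : 4 * r ^ 2 * B ^ 2 ≤ v) (h : ℕ) (s : St) (z : Z) :
    (G.next m R (h + 1)).Ev W (fun t => (t.V s z - t.X s -
      (G.next m R (h + 1)).Ev W fun t => t.V s z - t.X s) ^ 2) ≤ v := by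
  have hm0 : 0 < m := by omega
  have hv0 : 0 ≤ v := le_trans (by positivity) hv
  refine (Ev_sqdev_le ok.hW (G.next m R (h + 1)) (fun t => t.V s z - t.X s)
    (Dl W R h s z)).trans ?_
  rw [Ev_next]
  have h1 : (reps m (R (h + 1))).Ev W (fun l => draw.Ev W fun u =>
      (reps (G.kk h) (G.next m R h)).Ev W fun cs =>
        ((G.comb m h l u cs).V s z - (G.comb m h l u cs).X s - Dl W R h s z) ^ 2) ≤
      (reps m (R (h + 1))).Ev W fun l =>
        2 * (dl m l s z - Dl W R h s z) ^ 2 + 2 * (r * B) ^ 2 := by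
    refine Ev_mono_all ((All_GoodL (m := m) inv h).mono fun l hl => ?_)
    refine Ev_le_const ok.hW (All.of_forall fun u => Ev_le_const ok.hW
      ((All_reps (All_Y ok inv hm0 h) (G.kk h)).mono fun cs hcs => ?_))
    have hY := comb_YB (h := h) (u := u) ok hm0 hl hcs.2 s
    have hi0 := inc_nonneg (h := h) (u := u) ok hcs.2 s z
    have hi1 := inc_le (h := h) (u := u) ok hcs.2 s z
    have e : (G.comb m h l u cs).V s z - (G.comb m h l u cs).X s - Dl W R h s z =
        (dl m l s z - Dl W R h s z) + (G.inc h u cs s z - (G.comb m h l u cs).Y s) := by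
      simp only [comb]
      unfold dl
      rw [mean_sub]
      ring
    rw [e]
    have hBr : B ≤ r * B := by nlinarith [ok.hB]
    have h2 : (G.inc h u cs s z - (G.comb m h l u cs).Y s) ^ 2 ≤ (r * B) ^ 2 := by
      refine sq_le_sq' ?_ ?_
      · linarith [hY.2]
      · linarith [hY.1]
    nlinarith [sq_nonneg ((dl m l s z - Dl W R h s z) -
      (G.inc h u cs s z - (G.comb m h l u cs).Y s))]
  refine h1.trans ?_
  rw [Ev_add, Ev_const ok.hW, Ev_mul_left]
  have h3 := Ev_dl_sqdev ok inv hm0 h s z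
  have h4 := v_div_le (m := m) hv0 hm
  nlinarith

theorem next_varX (ok : G.Ok W B δ δ' r η) (inv : G.Inv W R v lam) (hm : 4 ≤ m) (hr : 1 ≤ r)
    (hv : 4 * r ^ 2 * B ^ 2 ≤ v) (h : ℕ) (s : St) :
    (G.next m R h).Ev W (fun t => (t.X s - tm W (G.next m R) h s) ^ 2) ≤ v := by
  have hm0 : 0 < m := by omega
  have hv0 : 0 ≤ v := le_trans (by positivity) hv
  cases h with
  | zero =>
    simp only [next_zero, Ev_ret, tm, sub_self]
    simpa using hv0
  | succ h =>
    refine (Ev_sqdev_le ok.hW (G.next m R (h + 1)) (fun t => t.X s)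
      (tm W R (h + 1) s)).trans ?_
    rw [Ev_next]
    have h1 : (reps m (R (h + 1))).Ev W (fun l => draw.Ev W fun u =>
        (reps (G.kk h) (G.next m R h)).Ev W fun cs =>
          ((G.comb m h l u cs).X s - tm W R (h + 1) s) ^ 2) ≤
        (reps m (R (h + 1))).Ev W fun l =>
          2 * (mean m l (fun t => t.X s) - tm W R (h + 1) s) ^ 2 + 2 * B ^ 2 := by
      refine Ev_mono_all ((All_GoodL (m := m) inv h).mono fun l hl => ?_)
      refine Ev_le_const ok.hW (All.of_forall fun u => Ev_le_const ok.hW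
        ((All_reps (All_Y ok inv hm0 h) (G.kk h)).mono fun cs hcs => ?_))
      have hY := comb_YB (h := h) (u := u) ok hm0 hl hcs.2 s
      have e : (G.comb m h l u cs).X s - tm W R (h + 1) s =
          (mean m l (fun t => t.X s) - tm W R (h + 1) s) + (G.comb m h l u cs).Y s := by
        simp only [comb]
        ring
      rw [e]
      have h2 : ((G.comb m h l u cs).Y s) ^ 2 ≤ B ^ 2 := by
        refine sq_le_sq' ?_ hY.2
        linarith [hY.1, ok.hB]
      nlinarith [sq_nonneg ((mean m l (fun t => t.X s) - tm W R (h + 1) s) -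
        (G.comb m h l u cs).Y s)]
    refine h1.trans ?_
    rw [Ev_add, Ev_const ok.hW, Ev_mul_left]
    have h3 : (reps m (R (h + 1))).Ev W (fun l =>
        (mean m l (fun t => t.X s) - tm W R (h + 1) s) ^ 2) ≤ v / m := by
      have h5 := Ev_mean_sqdev ok.hW hm0 (R (h + 1)) (fun t => t.X s)
      have h6 := inv.varX (h + 1) s
      unfold tm at h6 ⊢
      rw [h5]
      exact div_le_div_of_nonneg_right h6 (Nat.cast_nonneg _)
    have h4 := v_div_le (m := m) hv0 hm
    have h7 : B ^ 2 ≤ r ^ 2 * B ^ 2 := by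
      have : 1 ≤ r ^ 2 := one_le_pow₀ hr
      nlinarith [sq_nonneg B]
    nlinarith

/-- **the noise of an honest step** -/
theorem noise (ok : G.Ok W B δ δ' r η) (inv : G.Inv W R v lam) (hm : 0 < m) (h : ℕ) (s : St) :
    (reps m (R (h + 1))).Ev W (fun l => ∑ z, wt G m l s z * |Dl W R h s z - dl m l s z|) ≤
      Real.sqrt (Fintype.card Z * v / m) := by
  refine Real.le_sqrt_of_sq_le ((sq_Ev_le ok.hW _ _).trans ?_)
  have h1 : (reps m (R (h + 1))).Ev W (fun l =>
      (∑ z, wt G m l s z * |Dl W R h s z - dl m l s z|) ^ 2) ≤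
      (reps m (R (h + 1))).Ev W fun l => ∑ z, (dl m l s z - Dl W R h s z) ^ 2 := by
    refine Ev_mono_all ((All_GoodL (m := m) inv h).mono fun l hl => ?_)
    have h2 := Finset.sum_mul_sq_le_sq_mul_sq univ (fun z => wt G m l s z)
      (fun z => |Dl W R h s z - dl m l s z|)
    refine h2.trans ?_
    have h3 := wt_sum_le_one ok hm hl s
    have h4 : ∑ z, wt G m l s z ^ 2 ≤ 1 := by
      refine le_trans (Finset.sum_le_sum fun z _ => ?_) h3
      have h5 : wt G m l s z ≤ ∑ z, wt G m l s z :=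
        Finset.single_le_sum (f := fun z => wt G m l s z)
          (fun z _ => wt_nonneg ok l s z) (Finset.mem_univ z)
      have h6 := wt_nonneg (m := m) ok l s z
      nlinarith
    have h7 : ∑ z, |Dl W R h s z - dl m l s z| ^ 2 = ∑ z, (dl m l s z - Dl W R h s z) ^ 2 :=
      Finset.sum_congr rfl fun z _ => by rw [sq_abs]; ring
    rw [h7]
    have h8 : 0 ≤ ∑ z, (dl m l s z - Dl W R h s z) ^ 2 :=
      Finset.sum_nonneg fun z _ => sq_nonneg _
    nlinarith
  refine h1.trans ?_
  rw [Ev_sum]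
  have h9 := Finset.sum_le_sum fun z (_ : z ∈ (univ : Finset Z)) => Ev_dl_sqdev ok inv hm h s z
  rw [Finset.sum_const, card_univ, nsmul_eq_mul] at h9
  rw [mul_div_assoc]
  exact h9

end Game

end Crest.Agent.R288.GA0596
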