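import Crest.Agent.R288.GA3_596

/-!
# R288 [GA4]: the tier theorem (relative, rounded form of #2262 with the sup-gap proof #3700)

* `tier_inv` : every tier satisfies the invariant.
* `ratio_step`, `tier_ratio` : the gap in ratio form, `F ↦ F / (1 + D / (w η))` per tier.
* `tier_main` : the final statement (upper bound, soundness, variance, Chebyshev).
-/

set_option autoImplicit false

namespace Crest.Agent.R288.GA0596

open Finset Crest.Agent.R295.Rnd627 Crest.Agent.R295.Rnd627.RT Crest.Agent.R288.Med559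

namespace Game

variable {St Z : Type} {G : Game St Z}

variable [Fintype Z] {W m : ℕ} {B δ δ' r η v lam : ℝ} {R : ℕ → RT (Tab St Z)}

/-- every tier satisfies the invariant -/
theorem tier_inv (ok : G.Ok W B δ δ' r η) (hm : 4 ≤ m) (hr : 1 ≤ r) (hv : 4 * r ^ 2 * B ^ 2 ≤ v)
    (i : ℕ) : G.Inv W (G.tier W m i) v (i * δ') := by
  induction i with
  | zero =>
    have h0 : (0 : ℝ) ≤ v := le_trans (by positivity) hv
    simpa [tier] using tier0_inv ok h0
  | succ i ih =>
    have h1 := next_inv ok ih (by omega) (next_varD ok ih hm hr hv) (next_varX ok ih hm hr hv)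
    have e : ((i + 1 : ℕ) : ℝ) * δ' = i * δ' + δ' := by push_cast; ring
    rw [e]
    exact h1

/-- one step of the sup-gap recursion, in ratio form -/
theorem ratio_step (ok : G.Ok W B δ δ' r η) (inv : G.Inv W R v lam) (hm : 0 < m)
    (hlam : 0 ≤ lam)
    {U : ℕ → St → ℝ} {H : ℕ} {F c ν D w ε : ℝ} (hε : 0 < ε) (hF : 1 + ε ≤ F) (hν : 0 ≤ ν)
    (hc0 : 0 ≤ c) (hc : ν + 1 + c ≤ c * η) (hD : 0 ≤ D) (hw : 0 < w)
    (hU0 : ∀ s, U 0 s ≤ η + G.x0 0 s)
    (hU1 : ∀ h s z, U (h + 1) s ≤ G.cb s z - η * (G.rho s z - 1) +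
      G.rho s z * G.av W h s z (U h))
    (hN : Real.sqrt (Fintype.card Z * v / m) + lam ≤ ν)
    (hR : ∀ h ≤ H, ∀ s, (1 + ν / η) ^ h * (η + tm W R h s) ≤ w * η)
    (hcond : (1 + ε) * (c + D / (w * η)) ≤
      ε * ((Real.exp (-(D + δ * H)) - Real.exp (-B)) / w))
    (hT : ∀ h ≤ H, ∀ s, U h s ≤ F * (1 + ν / η) ^ h * (η + tm W R h s)) :
    ∀ h ≤ H, ∀ s, U h s ≤
      (1 / (1 + D / (w * η))) * F * (1 + ν / η) ^ h * (η + tm W (G.next m R) h s) := by
  intro h hh s
  have hη := ok.hη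
  have hF0 : 0 < F := by linarith
  set t := D / (w * η) with ht
  have ht0 : 0 ≤ t := div_nonneg hD (mul_pos hw hη).le
  set g := 1 + ν / η with hg
  have hg1 : 1 ≤ g := by
    have : 0 ≤ ν / η := div_nonneg hν hη.le
    linarith
  have hgh : 1 ≤ g ^ h := one_le_pow₀ hg1
  set T := tm W R h s with hTdef
  have hT0 : 0 ≤ T := (ok.x0_nonneg h s).trans (inv.x0_le h s)
  set d := dd G W m R h s with hd
  have hd0 : 0 ≤ d := dd_nonneg ok inv hm h s
  have hnext : tm W (G.next m R) h s = T + d := tm_next ok inv hm h s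
  rw [hnext]
  have hRh := hR h hh s
  have hηT : 0 < η + T := by linarith
  have hle : η + T ≤ w * η := by
    refine le_trans ?_ hRh
    nlinarith
  rcases lt_or_ge D d with hcase | hcase
  · -- skip
    have h1 : (η + T) * (1 + t) ≤ η + (T + d) := by
      have h2 : (η + T) * t ≤ D := by
        rw [ht, ← mul_div_assoc, div_le_iff₀ (mul_pos hw hη)]
        nlinarith
      linarith
    have h3 : η + T ≤ (1 / (1 + t)) * (η + (T + d)) := by
      rw [one_div, inv_mul_eq_div, le_div_iff₀ (by linarith)]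
      exact h1
    calc U h s ≤ F * g ^ h * (η + T) := hT h hh s
      _ ≤ F * g ^ h * ((1 / (1 + t)) * (η + (T + d))) :=
          mul_le_mul_of_nonneg_left h3 (by positivity)
      _ = 1 / (1 + t) * F * g ^ h * (η + (T + d)) := by ring
  · -- phase
    have h1 := gap ok inv hm hlam (le_trans (by linarith) hF) hν hc0 hc hU0 hU1
      (fun h s => (add_le_add_left (noise ok inv hm h s) lam).trans hN) hT h hh s
    have hsv : Real.exp (-(D + δ * H)) - Real.exp (-B) ≤ sv G W m R h s := by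
      have h2 := surv ok inv hm h s
      have h3 : Real.exp (-d) ≤ (G.next m R h).Ev W (fun t => Real.exp (-t.Y s)) :=
        exp_neg_Ev_le ok.hW (G.next m R h) fun t => t.Y s
      have h4 : Real.exp (-(D + δ * H)) ≤ Real.exp (-(δ * h)) * Real.exp (-d) := by
        rw [← Real.exp_add]
        refine Real.exp_le_exp.2 ?_
        have : δ * (h : ℝ) ≤ δ * H := mul_le_mul_of_nonneg_left (by exact_mod_cast hh) ok.hδ
        linarith
      have h5 : Real.exp (-(δ * h)) * Real.exp (-d) ≤ sv G W m R h s + Real.exp (-B) := by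
        have h6 := mul_le_mul_of_nonneg_left (h3.trans h2) (Real.exp_pos (-(δ * h))).le
        have h7 : Real.exp (-(δ * h)) * (Real.exp (δ * h) * (sv G W m R h s + Real.exp (-B))) =
            sv G W m R h s + Real.exp (-B) := by
          rw [← mul_assoc, ← Real.exp_add, neg_add_cancel, Real.exp_zero, one_mul]
        rw [h7] at h6
        exact h6
      linarith
    set p := Real.exp (-(D + δ * H)) - Real.exp (-B) with hp
    have hθ : 1 - 1 / (1 + t) ≤ t := by
      rw [one_div, ← sub_nonneg]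
      have : t - (1 - (1 + t)⁻¹) = t ^ 2 / (1 + t) := by field_simp; ring
      rw [this]
      positivity
    set y := g ^ h * (η + T) with hy
    have hy0 : 0 < y := by positivity
    have hp0 : 0 ≤ p := by
      have h2 : 0 ≤ (1 + ε) * (c + t) := by positivity
      have h3 := h2.trans hcond
      have h4 := nonneg_of_mul_nonneg_right (a := ε) (b := p / w) h3 hε
      have h5 : p = p / w * w := by field_simp
      rw [h5]
      exact mul_nonneg h4 hw.le
    have h2 : F * (c + t) ≤ (F - 1) * (p / w) := by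
      have h3 : (F - 1) * (1 + ε) ≥ F * ε := by nlinarith
      have hpw : 0 ≤ p / w := div_nonneg hp0 hw.le
      have h4 : F * ((1 + ε) * (c + t)) ≤ F * (ε * (p / w)) :=
        mul_le_mul_of_nonneg_left hcond hF0.le
      have h5 : F * ε * (p / w) ≤ (F - 1) * (1 + ε) * (p / w) :=
        mul_le_mul_of_nonneg_right h3 hpw
      have h6 : (1 + ε) * (F * (c + t)) ≤ (1 + ε) * ((F - 1) * (p / w)) := by
        calc (1 + ε) * (F * (c + t)) = F * ((1 + ε) * (c + t)) := by ring
          _ ≤ F * (ε * (p / w)) := h4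
          _ = F * ε * (p / w) := by ring
          _ ≤ (F - 1) * (1 + ε) * (p / w) := h5
          _ = (1 + ε) * ((F - 1) * (p / w)) := by ring
      exact le_of_mul_le_mul_left h6 (by linarith)
    have h7 : (p / w) * y ≤ η * p := by
      rw [div_mul_eq_mul_div, div_le_iff₀ hw]
      calc p * y ≤ p * (w * η) := mul_le_mul_of_nonneg_left hRh hp0
        _ = η * p * w := by ring
    have h8 : (F - 1) * ((p / w) * y) ≤ (F - 1) * η * sv G W m R h s := by
      have h9 : (F - 1) * ((p / w) * y) ≤ (F - 1) * (η * p) :=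
        mul_le_mul_of_nonneg_left h7 (by linarith)
      have h10 : (F - 1) * (η * p) ≤ (F - 1) * (η * sv G W m R h s) :=
        mul_le_mul_of_nonneg_left (mul_le_mul_of_nonneg_left hsv hη.le) (by linarith)
      linarith
    have h11 : F * (1 + c) * g ^ h * (η + T) = F * (1 + c) * y := by rw [hy]; ring
    rw [h11] at h1
    have h12 : F * (1 + c) - (F - 1) * (p / w) ≤ 1 / (1 + t) * F := by
      have h14 : F * (1 - 1 / (1 + t)) ≤ F * t := mul_le_mul_of_nonneg_left hθ hF0.le
      have h15 : F * (1 - 1 / (1 + t)) = F - 1 / (1 + t) * F := by ring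
      have h16 : F * (c + t) = F * c + F * t := by ring
      have h17 : F * (1 + c) = F + F * c := by ring
      linarith
    have h13 : U h s ≤ (F * (1 + c) - (F - 1) * (p / w)) * y := by
      have : (F * (1 + c) - (F - 1) * (p / w)) * y =
        F * (1 + c) * y - (F - 1) * ((p / w) * y) := by ring
      linarith
    calc U h s ≤ (F * (1 + c) - (F - 1) * (p / w)) * y := h13
      _ ≤ (1 / (1 + t) * F) * y := mul_le_mul_of_nonneg_right h12 hy0.le
      _ = 1 / (1 + t) * F * g ^ h * (η + T) := by rw [hy]; ring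
      _ ≤ 1 / (1 + t) * F * g ^ h * (η + (T + d)) := by
          refine mul_le_mul_of_nonneg_left (by linarith) ?_
          have : 0 < 1 + t := by linarith
          positivity

/-- **the gap after `i` tiers, in ratio form** -/
theorem tier_ratio (ok : G.Ok W B δ δ' r η) (hm : 4 ≤ m) (hr : 1 ≤ r)
    (hv : 4 * r ^ 2 * B ^ 2 ≤ v) {U Gs : ℕ → St → ℝ} {H P : ℕ} {F0 c ν D w ε : ℝ} (hε : 0 < ε)
    (hν : 0 ≤ ν) (hc0 : 0 ≤ c) (hc : ν + 1 + c ≤ c * η) (hD : 0 ≤ D) (hw : 0 < w)
    (hU0 : ∀ s, U 0 s ≤ η + G.x0 0 s)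
    (hU1 : ∀ h s z, U (h + 1) s ≤ G.cb s z - η * (G.rho s z - 1) +
      G.rho s z * G.av W h s z (U h))
    (hN : Real.sqrt (Fintype.card Z * v / m) + P * δ' ≤ ν)
    (hG0 : ∀ s, G.x0 0 s ≤ Gs 0 s)
    (hG1 : ∀ h s, (smin (G.pr s) fun z => G.cb s z + G.rho s z * G.av W h s z (Gs h)) ≤
      Gs (h + 1) s)
    (hR : ∀ h ≤ H, ∀ s, (1 + ν / η) ^ h * (η + Gs h s) ≤ w * η)
    (hcond : (1 + ε) * (c + D / (w * η)) ≤
      ε * ((Real.exp (-(D + δ * H)) - Real.exp (-B)) / w))
    (hF : ∀ h ≤ H, ∀ s, U h s ≤ F0 * (η + G.x0 h s)) (hF0 : 0 ≤ F0) (i : ℕ) (hi : i ≤ P) :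
    ∀ h ≤ H, ∀ s, U h s ≤ max (1 + ε) ((1 / (1 + D / (w * η))) ^ i * F0) *
      (1 + ν / η) ^ h * (η + tm W (G.tier W m i) h s) := by
  have hη := ok.hη
  have hg1 : 1 ≤ 1 + ν / η := by
    have : 0 ≤ ν / η := div_nonneg hν hη.le
    linarith
  have ht0 : 0 ≤ D / (w * η) := div_nonneg hD (mul_pos hw hη).le
  set θ := 1 / (1 + D / (w * η)) with hθ
  have hθ0 : 0 ≤ θ := by rw [hθ]; positivity
  have hθ1 : θ ≤ 1 := by
    rw [hθ, div_le_one (by linarith)]
    linarith
  induction i with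
  | zero =>
    intro h hh s
    have h1 := hF h hh s
    have h2 : 0 ≤ η + G.x0 h s := by
      have := ok.x0_nonneg h s
      linarith
    have h3 : η + G.x0 h s ≤ η + tm W (G.tier W m 0) h s := by
      have := (tier_inv ok hm hr hv 0).x0_le h s
      linarith
    have h4 : F0 ≤ max (1 + ε) (θ ^ 0 * F0) := by
      rw [pow_zero, one_mul]
      exact le_max_right _ _
    have h5 : F0 ≤ max (1 + ε) (θ ^ 0 * F0) * (1 + ν / η) ^ h := by
      have h6 : 1 ≤ (1 + ν / η) ^ h := one_le_pow₀ hg1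
      nlinarith
    calc U h s ≤ F0 * (η + G.x0 h s) := h1
      _ ≤ F0 * (η + tm W (G.tier W m 0) h s) := mul_le_mul_of_nonneg_left h3 hF0
      _ ≤ max (1 + ε) (θ ^ 0 * F0) * (1 + ν / η) ^ h * (η + tm W (G.tier W m 0) h s) :=
        mul_le_mul_of_nonneg_right h5 (by linarith)
  | succ i ih =>
    have ihi := ih (by omega)
    have inv := tier_inv ok hm hr hv i
    intro h hh s
    have h1 := ratio_step ok inv (show 0 < m by omega)
      (mul_nonneg (Nat.cast_nonneg _) ok.hδ') (F := max (1 + ε) (θ ^ i * F0)) hε (le_max_left _ _)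
      hν hc0 hc hD hw hU0 hU1 (by
        refine le_trans (add_le_add_right ?_ _) hN
        exact mul_le_mul_of_nonneg_right (by exact_mod_cast (by omega : i ≤ P)) ok.hδ')
      (fun h hh s => by
        refine le_trans (mul_le_mul_of_nonneg_left ?_ (by positivity)) (hR h hh s)
        have := tm_le_super ok inv hG0 hG1 h s
        linarith) hcond ihi h hh s
    rw [← hθ] at h1
    refine h1.trans ?_
    have inv' := tier_inv ok hm hr hv (i + 1)
    have h2 : 0 ≤ η + tm W (G.next m (G.tier W m i)) h s := by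
      have h3 := inv'.x0_le h s
      have h4 := ok.x0_nonneg h s
      have h5 : tm W (G.tier W m (i + 1)) h s = tm W (G.next m (G.tier W m i)) h s := rfl
      linarith
    have h6 : θ * max (1 + ε) (θ ^ i * F0) ≤ max (1 + ε) (θ ^ (i + 1) * F0) := by
      rw [mul_max_of_nonneg _ _ hθ0]
      refine max_le_max ?_ (le_of_eq (by ring))
      nlinarith
    have h7 : (0 : ℝ) ≤ (1 + ν / η) ^ h := by positivity
    exact mul_le_mul_of_nonneg_right (mul_le_mul_of_nonneg_right h6 h7) h2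

/-- **the tier theorem**: after `P ≥ F0 w η / D` tiers the mean promise is right up to the factor
`(1 + ε) (1 + ν / η) ^ H`, and one sample concentrates around the mean promise -/
theorem tier_main (ok : G.Ok W B δ δ' r η) (hm : 4 ≤ m) (hr : 1 ≤ r)
    (hv : 4 * r ^ 2 * B ^ 2 ≤ v) {U Gs : ℕ → St → ℝ} {H P : ℕ} {F0 c ν D w ε : ℝ} (hε : 0 < ε)
    (hν : 0 ≤ ν) (hc0 : 0 ≤ c) (hc : ν + 1 + c ≤ c * η) (hD : 0 ≤ D) (hw : 0 < w)
    (hU0 : ∀ s, U 0 s ≤ η + G.x0 0 s)
    (hU1 : ∀ h s z, U (h + 1) s ≤ G.cb s z - η * (G.rho s z - 1) +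
      G.rho s z * G.av W h s z (U h))
    (hN : Real.sqrt (Fintype.card Z * v / m) + P * δ' ≤ ν)
    (hG0 : ∀ s, G.x0 0 s ≤ Gs 0 s)
    (hG1 : ∀ h s, (smin (G.pr s) fun z => G.cb s z + G.rho s z * G.av W h s z (Gs h)) ≤
      Gs (h + 1) s)
    (hR : ∀ h ≤ H, ∀ s, (1 + ν / η) ^ h * (η + Gs h s) ≤ w * η)
    (hcond : (1 + ε) * (c + D / (w * η)) ≤
      ε * ((Real.exp (-(D + δ * H)) - Real.exp (-B)) / w))
    (hF : ∀ h ≤ H, ∀ s, U h s ≤ F0 * (η + G.x0 h s)) (hF0 : 0 ≤ F0)
    (hP : F0 * (w * η) ≤ P * D) :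
    (∀ h ≤ H, ∀ s, U h s ≤ (1 + ε) * (1 + ν / η) ^ h * (η + tm W (G.tier W m P) h s)) ∧
    (∀ h s, tm W (G.tier W m P) h s ≤ Gs h s) ∧
    (∀ h s, 0 ≤ tm W (G.tier W m P) h s) ∧
    (∀ h s, (G.tier W m P h).Ev W (fun t => (t.X s - tm W (G.tier W m P) h s) ^ 2) ≤ v) ∧
    ∀ h s, ∀ a > 0, (G.tier W m P h).Pr W (fun t => a ≤ |t.X s - tm W (G.tier W m P) h s|) ≤
      v / a ^ 2 := by
  have inv := tier_inv ok hm hr hv P
  have hη := ok.hη
  refine ⟨fun h hh s => ?_, fun h s => tm_le_super ok inv hG0 hG1 h s,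
    fun h s => (ok.x0_nonneg h s).trans (inv.x0_le h s), inv.varX, fun h s a ha => ?_⟩
  · have h1 := tier_ratio ok hm hr hv hε hν hc0 hc hD hw hU0 hU1 hN hG0 hG1 hR hcond hF hF0 P
      le_rfl h hh s
    have ht0 : 0 ≤ D / (w * η) := div_nonneg hD (mul_pos hw hη).le
    have h2 : (1 / (1 + D / (w * η))) ^ P * F0 ≤ 1 := by
      have h3 : 1 + P * (D / (w * η)) ≤ (1 + D / (w * η)) ^ P :=
        one_add_mul_le_pow (by linarith) P
      have h4 : F0 ≤ P * (D / (w * η)) := by
        rw [← mul_div_assoc, le_div_iff₀ (mul_pos hw hη)]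
        exact hP
      have h5 : (0 : ℝ) < (1 + D / (w * η)) ^ P := by positivity
      rw [one_div, inv_pow, inv_mul_eq_div, div_le_one h5]
      linarith
    have h6 : max (1 + ε) ((1 / (1 + D / (w * η))) ^ P * F0) = 1 + ε :=
      max_eq_left (by linarith)
    rw [h6] at h1
    exact h1
  · refine (chebyshev ha).trans ?_
    exact div_le_div_of_nonneg_right (inv.varX h s) (by positivity)

end Game

end Crest.Agent.R288.GA0596
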