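import Mathlib
import Crest.Agent.R288.NodeA_785

/-!
# R288 (S0433), leaf [Gm], second part: rounding of the cuts

`pc L pol h j u v`: cost of the node `(h, j)` between the diagonals `u` and `v` when every cut is
chosen by the rule `pol` and the blocks of height `0` are paid by `L`.

* `gn_le_pc`: every rule costs at least `gn` (if the leaves are paid honestly);
* `exists_pc_le`: if at every node every cut `w'` may be replaced by an allowed cut `w` with
  `|w - w'| ≤ r h`, some allowed rule costs at most `gn + err e r h`, where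
  `err e r (h + 1) = 2 err e r h + 2 r h`, i.e. `err e r h = 2 ^ h e + Σ_{i<h} 2 ^ (h - i) r i`;
* `gn_le_of_step`, `le_gn_of_step`: the same for a function `V` which satisfies the recursion
  inequalities (e.g. the table computed by dynamic programming);
* the class of states `St` is arbitrary (windows); `le_gn_of_step` only asks for rounding of the
  optimal cuts, which lie within the cost of the block of `u` and of `v` (`Near`);
* everything also starts at an arbitrary height `h₀` (blocks of `2 ^ h₀` letters as leaves).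
-/

set_option autoImplicit false

namespace Crest.Agent.R288.GameB224

open Crest.GraphRAM Crest.Agent.R288.Ed Crest.Agent.R288.GameA347 Crest.Agent.R288.NodeA785

/-! ### the accumulated error -/

/-- accumulated rounding error: `e` per leaf, `r h` for the position of a cut of a node of height
`h + 1` (paid once on each side) -/
def err (e : ℝ) (r : ℕ → ℝ) : ℕ → ℝ
  | 0 => e
  | h + 1 => 2 * err e r h + 2 * r h

theorem err_succ (e : ℝ) (r : ℕ → ℝ) (h : ℕ) : err e r (h + 1) = 2 * err e r h + 2 * r h := rfl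

theorem err_eq (e : ℝ) (r : ℕ → ℝ) (h : ℕ) :
    err e r h = 2 ^ h * e + ∑ i ∈ Finset.range h, 2 ^ (h - i) * r i := by
  induction h with
  | zero => simp [err]
  | succ h ih =>
    rw [err, ih, Finset.sum_range_succ, mul_add, Finset.mul_sum]
    have : ∑ i ∈ Finset.range h, 2 * (2 ^ (h - i) * r i) =
        ∑ i ∈ Finset.range h, 2 ^ (h + 1 - i) * r i := by
      refine Finset.sum_congr rfl fun i hi => ?_
      have hi' : i < h := Finset.mem_range.1 hi
      rw [show h + 1 - i = (h - i) + 1 by omega, pow_succ]; ring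
    rw [this, show h + 1 - h = 1 by omega]
    ring

theorem err_nonneg {e : ℝ} {r : ℕ → ℝ} (he : 0 ≤ e) (hr : ∀ h, 0 ≤ r h) (h : ℕ) :
    0 ≤ err e r h := by
  induction h with
  | zero => exact he
  | succ h ih => rw [err_succ]; have := hr h; linarith

theorem err_mono {e e' : ℝ} {r r' : ℕ → ℝ} (he : e ≤ e') (hr : ∀ h, r h ≤ r' h) (h : ℕ) :
    err e r h ≤ err e' r' h := by
  induction h with
  | zero => exact he
  | succ h ih => rw [err_succ, err_succ]; have := hr h; linarith

/-- steps proportional to the length of the block: `r h = c 2 ^ h` costs `c 2 ^ h` per level -/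
theorem err_pow (e c : ℝ) (h : ℕ) : err e (fun i => c * 2 ^ i) h = 2 ^ h * (e + h * c) := by
  induction h with
  | zero => simp [err]
  | succ h ih => rw [err, ih]; push_cast; ring

theorem err_le_pow {e c : ℝ} {r : ℕ → ℝ} {H : ℕ} (hr : ∀ i < H, r i ≤ c * 2 ^ i) {h : ℕ}
    (hh : h ≤ H) : err e r h ≤ 2 ^ h * (e + h * c) := by
  rw [← err_pow]
  induction h with
  | zero => exact le_rfl
  | succ h ih =>
    have := ih (by omega)
    have h2 := hr h (by omega)
    rw [err_succ, err_succ]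
    linarith

/-! ### rules -/

/-- the cost of the node `(h, j)` between the diagonals `u` and `v` when all cuts are chosen by the
rule `pol` and the leaves are paid by `L` -/
def pc (L : ℕ → ℤ → ℤ → ℝ) (pol : ℕ → ℕ → ℤ → ℤ → ℤ) : ℕ → ℕ → ℤ → ℤ → ℝ
  | 0, j, u, v => L j u v
  | h + 1, j, u, v =>
      pc L pol h (2 * j) u (pol h j u v) + pc L pol h (2 * j + 1) (pol h j u v) v

variable (x y : List ℕ)

/-- every rule costs at least the cost of the node -/
theorem gn_le_pc {L : ℕ → ℤ → ℤ → ℝ} (hL : ∀ j u v, (gn x y 0 j u v : ℝ) ≤ L j u v)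
    (pol : ℕ → ℕ → ℤ → ℤ → ℤ) (h j : ℕ) (u v : ℤ) :
    (gn x y h j u v : ℝ) ≤ pc L pol h j u v := by
  induction h generalizing j u v with
  | zero => exact hL j u v
  | succ h ih =>
    unfold pc
    have h1 := gn_split_le x y h j u v (pol h j u v)
    have h2 := ih (2 * j) u (pol h j u v)
    have h3 := ih (2 * j + 1) (pol h j u v) v
    have h4 : (gn x y (h + 1) j u v : ℝ) ≤
        gn x y h (2 * j) u (pol h j u v) + gn x y h (2 * j + 1) (pol h j u v) v := by
      exact_mod_cast h1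
    linarith

/-- the same, leaves of height `h₀` -/
theorem gn_le_pc' (h₀ : ℕ) {L : ℕ → ℤ → ℤ → ℝ} (hL : ∀ j u v, (gn x y h₀ j u v : ℝ) ≤ L j u v)
    (pol : ℕ → ℕ → ℤ → ℤ → ℤ) (h j : ℕ) (u v : ℤ) :
    (gn x y (h₀ + h) j u v : ℝ) ≤ pc L pol h j u v := by
  induction h generalizing j u v with
  | zero => exact hL j u v
  | succ h ih =>
    unfold pc
    have h1 := gn_split_le x y (h₀ + h) j u v (pol h j u v)
    have h2 := ih (2 * j) u (pol h j u v)
    have h3 := ih (2 * j + 1) (pol h j u v) v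
    have h4 : (gn x y (h₀ + h + 1) j u v : ℝ) ≤
        gn x y (h₀ + h) (2 * j) u (pol h j u v) + gn x y (h₀ + h) (2 * j + 1) (pol h j u v) v := by
      exact_mod_cast h1
    rw [← Nat.add_assoc]
    linarith

/-! ### the table form -/

/-- lower bound: a table whose entries are costs of rules (leaf cost, or sum over SOME cut) -/
theorem gn_le_of_step (h₀ : ℕ) {V : ℕ → ℕ → ℤ → ℤ → ℝ} {St : ℕ → ℕ → ℤ → ℤ → Prop}
    (h0 : ∀ j u v, St 0 j u v → (gn x y h₀ j u v : ℝ) ≤ V 0 j u v)
    (h1 : ∀ h j u v, St (h + 1) j u v → (∃ w, St h (2 * j) u w ∧ St h (2 * j + 1) w v ∧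
      V h (2 * j) u w + V h (2 * j + 1) w v ≤ V (h + 1) j u v) ∨
        (gn x y (h₀ + (h + 1)) j u v : ℝ) ≤ V (h + 1) j u v)
    (h j : ℕ) (u v : ℤ) (hs : St h j u v) :
    (gn x y (h₀ + h) j u v : ℝ) ≤ V h j u v := by
  induction h generalizing j u v with
  | zero => exact h0 j u v hs
  | succ h ih =>
    rcases h1 h j u v hs with ⟨w, hl, hr, hw⟩ | hw
    · have h3 := ih (2 * j) u w hl
      have h4 := ih (2 * j + 1) w v hr
      have h5 : (gn x y (h₀ + h + 1) j u v : ℝ) ≤
          gn x y (h₀ + h) (2 * j) u w + gn x y (h₀ + h) (2 * j + 1) w v := by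
        exact_mod_cast gn_split_le x y (h₀ + h) j u v w
      rw [← Nat.add_assoc]
      linarith
    · exact hw

/-- `w` is a possible optimal cut of the node `(h + 1, j)` between `u` and `v` -/
def Near (h j : ℕ) (u v w : ℤ) : Prop :=
  Adm y.length (lo x.length h (2 * j + 1)) w ∧
    gn x y (h + 1) j u v = gn x y h (2 * j) u w + gn x y h (2 * j + 1) w v

theorem exists_near (h j : ℕ) (u v : ℤ) : ∃ w, Near x y h j u v w := exists_gn_split x y h j u v

/-- an optimal cut that moreover respects the costs: `|u - w| + |w - v| ≤ gn` -/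
def NearW (h j : ℕ) (u v w : ℤ) : Prop :=
  Near x y h j u v w ∧ (u - w).natAbs ≤ gn x y h (2 * j) u w ∧
    (w - v).natAbs ≤ gn x y h (2 * j + 1) w v ∧
    (u - w).natAbs + (w - v).natAbs ≤ gn x y (h + 1) j u v

theorem exists_nearW {h j : ℕ} {u v : ℤ} (hu : Adm y.length (lo x.length (h + 1) j) u)
    (hv : Adm y.length (hi x.length (h + 1) j) v) : ∃ w, NearW x y h j u v w := by
  obtain ⟨w, a, b, c, d, e⟩ := exists_gn_split_window x y h j hu hv
  exact ⟨w, ⟨a, b⟩, c, d, e⟩

/-- **upper bound, table form**: if at every state some optimal cut can be replaced by a cut at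
distance `≤ r h` for which the table satisfies the recursion inequality, the table is at most
`gn + err`. -/
theorem le_gn_of_step (h₀ : ℕ) {V : ℕ → ℕ → ℤ → ℤ → ℝ} {St : ℕ → ℕ → ℤ → ℤ → Prop} {e : ℝ}
    {r : ℕ → ℝ}
    (h0 : ∀ j u v, St 0 j u v → V 0 j u v ≤ gn x y h₀ j u v + e)
    (h1 : ∀ h j u v, St (h + 1) j u v → ∃ w' w, Near x y (h₀ + h) j u v w' ∧
      ((w - w').natAbs : ℝ) ≤ r h ∧ St h (2 * j) u w ∧ St h (2 * j + 1) w v ∧
      V (h + 1) j u v ≤ V h (2 * j) u w + V h (2 * j + 1) w v)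
    (h j : ℕ) (u v : ℤ) (hs : St h j u v) :
    V h j u v ≤ gn x y (h₀ + h) j u v + err e r h := by
  induction h generalizing j u v with
  | zero => exact h0 j u v hs
  | succ h ih =>
    obtain ⟨w', w, ⟨_, hw'⟩, hr, hl, hr', hV⟩ := h1 h j u v hs
    have h3 := ih (2 * j) u w hl
    have h4 := ih (2 * j + 1) w v hr'
    have h5 : (gn x y (h₀ + h) (2 * j) u w : ℝ) ≤
        gn x y (h₀ + h) (2 * j) u w' + (w - w').natAbs := by
      exact_mod_cast gn_lip_right x y (h₀ + h) (2 * j) u w w'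
    have h6 : (gn x y (h₀ + h) (2 * j + 1) w v : ℝ) ≤
        gn x y (h₀ + h) (2 * j + 1) w' v + (w - w').natAbs := by
      exact_mod_cast gn_lip_left x y (h₀ + h) (2 * j + 1) w w' v
    have h7 : (gn x y (h₀ + (h + 1)) j u v : ℝ) =
        gn x y (h₀ + h) (2 * j) u w' + gn x y (h₀ + h) (2 * j + 1) w' v := by
      rw [← Nat.add_assoc]
      exact_mod_cast hw'
    rw [h7, err_succ]
    linarith

/-- the table form with a multiplicative error `1 + c` per level on top of the rounding error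
(relative rounding, or the loss of an approximate minimum) -/
theorem le_mul_gn_of_step (h₀ : ℕ) {V : ℕ → ℕ → ℤ → ℤ → ℝ} {St : ℕ → ℕ → ℤ → ℤ → Prop} {e c : ℝ}
    {r : ℕ → ℝ} (hc : 0 ≤ c)
    (h0 : ∀ j u v, St 0 j u v → V 0 j u v ≤ gn x y h₀ j u v + e)
    (h1 : ∀ h j u v, St (h + 1) j u v → ∃ w' w, Near x y (h₀ + h) j u v w' ∧
      ((w - w').natAbs : ℝ) ≤ r h ∧ St h (2 * j) u w ∧ St h (2 * j + 1) w v ∧
      V (h + 1) j u v ≤ (1 + c) * (V h (2 * j) u w + V h (2 * j + 1) w v))
    (h j : ℕ) (u v : ℤ) (hs : St h j u v) :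
    V h j u v ≤ (1 + c) ^ h * (gn x y (h₀ + h) j u v + err e r h) := by
  induction h generalizing j u v with
  | zero => simpa [err] using h0 j u v hs
  | succ h ih =>
    obtain ⟨w', w, ⟨_, hw'⟩, hr, hl, hr', hV⟩ := h1 h j u v hs
    have h3 := ih (2 * j) u w hl
    have h4 := ih (2 * j + 1) w v hr'
    have h5 : (gn x y (h₀ + h) (2 * j) u w : ℝ) ≤
        gn x y (h₀ + h) (2 * j) u w' + (w - w').natAbs := by
      exact_mod_cast gn_lip_right x y (h₀ + h) (2 * j) u w w'
    have h6 : (gn x y (h₀ + h) (2 * j + 1) w v : ℝ) ≤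
        gn x y (h₀ + h) (2 * j + 1) w' v + (w - w').natAbs := by
      exact_mod_cast gn_lip_left x y (h₀ + h) (2 * j + 1) w w' v
    have h7 : (gn x y (h₀ + (h + 1)) j u v : ℝ) =
        gn x y (h₀ + h) (2 * j) u w' + gn x y (h₀ + h) (2 * j + 1) w' v := by
      rw [← Nat.add_assoc]
      exact_mod_cast hw'
    rw [h7]
    have hp : (0 : ℝ) ≤ (1 + c) ^ h := by positivity
    have h8 : V h (2 * j) u w + V h (2 * j + 1) w v ≤ (1 + c) ^ h *
        (gn x y (h₀ + h) (2 * j) u w' + gn x y (h₀ + h) (2 * j + 1) w' v + err e r (h + 1)) := by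
      have h9 : (1 + c) ^ h * ((gn x y (h₀ + h) (2 * j) u w : ℝ) + err e r h) +
          (1 + c) ^ h * ((gn x y (h₀ + h) (2 * j + 1) w v : ℝ) + err e r h) ≤ (1 + c) ^ h *
        (gn x y (h₀ + h) (2 * j) u w' + gn x y (h₀ + h) (2 * j + 1) w' v + err e r (h + 1)) := by
        rw [← mul_add]
        apply mul_le_mul_of_nonneg_left _ hp
        rw [err_succ]
        linarith
      linarith
    calc V (h + 1) j u v ≤ (1 + c) * (V h (2 * j) u w + V h (2 * j + 1) w v) := hV
      _ ≤ (1 + c) * ((1 + c) ^ h *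
        (gn x y (h₀ + h) (2 * j) u w' + gn x y (h₀ + h) (2 * j + 1) w' v + err e r (h + 1))) :=
          mul_le_mul_of_nonneg_left h8 (by linarith)
      _ = _ := by rw [pow_succ]; ring

/-! ### the rule form -/

/-- **upper bound, rule form**: if every optimal cut can be rounded to an allowed cut, some allowed
rule costs at most `gn + err` at every state of the class. -/
theorem exists_pc_le (h₀ : ℕ) {L : ℕ → ℤ → ℤ → ℝ} {St : ℕ → ℕ → ℤ → ℤ → Prop}
    {Al : ℕ → ℕ → ℤ → ℤ → ℤ → Prop} {e : ℝ} {r : ℕ → ℝ}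
    (h0 : ∀ j u v, St 0 j u v → L j u v ≤ gn x y h₀ j u v + e)
    (h1 : ∀ h j u v, St (h + 1) j u v → ∃ w' w, Near x y (h₀ + h) j u v w' ∧
      ((w - w').natAbs : ℝ) ≤ r h ∧ Al h j u v w ∧ St h (2 * j) u w ∧ St h (2 * j + 1) w v) :
    ∃ pol : ℕ → ℕ → ℤ → ℤ → ℤ,
      (∀ h j u v, St (h + 1) j u v → Al h j u v (pol h j u v) ∧ St h (2 * j) u (pol h j u v) ∧
        St h (2 * j + 1) (pol h j u v) v ∧
        ∃ w', Near x y (h₀ + h) j u v w' ∧ ((pol h j u v - w').natAbs : ℝ) ≤ r h) ∧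
      ∀ h j u v, St h j u v → pc L pol h j u v ≤ gn x y (h₀ + h) j u v + err e r h := by
  classical
  have h2 : ∀ h j u v, ∃ w, St (h + 1) j u v → Al h j u v w ∧ St h (2 * j) u w ∧
      St h (2 * j + 1) w v ∧
        ∃ w', Near x y (h₀ + h) j u v w' ∧ ((w - w').natAbs : ℝ) ≤ r h := by
    intro h j u v
    by_cases hs : St (h + 1) j u v
    · obtain ⟨w', w, a, b, c, d, f⟩ := h1 h j u v hs
      exact ⟨w, fun _ => ⟨c, d, f, w', a, b⟩⟩
    · exact ⟨0, fun h => absurd h hs⟩
  choose pol hpol using h2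
  refine ⟨pol, hpol, ?_⟩
  intro h j u v hs
  refine le_gn_of_step x y h₀ (V := pc L pol) (St := St) h0 ?_ h j u v hs
  intro h j u v hs
  obtain ⟨a, b, c, w', d, f⟩ := hpol h j u v hs
  exact ⟨w', pol h j u v, d, f, b, c, le_rfl⟩

/-! ### rounding to a lattice, windows -/

/-- the multiple of `s` next to `w` -/
def rnd (s : ℕ) (w : ℤ) : ℤ := s * ((w + (s / 2 : ℕ)) / s)

theorem rnd_dvd (s : ℕ) (w : ℤ) : (s : ℤ) ∣ rnd s w := Dvd.intro _ rfl

theorem rnd_spec {s : ℕ} (hs : 0 < s) (w : ℤ) : 2 * (rnd s w - w).natAbs ≤ s := by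
  have hs' : (0 : ℤ) < s := by exact_mod_cast hs
  obtain ⟨c, hc⟩ : ∃ c : ℤ, c = ((s / 2 : ℕ) : ℤ) := ⟨_, rfl⟩
  have hc2 : 2 * c ≤ s ∧ (s : ℤ) ≤ 2 * c + 1 := by omega
  have h1 := Int.mul_ediv_add_emod (w + c) s
  have h2 := Int.emod_nonneg (w + c) hs'.ne'
  have h3 := Int.emod_lt_of_pos (w + c) hs'
  have h5 : rnd s w = s * ((w + c) / s) := by rw [hc]; rfl
  rw [h5]
  generalize (s : ℤ) * ((w + c) / s) = A at *
  generalize (w + c) % s = B at *
  omega

/-- rounding does not leave a symmetric window whose radius is a multiple of `s` -/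
theorem rnd_window {s : ℕ} (hs : 0 < s) {w : ℤ} {K : ℕ} (h : |w| ≤ (s * K : ℕ)) :
    |rnd s w| ≤ (s * K : ℕ) := by
  have hs' : (0 : ℤ) < s := by exact_mod_cast hs
  obtain ⟨c, hc⟩ : ∃ c : ℤ, c = ((s / 2 : ℕ) : ℤ) := ⟨_, rfl⟩
  have h5 : rnd s w = s * ((w + c) / s) := by rw [hc]; rfl
  rw [h5]
  rw [abs_le] at h ⊢
  push_cast at h ⊢
  have hc0 : 0 ≤ c := by omega
  have hc1 : c < s := by omega
  have h7 : (-K : ℤ) ≤ (w + c) / s := by
    rw [Int.le_ediv_iff_mul_le hs']
    nlinarith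
  have h8 : (w + c) / s ≤ K := by
    have : (w + c) / (s : ℤ) < K + 1 := by
      rw [Int.ediv_lt_iff_lt_mul hs']
      nlinarith
    omega
  constructor
  · nlinarith
  · nlinarith

/-- a cut within the cost: if the costs are at most `c`, an optimal cut lies in the window of
radius `c` around `u` and around `v` -/
theorem NearW.window {h j : ℕ} {u v w : ℤ} (hw : NearW x y h j u v w) {c : ℕ}
    (hc : gn x y (h + 1) j u v ≤ c) : |u - w| ≤ c ∧ |w - v| ≤ c ∧ |u - w| + |w - v| ≤ c := by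
  obtain ⟨_, _, _, h4⟩ := hw
  have h5 : (u - w).natAbs + (w - v).natAbs ≤ c := h4.trans hc
  rw [← Int.natCast_natAbs, ← Int.natCast_natAbs]
  omega

/-- **rounding lemma, lattice form.** `St h j u v`: all admissible diagonals that are multiples of
`s h` (the lattice of the height; `s h ∣ s (h + 1)`), or equal to the fixed root ends `u₀`, `v₀`.
The optimum over cuts in the lattice `s h ℤ` exceeds `gn` by at most `err 0 (s / 2)`. -/
theorem exists_lattice_rule (h₀ : ℕ) (s : ℕ → ℕ) (hs : ∀ h, 0 < s h) {L : ℕ → ℤ → ℤ → ℝ} {e : ℝ}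
    (h0 : ∀ j u v, L j u v ≤ gn x y h₀ j u v + e) :
    ∃ pol : ℕ → ℕ → ℤ → ℤ → ℤ, (∀ h j u v, (s h : ℤ) ∣ pol h j u v) ∧
      ∀ h j u v, pc L pol h j u v ≤
        gn x y (h₀ + h) j u v + err e (fun i => (s i : ℝ) / 2) h := by
  obtain ⟨pol, h1, h2⟩ := exists_pc_le x y h₀ (L := L) (St := fun _ _ _ _ => True)
    (Al := fun h _ _ _ w => (s h : ℤ) ∣ w) (e := e) (r := fun i => (s i : ℝ) / 2)
    (fun j u v _ => h0 j u v) (by
      intro h j u v _
      obtain ⟨w', hw'⟩ := exists_near x y (h₀ + h) j u v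
      refine ⟨w', rnd (s h) w', hw', ?_, rnd_dvd _ _, trivial, trivial⟩
      have := rnd_spec (hs h) w'
      have h3 : (2 : ℝ) * (rnd (s h) w' - w').natAbs ≤ s h := by exact_mod_cast this
      linarith)
  exact ⟨pol, fun h j u v => (h1 h j u v trivial).1, fun h j u v => h2 h j u v trivial⟩

/-- **root form**: heights `h₀ + H`, leaves `L` exact up to `e`; there is a rule with all cuts in the
lattices whose cost at the root is at most `editDist x y + 2 ^ H e + Σ_{i<H} 2 ^ (H - i) s i / 2`;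
every rule costs at least `editDist x y`. -/
theorem exists_lattice_rule_root {h₀ H : ℕ} (hH : x.length ≤ 2 ^ (h₀ + H)) (s : ℕ → ℕ)
    (hs : ∀ h, 0 < s h) {L : ℕ → ℤ → ℤ → ℝ} {e : ℝ} (h0 : ∀ j u v, L j u v ≤ gn x y h₀ j u v + e) :
    ∃ pol : ℕ → ℕ → ℤ → ℤ → ℤ, (∀ h j u v, (s h : ℤ) ∣ pol h j u v) ∧
      pc L pol H 0 0 ((y.length : ℤ) - x.length) ≤ editDist x y + 2 ^ H * e +
        ∑ i ∈ Finset.range H, 2 ^ (H - i) * ((s i : ℝ) / 2) := by
  obtain ⟨pol, h1, h2⟩ := exists_lattice_rule x y h₀ s hs h0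
  refine ⟨pol, h1, ?_⟩
  have := h2 H 0 0 ((y.length : ℤ) - x.length)
  rw [gn_root x y hH, err_eq] at this
  linarith

theorem ed_le_pc_root {h₀ H : ℕ} (hH : x.length ≤ 2 ^ (h₀ + H)) {L : ℕ → ℤ → ℤ → ℝ}
    (h0 : ∀ j u v, (gn x y h₀ j u v : ℝ) ≤ L j u v) (pol : ℕ → ℕ → ℤ → ℤ → ℤ) :
    (editDist x y : ℝ) ≤ pc L pol H 0 0 ((y.length : ℤ) - x.length) := by
  have := gn_le_pc' x y h₀ h0 pol H 0 0 ((y.length : ℤ) - x.length)
  rwa [gn_root x y hH] at this

/-- **window lemma**: the class of states `|u|, |v| ≤ W` (both ends in the band) is left by no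
optimal cut if the cost of the root state is at most `W`: some optimal tree stays in the band.
Here in the form for the class of all descendants of a state of cost `≤ c`. -/
theorem band_step {h j : ℕ} {u v : ℤ} {c : ℕ}
    (hu : Adm y.length (lo x.length (h + 1) j) u) (hv : Adm y.length (hi x.length (h + 1) j) v)
    (hc : u.natAbs + gn x y (h + 1) j u v ≤ c) :
    ∃ w, NearW x y h j u v w ∧ Adm y.length (lo x.length h (2 * j + 1)) w ∧
      u.natAbs + gn x y h (2 * j) u w ≤ c ∧ w.natAbs + gn x y h (2 * j + 1) w v ≤ c := by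
  obtain ⟨w, hw⟩ := exists_nearW x y hu hv
  refine ⟨w, hw, hw.1.1, ?_, ?_⟩
  · have := hw.1.2
    omega
  · have h1 := hw.1.2
    have h2 := hw.2.1
    omega

/-- **band lemma, table form without rounding**: states with `|u| + gn ≤ c` and admissible ends.
It is enough that the table satisfies the recursion inequality for cuts inside the band
`|w| ≤ c`. -/
theorem le_gn_band (h₀ : ℕ) {V : ℕ → ℕ → ℤ → ℤ → ℝ} {e : ℝ} {c : ℕ}
    (h0 : ∀ j u v, u.natAbs ≤ c → v.natAbs ≤ c → Adm y.length (lo x.length h₀ j) u →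
      Adm y.length (hi x.length h₀ j) v → V 0 j u v ≤ gn x y h₀ j u v + e)
    (h1 : ∀ h j u v w, u.natAbs ≤ c → v.natAbs ≤ c → w.natAbs ≤ c →
      Adm y.length (lo x.length (h₀ + (h + 1)) j) u →
      Adm y.length (hi x.length (h₀ + (h + 1)) j) v →
      Adm y.length (lo x.length (h₀ + h) (2 * j + 1)) w →
      V (h + 1) j u v ≤ V h (2 * j) u w + V h (2 * j + 1) w v)
    (h j : ℕ) (u v : ℤ) (hu : Adm y.length (lo x.length (h₀ + h) j) u)
    (hv : Adm y.length (hi x.length (h₀ + h) j) v)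
    (hc : u.natAbs + gn x y (h₀ + h) j u v ≤ c) :
    V h j u v ≤ gn x y (h₀ + h) j u v + 2 ^ h * e := by
  induction h generalizing j u v with
  | zero =>
    have h2 := gn_ge x y h₀ j hu hv
    have := h0 j u v (by omega) (by have := hc; simp only [Nat.add_zero] at this; omega) hu hv
    simpa using this
  | succ h ih =>
    have h2 := gn_ge x y (h₀ + (h + 1)) j hu hv
    obtain ⟨w, hw, ha, hc1, hc2⟩ := band_step x y (h := h₀ + h) (j := j) (u := u) (v := v) (c := c)
      hu hv hc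
    have hl : Adm y.length (lo x.length (h₀ + h) (2 * j)) u := by rw [lo_succ]; exact hu
    have hr : Adm y.length (hi x.length (h₀ + h) (2 * j + 1)) v := by rw [hi_succ]; exact hv
    have hl' : Adm y.length (hi x.length (h₀ + h) (2 * j)) w := by rw [hi_left]; exact ha
    have h3 := ih (2 * j) u w hl hl' hc1
    have h4 := ih (2 * j + 1) w v ha hr hc2
    have h5 := h1 h j u v w (by omega) (by omega) (by omega) hu hv ha
    have h6 : (gn x y (h₀ + (h + 1)) j u v : ℝ) =
        gn x y (h₀ + h) (2 * j) u w + gn x y (h₀ + h) (2 * j + 1) w v := by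
      rw [← Nat.add_assoc]
      exact_mod_cast hw.1.2
    rw [h6, pow_succ]
    linarith

end Crest.Agent.R288.GameB224
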