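/-
# Row 288, [GEO] (helper105), ALG v2.2: the window of a state of a cell reads requested cells only

On `Cel_734` (cells, requests), `DomB_20` (domain), `XB_715` (`EndOk`).
* `natAbs_rdn_le`, `inC_own`, `exists_pos`       : own pair lies in its cell; every grid point is a letter;
* `pos_cell`, `piece_u_mem`, `npiece_u_mem`      : first diagonals of the pieces of a state of a cell;
* `key_mem_bkeys`, `key_not_mem_bkeys`, `spw_inactive` : the requests read by `spw` are made iff the residue is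
  active;
* `endOk_piece`, `endOk_npiece`, **`hgeo`**      : the geometric input of `BodyM79.body_ms`.
-/
import Crest.Agent.R288.Cel_734
import Crest.Agent.R288.DomB_20
import Crest.Agent.R288.XB_715

set_option autoImplicit false

namespace Crest.Agent.R288.Geo105

open Crest.Agent.R288.Alg45 Crest.Agent.R288.Cel734

variable (P : Par)

/-! ## Grid facts -/

/-- rounding does not pass a grid point -/
theorem le_rd {κ : ℕ} {b u : ℤ} (hb : (gst P κ : ℤ) ∣ b) (h : b ≤ u) : b ≤ rd P κ u := by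
  have := rd_mono P (κ := κ) h
  rwa [rd_eq_self P hb] at this

/-- a grid point strictly below another one is below by a step -/
theorem add_gst_le {κ : ℕ} {a b : ℤ} (ha : (gst P κ : ℤ) ∣ a) (hb : (gst P κ : ℤ) ∣ b) (h : a < b) :
    a + (gst P κ : ℤ) ≤ b := by
  have hg := gstZ_pos P κ
  have h1 : (gst P κ : ℤ) ∣ b - a := dvd_sub hb ha
  have := Int.le_of_dvd (by omega) h1
  omega

/-- displacement of a rounded state -/
theorem natAbs_rdn_le (κ : ℕ) (y : St) :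
    ((rdn P κ y).v - (rdn P κ y).u).natAbs + 1 ≤ (y.v - y.u).natAbs + gst P κ := by
  have h1 := rd_le P κ y.u
  have h2 := lt_rd_add P κ y.u
  have h3 := rd_le P κ y.v
  have h4 := lt_rd_add P κ y.v
  simp only [rdn]
  omega

theorem cls_lt (F : St → ℕ) (y : St) : F y < 2 ^ (cls F y + 1) := Nat.lt_pow_succ_log_self (by norm_num) _

theorem le_cls {F : St → ℕ} {y : St} (h : F y ≠ 0) : 2 ^ cls F y ≤ F y := Nat.pow_log_le_self 2 h

/-- the rounded state at its own class lies in its cell, if `|v - u| ≤ F y` -/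
theorem inC_own (F : St → ℕ) {y : St} (hg : gst P (cls F y) ∣ P.Dm) (hD : inD P y)
    (h : (y.v - y.u).natAbs ≤ F y) :
    InC P (celOf (cls F y) (rdn P (cls F y) y)) (rdn P (cls F y) y) := by
  have h2 := cls_lt F y
  rw [pow_succ] at h2
  exact inC_rdn P hg hD (by omega)

/-! ## Letters -/

/-- all letters of a state whose first diagonal is in the cell `m` -/
theorem pos_cell (hr : 1 ≤ P.r) {κ : ℕ} {m : ℤ} {x : St} (hD : -(P.Dm : ℤ) ≤ x.u ∧ x.u ≤ P.Dm)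
    (h1 : m * 2 ^ κ ≤ x.u) (h2 : x.u < (m + 1) * 2 ^ κ) (a : ℕ) :
    (m - P.r) * 2 ^ κ ≤ pos P κ x a ∧ pos P κ x a ≤ (m + 1 + P.r) * 2 ^ κ := by
  have h3 : m * 2 ^ κ ≤ rd P κ x.u := le_rd P ((gstZ_dvd P κ).mul_left _) h1
  have h4 := rd_le P κ x.u
  have h5 := Dom20.pos_radius hr hD κ a
  constructor <;> nlinarith

/-- every grid point of the domain within `r 2^κ` of `rd u` is a letter -/
theorem exists_pos {κ : ℕ} (hg : gst P κ ∣ P.Dm) {x : St} {w : ℤ} (hw : (gst P κ : ℤ) ∣ w)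
    (hD : -(P.Dm : ℤ) ≤ w ∧ w ≤ P.Dm) (h1 : rd P κ x.u - P.r * 2 ^ κ ≤ w)
    (h2 : w ≤ rd P κ x.u + P.r * 2 ^ κ) : ∃ a, a < WA P κ ∧ pos P κ x a = w := by
  have hgp := gstZ_pos P κ
  have hgg := gstZ_mul_gptZ P κ
  have hgD : (gst P κ : ℤ) ∣ -(P.Dm : ℤ) := by rw [dvd_neg]; exact_mod_cast hg
  have hlo : (gst P κ : ℤ) ∣ wlo P κ x := by
    unfold wlo
    rcases max_choice (-(P.Dm : ℤ)) (rd P κ x.u - P.r * 2 ^ κ) with h | h <;> rw [h]
    · exact hgD
    · exact dvd_sub (dvd_rd P κ _) ((gstZ_dvd P κ).mul_left _)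
  have hlo1 : wlo P κ x ≤ w := max_le hD.1 h1
  have hlo2 : rd P κ x.u - P.r * 2 ^ κ ≤ wlo P κ x := le_max_right _ _
  have hhi : w ≤ whi P κ x := le_min hD.2 h2
  obtain ⟨k, hk⟩ : (gst P κ : ℤ) ∣ w - wlo P κ x := dvd_sub hw hlo
  have hk0 : 0 ≤ k := by
    by_contra hn
    have : (gst P κ : ℤ) * k < 0 := mul_neg_of_pos_of_neg hgp (by omega)
    linarith
  have hk1 : k ≤ 2 * P.r * gpt P κ := by
    by_contra hn
    have h3 : (gst P κ : ℤ) * (2 * P.r * gpt P κ + 1) ≤ (gst P κ : ℤ) * k :=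
      mul_le_mul_of_nonneg_left (by omega) hgp.le
    have h4 : (gst P κ : ℤ) * (2 * P.r * gpt P κ + 1) = 2 * P.r * 2 ^ κ + gst P κ := by
      rw [← hgg]; ring
    linarith
  refine ⟨k.toNat, ?_, ?_⟩
  · unfold WA
    zify
    rw [Int.toNat_of_nonneg hk0]
    omega
  · unfold pos
    rw [Int.toNat_of_nonneg hk0, mul_comm k, ← hk, add_sub_cancel]
    exact min_eq_right hhi

/-! ## Pieces -/

/-- first diagonal of a piece -/
theorem piece_u_mem (hr : 1 ≤ P.r) {κ : ℕ} {m : ℤ} {x : St} (hD : -(P.Dm : ℤ) ≤ x.u ∧ x.u ≤ P.Dm)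
    (h1 : m * 2 ^ κ ≤ x.u) (h2 : x.u < (m + 1) * 2 ^ κ) {q : ℕ} (hq : q < P.N) (a b : ℕ) :
    (m - P.r) * 2 ^ κ ≤ (piece P κ x q a b).u ∧ (piece P κ x q a b).u ≤ (m + 1 + P.r) * 2 ^ κ := by
  have hp : (0 : ℤ) < 2 ^ κ := by positivity
  have hr' : (0 : ℤ) ≤ P.r * 2 ^ κ := by positivity
  show _ ≤ cut P κ x q a ∧ cut P κ x q a ≤ _
  unfold cut
  split_ifs with h
  · constructor <;> nlinarith
  · omega
  · exact pos_cell P hr hD h1 h2 a

theorem npiece_u_mem (hr : 1 ≤ P.r) {κ : ℕ} {m : ℤ} {x : St} (hD : -(P.Dm : ℤ) ≤ x.u ∧ x.u ≤ P.Dm)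
    (h1 : m * 2 ^ κ ≤ x.u) (h2 : x.u < (m + 1) * 2 ^ κ) {q : ℕ} (hq : q < P.N) (F : St → ℕ) (a b : ℕ) :
    (m - P.r) * 2 ^ κ ≤ (npiece P F κ x q a b).u ∧ (npiece P F κ x q a b).u ≤ (m + 1 + P.r) * 2 ^ κ :=
  piece_u_mem P hr hD h1 h2 hq _ _

/-! ## The requests of a window -/

/-- `copies / modu = 2^(c0 + κ' - κ)` exactly -/
theorem copies_mul (κ κ' : ℕ) : copies P κ κ' * 2 ^ κ = modu P κ κ' * 2 ^ (P.c0 + κ') := by
  unfold copies modu
  rw [← pow_add, ← pow_add]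
  congr 1
  omega

theorem modu_or_copies (κ κ' : ℕ) : modu P κ κ' = 1 ∨ copies P κ κ' = 1 := by
  unfold modu copies
  rcases le_total κ (P.c0 + κ') with h | h
  · left; rw [Nat.sub_eq_zero_of_le h, pow_zero]
  · right; rw [Nat.sub_eq_zero_of_le h, pow_zero]

/-- the residue of the cell of `z` is active at end `q` -/
def actB (κ : ℕ) (ρ : ℕ → ℕ → ℕ) (q κ' : ℕ) (z : St) : Prop :=
  (celOf κ' z).m % (modu P κ κ' : ℤ) = (ρ q κ' : ℤ)

instance (κ : ℕ) (ρ : ℕ → ℕ → ℕ) (q κ' : ℕ) (z : St) : Decidable (actB P κ ρ q κ' z) := by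
  unfold actB; infer_instance

/-- the request read by `spw` at the pair of a piece is made, if its residue is active -/
theorem key_mem_bkeys {κ : ℕ} {m : ℤ} {ρ : ℕ → ℕ → ℕ} {z : St} {κ' q s : ℕ} (hq : q < P.N)
    (h1 : (m - P.r) * 2 ^ κ ≤ z.u) (h2 : z.u ≤ (m + 1 + P.r) * 2 ^ κ)
    (h3 : κ ≤ κ' + P.dl) (h4 : κ' ≤ κ + P.du) (h5 : actB P κ ρ q κ' z) (hs : s < copies P κ κ') :
    (⟨q, κ', (celOf κ' z).m, s⟩ : Key) ∈ bkeys P κ m ρ := by
  rw [mem_bkeys]
  exact ⟨hq, (mem_spCl P).mpr ⟨by show κ - P.dl ≤ κ'; omega, h4⟩, div_mem_cellsIn h1 h2, h5, hs⟩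

theorem key_not_mem_bkeys {κ : ℕ} {m : ℤ} {ρ : ℕ → ℕ → ℕ} {z : St} {κ' q s : ℕ}
    (h5 : ¬ actB P κ ρ q κ' z) : (⟨q, κ', (celOf κ' z).m, s⟩ : Key) ∉ bkeys P κ m ρ := by
  rw [mem_bkeys]
  rintro ⟨-, -, -, h, -⟩
  exact h5 h

theorem sumR_zero (n : ℕ) : sumR n (fun _ => 0) = 0 := by
  unfold sumR
  simp

/-- the spawned number of an inactive pair is zero -/
theorem spw_inactive {κ : ℕ} {m : ℤ} {ρ : ℕ → ℕ → ℕ} {z : St} {κ' q : ℕ} (h5 : ¬ actB P κ ρ q κ' z)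
    (res : List (List ℕ)) : spw P κ (bkeys P κ m ρ) res q κ' z = 0 := by
  unfold spw
  simp only [look_eq_none (key_not_mem_bkeys P h5), sumR_zero, mul_zero]
  unfold cdiv
  rw [zero_add]
  exact Nat.div_eq_of_lt (by have := copies_pos P κ κ'; omega)

/-- the spawned number of an active pair, for tables which are functions of the request -/
theorem spw_map {κ : ℕ} {m : ℤ} {ρ : ℕ → ℕ → ℕ} {z : St} {κ' q : ℕ} (hq : q < P.N)
    (h1 : (m - P.r) * 2 ^ κ ≤ z.u) (h2 : z.u ≤ (m + 1 + P.r) * 2 ^ κ)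
    (h3 : κ ≤ κ' + P.dl) (h4 : κ' ≤ κ + P.du) (h5 : actB P κ ρ q κ' z) (tb : Key → List ℕ) :
    spw P κ (bkeys P κ m ρ) ((bkeys P κ m ρ).map tb) q κ' z =
      cdiv (modu P κ κ' * ((List.range (copies P κ κ')).map fun s =>
        rdt P (celOf κ' z) (tb ⟨q, κ', (celOf κ' z).m, s⟩) z).sum) (copies P κ κ') := by
  unfold spw sumR
  congr 3
  refine List.map_congr_left fun s hs => ?_
  rw [look_map _ tb (key_mem_bkeys P hq h1 h2 h3 h4 h5 (List.mem_range.mp hs))]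

/-! ## The ends of the window of a state of a cell -/

/-- a piece of the window of a state of the cell `c` -/
theorem endOk_piece (hr : 1 ≤ P.r) {c : Cel} {x : St} (hx : InC P c x) (F : St → ℕ) {q : ℕ} (hq : q < P.N)
    (a b : ℕ) : XB715.EndOk P F c q (piece P c.κ x q a b) where
  hi := by show x.i - 1 = _; rw [hx.hi]
  hj := by show P.N * x.j + q = _; rw [hx.hj]
  mem := by
    intro _ _
    rw [celOf_rdn]
    have h3 := hx.hD.1
    have h := piece_u_mem P hr ⟨by omega, by omega⟩ hx.ulo hx.uhi hq a b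
    exact div_mem_cellsIn h.1 h.2

theorem endOk_npiece (hr : 1 ≤ P.r) {c : Cel} {x : St} (hx : InC P c x) (F : St → ℕ) {q : ℕ} (hq : q < P.N)
    (a b : ℕ) : XB715.EndOk P F c q (npiece P F c.κ x q a b) := endOk_piece P hr hx F hq _ _

/-- **the geometric input of the law of a window** (`BodyM79.body_ms`, hypothesis `hgeo`) -/
theorem hgeo {I K0 : ℕ} (hr : 1 ≤ P.r) (hg : Dom20.GrdOK P K0) {c : Cel} {x : St} (hx : InC P c x)
    (hD : Dom20.Dom P I x) (hi : 1 ≤ c.i) {F : St → ℕ} (hc : ∀ y, Dom20.Dom P I y → cls F y ≤ K0) :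
    ∀ q < P.N, ∀ a < nlet P F c.κ x, ∀ b < nlet P F c.κ x,
      let y := npiece P F c.κ x q a b
      XB715.EndOk P F c q y ∧ Dom20.Dom P I y ∧ Dom20.Dom P I (rdn P (cls F y) y) := by
  intro q hq a _ b _ y
  have h1 : Dom20.Dom P I y := hD.npiece hr (by rw [hx.hi]; exact hi) hq F c.κ a b
  exact ⟨endOk_npiece P hr hx F hq a b, h1, h1.rdn (hg _ (hc y h1))⟩

/-- reading the table of a cell at an admissible pair of the domain -/
theorem rdt_tabC_adm {F : St → ℕ} {κ : ℕ} {z : St} (hD : inD P z) (h : adm P F κ z = true) (f : St → ℕ) :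
    rdt P (celOf κ z) (tabC P (celOf κ z) f) z = f z := rdt_tabC P (adm_inC P hD h) f

end Crest.Agent.R288.Geo105
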