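import Crest.Agent.R288.PheC_940
import Crest.Agent.R288.AsmP_12
import Crest.Agent.R288.PltT_365

/-!
# R288, [GLUE] (helper365): from the phase engine to `RunPL`

`mainS pre hq` : `pre`, then the root call of the engine with tape pointer `0` and arguments
`q0 v`, then the output of the first word of the result.
* `main_sim` : one machine environment.
* **`runPL_of`** : `RunPL` from a realisation `Rz` of the root call.
-/

set_option autoImplicit false

namespace Crest.Agent.R288.GluE365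

open Crest.Agent.R295 HL Pt949 Crest.Agent.R295.Rnd627 Crest.Agent.R288.Pl726
open Crest.Agent.R288.Phe940 Crest.Agent.R288.Top791 Crest.Agent.R288.Front327
open Crest.Agent.R288.Shell12 Crest.Agent.R288.Asm331 Crest.Agent.R288.Asm12
open Crest.Agent.Lib.PT (PTF PTPred PTU PB sz PTCode)

/-- the output word: first word of the result of the call -/
def outw (v : List ℕ) : List ℕ := [v.getD 2 0]

theorem ptf_outw : PTF outw := by
  unfold outw
  exact PTF.listCons (PTF.getD (PTU.const 2) PTF.id (PTF.const 0)) (PTF.const [])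

/-- argument of the root call: tape pointer `0`, then `q0 v` -/
def rootArg (q0 : List ℕ → List ℕ) (v : List ℕ) : List ℕ := 0 :: q0 v

theorem ptf_rootArg {q0 : List ℕ → List ℕ} (h : PTF q0) : PTF (rootArg q0) := by
  unfold rootArg
  exact PTF.listCons (PTF.const 0) h

/-- **the main statement**: `pre` builds the environment of the root call -/
noncomputable def mainS (pre : PS) {q0 : List ℕ → List ℕ} (hq : PTF q0) : PS :=
  .seq pre (.seq (.call 0 (rootArg q0) (ptf_rootArg hq)) (.asg outw ptf_outw))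

theorem main_sim {P : Prg} {W : Wld} {e : PEnv} {pr : List PS} (h : Mch P W e pr) {pre : PS}
    {q0 : List ℕ → List ℕ} (hq : PTF q0) {v v1 : List ℕ} {i t1 : ℕ}
    (hpre : PEx e pr pre v i v1 i t1 0) (hv1 : v1.length + (q0 v1).length + 8 ≤ e.S)
    (hv1' : ∀ a ∈ v1, a < e.B) (hq0 : ∀ a ∈ q0 v1, a < e.B) {n C : ℕ} {t : RT (List ℕ)}
    (hz : Rz P W n (q0 v1) [] t C) (hp : t.nxt W.N W.Z 0 ≤ W.Pm)
    (hu : (t.val W.N W.Z 0).length + v1.length + 8 ≤ e.S)
    (hu' : ∀ a ∈ t.val W.N W.Z 0, a < e.B) (hne : t.val W.N W.Z 0 ≠ []) :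
    ∃ s d, PEx e pr (mainS pre hq) v i [(t.val W.N W.Z 0).headD 0] i s d ∧
      s ≤ t1 + 40 * C + 25 ∧ d ≤ n + 1 := by
  have hPM := h.PM
  have hB := h.B
  have hS := h.S
  have hSM := h.SM
  obtain ⟨s, d, g1, g2, g3⟩ := hz.proc h 0 i hp
  rw [← h.body] at g1
  generalize t.val W.N W.Z 0 = u at hu hu' hne g1 ⊢
  generalize t.nxt W.N W.Z 0 = p1 at hp g1
  have f1 : e.Fits (rootArg q0 v1) := by
    unfold rootArg
    refine ⟨by simp only [List.length_cons]; omega, fun a ha => ?_⟩
    rw [List.mem_cons] at ha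
    rcases ha with rfl | ha
    · omega
    · exact hq0 a ha
  have f2 : e.Fits ((p1 :: u).length :: ((p1 :: u) ++ v1)) := by
    refine ⟨by simp only [List.length_cons, List.length_append]; omega, fun a ha => ?_⟩
    rw [List.mem_cons, List.cons_append, List.mem_cons, List.mem_append] at ha
    rcases ha with rfl | rfl | ha | ha
    · simp only [List.length_cons]; omega
    · omega
    · exact hu' a ha
    · exact hv1' a ha
  have g4 := PEx.call (e := e) (pr := pr) (j := 0) (g := rootArg q0) (hg := ptf_rootArg hq)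
    (v := v1) f1 g1 f2
  obtain ⟨a, l, rfl⟩ : ∃ a l, u = a :: l := by
    cases u with
    | nil => exact absurd rfl hne
    | cons a l => exact ⟨a, l, rfl⟩
  have e1 : outw ((p1 :: a :: l).length :: ((p1 :: a :: l) ++ v1)) = [a] := rfl
  have f3 : e.Fits [a] := by
    refine ⟨by simp only [List.length_cons, List.length_nil] at hu ⊢; omega, fun b hb => ?_⟩
    rw [List.mem_singleton] at hb
    rw [hb]
    exact hu' a List.mem_cons_self
  have g5 : PEx e pr (.asg outw ptf_outw) ((p1 :: a :: l).length :: ((p1 :: a :: l) ++ v1)) i [a]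
      i 1 0 := by
    have := PEx.asg (e := e) (pr := pr) (f := outw) (hf := ptf_outw)
      (v := (p1 :: a :: l).length :: ((p1 :: a :: l) ++ v1)) (i := i) (by rw [e1]; exact f3)
    rwa [e1] at this
  refine ⟨_, _, PEx.seq hpre (PEx.seq g4 g5), by omega, ?_⟩
  simp only [max_le_iff]
  omega

/-- the hypotheses on the root call in one machine environment -/
structure Root (P : Prg) (pre : PS) (q0 : List ℕ → List ℕ) (R : ℕ) (x y : List ℕ) (ε : ℚ)
    (τ : ℕ → ℕ) (res fuel L : ℕ) (pe : PEnv) (v1 : List ℕ) (t1 n C : ℕ) (t : RT (List ℕ)) :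
    Prop where
  /-- the first part of the main program -/
  pre : ∀ i, ∃ t ≤ t1, PEx pe [P.proc] pre (v0 x y ε) i v1 i t 0
  len : v1.length + (q0 v1).length + 8 ≤ pe.S
  w1 : ∀ a ∈ v1, a < pe.B
  w2 : ∀ a ∈ q0 v1, a < pe.B
  /-- the root call realises `t` -/
  rz : Rz P (wld pe (2 ^ tw x y) τ P.a1 P.a2 R) n (q0 v1) [] t C
  /-- the tape is long enough -/
  nxt : t.nxt (2 ^ tw x y) τ 0 ≤ R
  ulen : (t.val (2 ^ tw x y) τ 0).length + v1.length + 8 ≤ pe.S
  uw : ∀ a ∈ t.val (2 ^ tw x y) τ 0, a < pe.B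
  ne : t.val (2 ^ tw x y) τ 0 ≠ []
  /-- the result -/
  res : (t.val (2 ^ tw x y) τ 0).headD 0 = res
  time : t1 + 40 * C + 25 ≤ fuel
  depth : n + 1 ≤ L

/-- **`RunPL` from a realisation of the root call** -/
theorem runPL_of {c k r cS kS rS j : ℕ} {fR : List ℕ → ℕ} {P : Prg} (hT : P.aT = 15)
    (hX : P.X3 = x3) {pre : PS} {q0 : List ℕ → List ℕ} (hq : PTF q0) {x y : List ℕ} {ε : ℚ}
    {τ : ℕ → ℕ} {res : ℕ} (hS : og cS kS rS j (inp x y ε).length ≤ (inp x y ε).length)
    (hR : fR (v0 x y ε) ≤ ((inp x y ε).length + 2) ^ 2)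
    (H : ∀ pe : PEnv, PIn x y ε pe → pe.S = og cS kS rS j (inp x y ε).length →
      ∃ v1 t1 n C t, Root P pre q0 (fR (v0 x y ε)) x y ε τ res (fuc c k r j (inp x y ε).length)
        (inp x y ε).length pe v1 t1 n C t) :
    RunPL c k r cS kS rS j fR [P.proc] (mainS pre hq) x y ε τ res := by
  intro pe hpe hSe htape i
  obtain ⟨v1, t1, n, C, t, h⟩ := H pe hpe hSe
  have hB := hpe.B
  have hL := hpe.L
  have e3 : ((inp x y ε).length + 2) ^ 3 =
      ((inp x y ε).length + 2) * ((inp x y ε).length + 2) ^ 2 := by ring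
  have e4 : 1 ≤ ((inp x y ε).length + 2) ^ 2 := Nat.pos_of_ne_zero (by positivity)
  have e5 : 2 * ((inp x y ε).length + 2) ^ 2 ≤ ((inp x y ε).length + 2) ^ 3 := by
    rw [e3]
    exact Nat.mul_le_mul_right _ (by omega)
  have e6 : (inp x y ε).length + 2 ≤ ((inp x y ε).length + 2) ^ 2 := by
    rw [pow_two]
    exact Nat.le_mul_of_pos_left _ (by omega)
  have hm : Mch P (wld pe (2 ^ tw x y) τ P.a1 P.a2 (fR (v0 x y ε))) pe [P.proc] :=
    mch hX rfl (fun i hi => by rw [hT]; exact htape i hi) (by omega) (by omega) (by omega)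
  obtain ⟨t0, ht0, hpre⟩ := h.pre i
  obtain ⟨s, d, g1, g2, g3⟩ := main_sim hm hq hpre h.len h.w1 h.w2 h.rz h.nxt h.ulen h.uw
    h.ne
  have hd := h.depth
  have ht := h.time
  exact ⟨_, s, d, g1, by rw [← h.res]; rfl, by omega, by omega⟩

/-- the two forms of `RunPL` agree -/
theorem runPL_conv {c k r cS kS rS j : ℕ} {fR : List ℕ → ℕ} {pr : List PS} {mn : PS}
    {x y : List ℕ} {ε : ℚ} {τ : ℕ → ℕ} {res : ℕ}
    (h : RunPL c k r cS kS rS j fR pr mn x y ε τ res) :
    PltT365.RunPL j c k r cS kS rS fR pr mn x y ε τ res := h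

/-- **`RunPL` (form of `PltT_365`, `AsmC_331`) from a realisation of the root call** -/
theorem runPLT_of {c k r cS kS rS j : ℕ} {fR : List ℕ → ℕ} {P : Prg} (hT : P.aT = 15)
    (hX : P.X3 = x3) {pre : PS} {q0 : List ℕ → List ℕ} (hq : PTF q0) {x y : List ℕ} {ε : ℚ}
    {τ : ℕ → ℕ} {res : ℕ} (hS : og cS kS rS j (inp x y ε).length ≤ (inp x y ε).length)
    (hR : fR (v0 x y ε) ≤ ((inp x y ε).length + 2) ^ 2)
    (H : ∀ pe : PEnv, PIn x y ε pe → pe.S = og cS kS rS j (inp x y ε).length →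
      ∃ v1 t1 n C t, Root P pre q0 (fR (v0 x y ε)) x y ε τ res (fuc c k r j (inp x y ε).length)
        (inp x y ε).length pe v1 t1 n C t) :
    PltT365.RunPL j c k r cS kS rS fR [P.proc] (mainS pre hq) x y ε τ res :=
  runPL_conv (runPL_of hT hX hq hS hR H)

end Crest.Agent.R288.GluE365
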