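import Crest.Agent.R288.Tape2_829
import Crest.Agent.R288.AlgB_45

/-!
# R288 [RT.GOOD] part A (helper829): the number of a pair from its lanes

* `reps_add`, `reps_mul`: repetitions in blocks.
* `med_eq_med`: 45's median (`(isort l).getD (l.length / 2) 0`) = `Med559.med`.
* `numG q G m sh t`: `G * m` repetitions of the lane `t`, group values `q (sum of m values)`, median
  of the groups, plus the shift `sh`.
* **`Pr_numG`**: `E t = μ`, `E t ^ 2 ≤ V`, `3 V ≤ m c ^ 2`, `G = 12 s + 1`, group values within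
  `[-eL, eU]` of the mean ⊢ `μ - c - eL ≤ numG - sh ≤ μ + c + eU` except with probability `2 ^ (-s)`.
* `Pr_numG_shift`: `c + eL ≤ sh` ⊢ `μ ≤ numG ≤ μ + c + eU + sh`.
* `numG_const`, `Dr_numG`.
-/

set_option autoImplicit false

namespace Crest.Agent.R288.Good829

open Finset
open Crest.Agent.R295 Crest.Agent.R295.Rnd627 Crest.Agent.R288.Med559
open Crest.Agent.R288.Bridge331 Crest.Agent.R288.Tape829

universe u v

/-! ### blocks of repetitions -/

section blocks

variable {α : Type u} {β : Type v}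

theorem map_map {γ : Type*} (t : RT α) (f : α → β) (g : β → γ) :
    (t.map f).map g = t.map fun a => g (f a) := by
  unfold RT.map
  rw [RT.bind_assoc]
  rfl

theorem map_congr {t : RT α} {f g : α → β} (h : ∀ a, f a = g a) : t.map f = t.map g := by
  rw [show f = g from funext h]

theorem reps_add (t : RT α) (a b : ℕ) :
    RT.reps (a + b) t = (RT.reps a t).bind fun l => (RT.reps b t).map fun l' => l ++ l' := by
  induction a with
  | zero =>
    rw [Nat.zero_add]
    show _ = (RT.reps b t).map fun l' => [] ++ l'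
    simp only [List.nil_append]
    exact (RT.bind_ret _).symm
  | succ a ih =>
    rw [show a + 1 + b = a + b + 1 by omega, RT.reps_succ, RT.reps_succ, ih, RT.bind_assoc]
    congr 1
    funext x
    unfold RT.map
    simp only [RT.bind_assoc, RT.ret_bind, List.cons_append]

/-- `G` blocks of `m` repetitions -/
theorem reps_mul (t : RT α) (G m : ℕ) :
    RT.reps (G * m) t = (RT.reps G (RT.reps m t)).map List.flatten := by
  induction G with
  | zero => rw [Nat.zero_mul]; rfl
  | succ G ih =>
    rw [show (G + 1) * m = m + G * m by ring, reps_add, ih, RT.reps_succ]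
    unfold RT.map
    simp only [RT.bind_assoc, RT.ret_bind, List.flatten_cons]

end blocks

/-! ### the median of `Alg45` -/

section median

open Crest.Agent.R288

theorem ins_perm (a : ℕ) (l : List ℕ) : (Alg45.ins a l).Perm (a :: l) := by
  induction l with
  | nil => exact List.Perm.refl _
  | cons b l ih =>
    unfold Alg45.ins
    split
    · exact List.Perm.refl _
    · exact (ih.cons b).trans (List.Perm.swap a b l)

theorem isort_perm (l : List ℕ) : (Alg45.isort l).Perm l := by
  induction l with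
  | nil => exact List.Perm.refl _
  | cons a l ih => exact (ins_perm a _).trans (ih.cons a)

theorem ins_sorted (a : ℕ) {l : List ℕ} (h : l.Pairwise (· ≤ ·)) :
    (Alg45.ins a l).Pairwise (· ≤ ·) := by
  induction l with
  | nil => exact List.pairwise_singleton _ _
  | cons b l ih =>
    unfold Alg45.ins
    rw [List.pairwise_cons] at h
    split
    · rename_i hab
      rw [List.pairwise_cons]
      refine ⟨fun x hx => ?_, List.pairwise_cons.2 h⟩
      rcases List.mem_cons.1 hx with rfl | hx
      · exact hab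
      · exact hab.trans (h.1 x hx)
    · rename_i hab
      rw [List.pairwise_cons]
      refine ⟨fun x hx => ?_, ih h.2⟩
      rcases List.mem_cons.1 ((ins_perm a l).mem_iff.1 hx) with rfl | hx
      · omega
      · exact h.1 x hx

theorem isort_sorted (l : List ℕ) : (Alg45.isort l).Pairwise (· ≤ ·) := by
  induction l with
  | nil => exact List.Pairwise.nil
  | cons a l ih => exact ins_sorted a ih

theorem length_isort (l : List ℕ) : (Alg45.isort l).length = l.length := (isort_perm l).length_eq

/-- number of entries below a value in a sorted list -/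
theorem cle_le_of_lt {s : List ℕ} (hs : s.Pairwise (· ≤ ·)) {k v : ℕ} (hk : k < s.length)
    (hv : v < s[k]) : cle s v ≤ k := by
  induction s generalizing k with
  | nil => exact absurd hk (Nat.not_lt_zero _)
  | cons a s ih =>
    rw [List.pairwise_cons] at hs
    cases k with
    | zero =>
      have h1 : cle (a :: s) v = 0 := by
        unfold cle
        rw [List.countP_eq_zero]
        intro x hx
        rw [decide_eq_true_eq]
        rcases List.mem_cons.1 hx with rfl | hx
        · exact Nat.not_le.2 hv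
        · have := hs.1 x hx
          have h2 : v < a := hv
          omega
      omega
    | succ k =>
      have h1 := ih hs.2 (k := k) (by simpa using hk) (by simpa using hv)
      have h2 : cle (a :: s) v ≤ cle s v + 1 := by
        unfold cle
        rw [List.countP_cons]
        split <;> omega
      omega

theorem lt_cle_of_le {s : List ℕ} (hs : s.Pairwise (· ≤ ·)) {k v : ℕ} (hk : k < s.length)
    (hv : s[k] ≤ v) : k + 1 ≤ cle s v := by
  induction s generalizing k with
  | nil => exact absurd hk (Nat.not_lt_zero _)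
  | cons a s ih =>
    rw [List.pairwise_cons] at hs
    have ha : cle (a :: s) v = cle s v + if a ≤ v then 1 else 0 := by
      unfold cle
      rw [List.countP_cons]
      simp only [decide_eq_true_eq]
    cases k with
    | zero =>
      have h2 : a ≤ v := hv
      rw [ha, if_pos h2]
      omega
    | succ k =>
      have hk' : k < s.length := by simpa using hk
      have h1 := ih hs.2 (k := k) hk' (by simpa using hv)
      have h2 : a ≤ v := (hs.1 _ (List.getElem_mem hk')).trans (by simpa using hv)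
      rw [ha, if_pos h2]
      omega

theorem med_eq_med {l : List ℕ} (hl : l ≠ []) : Alg45.med l = med l := by
  have h0 : 0 < l.length := List.length_pos_iff.2 hl
  have hk : l.length / 2 < (Alg45.isort l).length := by rw [length_isort]; omega
  have h1 : Alg45.med l = (Alg45.isort l)[l.length / 2] := by
    unfold Alg45.med
    rw [List.getD_eq_getElem _ _ hk]
  rw [h1, ← med_perm (isort_perm l)]
  symm
  refine med_eq ?_ fun v' hv' => ?_
  · have := lt_cle_of_le (isort_sorted l) hk le_rfl
    rw [length_isort]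
    omega
  · have := cle_le_of_lt (isort_sorted l) hk hv'
    rw [length_isort]
    omega

end median

/-! ### numbers from lanes -/

/-- median of the group values (`G` groups of length `m` of the list `l`) -/
def gmed (q : ℕ → ℕ) (G m : ℕ) (l : List ℕ) : ℕ :=
  Alg45.med ((List.range G).map fun a => q (Alg45.sumR m fun b => l.getD (a * m + b) 0))

/-- the number of a pair: `G * m` lanes, group values `q`, median, shift -/
def numG (q : ℕ → ℕ) (G m sh : ℕ) (t : RT ℕ) : RT ℕ :=
  (RT.reps (G * m) t).bind fun l => .ret (gmed q G m l + sh)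

theorem sumR_getD {m a : ℕ} {l : List (List ℕ)} (hl : ∀ x ∈ l, x.length = m) (ha : a < l.length) :
    (Alg45.sumR m fun b => l.flatten.getD (a * m + b) 0) = l[a].sum := by
  induction l generalizing a with
  | nil => exact absurd ha (Nat.not_lt_zero _)
  | cons x l ih =>
    have hx : x.length = m := hl x (List.mem_cons_self ..)
    cases a with
    | zero =>
      show ((List.range m).map fun b => (x :: l).flatten.getD (0 * m + b) 0).sum = x.sum
      congr 1
      refine List.ext_getElem (by simp [hx]) fun i h1 h2 => ?_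
      rw [List.getElem_map, List.getElem_range, List.flatten_cons, Nat.zero_mul, Nat.zero_add,
        List.getD_append _ _ _ _ h2, List.getD_eq_getElem _ _ h2]
    | succ a =>
      have h1 := ih (a := a) (fun y hy => hl y (List.mem_cons_of_mem _ hy)) (by simpa using ha)
      rw [List.getElem_cons_succ, ← h1]
      unfold Alg45.sumR
      congr 1
      refine List.map_congr_left fun b _ => ?_
      rw [List.flatten_cons, List.getD_append_right _ _ _ _ (by rw [hx]; nlinarith), hx]
      congr 1
      rw [Nat.succ_mul]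
      omega

/-- the median of the groups of a flattened list -/
theorem gmed_flatten {q : ℕ → ℕ} {G m : ℕ} {l : List (List ℕ)} (hG : 0 < G) (h : l.length = G)
    (hl : ∀ x ∈ l, x.length = m) : gmed q G m l.flatten = med (l.map fun x => q x.sum) := by
  unfold gmed
  rw [med_eq_med]
  · congr 1
    refine List.ext_getElem (by simp [h]) fun i h1 h2 => ?_
    have hi : i < l.length := by simpa using h2
    rw [List.getElem_map, List.getElem_range, List.getElem_map, sumR_getD hl hi]
  · intro h0
    have := congrArg List.length h0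
    simp at this
    omega

/-- the law of the number: median of independent group values -/
theorem Pr_numG_law {M : ℕ} (q : ℕ → ℕ) {G m : ℕ} (hG : 0 < G) (sh : ℕ) (t : RT ℕ)
    (P : ℕ → Prop) : (numG q G m sh t).Pr M P =
      (RT.reps G ((RT.reps m t).map fun l => q l.sum)).Pr M fun l => P (med l + sh) := by
  have e1 : (RT.reps G ((RT.reps m t).map fun l => q l.sum)) =
      (RT.reps G (RT.reps m t)).map fun l => l.map fun x => q x.sum := by
    clear hG
    induction G with
    | zero => rfl
    | succ G ih =>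
      rw [RT.reps_succ, RT.reps_succ, ih]
      unfold RT.map
      simp only [RT.bind_assoc, RT.ret_bind, List.map_cons]
  unfold numG
  rw [reps_mul, e1, RT.Pr_map, RT.Pr_bind]
  unfold RT.map
  rw [RT.Ev_bind]
  simp only [RT.Ev_ret]
  unfold RT.Pr
  refine RT.Ev_congr_all ?_
  have h1 := RT.All_reps (M := M) (All_reps_length M m t) G
  refine h1.mono fun l hl => ?_
  simp only [gmed_flatten hG hl.1 hl.2, RT.Ev_ret]

/-- **deviation of the number** -/
theorem Pr_numG {M : ℕ} (hM : 0 < M) (t : RT ℕ) {q : ℕ → ℕ} {m s sh : ℕ} (hm : 0 < m)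
    {c V μ eL eU : ℝ} (hc : 0 < c)
    (hqL : ∀ S : ℕ, (S : ℝ) / m - eL ≤ q S) (hqU : ∀ S : ℕ, (q S : ℝ) ≤ (S : ℝ) / m + eU)
    (hμ : t.Ev M (fun a : ℕ => (a : ℝ)) = μ) (hV : (t.Ev M fun a : ℕ => (a : ℝ) ^ 2) ≤ V)
    (h3 : 3 * V ≤ m * c ^ 2) :
    (numG q (12 * s + 1) m sh t).Pr M
      (fun v => ¬ (μ - c - eL + sh ≤ v ∧ (v : ℝ) ≤ μ + c + eU + sh)) ≤ (1 / 2) ^ s := by
  classical
  rw [Pr_numG_law q (Nat.succ_pos _)]
  have hm' : (0 : ℝ) < m := Nat.cast_pos.2 hm
  have hV' := var_le hM t hμ hV
  -- one group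
  have h1 := Pr_reps_mean hM t (fun a : ℕ => (a : ℝ)) hm hc (V := V) (by rw [hμ]; exact hV')
  rw [hμ] at h1
  have h2 : V / (m * c ^ 2) ≤ 1 / 3 := by
    rw [div_le_iff₀ (by positivity)]; linarith
  have h4 := RT.Pr_not hM (RT.reps m t)
    fun l : List ℕ => c ≤ |((l.map fun a : ℕ => (a : ℝ)).sum) / m - μ|
  have h5 : 2 / 3 ≤ (RT.reps m t).Pr M
      fun l : List ℕ => ¬ c ≤ |((l.map fun a : ℕ => (a : ℝ)).sum) / m - μ| := by
    rw [h4]; linarith
  have h6 : 2 / 3 ≤ ((RT.reps m t).map fun l : List ℕ => q l.sum).Pr M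
      fun v : ℕ => μ - c - eL ≤ v ∧ (v : ℝ) ≤ μ + c + eU := by
    rw [RT.Pr_map]
    refine h5.trans (RT.Pr_mono fun l hl => ?_)
    rw [not_le, abs_lt] at hl
    have e0 : (l.map fun a : ℕ => (a : ℝ)).sum = ((l.sum : ℕ) : ℝ) := by
      rw [Nat.cast_list_sum]
    rw [e0] at hl
    have e1 := hqL l.sum
    have e2 := hqU l.sum
    exact ⟨by linarith, by linarith⟩
  have h7 := Pr_med_third hM (fun v : ℕ => μ - c - eL ≤ v ∧ (v : ℝ) ≤ μ + c + eU) ?_ h6 s
  · unfold medRT at h7
    rw [RT.Pr_map, show 2 * (6 * s) + 1 = 12 * s + 1 by ring] at h7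
    have h8 := RT.Pr_not hM (RT.reps (12 * s + 1) ((RT.reps m t).map fun l : List ℕ => q l.sum))
      fun l => μ - c - eL ≤ (med l : ℝ) ∧ (med l : ℝ) ≤ μ + c + eU
    refine le_trans (RT.Pr_mono (Q := fun l : List ℕ =>
      ¬ (μ - c - eL ≤ (med l : ℝ) ∧ (med l : ℝ) ≤ μ + c + eU)) fun l h9 h10 => h9 ?_) ?_
    · push_cast
      exact ⟨by linarith [h10.1], by linarith [h10.2]⟩
    · rw [h8]
      linarith
  · rintro x y z ⟨h1, -⟩ ⟨-, h2⟩ hxy hyz
    have e1 : (x : ℝ) ≤ y := by exact_mod_cast hxy
    have e2 : (y : ℝ) ≤ z := by exact_mod_cast hyz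
    exact ⟨by linarith, by linarith⟩

/-- **one-sided number**: shifted upwards, `μ ≤ X ≤ μ + 2 sh + eU` -/
theorem Pr_numG_shift {M : ℕ} (hM : 0 < M) (t : RT ℕ) {q : ℕ → ℕ} {m s sh : ℕ} (hm : 0 < m)
    {c V μ eL eU : ℝ} (hc : 0 < c)
    (hqL : ∀ S : ℕ, (S : ℝ) / m - eL ≤ q S) (hqU : ∀ S : ℕ, (q S : ℝ) ≤ (S : ℝ) / m + eU)
    (hμ : t.Ev M (fun a : ℕ => (a : ℝ)) = μ) (hV : (t.Ev M fun a : ℕ => (a : ℝ) ^ 2) ≤ V)
    (h3 : 3 * V ≤ m * c ^ 2) (hsh : c + eL ≤ sh) :
    (numG q (12 * s + 1) m sh t).Pr M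
      (fun v => ¬ (μ ≤ v ∧ (v : ℝ) ≤ μ + c + eU + sh)) ≤ (1 / 2) ^ s := by
  refine le_trans (RT.Pr_mono (Q := fun v : ℕ => ¬ (μ - c - eL + sh ≤ v ∧
    (v : ℝ) ≤ μ + c + eU + sh)) fun v h1 h2 => h1 ?_)
    (Pr_numG hM t (sh := sh) hm hc hqL hqU hμ hV h3)
  exact ⟨by linarith [h2.1], h2.2⟩

/-- floor means -/
theorem q_floor {m : ℕ} (hm : 0 < m) : (∀ S : ℕ, (S : ℝ) / m - 1 ≤ ((S / m : ℕ) : ℝ)) ∧
    ∀ S : ℕ, ((S / m : ℕ) : ℝ) ≤ (S : ℝ) / m + 0 := by
  have hm' : (0 : ℝ) < m := Nat.cast_pos.2 hm
  refine ⟨fun S => ?_, fun S => by rw [add_zero]; exact Nat.cast_div_le⟩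
  rw [sub_le_iff_le_add, div_le_iff₀ hm']
  have := (Nat.lt_div_mul_add (a := S) hm).le
  have h6 : (S : ℝ) ≤ (S / m : ℕ) * m + m := by exact_mod_cast this
  linarith

/-- ceiling means -/
theorem q_ceil {m : ℕ} (hm : 0 < m) :
    (∀ S : ℕ, (S : ℝ) / m - 0 ≤ (((S + m - 1) / m : ℕ) : ℝ)) ∧
    ∀ S : ℕ, (((S + m - 1) / m : ℕ) : ℝ) ≤ (S : ℝ) / m + 1 := by
  have hm' : (0 : ℝ) < m := Nat.cast_pos.2 hm
  refine ⟨fun S => ?_, fun S => ?_⟩
  · rw [sub_zero, div_le_iff₀ hm']
    have := (Nat.lt_div_mul_add (a := S + m - 1) hm)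
    have h6 : S ≤ (S + m - 1) / m * m := by omega
    exact_mod_cast h6
  · have h1 : (((S + m - 1) / m : ℕ) : ℝ) ≤ ((S + m - 1 : ℕ) : ℝ) / m := Nat.cast_div_le
    refine h1.trans ?_
    rw [div_le_iff₀ hm']
    have h2 : ((S + m - 1 : ℕ) : ℝ) ≤ (S : ℝ) + m := by
      have : S + m - 1 ≤ S + m := Nat.sub_le _ _
      exact_mod_cast this
    have h3 : ((S : ℝ) / m + 1) * m = S + m := by field_simp
    linarith

/-- a lane with one possible value -/
theorem numG_const {M : ℕ} {t : RT ℕ} {a : ℕ} (h : t.All M fun v => v = a) {q : ℕ → ℕ}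
    {G m : ℕ} (hG : 0 < G) (hq : q (m * a) = a) (sh : ℕ) :
    (numG q G m sh t).All M fun v => v = a + sh := by
  unfold numG
  rw [reps_mul]
  unfold RT.map
  rw [RT.bind_assoc, RT.All_bind]
  have h1 := RT.All_reps (M := M) (RT.All_reps h m) G
  refine h1.mono fun l hl => ?_
  show gmed q G m l.flatten + sh = a + sh
  rw [gmed_flatten hG hl.1 fun x hx => (hl.2 x hx).1]
  congr 1
  have h2 : l.map (fun x : List ℕ => q x.sum) ≠ [] := by
    intro h0
    have := congrArg List.length h0
    rw [List.length_map, hl.1] at this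
    simp at this
    omega
  obtain ⟨x, hx, hx'⟩ := List.mem_map.1 (med_mem_list h2)
  rw [← hx']
  obtain ⟨h3, h4⟩ := hl.2 x hx
  have h5 : x = List.replicate m a := List.eq_replicate_iff.2 ⟨h3, h4⟩
  rw [h5, List.sum_replicate, smul_eq_mul, hq]

theorem Dr_numG {M A : ℕ} (hM : 0 < M) {t : RT ℕ} (ht : Dr M t A) (q : ℕ → ℕ) (G m sh : ℕ) :
    Dr M (numG q G m sh t) (G * m * A) := by
  unfold numG
  exact ((Dr.reps hM ht (G * m)).bind (B := 0) hM (P := fun _ => True)
    (RT.All.of_forall fun _ => trivial) fun _ _ => Dr.ret _).mono (by omega)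

end Crest.Agent.R288.Good829
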