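import Mathlib

/-!
Row 288, pure hedge lemmas (letters in a finite type) for LEMMA 288-90 (#3987).
* `hedge_greedy` : exponential weights over the ranks with one greedy level in `g`
  has no second order term.
* `hedge_plain`  : ordinary exponential weights, bounded range.
* `rho_noise_le`, `rho_noise_ge`, `av_noise` : kernels computed from estimates.
* `prod_special` : Prod with a special expert.
-/

namespace Crest.Agent.R288.HdgB309

open Finset

variable {Z : Type*} [Fintype Z]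

/-- average of `f` under the weights `p` -/
def av (p f : Z → ℝ) : ℝ := ∑ z, p z * f z

/-- probability vector -/
structure Pv (p : Z → ℝ) : Prop where
  nn : ∀ z, 0 ≤ p z
  sum : ∑ z, p z = 1

theorem av_mono {p f h : Z → ℝ} (hp : ∀ z, 0 ≤ p z) (hfh : ∀ z, f z ≤ h z) :
    av p f ≤ av p h :=
  Finset.sum_le_sum fun z _ => mul_le_mul_of_nonneg_left (hfh z) (hp z)

theorem av_const {p : Z → ℝ} (hp : Pv p) (c : ℝ) : av p (fun _ => c) = c := by
  unfold av
  rw [← Finset.sum_mul, hp.sum, one_mul]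

theorem av_add (p f h : Z → ℝ) : av p (fun z => f z + h z) = av p f + av p h := by
  unfold av
  rw [← Finset.sum_add_distrib]
  exact Finset.sum_congr rfl fun z _ => by ring

theorem av_sub (p f h : Z → ℝ) : av p (fun z => f z - h z) = av p f - av p h := by
  unfold av
  rw [← Finset.sum_sub_distrib]
  exact Finset.sum_congr rfl fun z _ => by ring

theorem av_smul (p f : Z → ℝ) (c : ℝ) : av p (fun z => c * f z) = c * av p f := by
  unfold av
  rw [Finset.mul_sum]
  exact Finset.sum_congr rfl fun z _ => by ring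

theorem le_av {p f : Z → ℝ} (hp : Pv p) {m : ℝ} (h : ∀ z, m ≤ f z) : m ≤ av p f := by
  calc m = av p (fun _ => m) := (av_const hp m).symm
    _ ≤ av p f := av_mono hp.nn h

theorem av_le {p f : Z → ℝ} (hp : Pv p) {m : ℝ} (h : ∀ z, f z ≤ m) : av p f ≤ m := by
  calc av p f ≤ av p (fun _ => m) := av_mono hp.nn h
    _ = m := av_const hp m

theorem abs_av_le {p f : Z → ℝ} (hp : Pv p) {m : ℝ} (h : ∀ z, |f z| ≤ m) : |av p f| ≤ m :=
  abs_le.2 ⟨le_av hp fun z => (abs_le.1 (h z)).1, av_le hp fun z => (abs_le.1 (h z)).2⟩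

/-- variance -/
def var (p f : Z → ℝ) : ℝ := av p (fun z => (f z - av p f) ^ 2)

theorem var_nonneg {p : Z → ℝ} (hp : Pv p) (f : Z → ℝ) : 0 ≤ var p f :=
  Finset.sum_nonneg fun z _ => mul_nonneg (hp.nn z) (sq_nonneg _)

/-- `Var ≤ o (mean - min)` for a function with values in `[m, m+o]`. -/
theorem var_le {p f : Z → ℝ} (hp : Pv p) {m o : ℝ} (h1 : ∀ z, m ≤ f z)
    (h2 : ∀ z, f z ≤ m + o) : var p f ≤ o * (av p f - m) := by
  set μ := av p f with hμ
  have e1 : var p f = av p (fun z => (f z - m) ^ 2) - (μ - m) ^ 2 := by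
    have : (fun z => (f z - μ) ^ 2)
        = fun z => (f z - m) ^ 2 - (2 * (μ - m) * (f z - m) - (μ - m) ^ 2) := by
      funext z; ring
    unfold var
    rw [← hμ, this, av_sub, av_sub, av_smul, av_sub, av_const hp, av_const hp, ← hμ]
    ring
  have e2 : av p (fun z => (f z - m) ^ 2) ≤ o * (μ - m) := by
    calc av p (fun z => (f z - m) ^ 2) ≤ av p (fun z => o * (f z - m)) :=
          av_mono hp.nn fun z => by
            have := h1 z; have := h2 z
            nlinarith
      _ = o * (μ - m) := by rw [av_smul, av_sub, av_const hp, ← hμ]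
  rw [e1]
  nlinarith [sq_nonneg (μ - m)]

/-- mixability up to a variance: if `|γ (f - mean)| ≤ 1` then
`log Σ p e^{-γ f} ≤ -γ mean + γ² Var`. -/
theorem log_mix_le {p f : Z → ℝ} (hp : Pv p) {γ : ℝ}
    (h : ∀ z, |γ * (f z - av p f)| ≤ 1) :
    Real.log (av p (fun z => Real.exp (-(γ * f z)))) ≤ -(γ * av p f) + γ ^ 2 * var p f := by
  set μ := av p f with hμ
  have hpos : 0 < av p (fun z => Real.exp (-(γ * f z))) := by
    have hne : ∃ z, 0 < p z := by
      by_contra hcon
      push Not at hcon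
      have : ∑ z, p z ≤ 0 := Finset.sum_nonpos fun z _ => hcon z
      rw [hp.sum] at this
      linarith
    obtain ⟨z, hz⟩ := hne
    exact Finset.sum_pos' (fun z _ => mul_nonneg (hp.nn z) (Real.exp_pos _).le)
      ⟨z, Finset.mem_univ z, mul_pos hz (Real.exp_pos _)⟩
  rw [Real.log_le_iff_le_exp hpos]
  have e1 : ∀ z, Real.exp (-(γ * f z))
      ≤ Real.exp (-(γ * μ)) * (1 + (-(γ * (f z - μ))) + (γ * (f z - μ)) ^ 2) := by
    intro z
    have h1 : Real.exp (-(γ * (f z - μ))) ≤ 1 + (-(γ * (f z - μ))) + (γ * (f z - μ)) ^ 2 := by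
      have h2 := Real.abs_exp_sub_one_sub_id_le (x := -(γ * (f z - μ))) (by
        rw [abs_neg]; exact h z)
      have h3 := (abs_le.1 h2).2
      have : (-(γ * (f z - μ))) ^ 2 = (γ * (f z - μ)) ^ 2 := by ring
      rw [this] at h3
      linarith
    calc Real.exp (-(γ * f z)) = Real.exp (-(γ * μ)) * Real.exp (-(γ * (f z - μ))) := by
          rw [← Real.exp_add]; congr 1; ring
      _ ≤ _ := mul_le_mul_of_nonneg_left h1 (Real.exp_pos _).le
  have e2 : av p (fun z => Real.exp (-(γ * f z)))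
      ≤ Real.exp (-(γ * μ)) * (1 + γ ^ 2 * var p f) := by
    calc av p (fun z => Real.exp (-(γ * f z)))
        ≤ av p (fun z => Real.exp (-(γ * μ))
            * (1 + (-(γ * (f z - μ))) + (γ * (f z - μ)) ^ 2)) := av_mono hp.nn e1
      _ = Real.exp (-(γ * μ)) * (1 + γ ^ 2 * var p f) := by
          rw [av_smul]
          congr 1
          have : (fun z => 1 + (-(γ * (f z - μ))) + (γ * (f z - μ)) ^ 2)
              = fun z => (1 + (-γ) * (f z - μ)) + γ ^ 2 * (f z - μ) ^ 2 := by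
            funext z; ring
          rw [this, av_add, av_add, av_smul, av_smul, av_const hp, av_sub, av_const hp, ← hμ]
          unfold var
          rw [← hμ]
          ring
  have e3 : 1 + γ ^ 2 * var p f ≤ Real.exp (γ ^ 2 * var p f) := by
    have := Real.add_one_le_exp (γ ^ 2 * var p f)
    linarith
  calc av p (fun z => Real.exp (-(γ * f z)))
      ≤ Real.exp (-(γ * μ)) * (1 + γ ^ 2 * var p f) := e2
    _ ≤ Real.exp (-(γ * μ)) * Real.exp (γ ^ 2 * var p f) :=
        mul_le_mul_of_nonneg_left e3 (Real.exp_pos _).le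
    _ = Real.exp (-(γ * μ) + γ ^ 2 * var p f) := by rw [← Real.exp_add]

/-- The same with centre `c` and range `R`. -/
theorem log_mix_plain {p f : Z → ℝ} (hp : Pv p) {γ c R : ℝ} (hγ : 0 ≤ γ)
    (h : ∀ z, |f z - c| ≤ R) (hR : γ * R ≤ 1) :
    Real.log (av p (fun z => Real.exp (-(γ * f z)))) ≤ -(γ * av p f) + γ ^ 2 * R ^ 2 := by
  set μ := av p f with hμ
  have hpos : 0 < av p (fun z => Real.exp (-(γ * f z))) := by
    have hne : ∃ z, 0 < p z := by
      by_contra hcon
      push Not at hcon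
      have : ∑ z, p z ≤ 0 := Finset.sum_nonpos fun z _ => hcon z
      rw [hp.sum] at this
      linarith
    obtain ⟨z, hz⟩ := hne
    exact Finset.sum_pos' (fun z _ => mul_nonneg (hp.nn z) (Real.exp_pos _).le)
      ⟨z, Finset.mem_univ z, mul_pos hz (Real.exp_pos _)⟩
  rw [Real.log_le_iff_le_exp hpos]
  have e1 : ∀ z, Real.exp (-(γ * f z))
      ≤ Real.exp (-(γ * c)) * (1 + (-γ) * (f z - c) + γ ^ 2 * R ^ 2) := by
    intro z
    have hz : |γ * (f z - c)| ≤ 1 := by
      rw [abs_mul, abs_of_nonneg hγ]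
      exact (mul_le_mul_of_nonneg_left (h z) hγ).trans hR
    have h1 : Real.exp (-(γ * (f z - c))) ≤ 1 + (-γ) * (f z - c) + γ ^ 2 * R ^ 2 := by
      have h2 := Real.abs_exp_sub_one_sub_id_le (x := -(γ * (f z - c))) (by
        rw [abs_neg]; exact hz)
      have h3 := (abs_le.1 h2).2
      have h4 : (-(γ * (f z - c))) ^ 2 ≤ γ ^ 2 * R ^ 2 := by
        have h5 : (f z - c) ^ 2 ≤ R ^ 2 := by
          rw [← sq_abs (f z - c)]
          exact pow_le_pow_left₀ (abs_nonneg _) (h z) 2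
        calc (-(γ * (f z - c))) ^ 2 = γ ^ 2 * (f z - c) ^ 2 := by ring
          _ ≤ γ ^ 2 * R ^ 2 := mul_le_mul_of_nonneg_left h5 (sq_nonneg _)
      linarith
    calc Real.exp (-(γ * f z)) = Real.exp (-(γ * c)) * Real.exp (-(γ * (f z - c))) := by
          rw [← Real.exp_add]; congr 1; ring
      _ ≤ _ := mul_le_mul_of_nonneg_left h1 (Real.exp_pos _).le
  have e2 : av p (fun z => Real.exp (-(γ * f z)))
      ≤ Real.exp (-(γ * c)) * (1 + (-γ) * (μ - c) + γ ^ 2 * R ^ 2) := by
    calc av p (fun z => Real.exp (-(γ * f z)))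
        ≤ av p (fun z => Real.exp (-(γ * c)) * (1 + (-γ) * (f z - c) + γ ^ 2 * R ^ 2)) :=
          av_mono hp.nn e1
      _ = _ := by
          rw [av_smul, av_add, av_add, av_smul, av_sub, av_const hp, av_const hp,
            av_const hp, ← hμ]
  have e3 : 1 + (-γ) * (μ - c) + γ ^ 2 * R ^ 2
      ≤ Real.exp ((-γ) * (μ - c) + γ ^ 2 * R ^ 2) := by
    have := Real.add_one_le_exp ((-γ) * (μ - c) + γ ^ 2 * R ^ 2)
    linarith
  calc av p (fun z => Real.exp (-(γ * f z)))
      ≤ Real.exp (-(γ * c)) * (1 + (-γ) * (μ - c) + γ ^ 2 * R ^ 2) := e2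
    _ ≤ Real.exp (-(γ * c)) * Real.exp ((-γ) * (μ - c) + γ ^ 2 * R ^ 2) :=
        mul_le_mul_of_nonneg_left e3 (Real.exp_pos _).le
    _ = Real.exp (-(γ * μ) + γ ^ 2 * R ^ 2) := by
        rw [← Real.exp_add]; congr 1; ring

/-! ### The hedge -/

/-- cumulated loss of the ranks below `k` -/
def cum (u : ℕ → Z → ℝ) (k : ℕ) (z : Z) : ℝ := ∑ i ∈ range k, u i z

/-- unnormalised weight -/
noncomputable def wt (π : Z → ℝ) (γ : ℝ) (U : Z → ℝ) (z : Z) : ℝ :=
  π z * Real.exp (-(γ * U z))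

/-- partition function -/
noncomputable def tot (π : Z → ℝ) (γ : ℝ) (U : Z → ℝ) : ℝ := ∑ z, wt π γ U z

/-- the hedge kernel with prior `π`, rate `γ`, cumulated losses `U` -/
noncomputable def ker (π : Z → ℝ) (γ : ℝ) (U : Z → ℝ) (z : Z) : ℝ :=
  wt π γ U z / tot π γ U

/-- strictly positive prior -/
structure Prior (π : Z → ℝ) : Prop where
  pos : ∀ z, 0 < π z
  sum : ∑ z, π z = 1

theorem Prior.pv {π : Z → ℝ} (h : Prior π) : Pv π := ⟨fun z => (h.pos z).le, h.sum⟩

theorem Prior.nonempty {π : Z → ℝ} (h : Prior π) : Nonempty Z := by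
  by_contra hcon
  rw [not_nonempty_iff] at hcon
  have := h.sum
  simp at this

theorem wt_pos {π : Z → ℝ} (h : Prior π) (γ : ℝ) (U : Z → ℝ) (z : Z) : 0 < wt π γ U z :=
  mul_pos (h.pos z) (Real.exp_pos _)

theorem tot_pos {π : Z → ℝ} (h : Prior π) (γ : ℝ) (U : Z → ℝ) : 0 < tot π γ U := by
  have := h.nonempty
  exact Finset.sum_pos (fun z _ => wt_pos h γ U z) Finset.univ_nonempty

theorem tot_zero {π : Z → ℝ} (h : Prior π) (γ : ℝ) : tot π γ (fun _ => 0) = 1 := by
  unfold tot wt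
  simpa using h.sum

theorem ker_pos {π : Z → ℝ} (h : Prior π) (γ : ℝ) (U : Z → ℝ) (z : Z) : 0 < ker π γ U z :=
  div_pos (wt_pos h γ U z) (tot_pos h γ U)

theorem ker_pv {π : Z → ℝ} (h : Prior π) (γ : ℝ) (U : Z → ℝ) : Pv (ker π γ U) := by
  refine ⟨fun z => (ker_pos h γ U z).le, ?_⟩
  unfold ker
  rw [← Finset.sum_div]
  exact div_self (tot_pos h γ U).ne'

/-- one more loss vector multiplies the partition function by the mixture. -/
theorem tot_add {π : Z → ℝ} (h : Prior π) (γ : ℝ) (U f : Z → ℝ) :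
    tot π γ (fun z => U z + f z)
      = tot π γ U * av (ker π γ U) (fun z => Real.exp (-(γ * f z))) := by
  have ht := (tot_pos h γ U).ne'
  unfold av ker
  rw [Finset.mul_sum]
  unfold tot at *
  refine Finset.sum_congr rfl fun z _ => ?_
  have : wt π γ (fun z => U z + f z) z = wt π γ U z * Real.exp (-(γ * f z)) := by
    unfold wt
    rw [mul_assoc, ← Real.exp_add]
    congr 2
    ring
  rw [this]
  field_simp

/-- free energy `Φ(U) = -(1/γ) log Σ π e^{-γ U}` -/
noncomputable def Phi (π : Z → ℝ) (γ : ℝ) (U : Z → ℝ) : ℝ := -(1 / γ) * Real.log (tot π γ U)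

theorem Phi_zero {π : Z → ℝ} (h : Prior π) (γ : ℝ) : Phi π γ (fun _ => 0) = 0 := by
  unfold Phi
  rw [tot_zero h, Real.log_one, mul_zero]

theorem Phi_add {π : Z → ℝ} (h : Prior π) (γ : ℝ) (U f : Z → ℝ) :
    Phi π γ (fun z => U z + f z) - Phi π γ U
      = -(1 / γ) * Real.log (av (ker π γ U) (fun z => Real.exp (-(γ * f z)))) := by
  have h1 := tot_pos h γ U
  have h2 : 0 < av (ker π γ U) (fun z => Real.exp (-(γ * f z))) := by
    have h3 := tot_pos h γ (fun z => U z + f z)
    rw [tot_add h] at h3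
    exact (pos_iff_pos_of_mul_pos h3).1 h1
  unfold Phi
  rw [tot_add h, Real.log_mul h1.ne' h2.ne']
  ring

/-- the free energy is at most the loss of any letter plus its price. -/
theorem Phi_le {π : Z → ℝ} (h : Prior π) {γ : ℝ} (hγ : 0 < γ) (U : Z → ℝ) (z : Z) :
    Phi π γ U ≤ U z + Real.log (1 / π z) / γ := by
  have h1 : wt π γ U z ≤ tot π γ U :=
    Finset.single_le_sum (f := wt π γ U) (fun z _ => (wt_pos h γ U z).le) (Finset.mem_univ z)
  have h2 : Real.log (wt π γ U z) ≤ Real.log (tot π γ U) :=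
    Real.log_le_log (wt_pos h γ U z) h1
  have h3 : Real.log (wt π γ U z) = Real.log (π z) - γ * U z := by
    unfold wt
    rw [Real.log_mul (h.pos z).ne' (Real.exp_pos _).ne', Real.log_exp]
    ring
  have h4 : Real.log (1 / π z) = -Real.log (π z) := by
    rw [one_div, Real.log_inv]
  unfold Phi
  rw [h4]
  rw [h3] at h2
  have h5 : -(1 / γ) * Real.log (tot π γ U) ≤ -(1 / γ) * (Real.log (π z) - γ * U z) := by
    have : 0 < 1 / γ := by positivity
    nlinarith
  calc -(1 / γ) * Real.log (tot π γ U) ≤ -(1 / γ) * (Real.log (π z) - γ * U z) := h5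
    _ = U z + -Real.log (π z) / γ := by field_simp; ring

/-- ONE STEP with a greedy share `1/g`:
`(1 - 1/g) <ρ,f> + (1/g) min f ≤ Φ(U+f) - Φ(U)` as soon as `γ g osc f ≤ 1`. -/
theorem step_greedy {π : Z → ℝ} (h : Prior π) {γ g o m : ℝ} (hγ : 0 < γ) (hg : 1 ≤ g)
    (ho : γ * g * o ≤ 1) (U f : Z → ℝ) (h1 : ∀ z, m ≤ f z) (h2 : ∀ z, f z ≤ m + o) :
    (1 - 1 / g) * av (ker π γ U) f + (1 / g) * m
      ≤ Phi π γ (fun z => U z + f z) - Phi π γ U := by
  have hp := ker_pv h γ U
  set p := ker π γ U with hpdef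
  have hne := h.nonempty
  obtain ⟨z0⟩ := hne
  have ho0 : 0 ≤ o := by have := h1 z0; have := h2 z0; linarith
  have hm1 : m ≤ av p f := le_av hp h1
  have hm2 : av p f ≤ m + o := av_le hp h2
  have hgpos : 0 < g := by linarith
  have hγo : γ * o ≤ 1 := by
    have : γ * o ≤ γ * g * o := by
      have := mul_nonneg hγ.le ho0
      nlinarith
    linarith
  have habs : ∀ z, |γ * (f z - av p f)| ≤ 1 := by
    intro z
    rw [abs_mul, abs_of_pos hγ]
    have : |f z - av p f| ≤ o := by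
      rw [abs_le]
      have := h1 z; have := h2 z
      constructor <;> linarith
    exact (mul_le_mul_of_nonneg_left this hγ.le).trans hγo
  have hmix := log_mix_le hp habs
  have hvar := var_le hp h1 h2
  rw [Phi_add h, ← hpdef]
  have hkey : γ * var p f ≤ (1 / g) * (av p f - m) := by
    have e1 : γ * var p f ≤ γ * (o * (av p f - m)) := mul_le_mul_of_nonneg_left hvar hγ.le
    have e2 : γ * o ≤ 1 / g := by
      rw [le_div_iff₀ hgpos]
      nlinarith
    have e3 : γ * (o * (av p f - m)) ≤ (1 / g) * (av p f - m) := by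
      have : 0 ≤ av p f - m := by linarith
      nlinarith
    linarith
  have hfin : av p f - γ * var p f
      ≤ -(1 / γ) * Real.log (av p (fun z => Real.exp (-(γ * f z)))) := by
    have hi : 0 < 1 / γ := by positivity
    have e1 : -(1 / γ) * (-(γ * av p f) + γ ^ 2 * var p f)
        ≤ -(1 / γ) * Real.log (av p (fun z => Real.exp (-(γ * f z)))) := by
      nlinarith
    calc av p f - γ * var p f = -(1 / γ) * (-(γ * av p f) + γ ^ 2 * var p f) := by
          field_simp; ring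
      _ ≤ _ := e1
  have : (1 - 1 / g) * av p f + (1 / g) * m = av p f - (1 / g) * (av p f - m) := by ring
  rw [this]
  linarith

/-- ONE STEP, ordinary hedge. -/
theorem step_plain {π : Z → ℝ} (h : Prior π) {γ c R : ℝ} (hγ : 0 < γ)
    (U f : Z → ℝ) (h1 : ∀ z, |f z - c| ≤ R) (hR : γ * R ≤ 1) :
    av (ker π γ U) f - γ * R ^ 2 ≤ Phi π γ (fun z => U z + f z) - Phi π γ U := by
  have hp := ker_pv h γ U
  have hmix := log_mix_plain hp hγ.le h1 hR
  rw [Phi_add h]
  have hi : 0 < 1 / γ := by positivity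
  have e1 : -(1 / γ) * (-(γ * av (ker π γ U) f) + γ ^ 2 * R ^ 2)
      ≤ -(1 / γ) * Real.log (av (ker π γ U) (fun z => Real.exp (-(γ * f z)))) := by
    nlinarith
  calc av (ker π γ U) f - γ * R ^ 2
      = -(1 / γ) * (-(γ * av (ker π γ U) f) + γ ^ 2 * R ^ 2) := by field_simp; ring
    _ ≤ _ := e1

omit [Fintype Z] in
theorem cum_zero (u : ℕ → Z → ℝ) : cum u 0 = fun _ => 0 := by
  funext z; simp [cum]

omit [Fintype Z] in
theorem cum_succ (u : ℕ → Z → ℝ) (k : ℕ) : cum u (k + 1) = fun z => cum u k z + u k z := by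
  funext z; simp [cum, Finset.sum_range_succ]

/-- telescoping of the free energies over the ranks -/
theorem sum_Phi {π : Z → ℝ} (h : Prior π) (γ : ℝ) (u : ℕ → Z → ℝ) (K : ℕ) :
    ∑ k ∈ range K, (Phi π γ (fun z => cum u k z + u k z) - Phi π γ (cum u k))
      = Phi π γ (cum u K) := by
  induction K with
  | zero => simp [cum_zero, Phi_zero h]
  | succ K ih =>
    rw [Finset.sum_range_succ, ih, cum_succ]
    ring

/-- **(B) of LEMMA 288-90, robust form.** `r k` = value of player `k` at the state (mean over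
the greedy coin), `e k` = error of estimation. -/
theorem hedge_greedy {π : Z → ℝ} (h : Prior π) {γ g : ℝ} (hγ : 0 < γ) (hg : 1 ≤ g)
    (u : ℕ → Z → ℝ) (K : ℕ) (o m r e : ℕ → ℝ)
    (ho : ∀ k < K, γ * g * o k ≤ 1)
    (h1 : ∀ k < K, ∀ z, m k ≤ u k z) (h2 : ∀ k < K, ∀ z, u k z ≤ m k + o k)
    (hr : ∀ k < K, r k ≤ (1 - 1 / g) * av (ker π γ (cum u k)) (u k) + (1 / g) * m k + e k)
    (z : Z) :
    ∑ k ∈ range K, r k
      ≤ ∑ k ∈ range K, u k z + Real.log (1 / π z) / γ + ∑ k ∈ range K, e k := by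
  have e1 : ∑ k ∈ range K, r k
      ≤ ∑ k ∈ range K,
        ((Phi π γ (fun z => cum u k z + u k z) - Phi π γ (cum u k)) + e k) := by
    refine Finset.sum_le_sum fun k hk => ?_
    have hk' := Finset.mem_range.1 hk
    have := step_greedy h hγ hg (ho k hk') (cum u k) (u k) (h1 k hk') (h2 k hk')
    linarith [hr k hk']
  rw [Finset.sum_add_distrib, sum_Phi h] at e1
  have e2 := Phi_le h hγ (cum u K) z
  have e3 : cum u K z = ∑ k ∈ range K, u k z := rfl
  rw [e3] at e2
  linarith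

/-- the same with separate values at a non greedy (`a k`) and at a greedy level (`b k`). -/
theorem hedge_greedy' {π : Z → ℝ} (h : Prior π) {γ g : ℝ} (hγ : 0 < γ) (hg : 1 ≤ g)
    (u : ℕ → Z → ℝ) (K : ℕ) (o m a b ea eb : ℕ → ℝ)
    (ho : ∀ k < K, γ * g * o k ≤ 1)
    (h1 : ∀ k < K, ∀ z, m k ≤ u k z) (h2 : ∀ k < K, ∀ z, u k z ≤ m k + o k)
    (ha : ∀ k < K, a k ≤ av (ker π γ (cum u k)) (u k) + ea k)
    (hb : ∀ k < K, b k ≤ m k + eb k) (z : Z) :
    ∑ k ∈ range K, ((1 - 1 / g) * a k + (1 / g) * b k)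
      ≤ ∑ k ∈ range K, u k z + Real.log (1 / π z) / γ
        + ∑ k ∈ range K, ((1 - 1 / g) * ea k + (1 / g) * eb k) := by
  refine hedge_greedy h hγ hg u K o m _ _ ho h1 h2 (fun k hk => ?_) z
  have hg0 : 0 ≤ 1 / g := by positivity
  have hg1 : 0 ≤ 1 - 1 / g := by
    have : 1 / g ≤ 1 := by rw [div_le_one (by linarith)]; exact hg
    linarith
  have e1 := mul_le_mul_of_nonneg_left (ha k hk) hg1
  have e2 := mul_le_mul_of_nonneg_left (hb k hk) hg0
  linarith

/-- ordinary hedge over the ranks, range `R`. -/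
theorem hedge_plain {π : Z → ℝ} (h : Prior π) {η R : ℝ} (hη : 0 < η) (hR : η * R ≤ 1)
    (u : ℕ → Z → ℝ) (K : ℕ) (c r e : ℕ → ℝ)
    (h1 : ∀ k < K, ∀ z, |u k z - c k| ≤ R)
    (hr : ∀ k < K, r k ≤ av (ker π η (cum u k)) (u k) + e k) (z : Z) :
    ∑ k ∈ range K, r k
      ≤ ∑ k ∈ range K, u k z + Real.log (1 / π z) / η + K * (η * R ^ 2)
        + ∑ k ∈ range K, e k := by
  have e1 : ∑ k ∈ range K, r k
      ≤ ∑ k ∈ range K,
        ((Phi π η (fun z => cum u k z + u k z) - Phi π η (cum u k)) + (η * R ^ 2 + e k)) := by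
    refine Finset.sum_le_sum fun k hk => ?_
    have hk' := Finset.mem_range.1 hk
    have := step_plain h hη (cum u k) (u k) (h1 k hk') hR
    linarith [hr k hk']
  rw [Finset.sum_add_distrib, sum_Phi h, Finset.sum_add_distrib, Finset.sum_const,
    Finset.card_range, nsmul_eq_mul] at e1
  have e2 := Phi_le h hη (cum u K) z
  have e3 : cum u K z = ∑ k ∈ range K, u k z := rfl
  rw [e3] at e2
  linarith

/-! ### Kernels computed from estimates -/

theorem wt_noise {π : Z → ℝ} (h : Prior π) {γ E : ℝ} (hγ : 0 ≤ γ) {U U' : Z → ℝ}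
    (hU : ∀ z, |U' z - U z| ≤ E) (z : Z) : wt π γ U' z ≤ Real.exp (γ * E) * wt π γ U z := by
  unfold wt
  have h1 : -(γ * U' z) ≤ γ * E + -(γ * U z) := by
    have := (abs_le.1 (hU z)).1
    nlinarith
  calc π z * Real.exp (-(γ * U' z)) ≤ π z * Real.exp (γ * E + -(γ * U z)) :=
        mul_le_mul_of_nonneg_left (Real.exp_le_exp.2 h1) (h.pos z).le
    _ = _ := by rw [Real.exp_add]; ring

theorem tot_noise {π : Z → ℝ} (h : Prior π) {γ E : ℝ} (hγ : 0 ≤ γ) {U U' : Z → ℝ}
    (hU : ∀ z, |U' z - U z| ≤ E) : tot π γ U' ≤ Real.exp (γ * E) * tot π γ U := by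
  unfold tot
  rw [Finset.mul_sum]
  exact Finset.sum_le_sum fun z _ => wt_noise h hγ hU z

/-- kernel from estimates of the cumulated losses with error `≤ E`: factor `exp(2 γ E)`. -/
theorem ker_noise {π : Z → ℝ} (h : Prior π) {γ E : ℝ} (hγ : 0 ≤ γ) {U U' : Z → ℝ}
    (hU : ∀ z, |U' z - U z| ≤ E) (z : Z) :
    ker π γ U' z ≤ Real.exp (2 * γ * E) * ker π γ U z := by
  have hU' : ∀ z, |U z - U' z| ≤ E := fun z => by rw [abs_sub_comm]; exact hU z
  have h1 := wt_noise h hγ hU z
  have h2 := tot_noise h hγ hU'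
  have p1 := tot_pos h γ U
  have p2 := tot_pos h γ U'
  unfold ker
  rw [div_le_iff₀ p2]
  calc wt π γ U' z ≤ Real.exp (γ * E) * wt π γ U z := h1
    _ = Real.exp (γ * E) * (wt π γ U z / tot π γ U) * tot π γ U := by field_simp
    _ ≤ Real.exp (γ * E) * (wt π γ U z / tot π γ U) * (Real.exp (γ * E) * tot π γ U') :=
        mul_le_mul_of_nonneg_left h2
          (mul_nonneg (Real.exp_pos _).le (div_nonneg (wt_pos h γ U z).le p1.le))
    _ = Real.exp (2 * γ * E) * (wt π γ U z / tot π γ U) * tot π γ U' := by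
        have : Real.exp (2 * γ * E) = Real.exp (γ * E) * Real.exp (γ * E) := by
          rw [← Real.exp_add]; congr 1; ring
        rw [this]; ring

theorem ker_noise_abs {π : Z → ℝ} (h : Prior π) {γ E : ℝ} (hγ : 0 ≤ γ) {U U' : Z → ℝ}
    (hU : ∀ z, |U' z - U z| ≤ E) (z : Z) :
    |ker π γ U' z - ker π γ U z| ≤ (Real.exp (2 * γ * E) - 1) * ker π γ U z := by
  have hU' : ∀ z, |U z - U' z| ≤ E := fun z => by rw [abs_sub_comm]; exact hU z
  have hE : 0 ≤ E := (abs_nonneg _).trans (hU z)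
  have h1 := ker_noise h hγ hU z
  have h2 := ker_noise h hγ hU' z
  have p1 := ker_pos h γ U z
  have p2 := ker_pos h γ U' z
  set x := Real.exp (2 * γ * E) with hx
  have hx1 : 1 ≤ x := Real.one_le_exp (by positivity)
  rw [abs_le]
  constructor
  · -- `ker U' ≥ ker U / x ≥ (2 - x) ker U`
    have h3 : ker π γ U z / x ≤ ker π γ U' z := by
      rw [div_le_iff₀ (by linarith)]; linarith
    have h4 : (2 - x) * ker π γ U z ≤ ker π γ U z / x := by
      rw [le_div_iff₀ (by linarith)]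
      have : (2 - x) * x ≤ 1 := by nlinarith [sq_nonneg (x - 1)]
      nlinarith
    linarith
  · linarith

/-- the value of any bounded function under the noisy kernel. -/
theorem av_noise {π : Z → ℝ} (h : Prior π) {γ E B : ℝ} (hγ : 0 ≤ γ) {U U' f : Z → ℝ}
    (hU : ∀ z, |U' z - U z| ≤ E) (hf : ∀ z, |f z| ≤ B) :
    |av (ker π γ U') f - av (ker π γ U) f| ≤ (Real.exp (2 * γ * E) - 1) * B := by
  have hp := ker_pv h γ U
  have hne := h.nonempty
  obtain ⟨z0⟩ := hne
  have hE : 0 ≤ E := (abs_nonneg _).trans (hU z0)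
  have hx1 : 0 ≤ Real.exp (2 * γ * E) - 1 := by
    have := Real.one_le_exp (x := 2 * γ * E) (by positivity)
    linarith
  have e1 : av (ker π γ U') f - av (ker π γ U) f
      = ∑ z, (ker π γ U' z - ker π γ U z) * f z := by
    unfold av
    rw [← Finset.sum_sub_distrib]
    exact Finset.sum_congr rfl fun z _ => by ring
  rw [e1]
  calc |∑ z, (ker π γ U' z - ker π γ U z) * f z|
      ≤ ∑ z, |(ker π γ U' z - ker π γ U z) * f z| := Finset.abs_sum_le_sum_abs _ _
    _ ≤ ∑ z, ((Real.exp (2 * γ * E) - 1) * B) * ker π γ U z := by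
        refine Finset.sum_le_sum fun z _ => ?_
        rw [abs_mul]
        have h1 := ker_noise_abs h hγ hU z
        have h2 := hf z
        calc |ker π γ U' z - ker π γ U z| * |f z|
            ≤ ((Real.exp (2 * γ * E) - 1) * ker π γ U z) * B :=
              mul_le_mul h1 h2 (abs_nonneg _) (mul_nonneg hx1 (ker_pos h γ U z).le)
          _ = _ := by ring
    _ = (Real.exp (2 * γ * E) - 1) * B := by
        rw [← Finset.mul_sum, hp.sum, mul_one]

/-- osc form: only `f - c` matters. -/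
theorem av_noise' {π : Z → ℝ} (h : Prior π) {γ E B c : ℝ} (hγ : 0 ≤ γ) {U U' f : Z → ℝ}
    (hU : ∀ z, |U' z - U z| ≤ E) (hf : ∀ z, |f z - c| ≤ B) :
    |av (ker π γ U') f - av (ker π γ U) f| ≤ (Real.exp (2 * γ * E) - 1) * B := by
  have h1 := av_noise h hγ hU hf
  rw [av_sub, av_sub, av_const (ker_pv h γ U'), av_const (ker_pv h γ U)] at h1
  have : av (ker π γ U') f - c - (av (ker π γ U) f - c)
      = av (ker π γ U') f - av (ker π γ U) f := by ring
  rwa [this] at h1

/-! ### Prod with a special expert -/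

/-- weight of the other expert -/
noncomputable def pw (μ η : ℝ) (r : ℕ → ℝ) (k : ℕ) : ℝ := μ * ∏ i ∈ range k, (1 + η * r i)

/-- probability of the other expert -/
noncomputable def pp (μ η : ℝ) (r : ℕ → ℝ) (k : ℕ) : ℝ := pw μ η r k / (1 + pw μ η r k)

theorem pw_pos {μ η : ℝ} (hμ : 0 < μ) (hη : 0 < η) (hη2 : η ≤ 1 / 2) {r : ℕ → ℝ} {k : ℕ}
    (hr : ∀ i < k, |r i| ≤ 1) : 0 < pw μ η r k := by
  unfold pw
  refine mul_pos hμ (Finset.prod_pos fun i hi => ?_)
  have := (abs_le.1 (hr i (Finset.mem_range.1 hi))).1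
  nlinarith

theorem pp_nonneg {μ η : ℝ} (hμ : 0 < μ) (hη : 0 < η) (hη2 : η ≤ 1 / 2) {r : ℕ → ℝ} {k : ℕ}
    (hr : ∀ i < k, |r i| ≤ 1) : 0 ≤ pp μ η r k := by
  have := pw_pos hμ hη hη2 hr
  unfold pp; positivity

theorem pp_le_one {μ η : ℝ} (hμ : 0 < μ) (hη : 0 < η) (hη2 : η ≤ 1 / 2) {r : ℕ → ℝ} {k : ℕ}
    (hr : ∀ i < k, |r i| ≤ 1) : pp μ η r k ≤ 1 := by
  have := pw_pos hμ hη hη2 hr
  unfold pp
  rw [div_le_one (by linarith)]
  linarith

/-- the potential `1 + W` grows by the factor `1 + η p r`. -/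
theorem pot_step {μ η : ℝ} (hμ : 0 < μ) (hη : 0 < η) (hη2 : η ≤ 1 / 2) {r : ℕ → ℝ} {k : ℕ}
    (hr : ∀ i < k, |r i| ≤ 1) :
    1 + pw μ η r (k + 1) = (1 + pw μ η r k) * (1 + η * (pp μ η r k * r k)) := by
  have h1 := pw_pos hμ hη hη2 hr
  have h2 : pw μ η r (k + 1) = pw μ η r k * (1 + η * r k) := by
    unfold pw
    rw [Finset.prod_range_succ]; ring
  rw [h2]
  unfold pp
  field_simp
  ring

theorem pot_le {μ η : ℝ} (hμ : 0 < μ) (hη : 0 < η) (hη2 : η ≤ 1 / 2) {r : ℕ → ℝ} (K : ℕ)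
    (hr : ∀ i < K, |r i| ≤ 1) :
    1 + pw μ η r K ≤ (1 + μ) * Real.exp (η * ∑ k ∈ range K, pp μ η r k * r k) := by
  induction K with
  | zero => simp [pw]
  | succ K ih =>
    have hr' : ∀ i < K, |r i| ≤ 1 := fun i hi => hr i (by omega)
    have ih' := ih hr'
    have e0 : (1 + μ) * Real.exp (η * ∑ k ∈ range (K + 1), pp μ η r k * r k)
        = (1 + μ) * Real.exp (η * ∑ k ∈ range K, pp μ η r k * r k)
          * Real.exp (η * (pp μ η r K * r K)) := by
      rw [Finset.sum_range_succ, mul_assoc, ← Real.exp_add]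
      congr 2
      ring
    rw [pot_step hμ hη hη2 hr', e0]
    have h1 := pw_pos hμ hη hη2 hr'
    have h2 : 1 + η * (pp μ η r K * r K) ≤ Real.exp (η * (pp μ η r K * r K)) := by
      have := Real.add_one_le_exp (η * (pp μ η r K * r K))
      linarith
    have h3 : 0 ≤ 1 + η * (pp μ η r K * r K) := by
      have a1 := pp_nonneg hμ hη hη2 hr'
      have a2 := pp_le_one hμ hη hη2 hr'
      have a3 := (abs_le.1 (hr K (by omega))).1
      have a4 : -1 ≤ pp μ η r K * r K := by nlinarith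
      nlinarith
    exact mul_le_mul ih' h2 h3 (mul_nonneg (by linarith) (Real.exp_pos _).le)

/-- `exp (x - 2 x²) ≤ 1 + x` for `-1/2 ≤ x`. -/
theorem exp_sub_sq_le {x : ℝ} (hx : -(1 / 2) ≤ x) : Real.exp (x - 2 * x ^ 2) ≤ 1 + x := by
  have hpos : 0 < 1 + x := by linarith
  have h1 : 1 - (1 + x)⁻¹ ≤ Real.log (1 + x) := Real.one_sub_inv_le_log_of_pos hpos
  have h2 : x - 2 * x ^ 2 ≤ 1 - (1 + x)⁻¹ := by
    have e : 1 - (1 + x)⁻¹ = x / (1 + x) := by field_simp; ring
    rw [e, le_div_iff₀ hpos]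
    nlinarith [mul_nonneg (sq_nonneg x) (by linarith : (0:ℝ) ≤ 1 + 2 * x)]
  calc Real.exp (x - 2 * x ^ 2) ≤ Real.exp (Real.log (1 + x)) :=
        Real.exp_le_exp.2 (h2.trans h1)
    _ = 1 + x := Real.exp_log hpos

theorem pw_ge {μ η : ℝ} (hμ : 0 < μ) (hη : 0 < η) (hη2 : η ≤ 1 / 2) {r : ℕ → ℝ} (K : ℕ)
    (hr : ∀ i < K, |r i| ≤ 1) :
    μ * Real.exp (η * ∑ k ∈ range K, r k - 2 * η ^ 2 * K) ≤ pw μ η r K := by
  induction K with
  | zero => simp [pw]
  | succ K ih =>
    have hr' : ∀ i < K, |r i| ≤ 1 := fun i hi => hr i (by omega)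
    have ih' := ih hr'
    have h2 : pw μ η r (K + 1) = pw μ η r K * (1 + η * r K) := by
      unfold pw
      rw [Finset.prod_range_succ]; ring
    have hrK := hr K (by omega)
    have hx : -(1 / 2) ≤ η * r K := by
      have := (abs_le.1 hrK).1
      nlinarith
    have h3 : Real.exp (η * r K - 2 * η ^ 2) ≤ 1 + η * r K := by
      refine le_trans (Real.exp_le_exp.2 ?_) (exp_sub_sq_le hx)
      have : (r K) ^ 2 ≤ 1 := by
        rw [← sq_abs]
        exact pow_le_one₀ (abs_nonneg _) hrK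
      nlinarith [sq_nonneg η]
    rw [h2, Finset.sum_range_succ]
    have h4 : η * (∑ k ∈ range K, r k + r K) - 2 * η ^ 2 * ((K + 1 : ℕ) : ℝ)
        = (η * ∑ k ∈ range K, r k - 2 * η ^ 2 * K) + (η * r K - 2 * η ^ 2) := by
      push_cast; ring
    rw [h4, Real.exp_add, ← mul_assoc]
    exact mul_le_mul ih' h3 (Real.exp_pos _).le (pw_pos hμ hη hη2 hr').le

/-- **Prod with a special expert**: `p k` = probability of the other expert, `r k` = its
advantage. Never worse than the special expert by more than `μ/η` in total, and at most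
`2 η K + (log (1/μ) + μ)/η` worse than the other one. -/
theorem prod_special {μ η : ℝ} (hμ : 0 < μ) (hη : 0 < η) (hη2 : η ≤ 1 / 2) {r : ℕ → ℝ}
    (K : ℕ) (hr : ∀ i < K, |r i| ≤ 1) :
    -(μ / η) ≤ ∑ k ∈ range K, pp μ η r k * r k ∧
    ∑ k ∈ range K, r k - 2 * η * K - (Real.log (1 / μ) + μ) / η
      ≤ ∑ k ∈ range K, pp μ η r k * r k := by
  have h1 := pot_le hμ hη hη2 K hr
  have h2 := pw_pos hμ hη hη2 hr
  have h3 := pw_ge hμ hη hη2 K hr
  set S := ∑ k ∈ range K, pp μ η r k * r k with hS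
  have hμe : 1 + μ ≤ Real.exp μ := by
    have := Real.add_one_le_exp μ
    linarith
  constructor
  · have h4 : (1 : ℝ) ≤ Real.exp (μ + η * S) := by
      calc (1 : ℝ) ≤ 1 + pw μ η r K := by linarith
        _ ≤ (1 + μ) * Real.exp (η * S) := h1
        _ ≤ Real.exp μ * Real.exp (η * S) :=
            mul_le_mul_of_nonneg_right hμe (Real.exp_pos _).le
        _ = Real.exp (μ + η * S) := by rw [← Real.exp_add]
    have h5 : 0 ≤ μ + η * S := by
      have := Real.exp_le_exp.1 (by rwa [Real.exp_zero] : Real.exp 0 ≤ Real.exp (μ + η * S))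
      exact this
    have : -(μ / η) = (-μ) / η := by ring
    rw [this, div_le_iff₀ hη]
    linarith
  · set T := ∑ k ∈ range K, r k with hT
    have h4 : Real.exp (Real.log μ + (η * T - 2 * η ^ 2 * K)) ≤ Real.exp (μ + η * S) := by
      calc Real.exp (Real.log μ + (η * T - 2 * η ^ 2 * K))
          = μ * Real.exp (η * T - 2 * η ^ 2 * K) := by rw [Real.exp_add, Real.exp_log hμ]
        _ ≤ pw μ η r K := h3
        _ ≤ 1 + pw μ η r K := by linarith
        _ ≤ (1 + μ) * Real.exp (η * S) := h1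
        _ ≤ Real.exp μ * Real.exp (η * S) :=
            mul_le_mul_of_nonneg_right hμe (Real.exp_pos _).le
        _ = Real.exp (μ + η * S) := by rw [← Real.exp_add]
    have h5 := Real.exp_le_exp.1 h4
    have h6 : Real.log (1 / μ) = -Real.log μ := by rw [one_div, Real.log_inv]
    rw [h6]
    have h7 : T - 2 * η * K - (-Real.log μ + μ) / η
        = (Real.log μ + (η * T - 2 * η ^ 2 * K) - μ) / η := by
      field_simp; ring
    rw [h7, div_le_iff₀ hη]
    linarith

/-- probability from a noisy weight. -/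
theorem pp_noise {W W' x : ℝ} (hW : 0 < W) (hx : 0 ≤ x) (h1 : W' ≤ Real.exp x * W)
    (h2 : W ≤ Real.exp x * W') : |W' / (1 + W') - W / (1 + W)| ≤ Real.exp x - 1 := by
  have he : 1 ≤ Real.exp x := Real.one_le_exp hx
  have hW' : 0 < W' := by
    by_contra hcon
    push Not at hcon
    have : Real.exp x * W' ≤ 0 := mul_nonpos_of_nonneg_of_nonpos (Real.exp_pos x).le hcon
    linarith
  have e1 : W' / (1 + W') - W / (1 + W) = (W' - W) / ((1 + W') * (1 + W)) := by
    field_simp; ring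
  rw [e1, abs_div, abs_of_pos (by positivity : 0 < (1 + W') * (1 + W)),
    div_le_iff₀ (by positivity)]
  have h3 : |W' - W| ≤ (Real.exp x - 1) * max W W' := by
    rw [abs_le]
    constructor
    · have : W - W' ≤ (Real.exp x - 1) * W' := by linarith
      have : (Real.exp x - 1) * W' ≤ (Real.exp x - 1) * max W W' :=
        mul_le_mul_of_nonneg_left (le_max_right _ _) (by linarith)
      linarith
    · have : W' - W ≤ (Real.exp x - 1) * W := by linarith
      have : (Real.exp x - 1) * W ≤ (Real.exp x - 1) * max W W' :=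
        mul_le_mul_of_nonneg_left (le_max_left _ _) (by linarith)
      linarith
  have h4 : max W W' ≤ (1 + W') * (1 + W) := by
    rcases le_total W W' with h | h
    · rw [max_eq_right h]; nlinarith
    · rw [max_eq_left h]; nlinarith
  exact h3.trans (mul_le_mul_of_nonneg_left h4 (by linarith))

end Crest.Agent.R288.HdgB309
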