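import Mathlib

/-!
# R288: Hedge with LINEAR weights on the excess over the minimum (helper283, #4259)

Lemma (B) of #3987 for the weights `w (k+1) z = w k z * (1 - th * e k z)`, `e k z ≥ 0` the excess of
option `z` over (a lower bound of) the minimum, `th * e k z ≤ 1/g`; multiplicative rounding allowed.
No exponentials: everything a program does is `+`, `*`, shift.
-/

set_option autoImplicit false

open Finset

namespace Crest.Agent.R288.HedLin283

variable {A : Type*} [Fintype A]

/-- the mean of `f` under the weights `w` -/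
noncomputable def av (w f : A → ℝ) : ℝ := (∑ z, w z * f z) / ∑ z, w z

theorem av_const (w : A → ℝ) (c : ℝ) (h : (∑ z, w z) ≠ 0) : av w (fun _ => c) = c := by
  unfold av; rw [← Finset.sum_mul]; field_simp

theorem av_mono {w f f' : A → ℝ} (h0 : ∀ z, 0 ≤ w z) (hf : ∀ z, f z ≤ f' z) : av w f ≤ av w f' := by
  unfold av
  exact div_le_div_of_nonneg_right (sum_le_sum fun z _ => mul_le_mul_of_nonneg_left (hf z) (h0 z))
    (sum_nonneg fun z _ => h0 z)

theorem av_affine (w f : A → ℝ) (a b : ℝ) (h : (∑ z, w z) ≠ 0) :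
    av w (fun z => a * f z + b) = a * av w f + b := by
  unfold av
  have : (∑ z, w z * (a * f z + b)) = a * (∑ z, w z * f z) + (∑ z, w z) * b := by
    rw [mul_sum, sum_mul, ← sum_add_distrib]; exact sum_congr rfl fun z _ => by ring
  rw [this]; field_simp

theorem av_nonneg {w f : A → ℝ} (h0 : ∀ z, 0 ≤ w z) (hf : ∀ z, 0 ≤ f z) : 0 ≤ av w f :=
  div_nonneg (sum_nonneg fun z _ => mul_nonneg (h0 z) (hf z)) (sum_nonneg fun z _ => h0 z)

/-- `ln (1 - x) ≥ -(g/(g-1)) x` for `0 ≤ x ≤ 1/g`, `g > 1` -/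
theorem log_one_sub_ge {g x : ℝ} (hg : 1 < g) (hx0 : 0 ≤ x) (hx : x ≤ 1 / g) :
    -(g / (g - 1) * x) ≤ Real.log (1 - x) := by
  have hg0 : 0 < g := by linarith
  have hx1 : x * g ≤ 1 := by
    have := mul_le_mul_of_nonneg_right hx hg0.le
    rwa [div_mul_cancel₀ _ hg0.ne'] at this
  have h1x : 0 < 1 - x := by
    rcases eq_or_lt_of_le hx0 with h | h
    · rw [← h]; norm_num
    · nlinarith
  have h2 := Real.log_le_sub_one_of_pos (inv_pos.2 h1x)
  rw [Real.log_inv] at h2
  -- `log (1-x) ≥ 1 - 1/(1-x) = -x/(1-x)`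
  have h3 : (1 - x)⁻¹ - 1 = x / (1 - x) := by field_simp; ring
  have h4 : x / (1 - x) ≤ g / (g - 1) * x := by
    rw [div_mul_eq_mul_div, div_le_div_iff₀ h1x (by linarith)]
    nlinarith [mul_nonneg hx0 (sub_nonneg.2 hx1)]
  linarith

/-- **(B'), general form with rounding.**  `w k` positive weights, rounded downwards
(`w (k+1) z ≤ w k z (1 - th e)`), the comparator `z'` loses at most a factor `1 - r k`. -/
theorem main {K : ℕ} {w : ℕ → A → ℝ} {e : ℕ → A → ℝ} {r : ℕ → ℝ} {th g : ℝ} (z' : A)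
    (hg : 1 < g) (hth : 0 < th)
    (hw : ∀ k ≤ K, ∀ z, 0 ≤ w k z) (hw' : 0 < w 0 z')
    (he0 : ∀ k < K, 0 ≤ e k z') (he : ∀ k < K, th * e k z' ≤ 1 / g)
    (hr1 : ∀ k < K, r k < 1)
    (hup : ∀ k < K, ∀ z, w (k + 1) z ≤ w k z * (1 - th * e k z))
    (hlo : ∀ k < K, w k z' * (1 - th * e k z') * (1 - r k) ≤ w (k + 1) z') :
    (1 - 1 / g) * ∑ k ∈ range K, av (w k) (e k) ≤
      ∑ k ∈ range K, e k z' +
        (1 - 1 / g) * (Real.log ((∑ z, w 0 z) / w 0 z') - ∑ k ∈ range K, Real.log (1 - r k)) / th := by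
  have hg0 : 0 < g := by linarith
  have hlt1 : 1 / g < 1 := by rw [div_lt_one hg0]; exact hg
  -- positivity of the comparator's weight
  have hpos : ∀ k ≤ K, 0 < w k z' := by
    intro k
    induction k with
    | zero => intro _; exact hw'
    | succ k ih =>
      intro hk
      have h1 := ih (by omega)
      have h2 : 0 < 1 - th * e k z' := by have := he k (by omega); linarith
      have h3 : 0 < 1 - r k := by have := hr1 k (by omega); linarith
      exact lt_of_lt_of_le (mul_pos (mul_pos h1 h2) h3) (hlo k (by omega))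
  have hS : ∀ k ≤ K, 0 < ∑ z, w k z := fun k hk =>
    lt_of_lt_of_le (hpos k hk) (single_le_sum (f := fun z => w k z) (fun z _ => hw k hk z) (mem_univ z'))
  -- upper bound
  have hU : ∀ k ≤ K, Real.log (∑ z, w k z) ≤
      Real.log (∑ z, w 0 z) - th * ∑ i ∈ range k, av (w i) (e i) := by
    intro k
    induction k with
    | zero => intro _; simp
    | succ k ih =>
      intro hk
      have h1 := ih (by omega)
      have hSk := hS k (by omega)
      have h2 : (∑ z, w (k + 1) z) ≤ (∑ z, w k z) * (1 - th * av (w k) (e k)) := by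
        calc (∑ z, w (k + 1) z) ≤ ∑ z, w k z * (1 - th * e k z) :=
              sum_le_sum fun z _ => hup k (by omega) z
          _ = (∑ z, w k z) - th * ∑ z, w k z * e k z := by
              rw [mul_sum, ← sum_sub_distrib]; exact sum_congr rfl fun z _ => by ring
          _ = _ := by unfold av; field_simp
      have h3 : 0 < 1 - th * av (w k) (e k) := by
        have := lt_of_lt_of_le (hS (k + 1) hk) h2
        exact (pos_iff_pos_of_mul_pos this).1 hSk
      have h4 := Real.log_le_log (hS (k + 1) hk) h2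
      rw [Real.log_mul hSk.ne' h3.ne'] at h4
      have h5 := Real.log_le_sub_one_of_pos h3
      rw [sum_range_succ]
      linarith
  -- lower bound
  have hL : ∀ k ≤ K, Real.log (w 0 z') - g / (g - 1) * (th * ∑ i ∈ range k, e i z') +
      ∑ i ∈ range k, Real.log (1 - r i) ≤ Real.log (w k z') := by
    intro k
    induction k with
    | zero => intro _; simp
    | succ k ih =>
      intro hk
      have h1 := ih (by omega)
      have h2 : 0 < 1 - th * e k z' := by have := he k (by omega); linarith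
      have h3 : 0 < 1 - r k := by have := hr1 k (by omega); linarith
      have h4 := Real.log_le_log (mul_pos (mul_pos (hpos k (by omega)) h2) h3) (hlo k (by omega))
      rw [Real.log_mul (mul_pos (hpos k (by omega)) h2).ne' h3.ne',
        Real.log_mul (hpos k (by omega)).ne' h2.ne'] at h4
      have h5 := log_one_sub_ge hg (mul_nonneg hth.le (he0 k (by omega))) (he k (by omega))
      rw [sum_range_succ, sum_range_succ]
      have h6 : g / (g - 1) * (th * (∑ i ∈ range k, e i z' + e k z')) =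
          g / (g - 1) * (th * ∑ i ∈ range k, e i z') + g / (g - 1) * (th * e k z') := by ring
      linarith
  have h1 := hU K le_rfl
  have h2 := hL K le_rfl
  have h3 : Real.log (w K z') ≤ Real.log (∑ z, w K z) :=
    Real.log_le_log (hpos K le_rfl)
      (single_le_sum (f := fun z => w K z) (fun z _ => hw K le_rfl z) (mem_univ z'))
  have h4 : th * ∑ k ∈ range K, av (w k) (e k) ≤
      Real.log ((∑ z, w 0 z) / w 0 z') + g / (g - 1) * (th * ∑ i ∈ range K, e i z') -
        ∑ i ∈ range K, Real.log (1 - r i) := by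
    rw [Real.log_div (hS 0 (by omega)).ne' hw'.ne']; linarith
  have hc : (1 - 1 / g) * (g / (g - 1)) = 1 := by
    have : g - 1 ≠ 0 := by linarith
    field_simp
  have h5 := mul_le_mul_of_nonneg_left h4 (by linarith : (0 : ℝ) ≤ 1 - 1 / g)
  have h6 : (1 - 1 / g) * ∑ k ∈ range K, av (w k) (e k) * th ≤
      th * ∑ i ∈ range K, e i z' + (1 - 1 / g) *
        (Real.log ((∑ z, w 0 z) / w 0 z') - ∑ i ∈ range K, Real.log (1 - r i)) := by
    rw [← sum_mul]
    have h7 : (1 - 1 / g) * (g / (g - 1) * (th * ∑ i ∈ range K, e i z')) =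
        th * ∑ i ∈ range K, e i z' := by rw [← mul_assoc, hc, one_mul]
    linarith [h5, h7]
  have h8 : ∑ i ∈ range K, e i z' + (1 - 1 / g) *
      (Real.log ((∑ z, w 0 z) / w 0 z') - ∑ k ∈ range K, Real.log (1 - r k)) / th =
      (th * ∑ i ∈ range K, e i z' + (1 - 1 / g) *
        (Real.log ((∑ z, w 0 z) / w 0 z') - ∑ i ∈ range K, Real.log (1 - r i))) / th := by
    field_simp
  rw [h8, le_div_iff₀ hth]
  rw [← sum_mul] at h6
  linarith [h6]

/-- **(B') in values.**  `m k ≤ u k z` lower bounds (value of the greedy option), unit `U > 0`: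
`(1-1/g) ∑ <rho_k,u_k> + (1/g) ∑ m_k ≤ ∑ u_k(z') + U (ln (W_0/w_0(z')) + rounding)/th`. -/
theorem main_val {K : ℕ} {w : ℕ → A → ℝ} {u : ℕ → A → ℝ} {m r : ℕ → ℝ} {th g U : ℝ} (z' : A)
    (hg : 1 < g) (hth : 0 < th) (hUp : 0 < U)
    (hw : ∀ k ≤ K, ∀ z, 0 ≤ w k z) (hw' : 0 < w 0 z')
    (hm : ∀ k < K, m k ≤ u k z') (he : ∀ k < K, th * ((u k z' - m k) / U) ≤ 1 / g)
    (hr1 : ∀ k < K, r k < 1)
    (hup : ∀ k < K, ∀ z, w (k + 1) z ≤ w k z * (1 - th * ((u k z - m k) / U)))
    (hlo : ∀ k < K, w k z' * (1 - th * ((u k z' - m k) / U)) * (1 - r k) ≤ w (k + 1) z') :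
    (1 - 1 / g) * ∑ k ∈ range K, av (w k) (u k) + (1 / g) * ∑ k ∈ range K, m k ≤
      ∑ k ∈ range K, u k z' +
        (1 - 1 / g) * U * (Real.log ((∑ z, w 0 z) / w 0 z') - ∑ k ∈ range K, Real.log (1 - r k)) / th := by
  have h := main (e := fun k z => (u k z - m k) / U) z' hg hth hw hw'
    (fun k hk => div_nonneg (by linarith [hm k hk]) hUp.le) he hr1 hup hlo
  -- positivity of the total weights
  have hpos : ∀ k ≤ K, 0 < w k z' := by
    intro k
    induction k with
    | zero => intro _; exact hw'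
    | succ k ih =>
      intro hk
      have h1 := ih (by omega)
      have hg0 : 0 < g := by linarith
      have hlt1 : 1 / g < 1 := by rw [div_lt_one hg0]; exact hg
      have h2 : 0 < 1 - th * ((u k z' - m k) / U) := by have := he k (by omega); linarith
      have h3 : 0 < 1 - r k := by have := hr1 k (by omega); linarith
      exact lt_of_lt_of_le (mul_pos (mul_pos h1 h2) h3) (hlo k (by omega))
  have hS : ∀ k ≤ K, 0 < ∑ z, w k z := fun k hk =>
    lt_of_lt_of_le (hpos k hk) (single_le_sum (f := fun z => w k z) (fun z _ => hw k hk z) (mem_univ z'))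
  have hav : ∀ k ∈ range K, av (w k) (fun z => (u k z - m k) / U) = (av (w k) (u k) - m k) / U := by
    intro k hk
    have hk' := (mem_range.1 hk).le
    have := av_affine (w k) (u k) (1 / U) (-(m k) / U) (hS k hk').ne'
    have h2 : (fun z => (u k z - m k) / U) = fun z => 1 / U * u k z + -(m k) / U := by
      funext z; field_simp; ring
    rw [h2, this]; field_simp; ring
  rw [sum_congr rfl hav] at h
  have e1 : ∑ k ∈ range K, (av (w k) (u k) - m k) / U =
      (∑ k ∈ range K, av (w k) (u k) - ∑ k ∈ range K, m k) / U := by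
    rw [← sum_div, sum_sub_distrib]
  have e2 : ∑ k ∈ range K, (u k z' - m k) / U =
      (∑ k ∈ range K, u k z' - ∑ k ∈ range K, m k) / U := by
    rw [← sum_div, sum_sub_distrib]
  rw [e1, e2] at h
  have h' := mul_le_mul_of_nonneg_right h hUp.le
  have e3 : (1 - 1 / g) * ((∑ k ∈ range K, av (w k) (u k) - ∑ k ∈ range K, m k) / U) * U =
      (1 - 1 / g) * (∑ k ∈ range K, av (w k) (u k) - ∑ k ∈ range K, m k) := by
    field_simp
  have e4 : ((∑ k ∈ range K, u k z' - ∑ k ∈ range K, m k) / U + (1 - 1 / g) *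
      (Real.log ((∑ z, w 0 z) / w 0 z') - ∑ k ∈ range K, Real.log (1 - r k)) / th) * U =
      (∑ k ∈ range K, u k z' - ∑ k ∈ range K, m k) + (1 - 1 / g) * U *
      (Real.log ((∑ z, w 0 z) / w 0 z') - ∑ k ∈ range K, Real.log (1 - r k)) / th := by
    field_simp
  rw [e3, e4] at h'
  have e5 : (1 - 1 / g) * (∑ k ∈ range K, av (w k) (u k) - ∑ k ∈ range K, m k) =
      (1 - 1 / g) * ∑ k ∈ range K, av (w k) (u k) - ∑ k ∈ range K, m k + (1 / g) * ∑ k ∈ range K, m k := by
    ring
  linarith

theorem neg_log_one_sub_le {r : ℝ} (h0 : 0 ≤ r) (h1 : r ≤ 1 / 2) : -Real.log (1 - r) ≤ 2 * r := by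
  have := log_one_sub_ge (g := 2) (by norm_num) h0 (by linarith)
  norm_num at this
  linarith

/-- exact weights: `wt pi th e k z = pi z * ∏ i < k, (1 - th * e i z)` -/
noncomputable def wt (pi : A → ℝ) (th : ℝ) (e : ℕ → A → ℝ) (k : ℕ) (z : A) : ℝ :=
  pi z * ∏ i ∈ range k, (1 - th * e i z)

/-- **(B') with exact weights and prior `pi`** (options where `th * e > 1/g` must be clipped by the
caller: use `e := min e (1/(g th))`). -/
theorem main_exact {K : ℕ} {pi : A → ℝ} {e : ℕ → A → ℝ} {th g : ℝ} (z' : A)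
    (hg : 1 < g) (hth : 0 < th) (hpi : ∀ z, 0 ≤ pi z) (hpi' : 0 < pi z')
    (he0 : ∀ k < K, ∀ z, 0 ≤ e k z) (he : ∀ k < K, ∀ z, th * e k z ≤ 1 / g) :
    (1 - 1 / g) * ∑ k ∈ range K, av (wt pi th e k) (e k) ≤
      ∑ k ∈ range K, e k z' + (1 - 1 / g) * Real.log ((∑ z, pi z) / pi z') / th := by
  have hg0 : 0 < g := by linarith
  have hlt1 : 1 / g < 1 := by rw [div_lt_one hg0]; exact hg
  have h := main (K := K) (w := wt pi th e) (e := e) (r := fun _ => 0) z' hg hth
    (fun k hk z => mul_nonneg (hpi z) (prod_nonneg fun i hi => by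
      have := he i (by have := mem_range.1 hi; omega) z; linarith))
    (by simpa [wt] using hpi') (fun k hk => he0 k hk z') (fun k hk => he k hk z')
    (fun _ _ => by norm_num)
    (fun k hk z => by
      show wt pi th e (k + 1) z ≤ wt pi th e k z * (1 - th * e k z)
      unfold wt; rw [prod_range_succ]; exact le_of_eq (by ring))
    (fun k hk => by
      show wt pi th e k z' * (1 - th * e k z') * (1 - 0) ≤ wt pi th e (k + 1) z'
      unfold wt; rw [prod_range_succ]; exact le_of_eq (by ring))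
  simpa [wt] using h

end Crest.Agent.R288.HedLin283
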