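import Mathlib.Analysis.SpecialFunctions.Log.Basic
import Mathlib.Analysis.SpecialFunctions.Exp
import Mathlib.Analysis.SpecialFunctions.ExpDeriv
import Mathlib.Analysis.Complex.Exponential
import Mathlib.Analysis.SpecialFunctions.Pow.Real
import Mathlib.Tactic

/-!
# HedgeA_527: the one-state lemmas of LEMMA 288-90 (#3987), helper527

Everything is over a finite set `S` of letters and real functions; no game, no probability.
* `mean S w f` = weighted mean; `vari S w f` = weighted variance.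
* `log_mean_le` : `log (mean e^{-c f}) <= -c mean f + c^2 vari f` if `c (mean - f) <= 1`.
* `vari_le`     : `vari <= (mean - b) o` if `b <= f <= b + o`.
* `hedge_greedy` : (B) of #3987.   * `hedge_plain` : ordinary hedge.
* `mean_pert` : change of the cumulative costs by `<= del` changes means by a factor `e^{2 c del}`.
* `prod_special`, `prod_other` : Prod with a special expert.
-/

set_option autoImplicit false

namespace Crest.Agent.R288.HedgeA527

open Finset Real

variable {Z : Type*}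

/-- weighted mean of `f` over `S` with (positive) weights `w` -/
noncomputable def mean (S : Finset Z) (w f : Z → ℝ) : ℝ := (∑ z ∈ S, w z * f z) / ∑ z ∈ S, w z

/-- weighted variance -/
noncomputable def vari (S : Finset Z) (w f : Z → ℝ) : ℝ :=
  mean S w (fun z => (f z - mean S w f) ^ 2)

/-- Gibbs weights -/
noncomputable def gw (p : Z → ℝ) (c : ℝ) (U : Z → ℝ) : Z → ℝ := fun z => p z * Real.exp (-(c * U z))

section basic

variable {S : Finset Z} {w f h : Z → ℝ}

theorem sum_w_pos (hS : S.Nonempty) (hw : ∀ z ∈ S, 0 < w z) : 0 < ∑ z ∈ S, w z :=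
  Finset.sum_pos hw hS

theorem mean_congr (hfh : ∀ z ∈ S, f z = h z) : mean S w f = mean S w h := by
  unfold mean
  rw [Finset.sum_congr rfl (fun z hz => by rw [hfh z hz])]

theorem mean_const (hS : S.Nonempty) (hw : ∀ z ∈ S, 0 < w z) (c : ℝ) :
    mean S w (fun _ => c) = c := by
  unfold mean
  rw [← Finset.sum_mul, mul_comm, mul_div_assoc, div_self (sum_w_pos hS hw).ne', mul_one]

theorem mean_mono (hS : S.Nonempty) (hw : ∀ z ∈ S, 0 < w z) (hfh : ∀ z ∈ S, f z ≤ h z) :
    mean S w f ≤ mean S w h := by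
  unfold mean
  apply div_le_div_of_nonneg_right _ (sum_w_pos hS hw).le
  exact Finset.sum_le_sum fun z hz => mul_le_mul_of_nonneg_left (hfh z hz) (hw z hz).le

theorem mean_add (f h : Z → ℝ) : mean S w (fun z => f z + h z) = mean S w f + mean S w h := by
  unfold mean
  rw [← add_div, ← Finset.sum_add_distrib]
  congr 1
  exact Finset.sum_congr rfl fun z _ => by ring

theorem mean_sub (f h : Z → ℝ) : mean S w (fun z => f z - h z) = mean S w f - mean S w h := by
  unfold mean
  rw [← sub_div, ← Finset.sum_sub_distrib]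
  congr 1
  exact Finset.sum_congr rfl fun z _ => by ring

theorem mean_smul (c : ℝ) (f : Z → ℝ) : mean S w (fun z => c * f z) = c * mean S w f := by
  unfold mean
  rw [← mul_div_assoc, Finset.mul_sum]
  congr 1
  exact Finset.sum_congr rfl fun z _ => by ring

theorem mean_nonneg (hS : S.Nonempty) (hw : ∀ z ∈ S, 0 < w z) (hf : ∀ z ∈ S, 0 ≤ f z) :
    0 ≤ mean S w f := by
  have := mean_mono (S := S) (w := w) (f := fun _ => (0 : ℝ)) (h := f) hS hw hf
  rwa [mean_const hS hw] at this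

theorem le_mean (hS : S.Nonempty) (hw : ∀ z ∈ S, 0 < w z) {b : ℝ} (hb : ∀ z ∈ S, b ≤ f z) :
    b ≤ mean S w f := by
  have := mean_mono (S := S) (w := w) (f := fun _ => b) (h := f) hS hw hb
  rwa [mean_const hS hw] at this

theorem mean_le (hS : S.Nonempty) (hw : ∀ z ∈ S, 0 < w z) {b : ℝ} (hb : ∀ z ∈ S, f z ≤ b) :
    mean S w f ≤ b := by
  have := mean_mono (S := S) (w := w) (f := f) (h := fun _ => b) hS hw hb
  rwa [mean_const hS hw] at this

theorem vari_nonneg (hS : S.Nonempty) (hw : ∀ z ∈ S, 0 < w z) : 0 ≤ vari S w f :=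
  mean_nonneg hS hw fun _ _ => sq_nonneg _

/-- `Var <= (mean - b) (B - mean)` for bounds `b <= f <= B` -/
theorem vari_le' (hS : S.Nonempty) (hw : ∀ z ∈ S, 0 < w z) {b B : ℝ}
    (hb : ∀ z ∈ S, b ≤ f z) (hB : ∀ z ∈ S, f z ≤ B) :
    vari S w f ≤ (mean S w f - b) * (B - mean S w f) := by
  set m := mean S w f with hm
  -- (f - m)^2 <= (f - m)(B - m) - (f-m)(m-b) + (m-b)(B-m)  since (f-b)(B-f) >= 0
  have h1 : vari S w f ≤ mean S w (fun z => (B + b - 2 * m) * (f z - m) + (m - b) * (B - m)) := by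
    unfold vari
    apply mean_mono hS hw
    intro z hz
    have h2 : 0 ≤ (f z - b) * (B - f z) :=
      mul_nonneg (sub_nonneg.2 (hb z hz)) (sub_nonneg.2 (hB z hz))
    rw [← hm]
    nlinarith [h2]
  have h3 : mean S w (fun z => (B + b - 2 * m) * (f z - m) + (m - b) * (B - m))
      = (m - b) * (B - m) := by
    rw [mean_add, mean_smul, mean_sub, mean_const hS hw, mean_const hS hw, ← hm]
    ring
  linarith

/-- `Var <= (mean - b) o` if `b <= f <= b + o` -/
theorem vari_le (hS : S.Nonempty) (hw : ∀ z ∈ S, 0 < w z) {b o : ℝ}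
    (hb : ∀ z ∈ S, b ≤ f z) (ho : ∀ z ∈ S, f z ≤ b + o) :
    vari S w f ≤ (mean S w f - b) * o := by
  have h1 := vari_le' hS hw hb ho
  have h2 : b ≤ mean S w f := le_mean hS hw hb
  have h3 : (mean S w f - b) * (b + o - mean S w f) ≤ (mean S w f - b) * o :=
    mul_le_mul_of_nonneg_left (by linarith) (by linarith)
  linarith

/-- `Var <= o^2 / 4` if `b <= f <= b + o` -/
theorem vari_le_sq (hS : S.Nonempty) (hw : ∀ z ∈ S, 0 < w z) {b o : ℝ}
    (hb : ∀ z ∈ S, b ≤ f z) (ho : ∀ z ∈ S, f z ≤ b + o) :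
    vari S w f ≤ o ^ 2 / 4 := by
  have h1 := vari_le' hS hw hb ho
  nlinarith [sq_nonneg (2 * (mean S w f - b) - o)]

end basic

/-- `e^x <= 1 + x + x^2` for `x <= 1` -/
theorem exp_le_quad {x : ℝ} (hx : x ≤ 1) : Real.exp x ≤ 1 + x + x ^ 2 := by
  rcases le_total (-1) x with h | h
  · have h1 := Real.abs_exp_sub_one_sub_id_le (x := x) (abs_le.2 ⟨h, hx⟩)
    have h2 := (abs_le.1 h1).2
    linarith
  · have h1 : Real.exp x ≤ 1 := Real.exp_le_one_iff.2 (by linarith)
    nlinarith

/-- `log (1 + x) >= x - x^2` for `x >= -1/2` -/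
theorem log_ge_quad {x : ℝ} (hx : -(1 / 2) ≤ x) : x - x ^ 2 ≤ Real.log (1 + x) := by
  have hpos : 0 < 1 + x := by linarith
  rw [Real.le_log_iff_exp_le hpos]
  rcases le_total 0 x with h0 | h0
  · have hle : x - x ^ 2 ≤ 1 := by nlinarith [sq_nonneg (x - 1 / 2)]
    have h1 := exp_le_quad hle
    rcases le_total x 1 with h2 | h2
    · have h3 : (x - x ^ 2) + (x - x ^ 2) ^ 2 ≤ x := by
        have h4 : 0 ≤ x ^ 2 * (x * (2 - x)) :=
          mul_nonneg (sq_nonneg x) (mul_nonneg h0 (by linarith))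
        nlinarith [h4]
      linarith
    · have h3 : x - x ^ 2 ≤ 0 := by nlinarith
      have h4 : Real.exp (x - x ^ 2) ≤ 1 := Real.exp_le_one_iff.2 h3
      linarith
  · -- `x = - t`, `t ∈ [0, 1/2]`: `(1 - t) (1 + y + y^2/2) ≥ 1` with `y = t + t^2`
    have h1 := Real.quadratic_le_exp_of_nonneg (x := -x + x ^ 2) (by nlinarith)
    have h2 : 1 ≤ (1 + x) * (1 + (-x + x ^ 2) + (-x + x ^ 2) ^ 2 / 2) := by
      have h3 : (1 + x) * (1 + (-x + x ^ 2) + (-x + x ^ 2) ^ 2 / 2)
          = 1 + x ^ 2 * (1 + x - x ^ 2 + x ^ 3) / 2 := by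
        ring
      have h4 : 0 ≤ 1 + x - x ^ 2 + x ^ 3 := by
        have h5 : x ^ 2 ≤ 1 / 4 := by nlinarith
        have h6 : -(1 / 8) ≤ x ^ 3 := by
          have : x ^ 3 = x * x ^ 2 := by ring
          nlinarith [sq_nonneg x]
        linarith
      have h5 : 0 ≤ x ^ 2 * (1 + x - x ^ 2 + x ^ 3) := mul_nonneg (sq_nonneg x) h4
      linarith
    have h3 : Real.exp (x - x ^ 2) * Real.exp (-x + x ^ 2) = 1 := by
      rw [← Real.exp_add]; simp
    have h5 := Real.exp_pos (x - x ^ 2)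
    have h6 : (1 + (-x + x ^ 2) + (-x + x ^ 2) ^ 2 / 2) * Real.exp (x - x ^ 2) ≤ 1 := by
      calc _ ≤ Real.exp (-x + x ^ 2) * Real.exp (x - x ^ 2) :=
            mul_le_mul_of_nonneg_right h1 h5.le
        _ = 1 := by rw [mul_comm]; exact h3
    calc Real.exp (x - x ^ 2) = 1 * Real.exp (x - x ^ 2) := (one_mul _).symm
      _ ≤ ((1 + x) * (1 + (-x + x ^ 2) + (-x + x ^ 2) ^ 2 / 2)) * Real.exp (x - x ^ 2) :=
          mul_le_mul_of_nonneg_right h2 h5.le
      _ = (1 + x) * ((1 + (-x + x ^ 2) + (-x + x ^ 2) ^ 2 / 2) * Real.exp (x - x ^ 2)) := by ring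
      _ ≤ (1 + x) * 1 := mul_le_mul_of_nonneg_left h6 hpos.le
      _ = 1 + x := mul_one _

section step

variable {S : Finset Z} {w f : Z → ℝ}

/-- the second order estimate of the log partition function -/
theorem log_mean_le (hS : S.Nonempty) (hw : ∀ z ∈ S, 0 < w z) {c : ℝ}
    (hc : ∀ z ∈ S, c * (mean S w f - f z) ≤ 1) :
    Real.log (mean S w (fun z => Real.exp (-(c * f z))))
      ≤ -(c * mean S w f) + c ^ 2 * vari S w f := by
  set m := mean S w f with hm
  have h1 : mean S w (fun z => Real.exp (-(c * f z)))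
      ≤ Real.exp (-(c * m)) * (1 + c ^ 2 * vari S w f) := by
    have h2 : mean S w (fun z => Real.exp (-(c * f z)))
        ≤ mean S w (fun z => Real.exp (-(c * m)) * (1 + (c * m - c * f z) + c ^ 2 * (f z - m) ^ 2)) := by
      apply mean_mono hS hw
      intro z hz
      have h3 := exp_le_quad (x := c * (m - f z)) (hc z hz)
      have h4 : Real.exp (-(c * f z)) = Real.exp (-(c * m)) * Real.exp (c * (m - f z)) := by
        rw [← Real.exp_add]; congr 1; ring
      rw [h4]
      apply mul_le_mul_of_nonneg_left _ (Real.exp_pos _).le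
      nlinarith [h3]
    refine h2.trans (le_of_eq ?_)
    rw [mean_smul, mean_add, mean_add, mean_const hS hw, mean_sub, mean_const hS hw, mean_smul,
      mean_smul, ← hm]
    unfold vari
    rw [← hm]
    ring
  have hpos : 0 < mean S w (fun z => Real.exp (-(c * f z))) := by
    unfold mean
    exact div_pos (Finset.sum_pos (fun z hz => mul_pos (hw z hz) (Real.exp_pos _)) hS)
      (sum_w_pos hS hw)
  have hv := vari_nonneg (f := f) hS hw
  have h5 : 0 < 1 + c ^ 2 * vari S w f := by nlinarith [sq_nonneg c, mul_nonneg (sq_nonneg c) hv]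
  calc Real.log (mean S w (fun z => Real.exp (-(c * f z))))
      ≤ Real.log (Real.exp (-(c * m)) * (1 + c ^ 2 * vari S w f)) := Real.log_le_log hpos h1
    _ = -(c * m) + Real.log (1 + c ^ 2 * vari S w f) := by
        rw [Real.log_mul (Real.exp_pos _).ne' h5.ne', Real.log_exp]
    _ ≤ -(c * m) + c ^ 2 * vari S w f := by
        have := Real.log_le_sub_one_of_pos h5
        linarith

end step

section hedge

variable {S : Finset Z} {p : Z → ℝ}

theorem gw_pos (hp : ∀ z ∈ S, 0 < p z) (c : ℝ) (U : Z → ℝ) : ∀ z ∈ S, 0 < gw p c U z :=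
  fun z hz => mul_pos (hp z hz) (Real.exp_pos _)

/-- `Z(U + u) = Z(U) * mean_{rho_U} e^{-c u}` -/
theorem part_step (hS : S.Nonempty) (hp : ∀ z ∈ S, 0 < p z) (c : ℝ) (U u : Z → ℝ) :
    Real.log (∑ z ∈ S, gw p c (fun z => U z + u z) z)
      = Real.log (∑ z ∈ S, gw p c U z)
        + Real.log (mean S (gw p c U) (fun z => Real.exp (-(c * u z)))) := by
  have h0 : 0 < ∑ z ∈ S, gw p c U z := sum_w_pos hS (gw_pos hp c U)
  have h1 : 0 < mean S (gw p c U) (fun z => Real.exp (-(c * u z))) := by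
    unfold mean
    exact div_pos (Finset.sum_pos (fun z hz => mul_pos (gw_pos hp c U z hz) (Real.exp_pos _)) hS) h0
  rw [← Real.log_mul h0.ne' h1.ne']
  congr 1
  unfold mean
  rw [mul_div_cancel₀ _ h0.ne']
  apply Finset.sum_congr rfl
  intro z _
  unfold gw
  rw [mul_assoc, ← Real.exp_add]
  congr 2
  ring

/-- cumulative costs of the ranks below `k` -/
def cum (u : ℕ → Z → ℝ) (k : ℕ) : Z → ℝ := fun z => ∑ i ∈ range k, u i z

theorem cum_zero (u : ℕ → Z → ℝ) : cum u 0 = fun _ => 0 := by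
  funext z; simp [cum]

theorem cum_succ (u : ℕ → Z → ℝ) (k : ℕ) : cum u (k + 1) = fun z => cum u k z + u k z := by
  funext z; simp [cum, Finset.sum_range_succ]

/-- the log partition function after `K` ranks is bounded below by any letter -/
theorem log_part_ge (hp : ∀ z ∈ S, 0 < p z) (c : ℝ) (U : Z → ℝ) {z : Z} (hz : z ∈ S) :
    Real.log (p z) - c * U z ≤ Real.log (∑ z ∈ S, gw p c U z) := by
  have h1 : gw p c U z ≤ ∑ z ∈ S, gw p c U z :=
    Finset.single_le_sum (f := gw p c U) (fun z hz => (gw_pos hp c U z hz).le) hz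
  have h2 : Real.log (gw p c U z) = Real.log (p z) - c * U z := by
    unfold gw
    rw [Real.log_mul (hp z hz).ne' (Real.exp_pos _).ne', Real.log_exp]
    ring
  rw [← h2]
  exact Real.log_le_log (gw_pos hp c U z hz) h1

theorem log_part_zero (hp1 : ∑ z ∈ S, p z = 1) (c : ℝ) (u : ℕ → Z → ℝ) :
    Real.log (∑ z ∈ S, gw p c (cum u 0) z) = 0 := by
  rw [cum_zero]
  simp [gw, hp1]

/-- telescoping of any sequence `r k` with
`c * r k <= -(log mean e^{-c u_k}) + c * e k` -/
theorem telescope (hS : S.Nonempty) (hp : ∀ z ∈ S, 0 < p z) (hp1 : ∑ z ∈ S, p z = 1)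
    {c : ℝ} (hc : 0 < c) (u : ℕ → Z → ℝ) (r e : ℕ → ℝ) (K : ℕ)
    (hr : ∀ k < K, c * r k ≤ -Real.log (mean S (gw p c (cum u k)) (fun z => Real.exp (-(c * u k z))))
      + c * e k) {z : Z} (hz : z ∈ S) :
    ∑ k ∈ range K, r k ≤ ∑ k ∈ range K, u k z + Real.log (1 / p z) / c + ∑ k ∈ range K, e k := by
  have key : ∀ n ≤ K, c * ∑ k ∈ range n, r k
      ≤ -Real.log (∑ z ∈ S, gw p c (cum u n) z) + c * ∑ k ∈ range n, e k := by
    intro n
    induction n with
    | zero => intro _; rw [log_part_zero hp1]; simp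
    | succ n ih =>
      intro hn
      have h1 := ih (by omega)
      have h2 := hr n (by omega)
      rw [Finset.sum_range_succ, Finset.sum_range_succ, cum_succ, part_step hS hp]
      linarith
  have h3 := key K le_rfl
  have h4 := log_part_ge (S := S) hp c (cum u K) hz
  have h5 : Real.log (1 / p z) = -Real.log (p z) := by rw [one_div, Real.log_inv]
  have h6 : c * ∑ k ∈ range K, r k
      ≤ c * (∑ k ∈ range K, u k z + Real.log (1 / p z) / c + ∑ k ∈ range K, e k) := by
    have h7 : c * (∑ k ∈ range K, u k z + Real.log (1 / p z) / c + ∑ k ∈ range K, e k)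
        = c * ∑ k ∈ range K, u k z + Real.log (1 / p z) + c * ∑ k ∈ range K, e k := by
      field_simp
    rw [h7, h5]
    have h8 : cum u K z = ∑ k ∈ range K, u k z := rfl
    rw [h8] at h4
    linarith
  exact le_of_mul_le_mul_left h6 hc

/-- **(B) of #3987, one state, all ranks.** `q = 1/g` = probability of a greedy level; `b k` = (a lower
bound attained by) the greedy value; no second order term. `e k` = arbitrary additional errors. -/
theorem hedge_greedy (hS : S.Nonempty) (hp : ∀ z ∈ S, 0 < p z) (hp1 : ∑ z ∈ S, p z = 1)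
    {c q o : ℝ} (hc : 0 < c) (_hq : 0 < q) (hq1 : q ≤ 1) (hco : c * o ≤ q)
    (u : ℕ → Z → ℝ) (b r e : ℕ → ℝ) (K : ℕ)
    (hb : ∀ k < K, ∀ z ∈ S, b k ≤ u k z) (ho : ∀ k < K, ∀ z ∈ S, u k z ≤ b k + o)
    (hr : ∀ k < K, r k ≤ (1 - q) * mean S (gw p c (cum u k)) (u k) + q * b k + e k)
    {z : Z} (hz : z ∈ S) :
    ∑ k ∈ range K, r k ≤ ∑ k ∈ range K, u k z + Real.log (1 / p z) / c + ∑ k ∈ range K, e k := by
  apply telescope hS hp hp1 hc u r e K _ hz
  intro k hk
  set w := gw p c (cum u k) with hw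
  have hwp : ∀ z ∈ S, 0 < w z := gw_pos hp c _
  set m := mean S w (u k) with hm
  have hbm : b k ≤ m := le_mean hS hwp (hb k hk)
  have h1 : Real.log (mean S w (fun z => Real.exp (-(c * u k z)))) ≤ -(c * m) + c ^ 2 * vari S w (u k) := by
    apply log_mean_le hS hwp
    intro z hz
    have h2 : m ≤ b k + o := mean_le hS hwp (ho k hk)
    have h3 : c * (m - u k z) ≤ c * o :=
      mul_le_mul_of_nonneg_left (by linarith [hb k hk z hz]) hc.le
    rw [← hm]
    linarith
  have h4 : vari S w (u k) ≤ (m - b k) * o := vari_le hS hwp (hb k hk) (ho k hk)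
  have h5 : c * vari S w (u k) ≤ q * (m - b k) := by
    calc c * vari S w (u k) ≤ c * ((m - b k) * o) := mul_le_mul_of_nonneg_left h4 hc.le
      _ = (c * o) * (m - b k) := by ring
      _ ≤ q * (m - b k) := mul_le_mul_of_nonneg_right hco (by linarith)
  have h6 : c * r k ≤ c * ((1 - q) * m + q * b k + e k) := mul_le_mul_of_nonneg_left (hr k hk) hc.le
  have h7 : c ^ 2 * vari S w (u k) ≤ c * (q * (m - b k)) := by
    calc c ^ 2 * vari S w (u k) = c * (c * vari S w (u k)) := by ring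
      _ ≤ c * (q * (m - b k)) := mul_le_mul_of_nonneg_left h5 hc.le
  nlinarith [h1, h6, h7]

/-- ordinary hedge: error `c * o^2 / 4` per rank -/
theorem hedge_plain (hS : S.Nonempty) (hp : ∀ z ∈ S, 0 < p z) (hp1 : ∑ z ∈ S, p z = 1)
    {c o : ℝ} (hc : 0 < c) (hco : c * o ≤ 1)
    (u : ℕ → Z → ℝ) (b r e : ℕ → ℝ) (K : ℕ)
    (hb : ∀ k < K, ∀ z ∈ S, b k ≤ u k z) (ho : ∀ k < K, ∀ z ∈ S, u k z ≤ b k + o)
    (hr : ∀ k < K, r k ≤ mean S (gw p c (cum u k)) (u k) + e k)
    {z : Z} (hz : z ∈ S) :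
    ∑ k ∈ range K, r k ≤ ∑ k ∈ range K, u k z + Real.log (1 / p z) / c + K * (c * o ^ 2 / 4)
      + ∑ k ∈ range K, e k := by
  have h0 := telescope hS hp hp1 hc u r (fun k => c * o ^ 2 / 4 + e k) K (fun k hk => ?_) hz
  · rw [Finset.sum_add_distrib, Finset.sum_const, Finset.card_range, nsmul_eq_mul] at h0
    linarith
  set w := gw p c (cum u k) with hw
  have hwp : ∀ z ∈ S, 0 < w z := gw_pos hp c _
  set m := mean S w (u k) with hm
  have h1 : Real.log (mean S w (fun z => Real.exp (-(c * u k z)))) ≤ -(c * m) + c ^ 2 * vari S w (u k) := by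
    apply log_mean_le hS hwp
    intro z hz
    have h2 : m ≤ b k + o := mean_le hS hwp (ho k hk)
    have h3 : c * (m - u k z) ≤ c * o :=
      mul_le_mul_of_nonneg_left (by linarith [hb k hk z hz]) hc.le
    rw [← hm]
    linarith
  have h4 : vari S w (u k) ≤ o ^ 2 / 4 := vari_le_sq hS hwp (hb k hk) (ho k hk)
  have h6 : c * r k ≤ c * (m + e k) := mul_le_mul_of_nonneg_left (hr k hk) hc.le
  have h7 : c ^ 2 * vari S w (u k) ≤ c ^ 2 * (o ^ 2 / 4) := mul_le_mul_of_nonneg_left h4 (sq_nonneg c)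
  nlinarith [h1, h6, h7]

/-- perturbation of the cumulative costs, nonnegative function -/
theorem mean_pert (hS : S.Nonempty) (hp : ∀ z ∈ S, 0 < p z) {c d : ℝ} (hc : 0 ≤ c)
    {U V f : Z → ℝ} (hUV : ∀ z ∈ S, |V z - U z| ≤ d) (hf : ∀ z ∈ S, 0 ≤ f z) :
    mean S (gw p c V) f ≤ Real.exp (2 * c * d) * mean S (gw p c U) f := by
  have hU := sum_w_pos hS (gw_pos hp c U)
  have hV := sum_w_pos hS (gw_pos hp c V)
  have h1 : ∀ z ∈ S, gw p c V z ≤ Real.exp (c * d) * gw p c U z := by
    intro z hz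
    unfold gw
    rw [mul_left_comm, ← Real.exp_add]
    apply mul_le_mul_of_nonneg_left _ (hp z hz).le
    apply Real.exp_le_exp.2
    have := (abs_le.1 (hUV z hz)).1
    nlinarith [mul_le_mul_of_nonneg_left this hc]
  have h2 : ∀ z ∈ S, gw p c U z ≤ Real.exp (c * d) * gw p c V z := by
    intro z hz
    unfold gw
    rw [mul_left_comm, ← Real.exp_add]
    apply mul_le_mul_of_nonneg_left _ (hp z hz).le
    apply Real.exp_le_exp.2
    have := (abs_le.1 (hUV z hz)).2
    nlinarith [mul_le_mul_of_nonneg_left this hc]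
  have h3 : ∑ z ∈ S, gw p c V z * f z ≤ Real.exp (c * d) * ∑ z ∈ S, gw p c U z * f z := by
    rw [Finset.mul_sum]
    apply Finset.sum_le_sum
    intro z hz
    rw [← mul_assoc]
    exact mul_le_mul_of_nonneg_right (h1 z hz) (hf z hz)
  have h4 : ∑ z ∈ S, gw p c U z ≤ Real.exp (c * d) * ∑ z ∈ S, gw p c V z := by
    rw [Finset.mul_sum]
    exact Finset.sum_le_sum h2
  have h5 : 0 ≤ ∑ z ∈ S, gw p c U z * f z :=
    Finset.sum_nonneg fun z hz => mul_nonneg (gw_pos hp c U z hz).le (hf z hz)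
  unfold mean
  rw [div_le_iff₀ hV, ← mul_div_assoc, div_mul_eq_mul_div, le_div_iff₀ hU]
  have h6 : Real.exp (2 * c * d) = Real.exp (c * d) * Real.exp (c * d) := by
    rw [← Real.exp_add]; congr 1; ring
  calc (∑ z ∈ S, gw p c V z * f z) * ∑ z ∈ S, gw p c U z
      ≤ (Real.exp (c * d) * ∑ z ∈ S, gw p c U z * f z) * (Real.exp (c * d) * ∑ z ∈ S, gw p c V z) :=
        mul_le_mul h3 h4 hU.le (mul_nonneg (Real.exp_pos _).le h5)
    _ = Real.exp (2 * c * d) * (∑ z ∈ S, gw p c U z * f z) * ∑ z ∈ S, gw p c V z := by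
        rw [h6]; ring

/-- perturbation of the cumulative costs, function of range `o` -/
theorem mean_pert' (hS : S.Nonempty) (hp : ∀ z ∈ S, 0 < p z) {c d b o : ℝ} (hc : 0 ≤ c) (hd : 0 ≤ d)
    {U V f : Z → ℝ} (hUV : ∀ z ∈ S, |V z - U z| ≤ d) (hb : ∀ z ∈ S, b ≤ f z)
    (ho : ∀ z ∈ S, f z ≤ b + o) :
    mean S (gw p c V) f ≤ mean S (gw p c U) f + (Real.exp (2 * c * d) - 1) * o := by
  have h1 := mean_pert (f := fun z => f z - b) hS hp hc hUV (fun z hz => by linarith [hb z hz])
  rw [mean_sub, mean_sub, mean_const hS (gw_pos hp c V), mean_const hS (gw_pos hp c U)] at h1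
  have h2 : mean S (gw p c U) f ≤ b + o := mean_le hS (gw_pos hp c U) ho
  have h3 : 1 ≤ Real.exp (2 * c * d) := Real.one_le_exp (by positivity)
  nlinarith [mul_le_mul_of_nonneg_left (show mean S (gw p c U) f - b ≤ o by linarith)
    (show 0 ≤ Real.exp (2 * c * d) - 1 by linarith)]

/-- greedy letter with respect to estimates: `z0` minimises `u'`, `|u' - u| <= d` on `S` -/
theorem greedy_est {u u' : Z → ℝ} {d : ℝ} {z0 : Z} (hz0 : z0 ∈ S)
    (hmin : ∀ z ∈ S, u' z0 ≤ u' z) (hd : ∀ z ∈ S, |u' z - u z| ≤ d) {z : Z} (hz : z ∈ S) :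
    u z0 ≤ u z + 2 * d := by
  have h1 := (abs_le.1 (hd z0 hz0)).1
  have h2 := (abs_le.1 (hd z hz)).2
  have h3 := hmin z hz
  linarith

end hedge

section prod

/-- weight of the non-special expert: `W_{k+1} = W_k (1 + eta x_k)` -/
noncomputable def pw (mu eta : ℝ) (x : ℕ → ℝ) : ℕ → ℝ
  | 0 => mu
  | k + 1 => pw mu eta x k * (1 + eta * x k)

/-- probability of the non-special expert -/
noncomputable def pp (mu eta : ℝ) (x : ℕ → ℝ) (k : ℕ) : ℝ := pw mu eta x k / (1 + pw mu eta x k)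

variable {mu eta : ℝ} {x : ℕ → ℝ}

theorem pw_pos (hmu : 0 < mu) (hx : ∀ k, -(1 / 2) ≤ eta * x k) (k : ℕ) : 0 < pw mu eta x k := by
  induction k with
  | zero => exact hmu
  | succ k ih =>
    have := hx k
    exact mul_pos ih (by linarith)

theorem pp_nonneg (hmu : 0 < mu) (hx : ∀ k, -(1 / 2) ≤ eta * x k) (k : ℕ) : 0 ≤ pp mu eta x k := by
  have := pw_pos hmu hx k
  unfold pp
  positivity

theorem pp_le_one (hmu : 0 < mu) (hx : ∀ k, -(1 / 2) ≤ eta * x k) (k : ℕ) : pp mu eta x k ≤ 1 := by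
  have := pw_pos hmu hx k
  unfold pp
  rw [div_le_one (by linarith)]
  linarith

theorem log_one_add_pw (hmu : 0 < mu) (hx : ∀ k, -(1 / 2) ≤ eta * x k) (K : ℕ) :
    Real.log (1 + pw mu eta x K) ≤ Real.log (1 + mu) + eta * ∑ k ∈ range K, pp mu eta x k * x k := by
  induction K with
  | zero => simp [pw]
  | succ K ih =>
    have hW := pw_pos hmu hx K
    have h1 : 1 + pw mu eta x (K + 1) = (1 + pw mu eta x K) * (1 + eta * (pp mu eta x K * x K)) := by
      simp only [pw, pp]
      field_simp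
      ring
    have hW1 := pw_pos hmu hx (K + 1)
    have h2 : 0 < 1 + eta * (pp mu eta x K * x K) := by
      have h3 : 0 < (1 + pw mu eta x K) * (1 + eta * (pp mu eta x K * x K)) := by
        rw [← h1]; linarith
      exact (mul_pos_iff_of_pos_left (by linarith)).1 h3
    rw [h1, Real.log_mul (by linarith) h2.ne', Finset.sum_range_succ, mul_add]
    have h4 := Real.log_le_sub_one_of_pos h2
    linarith

/-- gain against the special expert (mode 0): `sum p_k x_k >= -mu/eta` -/
theorem prod_special (hmu : 0 < mu) (heta : 0 < eta) (hx : ∀ k, -(1 / 2) ≤ eta * x k) (K : ℕ) :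
    -(mu / eta) ≤ ∑ k ∈ range K, pp mu eta x k * x k := by
  have h1 := log_one_add_pw hmu hx K
  have h2 : 0 ≤ Real.log (1 + pw mu eta x K) := Real.log_nonneg (by linarith [pw_pos hmu hx K])
  have h3 : Real.log (1 + mu) ≤ mu := by
    have := Real.log_le_sub_one_of_pos (show 0 < 1 + mu by linarith)
    linarith
  have h4 : -mu ≤ eta * ∑ k ∈ range K, pp mu eta x k * x k := by linarith
  rw [neg_le, neg_eq_neg_one_mul] at *
  rw [le_div_iff₀ heta]
  linarith

theorem log_pw_ge (hmu : 0 < mu) (hx : ∀ k, -(1 / 2) ≤ eta * x k) (K : ℕ) :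
    Real.log mu + ∑ k ∈ range K, (eta * x k - (eta * x k) ^ 2) ≤ Real.log (pw mu eta x K) := by
  induction K with
  | zero => simp [pw]
  | succ K ih =>
    have hW := pw_pos hmu hx K
    have h1 : 0 < 1 + eta * x K := by linarith [hx K]
    rw [Finset.sum_range_succ]
    show _ ≤ Real.log (pw mu eta x K * (1 + eta * x K))
    rw [Real.log_mul hW.ne' h1.ne']
    have := log_ge_quad (hx K)
    linarith

/-- gain against the other expert (mode 1) -/
theorem prod_other (hmu : 0 < mu) (hmu1 : mu ≤ 1) (heta : 0 < eta) (hx : ∀ k, -(1 / 2) ≤ eta * x k)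
    (hx1 : ∀ k, |x k| ≤ 1) (K : ℕ) :
    ∑ k ∈ range K, x k - eta * K - (Real.log (1 / mu) + 1) / eta ≤ ∑ k ∈ range K, pp mu eta x k * x k := by
  have h1 := log_one_add_pw hmu hx K
  have h2 := log_pw_ge hmu hx K
  have hW := pw_pos hmu hx K
  have h3 : Real.log (pw mu eta x K) ≤ Real.log (1 + pw mu eta x K) := Real.log_le_log hW (by linarith)
  have h4 : Real.log (1 + mu) ≤ 1 := by
    have := Real.log_le_sub_one_of_pos (show 0 < 1 + mu by linarith)
    linarith
  have h5 : Real.log (1 / mu) = -Real.log mu := by rw [one_div, Real.log_inv]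
  have h6 : ∑ k ∈ range K, (eta * x k - (eta * x k) ^ 2) ≥ eta * ∑ k ∈ range K, x k - eta ^ 2 * K := by
    rw [Finset.sum_sub_distrib, ← Finset.mul_sum]
    have h7 : ∑ k ∈ range K, (eta * x k) ^ 2 ≤ ∑ _k ∈ range K, eta ^ 2 := by
      apply Finset.sum_le_sum
      intro k _
      have h8 : x k ^ 2 ≤ 1 := by
        have := hx1 k
        rw [← sq_abs]
        nlinarith [abs_nonneg (x k)]
      nlinarith [sq_nonneg eta, mul_le_mul_of_nonneg_left h8 (sq_nonneg eta)]
    rw [Finset.sum_const, Finset.card_range, nsmul_eq_mul] at h7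
    linarith
  have h9 : eta * (∑ k ∈ range K, x k - eta * K - (Real.log (1 / mu) + 1) / eta)
      ≤ eta * ∑ k ∈ range K, pp mu eta x k * x k := by
    have h10 : eta * (∑ k ∈ range K, x k - eta * K - (Real.log (1 / mu) + 1) / eta)
        = eta * ∑ k ∈ range K, x k - eta ^ 2 * K - (Real.log (1 / mu) + 1) := by
      field_simp
    rw [h10, h5]
    linarith
  exact le_of_mul_le_mul_left h9 heta

/-- perturbation of the odds: `W' <= e^a W` gives `p' <= e^a p` -/
theorem odds_pert {W W' a : ℝ} (hW : 0 < W) (hW' : 0 < W') (ha : 0 ≤ a)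
    (h : W' ≤ Real.exp a * W) : W' / (1 + W') ≤ Real.exp a * (W / (1 + W)) := by
  have h1 : 1 ≤ Real.exp a := Real.one_le_exp ha
  rw [← mul_div_assoc, div_le_div_iff₀ (by linarith) (by linarith)]
  nlinarith [mul_pos hW hW', mul_nonneg (sub_nonneg.2 h1) (mul_pos hW hW').le]

/-- and `1 - p' <= e^a (1 - p)` from `W <= e^a W'` -/
theorem odds_pert' {W W' a : ℝ} (hW : 0 < W) (hW' : 0 < W') (ha : 0 ≤ a)
    (h : W ≤ Real.exp a * W') : 1 / (1 + W') ≤ Real.exp a * (1 / (1 + W)) := by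
  have h1 : 1 ≤ Real.exp a := Real.one_le_exp ha
  rw [← mul_div_assoc, div_le_div_iff₀ (by linarith) (by linarith)]
  nlinarith

end prod

end Crest.Agent.R288.HedgeA527
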