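import Mathlib

/-!
# R288: exponential weights over the ranks with a greedy step of density `1/g`

Lemma (B) of post 3987 (helper90). `ν` is a prior on a finite set of letters, `u k` the cost function
of round `k`, `cum u k = ∑ i < k, u i`, `rho γ ν U` the exponential weights.

* `phi_step`: one round: the mean loss minus `γ` times the variance is at most the growth of the
  potential `phi`.
* `min_le_mean_sub_var`: the greedy loss is at most the mean minus `variance / osc`.
* `regret`: `∑ k < K, ((1 - 1/g) <ρ_k,u_k> + (1/g) v_k) ≤ ∑ k < K, u_k z + (ln (1/ν z)) / γ`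
  whenever `v_k ≤ u_k z'` for all `z'` and `osc u_k ≤ o`, `g γ o ≤ 1`.
-/

set_option autoImplicit false

namespace Crest.Agent.R288.HedgeB330

open Finset Real

variable {Z : Type*} [Fintype Z]

/-- total weight -/
noncomputable def tot (γ : ℝ) (ν U : Z → ℝ) : ℝ := ∑ z, ν z * exp (-(γ * U z))

/-- exponential weights -/
noncomputable def rho (γ : ℝ) (ν U : Z → ℝ) (z : Z) : ℝ := ν z * exp (-(γ * U z)) / tot γ ν U

/-- the potential -/
noncomputable def phi (γ : ℝ) (ν U : Z → ℝ) : ℝ := -(log (tot γ ν U)) / γ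

/-- mean of `f` under `p` -/
noncomputable def mean (p f : Z → ℝ) : ℝ := ∑ z, p z * f z

/-- variance of `f` under `p` -/
noncomputable def var (p f : Z → ℝ) : ℝ := ∑ z, p z * (f z - mean p f) ^ 2

/-- sums of the first `k` cost functions -/
def cum (u : ℕ → Z → ℝ) (k : ℕ) (z : Z) : ℝ := ∑ i ∈ range k, u i z

omit [Fintype Z] in
theorem cum_succ (u : ℕ → Z → ℝ) (k : ℕ) (z : Z) : cum u (k + 1) z = cum u k z + u k z :=
  sum_range_succ _ _

theorem tot_pos {γ : ℝ} {ν U : Z → ℝ} (hν : ∀ z, 0 ≤ ν z) (h1 : ∑ z, ν z = 1) :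
    0 < tot γ ν U := by
  obtain ⟨z, hz⟩ : ∃ z, 0 < ν z := by
    by_contra h
    push Not at h
    have : ∑ z, ν z = 0 := sum_eq_zero fun z _ => le_antisymm (h z) (hν z)
    rw [h1] at this
    exact one_ne_zero this
  refine lt_of_lt_of_le (mul_pos hz (exp_pos _)) (single_le_sum (f := fun z => ν z * exp (-(γ * U z)))
    (fun i _ => mul_nonneg (hν i) (exp_pos _).le) (mem_univ z))

theorem rho_nonneg {γ : ℝ} {ν U : Z → ℝ} (hν : ∀ z, 0 ≤ ν z) (h1 : ∑ z, ν z = 1) (z : Z) :
    0 ≤ rho γ ν U z :=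
  div_nonneg (mul_nonneg (hν z) (exp_pos _).le) (tot_pos hν h1).le

theorem rho_sum {γ : ℝ} {ν U : Z → ℝ} (hν : ∀ z, 0 ≤ ν z) (h1 : ∑ z, ν z = 1) :
    ∑ z, rho γ ν U z = 1 := by
  unfold rho
  rw [← sum_div]
  exact div_self (tot_pos hν h1).ne'

theorem mean_mono {p f g : Z → ℝ} (hp : ∀ z, 0 ≤ p z) (h : ∀ z, f z ≤ g z) :
    mean p f ≤ mean p g := sum_le_sum fun z _ => mul_le_mul_of_nonneg_left (h z) (hp z)

theorem mean_const {p : Z → ℝ} (h1 : ∑ z, p z = 1) (c : ℝ) : mean p (fun _ => c) = c := by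
  unfold mean
  rw [← sum_mul, h1, one_mul]

theorem le_mean {p f : Z → ℝ} (hp : ∀ z, 0 ≤ p z) (h1 : ∑ z, p z = 1) {m : ℝ}
    (h : ∀ z, m ≤ f z) : m ≤ mean p f := by
  rw [← mean_const h1 m]
  exact mean_mono hp h

theorem mean_le {p f : Z → ℝ} (hp : ∀ z, 0 ≤ p z) (h1 : ∑ z, p z = 1) {m : ℝ}
    (h : ∀ z, f z ≤ m) : mean p f ≤ m := by
  rw [← mean_const h1 m]
  exact mean_mono hp h

/-- the value of `f` is within `o` of the mean when its oscillation is at most `o` -/
theorem abs_sub_mean_le {p f : Z → ℝ} (hp : ∀ z, 0 ≤ p z) (h1 : ∑ z, p z = 1) {o : ℝ}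
    (ho : ∀ z z', f z - f z' ≤ o) (z : Z) : |f z - mean p f| ≤ o := by
  rw [abs_le]
  constructor
  · have : mean p f ≤ f z + o := mean_le hp h1 fun z' => by linarith [ho z' z]
    linarith
  · have : f z - o ≤ mean p f := le_mean hp h1 fun z' => by linarith [ho z z']
    linarith

theorem var_nonneg {p f : Z → ℝ} (hp : ∀ z, 0 ≤ p z) : 0 ≤ var p f :=
  sum_nonneg fun z _ => mul_nonneg (hp z) (sq_nonneg _)

/-- centred mean is zero -/
theorem mean_centred {p : Z → ℝ} (f : Z → ℝ) (h1 : ∑ z, p z = 1) :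
    ∑ z, p z * (f z - mean p f) = 0 := by
  have : ∑ z, p z * (f z - mean p f) = ∑ z, p z * f z - ∑ z, p z * mean p f := by
    rw [← sum_sub_distrib]
    exact sum_congr rfl fun z _ => by ring
  rw [this, ← sum_mul, h1, one_mul]
  exact sub_self _

/-- **greedy against the mean**: every lower bound `v` of `f` satisfies `v * osc ≤ ...`; here: if
`v ≤ f z` for all `z` and some `z₀` has `f z₀ = v`-ish is not needed: `o * (mean - v) ≥ var`. -/
theorem var_le {p f : Z → ℝ} (hp : ∀ z, 0 ≤ p z) (h1 : ∑ z, p z = 1) {o m : ℝ}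
    (hm : ∀ z, m ≤ f z) (ho : ∀ z, f z ≤ m + o) : var p f ≤ o * (mean p f - m) := by
  -- `∑ p (f - m)(m + o - f) ≥ 0`
  have h0 : 0 ≤ ∑ z, p z * ((f z - m) * (m + o - f z)) :=
    sum_nonneg fun z _ => mul_nonneg (hp z)
      (mul_nonneg (by linarith [hm z]) (by linarith [ho z]))
  set μ := mean p f with hμ
  have e1 : ∑ z, p z * ((f z - m) * (m + o - f z))
      = (μ - m) * (m + o - μ) - var p f := by
    have : ∀ z, p z * ((f z - m) * (m + o - f z))
        = p z * ((μ - m) * (m + o - μ)) + (p z * (f z - μ)) * (m + o - μ - (μ - m))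
          - p z * (f z - μ) ^ 2 := fun z => by ring
    rw [sum_congr rfl fun z _ => this z, sum_sub_distrib, sum_add_distrib, ← sum_mul, ← sum_mul,
      h1, mean_centred f h1, var]
    ring
  have hμm : m ≤ μ := le_mean hp h1 hm
  nlinarith [sq_nonneg (μ - m)]

/-- one round of the potential -/
theorem phi_step {γ : ℝ} (hγ : 0 < γ) {ν U u : Z → ℝ} (hν : ∀ z, 0 ≤ ν z) (h1 : ∑ z, ν z = 1)
    {o : ℝ} (ho : ∀ z z', u z - u z' ≤ o) (hgo : γ * o ≤ 1) :
    mean (rho γ ν U) u - γ * var (rho γ ν U) u ≤ phi γ ν (fun z => U z + u z) - phi γ ν U := by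
  set p := rho γ ν U with hp
  have hp0 : ∀ z, 0 ≤ p z := rho_nonneg hν h1
  have hp1 : ∑ z, p z = 1 := rho_sum hν h1
  set μ := mean p u with hμ
  have hT := tot_pos (γ := γ) (U := U) hν h1
  have hT' := tot_pos (γ := γ) (U := fun z => U z + u z) hν h1
  -- ratio of totals
  have hr : tot γ ν (fun z => U z + u z) = tot γ ν U * ∑ z, p z * exp (-(γ * u z)) := by
    unfold tot
    rw [mul_sum]
    refine sum_congr rfl fun z _ => ?_
    have : (fun z => U z + u z) z = U z + u z := rfl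
    rw [hp]
    unfold rho
    have hT2 : tot γ ν U ≠ 0 := hT.ne'
    have : -(γ * (U z + u z)) = -(γ * U z) + -(γ * u z) := by ring
    simp only [this, exp_add]
    unfold tot at hT2 ⊢
    field_simp
  have hs : ∑ z, p z * exp (-(γ * u z)) ≤ exp (-(γ * μ)) * (1 + γ ^ 2 * var p u) := by
    have hz : ∀ z, p z * exp (-(γ * u z))
        ≤ exp (-(γ * μ)) * (p z * 1 + (-γ) * (p z * (u z - μ)) + γ ^ 2 * (p z * (u z - μ) ^ 2)) := by
      intro z
      have hab : |u z - μ| ≤ o := abs_sub_mean_le hp0 hp1 ho z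
      have hx : |(-γ) * (u z - μ)| ≤ 1 := by
        rw [abs_mul, abs_neg, abs_of_pos hγ]
        exact (mul_le_mul_of_nonneg_left hab hγ.le).trans hgo
      have he := Real.abs_exp_sub_one_sub_id_le hx
      have he' : exp ((-γ) * (u z - μ)) ≤ 1 + (-γ) * (u z - μ) + ((-γ) * (u z - μ)) ^ 2 := by
        have := (abs_le.1 he).2
        linarith
      have hsplit : exp (-(γ * u z)) = exp (-(γ * μ)) * exp ((-γ) * (u z - μ)) := by
        rw [← exp_add]
        congr 1
        ring
      rw [hsplit]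
      have := mul_le_mul_of_nonneg_left he' (mul_nonneg (hp0 z) (exp_pos (-(γ * μ))).le)
      calc p z * (exp (-(γ * μ)) * exp ((-γ) * (u z - μ)))
          = p z * exp (-(γ * μ)) * exp ((-γ) * (u z - μ)) := by ring
        _ ≤ p z * exp (-(γ * μ)) * (1 + (-γ) * (u z - μ) + ((-γ) * (u z - μ)) ^ 2) := this
        _ = _ := by ring
    refine (sum_le_sum fun z _ => hz z).trans (le_of_eq ?_)
    rw [← mul_sum, sum_add_distrib, sum_add_distrib, ← mul_sum, ← mul_sum, mean_centred u hp1,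
      ← sum_mul, hp1, var]
    ring
  have hv : 0 ≤ var p u := var_nonneg hp0
  have hpos : 0 < 1 + γ ^ 2 * var p u := by positivity
  have hl : log (tot γ ν (fun z => U z + u z)) ≤ log (tot γ ν U) - γ * μ + γ ^ 2 * var p u := by
    have hsp : 0 < ∑ z, p z * exp (-(γ * u z)) := by
      by_contra hneg
      push Not at hneg
      have : tot γ ν (fun z => U z + u z) ≤ 0 := by
        rw [hr]
        exact mul_nonpos_of_nonneg_of_nonpos hT.le hneg
      linarith
    rw [hr, log_mul hT.ne' hsp.ne']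
    have := log_le_log hsp hs
    rw [log_mul (exp_pos _).ne' hpos.ne', log_exp] at this
    have h2 := log_le_sub_one_of_pos hpos
    linarith
  unfold phi
  rw [← sub_nonneg]
  have : -log (tot γ ν fun z => U z + u z) / γ - -log (tot γ ν U) / γ - (μ - γ * var p u)
      = (log (tot γ ν U) - γ * μ + γ ^ 2 * var p u - log (tot γ ν fun z => U z + u z)) / γ := by
    field_simp
    ring
  rw [this]
  exact div_nonneg (by linarith) hγ.le

/-- the potential starts at zero -/
theorem phi_zero {γ : ℝ} {ν : Z → ℝ} (h1 : ∑ z, ν z = 1) : phi γ ν (fun _ => 0) = 0 := by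
  unfold phi tot
  simp [h1]

/-- the potential is at most the total cost of any letter plus its price -/
theorem phi_le {γ : ℝ} (hγ : 0 < γ) {ν U : Z → ℝ} (hν : ∀ z, 0 ≤ ν z) {z : Z} (hz : 0 < ν z) :
    phi γ ν U ≤ U z + log (1 / ν z) / γ := by
  have h : ν z * exp (-(γ * U z)) ≤ tot γ ν U :=
    single_le_sum (f := fun z => ν z * exp (-(γ * U z)))
      (fun i _ => mul_nonneg (hν i) (exp_pos _).le) (mem_univ z)
  have h2 := log_le_log (mul_pos hz (exp_pos _)) h
  rw [log_mul hz.ne' (exp_pos _).ne', log_exp] at h2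
  unfold phi
  rw [one_div, log_inv]
  have : U z + -log (ν z) / γ - -log (tot γ ν U) / γ = (log (tot γ ν U) - (log (ν z) + -(γ * U z))) / γ := by
    field_simp
    ring
  have h3 : 0 ≤ (log (tot γ ν U) - (log (ν z) + -(γ * U z))) / γ := div_nonneg (by linarith) hγ.le
  linarith

/-- **one round**: the mixture `(1 - 1/g) * mean + (1/g) * m` of the exponential weights and of a
lower bound `m` attained up to the oscillation is at most the growth of the potential. -/
theorem round {γ : ℝ} (hγ : 0 < γ) {ν U u : Z → ℝ} (hν : ∀ z, 0 ≤ ν z) (h1 : ∑ z, ν z = 1)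
    {o g m : ℝ} (hg : 1 ≤ g) (ho : 0 < o) (hgo : g * (γ * o) ≤ 1)
    (hm : ∀ z, m ≤ u z) (hm' : ∀ z, u z ≤ m + o) :
    (1 - 1 / g) * mean (rho γ ν U) u + 1 / g * m
      ≤ phi γ ν (fun z => U z + u z) - phi γ ν U := by
  have hp0 : ∀ z, 0 ≤ rho γ ν U z := rho_nonneg hν h1
  have hp1 : ∑ z, rho γ ν U z = 1 := rho_sum hν h1
  have hg0 : 0 < g := by linarith
  have hγo : γ * o ≤ 1 := by
    have : γ * o ≤ g * (γ * o) := le_mul_of_one_le_left (by positivity) hg
    linarith
  have hs := phi_step (U := U) hγ hν h1 (o := o) (u := u)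
    (fun z z' => by linarith [hm z', hm' z]) hγo
  have hv := var_le hp0 hp1 hm hm'
  set μ := mean (rho γ ν U) u
  set V := var (rho γ ν U) u
  have hV0 : 0 ≤ V := var_nonneg hp0
  -- `γ V ≤ (μ - m) / g`
  have hμm : 0 ≤ μ - m := by
    have := le_mean hp0 hp1 hm
    linarith
  have h3 : γ * V ≤ (μ - m) / g := by
    rw [le_div_iff₀ hg0]
    calc γ * V * g ≤ γ * (o * (μ - m)) * g := by
          gcongr
      _ = g * (γ * o) * (μ - m) := by ring
      _ ≤ 1 * (μ - m) := mul_le_mul_of_nonneg_right hgo hμm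
      _ = μ - m := one_mul _
  have h4 : (1 - 1 / g) * μ + 1 / g * m = μ - (μ - m) / g := by
    field_simp
    ring
  rw [h4]
  linarith

/-- **Lemma (B)** (regret over the ranks at one state). -/
theorem regret {γ : ℝ} (hγ : 0 < γ) {ν : Z → ℝ} (hν : ∀ z, 0 ≤ ν z) (h1 : ∑ z, ν z = 1)
    {o g : ℝ} (hg : 1 ≤ g) (ho : 0 < o) (hgo : g * (γ * o) ≤ 1) (u : ℕ → Z → ℝ) (m : ℕ → ℝ)
    (K : ℕ) (hm : ∀ k < K, ∀ z, m k ≤ u k z) (hm' : ∀ k < K, ∀ z, u k z ≤ m k + o)
    {z : Z} (hz : 0 < ν z) :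
    ∑ k ∈ range K, ((1 - 1 / g) * mean (rho γ ν (cum u k)) (u k) + 1 / g * m k)
      ≤ ∑ k ∈ range K, u k z + log (1 / ν z) / γ := by
  have key : ∀ j ≤ K, ∑ k ∈ range j, ((1 - 1 / g) * mean (rho γ ν (cum u k)) (u k) + 1 / g * m k)
      ≤ phi γ ν (cum u j) := by
    intro j
    induction j with
    | zero =>
      intro _
      have : (cum u 0) = fun _ : Z => (0 : ℝ) := by
        funext z
        simp [cum]
      rw [this, phi_zero h1]
      simp
    | succ j ih =>
      intro hj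
      rw [sum_range_succ]
      have h2 := round (U := cum u j) hγ hν h1 hg ho hgo (hm j (by omega)) (hm' j (by omega))
      have h3 : (cum u (j + 1)) = fun z => cum u j z + u j z := by
        funext z
        exact cum_succ u j z
      rw [h3]
      linarith [ih (by omega)]
  refine (key K le_rfl).trans ((phi_le hγ hν hz).trans (le_of_eq rfl))

end Crest.Agent.R288.HedgeB330
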