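import Crest.Agent.R288.Avg_453

/-!
Row 288, LEMMA 288-90 (#3987, helper90), abstract part (helper453).

* `hedge_greedy` = (B): Hedge with rate `γ` on a fraction `1 - 1/g` of the levels, greedy choice on a fraction
  `1/g`: no second order term, for arbitrary sequences of cost vectors with oscillation `≤ o`, `g γ o ≤ 1`.
* `hedge_plain`: ordinary Hedge regret (mode 1).
* `prod_zero`, `prod_one`: Prod with a special expert (mode steps).
* stability: `mn_ker_pert` (noisy kernels), `greedy_est` (noisy argmin), `jump_rule` (noisy jump),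
  `prod_pert` (noisy Prod weights).
* `telescope` = (D).
-/

set_option autoImplicit false

namespace Crest.Agent.R288.Hedge453

open Finset Crest.Agent.R288.Avg453

variable {ι : Type*} {s : Finset ι}

/-- probability vector on `s` -/
structure PV (s : Finset ι) (ρ : ι → ℝ) : Prop where
  nonneg : ∀ z ∈ s, 0 ≤ ρ z
  sum : ∑ z ∈ s, ρ z = 1

theorem PV.wt {ρ : ι → ℝ} (h : PV s ρ) : Wt s ρ := wt_of_sum_one h.nonneg h.sum

theorem PV.nonempty {ρ : ι → ℝ} (h : PV s ρ) : s.Nonempty := by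
  obtain ⟨z, hz, _⟩ := h.wt.2; exact ⟨z, hz⟩

theorem pv_ker {p : ι → ℝ} (h : Wt s p) (x : ι → ℝ) : PV s (ker s p x) :=
  ⟨fun _ hz => ker_nonneg h hz, sum_ker h x⟩

theorem pv_const (hs : s.Nonempty) : PV s (fun _ => 1 / (s.card : ℝ)) := by
  have h : (0 : ℝ) < s.card := by exact_mod_cast hs.card_pos
  exact ⟨fun _ _ => by positivity, by simp [h.ne']⟩

/-- mean -/
noncomputable def mn (s : Finset ι) (ρ u : ι → ℝ) : ℝ := ∑ z ∈ s, ρ z * u z

/-- variance -/
noncomputable def vr (s : Finset ι) (ρ u : ι → ℝ) : ℝ := ∑ z ∈ s, ρ z * (u z - mn s ρ u) ^ 2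

theorem mn_sub_const {ρ : ι → ℝ} (h : PV s ρ) (u : ι → ℝ) (m : ℝ) :
    mn s ρ (fun z => u z - m) = mn s ρ u - m := by
  unfold mn
  simp_rw [mul_sub]
  rw [Finset.sum_sub_distrib (fun z => ρ z * u z) (fun z => ρ z * m), ← Finset.sum_mul, h.sum, one_mul]

theorem mn_mono {ρ u v : ι → ℝ} (h : PV s ρ) (huv : ∀ z ∈ s, u z ≤ v z) : mn s ρ u ≤ mn s ρ v :=
  Finset.sum_le_sum fun z hz => mul_le_mul_of_nonneg_left (huv z hz) (h.nonneg z hz)

theorem mn_le {ρ u : ι → ℝ} (h : PV s ρ) {c : ℝ} (hu : ∀ z ∈ s, u z ≤ c) : mn s ρ u ≤ c := by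
  calc mn s ρ u ≤ ∑ z ∈ s, ρ z * c := Finset.sum_le_sum fun z hz => mul_le_mul_of_nonneg_left (hu z hz) (h.nonneg z hz)
    _ = c := by rw [← Finset.sum_mul, h.sum, one_mul]

theorem le_mn {ρ u : ι → ℝ} (h : PV s ρ) {c : ℝ} (hu : ∀ z ∈ s, c ≤ u z) : c ≤ mn s ρ u := by
  calc c = ∑ z ∈ s, ρ z * c := by rw [← Finset.sum_mul, h.sum, one_mul]
    _ ≤ mn s ρ u := Finset.sum_le_sum fun z hz => mul_le_mul_of_nonneg_left (hu z hz) (h.nonneg z hz)

theorem vr_nonneg {ρ u : ι → ℝ} (h : PV s ρ) : 0 ≤ vr s ρ u :=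
  Finset.sum_nonneg fun z hz => mul_nonneg (h.nonneg z hz) (sq_nonneg _)

/-- `Var = E (u-m)^2 - (E u - m)^2` -/
theorem vr_eq {ρ : ι → ℝ} (h : PV s ρ) (u : ι → ℝ) (m : ℝ) :
    vr s ρ u = ∑ z ∈ s, ρ z * (u z - m) ^ 2 - (mn s ρ u - m) ^ 2 := by
  have e1 : ∑ z ∈ s, ρ z * (u z - m) = mn s ρ u - m := mn_sub_const h u m
  have e2 : vr s ρ u = ∑ z ∈ s, (ρ z * (u z - m) ^ 2 - 2 * (mn s ρ u - m) * (ρ z * (u z - m)) +
      (mn s ρ u - m) ^ 2 * ρ z) := by
    unfold vr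
    exact Finset.sum_congr rfl fun z _ => by ring
  rw [e2, Finset.sum_add_distrib, Finset.sum_sub_distrib, ← Finset.mul_sum, ← Finset.mul_sum, e1, h.sum]
  ring

/-- **Bhatia-Davis**: `m ≤ u ≤ m + o` implies `Var ≤ o (E u - m)` -/
theorem vr_le {ρ u : ι → ℝ} (h : PV s ρ) {m o : ℝ} (h1 : ∀ z ∈ s, m ≤ u z) (h2 : ∀ z ∈ s, u z ≤ m + o) :
    vr s ρ u ≤ o * (mn s ρ u - m) := by
  rw [vr_eq h u m]
  have : ∑ z ∈ s, ρ z * (u z - m) ^ 2 ≤ o * (mn s ρ u - m) := by
    rw [← mn_sub_const h u m]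
    unfold mn
    rw [Finset.mul_sum]
    apply Finset.sum_le_sum
    intro z hz
    have a := h1 z hz
    have b := h2 z hz
    have c : (u z - m) ^ 2 ≤ o * (u z - m) := by nlinarith
    calc ρ z * (u z - m) ^ 2 ≤ ρ z * (o * (u z - m)) := mul_le_mul_of_nonneg_left c (h.nonneg z hz)
      _ = o * (ρ z * (u z - m)) := by ring
  nlinarith [sq_nonneg (mn s ρ u - m)]

theorem inf_le_mn {ρ u : ι → ℝ} (h : PV s ρ) (hs : s.Nonempty) : s.inf' hs u ≤ mn s ρ u :=
  le_mn h fun z hz => Finset.inf'_le u hz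

/-- **the greedy gain**: `min u ≤ E u - Var/o` for oscillation `≤ o` -/
theorem inf_le_sub {ρ u : ι → ℝ} (h : PV s ρ) (hs : s.Nonempty) {o : ℝ} (ho : 0 < o)
    (hu : ∀ z ∈ s, ∀ z' ∈ s, u z - u z' ≤ o) : s.inf' hs u ≤ mn s ρ u - vr s ρ u / o := by
  have h1 : ∀ z ∈ s, s.inf' hs u ≤ u z := fun z hz => Finset.inf'_le u hz
  have h2 : ∀ z ∈ s, u z ≤ s.inf' hs u + o := by
    intro z hz
    obtain ⟨w, hw, hwe⟩ := Finset.exists_mem_eq_inf' hs u
    rw [hwe]; linarith [hu z hz w hw]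
  have h3 := vr_le h h1 h2
  rw [le_sub_iff_add_le, ← le_sub_iff_add_le', div_le_iff₀ ho]
  linarith

/-- `Φ_γ(U) = -(1/γ) log Σ π e^{-γ U}` -/
noncomputable def phi (s : Finset ι) (γ : ℝ) (p U : ι → ℝ) : ℝ := -(1 / γ) * lse s p (fun z => -(γ * U z))

/-- the Hedge kernel `∝ π e^{-γ U}` -/
noncomputable def hk (s : Finset ι) (γ : ℝ) (p U : ι → ℝ) : ι → ℝ := ker s p (fun z => -(γ * U z))

theorem pv_hk {p : ι → ℝ} (h : Wt s p) (γ : ℝ) (U : ι → ℝ) : PV s (hk s γ p U) := pv_ker h _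

/-- **one step**: `Φ(U+u) - Φ(U) ≥ <ρ,u> - γ Var_ρ(u)` if `γ osc u ≤ 1`. -/
theorem phi_step {p : ι → ℝ} (hp : Wt s p) {γ o : ℝ} (hγ : 0 < γ) (hγo : γ * o ≤ 1) (U u : ι → ℝ)
    (hu : ∀ z ∈ s, ∀ z' ∈ s, u z - u z' ≤ o) :
    mn s (hk s γ p U) u - γ * vr s (hk s γ p U) u ≤ phi s γ p (fun z => U z + u z) - phi s γ p U := by
  set ρ := hk s γ p U with hρ
  have hpv : PV s ρ := pv_hk hp γ U
  set M := mn s ρ u with hM
  have hk1 := sum_ker_exp hp (fun z => -(γ * U z)) (fun z => -(γ * (U z + u z)))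
  have h1 : ∑ z ∈ s, ρ z * Real.exp (-(γ * u z)) =
      Real.exp (lse s p (fun z => -(γ * (U z + u z))) - lse s p (fun z => -(γ * U z))) := by
    rw [← hk1]
    exact Finset.sum_congr rfl fun z _ => by
      rw [show -(γ * (U z + u z)) - -(γ * U z) = -(γ * u z) by ring]; rfl
  have habs : ∀ z ∈ s, |-(γ * (u z - M))| ≤ 1 := by
    intro z hz
    have a : u z - M ≤ o := by
      have : u z - o ≤ M := le_mn hpv fun w hw => by linarith [hu z hz w hw]
      linarith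
    have b : M - u z ≤ o := by
      have : M ≤ u z + o := mn_le hpv fun w hw => by linarith [hu w hw z hz]
      linarith
    rw [abs_neg, abs_mul, abs_of_pos hγ]
    have : |u z - M| ≤ o := abs_le.2 ⟨by linarith, a⟩
    calc γ * |u z - M| ≤ γ * o := mul_le_mul_of_nonneg_left this hγ.le
      _ ≤ 1 := hγo
  have hexp : ∀ z ∈ s, Real.exp (-(γ * (u z - M))) ≤ 1 - γ * (u z - M) + γ ^ 2 * (u z - M) ^ 2 := by
    intro z hz
    have := (abs_le.1 (Real.abs_exp_sub_one_sub_id_le (habs z hz))).2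
    nlinarith
  have h2 : ∑ z ∈ s, ρ z * Real.exp (-(γ * (u z - M))) ≤ 1 + γ ^ 2 * vr s ρ u := by
    calc ∑ z ∈ s, ρ z * Real.exp (-(γ * (u z - M)))
        ≤ ∑ z ∈ s, ρ z * (1 - γ * (u z - M) + γ ^ 2 * (u z - M) ^ 2) :=
          Finset.sum_le_sum fun z hz => mul_le_mul_of_nonneg_left (hexp z hz) (hpv.nonneg z hz)
      _ = ∑ z ∈ s, (ρ z - γ * (ρ z * (u z - M)) + γ ^ 2 * (ρ z * (u z - M) ^ 2)) :=
          Finset.sum_congr rfl fun z _ => by ring
      _ = 1 - γ * 0 + γ ^ 2 * vr s ρ u := by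
          rw [Finset.sum_add_distrib, Finset.sum_sub_distrib, ← Finset.mul_sum, ← Finset.mul_sum, hpv.sum]
          have : ∑ z ∈ s, ρ z * (u z - M) = 0 := by
            have := mn_sub_const hpv u M
            unfold mn at this
            rw [this]; simp [hM, mn]
          rw [this]; rfl
      _ = 1 + γ ^ 2 * vr s ρ u := by ring
  have h3 : ∑ z ∈ s, ρ z * Real.exp (-(γ * u z)) = Real.exp (-(γ * M)) * ∑ z ∈ s, ρ z * Real.exp (-(γ * (u z - M))) := by
    rw [Finset.mul_sum]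
    exact Finset.sum_congr rfl fun z _ => by
      rw [show -(γ * u z) = -(γ * M) + -(γ * (u z - M)) by ring, Real.exp_add]; ring
  have h4 : Real.exp (lse s p (fun z => -(γ * (U z + u z))) - lse s p (fun z => -(γ * U z))) ≤
      Real.exp (-(γ * M) + γ ^ 2 * vr s ρ u) := by
    rw [← h1, h3, Real.exp_add]
    refine mul_le_mul_of_nonneg_left (h2.trans ?_) (Real.exp_pos _).le
    linarith [Real.add_one_le_exp (γ ^ 2 * vr s ρ u)]
  have h5 := Real.exp_le_exp.1 h4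
  unfold phi
  have e : -(1 / γ) * lse s p (fun z => -(γ * (U z + u z))) - -(1 / γ) * lse s p (fun z => -(γ * U z)) =
      (1 / γ) * (lse s p (fun z => -(γ * U z)) - lse s p (fun z => -(γ * (U z + u z)))) := by ring
  rw [e]
  have h6 : (1 / γ) * (γ * M - γ ^ 2 * vr s ρ u) ≤
      (1 / γ) * (lse s p (fun z => -(γ * U z)) - lse s p (fun z => -(γ * (U z + u z)))) :=
    mul_le_mul_of_nonneg_left (by linarith) (by positivity)
  have e2 : (1 / γ) * (γ * M - γ ^ 2 * vr s ρ u) = M - γ * vr s ρ u := by field_simp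
  linarith

theorem phi_zero {p : ι → ℝ} (h : PV s p) (γ : ℝ) : phi s γ p (fun _ => 0) = 0 := by
  unfold phi
  have : (fun _ : ι => -(γ * (0:ℝ))) = fun _ => (0:ℝ) := by funext; simp
  rw [this, lse_const h.wt h.sum]; simp

theorem phi_le {p : ι → ℝ} (h : Wt s p) {γ : ℝ} (hγ : 0 < γ) (U : ι → ℝ) {z : ι} (hz : z ∈ s) (hpz : 0 < p z) :
    phi s γ p U ≤ U z + Real.log (1 / p z) / γ := by
  have := le_lse (x := fun z => -(γ * U z)) h hz hpz
  unfold phi
  rw [one_div (p z), Real.log_inv]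
  have h2 : (1 / γ) * (Real.log (p z) + -(γ * U z)) ≤ (1 / γ) * lse s p (fun z => -(γ * U z)) :=
    mul_le_mul_of_nonneg_left this (by positivity)
  have e : (1 / γ) * (Real.log (p z) + -(γ * U z)) = Real.log (p z) / γ - U z := by field_simp; ring
  rw [e] at h2
  have e2 : -Real.log (p z) / γ = -(Real.log (p z) / γ) := by ring
  rw [e2]; linarith

/-- cumulative cost vector of the ranks `< k` -/
noncomputable def cum (u : ℕ → ι → ℝ) (k : ℕ) : ι → ℝ := fun z => ∑ i ∈ range k, u i z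

theorem cum_succ (u : ℕ → ι → ℝ) (k : ℕ) : cum u (k + 1) = fun z => cum u k z + u k z := by
  funext z; simp [cum, Finset.sum_range_succ]

theorem cum_zero (u : ℕ → ι → ℝ) : cum u 0 = fun _ => 0 := by funext z; simp [cum]

/-- **(B) of #3987.** `R k` = value of rank `k` at the state, averaged over the bit `[t ∈ C]`. -/
theorem hedge_greedy {p : ι → ℝ} (hp : PV s p) (hs : s.Nonempty) {γ g o : ℝ} (hγ : 0 < γ) (hg : 1 ≤ g)
    (ho : 0 < o) (hgo : g * γ * o ≤ 1) (K : ℕ) (u : ℕ → ι → ℝ)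
    (hu : ∀ k < K, ∀ z ∈ s, ∀ z' ∈ s, u k z - u k z' ≤ o) (R θ : ℕ → ℝ)
    (hR : ∀ k < K, R k ≤ (1 - 1 / g) * mn s (hk s γ p (cum u k)) (u k) + 1 / g * s.inf' hs (u k) + θ k)
    {z : ι} (hz : z ∈ s) (hpz : 0 < p z) :
    ∑ k ∈ range K, R k ≤ ∑ k ∈ range K, u k z + Real.log (1 / p z) / γ + ∑ k ∈ range K, θ k := by
  have hg0 : 0 < g := by linarith
  have hγo : γ * o ≤ 1 := by
    have : γ * o ≤ g * (γ * o) := le_mul_of_one_le_left (by positivity) hg
    linarith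
  have step : ∀ k < K, R k ≤ phi s γ p (cum u (k + 1)) - phi s γ p (cum u k) + θ k := by
    intro k hk'
    have h1 := phi_step hp.wt hγ hγo (cum u k) (u k) (hu k hk')
    rw [← cum_succ] at h1
    have hpv := pv_hk hp.wt γ (cum u k)
    have h2 := inf_le_sub hpv hs ho (hu k hk')
    have h3 := vr_nonneg (u := u k) hpv
    set ρ := hk s γ p (cum u k)
    have h4 : 1 / g * s.inf' hs (u k) ≤ 1 / g * (mn s ρ (u k) - vr s ρ (u k) / o) :=
      mul_le_mul_of_nonneg_left h2 (by positivity)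
    have h5 : γ * vr s ρ (u k) ≤ 1 / g * (vr s ρ (u k) / o) := by
      have : γ ≤ 1 / g * (1 / o) := by
        rw [one_div_mul_one_div, le_div_iff₀ (by positivity)]
        calc γ * (g * o) = g * γ * o := by ring
          _ ≤ 1 := hgo
      calc γ * vr s ρ (u k) ≤ (1 / g * (1 / o)) * vr s ρ (u k) := mul_le_mul_of_nonneg_right this h3
        _ = 1 / g * (vr s ρ (u k) / o) := by ring
    have h6 := hR k hk'
    have e : (1 - 1 / g) * mn s ρ (u k) + 1 / g * (mn s ρ (u k) - vr s ρ (u k) / o) =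
        mn s ρ (u k) - 1 / g * (vr s ρ (u k) / o) := by ring
    linarith
  calc ∑ k ∈ range K, R k
      ≤ ∑ k ∈ range K, (phi s γ p (cum u (k + 1)) - phi s γ p (cum u k) + θ k) :=
        Finset.sum_le_sum fun k hk' => step k (by simpa using hk')
    _ = phi s γ p (cum u K) - phi s γ p (cum u 0) + ∑ k ∈ range K, θ k := by
        rw [Finset.sum_add_distrib, Finset.sum_range_sub (fun k => phi s γ p (cum u k))]
    _ ≤ ∑ k ∈ range K, u k z + Real.log (1 / p z) / γ + ∑ k ∈ range K, θ k := by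
        rw [cum_zero, phi_zero hp]
        have := phi_le hp.wt hγ (cum u K) hz hpz
        simp only [cum] at this ⊢
        linarith

/-- **ordinary Hedge** (mode 1): rate `β`, oscillation `≤ C`, `β C ≤ 1`. -/
theorem hedge_plain {p : ι → ℝ} (hp : PV s p) {β C : ℝ} (hβ : 0 < β) (hβC : β * C ≤ 1) (hC : 0 ≤ C)
    (K : ℕ) (u : ℕ → ι → ℝ) (hu : ∀ k < K, ∀ z ∈ s, ∀ z' ∈ s, u k z - u k z' ≤ C) (R θ : ℕ → ℝ)
    (hR : ∀ k < K, R k ≤ mn s (hk s β p (cum u k)) (u k) + θ k) {z : ι} (hz : z ∈ s) (hpz : 0 < p z) :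
    ∑ k ∈ range K, R k ≤
      ∑ k ∈ range K, u k z + Real.log (1 / p z) / β + K * (β * C ^ 2) + ∑ k ∈ range K, θ k := by
  have hs : s.Nonempty := ⟨z, hz⟩
  have step : ∀ k < K, R k ≤ phi s β p (cum u (k + 1)) - phi s β p (cum u k) + β * C ^ 2 + θ k := by
    intro k hk'
    have h1 := phi_step hp.wt hβ hβC (cum u k) (u k) (hu k hk')
    rw [← cum_succ] at h1
    have hpv := pv_hk hp.wt β (cum u k)
    have h0 : ∀ w ∈ s, s.inf' hs (u k) ≤ u k w := fun w hw => Finset.inf'_le (u k) hw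
    have h0' : ∀ w ∈ s, u k w ≤ s.inf' hs (u k) + C := by
      intro w hw
      obtain ⟨v, hv, hve⟩ := Finset.exists_mem_eq_inf' hs (u k)
      rw [hve]; linarith [hu k hk' w hw v hv]
    have h2 := vr_le hpv h0 h0'
    have h3 : mn s (hk s β p (cum u k)) (u k) ≤ s.inf' hs (u k) + C := mn_le hpv h0'
    have h4 : vr s (hk s β p (cum u k)) (u k) ≤ C ^ 2 := by
      refine h2.trans ?_
      have : mn s (hk s β p (cum u k)) (u k) - s.inf' hs (u k) ≤ C := by linarith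
      calc C * (mn s (hk s β p (cum u k)) (u k) - s.inf' hs (u k)) ≤ C * C := mul_le_mul_of_nonneg_left this hC
        _ = C ^ 2 := by ring
    have h5 : β * vr s (hk s β p (cum u k)) (u k) ≤ β * C ^ 2 := mul_le_mul_of_nonneg_left h4 hβ.le
    have h6 := hR k hk'
    linarith
  calc ∑ k ∈ range K, R k
      ≤ ∑ k ∈ range K, (phi s β p (cum u (k + 1)) - phi s β p (cum u k) + β * C ^ 2 + θ k) :=
        Finset.sum_le_sum fun k hk' => step k (by simpa using hk')
    _ = phi s β p (cum u K) - phi s β p (cum u 0) + K * (β * C ^ 2) + ∑ k ∈ range K, θ k := by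
        rw [Finset.sum_add_distrib, Finset.sum_add_distrib, Finset.sum_range_sub (fun k => phi s β p (cum u k))]
        simp
    _ ≤ _ := by
        rw [cum_zero, phi_zero hp]
        have := phi_le hp.wt hβ (cum u K) hz hpz
        simp only [cum] at this ⊢
        linarith

/-! ### stability under estimation errors -/

theorem lse_pert {p x x' : ι → ℝ} (hp : Wt s p) {τ : ℝ} (h : ∀ z ∈ s, |x' z - x z| ≤ τ) :
    |lse s p x' - lse s p x| ≤ τ := lse_lip hp h

theorem ker_pert {p x x' : ι → ℝ} (hp : Wt s p) {τ : ℝ} (h : ∀ z ∈ s, |x' z - x z| ≤ τ) {z : ι} (hz : z ∈ s) :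
    ker s p x' z ≤ Real.exp (2 * τ) * ker s p x z := by
  have a := (abs_le.1 (h z hz)).2
  have b := (abs_le.1 (lse_pert hp h)).1
  unfold ker
  calc p z * Real.exp (x' z - lse s p x') ≤ p z * Real.exp (2 * τ + (x z - lse s p x)) :=
        mul_le_mul_of_nonneg_left (Real.exp_le_exp.2 (by linarith)) (hp.1 z hz)
    _ = Real.exp (2 * τ) * (p z * Real.exp (x z - lse s p x)) := by rw [Real.exp_add]; ring

/-- the mean under the noisy kernel: error `(e^{2τ} - 1) o` -/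
theorem mn_ker_pert {p x x' u : ι → ℝ} (hp : Wt s p) {τ o : ℝ} (h : ∀ z ∈ s, |x' z - x z| ≤ τ)
    (hτ : 0 ≤ τ) (hu : ∀ z ∈ s, ∀ z' ∈ s, u z - u z' ≤ o) :
    mn s (ker s p x') u ≤ mn s (ker s p x) u + (Real.exp (2 * τ) - 1) * o := by
  obtain ⟨z0, hz0, _⟩ := hp.2
  have hs : s.Nonempty := ⟨z0, hz0⟩
  set m := s.inf' hs u with hm
  have h1 : ∀ z ∈ s, m ≤ u z := fun z hz => Finset.inf'_le u hz
  have h2 : ∀ z ∈ s, u z ≤ m + o := by
    intro z hz
    obtain ⟨w, hw, hwe⟩ := Finset.exists_mem_eq_inf' hs u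
    rw [hm, hwe]; linarith [hu z hz w hw]
  have pk := pv_ker hp x
  have pk' := pv_ker hp x'
  have e1 := mn_sub_const pk u m
  have e2 := mn_sub_const pk' u m
  have h3 : mn s (ker s p x') (fun z => u z - m) ≤ Real.exp (2 * τ) * mn s (ker s p x) (fun z => u z - m) := by
    unfold mn
    rw [Finset.mul_sum]
    apply Finset.sum_le_sum
    intro z hz
    have a := ker_pert hp h hz
    have b : 0 ≤ u z - m := by linarith [h1 z hz]
    calc ker s p x' z * (u z - m) ≤ (Real.exp (2 * τ) * ker s p x z) * (u z - m) := mul_le_mul_of_nonneg_right a b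
      _ = Real.exp (2 * τ) * (ker s p x z * (u z - m)) := by ring
  have h4 : mn s (ker s p x) (fun z => u z - m) ≤ o := mn_le pk fun z hz => by linarith [h2 z hz]
  have h5 : 0 ≤ Real.exp (2 * τ) - 1 := by
    have := Real.add_one_le_exp (2 * τ); linarith
  rw [e1] at h3 h4
  rw [e2] at h3
  nlinarith [mul_le_mul_of_nonneg_left h4 h5]

/-- noisy Hedge kernel: estimates `û_i` with error `≤ θ` for the ranks `i < k`. -/
theorem mn_hk_pert {p : ι → ℝ} (hp : Wt s p) {γ θ o : ℝ} (hγ : 0 ≤ γ) (hθ : 0 ≤ θ) (k : ℕ) (u u' : ℕ → ι → ℝ)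
    (h : ∀ i < k, ∀ z ∈ s, |u' i z - u i z| ≤ θ) (v : ι → ℝ) (hv : ∀ z ∈ s, ∀ z' ∈ s, v z - v z' ≤ o) :
    mn s (hk s γ p (cum u' k)) v ≤ mn s (hk s γ p (cum u k)) v + (Real.exp (2 * (γ * (k * θ))) - 1) * o := by
  apply mn_ker_pert hp _ (by positivity) hv
  intro z hz
  have e : -(γ * cum u' k z) - -(γ * cum u k z) = -(γ * ∑ i ∈ range k, (u' i z - u i z)) := by
    simp only [cum, Finset.sum_sub_distrib]; ring
  rw [e, abs_neg, abs_mul, abs_of_nonneg hγ]
  apply mul_le_mul_of_nonneg_left _ hγ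
  calc |∑ i ∈ range k, (u' i z - u i z)| ≤ ∑ i ∈ range k, |u' i z - u i z| := Finset.abs_sum_le_sum_abs _ _
    _ ≤ ∑ _i ∈ range k, θ := Finset.sum_le_sum fun i hi => h i (by simpa using hi) z hz
    _ = k * θ := by simp

/-- noisy greedy choice -/
theorem greedy_est (hs : s.Nonempty) {u u' : ι → ℝ} {θ : ℝ} (h : ∀ z ∈ s, |u' z - u z| ≤ θ) {z : ι} (hz : z ∈ s)
    (hmin : ∀ w ∈ s, u' z ≤ u' w) : u z ≤ s.inf' hs u + 2 * θ := by
  obtain ⟨w, hw, hwe⟩ := Finset.exists_mem_eq_inf' hs u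
  rw [hwe]
  have a := (abs_le.1 (h z hz)).1
  have b := (abs_le.1 (h w hw)).2
  linarith [hmin w hw]

/-- **noisy jump rule**: `Q y` = cost of jumping to `y` and continuing (`Q x0` = stay), estimates `Q'` with error
`≤ b/8`; jump to the minimiser `y` of `Q'` only if `Q' y ≤ Q' x0 - b/2`. The chosen value is `≤ Q x0` and
`≤ min Q + b`. -/
theorem jump_rule {Q Q' : ι → ℝ} {b : ℝ} (hb : 0 ≤ b) (h : ∀ y ∈ s, |Q' y - Q y| ≤ b / 8) {x0 y : ι}
    (hx0 : x0 ∈ s) (hy : y ∈ s) (hmin : ∀ w ∈ s, Q' y ≤ Q' w) (c : ι)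
    (hc : (Q' y ≤ Q' x0 - b / 2 ∧ c = y) ∨ (¬ Q' y ≤ Q' x0 - b / 2 ∧ c = x0)) :
    Q c ≤ Q x0 ∧ ∀ w ∈ s, Q c ≤ Q w + b := by
  have hx := abs_le.1 (h x0 hx0)
  have hy' := abs_le.1 (h y hy)
  rcases hc with ⟨h1, rfl⟩ | ⟨h1, rfl⟩
  · refine ⟨by linarith [hx.2, hy'.1], fun w hw => ?_⟩
    have hw' := abs_le.1 (h w hw)
    linarith [hmin w hw, hy'.1, hw'.2]
  · push Not at h1
    refine ⟨le_rfl, fun w hw => ?_⟩
    have hw' := abs_le.1 (h w hw)
    linarith [hmin w hw, hx.1, hw'.2]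

/-! ### Prod with a special expert (mode 0) -/

/-- weight of mode 1 after the gains `g_0 .. g_{k-1}` -/
noncomputable def pw (μ η : ℝ) (g : ℕ → ℝ) (k : ℕ) : ℝ := μ * ∏ i ∈ range k, (1 + η * g i)

/-- probability of mode 1 -/
noncomputable def pp (μ η : ℝ) (g : ℕ → ℝ) (k : ℕ) : ℝ := pw μ η g k / (1 + pw μ η g k)

theorem pw_succ (μ η : ℝ) (g : ℕ → ℝ) (k : ℕ) : pw μ η g (k + 1) = pw μ η g k * (1 + η * g k) := by
  simp [pw, Finset.prod_range_succ, mul_assoc]

theorem pw_pos {μ η : ℝ} {g : ℕ → ℝ} (hμ : 0 < μ) (hη : 0 ≤ η) (hη2 : η ≤ 1 / 2) (k : ℕ)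
    (hg : ∀ i < k, |g i| ≤ 1) : 0 < pw μ η g k := by
  unfold pw
  apply mul_pos hμ
  apply Finset.prod_pos
  intro i hi
  have := abs_le.1 (hg i (by simpa using hi))
  nlinarith

theorem pp_nonneg {μ η : ℝ} {g : ℕ → ℝ} (hμ : 0 < μ) (hη : 0 ≤ η) (hη2 : η ≤ 1 / 2) (k : ℕ)
    (hg : ∀ i < k, |g i| ≤ 1) : 0 ≤ pp μ η g k := by
  have := pw_pos hμ hη hη2 k hg
  unfold pp; positivity

theorem pp_le_one {μ η : ℝ} {g : ℕ → ℝ} (hμ : 0 < μ) (hη : 0 ≤ η) (hη2 : η ≤ 1 / 2) (k : ℕ)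
    (hg : ∀ i < k, |g i| ≤ 1) : pp μ η g k ≤ 1 := by
  have := pw_pos hμ hη hη2 k hg
  unfold pp; rw [div_le_one (by linarith)]; linarith

theorem prod_key {μ η : ℝ} {g : ℕ → ℝ} (hμ : 0 < μ) (hη : 0 ≤ η) (hη2 : η ≤ 1 / 2) (K : ℕ)
    (hg : ∀ i < K, |g i| ≤ 1) :
    Real.log (1 + pw μ η g K) - Real.log (1 + μ) ≤ η * ∑ k ∈ range K, pp μ η g k * g k := by
  induction K with
  | zero => simp [pw]
  | succ K ih =>
      have ih' := ih (fun i hi => hg i (by omega))
      have hW := pw_pos hμ hη hη2 K (fun i hi => hg i (by omega))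
      have hW1 := pw_pos hμ hη hη2 (K + 1) hg
      have e : 1 + pw μ η g (K + 1) = (1 + pw μ η g K) * (1 + η * (pp μ η g K * g K)) := by
        rw [pw_succ]; unfold pp
        have : (1 + pw μ η g K) ≠ 0 := by positivity
        field_simp; ring
      have hpos : 0 < 1 + η * (pp μ η g K * g K) := by
        have h1 : 0 < (1 + pw μ η g K) * (1 + η * (pp μ η g K * g K)) := by rw [← e]; linarith
        exact (pos_iff_pos_of_mul_pos h1).1 (by linarith)
      rw [e, Real.log_mul (by positivity) hpos.ne', Finset.sum_range_succ]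
      have := Real.log_le_sub_one_of_pos hpos
      linarith

/-- regret against the special expert (mode 0, gain 0): `Σ p_k g_k ≥ -μ/η` -/
theorem prod_zero {μ η : ℝ} {g : ℕ → ℝ} (hμ : 0 < μ) (hη : 0 < η) (hη2 : η ≤ 1 / 2) (K : ℕ)
    (hg : ∀ i < K, |g i| ≤ 1) : -(μ / η) ≤ ∑ k ∈ range K, pp μ η g k * g k := by
  have h := prod_key hμ hη.le hη2 K hg
  have hW := pw_pos hμ hη.le hη2 K hg
  have h1 : 0 ≤ Real.log (1 + pw μ η g K) := Real.log_nonneg (by linarith)
  have h2 : Real.log (1 + μ) ≤ μ := by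
    have := Real.log_le_sub_one_of_pos (show (0:ℝ) < 1 + μ by linarith); linarith
  have h3 : -μ ≤ η * ∑ k ∈ range K, pp μ η g k * g k := by linarith
  rw [← neg_div, div_le_iff₀ hη]
  linarith [mul_comm η (∑ k ∈ range K, pp μ η g k * g k)]

/-- regret against mode 1: `Σ p_k g_k ≥ Σ g_k - η Σ g_k^2 - (log(1/μ) + μ)/η` -/
theorem prod_one {μ η : ℝ} {g : ℕ → ℝ} (hμ : 0 < μ) (hη : 0 < η) (hη2 : η ≤ 1 / 2) (K : ℕ)
    (hg : ∀ i < K, |g i| ≤ 1) :
    ∑ k ∈ range K, g k - η * K - (Real.log (1 / μ) + μ) / η ≤ ∑ k ∈ range K, pp μ η g k * g k := by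
  have h := prod_key hμ hη.le hη2 K hg
  have hW := pw_pos hμ hη.le hη2 K hg
  have h2 : Real.log (1 + μ) ≤ μ := by
    have := Real.log_le_sub_one_of_pos (show (0:ℝ) < 1 + μ by linarith); linarith
  have h3 : Real.log (pw μ η g K) ≤ Real.log (1 + pw μ η g K) := Real.log_le_log hW (by linarith)
  have h4 : Real.log (pw μ η g K) = Real.log μ + ∑ k ∈ range K, Real.log (1 + η * g k) := by
    unfold pw
    have hne : ∀ i ∈ range K, (1 + η * g i) ≠ 0 := fun i hi => by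
      have := abs_le.1 (hg i (by simpa using hi)); nlinarith
    rw [Real.log_mul hμ.ne' (Finset.prod_ne_zero_iff.2 hne), Real.log_prod hne]
  have h5 : ∀ k ∈ range K, η * g k - η ^ 2 ≤ Real.log (1 + η * g k) := by
    intro k hk'
    have hgk := abs_le.1 (hg k (by simpa using hk'))
    have hx : |η * g k| ≤ 1 / 2 := by
      rw [abs_mul, abs_of_pos hη]
      calc η * |g k| ≤ η * 1 := mul_le_mul_of_nonneg_left (hg k (by simpa using hk')) hη.le
        _ ≤ 1 / 2 := by linarith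
    set x := η * g k with hxdef
    have hx' := abs_le.1 hx
    have hx2 : x ^ 2 ≤ η ^ 2 := by
      rw [hxdef, mul_pow]
      have : (g k) ^ 2 ≤ 1 := by nlinarith
      nlinarith [sq_nonneg η]
    have hpos : 0 < 1 + x := by linarith
    have hlog : x - x ^ 2 ≤ Real.log (1 + x) := by
      have h1 := Real.one_sub_inv_le_log_of_pos hpos
      rcases le_or_gt 0 x with h0 | h0
      · have : x - x ^ 2 ≤ 1 - (1 + x)⁻¹ := by
          have e : 1 - (1 + x)⁻¹ = x / (1 + x) := by field_simp; ring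
          rw [e, le_div_iff₀ hpos]; nlinarith [sq_nonneg x, mul_nonneg h0 (sq_nonneg x)]
        linarith
      · -- negative x: log(1+x) >= x - x^2 for x in [-1/2,0]
        have hy : 0 < -x := by linarith
        have key : Real.exp (x - x ^ 2) ≤ 1 + x := by
          have hab : |x - x ^ 2| ≤ 1 := by rw [abs_le]; constructor <;> nlinarith
          have h2 := Real.exp_bound' (x := -(x - x ^ 2)) (by nlinarith) (by nlinarith) (n := 2) (by norm_num)
          have h3 : Real.exp (x - x ^ 2) = (Real.exp (-(x - x ^ 2)))⁻¹ := by rw [Real.exp_neg, inv_inv]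
          have h4 : 1 + -(x - x ^ 2) + (-(x - x ^ 2)) ^ 2 / 2 ≤ Real.exp (-(x - x ^ 2)) := by
            have := Real.quadratic_le_exp_of_nonneg (x := -(x - x ^ 2)) (by nlinarith)
            linarith
          rw [h3, inv_le_comm₀ (Real.exp_pos _) hpos]
          refine le_trans ?_ h4
          rw [inv_le_iff_one_le_mul₀ hpos]
          nlinarith [mul_pos hy hy, mul_pos (mul_pos hy hy) hy, sq_nonneg (x * x), mul_nonneg (sq_nonneg x) (sq_nonneg x)]
        have := Real.log_le_log (Real.exp_pos _) key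
        rwa [Real.log_exp] at this
    linarith
  have h6 := Finset.sum_le_sum h5
  rw [Finset.sum_sub_distrib, ← Finset.mul_sum, Finset.sum_const, Finset.card_range, nsmul_eq_mul] at h6
  have h7 : Real.log (1 / μ) = - Real.log μ := by rw [one_div, Real.log_inv]
  have h8 : η * (∑ k ∈ range K, g k - η * K - (Real.log (1 / μ) + μ) / η) ≤
      η * ∑ k ∈ range K, pp μ η g k * g k := by
    have e : η * (∑ k ∈ range K, g k - η * K - (Real.log (1 / μ) + μ) / η) =
        η * ∑ k ∈ range K, g k - K * η ^ 2 - (Real.log (1 / μ) + μ) := by field_simp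
    rw [e, h7]; linarith
  exact le_of_mul_le_mul_left h8 hη

/-! ### (D) telescoping along the comparator -/

/-- `A t` = expectation over the comparator's step from level `t` to level `t+1` (any monotone linear maps; only
additivity is used). `r t x` = regret at the state `x` of level `t`. -/
theorem telescope {X : ℕ → Type*} (A : ∀ t, (X (t + 1) → ℝ) → (X t → ℝ))
    (hA : ∀ t f g, (∀ x, f x ≤ g x) → ∀ x, A t f x ≤ A t g x)
    (hadd : ∀ t f g, A t (fun x => f x + g x) = fun x => A t f x + A t g x)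
    (R V r : ∀ t, X t → ℝ) (T : ℕ) (hT : ∀ x, R T x ≤ V T x) (hV : ∀ t < T, ∀ x, V t x = A t (V (t + 1)) x)
    (hR : ∀ t < T, ∀ x, R t x ≤ A t (R (t + 1)) x + r t x)
    (S : ∀ t, X t → ℝ) (hS0 : ∀ x, 0 ≤ S T x) (hS : ∀ t < T, ∀ x, A t (S (t + 1)) x + r t x ≤ S t x) :
    ∀ t ≤ T, ∀ x, R t x ≤ V t x + S t x := by
  intro t ht
  induction hd : T - t generalizing t with
  | zero =>
      have : t = T := by omega
      subst this
      intro x; linarith [hT x, hS0 x]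
  | succ d ih =>
      intro x
      have hlt : t < T := by omega
      have h1 := ih (t + 1) (by omega) (by omega)
      have h2 := hA t _ _ h1 x
      rw [hadd] at h2
      simp only at h2
      linarith [hR t hlt x, hV t hlt x, hS t hlt x]

end Crest.Agent.R288.Hedge453
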