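import Mathlib

/-!
Row 288 (helper984).  The one-state lemmas of #3987 (helper90): exponential weights over the
ranks, second order term cancelled by a greedy level, Prod with a special expert.
Everything is about one finite set `A` of letters and real numbers.
-/

set_option autoImplicit false

namespace Crest.Agent.R288.Hedge984

open Finset Real

set_option linter.unusedSectionVars false

variable {A : Type*} [Fintype A]

/-- mean of `u` under the weights `p` -/
noncomputable def mean (p u : A → ℝ) : ℝ := ∑ a, p a * u a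

/-- variance of `u` under the weights `p` -/
noncomputable def var (p u : A → ℝ) : ℝ := ∑ a, p a * (u a - mean p u) ^ 2

/-- partition function -/
noncomputable def zed (pr : A → ℝ) (γ : ℝ) (U : A → ℝ) : ℝ := ∑ a, pr a * exp (-γ * U a)

/-- Gibbs kernel `pr exp(-γ U) / Z` -/
noncomputable def gibbs (pr : A → ℝ) (γ : ℝ) (U : A → ℝ) (a : A) : ℝ :=
  pr a * exp (-γ * U a) / zed pr γ U

/-- probability vector -/
structure Prob (p : A → ℝ) : Prop where
  nonneg : ∀ a, 0 ≤ p a
  sum : ∑ a, p a = 1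

theorem Prob.le_one {p : A → ℝ} (hp : Prob p) (a : A) : p a ≤ 1 := by
  rw [← hp.sum]
  exact Finset.single_le_sum (fun b _ => hp.nonneg b) (Finset.mem_univ a)

theorem Prob.exists_pos {p : A → ℝ} (hp : Prob p) : ∃ a, 0 < p a := by
  by_contra h
  push Not at h
  have : ∑ a, p a ≤ 0 := Finset.sum_nonpos fun a _ => h a
  rw [hp.sum] at this
  linarith

theorem mean_const {p : A → ℝ} (hp : Prob p) (c : ℝ) : mean p (fun _ => c) = c := by
  unfold mean; rw [← Finset.sum_mul, hp.sum, one_mul]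

theorem mean_add (p u v : A → ℝ) : mean p (fun a => u a + v a) = mean p u + mean p v := by
  unfold mean; rw [← Finset.sum_add_distrib]; exact Finset.sum_congr rfl fun a _ => by ring

theorem mean_sub (p u v : A → ℝ) : mean p (fun a => u a - v a) = mean p u - mean p v := by
  unfold mean; rw [← Finset.sum_sub_distrib]; exact Finset.sum_congr rfl fun a _ => by ring

theorem mean_sub_const {p : A → ℝ} (hp : Prob p) (u : A → ℝ) (c : ℝ) :
    mean p (fun a => u a - c) = mean p u - c := by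
  rw [mean_sub p u (fun _ => c), mean_const hp]

theorem mean_mono {p u v : A → ℝ} (hp : Prob p) (h : ∀ a, u a ≤ v a) : mean p u ≤ mean p v :=
  Finset.sum_le_sum fun a _ => mul_le_mul_of_nonneg_left (h a) (hp.nonneg a)

theorem mean_le {p u : A → ℝ} (hp : Prob p) {c : ℝ} (h : ∀ a, u a ≤ c) : mean p u ≤ c := by
  have := mean_mono hp h; rwa [mean_const hp] at this

theorem le_mean {p u : A → ℝ} (hp : Prob p) {c : ℝ} (h : ∀ a, c ≤ u a) : c ≤ mean p u := by
  have := mean_mono (u := fun _ => c) hp h; rwa [mean_const hp] at this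

theorem var_nonneg {p : A → ℝ} (hp : Prob p) (u : A → ℝ) : 0 ≤ var p u :=
  Finset.sum_nonneg fun a _ => mul_nonneg (hp.nonneg a) (sq_nonneg _)

theorem var_eq {p : A → ℝ} (hp : Prob p) (u : A → ℝ) :
    var p u = mean p (fun a => u a ^ 2) - mean p u ^ 2 := by
  unfold var
  have h1 : ∀ a, p a * (u a - mean p u) ^ 2 =
      p a * u a ^ 2 - 2 * mean p u * (p a * u a) + mean p u ^ 2 * p a := fun a => by ring
  rw [Finset.sum_congr rfl fun a _ => h1 a, Finset.sum_add_distrib, Finset.sum_sub_distrib,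
    ← Finset.mul_sum, ← Finset.mul_sum, hp.sum]
  have : ∑ a, p a * u a = mean p u := rfl
  rw [this]
  unfold mean
  ring

/-- Bhatia-Davis -/
theorem var_le {p : A → ℝ} (hp : Prob p) {u : A → ℝ} {lo hi : ℝ} (h : ∀ a, lo ≤ u a)
    (h' : ∀ a, u a ≤ hi) : var p u ≤ (mean p u - lo) * (hi - mean p u) := by
  rw [var_eq hp]
  have h1 : mean p (fun a => u a ^ 2) ≤ mean p (fun a => (lo + hi) * u a - lo * hi) := by
    refine mean_mono hp fun a => ?_
    nlinarith [mul_nonneg (sub_nonneg.2 (h a)) (sub_nonneg.2 (h' a))]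
  have h2 : mean p (fun a => (lo + hi) * u a - lo * hi) = (lo + hi) * mean p u - lo * hi := by
    rw [mean_sub_const hp]
    congr 1
    unfold mean
    rw [Finset.mul_sum]
    exact Finset.sum_congr rfl fun a _ => by ring
  rw [h2] at h1
  nlinarith

/-- (H2): the minimum is below the mean by `var / osc` -/
theorem var_le_osc {p : A → ℝ} (hp : Prob p) {u : A → ℝ} {m o : ℝ} (h : ∀ a, m ≤ u a)
    (h' : ∀ a, u a ≤ m + o) : var p u ≤ (mean p u - m) * o := by
  refine (var_le hp h h').trans ?_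
  have h1 := le_mean hp h
  exact mul_le_mul_of_nonneg_left (by linarith) (by linarith)

theorem var_le_sq {p : A → ℝ} (hp : Prob p) {u : A → ℝ} {m o : ℝ} (h : ∀ a, m ≤ u a)
    (h' : ∀ a, u a ≤ m + o) : var p u ≤ o ^ 2 / 4 := by
  refine (var_le hp h h').trans ?_
  nlinarith [sq_nonneg (2 * (mean p u - m) - o)]

theorem zed_pos {pr : A → ℝ} (hpr : Prob pr) (γ : ℝ) (U : A → ℝ) : 0 < zed pr γ U := by
  obtain ⟨a, ha⟩ := hpr.exists_pos
  refine lt_of_lt_of_le (mul_pos ha (exp_pos (-γ * U a))) ?_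
  exact Finset.single_le_sum (f := fun a => pr a * exp (-γ * U a))
    (fun b _ => mul_nonneg (hpr.nonneg b) (exp_pos _).le) (Finset.mem_univ a)

theorem gibbs_prob {pr : A → ℝ} (hpr : Prob pr) (γ : ℝ) (U : A → ℝ) : Prob (gibbs pr γ U) where
  nonneg a := div_nonneg (mul_nonneg (hpr.nonneg a) (exp_pos _).le) (zed_pos hpr γ U).le
  sum := by
    unfold gibbs
    rw [← Finset.sum_div]
    exact div_self (zed_pos hpr γ U).ne'

theorem zed_zero {pr : A → ℝ} (hpr : Prob pr) (γ : ℝ) : zed pr γ (fun _ => 0) = 1 := by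
  unfold zed; simp [hpr.sum]

theorem zed_add {pr : A → ℝ} (hpr : Prob pr) (γ : ℝ) (U u : A → ℝ) :
    zed pr γ (fun a => U a + u a) = zed pr γ U * ∑ a, gibbs pr γ U a * exp (-γ * u a) := by
  rw [Finset.mul_sum]
  have h0 := (zed_pos hpr γ U).ne'
  show ∑ a, pr a * exp (-γ * (U a + u a)) = _
  refine Finset.sum_congr rfl fun a _ => ?_
  have e : exp (-γ * (U a + u a)) = exp (-γ * U a) * exp (-γ * u a) := by
    rw [← exp_add]; congr 1; ring
  rw [e]
  unfold gibbs
  rw [div_mul_eq_mul_div, mul_div_assoc', mul_comm (zed pr γ U), mul_div_assoc, div_self h0,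
    mul_one]
  ring

/-- second order bound for one exponential mean -/
theorem log_mean_exp_le {p : A → ℝ} (hp : Prob p) {γ : ℝ} {u : A → ℝ}
    (h : ∀ a, 0 < p a → |γ * (u a - mean p u)| ≤ 1) :
    log (∑ a, p a * exp (-γ * u a)) ≤ -γ * mean p u + γ ^ 2 * var p u := by
  have hpos : 0 < ∑ a, p a * exp (-γ * u a) := by
    obtain ⟨a, ha⟩ := hp.exists_pos
    refine lt_of_lt_of_le (mul_pos ha (exp_pos (-γ * u a))) ?_
    exact Finset.single_le_sum (f := fun a => p a * exp (-γ * u a))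
      (fun b _ => mul_nonneg (hp.nonneg b) (exp_pos _).le) (Finset.mem_univ a)
  rw [Real.log_le_iff_le_exp hpos]
  have h1 : ∀ a, p a * exp (-γ * u a) ≤
      exp (-γ * mean p u) * (p a * (1 + (-γ * (u a - mean p u)) + γ ^ 2 * (u a - mean p u) ^ 2)) := by
    intro a
    rcases (hp.nonneg a).eq_or_lt with h0 | h0
    · rw [← h0]; simp
    · have e : exp (-γ * u a) = exp (-γ * mean p u) * exp (-γ * (u a - mean p u)) := by
        rw [← exp_add]; congr 1; ring
      have hx : |-γ * (u a - mean p u)| ≤ 1 := by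
        have := h a h0
        rwa [neg_mul, abs_neg]
      have h2 := Real.abs_exp_sub_one_sub_id_le hx
      have h3 := (abs_le.1 h2).2
      have h4 : exp (-γ * (u a - mean p u)) ≤
          1 + (-γ * (u a - mean p u)) + γ ^ 2 * (u a - mean p u) ^ 2 := by nlinarith
      rw [e]
      calc p a * (exp (-γ * mean p u) * exp (-γ * (u a - mean p u)))
          = exp (-γ * mean p u) * (p a * exp (-γ * (u a - mean p u))) := by ring
        _ ≤ _ := mul_le_mul_of_nonneg_left (mul_le_mul_of_nonneg_left h4 h0.le) (exp_pos _).le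
  have h5 : ∑ a, p a * (1 + (-γ * (u a - mean p u)) + γ ^ 2 * (u a - mean p u) ^ 2)
      = 1 + γ ^ 2 * var p u := by
    have h6 : ∀ a, p a * (1 + (-γ * (u a - mean p u)) + γ ^ 2 * (u a - mean p u) ^ 2)
        = p a + -γ * (p a * (u a - mean p u)) + γ ^ 2 * (p a * (u a - mean p u) ^ 2) :=
      fun a => by ring
    rw [Finset.sum_congr rfl fun a _ => h6 a, Finset.sum_add_distrib, Finset.sum_add_distrib,
      ← Finset.mul_sum, ← Finset.mul_sum, hp.sum]
    have h7 : ∑ a, p a * (u a - mean p u) = 0 := by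
      have := mean_sub_const hp u (mean p u)
      unfold mean at this ⊢
      rw [this, sub_self]
    rw [h7]
    unfold var
    ring
  calc ∑ a, p a * exp (-γ * u a)
      ≤ ∑ a, exp (-γ * mean p u) *
        (p a * (1 + (-γ * (u a - mean p u)) + γ ^ 2 * (u a - mean p u) ^ 2)) :=
        Finset.sum_le_sum fun a _ => h1 a
    _ = exp (-γ * mean p u) * (1 + γ ^ 2 * var p u) := by rw [← Finset.mul_sum, h5]
    _ ≤ exp (-γ * mean p u) * exp (γ ^ 2 * var p u) := by
        refine mul_le_mul_of_nonneg_left ?_ (exp_pos _).le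
        have := Real.add_one_le_exp (γ ^ 2 * var p u)
        linarith
    _ = exp (-γ * mean p u + γ ^ 2 * var p u) := by rw [← exp_add]

/-- cumulated losses -/
noncomputable def cum (u : ℕ → A → ℝ) (k : ℕ) (a : A) : ℝ := ∑ i ∈ Finset.range k, u i a

theorem cum_succ (u : ℕ → A → ℝ) (k : ℕ) :
    cum u (k + 1) = fun a => cum u k a + u k a := by
  ext a; unfold cum; rw [Finset.sum_range_succ]

theorem cum_zero (u : ℕ → A → ℝ) : cum u 0 = fun _ => 0 := by
  ext a; unfold cum; simp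

/-- hedge kernel of rank `k` -/
noncomputable def ker (pr : A → ℝ) (γ : ℝ) (u : ℕ → A → ℝ) (k : ℕ) : A → ℝ :=
  gibbs pr γ (cum u k)

theorem ker_prob {pr : A → ℝ} (hpr : Prob pr) (γ : ℝ) (u : ℕ → A → ℝ) (k : ℕ) :
    Prob (ker pr γ u k) := gibbs_prob hpr γ _

theorem neg_log_zed_le {pr : A → ℝ} (hpr : Prob pr) {γ : ℝ} (U : A → ℝ) {z : A} (hz : 0 < pr z) :
    -log (zed pr γ U) ≤ γ * U z + log (1 / pr z) := by
  have h1 : pr z * exp (-γ * U z) ≤ zed pr γ U :=
    Finset.single_le_sum (f := fun a => pr a * exp (-γ * U a))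
      (fun b _ => mul_nonneg (hpr.nonneg b) (exp_pos _).le) (Finset.mem_univ z)
  have h2 := Real.log_le_log (mul_pos hz (exp_pos _)) h1
  rw [Real.log_mul hz.ne' (exp_pos _).ne', Real.log_exp] at h2
  rw [one_div, Real.log_inv]
  linarith

/-- **(H1)** hedge with variance term, no second moment loss assumed -/
theorem hedge_var {pr : A → ℝ} (hpr : Prob pr) {γ : ℝ} (hγ : 0 < γ) (u : ℕ → A → ℝ) (K : ℕ)
    (h : ∀ k < K, ∀ a, |γ * (u k a - mean (ker pr γ u k) (u k))| ≤ 1) {z : A} (hz : 0 < pr z) :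
    ∑ k ∈ Finset.range K, (mean (ker pr γ u k) (u k) - γ * var (ker pr γ u k) (u k)) ≤
      ∑ k ∈ Finset.range K, u k z + log (1 / pr z) / γ := by
  have key : ∀ n ≤ K, γ * ∑ k ∈ Finset.range n,
      (mean (ker pr γ u k) (u k) - γ * var (ker pr γ u k) (u k)) ≤ -log (zed pr γ (cum u n)) := by
    intro n
    induction n with
    | zero => intro _; rw [cum_zero, zed_zero hpr]; simp
    | succ n ih =>
      intro hn
      have ih' := ih (by omega)
      rw [Finset.sum_range_succ, mul_add]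
      have h1 := log_mean_exp_le (ker_prob hpr γ u n) (γ := γ) (u := u n)
        fun a _ => h n (by omega) a
      have h2 : log (zed pr γ (cum u (n + 1))) = log (zed pr γ (cum u n)) +
          log (∑ a, ker pr γ u n a * exp (-γ * u n a)) := by
        rw [cum_succ, zed_add hpr, Real.log_mul (zed_pos hpr γ _).ne']
        · rfl
        · have hp := ker_prob hpr γ u n
          obtain ⟨a, ha⟩ := hp.exists_pos
          refine (lt_of_lt_of_le (mul_pos ha (exp_pos (-γ * u n a))) ?_).ne'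
          exact Finset.single_le_sum (f := fun a => ker pr γ u n a * exp (-γ * u n a))
            (fun b _ => mul_nonneg (hp.nonneg b) (exp_pos _).le) (Finset.mem_univ a)
      rw [h2]
      nlinarith [h1, ih']
  have h1 := key K le_rfl
  have h2 := neg_log_zed_le hpr (γ := γ) (cum u K) hz
  have h3 : γ * ∑ k ∈ Finset.range K,
      (mean (ker pr γ u k) (u k) - γ * var (ker pr γ u k) (u k)) ≤
      γ * (∑ k ∈ Finset.range K, u k z + log (1 / pr z) / γ) := by
    have : γ * (∑ k ∈ Finset.range K, u k z + log (1 / pr z) / γ) =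
        γ * cum u K z + log (1 / pr z) := by
      unfold cum; field_simp
    rw [this]
    linarith
  exact le_of_mul_le_mul_left h3 hγ

/-- oscillation hypothesis used everywhere: `u a ≤ u b + o` -/
theorem abs_sub_mean_le {p : A → ℝ} (hp : Prob p) {u : A → ℝ} {o : ℝ}
    (h : ∀ a b, u a ≤ u b + o) (a : A) : |u a - mean p u| ≤ o := by
  rw [abs_le]
  constructor
  · have : mean p u ≤ u a + o := mean_le hp fun b => h b a
    linarith
  · have : u a - o ≤ mean p u := le_mean hp fun b => by linarith [h a b]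
    linarith

/-- **(H4)** ordinary hedge: regret `log(1/pr z)/γ + γ K o² / 4` -/
theorem hedge {pr : A → ℝ} (hpr : Prob pr) {γ o : ℝ} (hγ : 0 < γ) (ho : γ * o ≤ 1)
    (u : ℕ → A → ℝ) (K : ℕ) (h : ∀ k < K, ∀ a b, u k a ≤ u k b + o) {z : A} (hz : 0 < pr z) :
    ∑ k ∈ Finset.range K, mean (ker pr γ u k) (u k) ≤
      ∑ k ∈ Finset.range K, u k z + log (1 / pr z) / γ + γ * K * (o ^ 2 / 4) := by
  have h1 := hedge_var hpr hγ u K (fun k hk a => by
    rw [abs_mul, abs_of_pos hγ]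
    exact (mul_le_mul_of_nonneg_left
      (abs_sub_mean_le (ker_prob hpr γ u k) (h k hk) a) hγ.le).trans ho) hz
  have h2 : ∑ k ∈ Finset.range K, mean (ker pr γ u k) (u k) ≤
      ∑ k ∈ Finset.range K, (mean (ker pr γ u k) (u k) - γ * var (ker pr γ u k) (u k)) +
      ∑ k ∈ Finset.range K, γ * (o ^ 2 / 4) := by
    rw [← Finset.sum_add_distrib]
    refine Finset.sum_le_sum fun k hk => ?_
    have hk' := Finset.mem_range.1 hk
    have : Nonempty A := ⟨z⟩
    obtain ⟨m, hm⟩ := Finite.exists_min (u k)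
    have := var_le_sq (ker_prob hpr γ u k) hm (fun a => h k hk' a m)
    nlinarith
  rw [Finset.sum_const, Finset.card_range, nsmul_eq_mul] at h2
  linarith

/-- **(H3)** = (B) of #3987: a fraction `θ` of greedy play pays for the second order term.
`x k` = value of the player in the non-greedy case, `y k` = in the greedy case. -/
theorem hedge_greedy {pr : A → ℝ} (hpr : Prob pr) {γ o θ e : ℝ} (hγ : 0 < γ) (hθ : θ ≤ 1)
    (ho : 0 < o) (hgo : γ * o ≤ θ) (u : ℕ → A → ℝ) (K : ℕ)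
    (h : ∀ k < K, ∀ a b, u k a ≤ u k b + o) {z : A} (hz : 0 < pr z) (x y : ℕ → ℝ)
    (hx : ∀ k < K, x k ≤ mean (ker pr γ u k) (u k) + e)
    (hy : ∀ k < K, ∀ a, y k ≤ u k a + e) :
    ∑ k ∈ Finset.range K, ((1 - θ) * x k + θ * y k) ≤
      ∑ k ∈ Finset.range K, u k z + log (1 / pr z) / γ + K * e := by
  have h1 := hedge_var hpr hγ u K (fun k hk a => by
    rw [abs_mul, abs_of_pos hγ]
    exact (mul_le_mul_of_nonneg_left
      (abs_sub_mean_le (ker_prob hpr γ u k) (h k hk) a) hγ.le).trans (hgo.trans hθ)) hz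
  have h2 : ∑ k ∈ Finset.range K, ((1 - θ) * x k + θ * y k) ≤
      ∑ k ∈ Finset.range K, (mean (ker pr γ u k) (u k) - γ * var (ker pr γ u k) (u k)) +
      ∑ k ∈ Finset.range K, e := by
    rw [← Finset.sum_add_distrib]
    refine Finset.sum_le_sum fun k hk => ?_
    have hk' := Finset.mem_range.1 hk
    have : Nonempty A := ⟨z⟩
    obtain ⟨m, hm⟩ := Finite.exists_min (u k)
    have hv := var_le_osc (ker_prob hpr γ u k) hm (fun a => h k hk' a m)
    have hv0 := var_nonneg (ker_prob hpr γ u k) (u k)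
    have hmm := le_mean (ker_prob hpr γ u k) hm
    have h3 := hx k hk'
    have h4 := hy k hk' m
    have hθ0 : 0 < θ := lt_of_lt_of_le (mul_pos hγ ho) hgo
    have h5 : γ * var (ker pr γ u k) (u k) ≤ θ * (mean (ker pr γ u k) (u k) - u k m) := by
      calc γ * var (ker pr γ u k) (u k)
          ≤ γ * ((mean (ker pr γ u k) (u k) - u k m) * o) := mul_le_mul_of_nonneg_left hv hγ.le
        _ = (γ * o) * (mean (ker pr γ u k) (u k) - u k m) := by ring
        _ ≤ θ * (mean (ker pr γ u k) (u k) - u k m) :=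
            mul_le_mul_of_nonneg_right hgo (by linarith)
    have h6 : (1 - θ) * x k ≤ (1 - θ) * (mean (ker pr γ u k) (u k) + e) :=
      mul_le_mul_of_nonneg_left h3 (by linarith)
    have h7 : θ * y k ≤ θ * (u k m + e) := mul_le_mul_of_nonneg_left h4 hθ0.le
    nlinarith
  rw [Finset.sum_const, Finset.card_range, nsmul_eq_mul] at h2
  linarith

/-! ### perturbed kernels -/

theorem mean_perturb {p q : A → ℝ} (hp : Prob p) (hq : Prob q) {η o : ℝ} {u : A → ℝ}
    (hη : ∀ a, |p a - q a| ≤ η * q a) (h : ∀ a b, u a ≤ u b + o) :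
    |mean p u - mean q u| ≤ η * o := by
  have h0 : mean p u - mean q u = ∑ a, (p a - q a) * (u a - mean q u) := by
    have h1 : ∀ a, (p a - q a) * (u a - mean q u) =
        (p a * u a - q a * u a) - mean q u * (p a - q a) := fun a => by ring
    rw [Finset.sum_congr rfl fun a _ => h1 a, Finset.sum_sub_distrib, Finset.sum_sub_distrib,
      ← Finset.mul_sum, Finset.sum_sub_distrib, hp.sum, hq.sum]
    unfold mean
    ring
  rw [h0]
  obtain ⟨a0, ha0⟩ := hq.exists_pos
  have hη0 : 0 ≤ η := by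
    have := (abs_nonneg _).trans (hη a0)
    by_contra hc
    push Not at hc
    nlinarith
  calc |∑ a, (p a - q a) * (u a - mean q u)|
      ≤ ∑ a, |(p a - q a) * (u a - mean q u)| := Finset.abs_sum_le_sum_abs _ _
    _ ≤ ∑ a, η * o * q a := by
        refine Finset.sum_le_sum fun a _ => ?_
        rw [abs_mul]
        have h2 := abs_sub_mean_le hq h a
        calc |p a - q a| * |u a - mean q u| ≤ (η * q a) * o :=
              mul_le_mul (hη a) h2 (abs_nonneg _) (mul_nonneg hη0 (hq.nonneg a))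
          _ = η * o * q a := by ring
    _ = η * o := by rw [← Finset.mul_sum, hq.sum, mul_one]

/-- kernel from perturbed cumulated losses -/
theorem gibbs_perturb {pr : A → ℝ} (hpr : Prob pr) {γ δ : ℝ} (hγ : 0 ≤ γ) {U V : A → ℝ}
    (h : ∀ a, |U a - V a| ≤ δ) (a : A) :
    exp (-(2 * γ * δ)) * gibbs pr γ V a ≤ gibbs pr γ U a ∧
      gibbs pr γ U a ≤ exp (2 * γ * δ) * gibbs pr γ V a := by
  have key : ∀ (U V : A → ℝ), (∀ a, |U a - V a| ≤ δ) → ∀ a,
      gibbs pr γ U a ≤ exp (2 * γ * δ) * gibbs pr γ V a := by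
    intro U V h a
    have h1 : ∀ a, exp (-γ * U a) ≤ exp (γ * δ) * exp (-γ * V a) := by
      intro a
      rw [← exp_add, exp_le_exp]
      have := (abs_le.1 (h a)).1
      nlinarith
    have h2 : zed pr γ V ≤ exp (γ * δ) * zed pr γ U := by
      unfold zed
      rw [Finset.mul_sum]
      refine Finset.sum_le_sum fun a _ => ?_
      have h3 : exp (-γ * V a) ≤ exp (γ * δ) * exp (-γ * U a) := by
        rw [← exp_add, exp_le_exp]
        have := (abs_le.1 (h a)).2
        nlinarith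
      calc pr a * exp (-γ * V a) ≤ pr a * (exp (γ * δ) * exp (-γ * U a)) :=
            mul_le_mul_of_nonneg_left h3 (hpr.nonneg a)
        _ = exp (γ * δ) * (pr a * exp (-γ * U a)) := by ring
    have zU := zed_pos hpr γ U
    have zV := zed_pos hpr γ V
    unfold gibbs
    rw [← mul_div_assoc, div_le_div_iff₀ zU zV]
    have e2 : exp (2 * γ * δ) = exp (γ * δ) * exp (γ * δ) := by rw [← exp_add]; congr 1; ring
    rw [e2]
    calc pr a * exp (-γ * U a) * zed pr γ V
        ≤ pr a * (exp (γ * δ) * exp (-γ * V a)) * (exp (γ * δ) * zed pr γ U) := by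
          refine mul_le_mul (mul_le_mul_of_nonneg_left (h1 a) (hpr.nonneg a)) h2 zV.le ?_
          exact mul_nonneg (hpr.nonneg a) (mul_nonneg (exp_pos _).le (exp_pos _).le)
      _ = exp (γ * δ) * exp (γ * δ) * (pr a * exp (-γ * V a)) * zed pr γ U := by ring
  refine ⟨?_, key U V h a⟩
  have h1 := key V U (fun a => by rw [abs_sub_comm]; exact h a) a
  calc exp (-(2 * γ * δ)) * gibbs pr γ V a
      ≤ exp (-(2 * γ * δ)) * (exp (2 * γ * δ) * gibbs pr γ U a) :=
        mul_le_mul_of_nonneg_left h1 (exp_pos _).le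
    _ = gibbs pr γ U a := by rw [← mul_assoc, ← exp_add]; simp

/-- if `0 ≤ γ δ ≤ 1/2` the kernel moves by a factor `1 ± 4 γ δ` -/
theorem gibbs_perturb_abs {pr : A → ℝ} (hpr : Prob pr) {γ δ : ℝ} (hγ : 0 ≤ γ) (hδ : 0 ≤ δ)
    (hs : γ * δ ≤ 1 / 2) {U V : A → ℝ} (h : ∀ a, |U a - V a| ≤ δ) (a : A) :
    |gibbs pr γ U a - gibbs pr γ V a| ≤ 4 * γ * δ * gibbs pr γ V a := by
  obtain ⟨h1, h2⟩ := gibbs_perturb hpr hγ h a
  have hg := (gibbs_prob hpr γ V).nonneg a
  have hx : |2 * γ * δ| ≤ 1 := by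
    rw [abs_of_nonneg (by positivity)]; nlinarith
  have h3 := (abs_le.1 (Real.abs_exp_sub_one_le hx)).2
  rw [abs_of_nonneg (by positivity : (0 : ℝ) ≤ 2 * γ * δ)] at h3
  have h4 : 1 - 2 * γ * δ ≤ exp (-(2 * γ * δ)) := by
    have := Real.add_one_le_exp (-(2 * γ * δ)); linarith
  have hgd : 0 ≤ γ * δ := mul_nonneg hγ hδ
  rw [abs_le]
  constructor
  · nlinarith
  · nlinarith

/-! ### Prod with a special expert -/

/-- weights of Prod: `w₀(a) Π_{i<k} (1 + η x_i(a))` -/
noncomputable def pw (w₀ : A → ℝ) (η : ℝ) (x : ℕ → A → ℝ) (k : ℕ) (a : A) : ℝ :=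
  w₀ a * ∏ i ∈ Finset.range k, (1 + η * x i a)

/-- total weight, the special expert has weight `1` -/
noncomputable def pW (w₀ : A → ℝ) (η : ℝ) (x : ℕ → A → ℝ) (k : ℕ) : ℝ := 1 + ∑ a, pw w₀ η x k a

/-- probability of expert `a` (the special one has the rest) -/
noncomputable def pp (w₀ : A → ℝ) (η : ℝ) (x : ℕ → A → ℝ) (k : ℕ) (a : A) : ℝ :=
  pw w₀ η x k a / pW w₀ η x k

theorem pw_nonneg {w₀ : A → ℝ} {η : ℝ} {x : ℕ → A → ℝ} (hw : ∀ a, 0 ≤ w₀ a)
    (hx : ∀ k a, |η * x k a| ≤ 1 / 4) (k : ℕ) (a : A) : 0 ≤ pw w₀ η x k a :=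
  mul_nonneg (hw a) (Finset.prod_nonneg fun i _ => by linarith [(abs_le.1 (hx i a)).1])

theorem pW_pos {w₀ : A → ℝ} {η : ℝ} {x : ℕ → A → ℝ} (hw : ∀ a, 0 ≤ w₀ a)
    (hx : ∀ k a, |η * x k a| ≤ 1 / 4) (k : ℕ) : 1 ≤ pW w₀ η x k := by
  unfold pW
  have : 0 ≤ ∑ a, pw w₀ η x k a := Finset.sum_nonneg fun a _ => pw_nonneg hw hx k a
  linarith

theorem pW_succ {w₀ : A → ℝ} {η : ℝ} {x : ℕ → A → ℝ} (hw : ∀ a, 0 ≤ w₀ a)
    (hx : ∀ k a, |η * x k a| ≤ 1 / 4) (k : ℕ) :
    pW w₀ η x (k + 1) = pW w₀ η x k * (1 + η * ∑ a, pp w₀ η x k a * x k a) := by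
  have hW := (lt_of_lt_of_le one_pos (pW_pos hw hx k)).ne'
  have h1 : ∀ a, pw w₀ η x (k + 1) a = pw w₀ η x k a + η * (pw w₀ η x k a * x k a) := by
    intro a; unfold pw; rw [Finset.prod_range_succ]; ring
  have h2 : pW w₀ η x k * ∑ a, pp w₀ η x k a * x k a = ∑ a, pw w₀ η x k a * x k a := by
    rw [Finset.mul_sum]
    refine Finset.sum_congr rfl fun a _ => ?_
    unfold pp
    field_simp
  have h3 : pW w₀ η x (k + 1) = pW w₀ η x k + η * ∑ a, pw w₀ η x k a * x k a := by
    unfold pW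
    rw [Finset.sum_congr rfl fun a _ => h1 a, Finset.sum_add_distrib, ← Finset.mul_sum]
    ring
  rw [h3, ← h2]
  ring

theorem prod_log_le {w₀ : A → ℝ} {η : ℝ} {x : ℕ → A → ℝ} (hw : ∀ a, 0 ≤ w₀ a)
    (hx : ∀ k a, |η * x k a| ≤ 1 / 4) (K : ℕ) :
    log (pW w₀ η x K) ≤ log (pW w₀ η x 0) +
      η * ∑ k ∈ Finset.range K, ∑ a, pp w₀ η x k a * x k a := by
  induction K with
  | zero => simp
  | succ K ih =>
    have hW := lt_of_lt_of_le one_pos (pW_pos hw hx K)
    have hW' := lt_of_lt_of_le one_pos (pW_pos hw hx (K + 1))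
    have h1 := pW_succ hw hx K
    have h2 : 0 < 1 + η * ∑ a, pp w₀ η x K a * x K a := by
      rw [h1] at hW'
      exact (pos_iff_pos_of_mul_pos hW').1 hW
    rw [h1, Real.log_mul hW.ne' h2.ne', Finset.sum_range_succ, mul_add]
    have h3 := Real.log_le_sub_one_of_pos h2
    linarith

/-- **(H5a)** Prod against the special expert -/
theorem prod_special {w₀ : A → ℝ} {η : ℝ} (hη : 0 < η) {x : ℕ → A → ℝ} (hw : ∀ a, 0 ≤ w₀ a)
    (hx : ∀ k a, |η * x k a| ≤ 1 / 4) (K : ℕ) :
    -((∑ a, w₀ a) / η) ≤ ∑ k ∈ Finset.range K, ∑ a, pp w₀ η x k a * x k a := by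
  have h1 := prod_log_le hw hx K
  have h2 : 0 ≤ log (pW w₀ η x K) := Real.log_nonneg (pW_pos hw hx K)
  have h0 : pW w₀ η x 0 = 1 + ∑ a, w₀ a := by unfold pW pw; simp
  have hs : 0 ≤ ∑ a, w₀ a := Finset.sum_nonneg fun a _ => hw a
  have h3 : log (pW w₀ η x 0) ≤ ∑ a, w₀ a := by
    rw [h0]
    have := Real.log_le_sub_one_of_pos (by linarith : 0 < 1 + ∑ a, w₀ a)
    linarith
  rw [neg_le_iff_add_nonneg', ← sub_nonneg]
  have h4 : 0 ≤ η * ((∑ a, w₀ a) / η + ∑ k ∈ Finset.range K, ∑ a, pp w₀ η x k a * x k a) := by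
    rw [mul_add, mul_div_cancel₀ _ hη.ne']
    linarith
  have := nonneg_of_mul_nonneg_right h4 hη
  linarith

theorem exp_le_quad {t : ℝ} (ht : t ≤ 0) : exp t ≤ 1 + t + t ^ 2 / 2 := by
  have h1 := Real.quadratic_le_exp_of_nonneg (neg_nonneg.2 ht)
  have h2 : exp t * exp (-t) = 1 := by rw [← exp_add]; simp
  have h3 := exp_pos t
  have h4 : exp t * (1 + -t + (-t) ^ 2 / 2) ≤ 1 :=
    (mul_le_mul_of_nonneg_left h1 h3.le).trans h2.le
  have h5 : 0 < 1 + -t + (-t) ^ 2 / 2 := by nlinarith [sq_nonneg t]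
  have h6 : exp t ≤ 1 / (1 + -t + (-t) ^ 2 / 2) := by rwa [le_div_iff₀ h5]
  refine h6.trans ?_
  rw [div_le_iff₀ h5]
  nlinarith [sq_nonneg (t ^ 2)]

theorem log_one_add_ge {y : ℝ} (hy : |y| ≤ 1 / 4) : y - y ^ 2 ≤ log (1 + y) := by
  have h1 := abs_le.1 hy
  have hpos : 0 < 1 + y := by linarith
  rw [Real.le_log_iff_exp_le hpos]
  rcases le_total 0 y with h0 | h0
  · have h2 : |y - y ^ 2| ≤ 1 := by
      rw [abs_le]; constructor <;> nlinarith [sq_nonneg y]
    have h3 := (abs_le.1 (Real.abs_exp_sub_one_sub_id_le h2)).2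
    nlinarith [sq_nonneg y, mul_nonneg (sq_nonneg y) h0,
      mul_nonneg (mul_nonneg (sq_nonneg y) h0) (by linarith : (0:ℝ) ≤ 2 - y)]
  · have h2 : y - y ^ 2 ≤ 0 := by nlinarith [sq_nonneg y]
    have h3 := exp_le_quad h2
    nlinarith [sq_nonneg y, mul_nonneg (sq_nonneg y) (by nlinarith : (0:ℝ) ≤ 2 - (1 - y) ^ 2)]

/-- **(H5b)** Prod against the expert `z` -/
theorem prod_expert {w₀ : A → ℝ} {η : ℝ} (hη : 0 < η) {x : ℕ → A → ℝ} (hw : ∀ a, 0 ≤ w₀ a)
    (hx : ∀ k a, |η * x k a| ≤ 1 / 4) (K : ℕ) {z : A} (hz : 0 < w₀ z) :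
    ∑ k ∈ Finset.range K, x k z - η * ∑ k ∈ Finset.range K, x k z ^ 2
        - (log (1 / w₀ z) + ∑ a, w₀ a) / η ≤
      ∑ k ∈ Finset.range K, ∑ a, pp w₀ η x k a * x k a := by
  have h1 := prod_log_le hw hx K
  have h0 : pW w₀ η x 0 = 1 + ∑ a, w₀ a := by unfold pW pw; simp
  have hs : 0 ≤ ∑ a, w₀ a := Finset.sum_nonneg fun a _ => hw a
  have h3 : log (pW w₀ η x 0) ≤ ∑ a, w₀ a := by
    rw [h0]
    have := Real.log_le_sub_one_of_pos (by linarith : 0 < 1 + ∑ a, w₀ a)
    linarith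
  have hpos : ∀ i, 0 < 1 + η * x i z := fun i => by linarith [(abs_le.1 (hx i z)).1]
  have h4 : log (pw w₀ η x K z) ≤ log (pW w₀ η x K) := by
    refine Real.log_le_log (mul_pos hz (Finset.prod_pos fun i _ => hpos i)) ?_
    unfold pW
    have := Finset.single_le_sum (f := fun a => pw w₀ η x K a)
      (fun b _ => pw_nonneg hw hx K b) (Finset.mem_univ z)
    linarith
  have h5 : log (pw w₀ η x K z) = log (w₀ z) +
      ∑ k ∈ Finset.range K, log (1 + η * x k z) := by
    unfold pw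
    rw [Real.log_mul hz.ne' (Finset.prod_pos fun i _ => hpos i).ne',
      Real.log_prod (fun i _ => (hpos i).ne')]
  have h6 : ∑ k ∈ Finset.range K, (η * x k z - (η * x k z) ^ 2) ≤
      ∑ k ∈ Finset.range K, log (1 + η * x k z) :=
    Finset.sum_le_sum fun k _ => log_one_add_ge (hx k z)
  have h7 : ∑ k ∈ Finset.range K, (η * x k z - (η * x k z) ^ 2) =
      η * (∑ k ∈ Finset.range K, x k z - η * ∑ k ∈ Finset.range K, x k z ^ 2) := by
    rw [Finset.sum_sub_distrib, mul_sub, Finset.mul_sum, Finset.mul_sum, Finset.mul_sum]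
    congr 1
    exact Finset.sum_congr rfl fun k _ => by ring
  rw [one_div, Real.log_inv]
  have h8 : η * (∑ k ∈ Finset.range K, x k z - η * ∑ k ∈ Finset.range K, x k z ^ 2
        - (-log (w₀ z) + ∑ a, w₀ a) / η) ≤
      η * ∑ k ∈ Finset.range K, ∑ a, pp w₀ η x k a * x k a := by
    rw [mul_sub, mul_div_cancel₀ _ hη.ne', ← h7]
    linarith
  exact le_of_mul_le_mul_left h8 hη

end Crest.Agent.R288.Hedge984
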