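import Crest.Agent.R288.AlgA_45
import Crest.Agent.R288.Hull_131

/-!
# R288, leaf HULL part 2 (helper131): the wild values of ALG-U and the next unit

`C i y` = end value of rank `i` at the state `y` used in the optima `V_i` (the hull number of `y`),
`Fn y` = next unit.  From `∑_{i<K} C i y ≤ K * Fn y` (`Hull131.sum_hull_cmean`):

* `Vst_le`   : `Vst P κ x f ≤ ∑_q f (piece q c_q c_{q+1})` for every letter sequence;
* `sum_Wm_le`: `∑_{k<K} W_k(x) ≤ F(x) + K * ∑_q Fn (piece q c_q c_{q+1})`.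
-/

set_option autoImplicit false

namespace Crest.Agent.R288.HullC131

open Finset Crest.Agent.R288.Alg45

theorem foldl_min_le {α : Type} (l : List α) (f : α → ℕ) (m : ℕ) :
    l.foldl (fun m a => min m (f a)) m ≤ m ∧ ∀ a ∈ l, l.foldl (fun m a => min m (f a)) m ≤ f a := by
  induction l generalizing m with
  | nil => simp
  | cons b l ih =>
    obtain ⟨h1, h2⟩ := ih (min m (f b))
    refine ⟨h1.trans (min_le_left _ _), ?_⟩
    intro a ha
    rcases List.mem_cons.1 ha with rfl | ha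
    · exact h1.trans (min_le_right _ _)
    · exact h2 a ha

theorem minR_le {n : ℕ} (f : ℕ → ℕ) {a : ℕ} (ha : a < n) : minR n f ≤ f a :=
  (foldl_min_le (List.range n) f (f 0)).2 a (List.mem_range.2 ha)

theorem D_le (A : ℕ) (T : ℕ → ℕ → ℕ → ℕ) (c : ℕ → ℕ) (j : ℕ) (hc : ∀ q < j, c q < A) :
    D A T j (c j) ≤ ∑ q ∈ range j, T q (c q) (c (q + 1)) := by
  induction j with
  | zero => simp [D]
  | succ j ih =>
    rw [sum_range_succ]
    have h1 := ih fun q hq => hc q (by omega)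
    have h2 : D A T (j + 1) (c (j + 1)) ≤ D A T j (c j) + T j (c j) (c (j + 1)) :=
      minR_le (fun a => D A T j a + T j a (c (j + 1))) (hc j (by omega))
    omega

variable (P : Par)

theorem N_pos : 0 < P.N := Nat.pow_pos (by norm_num)

/-- the piece does not depend on the letters at the outer cuts -/
theorem piece_last (κ : ℕ) (x : St) {q : ℕ} (hq : q + 1 = P.N) (a b b' : ℕ) :
    piece P κ x q a b = piece P κ x q a b' := by
  unfold piece cut
  have h1 : ¬ (q + 1 = 0) := by omega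
  rw [if_neg h1, if_pos hq, if_neg h1, if_pos hq]

theorem Vst_le (κ : ℕ) (x : St) (f : St → ℕ) (c : ℕ → ℕ) (hc : ∀ q < P.N, c q < WA P κ) :
    Vst P κ x f ≤ ∑ q ∈ range P.N, f (piece P κ x q (c q) (c (q + 1))) := by
  classical
  let c' : ℕ → ℕ := fun q => if q = P.N then 0 else c q
  have h1 : D (WA P κ) (fun q a b => f (piece P κ x q a b)) P.N (c' P.N)
      ≤ ∑ q ∈ range P.N, f (piece P κ x q (c' q) (c' (q + 1))) :=
    D_le _ (fun q a b => f (piece P κ x q a b)) c' P.N fun q hq => by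
      simp only [c']
      rw [if_neg (by omega)]
      exact hc q hq
  have h0 : c' P.N = 0 := if_pos rfl
  rw [h0] at h1
  refine h1.trans (le_of_eq (sum_congr rfl fun q hq => ?_))
  have hq' := mem_range.1 hq
  have e1 : c' q = c q := if_neg (by omega)
  rw [e1]
  by_cases h2 : q + 1 = P.N
  · rw [piece_last P κ x h2 (c q) (c' (q + 1)) (c (q + 1))]
  · have e2 : c' (q + 1) = c (q + 1) := if_neg h2
    rw [e2]

theorem Wm_le_F (F : ℕ) (V : ℕ → ℕ) (k : ℕ) : Wm F V k ≤ F := by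
  induction k with
  | zero => exact le_rfl
  | succ k ih => exact (min_le_left _ _).trans ih

theorem Wm_succ_le (F : ℕ) (V : ℕ → ℕ) (k : ℕ) : Wm F V (k + 1) ≤ V k := min_le_right _ _

/-- `∑_{k<K} W_k ≤ F + ∑_{k<K} V_k` -/
theorem sum_Wm_le_V (F : ℕ) (V : ℕ → ℕ) (K : ℕ) :
    ∑ k ∈ range K, Wm F V k ≤ F + ∑ k ∈ range K, V k := by
  cases K with
  | zero => simp
  | succ K =>
    rw [sum_range_succ' (fun k => Wm F V k), sum_range_succ (fun k => V k)]
    have h1 : ∑ k ∈ range K, Wm F V (k + 1) ≤ ∑ k ∈ range K, V k :=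
      sum_le_sum fun k _ => Wm_succ_le F V k
    have h2 : Wm F V 0 ≤ F := Wm_le_F F V 0
    omega

/-- **the wild values against the next unit, every staircase of the grid** -/
theorem sum_Wm_le (Fx : ℕ) {C : ℕ → St → ℕ} {Fn : St → ℕ} {K κ : ℕ} {x : St}
    (c : ℕ → ℕ) (hc : ∀ q < P.N, c q < WA P κ)
    (hC : ∀ q < P.N, ∑ i ∈ range K, C i (piece P κ x q (c q) (c (q + 1)))
      ≤ K * Fn (piece P κ x q (c q) (c (q + 1)))) :
    ∑ k ∈ range K, Wm Fx (fun i => Vst P κ x (C i)) k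
      ≤ Fx + K * ∑ q ∈ range P.N, Fn (piece P κ x q (c q) (c (q + 1))) := by
  refine (sum_Wm_le_V _ _ K).trans (Nat.add_le_add_left ?_ _)
  calc ∑ k ∈ range K, Vst P κ x (C k)
      ≤ ∑ k ∈ range K, ∑ q ∈ range P.N, C k (piece P κ x q (c q) (c (q + 1))) :=
        sum_le_sum fun k _ => Vst_le P κ x (C k) c hc
    _ = ∑ q ∈ range P.N, ∑ k ∈ range K, C k (piece P κ x q (c q) (c (q + 1))) := sum_comm
    _ ≤ ∑ q ∈ range P.N, K * Fn (piece P κ x q (c q) (c (q + 1))) :=
        sum_le_sum fun q hq => hC q (mem_range.1 hq)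
    _ = _ := by rw [mul_sum]

end Crest.Agent.R288.HullC131
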