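import Crest.Agent.R288.ParB_806

/-!
# Row 288 (helper53): exponents of the sure value bounds with 806's table

* `ev_val C`   : `nn * II + C * II + h + C * (lB + pb + nb + lam + dl + nn + Lg + 1) ≤ (2 + 1/16) h`, eventually
* `pow_val C`  : the same as powers of two below `(L+2)^3 / C` whenever `h = clog 2 L`
-/

set_option autoImplicit false

open Filter

namespace Crest.Agent.R288.ParV53

open Crest.Agent.R288.Asy720 Crest.Agent.R288.Par806

theorem nn_pos (h : ℕ) : 0 < nn h := Nat.mul_pos (Mg_pos h) (by have := W_pos h; positivity)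

theorem nn_mul_II_le (h : ℕ) : nn h * II h ≤ h + nn h := by
  unfold II
  have := Nat.mul_div_le h (nn h)
  rw [mul_add, mul_one]
  omega

/-- `C * II` is small against `h` -/
theorem ev_II (C : ℕ) : ∀ᶠ h : ℕ in atTop, C * II h ≤ h := by
  filter_upwards [ev_work_window C] with h h1
  have hW := W_pos h
  have hM := Mg_pos h
  refine le_trans ?_ h1
  have e : II h * C ≤ (II h + C) * (C * Mg h * W h) := by
    refine Nat.mul_le_mul (Nat.le_add_right _ _) ?_
    rw [mul_assoc]
    exact Nat.le_mul_of_pos_right _ (Nat.mul_pos hM hW)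
  rwa [mul_comm] at e

/-- `C * (W Lg + nn + 1)` is small against `h` -/
theorem ev_small (C : ℕ) : ∀ᶠ h : ℕ in atTop, C * (W h * Lg h + nn h + 1) ≤ h := by
  have h1 : Sm 0 (fun h => W h * Lg h + nn h + 1) :=
    ((((sm_W (by norm_num)).mul sm_Lg).add
      (((sm_Mg (by norm_num)).mul ((sm_W (by norm_num)).pow 2)) : Sm 0 nn))).add (Sm.const 0 1)
  filter_upwards [h1.mul_le C] with h h2
  exact h2

/-- the exponent of every sure value bound: two and a sixteenth times `h` -/
theorem ev_val (C : ℕ) : ∀ᶠ h : ℕ in atTop,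
    16 * (nn h * II h + C * II h + h +
      C * (lB h + pb h + nb h + lam h + dl h + al h + nn h + Lg h + Mg h + W h + 1)) ≤ 33 * h := by
  filter_upwards [ev_II (64 * C), ev_small (32 * (80 * C + 1))] with h h1 h2
  have hW := W_pos h
  have hL := Lg_pos h
  have hM := Mg_le_Lg h
  have e0 := nn_mul_II_le h
  set a := W h * Lg h with ha
  have e1 : lB h ≤ 5 * a := by
    unfold lB
    calc (W h + 4) * Lg h ≤ (5 * W h) * Lg h := Nat.mul_le_mul_right _ (by omega)
      _ = 5 * a := by rw [ha]; ring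
  have e2 : pb h = 16 * a := by unfold pb; rw [ha]; ring
  have e3 : nb h = 8 * a := by unfold nb; rw [ha]; ring
  have e4 : lam h = a := rfl
  have e5 : dl h = 8 * a := by unfold dl; rw [ha]; ring
  have e6 : al h = 8 * a := by unfold al; rw [ha]; ring
  have e7 : Lg h ≤ a := Nat.le_mul_of_pos_left _ hW
  have e8 : W h ≤ a := Nat.le_mul_of_pos_right _ hL
  have e9 : C * (lB h + pb h + nb h + lam h + dl h + al h + nn h + Lg h + Mg h + W h + 1) ≤
      (80 * C) * (a + nn h + 1) := by
    calc C * (lB h + pb h + nb h + lam h + dl h + al h + nn h + Lg h + Mg h + W h + 1)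
        ≤ C * (80 * (a + nn h + 1)) := Nat.mul_le_mul_left _ (by omega)
      _ = (80 * C) * (a + nn h + 1) := by ring
  have e10 : nn h ≤ 1 * (a + nn h + 1) := by omega
  have e11 : 32 * ((80 * C) * (a + nn h + 1) + nn h) ≤ h := by
    calc 32 * ((80 * C) * (a + nn h + 1) + nn h)
        ≤ 32 * ((80 * C) * (a + nn h + 1) + 1 * (a + nn h + 1)) := by omega
      _ = (32 * (80 * C + 1)) * (a + nn h + 1) := by ring
      _ ≤ h := h2
  have e12 : 64 * (C * II h) ≤ h := by rw [← mul_assoc]; exact h1
  omega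

theorem two_pow_le_of_clog {L h : ℕ} (hL : Nat.clog 2 L = h) (h1 : 1 ≤ h) : 2 ^ (h - 1) < L := by
  by_contra hc
  have := Nat.clog_le_of_le_pow (b := 2) (not_lt.1 hc)
  omega

/-- sure values fit into words below `(L+2)^3`: the exponent may contain the windows, a constant per window, one
class `≤ h + C ..`, and arbitrary constant multiples of the logarithmic parameters; a factor `C` remains -/
theorem pow_val (C : ℕ) : ∀ᶠ h : ℕ in atTop, ∀ L : ℕ, Nat.clog 2 L = h →
    C * 2 ^ (nn h * II h + C * II h + h +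
      C * (lB h + pb h + nb h + lam h + dl h + al h + nn h + Lg h + Mg h + W h + 1)) ≤ (L + 2) ^ 3 := by
  filter_upwards [ev_val C, eventually_ge_atTop (16 * (C + 3) + 1)] with h h1 h2 L hL
  have h3 := two_pow_le_of_clog hL (by omega)
  have h4 : C < 2 ^ C := Nat.lt_two_pow_self
  set e := nn h * II h + C * II h + h +
      C * (lB h + pb h + nb h + lam h + dl h + al h + nn h + Lg h + Mg h + W h + 1) with he
  calc C * 2 ^ e ≤ 2 ^ C * 2 ^ e := Nat.mul_le_mul_right _ h4.le
    _ = 2 ^ (C + e) := (pow_add _ _ _).symm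
    _ ≤ 2 ^ (3 * (h - 1)) := Nat.pow_le_pow_right (by norm_num) (by omega)
    _ = (2 ^ (h - 1)) ^ 3 := by rw [← pow_mul, mul_comm]
    _ ≤ (L + 2) ^ 3 := Nat.pow_le_pow_left (by omega) 3

end Crest.Agent.R288.ParV53
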