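import Crest.Agent.R288.AnaLip_364
import Crest.Agent.R288.Bnd_275
import Crest.Agent.R288.DomB_20
import Crest.Agent.R288.ParV_53

/-!
# Row 288, PROG.P10 (helper53): the value hypotheses of the program side from a good history

For an arbitrary `C : Asm331.Cfg` whose index 0 is the INIT of 772 (`LipOk` of 364):

* `okB C` : the blocks of the tree
* `VOk`   : the few extra facts on the parameters and on `leaf`
* **`bnd_hyp`** : `C.Good X`, `gst ≤ FE e` ⊢ `Bnd275.Hyp C.P C.leaf (FE C.P X e) (okB C)`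
* `VB C`  : the bound of all values, `2 ^ (K0 + 4 + (n+du+a2+cr) I)`
* **`X_zero_lt`, `FE_lt`, `X_le`** : on a good tape every number of the history is `≤ VB`
* `bA_pow_le` : `2 ^ κ * (bA i + 2) ≤ VB` for `κ ≤ K0`, `i ≤ I`
-/

set_option autoImplicit false

namespace Crest.Agent.R288.HypV53

open Crest.Agent.R288.Alg45 Crest.Agent.R288.Dom20 Crest.Agent.R288.Asm331
open Crest.Agent.R288.HullLipA364 Crest.Agent.R288.AnaLip364
open Crest.Agent.R288.Tape829 Crest.Agent.R288.Good829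
open Crest.Agent.R295.Rnd627 Crest.Agent.R295.Rnd627.RT
open Crest.Agent.R288.Init772 (GdI)

variable {C : Cfg} {X : ℕ → ℕ × St → ℕ} {x y : List ℕ} {g p L : ℕ} {ζ : ℝ}

/-- the blocks of the tree -/
def okB (C : Cfg) (i j : ℕ) : Prop := i ≤ C.I ∧ j < C.P.N ^ (C.I - i)

theorem okB_of_InD {s : St} (h : InD C.P.N C.I C.P.Dm s) : okB C s.i s.j := ⟨h.1, h.2.1⟩

theorem InD_of_okB {s : St} (h : okB C s.i s.j) (hD : inD C.P s) : InD C.P.N C.I C.P.Dm s :=
  (dom_iff C.P).2 ⟨h.1, h.2, hD⟩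

theorem okB_child {i j q : ℕ} (h : okB C (i + 1) j) (hq : q < C.P.N) : okB C i (C.P.N * j + q) := by
  obtain ⟨h1, h2⟩ := h
  refine ⟨by omega, ?_⟩
  have e : C.I - i = (C.I - (i + 1)) + 1 := by omega
  rw [e, pow_succ]
  calc C.P.N * j + q < C.P.N * j + C.P.N := by omega
    _ = C.P.N * (j + 1) := by ring
    _ ≤ C.P.N * C.P.N ^ (C.I - (i + 1)) := Nat.mul_le_mul_left _ h2
    _ = C.P.N ^ (C.I - (i + 1)) * C.P.N := by ring

/-- extra facts on the parameters and on the leaf values -/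
structure VOk (C : Cfg) (x y : List ℕ) (cr : ℕ) : Prop where
  r : 0 < C.P.r
  gJ : 0 < C.P.gJ
  mJ : 0 < C.P.mJ
  pb : 2 ≤ C.P.pb
  grd : GrdOK C.P C.K0
  leaf_le : ∀ s c, InD C.P.N C.I C.P.Dm s → C.leaf s = some c → c ≤ GSt442.gst x y C.P.n s + 1
  cr : C.P.Creg + 3 ≤ 2 ^ cr

/-- **the hypotheses of the size bounds from a good history** -/
theorem bnd_hyp {cr : ℕ} (h : C.Good X) (hO : LipOk C x y g p L ζ) (hV : VOk C x y cr) {e : ℕ}
    (he : e ≤ C.P.E)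
    (hs : ∀ s, InD C.P.N C.I C.P.Dm s → GSt442.gst x y C.P.n s ≤ FE C.P X e s) :
    Bnd275.Hyp C.P C.leaf (FE C.P X e) (okB C) := by
  refine Bnd275.Hyp.of hV.r hV.gJ hV.mJ hV.pb (fun i j q => okB_child) ?_ ?_ ?_ ?_
  · intro s c hb hD hc
    have hI := InD_of_okB hb hD
    exact (hV.leaf_le s c hI hc).trans (Nat.succ_le_succ (hs s hI))
  · intro s hb hD
    have hI := InD_of_okB hb hD
    have h1 := cls_le h hO e hI
    exact_mod_cast hV.grd _ (by omega)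
  · intro s hb hD
    have hI := InD_of_okB hb hD
    exact ((GSt442.exact_gst x y C.P.n hO.x_le hO.y_le).ge s).trans (hs s hI)
  · intro s z hb hD hDz hi hj
    have hI := InD_of_okB hb hD
    have hIz : InD C.P.N C.I C.P.Dm z := InD_of_okB (by rw [hi, hj]; exact hb) hDz
    have h1 := lip' h hO he hIz hI hi hj
    have h2 : (0 : ℝ) ≤ (FE C.P X e s : ℝ) + Alg45.dist z s := by positivity
    have h3 : (FE C.P X e z : ℝ) ≤ 2 * (FE C.P X e s + Alg45.dist s z) := by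
      rw [HullLipA364.dist_comm s z]
      calc (FE C.P X e z : ℝ) ≤ (1 + ζ) * (FE C.P X e s + Alg45.dist z s) := h1
        _ ≤ 2 * (FE C.P X e s + Alg45.dist z s) :=
            mul_le_mul_of_nonneg_right (by linarith [hO.z1]) h2
    have h4 : FE C.P X e z ≤ 2 * (FE C.P X e s + Alg45.dist s z) := by exact_mod_cast h3
    omega

/-! ### all numbers -/

/-- the bound of all values -/
def VB (C : Cfg) (cr : ℕ) : ℕ := 2 ^ (C.K0 + 4 + (C.P.n + C.P.du + C.P.a2 + cr) * C.I)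

/-- index 0 -/
theorem X_zero_lt (h : C.Good X) (hO : LipOk C x y g p L ζ) {s : ℕ × St}
    (hs : s ∈ OmP C.P.N C.I C.P.Dm C.K0) : X 0 s < 2 ^ (C.K0 + 1 - C.P.a2) := by
  have hI : InD C.P.N C.I C.P.Dm s.2 := ((mem_OmP (AnaLip364.N_pos C.P)).1 hs).2
  have hg : GdI x y g p C.P.n s.2 (X 0 s) := hO.GU _ _ (C.good_init h hs)
  refine lt_of_le_of_lt ?_ hO.top
  obtain ⟨h3, h4⟩ := inD_of hI
  refine (GdI_le hg hO.p4 hO.x_le h3 h4).trans ?_
  have h2 : 2 ^ (C.P.n * s.2.i + 1) ≤ 2 ^ (C.P.n * C.I + 1) :=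
    Nat.pow_le_pow_right (by norm_num) (Nat.succ_le_succ (Nat.mul_le_mul_left _ hI.1))
  omega

/-- the unit functions on the domain -/
theorem FE_lt (h : C.Good X) (hO : LipOk C x y g p L ζ) (e : ℕ) {s : St}
    (hs : InD C.P.N C.I C.P.Dm s) : FE C.P X e s < 2 ^ (C.K0 + 1 - C.P.a2) :=
  lt_of_le_of_lt (FE_le_U C.P X e s) (U_lt h hO hs)

theorem pow_le_VB {cr : ℕ} : 2 ^ (C.K0 + 1) ≤ VB C cr :=
  Nat.pow_le_pow_right (by norm_num) (by omega)

theorem FE_lt_VB {cr : ℕ} (h : C.Good X) (hO : LipOk C x y g p L ζ) (e : ℕ) {s : St}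
    (hs : InD C.P.N C.I C.P.Dm s) : FE C.P X e s < VB C cr :=
  (FE_lt h hO e hs).trans_le
    ((Nat.pow_le_pow_right (by norm_num) (Nat.sub_le _ _)).trans pow_le_VB)

/-- the sure bound of the lanes and numbers is below `VB` -/
theorem bA_pow_le {cr : ℕ} (hcr : C.P.Creg + 3 ≤ 2 ^ cr) {κ i : ℕ} (hκ : κ ≤ C.K0) (hi : i ≤ C.I) :
    2 ^ κ * (Bnd275.bA C.P i + 2) ≤ VB C cr := by
  unfold VB
  calc 2 ^ κ * (Bnd275.bA C.P i + 2)
      ≤ 2 ^ C.K0 * 2 ^ (4 + (C.P.n + C.P.du + C.P.a2 + cr) * i) :=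
        Nat.mul_le_mul (Nat.pow_le_pow_right (by norm_num) hκ) (Bnd275.bA_le_two_pow hcr i)
    _ ≤ 2 ^ C.K0 * 2 ^ (4 + (C.P.n + C.P.du + C.P.a2 + cr) * C.I) :=
        Nat.mul_le_mul_left _ (Nat.pow_le_pow_right (by norm_num)
          (Nat.add_le_add_left (Nat.mul_le_mul_left _ hi) _))
    _ = 2 ^ (C.K0 + 4 + (C.P.n + C.P.du + C.P.a2 + cr) * C.I) := by
        rw [← pow_add, ← Nat.add_assoc]

/-- **every number of a good tape** -/
theorem X_le {cr : ℕ} {τ : ℕ → ℕ} (h : C.Good (C.X τ)) (hO : LipOk C x y g p L ζ)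
    (hV : VOk C x y cr)
    (hs : ∀ e ≤ C.P.E, ∀ s, InD C.P.N C.I C.P.Dm s → GSt442.gst x y C.P.n s ≤ FE C.P (C.X τ) e s)
    {l : ℕ} (hl : l ≤ C.P.E * C.P.K) (s : ℕ × St) : C.X τ l s ≤ VB C cr := by
  by_cases hm : s ∈ OmP C.P.N C.I C.P.Dm C.K0
  · rcases Nat.eq_zero_or_pos l with rfl | hl0
    · exact ((X_zero_lt h hO hm).le).trans
        ((Nat.pow_le_pow_right (by norm_num) (Nat.sub_le _ _)).trans pow_le_VB)
    · obtain ⟨κ, z⟩ := s
      obtain ⟨hκ, hI⟩ := (mem_OmP (AnaLip364.N_pos C.P)).1 hm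
      have hK := hO.K
      have hm1 : 1 + (l - 1) / C.P.K * C.P.K ≤ l := by
        have := Nat.div_mul_le_self (l - 1) C.P.K
        omega
      have he : (l - 1) / C.P.K ≤ C.P.E := by
        have h1 : (l - 1) / C.P.K < C.P.E := by
          rw [Nat.div_lt_iff_lt_mul hK]
          omega
        exact h1.le
      have hF : FE C.P (lo l (C.X τ)) ((l - 1) / C.P.K) = FE C.P (C.X τ) ((l - 1) / C.P.K) :=
        FE_lo hm1
      have hH := bnd_hyp h hO hV he (hs _ he)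
      rw [← hF] at hH
      have h2 := Bnd275.tapeRT_bd (U := C.U) (M := 2 ^ C.W) (κ := κ) (z := z) (Nat.pos_iff_ne_zero.1 hl0)
        hH (okB_of_InD hI) ((dom_iff C.P).1 hI).2.2
      have h3 := All.val (Nat.two_pow_pos _) h2 τ (C.o l)
      rw [Cfg.X_succ τ hm]
      refine h3.trans (max_le ?_ (bA_pow_le hV.cr hκ hI.1))
      rw [hF]
      exact (FE_lt_VB h hO _ hI).le
  · rw [Cfg.X_out τ hm]
    exact Nat.zero_le _

end Crest.Agent.R288.HypV53
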