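import Crest.Agent.R288.Bnd_275
import Crest.Agent.R288.PgB_578
import Crest.Agent.R288.ArrZ_222
import Crest.Agent.R288.DeltaE_72

/-!
# R288, [PROG] P5b (helper200): sizes of the ANSWERS of every phase

* `Ans M Z us`: at most `Z` answers, each at most `Z` words `< M` (`hu` of `Cz.step`, `Q` of `Cz.stepA`);
  `ans_map`, `ans_seqL`, `ans_replicate`, `ans_words`, `ans_ret`, `ans_append`, `All.hu`.
* `Vs P leaf F okB M Z top H` : the values of ONE unit function `F` fit (numbers only, except `bd`);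
  `Vs.arrT`, `Vs.bodyT`, `Vs.arrT_Z` (tables of at most `Z` words), `Vs.num`, `Vs.tape`, `Vs.okv_*`.
-/

set_option autoImplicit false

namespace Crest.Agent.R288.PgZa200

open Crest.Agent.R295.Rnd627 Crest.Agent.R288.Alg45 Crest.Agent.R288.Bnd275
open Crest.Agent.R288.Pgb578 (Wd SvOk)
open Crest.Agent.R288.Phe940 (Wld)

/-! ### answers of a phase -/

/-- at most `Z` answers of at most `Z` words `< M` -/
def Ans (M Z : ℕ) (us : List (List ℕ)) : Prop := us.length ≤ Z ∧ ∀ u ∈ us, Wd M Z u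

theorem wd_iff {M Z : ℕ} {u : List ℕ} : Wd M Z u ↔ Delta222.Blen Z M u := Iff.rfl

theorem Ans.nil {M Z : ℕ} : Ans M Z [] := ⟨Nat.zero_le _, by simp⟩

theorem wd_one {M Z v : ℕ} (hZ : 1 ≤ Z) (hv : v < M) : Wd M Z [v] := ⟨hZ, by simpa using hv⟩

theorem _root_.Crest.Agent.R288.Pgb578.Wd.mono {M M' Z Z' : ℕ} {u : List ℕ} (h : Wd M Z u)
    (hM : M ≤ M') (hZ : Z ≤ Z') : Wd M' Z' u :=
  ⟨h.1.trans hZ, fun x hx => (h.2 x hx).trans_le hM⟩

theorem Ans.snoc {M Z : ℕ} {sv : List (List (List ℕ))} (h : SvOk M Z sv) (h8 : sv.length < 8)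
    {us : List (List ℕ)} (hu : Ans M Z us) : SvOk M Z (sv ++ [us]) := h.snoc h8 hu.1 hu.2

theorem Ans.append {M Z Z1 Z2 : ℕ} {us us' : List (List ℕ)} (h1 : us.length ≤ Z1)
    (h2 : us'.length ≤ Z2) (hZ : Z1 + Z2 ≤ Z) (hu : ∀ u ∈ us, Wd M Z u)
    (hu' : ∀ u ∈ us', Wd M Z u) : Ans M Z (us ++ us') := by
  refine ⟨by rw [List.length_append]; omega, fun u h => ?_⟩
  rcases List.mem_append.1 h with h | h
  · exact hu u h
  · exact hu' u h

section lists

variable {N M Z : ℕ} {ι : Type}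

/-- a list of computations -/
theorem ans_seqL {l : List (RT (List ℕ))} (hl : l.length ≤ Z)
    (h : ∀ t ∈ l, t.All N (Wd M Z)) : (seqL l).All N (Ans M Z) :=
  (Delta222.all_seqL (p := Wd M Z) l h).mono fun _ hus => ⟨hus.1.trans_le hl, hus.2⟩

/-- a list of computations, with the number of answers -/
theorem ans_seqL' {l : List (RT (List ℕ))} (hl : l.length ≤ Z)
    (h : ∀ t ∈ l, t.All N (Wd M Z)) :
    (seqL l).All N fun us => us.length = l.length ∧ Ans M Z us :=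
  (Delta222.all_seqL (p := Wd M Z) l h).mono fun _ hus => ⟨hus.1, hus.1.trans_le hl, hus.2⟩

theorem ans_map {l : List ι} {t : ι → RT (List ℕ)} (hl : l.length ≤ Z)
    (h : ∀ i ∈ l, (t i).All N (Wd M Z)) : (seqL (l.map t)).All N (Ans M Z) :=
  ans_seqL (by rwa [List.length_map]) fun _ ht => by
    obtain ⟨i, hi, rfl⟩ := List.mem_map.1 ht
    exact h i hi

theorem ans_map' {l : List ι} {t : ι → RT (List ℕ)} (hl : l.length ≤ Z)
    (h : ∀ i ∈ l, (t i).All N (Wd M Z)) :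
    (seqL (l.map t)).All N fun us => us.length = l.length ∧ Ans M Z us := by
  have := ans_seqL' (N := N) (M := M) (Z := Z) (l := l.map t) (by rwa [List.length_map])
    fun _ ht => by
      obtain ⟨i, hi, rfl⟩ := List.mem_map.1 ht
      exact h i hi
  rwa [List.length_map] at this

theorem ans_replicate {k : ℕ} {t : RT (List ℕ)} (hk : k ≤ Z) (h : t.All N (Wd M Z)) :
    (seqL (List.replicate k t)).All N (Ans M Z) :=
  ans_seqL (by rwa [List.length_replicate]) fun t' ht => by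
    rw [List.eq_of_mem_replicate ht]
    exact h

theorem ans_replicate' {k : ℕ} {t : RT (List ℕ)} (hk : k ≤ Z) (h : t.All N (Wd M Z)) :
    (seqL (List.replicate k t)).All N fun us => us.length = k ∧ Ans M Z us := by
  have := ans_seqL' (N := N) (M := M) (Z := Z) (l := List.replicate k t)
    (by rwa [List.length_replicate]) fun t' ht => by
      rw [List.eq_of_mem_replicate ht]
      exact h
  rwa [List.length_replicate] at this

theorem all_draw {p : ℕ → Prop} (h : ∀ v < N, p v) : (RT.draw).All N p := fun v hv => h v hv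

/-- random words `< N ≤ M` -/
theorem ans_words {k : ℕ} (hN : N ≤ M) (hk : k ≤ Z) (hZ : 1 ≤ Z) :
    ((RT.reps k RT.draw).map fun l => l.map fun r => [r]).All N (Ans M Z) := by
  rw [RT.map, RT.All_bind]
  refine (RT.All_reps (P := fun v => v < N) (all_draw fun v hv => hv) k).mono fun l hl => ?_
  refine ⟨by rw [List.length_map, hl.1]; exact hk, fun u hu => ?_⟩
  obtain ⟨r, hr, rfl⟩ := List.mem_map.1 hu
  exact wd_one hZ ((hl.2 r hr).trans_le hN)

/-- deterministic one-word answers -/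
theorem ans_ret {l : List ι} {f : ι → ℕ} (hl : l.length ≤ Z) (hZ : 1 ≤ Z)
    (h : ∀ i ∈ l, f i < M) : Ans M Z (l.map fun i => [f i]) := by
  refine ⟨by rwa [List.length_map], fun u hu => ?_⟩
  obtain ⟨i, hi, rfl⟩ := List.mem_map.1 hu
  exact wd_one hZ (h i hi)

/-- the hypothesis `hu` of `Cz.step` -/
theorem hu_of {W : Wld} {ts : RT (List (List ℕ))} (hN : 0 < W.N) (h : ts.All W.N (Ans W.M Z)) :
    ∀ p, ts.nxt W.N W.Z p ≤ W.Pm → (ts.val W.N W.Z p).length ≤ Z ∧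
      ∀ u ∈ ts.val W.N W.Z p, Wd W.M Z u := fun _ _ => h.val hN _ _

end lists

/-! ### tables -/

/-- the values of the unit function `F` fit: words `< M`, tables of at most `Z` words, classes
`≤ top`, macro heights `≤ H` -/
structure Vs (P : Par) (leaf : St → Option ℕ) (F : St → ℕ) (okB : ℕ → ℕ → Prop)
    (M Z top H : ℕ) : Prop where
  bd : Bnd275.Hyp P leaf F okB
  iH : ∀ i j, okB i j → i ≤ H
  csz : ∀ κ ≤ top, csz P κ ≤ Z
  FM : ∀ y, okB y.i y.j → inD P y → F y < M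
  big : 2 ^ top * (bA P H + 2) < M

theorem bA_mono {P : Par} {i j : ℕ} (h : i ≤ j) : bA P i ≤ bA P j := by
  refine monotone_nat_of_le_succ (fun i => ?_) h
  rw [bA, bB]
  have hN : 1 ≤ P.N := Nat.one_le_two_pow
  have hd : 1 ≤ 2 ^ P.du := Nat.one_le_two_pow
  have ha : 1 ≤ 2 ^ P.a2 := Nat.one_le_two_pow
  calc bA P i ≤ 1 * (1 * (1 * (bA P i + 2))) := by omega
    _ ≤ 2 ^ P.a2 * (P.N * (2 ^ P.du * (bA P i + 2))) :=
        Nat.mul_le_mul ha (Nat.mul_le_mul hN (Nat.mul_le_mul_right _ hd))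
    _ ≤ 2 ^ P.a2 * (P.N * (4 * P.Creg + 2 ^ P.du * (bA P i + 2)) + 5) :=
        Nat.mul_le_mul_left _ ((Nat.mul_le_mul_left _ (Nat.le_add_left _ _)).trans
          (Nat.le_add_right _ _))
    _ ≤ _ := Nat.le_add_left _ _

theorem bB_le {P : Par} (i : ℕ) : bB P (bA P i) ≤ bA P (i + 1) := by
  rw [bA]
  have ha : 1 ≤ 2 ^ P.a2 := Nat.one_le_two_pow
  calc bB P (bA P i) = 1 * bB P (bA P i) := (Nat.one_mul _).symm
    _ ≤ 2 ^ P.a2 * bB P (bA P i) := Nat.mul_le_mul_right _ ha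
    _ ≤ _ := Nat.le_add_left _ _

theorem wd_of_getD {M Z n : ℕ} {T : List ℕ} (hl : T.length = n) (hn : n ≤ Z)
    (h : ∀ t < n, T.getD t 0 < M) : Wd M Z T := by
  refine ⟨by omega, fun x hx => ?_⟩
  obtain ⟨t, ht, rfl⟩ := List.getElem_of_mem hx
  have := h t (by omega)
  rwa [List.getD_eq_getElem _ _ ht] at this

section vs

variable {P : Par} {leaf : St → Option ℕ} {F : St → ℕ} {okB : ℕ → ℕ → Prop} {M Z top H : ℕ}

theorem Vs.pw (hV : Vs P leaf F okB M Z top H) {i κ b : ℕ} (hi : i ≤ H) (hκ : κ ≤ top)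
    (hb : b ≤ bA P i + 2) : 2 ^ κ * b < M :=
  (Nat.mul_le_mul (Nat.pow_le_pow_right (by norm_num) hκ)
    (hb.trans (Nat.add_le_add_right (bA_mono hi) 2))).trans_lt hV.big

theorem Vs.mono_top (hV : Vs P leaf F okB M Z top H) {top' : ℕ} (h : top' ≤ top) :
    Vs P leaf F okB M Z top' H :=
  ⟨hV.bd, hV.iH, fun κ hκ => hV.csz κ (hκ.trans h), hV.FM,
    (Nat.mul_le_mul_right _ (Nat.pow_le_pow_right (by norm_num) h)).trans_lt hV.big⟩

/-- an arrival table -/
theorem AT.wd (hV : Vs P leaf F okB M Z top H) {i : ℕ} {c : Cel} (hκ : c.κ ≤ top)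
    (hok : okB c.i c.j) (hi : i ≤ H) {T : List ℕ} (hT : AT P F (bA P i) c T) : Wd M Z T :=
  wd_of_getD hT.1 (hV.csz _ hκ) fun t ht =>
    (hT.2 t ht).trans_lt (max_lt (hV.FM _ hok (inD_cst P c t)) (hV.pw hi hκ (by omega)))

/-- a body table -/
theorem BT.wd (hV : Vs P leaf F okB M Z top H) {i : ℕ} {c : Cel} (hκ : c.κ ≤ top)
    (hok : okB c.i c.j) (hi : i + 1 ≤ H) {T : List ℕ} (hT : BT P F (bB P (bA P i)) c T) :
    Wd M Z T := by
  refine wd_of_getD hT.1 (hV.csz _ hκ) fun t ht => ?_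
  rcases h : adm P F c.κ (cst P c t) with _ | _
  · rw [(hT.2 t ht).1 h]
    exact hV.FM _ hok (inD_cst P c t)
  · exact ((hT.2 t ht).2 h).trans_lt (hV.pw hi hκ ((bB_le i).trans (by omega)))

/-- **ARR tables fit** -/
theorem Vs.arrT (hV : Vs P leaf F okB M Z top H) {X : ℕ → ℕ → St → ℕ} {k N : ℕ} {c : Cel}
    (hκ : c.κ ≤ top) (hok : okB c.i c.j) : (arrT P leaf F X k c.i c).All N (Wd M Z) :=
  ((arrT_bd hV.bd c.i).2 c rfl hok).mono fun _ hT => AT.wd hV hκ hok (hV.iH _ _ hok) hT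

/-- **BODY tables fit** -/
theorem Vs.bodyT (hV : Vs P leaf F okB M Z top H) {X : ℕ → ℕ → St → ℕ} {k N i : ℕ} {c : Cel}
    (hi : c.i = i + 1) (hκ : c.κ ≤ top) (hok : okB c.i c.j) :
    (Alg45.bodyT P leaf F X k (fun c' => Alg45.arrT P leaf F X k i c') c).All N (Wd M Z) := by
  have hH := hV.iH _ _ hok
  have h8 := (arrT_bd (M := N) (k := k) (X := X) hV.bd i).1
  refine (bodyT_bd (M := N) hV.bd h8 hi (by rw [← hi]; exact hok) fun c' hc' hok' =>
    (arrT_bd hV.bd i).2 c' hc' hok').mono fun _ hT => BT.wd hV hκ hok (by omega) hT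

/-- the jump over body tables one macro height lower -/
theorem Vs.arrOf (hV : Vs P leaf F okB M Z top H) {X : ℕ → ℕ → St → ℕ} {k N i : ℕ} {c : Cel}
    (hi : c.i = i + 1) (hκ : c.κ ≤ top) (hok : okB c.i c.j) :
    (Alg45.arrOf P F (fun c' => Alg45.bodyT P leaf F X k
      (fun c'' => Alg45.arrT P leaf F X k i c'') c') c).All N (Wd M Z) := by
  have h := Vs.arrT hV (X := X) (k := k) (N := N) hκ hok
  rw [hi] at h
  exact h

/-- **numbers fit** -/
theorem Vs.num (hV : Vs P leaf F okB M Z top H) {X : ℕ → ℕ → St → ℕ} {k N κ : ℕ} {z : St}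
    (hκ : κ ≤ top) (hok : okB z.i z.j) (hD : inD P z) :
    (numPair P leaf F X k κ z).All N fun v => v < M :=
  (numPair_bd hV.bd hok hD).mono fun _ h =>
    h.trans_lt (max_lt (hV.FM z hok hD) (hV.pw (hV.iH _ _ hok) hκ le_rfl))

/-- lanes fit -/
theorem Vs.lane (hV : Vs P leaf F okB M Z top H) {X : ℕ → ℕ → St → ℕ} {k N κ : ℕ} {z : St}
    (hκ : κ ≤ top) (hok : okB z.i z.j) : (Alg45.arrT P leaf F X k z.i (celOf κ z)).All N (Wd M Z) :=
  Vs.arrT hV (c := celOf κ z) hκ hok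

end vs

/-! ### all indices -/

section tape

variable {P : Par} {leaf : St → Option ℕ} {okB : ℕ → ℕ → Prop} {M Z top H : ℕ}

/-- the number of an index `l ≥ 1` fits -/
theorem tape_lt {U : St → RT ℕ} {X : ℕ → ℕ × St → ℕ} {l : ℕ} (hl : l ≠ 0)
    (hV : Vs P leaf (FE P X ((l - 1) / P.K)) okB M Z top H) {N κ : ℕ} {z : St} (hκ : κ ≤ top)
    (hok : okB z.i z.j) (hD : inD P z) : (tapeRT P leaf U l X (κ, z)).All N fun v => v < M := by
  unfold tapeRT
  rw [if_neg hl]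
  exact Vs.num hV hκ hok hD

/-- the values of all unit functions fit if those of the INIT numbers do -/
theorem FE_lt {X : ℕ → ℕ × St → ℕ} {y : St} (h : X 0 (0, y) < M) (e : ℕ) : FE P X e y < M :=
  (FE_le X e y).trans_lt h

end tape

/-! ### saved answers -/

theorem sv1 {M Z : ℕ} {us : List (List ℕ)} (h : Ans M Z us) : SvOk M Z [us] :=
  Ans.snoc (sv := []) SvOk.nil (by simp) h

theorem sv2 {M Z : ℕ} {us us1 : List (List ℕ)} (h : Ans M Z us) (h1 : Ans M Z us1) :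
    SvOk M Z [us, us1] := Ans.snoc (sv := [us]) (sv1 h) (by simp) h1

theorem sv3 {M Z : ℕ} {us us1 us2 : List (List ℕ)} (h : Ans M Z us) (h1 : Ans M Z us1)
    (h2 : Ans M Z us2) : SvOk M Z [us, us1, us2] :=
  Ans.snoc (sv := [us, us1]) (sv2 h h1) (by simp) h2

theorem sv4 {M Z : ℕ} {us us1 us2 us3 : List (List ℕ)} (h : Ans M Z us) (h1 : Ans M Z us1)
    (h2 : Ans M Z us2) (h3 : Ans M Z us3) : SvOk M Z [us, us1, us2, us3] :=
  Ans.snoc (sv := [us, us1, us2]) (sv3 h h1 h2) (by simp) h3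

end Crest.Agent.R288.PgZa200
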