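import Crest.Agent.R288.PgC_578
import Crest.Agent.R288.PgZa_200
import Crest.Agent.R288.PgZd_692
import Crest.Agent.R288.PgZc_692
import Crest.Agent.R288.HypV_53

/-!
# R288, [PROG] P10 (helper275): the value fields of `Pgc578.Hyp` at a configuration

* `cxOf C la lf lg τ` : the data of the run on the tape `τ` of a configuration `C`;
* `top C` : largest class of a cell of a call; `vs_of` : `PgZa200.Vs` at every epoch;
* **`vX`, `vF`, `vA`, `vB`** : the four fields of `Pgc578.Hyp` from `C.Good (C.X τ)`.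
-/

set_option autoImplicit false

namespace Crest.Agent.R288.HypA275

open Crest.Agent.R295.Rnd627
open Crest.Agent.R288.Alg45 Crest.Agent.R288.Dom20 Crest.Agent.R288.Asm331
open Crest.Agent.R288.AnaLip364 (LipOk)
open Crest.Agent.R288.HypV53 (okB okB_of_InD VOk bnd_hyp)
open Crest.Agent.R288.PgZ692 (ArrI BodI kM kM_le ZP)
open Crest.Agent.R288.PgZa200 (Vs)
open Crest.Agent.R288.Pgb578 (Wd)
open Crest.Agent.R288.Phe940 (Wld)
open Crest.Agent.R288.Tape829 (lo lo_lt)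

/-- the data of the run on the tape `τ` -/
noncomputable def cxOf (C : Cfg) (la : St → List ℕ) (lf : ℕ → St → Option ℕ) (lg : St → ℕ)
    (τ : ℕ → ℕ) : Pgc578.Cx where
  P := C.P
  leaf := C.leaf
  U := C.U
  X := C.X τ
  la := la
  lf := lf
  lg := lg
  o := C.o
  DS := InD C.P.N C.I C.P.Dm
  DP := fun κ z => (κ, z) ∈ OmP C.P.N C.I C.P.Dm C.K0
  DA := ArrI C.P C.I C.K0
  DB := fun d => BodI C.P C.I C.K0 d ∧ 0 < d.i

/-- largest class of a cell of a call -/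
def top (C : Cfg) : ℕ := C.K0 + C.I * (C.P.a2 + C.P.du) + C.P.a2

section

variable {C : Cfg} {la : St → List ℕ} {lf : ℕ → St → Option ℕ} {lg : St → ℕ} {τ : ℕ → ℕ}
  {x y : List ℕ} {g p L cr : ℕ} {ζ : ℝ}

theorem arr_top {d : Cel} (h : ArrI C.P C.I C.K0 d) : d.κ ≤ top C :=
  (h.κ.trans (kM_le _ _ _)).trans (Nat.le_add_right _ _)

theorem bod_top {d : Cel} (h : BodI C.P C.I C.K0 d) : d.κ ≤ top C :=
  h.κ.trans (Nat.add_le_add_right (kM_le _ _ _) _)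

theorem arr_okB {d : Cel} (h : ArrI C.P C.I C.K0 d) : okB C d.i d.j := ⟨h.nd.1, h.nd.2⟩

theorem bod_okB {d : Cel} (h : BodI C.P C.I C.K0 d) : okB C d.i d.j := ⟨h.nd.1, h.nd.2⟩

theorem ep_lt {P : Par} {l : ℕ} (hl : 0 < l) (h : l ≤ P.E * P.K) : Pgc578.ep P l < P.E := by
  unfold Pgc578.ep
  have hK : 0 < P.K := by
    rcases Nat.eq_zero_or_pos P.K with h0 | h0
    · rw [h0, Nat.mul_zero] at h; omega
    · exact h0
  rw [Nat.div_lt_iff_lt_mul hK]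
  omega

/-- the numeric hypothesis in powers of two gives the bound of the words -/
theorem big_of {M : ℕ} (hcr : C.P.Creg + 3 ≤ 2 ^ cr)
    (hM : 2 ^ (top C + 4 + (C.P.n + C.P.du + C.P.a2 + cr) * C.I) < M) :
    2 ^ top C * (Bnd275.bA C.P C.I + 2) < M := by
  refine lt_of_le_of_lt ?_ hM
  calc 2 ^ top C * (Bnd275.bA C.P C.I + 2)
      ≤ 2 ^ top C * 2 ^ (4 + (C.P.n + C.P.du + C.P.a2 + cr) * C.I) :=
        Nat.mul_le_mul_left _ (Bnd275.bA_le_two_pow hcr C.I)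
    _ = _ := by rw [← pow_add, ← Nat.add_assoc]

theorem two_pow_lt {M : ℕ} (hM : 2 ^ (top C + 4 + (C.P.n + C.P.du + C.P.a2 + cr) * C.I) < M) :
    2 ^ (C.K0 + 1 - C.P.a2) < M := by
  refine lt_of_le_of_lt (Nat.pow_le_pow_right (by norm_num) ?_) hM
  unfold top
  omega

/-- **`Vs` at every epoch of a good history** -/
theorem vs_of {X : ℕ → ℕ × St → ℕ} (h : C.Good X) (hO : LipOk C x y g p L ζ) (hV : VOk C x y cr)
    {e : ℕ} (he : e ≤ C.P.E)
    (hs : ∀ s, InD C.P.N C.I C.P.Dm s → GSt442.gst x y C.P.n s ≤ FE C.P X e s) {M Z : ℕ}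
    (hZ : ZP C.P ≤ Z)
    (hM : 2 ^ (top C + 4 + (C.P.n + C.P.du + C.P.a2 + cr) * C.I) < M) :
    Vs C.P C.leaf (FE C.P X e) (okB C) M Z (top C) C.I where
  bd := bnd_hyp h hO hV he hs
  iH := fun _ _ h => h.1
  csz := fun κ _ => (PgZ692.csz_ZP C.P κ).trans hZ
  FM := fun s h1 h2 =>
    (HypV53.FE_lt h hO e (HypV53.InD_of_okB h1 h2)).trans (two_pow_lt hM)
  big := big_of hV.cr hM

variable (la lf lg)

/-- field `vF` -/
theorem vF (h : C.Good (C.X τ)) (hO : LipOk C x y g p L ζ) {M : ℕ}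
    (hM : 2 ^ (top C + 4 + (C.P.n + C.P.du + C.P.a2 + cr) * C.I) < M) :
    ∀ e, e ≤ (cxOf C la lf lg τ).P.E → ∀ z, (cxOf C la lf lg τ).DS z →
      (cxOf C la lf lg τ).F e z < M := fun e _ z hz =>
  (HypV53.FE_lt h hO e hz).trans (two_pow_lt hM)

/-- field `vX` -/
theorem vX (h : C.Good (C.X τ)) (hO : LipOk C x y g p L ζ) (hV : VOk C x y cr)
    (hs : ∀ e ≤ C.P.E, ∀ s, InD C.P.N C.I C.P.Dm s →
      GSt442.gst x y C.P.n s ≤ FE C.P (C.X τ) e s) {M Z : ℕ} (hZ : ZP C.P ≤ Z)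
    (hM : 2 ^ (top C + 4 + (C.P.n + C.P.du + C.P.a2 + cr) * C.I) < M) :
    ∀ l, l ≤ (cxOf C la lf lg τ).EK → ∀ κ z, (cxOf C la lf lg τ).DP κ z →
      (cxOf C la lf lg τ).X l (κ, z) < M := by
  intro l hl κ z hz
  show C.X τ l (κ, z) < M
  have hz' : (κ, z) ∈ OmP C.P.N C.I C.P.Dm C.K0 := hz
  rcases Nat.eq_zero_or_pos l with rfl | hl0
  · exact (HypV53.X_zero_lt h hO hz').trans (two_pow_lt hM)
  · obtain ⟨hκ, hI⟩ := (mem_OmP (AnaLip364.N_pos C.P)).1 hz'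
    have he := ep_lt (P := C.P) hl0 hl
    unfold Pgc578.ep at he
    have hF : FE C.P (lo l (C.X τ)) ((l - 1) / C.P.K) = FE C.P (C.X τ) ((l - 1) / C.P.K) := by
      refine FE_lo ?_
      have := Nat.div_mul_le_self (l - 1) C.P.K
      omega
    have hVs := vs_of h hO hV he.le (hs _ he.le) hZ hM
    rw [← hF] at hVs
    rw [Cfg.X_succ τ hz']
    refine (PgZa200.tape_lt (U := C.U) (N := 2 ^ C.W) hl0.ne' hVs ?_ (okB_of_InD hI)
      ((dom_iff C.P).1 hI).2.2).val (Nat.two_pow_pos _) _ _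
    unfold top
    simp only at hκ
    omega

/-- field `vA` -/
theorem vA (h : C.Good (C.X τ)) (hO : LipOk C x y g p L ζ) (hV : VOk C x y cr)
    (hs : ∀ e ≤ C.P.E, ∀ s, InD C.P.N C.I C.P.Dm s →
      GSt442.gst x y C.P.n s ≤ FE C.P (C.X τ) e s) {M Z N : ℕ} (hZ : ZP C.P ≤ Z)
    (hM : 2 ^ (top C + 4 + (C.P.n + C.P.du + C.P.a2 + cr) * C.I) < M) :
    ∀ l, 0 < l → l ≤ (cxOf C la lf lg τ).EK → ∀ d, (cxOf C la lf lg τ).DA d →
      ((cxOf C la lf lg τ).tA l d).All N (Wd M Z) := by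
  intro l hl0 hl d hd
  have he := ep_lt (P := C.P) hl0 hl
  exact Vs.arrT (vs_of h hO hV he.le (hs _ he.le) hZ hM) (arr_top hd) (arr_okB hd)

/-- field `vB` -/
theorem vB (h : C.Good (C.X τ)) (hO : LipOk C x y g p L ζ) (hV : VOk C x y cr)
    (hs : ∀ e ≤ C.P.E, ∀ s, InD C.P.N C.I C.P.Dm s →
      GSt442.gst x y C.P.n s ≤ FE C.P (C.X τ) e s) {M Z N : ℕ} (hZ : ZP C.P ≤ Z)
    (hM : 2 ^ (top C + 4 + (C.P.n + C.P.du + C.P.a2 + cr) * C.I) < M) :
    ∀ l, 0 < l → l ≤ (cxOf C la lf lg τ).EK → ∀ d, (cxOf C la lf lg τ).DB d →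
      ((cxOf C la lf lg τ).tB l d).All N (Wd M Z) := by
  intro l hl0 hl d hd
  have he := ep_lt (P := C.P) hl0 hl
  have hi : d.i = (d.i - 1) + 1 := by have := hd.2; omega
  exact Vs.bodyT (vs_of h hO hV he.le (hs _ he.le) hZ hM) hi (bod_top hd.1) (bod_okB hd.1)

end

end Crest.Agent.R288.HypA275
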