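import Crest.Agent.R288.PgZc_692
import Crest.Agent.R288.PgZd_692
import Crest.Agent.R288.ParO_331

/-!
# R288, [SIZE] part e (helper692): the table of 331 / 806

* `sze_parOf`, **`ev_ZP : ∀ᶠ h, ZP (parOf h) ≤ 2 ^ (136 * W h * Lg h)`**;
* **`ev_fit : ∀ᶠ h, ∀ M, 2 ^ (HH h + 2) ≤ M → Fit (parOf h) (II h) (EE h * KK h + EE h + 1) (K0O h) M`**,
  `ev_HH : ∀ᶠ h, HH h + 2 ≤ 3 * (h - 1)`.
-/

set_option autoImplicit false

open Filter

namespace Crest.Agent.R288.PgZ692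

open Crest.Agent.R288.Alg45 Crest.Agent.R288.Par806 Crest.Agent.R288.ParO331 Crest.Agent.R288.Asy720

/-- `C W Lg ≤ 2 ^ Lg` -/
theorem ev_le_two_Lg (C : ℕ) : ∀ᶠ h : ℕ in atTop, C * W h ^ 2 * Lg h * Mg h ≤ 2 ^ Lg h := by
  filter_upwards [ev_le_two_pow_Mg C 2 1 1, ev_exp_le_Lg 0 0 2] with h h1 h2
  simp only [pow_one] at h1
  refine h1.trans (two_le ?_)
  omega

theorem sze_parOf : ∀ᶠ h : ℕ in atTop, SzE (parOf h) 6 (Lg h) (Lg h) (Lg h)
    (17 * W h * Lg h + 2 * Lg h) := by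
  filter_upwards [ev_le_two_Lg 100, ev_le_two_pow_Mg 13 2 1 0, ev_exp_le_Lg 1 0 28,
    ev_le_W 1] with h h1 h2 h3 h4
  have hW := W_pos h
  have hL := Lg_pos h
  have hM := Mg_pos h
  have hh := lt_two_pow_Lg h
  have hWL : W h * Lg h ≤ W h ^ 2 * Lg h * Mg h := by
    calc W h * Lg h = W h ^ 1 * Lg h * 1 := by ring
      _ ≤ W h ^ 2 * Lg h * Mg h :=
        Nat.mul_le_mul (Nat.mul_le_mul_right _ (Nat.pow_le_pow_right hW (by norm_num))) hM
  have hMM : Mg h ≤ W h ^ 2 * Lg h * Mg h := Nat.le_mul_of_pos_left _ (by positivity)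
  have hone : 1 ≤ W h ^ 2 * Lg h * Mg h := Nat.mul_pos (by positivity) hM
  set Q := W h ^ 2 * Lg h * Mg h with hQ
  have h1' : 100 * Q ≤ 2 ^ Lg h := by
    have : 100 * W h ^ 2 * Lg h * Mg h = 100 * Q := by rw [hQ]; ring
    omega
  have e8 : 8 * W h * Lg h = 8 * (W h * Lg h) := by ring
  refine ⟨?_, ?_, ?_, ?_, ?_, ?_, ?_⟩
  · simp only [parOf_r]; norm_num
  · simp only [parOf_al, parOf_a2, al]; omega
  · simp only [parOf_dl, parOf_du, dl]; omega
  · simp only [parOf_a1, parOf_a2, Par806.a1, bb]; omega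
  · simp only [parOf_K]
    have : KK h ≤ h := Nat.div_le_self _ _
    omega
  · simp only [parOf_gJ, parOf_mJ]
    have a1 : 12 * sJ h + 1 ≤ 2 ^ (2 * Mg h) := by
      refine le_trans ?_ h2
      unfold sJ
      simp only [pow_one, pow_zero, mul_one]
      have : 1 ≤ W h ^ 2 * Lg h := Nat.mul_pos (by positivity) hL
      have e : 13 * W h ^ 2 * Lg h = 12 * (W h ^ 2 * Lg h) + W h ^ 2 * Lg h := by ring
      omega
    have a2 : mJ h = 2 ^ (26 * Mg h) := by
      unfold mJ bb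
      rw [show (4 : ℕ) = 2 ^ 2 by norm_num, ← pow_mul]
      congr 1
      ring
    have a3 : (12 * sJ h + 1) * mJ h ≤ 2 ^ (28 * Mg h) := by
      rw [a2]
      calc (12 * sJ h + 1) * 2 ^ (26 * Mg h) ≤ 2 ^ (2 * Mg h) * 2 ^ (26 * Mg h) :=
            Nat.mul_le_mul_right _ a1
        _ = 2 ^ (28 * Mg h) := by rw [← pow_add]; ring_nf
    refine (succ_le_two a3).trans (two_le ?_)
    omega
  · simp only [parOf_gX, parOf_mX]
    have a1 : 12 * sX h + 1 ≤ 2 ^ (2 * Lg h) := by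
      unfold sX
      have b1 : 12 * (W h * h) + 1 ≤ (13 * W h) * 2 ^ Lg h := by
        have : 1 ≤ W h * 2 ^ Lg h := Nat.mul_pos hW (by positivity)
        have : W h * h ≤ W h * 2 ^ Lg h := Nat.mul_le_mul_left _ hh.le
        have e : 13 * W h * 2 ^ Lg h = 12 * (W h * 2 ^ Lg h) + W h * 2 ^ Lg h := by ring
        omega
      have b2 : 13 * W h ≤ 2 ^ Lg h := by
        have c1 : W h ≤ W h * Lg h := Nat.le_mul_of_pos_right _ hL
        omega
      calc 12 * (W h * h) + 1 ≤ 13 * W h * 2 ^ Lg h := b1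
        _ ≤ 2 ^ Lg h * 2 ^ Lg h := Nat.mul_le_mul_right _ b2
        _ = 2 ^ (2 * Lg h) := by rw [← pow_add]; ring_nf
    unfold mX nb
    calc (12 * sX h + 1) * 2 ^ (2 * (8 * W h * Lg h) + W h * Lg h)
        ≤ 2 ^ (2 * Lg h) * 2 ^ (2 * (8 * W h * Lg h) + W h * Lg h) := Nat.mul_le_mul_right _ a1
      _ = 2 ^ (17 * W h * Lg h + 2 * Lg h) := by rw [← pow_add]; congr 1; ring

/-- **the size number of the table** -/
theorem ev_ZP : ∀ᶠ h : ℕ in atTop, ZP (parOf h) ≤ 2 ^ (136 * W h * Lg h) := by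
  filter_upwards [sze_parOf, ev_exp_le_Lg 66 1 14] with h h1 h2
  refine (ZP_le_two_pow h1).trans (two_le ?_)
  have hW := W_pos h
  have hL : Lg h ≤ W h * Lg h := Nat.le_mul_of_pos_left _ hW
  unfold eZ
  simp only [parOf_n, parOf_c0, parOf_du, parOf_a1, parOf_pb, parOf_al, Par806.a1, bb, pb, al, c0]
  have e1 : 136 * W h * Lg h = 136 * (W h * Lg h) := by ring
  have e2 : 17 * W h * Lg h = 17 * (W h * Lg h) := by ring
  have e3 : 16 * W h * Lg h = 16 * (W h * Lg h) := by ring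
  have e4 : 8 * W h * Lg h = 8 * (W h * Lg h) := by ring
  rw [e1, e2, e3, e4]
  omega

/-- the same with a factor -/
theorem ev_ZP_mul (C : ℕ) : ∀ᶠ h : ℕ in atTop, C * (ZP (parOf h) + C) ≤ 2 ^ (137 * W h * Lg h) := by
  filter_upwards [ev_ZP, ev_exp_le_Lg (2 * C + 1) 0 0] with h h1 h2
  have hW := W_pos h
  have hL : Lg h ≤ W h * Lg h := Nat.le_mul_of_pos_left _ hW
  have hC : C < 2 ^ C := Nat.lt_two_pow_self
  have h3 : ZP (parOf h) + C ≤ 2 ^ (136 * W h * Lg h) * 2 ^ (C + 1) := by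
    have a1 : 1 ≤ 2 ^ (136 * W h * Lg h) := Nat.one_le_two_pow
    have a2 : 1 + C ≤ 2 ^ (C + 1) := by rw [pow_succ]; omega
    calc ZP (parOf h) + C ≤ 2 ^ (136 * W h * Lg h) + 2 ^ (136 * W h * Lg h) * C :=
          Nat.add_le_add h1 (Nat.le_mul_of_pos_left _ a1)
      _ = 2 ^ (136 * W h * Lg h) * (1 + C) := by ring
      _ ≤ _ := Nat.mul_le_mul_left _ a2
  calc C * (ZP (parOf h) + C) ≤ 2 ^ C * (2 ^ (136 * W h * Lg h) * 2 ^ (C + 1)) :=
        Nat.mul_le_mul hC.le h3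
    _ = 2 ^ (136 * W h * Lg h + (2 * C + 1)) := by rw [← pow_add, ← pow_add]; congr 1; ring
    _ ≤ 2 ^ (137 * W h * Lg h) := two_le (by
        have e1 : 137 * W h * Lg h = 136 * W h * Lg h + W h * Lg h := by ring
        omega)

/-! ## Words -/

theorem II_le (h : ℕ) : II h ≤ h + 1 := Nat.add_le_add_right (Nat.div_le_self _ _) 1

theorem nn_pos (h : ℕ) : 0 < nn h := Nat.mul_pos (Mg_pos h) (by have := W_pos h; positivity)

theorem HH_le (h : ℕ) : HH h ≤ h + nn h := by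
  unfold HH II
  have := Nat.mul_div_le h (nn h)
  rw [Nat.mul_add, mul_one]
  omega

theorem le_HH (h : ℕ) : h ≤ HH h := by
  unfold HH II
  have h1 := Nat.div_add_mod h (nn h)
  have h2 := Nat.mod_lt h (nn_pos h)
  rw [Nat.mul_add, mul_one]
  omega

/-- `C W^2 Lg^3 .. ≤ h` -/
theorem ev_poly_le (C a b c : ℕ) : ∀ᶠ h : ℕ in atTop, C * W h ^ a * Lg h ^ b * Mg h ^ c ≤ h := by
  filter_upwards [ev_pow_le_self C a b c 0 0 1] with h h1
  simpa using h1

theorem ev_HH : ∀ᶠ h : ℕ in atTop, HH h + 2 ≤ 3 * (h - 1) := by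
  filter_upwards [ev_poly_le 8 2 0 1, ev_le_W 1] with h h1 h2
  have h3 := HH_le h
  have h4 : nn h = W h ^ 2 * Mg h := by unfold nn; ring
  have h5 := nn_pos h
  simp only [pow_zero, pow_one, mul_one] at h1
  have h6 : 8 * W h ^ 2 * Mg h = 8 * nn h := by rw [h4]; ring
  omega

/-- **the numbers of the run fit into words** -/
theorem ev_fit : ∀ᶠ h : ℕ in atTop, ∀ M : ℕ, 2 ^ (HH h + 2) ≤ M →
    Fit (parOf h) (II h) (EE h * KK h + EE h + 1) (K0O h) M := by
  filter_upwards [ev_poly_le 40 1 1 0, ev_poly_le 64 2 0 1, ev_poly_le 40 1 2 0,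
    eventually_ge_atTop 1000] with h h1 h2 h3 h1000 M hM
  simp only [pow_zero, pow_one, mul_one] at h1 h2 h3
  have hW := W_pos h
  have hL := Lg_pos h
  have hHH := le_HH h
  have hHH' := HH_le h
  have hnn : 64 * nn h ≤ h := by
    have : 64 * W h ^ 2 * Mg h = 64 * nn h := by unfold nn; ring
    omega
  have e40 : 40 * W h * Lg h = 40 * (W h * Lg h) := by ring
  have hpow : 2 ^ HH h * 4 ≤ M := by rw [pow_add] at hM; exact hM
  have hh2 : 2 ^ h ≤ 2 ^ HH h := two_le hHH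
  have hbig : 100 * h ≤ 2 ^ h := by
    have a1 : h < 2 ^ (h - 10) * 2 := by
      have := Nat.lt_two_pow_self (n := h - 10)
      have b1 : h - 10 + 1 ≤ 2 ^ (h - 10) := this
      omega
    have a2 : 2 ^ h = 2 ^ (h - 10) * 1024 := by
      rw [show (1024 : ℕ) = 2 ^ 10 by norm_num, ← pow_add]; congr 1; omega
    rw [a2]
    omega
  refine ⟨?_, ?_, ?_, ?_, ?_, ?_, ?_⟩
  · -- mA
    unfold mA
    simp only [parOf_Dm, parOf_r, parOf_dl, DmO, dl]
    have a1 : (40 + 1) * 2 ^ (8 * W h * Lg h) ≤ 2 ^ (8 * W h * Lg h + 6) := by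
      rw [pow_add]; omega
    have a2 : 2 ^ (8 * W h * Lg h + 6) ≤ 2 ^ (HH h) := two_le (by
      have : 8 * W h * Lg h = 8 * (W h * Lg h) := by ring
      omega)
    have a3 : 2 ^ (HH h + 1) = 2 ^ HH h * 2 := pow_succ _ _
    have a4 : 0 < 2 ^ HH h := by positivity
    omega
  · simp only [parOf_N]; positivity
  · simp only [parOf_N]
    rw [← pow_mul]
    have a3 : 2 ^ (nn h * II h) = 2 ^ HH h := rfl
    have a4 : 0 < 2 ^ HH h := by positivity
    omega
  · have := II_le h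
    have a4 : 0 < 2 ^ HH h := by positivity
    omega
  · -- EE KK + EE + 1
    have b1 : EE h ≤ 20 * (W h * Lg h) := by
      unfold EE
      calc 4 * (W h + 4) * Lg h ≤ 4 * (5 * W h) * Lg h := by gcongr; omega
        _ = 20 * (W h * Lg h) := by ring
    have b2 : KK h ≤ h := Nat.div_le_self _ _
    have b3 : EE h * KK h ≤ h * h := Nat.mul_le_mul (by omega) b2
    have b4 : h * h + h + 1 ≤ 2 ^ h := by
      have c1 : 100 * (h / 2) ≤ 2 ^ (h / 2) := by
        have a1 : h / 2 < 2 ^ (h / 2 - 10) * 2 := by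
          have := Nat.lt_two_pow_self (n := h / 2 - 10)
          have b1 : h / 2 - 10 + 1 ≤ 2 ^ (h / 2 - 10) := this
          omega
        have a2 : 2 ^ (h / 2) = 2 ^ (h / 2 - 10) * 1024 := by
          rw [show (1024 : ℕ) = 2 ^ 10 by norm_num, ← pow_add]; congr 1; omega
        rw [a2]
        omega
      have c2 : 2 ^ (h / 2) * 2 ^ (h / 2) ≤ 2 ^ h := by
        rw [← pow_add]; exact two_le (by omega)
      have c3 : h ≤ 3 * (h / 2) := by omega
      have c4 : h + 1 ≤ 2 ^ (h / 2) := by omega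
      have c5 : (h + 1) * (h + 1) ≤ 2 ^ (h / 2) * 2 ^ (h / 2) := Nat.mul_le_mul c4 c4
      have c6 : h * h + h + 1 ≤ (h + 1) * (h + 1) := by nlinarith
      omega
    have b5 : EE h ≤ h := by omega
    have a4 : 0 < 2 ^ HH h := by positivity
    omega
  · simp only [parOf_a2, parOf_du, K0O, gI]
    have := II_le h
    have c1 : Lg h ≤ W h * Lg h := Nat.le_mul_of_pos_left _ hW
    have a4 : 0 < 2 ^ HH h := by positivity
    omega
  · have a4 : 0 < 2 ^ HH h := by positivity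
    have : 8 ≤ 2 ^ h := le_trans (by omega) hbig
    omega

end Crest.Agent.R288.PgZ692
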