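import Crest.Agent.R288.PgC_578
import Crest.Agent.R288.PgZe_692
import Crest.Agent.R288.DomC_20

/-!
# R288, P10 (helper692): closure, classes, words and counts: the fields of `Pgc578.Hyp`

* `Clo c b M Z` : the fields P_b A_b B_b, P_S P_A S_0 S_h S_h0 A_S A_B B_i B_S B_P B_A,
  wU wX wF wA wB, zX zF z0 zA zA0 zB0 zB1 of `Hyp` (same names; `b = D.b K`, `M = W.M`);
* `DomC c I K0` : the domain predicates of `c`; `CloIn` : the inputs; **`clo_of : CloIn .. → Clo ..`**.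
-/

set_option autoImplicit false

namespace Crest.Agent.R288.PgZ692

open Crest.Agent.R288.Alg45 Crest.Agent.R288.PgA172 Crest.Agent.R288.Cnt308 Crest.Agent.R288.Dom20
open Crest.Agent.R288.Pgb578 Crest.Agent.R288.Pgc578 Crest.Agent.R288.Delta222
open Crest.Agent.R288.Delta72 Crest.Agent.R288.PgX583
open Crest.Agent.R288.PgY583 (ent arS arC zOf)

/-- fields of `Hyp` -/
structure Clo (c : Cx) (b M Z : ℕ) : Prop where
  /-- classes -/
  P_b : ∀ κ z, c.DP κ z → κ ≤ b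
  A_b : ∀ d, c.DA d → d.κ ≤ b
  B_b : ∀ d, c.DB d → d.κ ≤ b
  /-- closure of the domain -/
  P_S : ∀ κ z, c.DP κ z → c.DS z
  P_A : ∀ l, 0 < l → l ≤ c.EK → ∀ κ z, c.DP κ z → adm c.P (c.Fl l) κ z = true →
    c.DA (celOf κ z)
  S_0 : ∀ y, c.DS y → c.DP 0 y
  S_h : ∀ e, e ≤ c.P.E → ∀ y, c.DS y → ∀ p ∈ hmenu c.P (c.F e) y, c.DP p.1 p.2
  S_h0 : ∀ y, c.DS y → ∀ p ∈ hmenu c.P (fun z => c.X 0 (0, z)) y, c.DS p.2
  A_S : ∀ d, c.DA d → ∀ y ∈ csts c.P d, c.DS y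
  A_B : ∀ d, c.DA d → 0 < d.i → ∀ d' ∈ abod c.P d, c.DB d'
  B_i : ∀ d, c.DB d → 0 < d.i
  B_S : ∀ d, c.DB d → ∀ y ∈ bst c.P d, c.DS y
  B_P : ∀ l, 0 < l → l ≤ c.EK → ∀ d, c.DB d → ∀ p ∈ bpr c.P (c.Fl l) d, c.DP p.1 p.2
  B_A : ∀ d, c.DB d → ∀ ρ, ∀ key ∈ bkeys c.P d.κ d.m ρ, c.DA (bcel c.P d key)
  /-- the arguments are words -/
  wU : ∀ z, c.DS z → ArOk M 2 (arS 0 0 z)
  wX : ∀ l, l ≤ c.EK → ∀ κ z, c.DP κ z → ArOk M 3 (arS l κ z)
  wF : ∀ e, e ≤ c.P.E → ∀ y, c.DS y → ArOk M 4 (arS e 0 y)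
  wA : ∀ l, l ≤ c.EK → ∀ d, c.DA d → ArOk M 5 (arC l d)
  wB : ∀ l, l ≤ c.EK → ∀ d, c.DB d → ArOk M 6 (arC l d)
  /-- numbers of requests -/
  zX : c.P.gX * c.P.mX ≤ Z
  zF : ∀ e, e < c.P.E → ∀ y, c.DS y → (hkeys c.P (c.F e y) y (rks c.P e)).length ≤ Z
  z0 : ∀ y, c.DS y → (hkeys c.P (c.X 0 (0, y)) y [0]).length ≤ Z
  zA : ∀ d, c.DA d → (abod c.P d).length + (csts c.P d).length ≤ Z
  zA0 : ∀ d, c.DA d → (csts c.P d).length + (csts c.P d).length ≤ Z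
  zB0 : ∀ d, c.DB d → nwd c.P + (bst c.P d).length ≤ Z
  zB1 : ∀ l, 0 < l → l ≤ c.EK → ∀ d, c.DB d → ∀ ρ, (bkeys c.P d.κ d.m ρ).length +
    ((rpr (rk c.P l) (bpr c.P (c.Fl l) d)).length + (cells c.P d).length) ≤ Z

/-- the domain predicates -/
structure DomC (c : Cx) (I K0 : ℕ) : Prop where
  S : ∀ y, c.DS y ↔ InD c.P.N I c.P.Dm y
  P : ∀ κ z, c.DP κ z ↔ κ ≤ K0 ∧ InD c.P.N I c.P.Dm z
  A : ∀ d, c.DA d ↔ ArrI c.P I K0 d
  B : ∀ d, c.DB d ↔ BodI c.P I K0 d ∧ 0 < d.i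

/-- the inputs -/
structure CloIn (c : Cx) (I Lx K0 b M Z : ℕ) : Prop where
  dom : DomC c I K0
  fit : Fit c.P I Lx K0 M
  lxK : c.EK ≤ Lx
  lxE : c.P.E ≤ Lx
  Kpos : 0 < c.P.K
  r : 1 ≤ c.P.r
  grd : gst c.P (K0 - c.P.a2) ∣ c.P.Dm
  cls : ∀ e, e ≤ c.P.E → ∀ y, InD c.P.N I c.P.Dm y → cls (c.F e) y + c.P.a2 ≤ K0
  b : K0 + I * (c.P.a2 + c.P.du) + c.P.a2 ≤ b
  Z : 2 * ZP c.P ≤ Z

section

variable {c : Cx} {I Lx K0 b M Z : ℕ}

theorem ep_lt {P : Par} (hK : 0 < P.K) {l : ℕ} (h0 : 0 < l) (h1 : l ≤ P.E * P.K) :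
    ep P l < P.E := by
  unfold ep
  rw [Nat.div_lt_iff_lt_mul hK]
  omega

theorem rk_lt {P : Par} (hK : 0 < P.K) (l : ℕ) : rk P l < P.K := Nat.mod_lt _ hK

theorem clsOk_of (h : CloIn c I Lx K0 b M Z) {e : ℕ} (he : e ≤ c.P.E) :
    ClsOk c.P I (K0 - c.P.a2) (c.F e) :=
  ⟨fun y hy => by have := h.cls e he y hy; omega, h.grd⟩

theorem a2_le (h : CloIn c I Lx K0 b M Z) {y : St} (hy : InD c.P.N I c.P.Dm y) : c.P.a2 ≤ K0 := by
  have := h.cls 0 (Nat.zero_le _) y hy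
  omega

theorem hprs_len (P : Par) (F : ℕ) (y : St) : (hprs P F y).length ≤ nH P :=
  hmenu_len P (fun _ => F) y

theorem hkeys_len (P : Par) (F : ℕ) (y : St) (ls : List ℕ) :
    (hkeys P F y ls).length = (hprs P F y).length * ls.length := by
  unfold hkeys
  rw [List.length_flatMap]
  simp only [HK, List.length_map]
  rw [List.map_const', List.sum_replicate, smul_eq_mul]

theorem hkeys_le (P : Par) (F : ℕ) (y : St) {ls : List ℕ} (h : ls.length ≤ P.K + 1) :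
    (hkeys P F y ls).length ≤ ZP P := by
  rw [hkeys_len]
  calc (hprs P F y).length * ls.length ≤ nH P * (P.K + 1) := Nat.mul_le_mul (hprs_len P F y) h
    _ = (P.K + 1) * nH P := by ring
    _ ≤ ZP P := by unfold ZP; omega

theorem body_len (P : Par) {k : ℕ} (hk : k ≤ P.K) (F : St → ℕ) (d : Cel) (ρ : ℕ → ℕ → ℕ) :
    (bkeys P d.κ d.m ρ).length + ((rpr k (bpr P F d)).length + csz P d.κ) ≤ ZP P := by
  have h1 : (bkeys P d.κ d.m ρ).length ≤ nB P := bkeys_len P _ _ _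
  have h2 := bpr_len P F d
  have h3 : k * (bpr P F d).length ≤ (P.K + 1) * nQ P := Nat.mul_le_mul (by omega) h2
  have h4 := csz_le P d.κ
  rw [rpr_len]
  unfold ZP
  omega

theorem clo_of (h : CloIn c I Lx K0 b M Z) : Clo c b M Z := by
  have hdS := h.dom.S
  have hdP := h.dom.P
  have hdA := h.dom.A
  have hdB := h.dom.B
  have hZ := h.Z
  have hb := h.b
  have hN0 := h.fit.N0
  refine
    { P_b := fun κ z hz => ?_
      A_b := fun d hd => ?_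
      B_b := fun d hd => ?_
      P_S := fun κ z hz => (hdS z).2 ((hdP κ z).1 hz).2
      P_A := fun l _ _ κ z hz _ => (hdA _).2
        (ArrI.of_state ((hdP κ z).1 hz).2 ((hdP κ z).1 hz).1)
      S_0 := fun y hy => (hdP 0 y).2 ⟨Nat.zero_le _, (hdS y).1 hy⟩
      S_h := fun e he y hy p hp => ?_
      S_h0 := fun y hy p hp => (hdS _).2 (hmenu_dom ((hdS y).1 hy) hp).2
      A_S := fun d hd y hy => (hdS y).2 (csts_InD ((hdA d).1 hd).nd hy)
      A_B := fun d hd hi d' hd' => (hdB d').2 ⟨((hdA d).1 hd).body hd', ?_⟩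
      B_i := fun d hd => ((hdB d).1 hd).2
      B_S := fun d hd y hy => (hdS y).2 (bst_InD h.r ((hdB d).1 hd).1.nd ((hdB d).1 hd).2 hy)
      B_P := fun l h0 hl d hd p hp => ?_
      B_A := fun d hd ρ key hk => (hdA _).2 (((hdB d).1 hd).1.arr ((hdB d).1 hd).2 hk)
      wU := fun z hz => arOk_st h.fit (by norm_num) (Nat.zero_le _) (Nat.zero_le _) ((hdS z).1 hz)
      wX := fun l hl κ z hz => arOk_st h.fit (by norm_num) (hl.trans h.lxK) ((hdP κ z).1 hz).1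
        ((hdP κ z).1 hz).2
      wF := fun e he y hy => arOk_st h.fit (by norm_num) (he.trans h.lxE) (Nat.zero_le _)
        ((hdS y).1 hy)
      wA := fun l hl d hd => ((hdA d).1 hd).arOk h.fit (by norm_num) (hl.trans h.lxK)
      wB := fun l hl d hd => ((hdB d).1 hd).1.arOk h.fit (by norm_num) (hl.trans h.lxK)
      zX := ?_
      zF := fun e _ y _ => ?_
      z0 := fun y _ => ?_
      zA := fun d _ => ?_
      zA0 := fun d _ => ?_
      zB0 := fun d _ => ?_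
      zB1 := fun l _ _ d _ ρ => ?_ }
  · have := ((hdP κ z).1 hz).1
    omega
  · have h1 := ((hdA d).1 hd).κ
    have h2 := kM_le (P := c.P) I K0 d.i
    omega
  · have h1 := ((hdB d).1 hd).1.κ
    have h2 := kM_le (P := c.P) I K0 d.i
    omega
  · have hyD := (hdS y).1 hy
    have h1 := hmenu_dom hyD hp
    have h2 := h.cls e he y hyD
    exact (hdP _ _).2 ⟨by omega, h1.2⟩
  · have := (abod_mem hd').1
    omega
  · have h1 := (hdB d).1 hd
    have he : ep c.P l ≤ c.P.E := (ep_lt h.Kpos h0 hl).le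
    have h2 := bpr_dom h.r (clsOk_of h he) h1.1.nd h1.2 hp
    have h3 : c.P.a2 ≤ K0 := a2_le h (cst_InD (P := c.P) h1.1.nd 0)
    exact (hdP _ _).2 ⟨by omega, h2.2⟩
  · exact (lanes_ZP c.P).trans (by omega)
  · refine (hkeys_le c.P _ y (ls := rks c.P e) ?_).trans (by omega)
    unfold rks
    rw [List.length_map, List.length_range]
    omega
  · refine (hkeys_le c.P _ y (ls := [0]) ?_).trans (by omega)
    simp
  · have h1 := abod_csts_ZP c.P d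
    rw [csts_len]
    omega
  · rw [csts_len]
    exact (csts2_ZP c.P d).trans hZ
  · have h1 := words_ZP c.P
    have h2 := bst_ZP c.P d
    have h3 : nwd c.P ≤ ZP c.P := h1
    omega
  · rw [cells_len]
    exact (body_len c.P (rk_lt h.Kpos l).le (c.Fl l) d ρ).trans (by omega)

end

end Crest.Agent.R288.PgZ692
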