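import Crest.Agent.R288.Main_901
import Crest.Agent.R288.AsmD_331

/-!
# R288, [PROG] P12 (helper901): `ProgStm` from the claim on the root call

* `RootClaim G c k r cS kS rS x y ε τ`: in every machine environment of the input the root call
  (tag 4, `rootA`, no saved answers) of the engine program `G` realises
  `ret [FE P X E root]`, cost `≤ fuc c k r 3 L`, fuel `+ 1 ≤ L`, value a word;
* **`prog_of_root`** : `RootClaim` for all good tapes of all large inputs gives `ProgStm`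
  (words = 155's `words_of'`, first statement = `mainM`, `j = 3`).
-/

set_option autoImplicit false

namespace Crest.Agent.R288.ProgTop901

open Filter
open Crest.Agent.R295 HL Pt949 Crest.Agent.R295.Rnd627 Crest.Agent.R288.Pl726
open Crest.Agent.R288.Phe940 Crest.Agent.R288.Top791 Crest.Agent.R288.Front327
open Crest.Agent.R288.Shell12 Crest.Agent.R288.Asm12 Crest.Agent.R288.Alg45
open Crest.Agent.R288.Pgb578 (Ar Svd fr fr0 Cz)
open Crest.Agent.R288.PadK901 Crest.Agent.R288.Main901 Crest.Agent.R288.Asm331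
open Crest.Agent.R288.PltT365 (tapeW tapeD RunPL)
open Crest.Agent.Lib.PT (PTF)

/-- the program's number of tape words -/
noncomputable def fR : List ℕ → ℕ := PgW155.fW rW

/-- **the claim on the root call** -/
def RootClaim (G : Prg) (c k r cS kS rS : ℕ) (x y : List ℕ) (ε : ℚ) (τ : ℕ → ℕ) : Prop :=
  ∀ pe : PEnv, PIn x y ε pe → pe.S = og cS kS rS 3 (inp x y ε).length →
    ∃ n C, Cz G (wld pe (2 ^ tapeW x y ε) τ G.a1 G.a2 (tapeD fR x y ε))
        (konO (PltT365.v0 x y ε)) 4 n (rootA (konO (PltT365.v0 x y ε))) []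
        (.ret [FE (cfgO x y ε).P ((cfgO x y ε).X τ) (cfgO x y ε).P.E (cfgO x y ε).root]) C ∧
      FE (cfgO x y ε).P ((cfgO x y ε).X τ) (cfgO x y ε).P.E (cfgO x y ε).root < pe.B ∧
      C ≤ fuc c k r 3 (inp x y ε).length ∧ n + 1 ≤ (inp x y ε).length

/-- the root is no leaf: the output is the last unit function -/
theorem outNum_root {x y : List ℕ} {ε : ℚ} (hN : Num x y ε) (X : ℕ → ℕ × St → ℕ) :
    outNum (cfgO x y ε).P (cfgO x y ε).leaf X (cfgO x y ε).root =
      FE (cfgO x y ε).P X (cfgO x y ε).P.E (cfgO x y ε).root := by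
  unfold outNum
  rw [leaf_root hN]

theorem two_cPad_le {h : ℕ} : 2 * cPad h + 30 ≤ 2 ^ (cPad h + 4) := by
  have h1 : 64 ≤ cPad h := by
    unfold cPad
    have := Nat.mul_pos (Par806.W_pos h) (Par806.Lg_pos h)
    nlinarith
  have h2 : cPad h < 2 ^ cPad h := Nat.lt_two_pow_self
  rw [pow_add]
  omega

theorem time_le {c k r L C : ℕ} (hp : PadOk (Nat.clog 2 L)) (hC : C ≤ fuc c k r 3 L) :
    2 * cPad (Nat.clog 2 L) + 40 * C + 30 ≤ fuc (40 * c + 3) (k + 1) (r + 1 + rW) 3 L := by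
  have h1 : 2 ^ (cPad (Nat.clog 2 L) + 4) ≤ og 1 0 1 3 L := hp.two_pow le_rfl le_rfl
  have h2 := two_cPad_le (h := Nat.clog 2 L)
  have h3 : og 1 0 1 3 L ≤ fuc 1 0 1 3 L := by
    rw [fuc_eq]
    exact Nat.le_mul_of_pos_left _ (Nat.succ_pos _)
  have h4 : 40 * fuc c k r 3 L = fuc (40 * c) k r 3 L := by
    unfold fuc
    ring
  have h5 := PgG8155.fuc_add (40 * c) k r 1 0 1 3 L
  have h6 : fuc (40 * c + 1) (k + 0) (r + 1) 3 L ≤ fuc (40 * c + 3) (k + 1) (r + 1 + rW) 3 L :=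
    PgG8155.fuc_mono (by omega) (by omega) (by omega) 3 L
  omega

/-- **[PROG] from the root claim** -/
theorem prog_of_root {c k r cS kS rS : ℕ} (hcS : 4 ≤ cS) (hkS : 1 ≤ kS) (hrS : 1 ≤ rS) (G : Prg)
    (hT : G.aT = 15) (hX : G.X3 = x3)
    (H : Ev fun x y ε => ∀ τ, (cfgO x y ε).Good ((cfgO x y ε).X τ) →
      RootClaim G c k r cS kS rS x y ε τ) : ProgStm := by
  refine ⟨3, 40 * c + 3, k + 1, r + 1 + rW, cS, kS, rS, fR, [G.proc], mainM, by norm_num, hcS, hkS,
    PgW155.ptf_fW rW, ?_, ?_⟩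
  · refine Ev.of (PgW155.ev_Pw rW) fun x y ε hN hw => ?_
    exact PgW155.words_of' hN hw (cfgO x y ε) (fun _ => rfl) rfl rfl (by omega) (by omega)
      (by omega)
  · have hP : ∀ᶠ h : ℕ in atTop, MainOk h ∧ PgW155.Pw rW h ∧
        ∀ L : ℕ, Nat.clog 2 L = h → og cS kS rS 3 L ≤ L :=
      ev_MainOk.and ((PgW155.ev_Pw rW).and (PgG8155.og_le cS kS rS))
    refine (H.and (Ev.of hP fun x y ε hN h => (⟨hN, h⟩ : Num x y ε ∧ _))).mono ?_
    rintro x y ε - ⟨h1, hN, h2, h3, h4⟩ τ hτ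
    have hw := PgW155.words_of hN h3 (cfgO x y ε) (fun _ => rfl) rfl rfl
    have hL := inp_length x y ε
    have hR : tapeD fR x y ε ≤ ((inp x y ε).length + 2) ^ 2 := by
      refine le_trans hw.2.1 (Nat.pow_le_pow_left ?_ 2)
      omega
    rw [outNum_root hN]
    refine runPL_main (by omega) hrS hT hX h2 (h4 _ rfl) hR fun pe hpe hSe => ?_
    obtain ⟨n, C, g1, g2, g3, g4⟩ := h1 τ hτ pe hpe hSe
    refine ⟨n, C, _, g1, ?_, ?_, g2, time_le h2.pad g3, g4⟩
    · exact Nat.zero_le _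
    · rfl

end Crest.Agent.R288.ProgTop901
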