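import Crest.Agent.R288.HypC_692
import Crest.Agent.R288.HypA_275
import Crest.Agent.R288.LipO_364
import Crest.Agent.R288.ProgTop_901

/-!
# R288, P10 (helper692): closure, classes, words and counts at the configuration of an input

* `domC_cxOf`, **`clo_cxOf`** : `Clo` for 275's `cxOf C la lf lg τ`;
* `ev_top`, `B_ge` : numeric lines; **`clo_cfgO : Ev ..`** : `Clo` at `cfgO x y ε` for `b = 2 ^ cPad h`
  (the length of the pad of `konO`), `M = pe.B`, every `Z ≥ 2 ZP`.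
-/

set_option autoImplicit false

open Filter

namespace Crest.Agent.R288.PgZ692

open Crest.Agent.R288.Alg45 Crest.Agent.R288.Dom20 Crest.Agent.R288.Asm331 Crest.Agent.R288.Asm12
open Crest.Agent.R288.HypA275 (cxOf top)
open Crest.Agent.R288.AnaLip364 (LipOk)
open Crest.Agent.R288.Par806 Crest.Agent.R288.ParO331 Crest.Agent.R288.Asy720
open Crest.Agent.R288.PadK901 (cPad konO)
open Crest.Agent.R288.Top791 (inp)
open Crest.Agent.R288.Pl726 (PIn PEnv)


section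

variable {C : Cfg} {la : St → List ℕ} {lf : ℕ → St → Option ℕ} {lg : St → ℕ} {τ : ℕ → ℕ}

theorem domC_cxOf : DomC (cxOf C la lf lg τ) C.I C.K0 where
  S := fun _ => Iff.rfl
  P := fun _ _ => mem_OmP (AnaLip364.N_pos C.P)
  A := fun _ => Iff.rfl
  B := fun _ => Iff.rfl

/-- **closure at a configuration** -/
theorem clo_cxOf {x y : List ℕ} {g p L : ℕ} {ζ : ℝ} (h : C.Good (C.X τ))
    (hO : LipOk C x y g p L ζ) {Lx b M Z : ℕ} (hF : Fit C.P C.I Lx C.K0 M)
    (hlK : C.P.E * C.P.K ≤ Lx) (hlE : C.P.E ≤ Lx) (hK : 0 < C.P.K) (hr : 1 ≤ C.P.r)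
    (hG : GrdOK C.P C.K0) (hb : top C ≤ b) (hZ : 2 * ZP C.P ≤ Z) :
    Clo (cxOf C la lf lg τ) b M Z :=
  clo_of (I := C.I) (Lx := Lx) (K0 := C.K0)
    { dom := domC_cxOf
      fit := hF
      lxK := hlK
      lxE := hlE
      Kpos := hK
      r := hr
      grd := hG _ (Nat.sub_le _ _)
      cls := fun e _ _ hy => AnaLip364.cls_le h hO e hy
      b := hb
      Z := hZ }

end

/-- the classes of all cells are below the length of the pad -/
theorem ev_top : ∀ᶠ h : ℕ in atTop,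
    K0O h + II h * ((parOf h).a2 + (parOf h).du) + (parOf h).a2 ≤ 2 ^ cPad h := by
  filter_upwards [ev_poly_le 40 1 1 0, ev_poly_le 64 2 0 1, eventually_ge_atTop 1000]
    with h h1 h2 h1000
  simp only [pow_zero, pow_one, mul_one] at h1 h2
  have hW := W_pos h
  have hL := Lg_pos h
  have hHH' := HH_le h
  have hnn : 64 * nn h ≤ h := by
    have : 64 * W h ^ 2 * Mg h = 64 * nn h := by unfold nn; ring
    omega
  have e40 : 40 * W h * Lg h = 40 * (W h * Lg h) := by ring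
  have h3 := II_le h
  have c1 : Lg h ≤ W h * Lg h := Nat.le_mul_of_pos_left _ hW
  have h4 : K0O h + II h * (8 + 8) + 8 ≤ 64 * h := by
    unfold K0O gI
    omega
  have h5 := lt_two_pow_Lg h
  have h6 : 2 ^ (Lg h) * 64 ≤ 2 ^ cPad h := by
    have e : 2 ^ Lg h * 64 = 2 ^ (Lg h + 6) := by rw [pow_add]; rfl
    rw [e]
    refine two_le ?_
    have e64 : cPad h = 64 * (W h * Lg h) := by unfold cPad; ring
    omega
  simp only [parOf_a2, parOf_du]
  omega

/-- the words are large -/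
theorem B_ge {x y : List ℕ} {ε : ℚ} {pe : PEnv} (hp : PIn x y ε pe)
    (h0 : HH (hh x y ε) + 2 ≤ 3 * (hh x y ε - 1)) : 2 ^ (HH (hh x y ε) + 2) ≤ pe.B := by
  refine le_trans ?_ hp.B
  have h2 : 0 < hh x y ε := by omega
  have h3 : 2 ^ (hh x y ε - 1) < (inp x y ε).length := by
    have := Nat.lt_pow_succ_log_self (b := 2) (by norm_num) (inp x y ε).length
    by_contra hc
    have h4 : hh x y ε ≤ hh x y ε - 1 := (Nat.clog_le_iff_le_pow (by norm_num)).2 (by omega)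
    omega
  calc 2 ^ (HH (hh x y ε) + 2) ≤ 2 ^ (3 * (hh x y ε - 1)) := two_le h0
    _ = (2 ^ (hh x y ε - 1)) ^ 3 := by rw [← pow_mul, Nat.mul_comm]
    _ ≤ ((inp x y ε).length + 2) ^ 3 := Nat.pow_le_pow_left (by omega) 3

/-- **closure, classes, words and counts at the configuration of an input** -/
theorem clo_cfgO : Ev fun x y ε => ∀ τ, (cfgO x y ε).Good ((cfgO x y ε).X τ) →
    ∀ (la : St → List ℕ) (lf : ℕ → St → Option ℕ) (lg : St → ℕ) (pe : PEnv), PIn x y ε pe →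
    ∀ b Z, 2 ^ cPad (hh x y ε) ≤ b → 2 * ZP (parOf (hh x y ε)) ≤ Z →
    Clo (cxOf (cfgO x y ε) la lf lg τ) b pe.B Z := by
  have hP : ∀ᶠ h : ℕ in atTop, ((∀ M : ℕ, 2 ^ (HH h + 2) ≤ M →
      Fit (parOf h) (II h) (EE h * KK h + EE h + 1) (K0O h) M) ∧ HH h + 2 ≤ 3 * (h - 1) ∧
      ParN h ∧ 0 < KK h ∧ GrdOK (parOf h) (K0O h) ∧
      K0O h + II h * ((parOf h).a2 + (parOf h).du) + (parOf h).a2 ≤ 2 ^ cPad h) := by
    filter_upwards [ev_fit, ev_HH, ev_ParN, ev_KK_pos, ev_grdOK, ev_top] with h a1 a2 a3 a4 a5 a6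
    exact ⟨a1, a2, a3, a4, a5, a6⟩
  refine Ev.of hP fun x y ε hN h τ hG la lf lg pe hp b Z hb hZ => ?_
  obtain ⟨a1, a2, a3, a4, a5, a6⟩ := h
  refine clo_cxOf hG (LipO364.lipOk hN a3 a4) (a1 _ (B_ge hp a2)) ?_ ?_ a4 ?_ a5
    (le_trans a6 hb) hZ
  · show EE (hh x y ε) * KK (hh x y ε) ≤ _
    omega
  · show EE (hh x y ε) ≤ _
    omega
  · show 1 ≤ 40
    norm_num

end Crest.Agent.R288.PgZ692
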