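import Crest.Agent.R288.Bnd_275
import Crest.Agent.R288.AnaLip_364
import Crest.Agent.R288.DomB_20

/-!
# R288, [PROG] P5a: `Bnd275.Hyp` and the value bounds on a good history (helper275)

`C : Asm331.Cfg`, `C.Good X`, `LipOk C x y g p L ζ` (AnaLip_364).

* `okB C i j` : the blocks of the tree, `okB_sub`, `inD_dom`;
* **`hyp_good`** : `Hyp C.P C.leaf (FE C.P X e) (okB C)` for every `e ≤ E` with `gst ≤ FE e`;
* `U_lt'` : index 0 at EVERY pair of the domain is `< 2 ^ (K0 + 1 - a2)`; `FE_lt`;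
* `bA_mono`, `VX C cr` : `2 ^ (K0 + 5 + (n + du + a2 + cr) * I)`;
* **`tape_bd`** : all outcomes of `tapeRT` at a pair of the domain are `< VX` (indices `1 ≤ l ≤ E K`);
* **`X_lt`** : on a good tape all numbers `C.X τ l s`, `l ≤ E K`, `s ∈ OmP`, are `< VX`;
* `arr_bd`, `body_bd'` : the tables of all nodes, all outcomes: entries `< VX`.
-/

set_option autoImplicit false

namespace Crest.Agent.R288.HypG275

open Crest.Agent.R295.Rnd627
open Crest.Agent.R288.Alg45 Crest.Agent.R288.Dom20 Crest.Agent.R288.Asm331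
open Crest.Agent.R288.Bnd275 (Hyp bA bB AT BT)
open Crest.Agent.R288.AnaLip364 (LipOk B1)
open Crest.Agent.R288.Tape829 (lo lo_lt)

variable {C : Cfg} {X : ℕ → ℕ × St → ℕ}

/-- the blocks of the tree -/
def okB (C : Cfg) (i j : ℕ) : Prop := i ≤ C.I ∧ j < C.P.N ^ (C.I - i)

theorem okB_sub {i j q : ℕ} (h : okB C (i + 1) j) (hq : q < C.P.N) : okB C i (C.P.N * j + q) := by
  obtain ⟨h1, h2⟩ := h
  refine ⟨by omega, ?_⟩
  have e : C.I - i = (C.I - (i + 1)) + 1 := by omega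
  rw [e, pow_succ, Nat.mul_comm _ C.P.N]
  calc C.P.N * j + q < C.P.N * j + C.P.N := by omega
    _ = C.P.N * (j + 1) := by ring
    _ ≤ C.P.N * C.P.N ^ (C.I - (i + 1)) := Nat.mul_le_mul_left _ h2

theorem okB_of_InD {s : St} (h : InD C.P.N C.I C.P.Dm s) : okB C s.i s.j := ⟨h.1, h.2.1⟩

theorem inD_dom {s : St} (h1 : okB C s.i s.j) (h2 : inD C.P s) : InD C.P.N C.I C.P.Dm s :=
  (dom_iff C.P).2 ⟨h1.1, h1.2, h2⟩

/-! ### index 0 and the unit functions -/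

/-- index 0 at every pair of the domain -/
theorem U_lt' (h : C.Good X) {x y : List ℕ} {g p L : ℕ} {ζ : ℝ} (hO : LipOk C x y g p L ζ)
    {s : ℕ × St} (hs : s ∈ OmP C.P.N C.I C.P.Dm C.K0) : X 0 s < 2 ^ (C.K0 + 1 - C.P.a2) := by
  have hD : InD C.P.N C.I C.P.Dm s.2 := ((mem_OmP (AnaLip364.N_pos C.P)).1 hs).2
  refine lt_of_le_of_lt ?_ hO.top
  obtain ⟨h3, h4⟩ := AnaLip364.inD_of hD
  refine (AnaLip364.GdI_le (hO.GU _ _ (C.good_init h hs)) hO.p4 hO.x_le h3 h4).trans ?_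
  have h2 : 2 ^ (C.P.n * s.2.i + 1) ≤ 2 ^ (C.P.n * C.I + 1) :=
    Nat.pow_le_pow_right (by norm_num) (Nat.succ_le_succ (Nat.mul_le_mul_left _ hD.1))
  omega

theorem FE_lt (h : C.Good X) {x y : List ℕ} {g p L : ℕ} {ζ : ℝ} (hO : LipOk C x y g p L ζ)
    (e : ℕ) {s : St} (hs : InD C.P.N C.I C.P.Dm s) : FE C.P X e s < 2 ^ (C.K0 + 1 - C.P.a2) :=
  lt_of_le_of_lt (AnaLip364.FE_le_U C.P X e s) (AnaLip364.U_lt h hO hs)

/-! ### the hypotheses of Bnd_275 -/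

/-- **`Hyp` at an epoch of a good history** -/
theorem hyp_good (h : C.Good X) {x y : List ℕ} {g p L : ℕ} {ζ : ℝ} (hO : LipOk C x y g p L ζ)
    (hr : 0 < C.P.r) (hgJ : 0 < C.P.gJ) (hmJ : 0 < C.P.mJ) (hpb : 2 ≤ C.P.pb)
    (hg : GrdOK C.P C.K0)
    (hleaf : ∀ s c, InD C.P.N C.I C.P.Dm s → C.leaf s = some c → c ≤ GSt442.gst x y C.P.n s + 1)
    {e : ℕ} (he : e ≤ C.P.E)
    (hS : ∀ s, InD C.P.N C.I C.P.Dm s → GSt442.gst x y C.P.n s ≤ FE C.P X e s) :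
    Hyp C.P C.leaf (FE C.P X e) (okB C) := by
  refine Hyp.of hr hgJ hmJ hpb (fun i j q h1 h2 => okB_sub h1 h2) ?_ ?_ ?_ ?_
  · intro s c h1 h2 hc
    have hD := inD_dom h1 h2
    exact (hleaf s c hD hc).trans (Nat.succ_le_succ (hS s hD))
  · intro s h1 h2
    have hD := inD_dom h1 h2
    have h3 := AnaLip364.cls_le h hO e hD
    exact_mod_cast hg _ (by omega : cls (FE C.P X e) s ≤ C.K0)
  · intro s h1 h2
    have hD := inD_dom h1 h2
    exact ((GSt442.exact_gst x y C.P.n hO.x_le hO.y_le).ge s).trans (hS s hD)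
  · intro s z h1 h2 h3 h4 h5
    have hD := inD_dom h1 h2
    have hz : InD C.P.N C.I C.P.Dm z := inD_dom (by rw [h4, h5]; exact h1) h3
    have h6 := AnaLip364.lip' h hO he hz hD h4 h5
    have h7 : (FE C.P X e z : ℝ) ≤ 2 * (FE C.P X e s + Alg45.dist z s) := by
      refine h6.trans ?_
      have h8 : (0 : ℝ) ≤ FE C.P X e s + Alg45.dist z s := by positivity
      nlinarith [hO.z1]
    have h9 : FE C.P X e z ≤ 2 * (FE C.P X e s + Alg45.dist z s) := by exact_mod_cast h7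
    rw [HullLipA364.dist_comm s z]
    omega

/-! ### the bound -/

theorem bA_succ_ge (P : Par) (i : ℕ) : bA P i ≤ bA P (i + 1) := by
  rw [bA]
  have h1 : bA P i ≤ bB P (bA P i) := by
    unfold bB
    have hN : 1 ≤ P.N := Nat.one_le_two_pow
    have hd : 1 ≤ 2 ^ P.du := Nat.one_le_two_pow
    calc bA P i ≤ 1 * (1 * (bA P i + 2)) := by omega
      _ ≤ P.N * (2 ^ P.du * (bA P i + 2)) := Nat.mul_le_mul hN (Nat.mul_le_mul_right _ hd)
      _ ≤ P.N * (4 * P.Creg + 2 ^ P.du * (bA P i + 2)) :=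
          Nat.mul_le_mul_left _ (Nat.le_add_left _ _)
      _ ≤ _ := Nat.le_add_right _ _
  have h2 : 1 ≤ 2 ^ P.a2 := Nat.one_le_two_pow
  calc bA P i ≤ 1 * bB P (bA P i) := by omega
    _ ≤ 2 ^ P.a2 * bB P (bA P i) := Nat.mul_le_mul_right _ h2
    _ ≤ _ := Nat.le_add_left _ _

theorem bA_mono (P : Par) {i i' : ℕ} (h : i ≤ i') : bA P i ≤ bA P i' := by
  induction i', h using Nat.le_induction with
  | base => exact le_rfl
  | succ n _ ih => exact ih.trans (bA_succ_ge P n)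

/-- the bound of all values -/
def VX (C : Cfg) (cr : ℕ) : ℕ :=
  2 ^ (C.K0 + 5 + (C.P.n + C.P.du + C.P.a2 + cr) * C.I)

theorem le_VX {cr : ℕ} (hcr : C.P.Creg + 3 ≤ 2 ^ cr) {κ i : ℕ} (hκ : κ ≤ C.K0) (hi : i ≤ C.I) :
    2 ^ κ * (bA C.P i + 2) < VX C cr := by
  have h1 : bA C.P i + 2 ≤ 2 ^ (4 + (C.P.n + C.P.du + C.P.a2 + cr) * C.I) :=
    (Nat.add_le_add_right (bA_mono C.P hi) 2).trans (Bnd275.bA_le_two_pow hcr C.I)
  calc 2 ^ κ * (bA C.P i + 2)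
      ≤ 2 ^ C.K0 * 2 ^ (4 + (C.P.n + C.P.du + C.P.a2 + cr) * C.I) :=
        Nat.mul_le_mul (Nat.pow_le_pow_right (by norm_num) hκ) h1
    _ = 2 ^ (C.K0 + (4 + (C.P.n + C.P.du + C.P.a2 + cr) * C.I)) := (pow_add _ _ _).symm
    _ < VX C cr := Nat.pow_lt_pow_right (by norm_num) (by omega)

theorem pow_lt_VX {cr e : ℕ} (he : e ≤ C.K0 + 1) : 2 ^ e < VX C cr :=
  Nat.pow_lt_pow_right (by norm_num) (by omega)

/-! ### all outcomes of an index -/

/-- what is used of a good history at the epoch of an index -/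
theorem tape_bd (h : C.Good X) {x y : List ℕ} {g p L : ℕ} {ζ : ℝ} (hO : LipOk C x y g p L ζ)
    {cr : ℕ} (hcr : C.P.Creg + 3 ≤ 2 ^ cr) {l : ℕ} (hl : l ≠ 0)
    (H : Hyp C.P C.leaf (FE C.P X ((l - 1) / C.P.K)) (okB C)) {M : ℕ} {s : ℕ × St}
    (hs : s ∈ OmP C.P.N C.I C.P.Dm C.K0) :
    (tapeRT C.P C.leaf C.U l (lo l X) s).All M fun a => a < VX C cr := by
  obtain ⟨κ, z⟩ := s
  obtain ⟨hκ, hD⟩ := (mem_OmP (AnaLip364.N_pos C.P)).1 hs
  simp only at hκ hD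
  have hFE : FE C.P (lo l X) ((l - 1) / C.P.K) = FE C.P X ((l - 1) / C.P.K) := by
    refine FE_lo ?_
    have := Nat.div_mul_le_self (l - 1) C.P.K
    omega
  have H' : Hyp C.P C.leaf (FE C.P (lo l X) ((l - 1) / C.P.K)) (okB C) := by rw [hFE]; exact H
  refine (Bnd275.tapeRT_bd (M := M) (U := C.U) (κ := κ) hl H' (okB_of_InD hD)
    ((dom_iff C.P).1 hD).2.2).mono fun a ha => lt_of_le_of_lt ha (max_lt ?_ ?_)
  · rw [hFE]
    exact (FE_lt h hO _ hD).trans (pow_lt_VX (by omega))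
  · exact le_VX hcr hκ hD.1

/-- the epoch of an index of the algorithm -/
theorem epo_lt {P : Par} {l : ℕ} (hl : l ≠ 0) (h : l ≤ P.E * P.K) : (l - 1) / P.K < P.E := by
  have hK : 0 < P.K := by
    rcases Nat.eq_zero_or_pos P.K with h0 | h0
    · rw [h0, Nat.mul_zero] at h; omega
    · exact h0
  rw [Nat.div_lt_iff_lt_mul hK]
  omega

/-- **all numbers of a good tape** -/
theorem X_lt {τ : ℕ → ℕ} (h : C.Good (C.X τ)) {x y : List ℕ} {g p L : ℕ} {ζ : ℝ}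
    (hO : LipOk C x y g p L ζ) {cr : ℕ} (hcr : C.P.Creg + 3 ≤ 2 ^ cr)
    (H : ∀ e < C.P.E, Hyp C.P C.leaf (FE C.P (C.X τ) e) (okB C)) {l : ℕ}
    (hl : l ≤ C.P.E * C.P.K) {s : ℕ × St} (hs : s ∈ OmP C.P.N C.I C.P.Dm C.K0) :
    C.X τ l s < VX C cr := by
  rcases Nat.eq_zero_or_pos l with h0 | h0
  · subst h0
    exact (U_lt' h hO hs).trans (pow_lt_VX (by omega))
  · rw [C.X_succ τ hs]
    exact (tape_bd h hO hcr h0.ne' (H _ (epo_lt h0.ne' hl)) hs).val (Nat.two_pow_pos _) _ _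

/-- outside of the domain the numbers are `0` -/
theorem X_lt' {τ : ℕ → ℕ} (h : C.Good (C.X τ)) {x y : List ℕ} {g p L : ℕ} {ζ : ℝ}
    (hO : LipOk C x y g p L ζ) {cr : ℕ} (hcr : C.P.Creg + 3 ≤ 2 ^ cr)
    (H : ∀ e < C.P.E, Hyp C.P C.leaf (FE C.P (C.X τ) e) (okB C)) {l : ℕ}
    (hl : l ≤ C.P.E * C.P.K) (s : ℕ × St) : C.X τ l s < VX C cr := by
  by_cases hs : s ∈ OmP C.P.N C.I C.P.Dm C.K0
  · exact X_lt h hO hcr H hl hs
  · rw [C.X_out τ hs]
    exact Nat.two_pow_pos _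

/-- the unit functions on the domain -/
theorem FE_lt' (h : C.Good X) {x y : List ℕ} {g p L : ℕ} {ζ : ℝ} (hO : LipOk C x y g p L ζ)
    {cr : ℕ} (e : ℕ) {s : St} (hs : InD C.P.N C.I C.P.Dm s) : FE C.P X e s < VX C cr :=
  (FE_lt h hO e hs).trans (pow_lt_VX (by omega))

/-! ### the tables of the nodes -/

/-- an ARR table at a node of the tree: length and entries, all outcomes -/
theorem arr_bd (h : C.Good X) {x y : List ℕ} {g p L : ℕ} {ζ : ℝ} (hO : LipOk C x y g p L ζ)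
    {cr : ℕ} (hcr : C.P.Creg + 3 ≤ 2 ^ cr) {e : ℕ}
    (H : Hyp C.P C.leaf (FE C.P X e) (okB C)) {M k : ℕ} {Z : ℕ → ℕ → St → ℕ} {c : Cel}
    (hc : okB C c.i c.j) (hκ : c.κ ≤ C.K0) :
    (arrT C.P C.leaf (FE C.P X e) Z k c.i c).All M fun T =>
      T.length = csz C.P c.κ ∧ ∀ a ∈ T, a < VX C cr := by
  refine ((Bnd275.arrT_bd (M := M) (k := k) (X := Z) H c.i).2 c rfl hc).mono fun T hT => ?_
  refine ⟨hT.1, fun a ha => ?_⟩
  obtain ⟨t, ht, rfl⟩ := List.getElem_of_mem ha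
  have h1 := hT.2 t (by rw [← hT.1]; exact ht)
  rw [List.getD_eq_getElem _ _ ht] at h1
  refine lt_of_le_of_lt h1 (max_lt ?_ ?_)
  · exact FE_lt' h hO e (inD_dom (s := cst C.P c t) hc (Bnd275.inD_cst C.P c t))
  · refine lt_of_le_of_lt (Nat.mul_le_mul_left _ (Nat.le_add_right _ 2)) (le_VX hcr hκ hc.1)

end Crest.Agent.R288.HypG275
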