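import Crest.Agent.R288.Pl_726
import Crest.Agent.R288.PtX_949

/-!
# R288, the PAD (helper901)

With `P, M = 2^(C w l)` the local functions of the algorithm (ranges over the grid states of a window,
over the copies, tables) are not poly-time in the parameters alone; they are poly-time in the
parameters together with a list of that length.  So every frame of the program carries a constant
`kon = tow (par, pad)`, `par` = list of the parameters, `pad = replicate (2^m) 0`.

* `clamp x pad = min x pad.length`: unary poly-time (`ptu_clamp`) for every binary `x`, and equal to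
  `x` on real frames (`clamp_eq`); `clampPow`, `rangeP`, `tabP`: powers, ranges and tables cut at the
  pad;
* `mkKonP f c` : statement of `Pl726`, environment `v` ↦ `tow (f v, replicate (2 ^ c v) 0)` by
  doubling; big step rule `mkKonP_PEx` (`2 c v + 5` statements, no random word, no call).
-/

set_option autoImplicit false

namespace Crest.Agent.R288.Pad901

open Crest.Agent.R295 Crest.Agent.R295.HL Crest.Agent.R295.Pt949
open Crest.Agent.Lib.PT
open Crest.Agent.R288.Pl726 (PS PEnv PEx)

/-! ### unary bounds from the pad -/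

section clamp

variable {γ β : Type} [PTCode γ] [PTCode β]

/-- a number cut at the length of the pad -/
def clamp {α : Type} (x : ℕ) (pad : List α) : ℕ := min x pad.length

theorem clamp_eq {α : Type} {x : ℕ} {pad : List α} (h : x ≤ pad.length) : clamp x pad = x :=
  min_eq_left h

theorem clamp_le {α : Type} (x : ℕ) (pad : List α) : clamp x pad ≤ pad.length := min_le_right _ _

/-- the clamp is unary poly-time -/
@[fun_prop]
theorem ptu_clamp {x : γ → ℕ} {pad : γ → List β} (hx : PTF x) (hp : PTF pad) :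
    PTU (fun c => clamp (x c) (pad c)) := PTF.natMinUn hx (PTU.length hp)

/-- power of two cut at the pad -/
def clampPow {α : Type} (m : ℕ) (pad : List α) : ℕ := clamp (2 ^ clamp m pad) pad

theorem clampPow_eq {α : Type} {m : ℕ} {pad : List α} (h : 2 ^ m ≤ pad.length) :
    clampPow m pad = 2 ^ m := by
  have h1 : m ≤ pad.length := Nat.lt_two_pow_self.le.trans h
  rw [clampPow, clamp_eq h1, clamp_eq h]

/-- `min (2 ^ m) pad.length`, unary poly-time for every binary `m` -/
@[fun_prop]
theorem ptu_clampPow {m : γ → ℕ} {pad : γ → List β} (hm : PTF m) (hp : PTF pad) :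
    PTU (fun c => clampPow (m c) (pad c)) := by
  unfold clampPow
  exact ptu_clamp (PTF.natTwoPow (ptu_clamp hm hp)) hp

/-- range cut at the pad -/
def rangeP {α : Type} (n : ℕ) (pad : List α) : List ℕ := List.range (clamp n pad)

theorem rangeP_eq {α : Type} {n : ℕ} {pad : List α} (h : n ≤ pad.length) :
    rangeP n pad = List.range n := by rw [rangeP, clamp_eq h]

@[fun_prop]
theorem ptf_rangeP {n : γ → ℕ} {pad : γ → List β} (hn : PTF n) (hp : PTF pad) :
    PTF (fun c => rangeP (n c) (pad c)) := by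
  unfold rangeP
  have h := ptu_clamp hn hp
  fun_prop

/-- table cut at the pad -/
def tabP {α δ : Type} (n : ℕ) (pad : List α) (f : ℕ → δ) : List δ := (rangeP n pad).map f

theorem tabP_eq {α δ : Type} {n : ℕ} {pad : List α} (h : n ≤ pad.length) (f : ℕ → δ) :
    tabP n pad f = (List.range n).map f := by rw [tabP, rangeP_eq h]

@[fun_prop]
theorem ptf_tabP {δ : Type} [PTCode δ] {n : γ → ℕ} {pad : γ → List β} {f : γ → ℕ → δ}
    (hn : PTF n) (hp : PTF pad) (hf : PTF (fun p : γ × ℕ => f p.1 p.2)) :
    PTF (fun c => tabP (n c) (pad c) (f c)) := by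
  unfold tabP
  exact PTF.map (ptf_rangeP hn hp) hf

end clamp

/-! ### the loop that makes the pad -/

/-- rounds left, parameters, pad -/
abbrev PSt := ℕ × List ℕ × List ℕ

def pInit (f : List ℕ → List ℕ) (c : List ℕ → ℕ) (v : List ℕ) : PSt := (c v, f v, [0])
def pStep (s : PSt) : PSt := (s.1 - 1, s.2.1, s.2.2 ++ s.2.2)
def pTest (s : PSt) : Bool := decide (s.1 ≠ 0)

theorem ptf_pInit {f : List ℕ → List ℕ} {c : List ℕ → ℕ} (hf : PTF f) (hc : PTF c) :
    PTF (pInit f c) := by
  unfold pInit
  fun_prop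

theorem ptf_pStep : PTF pStep := by
  unfold pStep
  fun_prop

theorem ptf_pTest : PTF pTest := by
  unfold pTest
  exact PTPred.toPTF (p := fun s : PSt => s.1 ≠ 0) (by fun_prop)

theorem ptf_pSnd : PTF (fun s : PSt => s.2) := PTF.snd

/-- the constant part of all frames -/
def kon (f : List ℕ → List ℕ) (c : List ℕ → ℕ) (v : List ℕ) : List ℕ × List ℕ :=
  (f v, List.replicate (2 ^ c v) 0)

theorem pStep_eq {c j : ℕ} {par : List ℕ} :
    pStep ((c - j, par, List.replicate (2 ^ j) 0) : PSt) =
      ((c - (j + 1), par, List.replicate (2 ^ (j + 1)) 0) : PSt) := by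
  simp only [pStep, Prod.mk.injEq, true_and]
  refine ⟨by omega, ?_⟩
  rw [← List.replicate_add, pow_succ]
  congr 1
  ring

theorem frw_tow_self {σ : Type} [PTCode σ] [Flat σ] (s : σ) :
    (frw (tow s) : σ × List ℕ).1 = s := by
  have := Flat.frw_tow s []
  rw [List.append_nil] at this
  rw [this]

/-- typed test -/
def tstF {σ : Type} [PTCode σ] [Flat σ] (g : σ → Bool) (l : List ℕ) : Bool :=
  g (frw l : σ × List ℕ).1

theorem tstF_tow {σ : Type} [PTCode σ] [Flat σ] (g : σ → Bool) (s : σ) :
    tstF g (tow s) = g s := by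
  rw [tstF, frw_tow_self]

theorem ptf_tstF {σ : Type} [PTCode σ] [Flat σ] {g : σ → Bool} (hg : PTF g) : PTF (tstF g) := by
  have h1 := Flat.ptf_frw (α := σ)
  unfold tstF
  exact PTF.comp hg (PTF.comp (g := Prod.fst) PTF.fst h1)

/-- the loop -/
noncomputable def loopP : PS := .whl (tstF pTest) (ptf_tstF ptf_pTest)
  (.asg (flat pStep) (ptf_flat ptf_pStep))

/-- from the environment `v` to the constant `tow (f v, replicate (2 ^ c v) 0)` -/
noncomputable def mkKonP (f : List ℕ → List ℕ) (hf : PTF f) (c : List ℕ → ℕ) (hc : PTF c) : PS :=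
  .seq (.asg (fun v => tow (pInit f c v)) (PTF.comp (Flat.ptf_tow (α := PSt)) (ptf_pInit hf hc)))
    (.seq loopP (.asg (flat fun s : PSt => s.2) (ptf_flat ptf_pSnd)))

/-- number of words of a stage of the loop -/
theorem fits_stage {pe : PEnv} {c j : ℕ} {par : List ℕ} (hj : j ≤ c) (hB : ∀ x ∈ par, x < pe.B)
    (hpar : par.length < pe.B) (h2 : 2 ^ c < pe.B) (hS : par.length + 2 ^ c + 3 ≤ pe.S) :
    pe.Fits (tow ((c - j, par, List.replicate (2 ^ j) 0) : PSt)) := by
  have h3 : 2 ^ j ≤ 2 ^ c := Nat.pow_le_pow_right (by norm_num) hj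
  have h4 : c < 2 ^ c := Nat.lt_two_pow_self
  have e : tow ((c - j, par, List.replicate (2 ^ j) 0) : PSt) =
      (c - j) :: par.length :: (par ++ (2 ^ j :: List.replicate (2 ^ j) 0)) := by
    rw [tow_prod, tow_prod, tow_list, tow_list, List.length_replicate]
    rfl
  rw [e]
  refine ⟨?_, ?_⟩
  · simp only [List.length_cons, List.length_append, List.length_replicate]
    omega
  · intro x hx
    simp only [List.mem_cons, List.mem_append, List.mem_replicate] at hx
    rcases hx with rfl | rfl | hx | rfl | hx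
    · omega
    · exact hpar
    · exact hB x hx
    · omega
    · omega

theorem loopP_PEx {pe : PEnv} {pr : List PS} {c : ℕ} {par : List ℕ} (i : ℕ)
    (hB : ∀ x ∈ par, x < pe.B) (hpar : par.length < pe.B) (h2 : 2 ^ c < pe.B)
    (hS : par.length + 2 ^ c + 3 ≤ pe.S) (k : ℕ) (hk : k ≤ c) :
    ∃ t, t ≤ 2 * k + 1 ∧
      PEx pe pr loopP (tow ((k, par, List.replicate (2 ^ (c - k)) 0) : PSt)) i
        (tow ((0, par, List.replicate (2 ^ c) 0) : PSt)) i t 0 := by
  induction k with
  | zero =>
    refine ⟨1, le_rfl, ?_⟩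
    rw [Nat.sub_zero]
    exact PEx.whl_done (by rw [tstF_tow]; rfl)
  | succ k ih =>
    obtain ⟨t, ht, h⟩ := ih (by omega)
    have e : pStep ((k + 1, par, List.replicate (2 ^ (c - (k + 1))) 0) : PSt) =
        ((k, par, List.replicate (2 ^ (c - k)) 0) : PSt) := by
      have := pStep_eq (c := c) (j := c - (k + 1)) (par := par)
      rw [show c - (c - (k + 1)) = k + 1 by omega,
        show c - (c - (k + 1) + 1) = k by omega,
        show c - (k + 1) + 1 = c - k by omega] at this
      exact this
    have hst := fits_stage (pe := pe) (c := c) (j := c - k) (par := par) (by omega) hB hpar h2 hS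
    rw [show c - (c - k) = k by omega] at hst
    refine ⟨1 + t + 1, by omega, ?_⟩
    have h1 : PEx pe pr (.asg (flat pStep) (ptf_flat ptf_pStep))
        (tow ((k + 1, par, List.replicate (2 ^ (c - (k + 1))) 0) : PSt)) i
        (flat pStep (tow ((k + 1, par, List.replicate (2 ^ (c - (k + 1))) 0) : PSt))) i 1 0 :=
      PEx.asg (by rw [flat_tow, e]; exact hst)
    rw [flat_tow, e] at h1
    exact PEx.whl_step (by rw [tstF_tow]; rfl) h1 h

/-- **the pad in `Pl726`** -/
theorem mkKonP_PEx {pe : PEnv} {pr : List PS} {f : List ℕ → List ℕ} (hf : PTF f)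
    {c : List ℕ → ℕ} (hc : PTF c) {v : List ℕ} (i : ℕ)
    (hB : ∀ x ∈ f v, x < pe.B) (hpar : (f v).length < pe.B) (h2 : 2 ^ c v < pe.B)
    (hS : (f v).length + 2 ^ c v + 3 ≤ pe.S) :
    ∃ t, t ≤ 2 * c v + 5 ∧
      PEx pe pr (mkKonP f hf c hc) v i (tow (kon f c v)) i t 0 := by
  obtain ⟨t, ht, h⟩ := loopP_PEx (pr := pr) i hB hpar h2 hS (c v) le_rfl
  have h0 := fits_stage (pe := pe) (j := 0) (Nat.zero_le (c v)) hB hpar h2 hS
  have h3 := fits_stage (pe := pe) (j := c v) le_rfl hB hpar h2 hS
  refine ⟨1 + (t + 1 + 1) + 1, by omega, ?_⟩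
  rw [Nat.sub_self, pow_zero] at h
  rw [Nat.sub_zero, pow_zero] at h0
  have h1 : PEx pe pr (.asg (fun v => tow (pInit f c v))
      (PTF.comp (Flat.ptf_tow (α := PSt)) (ptf_pInit hf hc))) v i (tow (pInit f c v)) i 1 0 :=
    PEx.asg h0
  have h4 : pe.Fits (tow (kon f c v)) := by
    rw [Nat.sub_self, tow_prod] at h3
    refine ⟨?_, fun x hx => h3.2 x (List.mem_append_right _ hx)⟩
    have := h3.1
    rw [List.length_append] at this
    exact le_trans (Nat.le_add_left _ _) this
  have h2' : PEx pe pr (.asg (flat fun s : PSt => s.2) (ptf_flat ptf_pSnd))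
      (tow ((0, f v, List.replicate (2 ^ c v) 0) : PSt)) i
      (flat (fun s : PSt => s.2) (tow ((0, f v, List.replicate (2 ^ c v) 0) : PSt))) i 1 0 :=
    PEx.asg (by rw [flat_tow]; exact h4)
  rw [flat_tow] at h2'
  exact PEx.seq h1 (PEx.seq h h2')

end Crest.Agent.R288.Pad901
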