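import Crest.Agent.R288.DPt_964
import Crest.Agent.Lib.PT.ArithInt

/-!
# R288: certificates on SUBSETS of contexts (helper964)

A local function which is poly-time only on well formed frames (pads long enough, indices in range)
is certified as `fun c => if W c then g c else d c`, where `W` is a poly-time test and `g` is PTF on
the SUBTYPE `{c // W c}` (`ptf_ite_sub`, `ptf_dite_sub`). On the subtype all unary bounds are
theorems: `ptu_of_le` (a PTF number below a PTU number is PTU).

Inside lists: `ptf_map_mem`, `ptf_flatMap_mem`, `ptf_filterMap_mem`, `ptf_foldl_mem`: the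
function applied to the elements only has to be PTF on the pairs `(c, a)` with `a ∈ l c`;
`ptf_tab_mem`: `f c i` only for `i < n c`.
-/

set_option autoImplicit false

namespace Crest.Agent.R288.PtSub964

open Crest.Agent.Lib.PT
open Crest.Agent.R288.DPt964

variable {α β γ δ : Type} [PTCode α] [PTCode β] [PTCode γ] [PTCode δ]

/-! ### subtypes -/

section sub

@[fun_prop]
theorem ptf_val {W : γ → Prop} : PTF (fun a : {c // W c} => a.val) := ⟨_, PT.id, fun _ => rfl⟩

/-- restriction of a certificate to a subset -/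
theorem ptf_sub {W : γ → Prop} {g : γ → β} (hg : PTF g) : PTF (fun a : {c // W c} => g a.1) :=
  PTF.comp hg ptf_val

theorem ptu_sub {W : γ → Prop} {g : γ → ℕ} (hg : PTU g) : PTU (fun a : {c // W c} => g a.1) :=
  PTU.comp hg ptf_val

theorem ptPred_sub {W p : γ → Prop} (hp : PTPred p) : PTPred (fun a : {c // W c} => p a.1) :=
  PTPred.comp hp ptf_val

/-- a map into a subset -/
theorem ptf_mkSub {W : β → Prop} {g : γ → β} (hg : PTF g) (h : ∀ c, W (g c)) :
    PTF (fun c => (⟨g c, h c⟩ : {b // W b})) := by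
  obtain ⟨g', hg', e⟩ := hg
  exact ⟨g', hg', fun c => e c⟩

/-- **guarded certificate, dependent form** -/
theorem ptf_dite_sub {W : γ → Prop} [DecidablePred W] {g : (c : γ) → W c → β} {d : γ → β}
    (hW : PTPred W) (hg : PTF (fun a : {c // W c} => g a.1 a.2)) (hd : PTF d) :
    PTF (fun c => if h : W c then g c h else d c) := by
  obtain ⟨c', hc', hc⟩ := hW.toPTF
  obtain ⟨g', hg', hg⟩ := hg
  obtain ⟨d', hd', hd⟩ := hd
  refine ⟨_, PT.ite hc' hg' hd', fun c => ?_⟩
  simp only [hc, enc_bool]
  by_cases h : W c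
  · have e : g' (enc c) = enc (g c h) := hg ⟨c, h⟩
    simp [h, e]
  · simp [h, hd]

/-- **guarded certificate**: `g` has to be PTF on the subset `W` only -/
theorem ptf_ite_sub {W : γ → Prop} [DecidablePred W] {g d : γ → β}
    (hW : PTPred W) (hg : PTF (fun a : {c // W c} => g a.1)) (hd : PTF d) :
    PTF (fun c => if W c then g c else d c) :=
  (ptf_dite_sub (g := fun c _ => g c) hW hg hd).of_eq fun c => by
    by_cases h : W c <;> simp [h]

/-- case distinction: `f` on `W`, `g` outside `W` -/
theorem ptf_ite_sub2 {W : γ → Prop} [DecidablePred W] {f g : γ → β} {d : β}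
    (hW : PTPred W) (hf : PTF (fun a : {c // W c} => f a.1))
    (hg : PTF (fun a : {c // ¬ W c} => g a.1)) :
    PTF (fun c => if W c then f c else g c) := by
  have h1 : PTF (fun c => if ¬ W c then g c else d) :=
    ptf_ite_sub (W := fun c => ¬ W c) hW.not hg (PTF.const d)
  exact (ptf_ite_sub hW hf h1).of_eq fun c => by
    by_cases h : W c <;> simp [h]

/-- a predicate which is poly-time on a subset -/
theorem ptPred_and_sub {W p : γ → Prop} (hW : PTPred W)
    (hp : PTPred (fun a : {c // W c} => p a.1)) : PTPred (fun c => W c ∧ p c) := by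
  classical
  obtain ⟨f, hf, h⟩ := hp
  have h1 : PTF (fun c => if h : W c then f ⟨c, h⟩ else false) :=
    ptf_dite_sub (g := fun c h => f ⟨c, h⟩) hW hf (PTF.const false)
  refine ⟨_, h1, fun c => ?_⟩
  by_cases hc : W c
  · have e := h ⟨c, hc⟩
    simp only at e
    simp [hc, e]
  · simp [hc]

end sub

/-! ### unary numbers from bounds -/

section bounds

/-- a PTF number below a unary number is unary -/
theorem ptu_of_le {f b : γ → ℕ} (hf : PTF f) (hb : PTU b) (h : ∀ c, f c ≤ b c) : PTU f :=
  (PTF.natMinUn hf hb).of_eq fun c => min_eq_left (h c)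

/-- a PTF number below the length of a list of the context is unary -/
theorem ptu_of_le_length {f : γ → ℕ} {l : γ → List α} (hf : PTF f) (hl : PTF l)
    (h : ∀ c, f c ≤ (l c).length) : PTU f := ptu_of_le hf (PTU.length hl) h

/-- a PTF number below a size -/
theorem ptu_of_le_size {f g : γ → ℕ} (hf : PTF f) (hg : PTF g) (h : ∀ c, f c ≤ (g c).size) :
    PTU f := ptu_of_le hf (PTF.natSizeUn hg) h

/-- `2 ^ k` for `k` below a unary number -/
theorem ptf_two_pow_le {k b : γ → ℕ} (hk : PTF k) (hb : PTU b) (h : ∀ c, k c ≤ b c) :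
    PTF (fun c => 2 ^ k c) := PTF.natTwoPow (ptu_of_le hk hb h)

/-- a power of two below a unary number is unary (the exponent is binary) -/
theorem ptu_two_pow_le {k b : γ → ℕ} (hk : PTF k) (hb : PTU b) (h : ∀ c, 2 ^ k c ≤ b c) :
    PTU (fun c => 2 ^ k c) := by
  have h1 : ∀ c, k c ≤ b c := fun c => (Nat.lt_two_pow_self.le).trans (h c)
  exact ptu_of_le (ptf_two_pow_le hk hb h1) hb h

/-- products of bounded numbers -/
theorem ptu_mul_le {f g b : γ → ℕ} (hf : PTF f) (hg : PTF g) (hb : PTU b)
    (h : ∀ c, f c * g c ≤ b c) : PTU (fun c => f c * g c) := ptu_of_le (PTF.natMul hf hg) hb h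

end bounds

/-! ### lists: elements in the list -/

section lists

/-- the pairs `(c, a)` with `a ∈ l c` -/
abbrev MemCtx (l : γ → List α) : Type := {q : γ × α // q.2 ∈ l q.1}

theorem ptf_memCtx_fst {l : γ → List α} : PTF (fun a : MemCtx l => a.1.1) :=
  PTF.comp PTF.fst ptf_val
theorem ptf_memCtx_snd {l : γ → List α} : PTF (fun a : MemCtx l => a.1.2) :=
  PTF.comp PTF.snd ptf_val

theorem ptPred_memCtx {l : γ → List α} (hl : PTF l) :
    PTPred (fun q : γ × α => q.2 ∈ l q.1) :=
  PTPred.mem PTF.snd (PTF.comp hl PTF.fst)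

theorem ptf_filterMap_mem {l : γ → List α} {f : γ → α → Option β} (hl : PTF l)
    (hf : PTF (fun a : MemCtx l => f a.1.1 a.1.2)) : PTF (fun c => (l c).filterMap (f c)) := by
  classical
  have h : PTF (fun q : γ × α => if q.2 ∈ l q.1 then f q.1 q.2 else none) :=
    ptf_ite_sub (g := fun q : γ × α => f q.1 q.2) (ptPred_memCtx hl) hf (PTF.const none)
  refine PTF.of_eq (PTF.filterMap (f := fun c a => if a ∈ l c then f c a else none) hl h)
    fun c => ?_
  refine List.filterMap_congr fun a ha => ?_
  rw [if_pos ha]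

theorem ptf_map_mem {l : γ → List α} {f : γ → α → β} (hl : PTF l)
    (hf : PTF (fun a : MemCtx l => f a.1.1 a.1.2)) : PTF (fun c => (l c).map (f c)) := by
  refine PTF.of_eq (ptf_filterMap_mem (f := fun c a => some (f c a)) hl (PTF.optSome hf))
    fun c => ?_
  rw [List.filterMap_eq_map']

theorem ptf_flatMap_mem {l : γ → List α} {f : γ → α → List β} (hl : PTF l)
    (hf : PTF (fun a : MemCtx l => f a.1.1 a.1.2)) : PTF (fun c => (l c).flatMap (f c)) :=
  PTF.of_eq (PTF.flatten (ptf_map_mem hl hf)) fun c => by rw [List.flatMap]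

theorem ptf_filter_mem {l : γ → List α} {p : γ → α → Bool} (hl : PTF l)
    (hp : PTF (fun a : MemCtx l => p a.1.1 a.1.2)) : PTF (fun c => (l c).filter (p c)) := by
  have h := ptf_filterMap_mem (f := fun c a => bif p c a then some a else none) hl
    (PTF.cond hp (PTF.optSome ptf_memCtx_snd) (PTF.const none))
  refine PTF.of_eq h fun c => ?_
  rw [← List.filterMap_eq_filter]
  congr 1
  funext a
  cases h : p c a <;> simp [Option.guard, h]

/-- fold with an additive size bound, the step only on members of the list -/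
theorem ptf_foldl_mem {l : γ → List α} {f : γ → β → α → β} {b : γ → β} (hl : PTF l)
    (hf : PTF (fun a : {q : γ × β × α // q.2.2 ∈ l q.1} => f a.1.1 a.1.2.1 a.1.2.2)) (hb : PTF b)
    {B : γ → ℕ} (hB : PB B)
    (hbd : ∀ c, ∀ i ≤ (l c).length, sz (((l c).take i).foldl (f c) (b c)) ≤ B c) :
    PTF (fun c => (l c).foldl (f c) (b c)) := by
  classical
  have hm : PTPred (fun q : γ × β × α => q.2.2 ∈ l q.1) :=
    PTPred.mem (by fun_prop) (PTF.comp hl PTF.fst)
  have h : PTF (fun q : γ × β × α => if q.2.2 ∈ l q.1 then f q.1 q.2.1 q.2.2 else q.2.1) :=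
    ptf_ite_sub (g := fun q : γ × β × α => f q.1 q.2.1 q.2.2) hm hf (by fun_prop)
  have e : ∀ (c : γ) (l' : List α), (∀ a ∈ l', a ∈ l c) → ∀ b' : β,
      l'.foldl (fun b a => if a ∈ l c then f c b a else b) b' = l'.foldl (f c) b' := by
    intro c l'
    induction l' with
    | nil => intro _ b'; rfl
    | cons a l' ih =>
      intro h b'
      rw [List.foldl_cons, List.foldl_cons, if_pos (h a (by simp)), ih fun x hx => h x (by simp [hx])]
  refine PTF.of_eq (PTF.foldl (f := fun c b a => if a ∈ l c then f c b a else b) hl h hb hB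
    fun c i hi => ?_) fun c => e c (l c) (fun _ h => h) _
  rw [e c _ (fun a ha => List.mem_of_mem_take ha)]
  exact hbd c i hi

/-- tables: the entry only has to be PTF for indices in range -/
theorem ptf_tab_mem {n : γ → ℕ} {f : γ → ℕ → α} (hn : PTU n)
    (hf : PTF (fun a : {q : γ × ℕ // q.2 < n q.1} => f a.1.1 a.1.2)) :
    PTF (fun c => tab (n c) (f c)) := by
  refine ptf_map_mem (l := fun c => List.range (n c)) (f := f) (PTF.range hn) ?_
  have h : PTF (fun a : MemCtx (fun c : γ => List.range (n c)) =>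
      (⟨a.1, List.mem_range.1 a.2⟩ : {q : γ × ℕ // q.2 < n q.1})) :=
    ptf_mkSub (W := fun q : γ × ℕ => q.2 < n q.1)
      (g := fun a : MemCtx (fun c : γ => List.range (n c)) => a.1) ptf_val
      fun a => List.mem_range.1 a.2
  exact PTF.comp hf h

/-- sums over a range, entries only in range -/
theorem ptf_sumR_mem {n : γ → ℕ} {f : γ → ℕ → ℕ} (hn : PTU n)
    (hf : PTF (fun a : {q : γ × ℕ // q.2 < n q.1} => f a.1.1 a.1.2)) :
    PTF (fun c => ((List.range (n c)).map (f c)).sum) :=
  PTF.natListSum (ptf_tab_mem hn hf)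

end lists

end Crest.Agent.R288.PtSub964
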