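import Crest.Agent.R288.PgG8c_155
import Crest.Agent.R288.Cnt_308
import Crest.Agent.R288.InitH_772
import Crest.Agent.R288.ParP_901

/-!
# R288, [WORDS] part A (helper155): number of tape words of one index

* `eW r h = h + r h / il 3 h`, `nW r h = 2 ^ eW r h` : words reserved for one index
* `Szs C h P`     : the sizes of the parameters that count for the words
* `level_le`      : `nA (nD + nB) ≤ 2 ^ (nn h + (7C+3) Mg h)`
* `lane_le`       : words of a number of a rank `≥ 0`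
* `init_le`       : words of a number of index `0`
* `exists_nW`     : one `r` for both, eventually
* `fW r v = (EE h * KK h + 1) * nW r h` (`h = hE v`) : all words; `ptf_fW`, `fW_le_fuc`, `fW_le_sq`
-/

set_option autoImplicit false

namespace Crest.Agent.R288.PgW155

open Filter Crest.Agent.R288.Asy720 Crest.Agent.R288.Pl726 Crest.Agent.R288.Shell12
open Crest.Agent.R288.Front327 Crest.Agent.R288.Par806 Crest.Agent.R288.PgG8155
open Crest.Agent.R288.Cnt308 Crest.Agent.R288.Alg45 Crest.Agent.R295.Rnd627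
open Crest.Agent.R288.InitN775

/-- exponent of the number of words of one index -/
def eW (r h : ℕ) : ℕ := h + r * h / il 3 h

/-- number of words reserved for one index -/
def nW (r h : ℕ) : ℕ := 2 ^ eW r h

/-- the sizes of the parameters -/
structure Szs (C h : ℕ) (P : Alg45.Par) : Prop where
  n : P.n = nn h
  w1 : P.dl + P.du + 1 ≤ 2 ^ (C * Mg h)
  w2 : 2 * P.r + 4 ≤ 2 ^ (C * Mg h)
  w3 : P.c0 + P.du ≤ C * Mg h
  w4 : P.a1 + P.a2 + 1 ≤ 2 ^ (C * Mg h)
  w5 : P.a1 ≤ C * Mg h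
  w6 : P.gJ * P.mJ + 1 ≤ 2 ^ (C * Mg h)
  w7 : P.gX * P.mX ≤ 2 ^ (C * (W h * Lg h))

section

variable {C h : ℕ} {P : Alg45.Par}

theorem two_pow_add_le {a b : ℕ} : 2 ^ a + 2 ^ b ≤ 2 ^ (max a b + 1) := by
  have h1 : 2 ^ a ≤ 2 ^ max a b := Nat.pow_le_pow_right (by norm_num) (le_max_left _ _)
  have h2 : 2 ^ b ≤ 2 ^ max a b := Nat.pow_le_pow_right (by norm_num) (le_max_right _ _)
  rw [pow_succ]
  omega

/-- factor of one macro level of a lane -/
theorem level_le (H : Szs C h P) : nA P * (nD P + nB P) ≤ 2 ^ (nn h + (7 * C + 3) * Mg h) := by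
  set x := C * Mg h with hx
  have hN : P.N = 2 ^ nn h := by unfold Alg45.Par.N; rw [H.n]
  have hD : nD P ≤ 2 ^ (nn h + x) := by
    unfold nD
    rw [hN, pow_add]
    exact Nat.mul_le_mul_left _ H.w1
  have hB : nB P ≤ 2 ^ (nn h + 3 * x) := by
    unfold nB
    rw [hN]
    calc 2 ^ nn h * ((P.dl + P.du + 1) * ((2 * P.r + 4) * 2 ^ (P.c0 + P.du)))
        ≤ 2 ^ nn h * (2 ^ x * (2 ^ x * 2 ^ x)) := by
          refine Nat.mul_le_mul_left _ (Nat.mul_le_mul H.w1 (Nat.mul_le_mul H.w2 ?_))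
          exact Nat.pow_le_pow_right (by norm_num) H.w3
      _ = 2 ^ (nn h + 3 * x) := by rw [← pow_add, ← pow_add, ← pow_add]; congr 1; ring
  have hDB : nD P + nB P ≤ 2 ^ (nn h + 3 * x + 1) := by
    have h1 : 2 ^ (nn h + x) ≤ 2 ^ (nn h + 3 * x) := Nat.pow_le_pow_right (by norm_num) (by omega)
    rw [pow_succ]
    omega
  have hJ : nJ P ≤ 2 ^ (3 * x + 2) := by
    unfold nJ
    have h1 : (2 * P.r + 1) * 2 ^ P.a1 + 2 ≤ 2 ^ (2 * x + 2) := by
      have h2 : (2 * P.r + 1) * 2 ^ P.a1 ≤ 2 ^ (2 * x) := by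
        calc (2 * P.r + 1) * 2 ^ P.a1 ≤ 2 ^ x * 2 ^ x :=
              Nat.mul_le_mul (by have := H.w2; rw [← hx] at this; omega) (Nat.pow_le_pow_right (by norm_num) H.w5)
          _ = 2 ^ (2 * x) := by rw [← pow_add]; congr 1; ring
      have h3 : 1 ≤ 2 ^ (2 * x) := Nat.one_le_two_pow
      rw [pow_add]
      omega
    calc (P.a1 + P.a2 + 1) * ((2 * P.r + 1) * 2 ^ P.a1 + 2) ≤ 2 ^ x * 2 ^ (2 * x + 2) :=
          Nat.mul_le_mul H.w4 h1
      _ = 2 ^ (3 * x + 2) := by rw [← pow_add]; congr 1; ring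
  have hA : nA P ≤ 2 ^ (4 * x + 2) := by
    unfold nA
    calc nJ P * (P.gJ * P.mJ + 1) ≤ 2 ^ (3 * x + 2) * 2 ^ x := Nat.mul_le_mul hJ H.w6
      _ = 2 ^ (4 * x + 2) := by rw [← pow_add]; congr 1; ring
  have hM := Mg_pos h
  calc nA P * (nD P + nB P) ≤ 2 ^ (4 * x + 2) * 2 ^ (nn h + 3 * x + 1) := Nat.mul_le_mul hA hDB
    _ = 2 ^ (nn h + (7 * x + 3)) := by rw [← pow_add]; congr 1; ring
    _ ≤ 2 ^ (nn h + (7 * C + 3) * Mg h) := by
        refine Nat.pow_le_pow_right (by norm_num) (Nat.add_le_add_left ?_ _)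
        rw [hx]
        nlinarith

/-- words of the number of one pair, index `≥ 1` -/
theorem lane_le (H : Szs C h P) : P.gX * P.mX * wd P (II h) ≤
    2 ^ (h + ((7 * C + 3) * Mg h * (h / nn h + 1) + 1 * nn h + C * (W h * Lg h))) := by
  have h1 : wd P (II h) ≤ 2 ^ (h + ((7 * C + 3) * Mg h * (h / nn h + 1) + 1 * nn h)) :=
    (wd_le P (II h)).trans (levels_main (c := 1) (level_le H) (le_of_eq rfl))
  calc P.gX * P.mX * wd P (II h) ≤ 2 ^ (C * (W h * Lg h)) *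
        2 ^ (h + ((7 * C + 3) * Mg h * (h / nn h + 1) + 1 * nn h)) := Nat.mul_le_mul H.w7 h1
    _ = _ := by rw [← pow_add]; congr 1; ring

end

/-! ### INIT -/

theorem W_mul_Lg_le (h : ℕ) : W h * Lg h ≤ 2 ^ (2 * Lg h) := by
  have h1 : W h ≤ 2 ^ Lg h := (W_le_Lg h).trans (Nat.lt_two_pow_self).le
  have h2 : Lg h ≤ 2 ^ Lg h := (Nat.lt_two_pow_self).le
  calc W h * Lg h ≤ 2 ^ Lg h * 2 ^ Lg h := Nat.mul_le_mul h1 h2
    _ = 2 ^ (2 * Lg h) := by rw [← pow_add]; congr 1; ring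

theorem nn_le (h : ℕ) : nn h ≤ 2 ^ (3 * Lg h) := by
  have h1 : W h ≤ 2 ^ Lg h := (W_le_Lg h).trans (Nat.lt_two_pow_self).le
  have h2 : Mg h ≤ 2 ^ Lg h := (Mg_le_Lg h).trans (Nat.lt_two_pow_self).le
  calc nn h = Mg h * (W h * W h) := by unfold nn; ring
    _ ≤ 2 ^ Lg h * (2 ^ Lg h * 2 ^ Lg h) := Nat.mul_le_mul h2 (Nat.mul_le_mul h1 h1)
    _ = 2 ^ (3 * Lg h) := by rw [← pow_add, ← pow_add]; congr 1; ring

/-- factor of one macro level of INIT, besides `2 ^ gI` -/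
theorem K_init_le {C h D m : ℕ} (hD : D ≤ C * Lg h) (hm0 : m ≠ 0) (hm : m ≤ 2 ^ (C * Lg h)) :
    InitN775.K (par (gI h) D m) ≤ 2 ^ ((5 * C + 25) * Lg h) := by
  have hL := Lg_pos h
  have h1 : gI h + D + 5 ≤ 2 ^ ((C + 5) * Lg h) := by
    have e1 : gI h ≤ 2 ^ ((C + 3) * Lg h) :=
      (W_mul_Lg_le h).trans (Nat.pow_le_pow_right (by norm_num) (by nlinarith))
    have e2 : D ≤ 2 ^ ((C + 3) * Lg h) := by
      refine (hD.trans ?_)
      calc C * Lg h ≤ 2 ^ (C * Lg h) := (Nat.lt_two_pow_self).le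
        _ ≤ _ := Nat.pow_le_pow_right (by norm_num) (by nlinarith)
    have e3 : 5 ≤ 2 ^ ((C + 3) * Lg h) := by
      calc 5 ≤ 2 ^ 3 := by norm_num
        _ ≤ _ := Nat.pow_le_pow_right (by norm_num) (by nlinarith)
    have e4 : 2 ^ ((C + 3) * Lg h) * 2 ^ 2 ≤ 2 ^ ((C + 5) * Lg h) := by
      rw [← pow_add]
      exact Nat.pow_le_pow_right (by norm_num) (by nlinarith)
    omega
  calc InitN775.K (par (gI h) D m) ≤ 2 ^ (2 * D + 15) * (gI h + D + 5) ^ 2 * m := K_le hm0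
    _ ≤ 2 ^ (2 * (C * Lg h) + 15 * Lg h) * (2 ^ ((C + 5) * Lg h)) ^ 2 * 2 ^ (C * Lg h) := by
        refine Nat.mul_le_mul (Nat.mul_le_mul ?_ (Nat.pow_le_pow_left h1 2)) hm
        exact Nat.pow_le_pow_right (by norm_num) (by omega)
    _ = 2 ^ ((5 * C + 25) * Lg h) := by
        rw [← pow_mul, ← pow_add, ← pow_add]
        congr 1
        ring

/-- words of the number of one state, index `0` -/
theorem init_le {C h D m hb : ℕ} (hD : D ≤ C * Lg h) (hm0 : m ≠ 0) (hm : m ≤ 2 ^ (C * Lg h))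
    (hb1 : hb ≤ nn h * II h) :
    (hb + 3) * (2 ^ gI h * InitN775.K (par (gI h) D m)) ^ ((hb - 1) / gI h + 1) ≤
      2 ^ (h + (5 * Lg h + nn h + gI h + (5 * C + 25) * Lg h * ((h + nn h) / gI h + 1))) := by
  have hL := Lg_pos h
  have hb2 : hb ≤ h + nn h := by
    refine hb1.trans ?_
    unfold II
    have := Nat.mul_div_le h (nn h)
    rw [Nat.mul_add, Nat.mul_one]
    omega
  have e1 : hb + 3 ≤ 2 ^ (5 * Lg h) := by
    have h1 : h ≤ 2 ^ (3 * Lg h) := (lt_two_pow_Lg h).le.trans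
      (Nat.pow_le_pow_right (by norm_num) (by omega))
    have h2 := nn_le h
    have h3 : 3 ≤ 2 ^ (3 * Lg h) := by
      calc 3 ≤ 2 ^ 3 := by norm_num
        _ ≤ _ := Nat.pow_le_pow_right (by norm_num) (by omega)
    have h4 : 2 ^ (3 * Lg h) * 2 ^ 2 ≤ 2 ^ (5 * Lg h) := by
      rw [← pow_add]
      exact Nat.pow_le_pow_right (by norm_num) (by omega)
    omega
  have e2 : (2 ^ gI h * InitN775.K (par (gI h) D m)) ^ ((hb - 1) / gI h + 1) ≤
      2 ^ (gI h * ((hb - 1) / gI h + 1) + (5 * C + 25) * Lg h * ((hb - 1) / gI h + 1)) := by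
    calc _ ≤ (2 ^ gI h * 2 ^ ((5 * C + 25) * Lg h)) ^ ((hb - 1) / gI h + 1) :=
          Nat.pow_le_pow_left (Nat.mul_le_mul_left _ (K_init_le hD hm0 hm)) _
      _ = _ := by rw [← pow_add, ← pow_mul]; congr 1; ring
  have e3 : gI h * ((hb - 1) / gI h + 1) ≤ h + nn h + gI h := by
    have := Nat.mul_div_le (hb - 1) (gI h)
    rw [Nat.mul_add, Nat.mul_one]
    omega
  have e4 : (5 * C + 25) * Lg h * ((hb - 1) / gI h + 1) ≤
      (5 * C + 25) * Lg h * ((h + nn h) / gI h + 1) :=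
    Nat.mul_le_mul_left _ (Nat.add_le_add_right (Nat.div_le_div_right (by omega)) 1)
  calc _ ≤ 2 ^ (5 * Lg h) *
        2 ^ (gI h * ((hb - 1) / gI h + 1) + (5 * C + 25) * Lg h * ((hb - 1) / gI h + 1)) :=
        Nat.mul_le_mul e1 e2
    _ = 2 ^ (5 * Lg h + (gI h * ((hb - 1) / gI h + 1) +
          (5 * C + 25) * Lg h * ((hb - 1) / gI h + 1))) := (pow_add _ _ _).symm
    _ ≤ _ := Nat.pow_le_pow_right (by norm_num) (by omega)

/-! ### one exponent for both -/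

theorem bu_Lg (C : ℕ) : Bu 3 (fun h => C * Lg h) :=
  Bu.of_sm (by norm_num) ((Sm.const 0 C).mul sm_Lg)

theorem bu_gI : Bu 3 gI :=
  Bu.of_sm (by norm_num) ((sm_W (by norm_num)).mul sm_Lg)

theorem bu_one : Bu 3 (fun _ => 1) := Bu.of_sm (by norm_num) (Sm.const 0 1)

theorem ev_nn_le : ∀ᶠ h : ℕ in atTop, nn h ≤ h := (sm1_nn.of_le (Nat.zero_le 1)).le0

theorem bu_lane (C : ℕ) : Bu 3 (fun h => (7 * C + 3) * Mg h * (h / nn h + 1) + 1 * nn h +
    C * (W h * Lg h)) := by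
  have h1 : Bu 3 (fun h => (7 * C + 3) * Mg h * (h / nn h)) :=
    Bu.levels (q := fun h => (7 * C + 3) * Mg h) (n := nn) (H := fun h => h)
      (c := 7 * C + 3) (c' := 1)
      (Eventually.of_forall fun h => by
        have e1 : il 3 h ≤ W h ^ 2 := by
          have h2 := W_pos h
          calc il 3 h ≤ W h ^ 1 := by rw [pow_one]; exact Nat.le_succ _
            _ ≤ W h ^ 2 := Nat.pow_le_pow_right h2 (by norm_num)
        calc (7 * C + 3) * Mg h * il 3 h ≤ (7 * C + 3) * Mg h * W h ^ 2 :=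
              Nat.mul_le_mul_left _ e1
          _ = (7 * C + 3) * nn h := by unfold nn; ring)
      (Eventually.of_forall fun h => by simp)
  have h2 : Bu 3 (fun h => (7 * C + 3) * Mg h) :=
    Bu.of_sm (by norm_num) ((Sm.const 0 _).mul (sm_Mg (by norm_num)))
  have h3 : Bu 3 (fun h => C * (W h * Lg h)) := bu_gI.const_mul C
  refine (((h1.add h2).add bu_nn).add h3).mono' fun h => le_of_eq ?_
  ring

theorem bu_init (C : ℕ) : Bu 3 (fun h => 5 * Lg h + nn h + gI h +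
    (5 * C + 25) * Lg h * ((h + nn h) / gI h + 1)) := by
  have h1 : Bu 3 (fun h => (5 * C + 25) * Lg h * ((h + nn h) / gI h)) :=
    Bu.levels (q := fun h => (5 * C + 25) * Lg h) (n := gI) (H := fun h => h + nn h)
      (c := 5 * C + 25) (c' := 2)
      (Eventually.of_forall fun h => by
        calc (5 * C + 25) * Lg h * il 3 h ≤ (5 * C + 25) * Lg h * W h :=
              Nat.mul_le_mul_left _ (Nat.le_succ _)
          _ = (5 * C + 25) * gI h := by unfold gI; ring)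
      (by
        filter_upwards [ev_nn_le] with h h2
        omega)
  refine (((((bu_Lg 5).add bu_nn).add bu_gI).add h1).add (bu_Lg (5 * C + 25))).mono' fun h =>
    le_of_eq ?_
  ring

/-- **words of one index**: one constant `r` -/
theorem exists_nW (C : ℕ) : ∃ r : ℕ, ∀ᶠ h : ℕ in atTop, ∀ P : Alg45.Par, Szs C h P →
    ∀ D m hb : ℕ, D ≤ C * Lg h → m ≠ 0 → m ≤ 2 ^ (C * Lg h) → hb ≤ nn h * II h →
      (hb + 3) * (2 ^ gI h * InitN775.K (par (gI h) D m)) ^ ((hb - 1) / gI h + 1) +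
        P.gX * P.mX * wd P (II h) ≤ nW r h := by
  obtain ⟨r, hr⟩ := (((bu_lane C).add (bu_init C)).add bu_one).le_div
  refine ⟨r, ?_⟩
  filter_upwards [hr] with h h1 P H D m hb hD hm0 hm hb1
  have h2 := init_le hD hm0 hm hb1
  have h3 := lane_le H
  refine (Nat.add_le_add h2 h3).trans (two_pow_add_le.trans ?_)
  unfold nW eW
  refine Nat.pow_le_pow_right (by norm_num) ?_
  omega

/-! ### all words -/

/-- number of tape words as a function of the first environment -/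
def fW (r : ℕ) (v : List ℕ) : ℕ := (EE (ParP901.hE v) * KK (ParP901.hE v) + 1) * nW r (ParP901.hE v)

open Crest.Agent.Lib.PT in
theorem ptf_fW (r : ℕ) : PTF (fW r) := by
  have hh : PTU (fun v : List ℕ => ParP901.hE v) := ParP901.ptu_hE PTF.id
  have h1 : PTU (fun v : List ℕ => EE (ParP901.hE v) * KK (ParP901.hE v) + 1) :=
    PTU.add (PTU.mul (ParP901.ptu_EE hh) (ParP901.ptu_KK hh)) (PTU.const 1)
  have h2 : PTU (fun v : List ℕ => eW r (ParP901.hE v)) := by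
    unfold eW
    exact PTU.add hh (PtX949.ptu_div (PTU.mul (PTU.const r) hh) (ParP901.ptu_il hh).toPTF)
  exact PTF.natMul h1.toPTF (PTF.natTwoPow h2)

/-- **the number of words is a fuel** -/
theorem fW_le_fuc (r : ℕ) : ∀ᶠ h : ℕ in atTop, ∀ L : ℕ, Nat.clog 2 L = h →
    (EE h * KK h + 1) * nW r h ≤ fuc 2 1 r 3 L := by
  filter_upwards [ev_work 1 0 (by norm_num), eventually_ge_atTop 1] with h h1 h2 L hL
  have hLg := Lg_pos h
  have e1 : EE h * KK h + 1 ≤ h := by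
    refine le_trans ?_ h1
    simp only [pow_zero, mul_one, one_mul]
    exact Nat.le_mul_of_pos_right _ hLg
  have hL1 : 1 ≤ L := by
    by_contra h3
    have : Nat.clog 2 L = 0 := Nat.clog_of_right_le_one (by omega) 2
    omega
  have e2 : 2 ^ h ≤ 2 * L := by
    rw [← hL]
    exact two_pow_clog_le hL1
  unfold fuc nW eW
  rw [slk_eq, hL, pow_add, pow_one]
  calc (EE h * KK h + 1) * (2 ^ h * 2 ^ (r * h / il 3 h)) ≤
        h * (2 * L * 2 ^ (r * h / il 3 h)) := Nat.mul_le_mul e1 (Nat.mul_le_mul_right _ e2)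
    _ = 2 * L * 2 ^ (r * h / il 3 h) * h := by ring
    _ ≤ 2 * (L + 1) * 2 ^ (r * h / il 3 h) * (h + 1) := by
        refine Nat.mul_le_mul (Nat.mul_le_mul_right _ ?_) (Nat.le_succ _)
        omega

/-- **and at most `N ^ 2`** -/
theorem fW_le_sq (r : ℕ) : ∀ᶠ h : ℕ in atTop, ∀ L N : ℕ, Nat.clog 2 L = h → L ≤ 4 * N →
    (EE h * KK h + 1) * nW r h ≤ N ^ 2 := by
  filter_upwards [fW_le_fuc r, fuc_le_sq 2 1 r] with h h1 h2 L N hL hN
  exact (h1 L hL).trans (h2 L N hL hN)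

end Crest.Agent.R288.PgW155
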