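import Crest.Agent.R288.ParK_901
import Crest.Agent.R288.ParO_331
import Crest.Agent.R288.PgW_155

/-!
# R288, [PARP] part X (helper901): the parameters of the official table from the constant `kon`

* `pok_parOf : POk parOf`: all fields of `ParO331.parOf` are poly-time in the unary height;
* `ev_fit : ∀ᶠ h, Fit (parOf h) (cPad h)`;
* **`parKO k = parC parOf k`**, `ptf_parKO : PTF parKO`, `parKO_konO : parKO (konO v) = parOf (hE v)`.
-/

set_option autoImplicit false

namespace Crest.Agent.R288.ParX901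

open Filter
open Crest.Agent.Lib.PT
open Crest.Agent.R288.Alg45 Crest.Agent.R288.Pad901 Crest.Agent.R288.PadK901
open Crest.Agent.R288.ParP901 Crest.Agent.R288.ParK901 Crest.Agent.R288.ParO331
open Crest.Agent.R288.Par806 (II)

theorem ptu_val : PTU (fun u : Un => u.val) := PTF.id (α := Un)

section

variable {γ : Type} [PTCode γ] {h : γ → ℕ}

theorem ptu_HH (hh : PTU h) : PTU (fun c => HH (h c)) := by
  unfold HH
  exact PTU.mul (ptu_nn hh) (ptu_II hh)

theorem ptf_DmO (hh : PTU h) : PTF (fun c => DmO (h c)) := by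
  unfold DmO
  exact PTF.natTwoPow (PTU.succ (ptu_HH hh))

theorem ptu_K0O (hh : PTU h) : PTU (fun c => K0O (h c)) := by
  unfold K0O
  exact PTU.add (PTU.add (PTU.add (ptu_HH hh) (ptu_gI hh)) (ptu_Lg hh)) (PTU.const 32)

theorem ptu_sX (hh : PTU h) : PTU (fun c => sX (h c)) := by
  unfold sX
  exact PTU.mul (ptu_W hh) hh

theorem ptu_sJ (hh : PTU h) : PTU (fun c => sJ (h c)) := by
  have h1 : PTU (fun c => Par806.gJ (h c)) := ptu_gJ hh
  exact h1

theorem ptf_pI (hh : PTU h) : PTF (fun c => pI (h c)) := by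
  unfold pI
  exact PTF.natTwoPow (PTU.mul (PTU.const 8) (ptu_Lg hh))

theorem ptu_DI (hh : PTU h) : PTU (fun c => DI (h c)) := by
  unfold DI
  exact PTU.mul (PTU.const 10) (ptu_Lg hh)

theorem ptu_mI (hh : PTU h) : PTU (fun c => mI (h c)) := by
  unfold mI
  exact PTU.mul (ptu_W hh) hh

/-- words per index (155), for every constant `r` -/
theorem ptf_nW (r : ℕ) (hh : PTU h) : PTF (fun c => PgW155.nW r (h c)) := by
  unfold PgW155.nW
  refine PTF.natTwoPow ?_
  unfold PgW155.eW
  exact PTU.add hh (PtX949.ptu_div (PTU.mul (PTU.const r) hh) (ptu_il hh).toPTF)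

end

/-- the fields of the table are poly-time -/
theorem pok_parOf : POk parOf where
  n := (ptu_nn ptu_val).toPTF
  pb := (ptu_pb ptu_val).toPTF
  a1 := (ptu_a1 ptu_val).toPTF
  a2 := PTF.const _
  al := (ptu_al ptu_val).toPTF
  dl := (ptu_dl ptu_val).toPTF
  du := PTF.const _
  c0 := (ptu_c0 ptu_val).toPTF
  mJ := ptf_mJ ptu_val
  mX := ptf_mX ptu_val
  r := PTU.const _
  g := ptu_gg ptu_val
  sb := ptu_sb ptu_val
  bb := ptu_bb ptu_val
  gJ := PTU.succ (PTU.mul (PTU.const 12) (ptu_sJ ptu_val))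
  gX := PTU.succ (PTU.mul (PTU.const 12) (ptu_sX ptu_val))
  nb := ptu_nb ptu_val
  K := ptu_KK ptu_val
  E := ptu_EE ptu_val
  Dm := ptf_DmO ptu_val
  γ := (ptu_gam ptu_val).toPTF
  um := (ptu_um ptu_val).toPTF
  pm := (ptu_pm ptu_val).toPTF
  Creg := PTF.const _
  δi := (ptu_δi ptu_val).toPTF

theorem ev_fit : ∀ᶠ h : ℕ in atTop, Fit (parOf h) (cPad h) := by
  filter_upwards [Par806.ev_le_Lg 13 2 1, Par806.ev_le_W 8] with h h1 h2
  have hW := Par806.W_pos h
  have hM := Par806.Mg_pos h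
  have hL := Par806.Lg_pos h
  simp only [pow_one] at h1
  have h3 : 13 * Par806.Mg h ≤ Par806.Lg h := by
    refine le_trans ?_ h1
    have : 1 ≤ Par806.W h ^ 2 := Nat.pos_of_ne_zero (by positivity)
    nlinarith
  have h4 : Par806.nn h ≤ Par806.Lg h := by
    refine le_trans ?_ h1
    unfold Par806.nn
    nlinarith [Nat.zero_le (Par806.W h ^ 2 * Par806.Mg h)]
  have h5 : Par806.Lg h ≤ Par806.W h * Par806.Lg h := Nat.le_mul_of_pos_left _ hW
  have h6 : Par806.W h ≤ Par806.W h * Par806.Lg h := Nat.le_mul_of_pos_right _ hL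
  have e1 : cPad h = 64 * (Par806.W h * Par806.Lg h) := by unfold cPad; ring
  have ea : Par806.a1 h = 13 * Par806.Mg h := by unfold Par806.a1 Par806.bb; ring
  have ep : Par806.pb h = 16 * (Par806.W h * Par806.Lg h) := by unfold Par806.pb; ring
  have eal : Par806.al h = 8 * (Par806.W h * Par806.Lg h) := by unfold Par806.al; ring
  have edl : Par806.dl h = 8 * (Par806.W h * Par806.Lg h) := by unfold Par806.dl; ring
  have emJ : Par806.mJ h = 2 ^ (2 * (13 * Par806.Mg h)) := by
    unfold Par806.mJ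
    rw [show (4 : ℕ) = 2 ^ 2 by norm_num, ← pow_mul]
    congr 2
  have emX : Par806.mX h = 2 ^ (17 * (Par806.W h * Par806.Lg h)) := by
    unfold Par806.mX Par806.nb
    congr 1
    ring
  have ec0 : Par806.c0 h = Par806.Mg h := rfl
  refine ⟨?_, ?_, ?_, ?_, ?_, ?_, ?_, ?_, ?_, ?_⟩
  · show Par806.nn h ≤ _
    omega
  · show Par806.pb h ≤ _
    omega
  · show Par806.a1 h ≤ _
    omega
  · show 8 ≤ _
    omega
  · show Par806.al h ≤ _
    omega
  · show Par806.dl h ≤ _
    omega
  · show 8 ≤ _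
    omega
  · show Par806.c0 h ≤ _
    omega
  · show Par806.mJ h ≤ _
    rw [emJ]
    exact Nat.pow_le_pow_right (by norm_num) (by omega)
  · show Par806.mX h ≤ _
    rw [emX]
    exact Nat.pow_le_pow_right (by norm_num) (by omega)

/-- every number up to `h ^ 64` is below the length of the pad -/
theorem pow_h_le (h : ℕ) : h ^ 64 ≤ 2 ^ cPad h := by
  have h1 := Par806.lt_two_pow_Lg h
  have h2 := Par806.W_pos h
  calc h ^ 64 ≤ (2 ^ Par806.Lg h) ^ 64 := Nat.pow_le_pow_left h1.le _
    _ = 2 ^ (64 * Par806.Lg h) := by rw [← pow_mul, mul_comm]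
    _ ≤ 2 ^ cPad h := Nat.pow_le_pow_right (by norm_num) (by
        unfold cPad
        exact Nat.mul_le_mul_right _ (Nat.le_mul_of_pos_right _ h2))

/-- the classes of all frames are at most `2 h` (largest class of a pair, plus `C` per macro level) -/
theorem ev_class (C : ℕ) : ∀ᶠ h : ℕ in atTop, K0O h + C * (II h + 1) + C ≤ 2 * h := by
  filter_upwards [Par806.ev_le_W (4 * C + 1), Par806.ev_pow_le_self (4 * (3 * C + 35)) 2 1 1 0 0 1]
    with h h1 h2
  simp only [pow_zero, mul_one, zero_mul, add_zero, pow_one] at h2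
  have hW := Par806.W_pos h
  have hM := Par806.Mg_pos h
  have hL := Par806.Lg_pos h
  have hn : 0 < Par806.nn h := Nat.mul_pos hM (by positivity)
  have h3 : Par806.nn h * (h / Par806.nn h) ≤ h := Nat.mul_div_le _ _
  have h4 : (4 * C + 1) ≤ Par806.nn h := by
    refine h1.trans ?_
    unfold Par806.nn
    nlinarith [Nat.mul_pos hM hW]
  have h5 : (4 * C + 1) * (h / Par806.nn h) ≤ h := (Nat.mul_le_mul_right _ h4).trans h3
  have e0 : Par806.W h ^ 2 * Par806.Lg h * Par806.Mg h =
      Par806.nn h * Par806.Lg h := by unfold Par806.nn; ring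
  have h7 : Par806.nn h ≤ Par806.nn h * Par806.Lg h := Nat.le_mul_of_pos_right _ hL
  have h7' : Par806.gI h ≤ Par806.nn h * Par806.Lg h := by
    unfold Par806.gI Par806.nn
    refine Nat.mul_le_mul_right _ ?_
    nlinarith [Nat.mul_pos hM hW]
  have h7'' : Par806.Lg h ≤ Par806.nn h * Par806.Lg h := Nat.le_mul_of_pos_left _ hn
  have h8 : 4 * (3 * C + 35) * (Par806.nn h * Par806.Lg h) ≤ h := by
    refine le_trans (le_of_eq ?_) h2
    rw [← e0]
    ring
  have h9 : 1 ≤ Par806.nn h * Par806.Lg h := Nat.mul_pos hn hL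
  have e1 : K0O h = Par806.nn h * (h / Par806.nn h) + Par806.nn h + Par806.gI h
      + Par806.Lg h + 32 := by
    unfold K0O HH Par806.II
    ring
  have e2 : C * (II h + 1) = C * (h / Par806.nn h) + 2 * C := by
    unfold Par806.II
    ring
  have h10 : 4 * (C * (h / Par806.nn h)) ≤ h := by nlinarith
  have h11 : 4 * (3 * C) + 4 * 35 * (Par806.nn h * Par806.Lg h) ≤ h := by nlinarith
  rw [e1, e2]
  omega

/-- a class is not changed by the cut at the pad -/
theorem clamp_class {v : List ℕ} {κ : ℕ} (h : κ ≤ 2 * hE v) : clamp κ (konO v).2 = κ := by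
  refine clamp_konO (h.trans ?_)
  rcases Nat.lt_or_ge (hE v) 2 with h1 | h1
  · have h3 : 64 ≤ cPad (hE v) := by
      unfold cPad
      have := Nat.mul_pos (Par806.W_pos (hE v)) (Par806.Lg_pos (hE v))
      nlinarith
    have h4 : cPad (hE v) < 2 ^ cPad (hE v) := Nat.lt_two_pow_self
    omega
  · refine le_trans ?_ (pow_h_le _)
    calc 2 * hE v ≤ hE v * hE v := Nat.mul_le_mul_right _ h1
      _ = hE v ^ 2 := by ring
      _ ≤ hE v ^ 64 := Nat.pow_le_pow_right (by omega) (by norm_num)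

/-- **the parameters of the program** -/
def parKO (k : List ℕ × List ℕ) : Par := parC parOf k

@[fun_prop]
theorem ptf_parKO {γ : Type} [PTCode γ] {k : γ → List ℕ × List ℕ} (hk : PTF k) :
    PTF (fun c => parKO (k c)) := ptf_parC pok_parOf hk

theorem parKO_konO {v : List ℕ} (h : Fit (parOf (hE v)) (cPad (hE v))) :
    parKO (konO v) = parOf (hE v) := parC_konO h

end Crest.Agent.R288.ParX901
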