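import Crest.Agent.R288.AlgB_45
import Crest.Agent.Lib.PT.ListFns2
import Crest.Agent.Lib.PT.ArithMore
import Crest.Agent.Lib.PT.ArithInt

/-!
# R288 [PTA]: `PTCode` instances of the records of `Alg45` (`St`, `Cel`, `Key`)

The code of a record is the code of the tuple of its fields; projections and constructors are
`PTF` (tagged `fun_prop`).
-/

set_option autoImplicit false

namespace Crest.Agent.R288.StPT569

open Crest.Agent.Lib.PT Crest.Agent.R288.Alg45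

variable {γ : Type} [PTCode γ]

/-! ### states -/

/-- fields of a state -/
def stTup (s : St) : ℕ × ℕ × ℤ × ℤ := (s.i, s.j, s.u, s.v)
/-- the state of a tuple -/
def stOf (t : ℕ × ℕ × ℤ × ℤ) : St := ⟨t.1, t.2.1, t.2.2.1, t.2.2.2⟩

theorem stOf_tup (s : St) : stOf (stTup s) = s := rfl
theorem tup_stOf (t : ℕ × ℕ × ℤ × ℤ) : stTup (stOf t) = t := rfl

theorem stTup_inj : Function.Injective stTup := by
  intro a b h
  rw [← stOf_tup a, ← stOf_tup b, h]

instance instSt : PTCode St := PTCode.ofInj stTup stTup_inj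

theorem sz_st (s : St) : sz s = sz (stTup s) := rfl

theorem ptf_stTup : PTF stTup := ⟨_, PT.id, fun _ => rfl⟩
theorem ptf_stOf : PTF stOf := ⟨_, PT.id, fun _ => rfl⟩

@[fun_prop]
theorem ptf_stMk {i j : γ → ℕ} {u v : γ → ℤ} (hi : PTF i) (hj : PTF j) (hu : PTF u) (hv : PTF v) :
    PTF (fun c => St.mk (i c) (j c) (u c) (v c)) :=
  (PTF.comp (f := fun c => (i c, j c, u c, v c)) ptf_stOf (by fun_prop)).of_eq (fun _ => rfl)

@[fun_prop]
theorem ptf_stI {s : γ → St} (hs : PTF s) : PTF (fun c => (s c).i) :=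
  (PTF.comp PTF.fst (PTF.comp ptf_stTup hs)).of_eq (fun _ => rfl)

@[fun_prop]
theorem ptf_stJ {s : γ → St} (hs : PTF s) : PTF (fun c => (s c).j) :=
  (PTF.comp PTF.fst (PTF.comp PTF.snd (PTF.comp ptf_stTup hs))).of_eq (fun _ => rfl)

@[fun_prop]
theorem ptf_stU {s : γ → St} (hs : PTF s) : PTF (fun c => (s c).u) :=
  (PTF.comp PTF.fst (PTF.comp PTF.snd (PTF.comp PTF.snd (PTF.comp ptf_stTup hs)))).of_eq
    (fun _ => rfl)

@[fun_prop]
theorem ptf_stV {s : γ → St} (hs : PTF s) : PTF (fun c => (s c).v) :=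
  (PTF.comp PTF.snd (PTF.comp PTF.snd (PTF.comp PTF.snd (PTF.comp ptf_stTup hs)))).of_eq
    (fun _ => rfl)

/-! ### cells -/

/-- fields of a cell -/
def celTup (s : Cel) : ℕ × ℕ × ℕ × ℤ := (s.i, s.j, s.κ, s.m)
/-- the cell of a tuple -/
def celOfTup (t : ℕ × ℕ × ℕ × ℤ) : Cel := ⟨t.1, t.2.1, t.2.2.1, t.2.2.2⟩

theorem celOfTup_tup (s : Cel) : celOfTup (celTup s) = s := rfl

theorem celTup_inj : Function.Injective celTup := by
  intro a b h
  rw [← celOfTup_tup a, ← celOfTup_tup b, h]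

instance instCel : PTCode Cel := PTCode.ofInj celTup celTup_inj

theorem ptf_celTup : PTF celTup := ⟨_, PT.id, fun _ => rfl⟩
theorem ptf_celOfTup : PTF celOfTup := ⟨_, PT.id, fun _ => rfl⟩

@[fun_prop]
theorem ptf_celMk {i j κ : γ → ℕ} {m : γ → ℤ} (hi : PTF i) (hj : PTF j) (hκ : PTF κ)
    (hm : PTF m) : PTF (fun c => Cel.mk (i c) (j c) (κ c) (m c)) :=
  (PTF.comp (f := fun c => (i c, j c, κ c, m c)) ptf_celOfTup (by fun_prop)).of_eq (fun _ => rfl)

@[fun_prop]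
theorem ptf_celI {s : γ → Cel} (hs : PTF s) : PTF (fun c => (s c).i) :=
  (PTF.comp PTF.fst (PTF.comp ptf_celTup hs)).of_eq (fun _ => rfl)

@[fun_prop]
theorem ptf_celJ {s : γ → Cel} (hs : PTF s) : PTF (fun c => (s c).j) :=
  (PTF.comp PTF.fst (PTF.comp PTF.snd (PTF.comp ptf_celTup hs))).of_eq (fun _ => rfl)

@[fun_prop]
theorem ptf_celκ {s : γ → Cel} (hs : PTF s) : PTF (fun c => (s c).κ) :=
  (PTF.comp PTF.fst (PTF.comp PTF.snd (PTF.comp PTF.snd (PTF.comp ptf_celTup hs)))).of_eq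
    (fun _ => rfl)

@[fun_prop]
theorem ptf_celM {s : γ → Cel} (hs : PTF s) : PTF (fun c => (s c).m) :=
  (PTF.comp PTF.snd (PTF.comp PTF.snd (PTF.comp PTF.snd (PTF.comp ptf_celTup hs)))).of_eq
    (fun _ => rfl)

/-! ### requests -/

/-- fields of a request -/
def keyTup (s : Key) : ℕ × ℕ × ℤ × ℕ := (s.q, s.κ, s.m, s.s)
/-- the request of a tuple -/
def keyOfTup (t : ℕ × ℕ × ℤ × ℕ) : Key := ⟨t.1, t.2.1, t.2.2.1, t.2.2.2⟩

theorem keyOfTup_tup (s : Key) : keyOfTup (keyTup s) = s := rfl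

theorem keyTup_inj : Function.Injective keyTup := by
  intro a b h
  rw [← keyOfTup_tup a, ← keyOfTup_tup b, h]

instance instKey : PTCode Key := PTCode.ofInj keyTup keyTup_inj

theorem ptf_keyTup : PTF keyTup := ⟨_, PT.id, fun _ => rfl⟩
theorem ptf_keyOfTup : PTF keyOfTup := ⟨_, PT.id, fun _ => rfl⟩

@[fun_prop]
theorem ptf_keyMk {q κ s : γ → ℕ} {m : γ → ℤ} (hq : PTF q) (hκ : PTF κ) (hm : PTF m)
    (hs : PTF s) : PTF (fun c => Key.mk (q c) (κ c) (m c) (s c)) :=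
  (PTF.comp (f := fun c => (q c, κ c, m c, s c)) ptf_keyOfTup (by fun_prop)).of_eq (fun _ => rfl)

@[fun_prop]
theorem ptf_keyQ {s : γ → Key} (hs : PTF s) : PTF (fun c => (s c).q) :=
  (PTF.comp PTF.fst (PTF.comp ptf_keyTup hs)).of_eq (fun _ => rfl)

@[fun_prop]
theorem ptf_keyκ {s : γ → Key} (hs : PTF s) : PTF (fun c => (s c).κ) :=
  (PTF.comp PTF.fst (PTF.comp PTF.snd (PTF.comp ptf_keyTup hs))).of_eq (fun _ => rfl)

@[fun_prop]
theorem ptf_keyM {s : γ → Key} (hs : PTF s) : PTF (fun c => (s c).m) :=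
  (PTF.comp PTF.fst (PTF.comp PTF.snd (PTF.comp PTF.snd (PTF.comp ptf_keyTup hs)))).of_eq
    (fun _ => rfl)

@[fun_prop]
theorem ptf_keyS {s : γ → Key} (hs : PTF s) : PTF (fun c => (s c).s) :=
  (PTF.comp PTF.snd (PTF.comp PTF.snd (PTF.comp PTF.snd (PTF.comp ptf_keyTup hs)))).of_eq
    (fun _ => rfl)

end Crest.Agent.R288.StPT569
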