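import Crest.Agent.R288.PtX_949
import Crest.Agent.R288.StPT_569

/-!
# R288: code of the parameters of ALG-U (helper966)

`Par` as a coded type (the codes of `St`, `Cel`, `Key` are those of `StPT_569`), `fun_prop`
certificates of all projections and of the elementary functions of `AlgA_45`.  The unary quantities
of `Par` (`2 ^ n`, `2 ^ pb`, numbers of ranks and copies, ..) are coded in unary, so that
`hP : PTF P` gives `PTU` for them.
-/

set_option autoImplicit false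

namespace Crest.Agent.R288.PtSt966

open Crest.Agent.Lib.PT Crest.Agent.R288.Alg45 Crest.Agent.R288.PtX949
  Crest.Agent.R288.StPT569

variable {α β γ δ : Type} [PTCode α] [PTCode β] [PTCode γ] [PTCode δ]

/-! ### parameters -/

/-- the unary part of the code -/
def parU (P : Par) : List Un :=
  [⟨2 ^ P.n⟩, ⟨2 ^ P.pb⟩, ⟨P.r⟩, ⟨P.g⟩, ⟨P.sb⟩, ⟨2 ^ P.a1⟩, ⟨2 ^ P.a2⟩, ⟨P.bb⟩, ⟨2 ^ P.dl⟩,
    ⟨2 ^ P.du⟩, ⟨2 ^ P.c0⟩, ⟨P.gJ⟩, ⟨P.mJ⟩, ⟨P.gX⟩, ⟨P.mX⟩, ⟨P.nb⟩, ⟨P.K⟩, ⟨P.E⟩, ⟨2 ^ P.al⟩]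

/-- the binary part of the code -/
def parB (P : Par) : List ℕ := [P.Dm, P.γ, P.um, P.pm, P.Creg, P.δi]

/-- the components -/
def parE (P : Par) : List Un × List ℕ := (parU P, parB P)

theorem parE_inj : Function.Injective parE := by
  intro P P' h
  cases P
  cases P'
  simp only [parE, parU, parB, Prod.mk.injEq, List.cons.injEq, Un.mk.injEq, and_true,
    Nat.pow_right_inj (le_refl 2)] at h
  obtain ⟨⟨h1, h2, h3, h4, h5, h6, h7, h8, h9, h10, h11, h12, h13, h14, h15, h16, h17, h18,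
    h19⟩, h21, h22, h23, h24, h25, h26⟩ := h
  simp_all

instance : PTCode Par := PTCode.ofInj parE parE_inj

theorem ptf_parE {y : γ → Par} (hy : PTF y) : PTF (fun c => parE (y c)) := hy

theorem ptf_of_parE {y : γ → Par} (hy : PTF (fun c => parE (y c))) : PTF y := hy

theorem ptu_parU {P : γ → Par} (hP : PTF P) (k : ℕ) :
    PTU (fun c => ((parU (P c)).getD k ⟨0⟩).val) := by
  have h := ptf_parE hP
  exact PTF.comp (g := fun p : List Un × List ℕ => p.1.getD k ⟨0⟩) (by fun_prop) h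

theorem ptf_parB {P : γ → Par} (hP : PTF P) (k : ℕ) :
    PTF (fun c => (parB (P c)).getD k 0) := by
  have h := ptf_parE hP
  exact PTF.comp (g := fun p : List Un × List ℕ => p.2.getD k 0) (by fun_prop) h

section par

variable {P : γ → Par}

theorem ptu_two_n (hP : PTF P) : PTU (fun c => 2 ^ (P c).n) := ptu_parU hP 0
theorem ptu_two_pb (hP : PTF P) : PTU (fun c => 2 ^ (P c).pb) := ptu_parU hP 1
@[fun_prop] theorem ptu_r (hP : PTF P) : PTU (fun c => (P c).r) := ptu_parU hP 2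
@[fun_prop] theorem ptu_g (hP : PTF P) : PTU (fun c => (P c).g) := ptu_parU hP 3
@[fun_prop] theorem ptu_sb (hP : PTF P) : PTU (fun c => (P c).sb) := ptu_parU hP 4
theorem ptu_two_a1 (hP : PTF P) : PTU (fun c => 2 ^ (P c).a1) := ptu_parU hP 5
theorem ptu_two_a2 (hP : PTF P) : PTU (fun c => 2 ^ (P c).a2) := ptu_parU hP 6
@[fun_prop] theorem ptu_bb (hP : PTF P) : PTU (fun c => (P c).bb) := ptu_parU hP 7
theorem ptu_two_dl (hP : PTF P) : PTU (fun c => 2 ^ (P c).dl) := ptu_parU hP 8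
theorem ptu_two_du (hP : PTF P) : PTU (fun c => 2 ^ (P c).du) := ptu_parU hP 9
theorem ptu_two_c0 (hP : PTF P) : PTU (fun c => 2 ^ (P c).c0) := ptu_parU hP 10
@[fun_prop] theorem ptu_gJ (hP : PTF P) : PTU (fun c => (P c).gJ) := ptu_parU hP 11
@[fun_prop] theorem ptu_mJ (hP : PTF P) : PTU (fun c => (P c).mJ) := ptu_parU hP 12
@[fun_prop] theorem ptu_gX (hP : PTF P) : PTU (fun c => (P c).gX) := ptu_parU hP 13
@[fun_prop] theorem ptu_mX (hP : PTF P) : PTU (fun c => (P c).mX) := ptu_parU hP 14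
@[fun_prop] theorem ptu_nb (hP : PTF P) : PTU (fun c => (P c).nb) := ptu_parU hP 15
@[fun_prop] theorem ptu_K (hP : PTF P) : PTU (fun c => (P c).K) := ptu_parU hP 16
@[fun_prop] theorem ptu_E (hP : PTF P) : PTU (fun c => (P c).E) := ptu_parU hP 17
theorem ptu_two_al (hP : PTF P) : PTU (fun c => 2 ^ (P c).al) := ptu_parU hP 18

/-- a parameter record with certified fields is certified -/
theorem ptf_Par (h : PTU (fun c => 2 ^ (P c).n)) (h1 : PTU (fun c => 2 ^ (P c).pb))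
    (h2 : PTU (fun c => (P c).r)) (h3 : PTU (fun c => (P c).g)) (h4 : PTU (fun c => (P c).sb))
    (h5 : PTU (fun c => 2 ^ (P c).a1)) (h6 : PTU (fun c => 2 ^ (P c).a2))
    (h7 : PTU (fun c => (P c).bb)) (h8 : PTU (fun c => 2 ^ (P c).dl))
    (h9 : PTU (fun c => 2 ^ (P c).du)) (h10 : PTU (fun c => 2 ^ (P c).c0))
    (h11 : PTU (fun c => (P c).gJ)) (h12 : PTU (fun c => (P c).mJ))
    (h13 : PTU (fun c => (P c).gX)) (h14 : PTU (fun c => (P c).mX))
    (h15 : PTU (fun c => (P c).nb)) (h16 : PTU (fun c => (P c).K))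
    (h17 : PTU (fun c => (P c).E)) (h18 : PTU (fun c => 2 ^ (P c).al))
    (b0 : PTF (fun c => (P c).Dm)) (b1 : PTF (fun c => (P c).γ)) (b2 : PTF (fun c => (P c).um))
    (b3 : PTF (fun c => (P c).pm)) (b4 : PTF (fun c => (P c).Creg))
    (b5 : PTF (fun c => (P c).δi)) : PTF P := by
  refine ptf_of_parE ?_
  unfold parE
  refine PTF.prodMk ?_ ?_
  · unfold parU
    refine PTF.listCons h (PTF.listCons h1 (PTF.listCons h2 (PTF.listCons h3 (PTF.listCons h4 (PTF.listCons h5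
      (PTF.listCons h6 (PTF.listCons h7 (PTF.listCons h8 (PTF.listCons h9 (PTF.listCons h10 (PTF.listCons h11
      (PTF.listCons h12 (PTF.listCons h13 (PTF.listCons h14 (PTF.listCons h15 (PTF.listCons h16 (PTF.listCons h17
      (PTF.listCons h18 (PTF.const [])))))))))))))))))))
  · unfold parB
    refine PTF.listCons b0 (PTF.listCons b1 (PTF.listCons b2 (PTF.listCons b3 (PTF.listCons b4 (PTF.listCons b5
      (PTF.const []))))))

theorem ptu_log_two {f : γ → ℕ} (h : PTU (fun c => 2 ^ f c)) : PTU f := by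
  have h1 : PTU (fun c => Nat.log 2 (2 ^ f c)) := PtX949.ptu_log (PTF.const 2) h.toPTF
  exact h1.of_eq fun c => Nat.log_pow (by omega) _

@[fun_prop] theorem ptu_n (hP : PTF P) : PTU (fun c => (P c).n) := ptu_log_two (ptu_two_n hP)
@[fun_prop] theorem ptu_pb (hP : PTF P) : PTU (fun c => (P c).pb) := ptu_log_two (ptu_two_pb hP)
@[fun_prop] theorem ptu_a1 (hP : PTF P) : PTU (fun c => (P c).a1) :=
  ptu_log_two (ptu_two_a1 hP)
@[fun_prop] theorem ptu_a2 (hP : PTF P) : PTU (fun c => (P c).a2) :=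
  ptu_log_two (ptu_two_a2 hP)
@[fun_prop] theorem ptu_dl (hP : PTF P) : PTU (fun c => (P c).dl) :=
  ptu_log_two (ptu_two_dl hP)
@[fun_prop] theorem ptu_du (hP : PTF P) : PTU (fun c => (P c).du) :=
  ptu_log_two (ptu_two_du hP)
@[fun_prop] theorem ptu_al (hP : PTF P) : PTU (fun c => (P c).al) :=
  ptu_log_two (ptu_two_al hP)
@[fun_prop] theorem ptu_c0 (hP : PTF P) : PTU (fun c => (P c).c0) := ptu_log_two (ptu_two_c0 hP)
@[fun_prop] theorem ptu_N (hP : PTF P) : PTU (fun c => (P c).N) := ptu_two_n hP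

@[fun_prop] theorem ptf_r (hP : PTF P) : PTF (fun c => (P c).r) := (ptu_r hP).toPTF
@[fun_prop] theorem ptf_g (hP : PTF P) : PTF (fun c => (P c).g) := (ptu_g hP).toPTF
@[fun_prop] theorem ptf_sb (hP : PTF P) : PTF (fun c => (P c).sb) := (ptu_sb hP).toPTF
@[fun_prop] theorem ptf_a1 (hP : PTF P) : PTF (fun c => (P c).a1) := (ptu_a1 hP).toPTF
@[fun_prop] theorem ptf_a2 (hP : PTF P) : PTF (fun c => (P c).a2) := (ptu_a2 hP).toPTF
@[fun_prop] theorem ptf_bb (hP : PTF P) : PTF (fun c => (P c).bb) := (ptu_bb hP).toPTF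
@[fun_prop] theorem ptf_dl (hP : PTF P) : PTF (fun c => (P c).dl) := (ptu_dl hP).toPTF
@[fun_prop] theorem ptf_du (hP : PTF P) : PTF (fun c => (P c).du) := (ptu_du hP).toPTF
@[fun_prop] theorem ptf_gJ (hP : PTF P) : PTF (fun c => (P c).gJ) := (ptu_gJ hP).toPTF
@[fun_prop] theorem ptf_mJ (hP : PTF P) : PTF (fun c => (P c).mJ) := (ptu_mJ hP).toPTF
@[fun_prop] theorem ptf_gX (hP : PTF P) : PTF (fun c => (P c).gX) := (ptu_gX hP).toPTF
@[fun_prop] theorem ptf_mX (hP : PTF P) : PTF (fun c => (P c).mX) := (ptu_mX hP).toPTF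
@[fun_prop] theorem ptf_nb (hP : PTF P) : PTF (fun c => (P c).nb) := (ptu_nb hP).toPTF
@[fun_prop] theorem ptf_K (hP : PTF P) : PTF (fun c => (P c).K) := (ptu_K hP).toPTF
@[fun_prop] theorem ptf_E (hP : PTF P) : PTF (fun c => (P c).E) := (ptu_E hP).toPTF
@[fun_prop] theorem ptf_al (hP : PTF P) : PTF (fun c => (P c).al) := (ptu_al hP).toPTF
@[fun_prop] theorem ptf_n (hP : PTF P) : PTF (fun c => (P c).n) := (ptu_n hP).toPTF
@[fun_prop] theorem ptf_pb (hP : PTF P) : PTF (fun c => (P c).pb) := (ptu_pb hP).toPTF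
@[fun_prop] theorem ptf_c0 (hP : PTF P) : PTF (fun c => (P c).c0) := (ptu_c0 hP).toPTF
@[fun_prop] theorem ptf_N (hP : PTF P) : PTF (fun c => (P c).N) := (ptu_N hP).toPTF
@[fun_prop] theorem ptf_Dm (hP : PTF P) : PTF (fun c => (P c).Dm) := ptf_parB hP 0
@[fun_prop] theorem ptf_γ (hP : PTF P) : PTF (fun c => (P c).γ) := ptf_parB hP 1
@[fun_prop] theorem ptf_um (hP : PTF P) : PTF (fun c => (P c).um) := ptf_parB hP 2
@[fun_prop] theorem ptf_pm (hP : PTF P) : PTF (fun c => (P c).pm) := ptf_parB hP 3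
@[fun_prop] theorem ptf_Creg (hP : PTF P) : PTF (fun c => (P c).Creg) := ptf_parB hP 4
@[fun_prop] theorem ptf_δi (hP : PTF P) : PTF (fun c => (P c).δi) := ptf_parB hP 5

end par

/-! ### elementary functions of `AlgA_45` -/

/-- powers of two with a minimum in the exponent -/
theorem ptu_pow_min {a b : γ → ℕ} (ha : PTU a) (hb : PTU (fun c => 2 ^ b c)) :
    PTU (fun c => 2 ^ min (a c) (b c)) := by
  have h2 : PTU (fun c => min (2 ^ b c) (2 ^ a c)) := by
    have h3 : PTF (fun c => 2 ^ a c) := by fun_prop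
    exact PtX949.ptu_min_right h3 hb
  refine h2.of_eq fun c => ?_
  rcases le_total (a c) (b c) with h | h
  · rw [min_eq_left h, min_eq_right (Nat.pow_le_pow_right (by omega) h)]
  · rw [min_eq_right h, min_eq_left (Nat.pow_le_pow_right (by omega) h)]

section elem

variable {P : γ → Par}

@[fun_prop]
theorem ptf_minR {n : γ → ℕ} {f : γ → ℕ → ℕ} (hn : PTU n)
    (hf : PTF (fun p : γ × ℕ => f p.1 p.2)) : PTF (fun c => minR (n c) (f c)) := by
  unfold minR
  have h0 : PTF (fun c => f c 0) :=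
    PTF.comp (g := fun p : γ × ℕ => f p.1 p.2) (f := fun c => (c, 0)) hf (by fun_prop)
  refine foldl_num (f := fun c m a => min m (f c a)) (W := fun _ => 1) (M := fun c => f c 0)
    (by fun_prop) ?_ h0 (by fun_prop) (pb_mx h0) (fun c => ⟨le_rfl, le_rfl⟩) ?_
  · have h1 : PTF (fun p : γ × ℕ × ℕ => f p.1 p.2.2) :=
      PTF.comp (g := fun p : γ × ℕ => f p.1 p.2) (f := fun p : γ × ℕ × ℕ => (p.1, p.2.2)) hf
        (by fun_prop)
    fun_prop
  · intro c x a _ _ hx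
    exact ⟨le_rfl, (min_le_left _ _).trans hx⟩

theorem argR_le_self (n : ℕ) (f : ℕ → ℕ) : argR n f ≤ n := by
  unfold argR
  have key : ∀ (l : List ℕ) (m : ℕ), (∀ a ∈ l, a ≤ n) → m ≤ n →
      l.foldl (fun m a => if f a < f m then a else m) m ≤ n := by
    intro l
    induction l with
    | nil => intro m _ h; exact h
    | cons a l ih =>
      intro m ha hm
      simp only [List.foldl_cons]
      apply ih _ (fun b hb => ha b (List.mem_cons_of_mem _ hb))
      split_ifs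
      · exact ha a List.mem_cons_self
      · exact hm
  exact key _ _ (fun a ha => (List.mem_range.1 ha).le) (Nat.zero_le _)

@[fun_prop]
theorem ptf_argR {n : γ → ℕ} {f : γ → ℕ → ℕ} (hn : PTU n)
    (hf : PTF (fun p : γ × ℕ => f p.1 p.2)) : PTF (fun c => argR (n c) (f c)) := by
  unfold argR
  refine foldl_num (f := fun c m a => if f c a < f c m then a else m) (W := fun _ => 1)
    (M := n) (b := fun _ => 0) (by fun_prop) ?_ (by fun_prop) (by fun_prop) ?_
    (fun c => ⟨le_rfl, Nat.zero_le _⟩) ?_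
  · have h1 : PTF (fun p : γ × ℕ × ℕ => f p.1 p.2.2) :=
      PTF.comp (g := fun p : γ × ℕ => f p.1 p.2) (f := fun p : γ × ℕ × ℕ => (p.1, p.2.2)) hf
        (by fun_prop)
    have h2 : PTF (fun p : γ × ℕ × ℕ => f p.1 p.2.1) :=
      PTF.comp (g := fun p : γ × ℕ => f p.1 p.2) (f := fun p : γ × ℕ × ℕ => (p.1, p.2.1)) hf
        (by fun_prop)
    fun_prop
  · have h3 := pb_mx (f := n) hn.toPTF
    simpa using h3
  · intro c x a ha _ hx
    refine ⟨le_rfl, ?_⟩
    split_ifs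
    · exact (List.mem_range.1 ha).le
    · exact hx

@[fun_prop]
theorem ptf_sumR {n : γ → ℕ} {f : γ → ℕ → ℕ} (hn : PTU n)
    (hf : PTF (fun p : γ × ℕ => f p.1 p.2)) : PTF (fun c => sumR (n c) (f c)) := by
  unfold sumR
  fun_prop

@[fun_prop]
theorem ptf_lmin {a : γ → ℕ} {l : γ → List ℕ} (ha : PTF a) (hl : PTF l) :
    PTF (fun c => lmin (a c) (l c)) := by
  unfold lmin
  refine foldl_num (f := fun _ m a => min m a) (W := fun _ => 1) (M := a)
    (by fun_prop) (by fun_prop) ha (by fun_prop) (pb_mx ha) (fun c => ⟨le_rfl, le_rfl⟩) ?_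
  intro c x a _ _ hx
  exact ⟨le_rfl, (min_le_left _ _).trans hx⟩

@[fun_prop]
theorem ptf_intPow {f : γ → ℤ} {k : γ → ℕ} (hf : PTF f) (hk : PTU k) :
    PTF (fun c => f c ^ k c) := PTF.intPow hf hk

@[fun_prop]
theorem ptf_dist {y z : γ → St} (hy : PTF y) (hz : PTF z) :
    PTF (fun c => Alg45.dist (y c) (z c)) := by
  unfold Alg45.dist
  fun_prop

theorem ptu_cls {F : γ → St → ℕ} {y : γ → St} (hF : PTF (fun p : γ × St => F p.1 p.2))
    (hy : PTF y) : PTU (fun c => cls (F c) (y c)) := by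
  unfold cls
  have h1 : PTF (fun c => F c (y c)) :=
    PTF.comp (g := fun p : γ × St => F p.1 p.2) (f := fun c => (c, y c)) hF (by fun_prop)
  fun_prop

@[fun_prop]
theorem ptf_gst {κ : γ → ℕ} (hP : PTF P) (hκ : PTU κ) : PTF (fun c => gst (P c) (κ c)) := by
  unfold gst
  fun_prop

@[fun_prop]
theorem ptu_gpt {κ : γ → ℕ} (hP : PTF P) (hκ : PTU κ) : PTU (fun c => gpt (P c) (κ c)) :=
  ptu_pow_min hκ (ptu_two_pb hP)

@[fun_prop]
theorem ptf_gpt {κ : γ → ℕ} (hP : PTF P) (hκ : PTU κ) : PTF (fun c => gpt (P c) (κ c)) :=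
  (ptu_gpt hP hκ).toPTF

@[fun_prop]
theorem ptf_rd {κ : γ → ℕ} {u : γ → ℤ} (hP : PTF P) (hκ : PTU κ) (hu : PTF u) :
    PTF (fun c => rd (P c) (κ c) (u c)) := by
  unfold rd
  fun_prop

@[fun_prop]
theorem ptf_rdn {κ : γ → ℕ} {y : γ → St} (hP : PTF P) (hκ : PTU κ) (hy : PTF y) :
    PTF (fun c => rdn (P c) (κ c) (y c)) := by
  unfold rdn
  fun_prop

@[fun_prop]
theorem ptu_WA {κ : γ → ℕ} (hP : PTF P) (hκ : PTU κ) : PTU (fun c => WA (P c) (κ c)) := by
  unfold WA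
  fun_prop

@[fun_prop]
theorem ptf_WA {κ : γ → ℕ} (hP : PTF P) (hκ : PTU κ) : PTF (fun c => WA (P c) (κ c)) :=
  (ptu_WA hP hκ).toPTF

@[fun_prop]
theorem ptf_maxR {n : γ → ℕ} {f : γ → ℕ → ℕ} (hn : PTU n)
    (hf : PTF (fun p : γ × ℕ => f p.1 p.2)) : PTF (fun c => maxR (n c) (f c)) := by
  unfold maxR
  obtain ⟨B, hB, hBd⟩ := Arith.pb_index hn hf
  refine foldl_inv (f := fun c m a => max m (f c a)) (b := fun _ => 0)
    (by fun_prop) ?_ (by fun_prop) (fun c x => x.size ≤ B c) hB (fun c => by simp) ?_ ?_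
  · have h1 : PTF (fun p : γ × ℕ × ℕ => f p.1 p.2.2) :=
      PTF.comp (g := fun p : γ × ℕ => f p.1 p.2) (f := fun p : γ × ℕ × ℕ => (p.1, p.2.2)) hf
        (by fun_prop)
    fun_prop
  · intro c x a ha hx
    have h := hBd c a (List.mem_range.1 ha).le
    rw [sz_nat] at h
    rw [PtX949.size_max]
    exact max_le hx h
  · intro c x hx
    rw [sz_nat]
    exact hx

@[fun_prop]
theorem ptf_cdiv {a b : γ → ℕ} (ha : PTF a) (hb : PTF b) : PTF (fun c => cdiv (a c) (b c)) := by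
  unfold cdiv
  fun_prop

/-- lists of consecutive numbers, the upper end is unary -/
theorem ptf_rngC {lo hi : γ → ℕ} (hl : PTF lo) (hh : PTU hi) :
    PTF (fun c => rngC (lo c) (hi c)) := by
  unfold rngC
  fun_prop

theorem mem_rngC {lo hi k : ℕ} (h : k ∈ rngC lo hi) : lo ≤ k ∧ k ≤ hi := by
  unfold rngC at h
  obtain ⟨t, ht, rfl⟩ := List.mem_map.1 h
  have := List.mem_range.1 ht
  omega

@[fun_prop]
theorem ptf_clp {u : γ → ℤ} (hP : PTF P) (hu : PTF u) : PTF (fun c => clp (P c) (u c)) := by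
  unfold clp
  fun_prop

@[fun_prop]
theorem ptf_wlo {κ : γ → ℕ} {x : γ → St} (hP : PTF P) (hκ : PTU κ) (hx : PTF x) :
    PTF (fun c => wlo (P c) (κ c) (x c)) := by
  unfold wlo
  fun_prop

@[fun_prop]
theorem ptf_whi {κ : γ → ℕ} {x : γ → St} (hP : PTF P) (hκ : PTU κ) (hx : PTF x) :
    PTF (fun c => whi (P c) (κ c) (x c)) := by
  unfold whi
  fun_prop

@[fun_prop]
theorem ptf_pos {κ a : γ → ℕ} {x : γ → St} (hP : PTF P) (hκ : PTU κ) (hx : PTF x) (ha : PTF a) :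
    PTF (fun c => pos (P c) (κ c) (x c) (a c)) := by
  unfold pos
  fun_prop

@[fun_prop]
theorem ptf_cut {κ q a : γ → ℕ} {x : γ → St} (hP : PTF P) (hκ : PTU κ) (hx : PTF x) (hq : PTF q)
    (ha : PTF a) : PTF (fun c => cut (P c) (κ c) (x c) (q c) (a c)) := by
  unfold cut
  fun_prop

@[fun_prop]
theorem ptf_piece {κ q a b : γ → ℕ} {x : γ → St} (hP : PTF P) (hκ : PTU κ) (hx : PTF x)
    (hq : PTF q) (ha : PTF a) (hb : PTF b) :
    PTF (fun c => piece (P c) (κ c) (x c) (q c) (a c) (b c)) := by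
  unfold piece
  fun_prop

end elem

end Crest.Agent.R288.PtSt966
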