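import Crest.Agent.R288.LeafO_690
import Crest.Agent.R288.PtSt_966

/-!
# R288, leaf RAM.PROG (helper690): certificates of the leaf function

`ptf_clip`, `ptf_off`, `ptf_offs`, `ptf_T1`, `ptf_leafArg`, `ptf_leafP`: the arguments of the leaf
command and the leaf value from its answer are `PTF` (`k`, `Lam`, `n`, `m` in binary).
-/

set_option autoImplicit false

namespace Crest.Agent.R288.PtLf690

open Crest.Agent.Lib.PT Crest.Agent.R288.Alg45 Crest.Agent.R288.PtSt966
  Crest.Agent.R288.StPT569 Crest.Agent.R288.NodePT222 Crest.Agent.R288.LeafO690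
open Crest.Agent.R288.GameA347 (clip)
open Crest.Agent.R288.Gt373 (off)

variable {γ : Type} [PTCode γ]

@[fun_prop]
theorem ptf_clip {m a : γ → ℕ} {u : γ → ℤ} (hm : PTF m) (ha : PTF a) (hu : PTF u) :
    PTF (fun c => clip (m c) (a c) (u c)) := by
  unfold clip
  fun_prop

@[fun_prop]
theorem ptf_off {m a : γ → ℕ} {u : γ → ℤ} (hm : PTF m) (ha : PTF a) (hu : PTF u) :
    PTF (fun c => off (m c) (a c) (u c)) := by
  unfold off
  fun_prop

@[fun_prop]
theorem ptf_offs {n m k : γ → ℕ} {s : γ → St} (hn : PTF n) (hm : PTF m) (hk : PTF k)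
    (hs : PTF s) : PTF (fun c => offs (n c) (m c) (k c) (s c)) := by
  unfold offs
  fun_prop

@[fun_prop]
theorem ptf_T1 {n m k : γ → ℕ} {s : γ → St} (hn : PTF n) (hm : PTF m) (hk : PTF k)
    (hs : PTF s) : PTF (fun c => T1 (n c) (m c) (k c) (s c)) := by
  unfold T1
  fun_prop

@[fun_prop]
theorem ptf_leafArg {n m k Lam : γ → ℕ} {s : γ → St} (hn : PTF n) (hm : PTF m) (hk : PTF k)
    (hL : PTF Lam) (hs : PTF s) :
    PTF (fun c => leafArg (n c) (m c) (k c) (Lam c) (s c)) := by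
  unfold leafArg
  fun_prop

@[fun_prop]
theorem ptf_leafP {n m k Lam g : γ → ℕ} {s : γ → St} (hn : PTF n) (hm : PTF m) (hk : PTF k)
    (hL : PTF Lam) (hg : PTF g) (hs : PTF s) :
    PTF (fun c => leafP (n c) (m c) (k c) (Lam c) (g c) (s c)) := by
  unfold leafP
  fun_prop

end Crest.Agent.R288.PtLf690
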