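import Crest.Agent.R288.PgC_578
import Crest.Agent.R288.PgZc_692
import Crest.Agent.R288.AsmD_331
import Crest.Agent.R288.PtLf_690
import Crest.Agent.R288.ParX_901

/-!
# R288, [PROG] P10 (helper200): the leaf fields of `Pgc578.Hyp` at 331's configuration

* `laN`, `lfN`, `lgN` : leaf request, decoding, answer of an input;
* `laK`, `lfK` : the same from the constants; `ptf_laK`, `ptf_lfK`; `laK_konO`, `lfK_konO` = fields
  `dla`, `dlf`;
* `LeafH c W Z lfc` : the six leaf fields of `Hyp`; **`leafH`** : they hold in every machine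
  environment of the input, `lfc = lcO h`.
-/

set_option autoImplicit false

namespace Crest.Agent.R288.HypL200

open Crest.Agent.Lib.PT Crest.Agent.R295 HL Pt949
open Crest.Agent.R288.Alg45 Crest.Agent.R288.PrK690 Crest.Agent.R288.Pgb578
open Crest.Agent.R288.Pgc578 Crest.Agent.R288.PadK901 Crest.Agent.R288.ParP901
open Crest.Agent.R288.Par806 Crest.Agent.R288.Asm12 Crest.Agent.R288.Asm331
open Crest.Agent.R288.Pl726 Crest.Agent.R288.Top791
open Crest.Agent.R288.Phe940 (Wld wld)

/-! ### of an input -/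

/-- the leaf request of a state -/
def laN (x y : List ℕ) (h : ℕ) (s : St) : List ℕ :=
  LeafO690.leafArg x.length y.length (nn h) (2 ^ lam h) s

/-- the leaf value from the answer -/
def lfN (x y : List ℕ) (h g : ℕ) (s : St) : Option ℕ :=
  LeafO690.leafP x.length y.length (nn h) (2 ^ lam h) g s

/-- the answer of the leaf command -/
def lgN (x y : List ℕ) (h : ℕ) (s : St) : ℕ := LeafX222.leafF x y (laN x y h s)

/-- cost of a leaf request -/
def lcO (h : ℕ) : ℕ := LeafX222.leafCost (2 ^ lam h) h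

/-! ### from the constants -/

/-- the leaf request from the constants -/
def laK (K : KN) (s : St) : List ℕ :=
  LeafO690.leafArg (K.1.getD 1 0) (K.1.getD 2 0) (nn (hK K)) (2 ^ lam (hK K)) s

/-- the decoding from the constants -/
def lfK (K : KN) (g : ℕ) (s : St) : Option ℕ :=
  LeafO690.leafP (K.1.getD 1 0) (K.1.getD 2 0) (nn (hK K)) (2 ^ lam (hK K)) g s

theorem ptf_laK : PTF (fun p : KN × St => laK p.1 p.2) := by
  have h1 : PTU (fun p : KN × St => hK p.1) := ptu_hK PTF.fst
  have h2 : PTF (fun p : KN × St => nn (hK p.1)) := (ptu_nn h1).toPTF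
  have h3 : PTF (fun p : KN × St => 2 ^ lam (hK p.1)) := PTF.natTwoPow (ptu_lam h1)
  have h4 : PTF (fun p : KN × St => p.1.1) := by fun_prop
  exact PtLf690.ptf_leafArg (PTF.getD (PTU.const 1) h4 (PTF.const 0))
    (PTF.getD (PTU.const 2) h4 (PTF.const 0)) h2 h3 PTF.snd

theorem ptf_lfK : PTF (fun p : KN × ℕ × St => lfK p.1 p.2.1 p.2.2) := by
  have h1 : PTU (fun p : KN × ℕ × St => hK p.1) := ptu_hK PTF.fst
  have h2 : PTF (fun p : KN × ℕ × St => nn (hK p.1)) := (ptu_nn h1).toPTF
  have h3 : PTF (fun p : KN × ℕ × St => 2 ^ lam (hK p.1)) := PTF.natTwoPow (ptu_lam h1)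
  have h4 : PTF (fun p : KN × ℕ × St => p.1.1) := by fun_prop
  have h5 : PTF (fun p : KN × ℕ × St => p.2.1) := by fun_prop
  have h6 : PTF (fun p : KN × ℕ × St => p.2.2) := by fun_prop
  exact PtLf690.ptf_leafP (PTF.getD (PTU.const 1) h4 (PTF.const 0))
    (PTF.getD (PTU.const 2) h4 (PTF.const 0)) h2 h3 h5 h6

/-- field `dla` -/
theorem laK_konO (x y : List ℕ) (ε : ℚ) :
    laK (konO (PltT365.v0 x y ε)) = laN x y (hh x y ε) := rfl

/-- field `dlf` -/
theorem lfK_konO (x y : List ℕ) (ε : ℚ) :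
    lfK (konO (PltT365.v0 x y ε)) = lfN x y (hh x y ε) := rfl

/-! ### the fields -/

/-- the leaf fields of `Pgc578.Hyp` -/
structure LeafH (c : Cx) (W : Wld) (Z lfc : ℕ) : Prop where
  la_ok : ∀ y, c.DS y → W.okE (c.la y)
  la_E : ∀ y, c.DS y → W.E (c.la y) = [c.lg y]
  la_c : ∀ y, c.DS y → W.cE (c.la y) ≤ lfc
  la_wd : ∀ y, c.DS y → Wd W.M Z (3 :: c.la y)
  lg_lt : ∀ y, c.DS y → c.lg y < W.M
  leaf_eq : ∀ y, c.leaf y = c.lf (c.lg y) y

theorem leafCost_le {D Lv Lv' : ℕ} (h : Lv ≤ Lv') :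
    LeafX222.leafCost D Lv ≤ LeafX222.leafCost D Lv' := by
  unfold LeafX222.leafCost
  gcongr

theorem lt_of_PIn {x y : List ℕ} {ε : ℚ} {pe : PEnv} (hin : PIn x y ε pe) {a : ℕ}
    (ha : a ≤ (inp x y ε).length) : a < pe.B := by
  refine lt_of_lt_of_le ?_ hin.B
  calc a < (inp x y ε).length + 2 := by omega
    _ = ((inp x y ε).length + 2) ^ 1 := (pow_one _).symm
    _ ≤ _ := Nat.pow_le_pow_right (by omega) (by norm_num)

theorem len_le (x y : List ℕ) (ε : ℚ) : x.length + y.length ≤ (inp x y ε).length := by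
  have := Top791.inp_length x y ε
  omega

/-- **the leaf fields in every machine environment of the input** -/
theorem leafH {x y : List ℕ} {ε : ℚ} (hN : Num x y ε) {pe : PEnv} (hin : PIn x y ε pe)
    {c : Cx} {N Z Pm a1 a2 : ℕ} {τ : ℕ → ℕ} {K : KN}
    (hE : Env (wld pe N τ a1 a2 Pm) K Z)
    (hleaf : c.leaf = (cfgO x y ε).leaf) (hla : c.la = laN x y (hh x y ε))
    (hlf : c.lf = lfN x y (hh x y ε)) (hlg : c.lg = lgN x y (hh x y ε)) :
    LeafH c (wld pe N τ a1 a2 Pm) Z (lcO (hh x y ε)) := by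
  have hn : x.length < pe.B := lt_of_PIn hin (by have := len_le x y ε; omega)
  have hm : y.length < pe.B := lt_of_PIn hin (by have := len_le x y ε; omega)
  have hD : Shell12.D0 (x.length + y.length) ≤ x.length + y.length + 1 := by
    unfold Shell12.D0
    rcases Nat.eq_zero_or_pos (x.length + y.length) with h0 | h0
    · rw [h0]; simp
    · have h1 : 2 ^ (Nat.size (x.length + y.length) - 1) ≤ x.length + y.length := by
        rw [← Nat.lt_size]
        have := Nat.size_pos.2 h0
        omega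
      refine (Nat.pow_le_pow_right (by norm_num) ?_).trans (h1.trans (Nat.le_succ _))
      have := Nat.size_pos.2 h0
      omega
  have hL1 : 2 ^ lam (hh x y ε) < pe.B := by
    refine lt_of_le_of_lt (hN.lam_le.trans hD) ?_
    have h1 := len_le x y ε
    have h2 := Top791.inp_length x y ε
    exact lt_of_PIn hin (by omega)
  constructor
  · intro s _
    rw [hla]
    exact LeafO690.leafArg_length _ _ _ _ s
  · intro s _
    rw [hla, hlg]
    show [pe.X (laN x y (hh x y ε) s)] = [lgN x y (hh x y ε) s]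
    rw [hin.X]
    rfl
  · intro s _
    rw [hla]
    show pe.XT (laN x y (hh x y ε) s) ≤ _
    rw [hin.XT]
    exact leafCost_le hN.size_le
  · intro s _
    rw [hla]
    exact PgZ692.wd_leaf (W := wld pe N τ a1 a2 Pm) hE hn hm hL1 s
  · intro s _
    rw [hlg]
    show lgN x y (hh x y ε) s < pe.B
    have := hin.Xlt (laN x y (hh x y ε) s)
    rwa [hin.X] at this
  · intro s
    rw [hleaf, hlf, hlg]
    exact LeafO690.leafO_eq hN.lam_le s

end Crest.Agent.R288.HypL200
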