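import Crest.Agent.R288.HypA_275

/-!
# R288, [PROG] P10 (helper200): the extra hypothesis `vN` of `x_hyp`, `root_cz`

* **`vN`** : numbers of the pairs of `Pgc578.Hyp` at every pointer of the tape (#5269, #5270), in
  the letters of `HypA275`.
-/

set_option autoImplicit false

namespace Crest.Agent.R288.HypN200

open Crest.Agent.R295.Rnd627
open Crest.Agent.R288.Alg45 Crest.Agent.R288.Dom20 Crest.Agent.R288.Asm331
open Crest.Agent.R288.AnaLip364 (LipOk)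
open Crest.Agent.R288.HypV53 (okB_of_InD VOk)
open Crest.Agent.R288.PgZ692 (ZP)
open Crest.Agent.R288.HypA275 (cxOf top ep_lt vs_of)

variable {C : Cfg} (la : St → List ℕ) (lf : ℕ → St → Option ℕ) (lg : St → ℕ) {τ : ℕ → ℕ}
  {x y : List ℕ} {g p L cr : ℕ} {ζ : ℝ}

/-- extra hypothesis `vN` -/
theorem vN (h : C.Good (C.X τ)) (hO : LipOk C x y g p L ζ) (hV : VOk C x y cr)
    (hs : ∀ e ≤ C.P.E, ∀ s, InD C.P.N C.I C.P.Dm s →
      GSt442.gst x y C.P.n s ≤ FE C.P (C.X τ) e s) {M Z N : ℕ} (hZ : ZP C.P ≤ Z)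
    (hM : 2 ^ (top C + 4 + (C.P.n + C.P.du + C.P.a2 + cr) * C.I) < M) :
    ∀ l, 0 < l → l ≤ (cxOf C la lf lg τ).EK → ∀ κ z, (cxOf C la lf lg τ).DP κ z →
      ((cxOf C la lf lg τ).tX l κ z).All N (fun v => v < M) := by
  intro l hl0 hl κ z hz
  have hz' : (κ, z) ∈ OmP C.P.N C.I C.P.Dm C.K0 := hz
  obtain ⟨hκ, hI⟩ := (mem_OmP (AnaLip364.N_pos C.P)).1 hz'
  have he := ep_lt (P := C.P) hl0 hl
  refine (vs_of h hO hV he.le (hs _ he.le) hZ hM).num ?_ (okB_of_InD hI)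
    ((dom_iff C.P).1 hI).2.2
  unfold top
  simp only at hκ
  omega

end Crest.Agent.R288.HypN200
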