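import Crest.Agent.R288.ParP_901
import Crest.Agent.R288.AsmN_12
import Crest.Agent.R288.PltT_365

/-!
# R288, [PARP] part K (helper901): the constant `kon` of all frames

`konO v = ([h, |x|, |y|, L], replicate (2 ^ cPad h) 0)` for the first environment
`v = |x| :: |y| :: L :: ratWords ε`, `h = hE v = clog 2 L`, `cPad h = 64 W Lg`.
* `hK k` = height read off `kon`, `cl k m = min m (log 2 pad.length)`: exponents cut at the pad;
  `2 ^ cl k m` is unary poly-time (`ptu_two_cl`); `cl_konO : cl (konO v) m = m` for `m ≤ cPad h`;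
* `ev_le_div`, `two_pow_le_og`: `2 ^ (C W^a Lg^b)` is below the space of a frame;
* `mnK`: the statement `v ↦ tow (konO v)`, rule `mnK_PEx`, `mnK_run` on every `PIn` environment.
-/

set_option autoImplicit false

open Filter

namespace Crest.Agent.R288.PadK901

open Crest.Agent.R295 Crest.Agent.R295.HL Crest.Agent.R295.Pt949
open Crest.Agent.Lib.PT
open Crest.Agent.R288.Pl726 (PS PEnv PEx PIn og)
open Crest.Agent.R288.Shell12 (fuc)
open Crest.Agent.R288.Asy720 Crest.Agent.R288.Pad901 Crest.Agent.R288.ParP901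
open Crest.Agent.R288.Par806 (W Lg Mg nn)

/-- exponent of the length of the pad -/
@[irreducible] def cPad (h : ℕ) : ℕ := 64 * W h * Lg h

@[fun_prop]
theorem ptu_cPad {γ : Type} [PTCode γ] {h : γ → ℕ} (hh : PTU h) :
    PTU (fun c => cPad (h c)) := by
  unfold cPad; fun_prop

/-- the words of the parameters: `h, |x|, |y|, L` -/
def parE (v : List ℕ) : List ℕ := [hE v, v.getD 0 0, v.getD 1 0, v.getD 2 0]

theorem ptf_parE : PTF parE := by
  unfold parE
  exact PTF.listCons (ptu_hE PTF.id).toPTF (PTF.listCons (by fun_prop) (PTF.listCons (by fun_prop)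
    (PTF.listCons (by fun_prop) (PTF.const []))))

/-- exponent of the pad of the first environment -/
def cE (v : List ℕ) : ℕ := cPad (hE v)

theorem ptu_cE : PTU cE := ptu_cPad (ptu_hE PTF.id)

/-- the constant of all frames -/
def konO (v : List ℕ) : List ℕ × List ℕ := kon parE cE v

theorem konO_eq (v : List ℕ) :
    konO v = ([hE v, v.getD 0 0, v.getD 1 0, v.getD 2 0], List.replicate (2 ^ cPad (hE v)) 0) := rfl

@[simp] theorem konO_fst (v : List ℕ) : (konO v).1 = [hE v, v.getD 0 0, v.getD 1 0, v.getD 2 0] := rfl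
@[simp] theorem konO_len (v : List ℕ) : (konO v).2.length = 2 ^ cPad (hE v) := by
  rw [konO_eq]; simp

/-- the height read off `kon` -/
def hK (k : List ℕ × List ℕ) : ℕ := Nat.clog 2 (k.1.getD 3 0)

@[simp] theorem hK_konO (v : List ℕ) : hK (konO v) = hE v := rfl

/-- exponent cut at the pad -/
def cl (k : List ℕ × List ℕ) (m : ℕ) : ℕ := min m (Nat.log 2 k.2.length)

theorem cl_konO {v : List ℕ} {m : ℕ} (h : m ≤ cPad (hE v)) : cl (konO v) m = m := by
  unfold cl
  rw [konO_len, Nat.log_pow (by norm_num)]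
  exact min_eq_left h

theorem clamp_konO {v : List ℕ} {m : ℕ} (h : m ≤ 2 ^ cPad (hE v)) : clamp m (konO v).2 = m :=
  clamp_eq (by rw [konO_len]; exact h)

theorem two_pow_cl_le (k : List ℕ × List ℕ) (m : ℕ) : 2 ^ cl k m ≤ k.2.length + 1 := by
  unfold cl
  refine (Nat.pow_le_pow_right (by norm_num) (min_le_right _ _)).trans ?_
  rcases Nat.eq_zero_or_pos k.2.length with h | h
  · simp [h]
  · exact (Nat.pow_log_le_self 2 h.ne').trans (Nat.le_succ _)

section ptf

variable {γ : Type} [PTCode γ] {k : γ → List ℕ × List ℕ} {m : γ → ℕ}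

@[fun_prop]
theorem ptu_hK (hk : PTF k) : PTU (fun c => hK (k c)) := by
  unfold hK
  refine ptu_clog ?_
  fun_prop

@[fun_prop]
theorem ptu_cl (hk : PTF k) (hm : PTF m) : PTU (fun c => cl (k c) (m c)) := by
  unfold cl
  have h1 : PTU (fun c => (k c).2.length) := by fun_prop
  exact PTF.natMinUn hm (PtX949.ptu_log (PTF.const 2) h1.toPTF)

/-- powers of two of cut exponents are unary -/
theorem ptu_two_cl (hk : PTF k) (hm : PTF m) : PTU (fun c => 2 ^ cl (k c) (m c)) := by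
  have h1 : PTU (fun c => (k c).2.length + 1) := by fun_prop
  have h2 : PTF (fun c => 2 ^ cl (k c) (m c)) := PTF.natTwoPow (ptu_cl hk hm)
  refine (PTF.natMinUn h2 h1).of_eq fun c => ?_
  exact min_eq_left (two_pow_cl_le _ _)

end ptf

/-! ### the pad against the space of a frame -/

/-- `C W^a Lg^b ≤ h / il 3 h` -/
theorem ev_le_div (C a b : ℕ) : ∀ᶠ h : ℕ in atTop, C * W h ^ a * Lg h ^ b ≤ h / il 3 h := by
  filter_upwards [Par806.ev_pow_le_self C (a + 1) b 0 0 0 1, Par806.ev_le_W 2] with h h1 h2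
  have h3 : 0 < il 3 h := by unfold Par806.W at h2; omega
  rw [Nat.le_div_iff_mul_le h3]
  simp only [pow_zero, mul_one, zero_mul, add_zero, pow_one] at h1
  refine le_trans ?_ h1
  have h4 : il 3 h ≤ W h := Nat.le_succ _
  calc C * W h ^ a * Lg h ^ b * il 3 h ≤ C * W h ^ a * Lg h ^ b * W h :=
        Nat.mul_le_mul_left _ h4
    _ = C * W h ^ (a + 1) * Lg h ^ b := by ring

/-- `2 ^ (C W^a Lg^b)` is below the space of a frame -/
theorem two_pow_le_og {C a b c k r L : ℕ} (hc : 1 ≤ c) (hr : 1 ≤ r)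
    (h : C * W (Nat.clog 2 L) ^ a * Lg (Nat.clog 2 L) ^ b ≤ Nat.clog 2 L / il 3 (Nat.clog 2 L)) :
    2 ^ (C * W (Nat.clog 2 L) ^ a * Lg (Nat.clog 2 L) ^ b) ≤ og c k r 3 L := by
  have e : Front327.slk 3 L = il 3 (Nat.clog 2 L) := slk_eq 3 L
  unfold og
  rw [e]
  calc 2 ^ (C * W (Nat.clog 2 L) ^ a * Lg (Nat.clog 2 L) ^ b)
      ≤ 2 ^ (r * Nat.clog 2 L / il 3 (Nat.clog 2 L)) := by
        refine Nat.pow_le_pow_right (by norm_num) (h.trans ?_)
        exact Nat.div_le_div_right (Nat.le_mul_of_pos_left _ hr)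
    _ = 1 * 2 ^ (r * Nat.clog 2 L / il 3 (Nat.clog 2 L)) * 1 := by ring
    _ ≤ _ := Nat.mul_le_mul (Nat.mul_le_mul_right _ hc) (Nat.one_le_pow _ _ (Nat.succ_pos _))

/-- everything needed of the height for the pad -/
def PadOk (h : ℕ) : Prop := cPad h + 4 ≤ h / il 3 h

theorem ev_PadOk : ∀ᶠ h : ℕ in atTop, PadOk h := by
  filter_upwards [ev_le_div 65 1 1, Par806.ev_le_W 4] with h h1 h2
  unfold PadOk cPad
  have h3 := Par806.Lg_pos h
  simp only [pow_one] at h1
  refine le_trans ?_ h1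
  have h4 : 4 ≤ W h * Lg h := by nlinarith
  nlinarith

theorem PadOk.two_pow {c k r L : ℕ} (hc : 1 ≤ c) (hr : 1 ≤ r) (h : PadOk (Nat.clog 2 L)) :
    2 ^ (cPad (Nat.clog 2 L) + 4) ≤ og c k r 3 L := by
  have e : Front327.slk 3 L = il 3 (Nat.clog 2 L) := slk_eq 3 L
  unfold og
  rw [e]
  calc 2 ^ (cPad (Nat.clog 2 L) + 4)
      ≤ 2 ^ (r * Nat.clog 2 L / il 3 (Nat.clog 2 L)) := by
        refine Nat.pow_le_pow_right (by norm_num) (le_trans h ?_)
        exact Nat.div_le_div_right (Nat.le_mul_of_pos_left _ hr)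
    _ = 1 * 2 ^ (r * Nat.clog 2 L / il 3 (Nat.clog 2 L)) * 1 := by ring
    _ ≤ _ := Nat.mul_le_mul (Nat.mul_le_mul_right _ hc) (Nat.one_le_pow _ _ (Nat.succ_pos _))

theorem PadOk.le_self {h : ℕ} (hp : PadOk h) : cPad h + 4 ≤ h := le_trans hp (Nat.div_le_self _ _)

/-- the pad is below the number of input words -/
theorem PadOk.two_pow_le {L : ℕ} (h : PadOk (Nat.clog 2 L)) :
    2 ^ (cPad (Nat.clog 2 L) + 3) ≤ L := by
  have h1 := h.le_self
  have h2 : 1 < L := by
    by_contra h3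
    have h4 : Nat.clog 2 L = 0 := Nat.clog_of_right_le_one (by omega) 2
    rw [h4] at h1
    omega
  have h3 : 2 ^ (Nat.clog 2 L - 1) < L := Nat.pow_pred_clog_lt_self (by norm_num) h2
  exact (Nat.pow_le_pow_right (by norm_num) (by omega)).trans h3.le

/-! ### the statement of the program -/

/-- first statement of the program: the constant `kon` -/
noncomputable def mnK : PS := mkKonP parE ptf_parE cE ptu_cE.toPTF

/-- big step rule of `mnK` -/
theorem mnK_PEx {pe : PEnv} {pr : List PS} {v : List ℕ} (i : ℕ)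
    (hB : ∀ x ∈ parE v, x < pe.B) (h2 : 2 ^ cE v < pe.B) (h4 : 4 < pe.B)
    (hS : 2 ^ cE v + 7 ≤ pe.S) :
    ∃ t, t ≤ 2 * cE v + 5 ∧ PEx pe pr mnK v i (tow (konO v)) i t 0 :=
  mkKonP_PEx ptf_parE ptu_cE.toPTF i hB h4 h2 (by
    have : (parE v).length = 4 := rfl
    omega)

open Crest.Agent.R288.Asm12 Crest.Agent.R288.Top791
open Crest.Agent.R288.PltT365 (v0)

theorem hE_v0 (x y : List ℕ) (ε : ℚ) : hE (v0 x y ε) = hh x y ε := rfl

/-- the words `h, |x|, |y|, L` of an input -/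
theorem parE_v0 (x y : List ℕ) (ε : ℚ) :
    parE (v0 x y ε) = [hh x y ε, x.length, y.length, (inp x y ε).length] := rfl

theorem konO_v0 (x y : List ℕ) (ε : ℚ) :
    konO (v0 x y ε) = ([hh x y ε, x.length, y.length, (inp x y ε).length],
      List.replicate (2 ^ cPad (hh x y ε)) 0) := rfl

theorem mnK_num {cS kS rS L B S : ℕ} (hc : 1 ≤ cS) (hr : 1 ≤ rS) (hS : S = og cS kS rS 3 L)
    (hp : PadOk (Nat.clog 2 L)) (hB : (L + 2) ^ 3 ≤ B) :
    L < B ∧ Nat.clog 2 L < B ∧ 2 ^ cPad (Nat.clog 2 L) < B ∧ 4 < B ∧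
      2 ^ cPad (Nat.clog 2 L) + 7 ≤ S := by
  have h1 := hp.two_pow (c := cS) (k := kS) (r := rS) hc hr
  have h2 := hp.two_pow_le
  have h4 : L < B := by
    refine lt_of_lt_of_le ?_ hB
    calc L < L + 2 := by omega
      _ = (L + 2) ^ 1 := (pow_one _).symm
      _ ≤ _ := Nat.pow_le_pow_right (by omega) (by norm_num)
  have h5 : Nat.clog 2 L ≤ L := Nat.clog_le_of_le_pow (Nat.lt_two_pow_self).le
  rw [← hS] at h1
  rw [pow_add] at h1 h2
  have h6 : 1 ≤ 2 ^ cPad (Nat.clog 2 L) := Nat.one_le_two_pow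
  generalize 2 ^ cPad (Nat.clog 2 L) = q at *
  omega

/-- **the first statement on every environment of the input** -/
theorem mnK_run {cS kS rS : ℕ} (hc : 1 ≤ cS) (hr : 1 ≤ rS) {x y : List ℕ} {ε : ℚ} {pe : PEnv}
    {pr : List PS} (hin : PIn x y ε pe) (hS : pe.S = og cS kS rS 3 (inp x y ε).length)
    (hp : PadOk (hh x y ε)) (i : ℕ) :
    ∃ t, t ≤ 2 * cPad (hh x y ε) + 5 ∧
      PEx pe pr mnK (v0 x y ε) i (tow (konO (v0 x y ε))) i t 0 := by
  have hL := inp_length x y ε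
  have e : cE (v0 x y ε) = cPad (hh x y ε) := rfl
  have h0 := mnK_num hc hr hS hp hin.B
  change _ ∧ hh x y ε < pe.B ∧ 2 ^ cPad (hh x y ε) < pe.B ∧ _ ∧ 2 ^ cPad (hh x y ε) + 7 ≤ pe.S at h0
  obtain ⟨h1, h2, h3, h4, h5⟩ := h0
  rw [← e] at h3 h5
  have hB : ∀ a ∈ parE (v0 x y ε), a < pe.B := by
    intro a ha
    rw [parE_v0] at ha
    simp only [List.mem_cons, List.not_mem_nil, or_false] at ha
    rcases ha with ha | ha | ha | ha
    · rw [ha]; exact h2
    · rw [ha]; omega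
    · rw [ha]; omega
    · rw [ha]; exact h1
  have h6 := mnK_PEx (pr := pr) i hB h3 h4 h5
  rw [e] at h6
  exact h6

end Crest.Agent.R288.PadK901
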