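import Crest.Agent.R288.PgX_583
import Crest.Agent.R288.DomB_20

/-!
# R288, [PROG] procedure F (helper380), part A: number and place of the keys of the hull

* `menu_length`, `uP`, `hprs_length` : number of pairs of a hull (every value `Fy`)
* `mem_hprs`, `mem_hkeys`, `hkeys_length`
* `hkeys_Om` : every key of a state of the domain is a pair of `Om` (classes `≤ K0`), same block
-/

set_option autoImplicit false

namespace Crest.Agent.R288.PgF380

open Crest.Agent.R288.Alg45 Crest.Agent.R288.Dom20 Crest.Agent.R288.PgX583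

variable (P : Par)

theorem menu_length (κ' ρ : ℕ) (y : St) :
    (menu P κ' ρ y).length = (2 * (ρ / gst P κ') + 3) * (2 * (ρ / gst P κ') + 3) := by
  unfold menu
  simp [List.length_flatMap]

/-- bound of the number of pairs of a hull -/
def uP : ℕ := (P.al + P.a2 + 1) * ((8 * 2 ^ (P.al + P.pb) + 3) * (8 * 2 ^ (P.al + P.pb) + 3))

theorem uP_pos : 0 < uP P := by unfold uP; positivity

theorem div_gst_le {Fy κ' : ℕ} (h : Nat.log 2 Fy ≤ κ' + P.al) :
    2 * Fy / gst P κ' ≤ 4 * 2 ^ (P.al + P.pb) := by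
  have h1 : Fy < 2 ^ (Nat.log 2 Fy + 1) := Nat.lt_pow_succ_log_self (by norm_num) Fy
  have h2 : 2 ^ (Nat.log 2 Fy + 1) ≤ 2 ^ (κ' + P.al + 1) := Nat.pow_le_pow_right (by norm_num) (by omega)
  refine Nat.div_le_of_le_mul ?_
  unfold gst
  rw [show 2 ^ (κ' - P.pb) * (4 * 2 ^ (P.al + P.pb)) = 4 * (2 ^ (κ' - P.pb) * 2 ^ (P.al + P.pb)) by
    ring, ← pow_add]
  have h3 : 2 ^ (κ' + P.al) ≤ 2 ^ (κ' - P.pb + (P.al + P.pb)) :=
    Nat.pow_le_pow_right (by norm_num) (by omega)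
  rw [pow_succ] at h2
  omega

variable {P}

theorem mem_rngC' {lo hi a : ℕ} : a ∈ rngC lo hi ↔ lo ≤ a ∧ a ≤ hi := by
  unfold rngC
  rw [List.mem_map]
  constructor
  · rintro ⟨t, ht, rfl⟩
    rw [List.mem_range] at ht
    omega
  · rintro ⟨h1, h2⟩
    exact ⟨a - lo, by rw [List.mem_range]; omega, by omega⟩

theorem mem_hprs {Fy : ℕ} {y : St} {p : ℕ × St} : p ∈ hprs P Fy y ↔
    (Nat.log 2 Fy - P.al ≤ p.1 ∧ p.1 ≤ Nat.log 2 Fy + P.a2) ∧ p.2 ∈ menu P p.1 (2 * Fy) y := by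
  unfold hprs
  rw [List.mem_flatMap]
  constructor
  · rintro ⟨κ', h1, h2⟩
    rw [List.mem_map] at h2
    obtain ⟨z, h3, rfl⟩ := h2
    exact ⟨mem_rngC'.1 h1, h3⟩
  · rintro ⟨h1, h2⟩
    exact ⟨p.1, mem_rngC'.2 h1, List.mem_map.2 ⟨p.2, h2, rfl⟩⟩

theorem flatMap_length_le {α β : Type} (l : List α) (f : α → List β) (c : ℕ)
    (h : ∀ a ∈ l, (f a).length ≤ c) : (l.flatMap f).length ≤ l.length * c := by
  induction l with
  | nil => simp
  | cons a l ih =>
    rw [List.flatMap_cons, List.length_append, List.length_cons, Nat.add_mul, Nat.one_mul]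
    have h1 := h a List.mem_cons_self
    have h2 := ih fun b hb => h b (List.mem_cons_of_mem _ hb)
    omega

theorem hprs_length (Fy : ℕ) (y : St) : (hprs P Fy y).length ≤ uP P := by
  unfold hprs
  refine (flatMap_length_le _ _ ((8 * 2 ^ (P.al + P.pb) + 3) * (8 * 2 ^ (P.al + P.pb) + 3))
    fun κ' hκ => ?_).trans ?_
  · rw [List.length_map, menu_length]
    have h1 := div_gst_le P (Fy := Fy) (κ' := κ') (by have := (mem_rngC'.1 hκ).1; omega)
    have h2 : 2 * (2 * Fy / gst P κ') + 3 ≤ 8 * 2 ^ (P.al + P.pb) + 3 := by omega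
    exact Nat.mul_le_mul h2 h2
  · unfold uP
    refine Nat.mul_le_mul_right _ ?_
    unfold rngC
    rw [List.length_map, List.length_range]
    omega

theorem mem_hkeys {Fy : ℕ} {y : St} {ls : List ℕ} {k : ℕ × ℕ × St} :
    k ∈ hkeys P Fy y ls ↔ k.1 ∈ ls ∧ ∃ p ∈ hprs P Fy y, k.2 = harg k.1 p := by
  unfold hkeys HK
  rw [List.mem_flatMap]
  constructor
  · rintro ⟨p, hp, h⟩
    rw [List.mem_map] at h
    obtain ⟨l, hl, rfl⟩ := h
    exact ⟨hl, p, hp, rfl⟩
  · rintro ⟨hl, p, hp, h⟩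
    exact ⟨p, hp, List.mem_map.2 ⟨k.1, hl, by rw [← h]⟩⟩

theorem hkeys_length (Fy : ℕ) (y : St) (ls : List ℕ) :
    (hkeys P Fy y ls).length = (hprs P Fy y).length * ls.length := by
  unfold hkeys HK
  rw [List.length_flatMap]
  simp

theorem hkeys_length_le (Fy : ℕ) (y : St) (ls : List ℕ) :
    (hkeys P Fy y ls).length ≤ uP P * ls.length := by
  rw [hkeys_length]
  exact Nat.mul_le_mul_right _ (hprs_length Fy y)

/-- the pairs of the hull of a state of the domain -/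
theorem hprs_Om {I K0 Fy : ℕ} {y : St} (h : Dom P I y) (hK : Nat.log 2 Fy + P.a2 ≤ K0)
    {p : ℕ × St} (hp : p ∈ hprs P Fy y) : p ∈ Om P I K0 := by
  obtain ⟨⟨-, h2⟩, h3⟩ := mem_hprs.1 hp
  exact mem_Om.2 ⟨h2.trans hK, h.menu h3⟩

theorem hprs_ij {Fy : ℕ} {y : St} {p : ℕ × St} (hp : p ∈ hprs P Fy y) :
    p.2.i = y.i ∧ p.2.j = y.j := menu_ij (mem_hprs.1 hp).2

/-- **the keys of the hull of a state of the domain** -/
theorem hkeys_Om {I K0 Fy : ℕ} {y : St} {ls : List ℕ} (h : Dom P I y)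
    (hK : Nat.log 2 Fy + P.a2 ≤ K0) {k : ℕ × ℕ × St} (hk : k ∈ hkeys P Fy y ls) :
    k.2 ∈ Om P I K0 := by
  obtain ⟨-, p, hp, h2⟩ := mem_hkeys.1 hk
  have h3 := hprs_Om h hK hp
  rw [h2]
  unfold harg
  split_ifs with h0
  · exact pair_zero (mem_Om.1 h3).2
  · exact h3

theorem hkeys_ij {Fy : ℕ} {y : St} {ls : List ℕ} {k : ℕ × ℕ × St} (hk : k ∈ hkeys P Fy y ls) :
    k.2.2.i = y.i ∧ k.2.2.j = y.j := by
  obtain ⟨-, p, hp, h2⟩ := mem_hkeys.1 hk
  have h3 := hprs_ij hp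
  rw [h2]
  unfold harg
  split_ifs with h0
  · exact h3
  · exact h3

/-- a sum over the keys of the hull -/
theorem hkeys_sum_le (Fy : ℕ) (y : St) (ls : List ℕ) (c : ℕ → ℕ) :
    ((hkeys P Fy y ls).map fun k => c k.1).sum ≤ uP P * (ls.map c).sum := by
  refine le_trans (b := (hprs P Fy y).length * (ls.map c).sum) ?_
    (Nat.mul_le_mul_right _ (hprs_length Fy y))
  unfold hkeys
  generalize hprs P Fy y = L
  induction L with
  | nil => simp
  | cons p L ih =>
    rw [List.flatMap_cons, List.map_append, List.sum_append, List.length_cons, Nat.add_mul,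
      Nat.one_mul]
    have h1 : ((HK ls p).map fun k => c k.1) = ls.map c := by
      unfold HK
      rw [List.map_map]
      rfl
    rw [h1]
    omega

end Crest.Agent.R288.PgF380
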