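import Crest.Agent.R288.PgA_172
import Crest.Agent.R288.Cnt_308
import Crest.Agent.R288.Dom_20
import Crest.Agent.R288.DeltaD_222

/-!
# R288, [SIZE] (helper692): lengths of the request lists of the procedures (text #4985), Alg45 v2

* `gpt_le`, `csz_le`, `WA_le`, `menu_len`, `hmenu_len`, `pcs_len`, `wst_len`, `wpr_len`, `bst_len`,
  `bpr_len`, `rpr_len`, `cells_len`, `csts_len`, `abod_len` : counts;
* `nH`, `nP`, `nC`, `nS`, `nQ` : closed forms; `ZP P K'` : one number above all of them.
-/

set_option autoImplicit false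

namespace Crest.Agent.R288.PgZ692

open Crest.Agent.R288.Alg45 Crest.Agent.R288.PgA172 Crest.Agent.R288.Cnt308

variable (P : Par)

/-! ## Counts -/

theorem gpt_le (κ : ℕ) : gpt P κ ≤ 2 ^ P.pb := by
  unfold gpt; exact Nat.pow_le_pow_right (by norm_num) (min_le_right _ _)

theorem gpt_pos (κ : ℕ) : 0 < gpt P κ := by unfold gpt; positivity

/-- letters of a window -/
def nW : ℕ := 2 * P.r * 2 ^ P.pb + 1

theorem WA_le (κ : ℕ) : WA P κ ≤ nW P := by
  unfold WA nW
  have := Nat.mul_le_mul_left (2 * P.r) (gpt_le P κ)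
  omega

/-- entries of a table -/
def nT : ℕ := 2 ^ P.pb * (17 * 2 ^ P.pb + 1)

theorem csz_le (κ : ℕ) : csz P κ ≤ nT P := by
  unfold csz cu cv nT
  have h := gpt_le P κ
  exact Nat.mul_le_mul h (by omega)

theorem menu_len (κ ρ : ℕ) (y : St) : (menu P κ ρ y).length = (2 * (ρ / gst P κ) + 3) ^ 2 := by
  unfold menu
  simp only [bind_pure_comp, List.map_eq_map, List.length_flatMap, List.length_map,
    List.length_range, List.map_const', List.sum_replicate, smul_eq_mul, sq]

theorem two_F_div {f κ : ℕ} (h : Nat.log 2 f ≤ κ + P.al) :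
    2 * f / gst P κ ≤ 2 ^ (P.al + P.pb + 2) := by
  have hf : f < 2 ^ (κ + P.al + 1) :=
    (Nat.lt_pow_succ_log_self one_lt_two f).trans_le (Nat.pow_le_pow_right (by norm_num) (by omega))
  unfold gst
  rw [Nat.div_le_iff_le_mul_add_pred (by positivity)]
  have h2 : 2 ^ (κ + P.al + 2) ≤ 2 ^ (κ - P.pb) * 2 ^ (P.al + P.pb + 2) := by
    rw [← pow_add]
    exact Nat.pow_le_pow_right (by norm_num) (by omega)
  have h3 : 2 ^ (κ + P.al + 2) = 2 * 2 ^ (κ + P.al + 1) := by ring
  omega

/-- pairs read by one hull -/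
def nH : ℕ := (P.al + P.a2 + 1) * (2 * 2 ^ (P.al + P.pb + 2) + 3) ^ 2

theorem hmenu_len (F : St → ℕ) (y : St) : (hmenu P F y).length ≤ nH P := by
  unfold hmenu nH
  refine (flatMap_len _ _ ((2 * 2 ^ (P.al + P.pb + 2) + 3) ^ 2) fun κ' hκ => ?_).trans
    (Nat.mul_le_mul_right _ (by rw [rngC_len]; omega))
  rw [List.length_map, menu_len]
  have h1 := (mem_rngC.1 hκ).1
  unfold cls at h1
  have := two_F_div P (f := F y) (κ := κ') (by omega)
  exact Nat.pow_le_pow_left (by omega) 2

/-- pieces of one window -/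
def nP : ℕ := P.N * (nW P) ^ 2

theorem pcs_len (κ : ℕ) (x : St) : (pcs P κ x).length ≤ nP P := by
  unfold pcs nP
  refine (flatMap_len _ _ (nW P ^ 2) fun q _ => ?_).trans (by rw [List.length_range])
  refine (flatMap_len _ _ (nW P) fun a _ => ?_).trans ?_
  · rw [List.length_map, List.length_range]; exact WA_le P κ
  · rw [List.length_range, sq]; exact Nat.mul_le_mul_right _ (WA_le P κ)

theorem wst_len (κ : ℕ) (x : St) : (wst P κ x).length ≤ nP P + 1 := by
  unfold wst; rw [List.length_cons]; have := pcs_len P κ x; omega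

theorem wpr_len (F : St → ℕ) (κ : ℕ) (x : St) : (wpr P F κ x).length ≤ nP P * (nH P + 1) := by
  unfold wpr
  refine (flatMap_len _ _ (nH P + 1) fun y _ => ?_).trans (Nat.mul_le_mul_right _ (pcs_len P κ x))
  rw [List.length_cons]
  have := hmenu_len P F y
  omega

theorem bst_len (c : Cel) : (bst P c).length ≤ nT P * (nP P + 1) := by
  unfold bst
  refine (flatMap_len _ _ (nP P + 1) fun t _ => wst_len P _ _).trans ?_
  rw [List.length_range]
  exact Nat.mul_le_mul_right _ (csz_le P _)

theorem bpr_len (F : St → ℕ) (c : Cel) : (bpr P F c).length ≤ nT P * (nP P * (nH P + 1)) := by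
  unfold bpr
  refine (flatMap_len _ _ (nP P * (nH P + 1)) fun t _ => wpr_len P _ _ _).trans ?_
  rw [List.length_range]
  exact Nat.mul_le_mul_right _ (csz_le P _)

theorem rpr_len (k : ℕ) (L : List (ℕ × St)) : (rpr k L).length = k * L.length := by
  unfold rpr
  rw [List.length_flatMap]
  simp only [List.length_map]
  rw [List.map_const', List.sum_replicate, List.length_range, smul_eq_mul]

theorem cells_len (c : Cel) : (cells P c).length = csz P c.κ := by
  unfold cells; rw [List.length_map, List.length_range]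

theorem csts_len (c : Cel) : (Delta222.csts P c).length = csz P c.κ := by
  unfold Delta222.csts; rw [List.length_map, List.length_range]

theorem abod_len (c : Cel) : (Delta222.abod P c).length ≤ nA P := by
  unfold Delta222.abod nA
  rw [List.length_flatten, List.map_replicate, List.sum_replicate, smul_eq_mul, mul_comm (nJ P)]
  refine Nat.mul_le_mul_left _ ?_
  unfold Delta222.acs
  rw [List.length_map, List.length_range]
  exact acells_len P _ _

theorem tabC_len (c : Cel) (f : St → ℕ) : (tabC P c f).length = csz P c.κ := by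
  unfold tabC; rw [List.length_map, List.length_range]

/-- states of one body table -/
def nS : ℕ := nT P * (nP P + 1)

/-- pairs of one body table -/
def nQ : ℕ := nT P * (nP P * (nH P + 1))

/-- one number above all counts (`K` = number of ranks) -/
def ZP : ℕ := nA P + nB P + nD P + P.gX * P.mX + nS P + (P.K + 1) * nQ P + (P.K + 1) * nH P + nT P + 1

end Crest.Agent.R288.PgZ692
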