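import Crest.Agent.R288.ParW_951
import Crest.Agent.R288.PgZ_692
import Crest.Agent.R288.PgF_380
import Crest.Agent.R288.PadK_901
import Crest.Agent.R288.ParO_331
import Crest.Agent.R288.ParV_53
import Crest.Agent.R288.Bnd_275
import Crest.Agent.R288.PgZc_692

/-!
# Row 288, PROG.P10 (helper53): the numbers of the program side at `ParO331.parOf`

* `Zn h`      : one number above all list lengths (requests, answers, tables, pad, INIT); `pQ_Zn`
* `topC h`    : largest class of a call, `K0 + (a2 + du) (II + 2)`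
* `Nums h L`  : everything as one structure of natural number inequalities
* `ev_Nums`   : it holds for all large `h` and all `L` with `clog 2 L = h`
-/

set_option autoImplicit false

open Filter

namespace Crest.Agent.R288.HypN53

open Crest.Agent.R288.Asy720 Crest.Agent.R288.Par806 Crest.Agent.R288.ParV53
open Crest.Agent.R288.ParO331 Crest.Agent.R288.ParW951 Crest.Agent.R288.Cnt308
open Crest.Agent.R288.PgZ692 Crest.Agent.R288.PgF380 Crest.Agent.R288.PadK901
open Crest.Agent.R288.Alg45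

/-- INIT: sizes -/
def zI (h : ℕ) : ℕ := 2 ^ (gI h + DI h + 5) + 2 ^ (gI h + DI h)

/-- **the size number of the program** -/
def Zn (h : ℕ) : ℕ :=
  2 * ZP (parOf h) + uP (parOf h) * (KK h + 1) + 2 ^ cPad h + zI h + 64

theorem lQ_DI : LQ DI := (lQ_Lg.const_mul 10).mono' fun h => le_of_eq (by unfold DI; ring)

theorem pQ_zI : PQ zI := by
  have h1 := lQ_DI
  have : PQ (fun h => 2 ^ (gI h + DI h + 5) + 2 ^ (gI h + DI h)) := by pw_tac
  exact this

theorem pQ_pad : PQ (fun h => 2 ^ cPad h) := by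
  refine PQ.two_pow ((lQ_WLg1.const_mul 64).mono' fun h => le_of_eq ?_)
  unfold cPad
  ring

theorem pQ_uP : PQ (fun h => uP (parOf h)) := by
  have : PQ (fun h => (al h + 8 + 1) * ((8 * 2 ^ (al h + pb h) + 3) * (8 * 2 ^ (al h + pb h) + 3))) := by
    pw_tac
  exact this

theorem pQ_sJ : PQ sJ := by
  have : PQ (fun h => W h ^ 2 * Lg h) := by pw_tac
  exact this

theorem pQ_sX : PQ sX := by
  have : PQ (fun h => W h * h) := by pw_tac
  exact this

theorem pQ_ZP : PQ (fun h => ZP (parOf h)) := by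
  have h1 := pQ_sJ
  have h2 := pQ_sX
  have nT' : PQ (fun h => nT (parOf h)) := by
    have : PQ (fun h => 2 ^ pb h * (17 * 2 ^ pb h + 1)) := by pw_tac
    exact this
  have nW' : PQ (fun h => nW (parOf h)) := by
    have : PQ (fun h => 2 * 40 * 2 ^ pb h + 1) := by pw_tac
    exact this
  have nP' : PQ (fun h => nP (parOf h)) := by
    have : PQ (fun h => 2 ^ nn h * (nW (parOf h)) ^ 2) := by pw_tac
    exact this
  have nH' : PQ (fun h => nH (parOf h)) := by
    have : PQ (fun h => (al h + 8 + 1) * (2 * 2 ^ (al h + pb h + 2) + 3) ^ 2) := by pw_tac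
    exact this
  have nS' : PQ (fun h => nS (parOf h)) := by
    have : PQ (fun h => nT (parOf h) * (nP (parOf h) + 1)) := by pw_tac
    exact this
  have nQ' : PQ (fun h => nQ (parOf h)) := by
    have : PQ (fun h => nT (parOf h) * (nP (parOf h) * (nH (parOf h) + 1))) := by pw_tac
    exact this
  have nB' : PQ (fun h => nB (parOf h)) := by
    have : PQ (fun h => 2 ^ nn h * ((dl h + 8 + 1) * ((2 * 40 + 4) * 2 ^ (c0 h + 8)))) := by pw_tac
    exact this
  have nD' : PQ (fun h => nD (parOf h)) := by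
    have : PQ (fun h => 2 ^ nn h * (dl h + 8 + 1)) := by pw_tac
    exact this
  have nA' : PQ (fun h => nA (parOf h)) := by
    have : PQ (fun h => (a1 h + 8 + 1) * ((2 * 40 + 1) * 2 ^ a1 h + 2) * ((12 * sJ h + 1) * mJ h + 1)) := by
      pw_tac
    exact this
  have : PQ (fun h => nA (parOf h) + nB (parOf h) + nD (parOf h) + (12 * sX h + 1) * mX h +
      nS (parOf h) + (KK h + 1) * nQ (parOf h) + (KK h + 1) * nH (parOf h) + nT (parOf h) + 1) := by
    pw_tac
  exact this

theorem pQ_Zn : PQ Zn := by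
  have h1 := pQ_ZP
  have h2 := pQ_uP
  have h3 := pQ_pad
  have h4 := pQ_zI
  have : PQ (fun h => 2 * ZP (parOf h) + uP (parOf h) * (KK h + 1) + 2 ^ cPad h + zI h + 64) := by
    pw_tac
  exact this

/-- largest class of a call -/
def topC (h : ℕ) : ℕ := K0O h + (8 + 8) * (II h + 2)

/-- **all numbers of the program at height `h`, `L` input words, size constant `rS`** -/
structure Nums (D rS h L : ℕ) : Prop where
  /-- space: the frames -/
  S : D * 16 * (Zn h + 2) ^ 2 ≤ Pl726.og 1 0 rS 3 L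
  SL : Pl726.og 1 0 rS 3 L ≤ L
  /-- values -/
  big : D * (2 ^ topC h * (Bnd275.bA (parOf h) (II h) + 2)) < (L + 2) ^ 3
  /-- values, the exponent of `HypA275.vX` -/
  two : D * 2 ^ (topC h + (4 + (nn h + 8 + 8 + 4) * II h)) < (L + 2) ^ 3
  /-- arguments -/
  fit : ∀ Lx ≤ D * (EE h * KK h + 1), ∀ M, (L + 2) ^ 3 ≤ M → Fit (parOf h) (II h) Lx (K0O h) M

/-- the big exponent -/
def eN (C h : ℕ) : ℕ := nn h * II h + C * II h + h +
  C * (lB h + pb h + nb h + lam h + dl h + al h + nn h + Lg h + Mg h + W h + 1)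

theorem topC_le (h : ℕ) : topC h + (4 + (nn h + 8 + 8 + 4) * II h) ≤ eN 68 h := by
  have h1 := nn_mul_II_le h
  have h2 : gI h ≤ lam h := le_rfl
  unfold topC K0O HH eN
  have e : (nn h + 8 + 8 + 4) * II h = nn h * II h + 20 * II h := by ring
  rw [e]
  omega

theorem eN_mono {C D : ℕ} (h : C ≤ D) (n : ℕ) : eN C n ≤ eN D n := by
  unfold eN
  have h1 := Nat.mul_le_mul_right (II n) h
  have h2 := Nat.mul_le_mul_right (lB n + pb n + nb n + lam n + dl n + al n + nn n + Lg n + Mg n +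
    W n + 1) h
  omega

theorem mA_lt (h : ℕ) : mA (parOf h) < 2 ^ eN 8 h := by
  have h1 : mA (parOf h) = 2 ^ (nn h * II h + 1) + 41 * 2 ^ dl h := rfl
  have h2 : (2 : ℕ) ^ (nn h * II h + 1) ≤ 2 ^ (nn h * II h + dl h + 6) :=
    Nat.pow_le_pow_right (by norm_num) (by omega)
  have h3 : 41 * 2 ^ dl h ≤ 2 ^ (nn h * II h + dl h + 6) := by
    calc 41 * 2 ^ dl h ≤ 2 ^ 6 * 2 ^ dl h := Nat.mul_le_mul_right _ (by norm_num)
      _ = 2 ^ (dl h + 6) := by rw [← pow_add, Nat.add_comm]
      _ ≤ _ := Nat.pow_le_pow_right (by norm_num) (by omega)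
  rw [h1]
  calc 2 ^ (nn h * II h + 1) + 41 * 2 ^ dl h
      ≤ 2 ^ (nn h * II h + dl h + 6) + 2 ^ (nn h * II h + dl h + 6) := Nat.add_le_add h2 h3
    _ = 2 ^ (nn h * II h + dl h + 7) := by rw [← two_mul, ← pow_succ']
    _ < 2 ^ eN 8 h := Nat.pow_lt_pow_right (by norm_num) (by unfold eN; omega)

/-- **P10, numbers** -/
theorem ev_Nums (D : ℕ) : ∃ rS : ℕ, ∀ᶠ h : ℕ in atTop, ∀ L : ℕ, Nat.clog 2 L = h →
    Nums D rS h L := by
  have h0 : PQ (fun h => D * 16 * (Zn h + 2) ^ 2) := by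
    have h1 := pQ_Zn
    pw_tac
  obtain ⟨rS, h1⟩ := h0.toSI.ev_og
  refine ⟨rS, ?_⟩
  filter_upwards [h1, PgG8155.og_le 1 0 rS, pow_val (D + 68), ev_work (D + 1) 0 (by norm_num),
    eventually_ge_atTop 8, ev_W_ge 2] with h h2 h3 h4 h5 h6 hW L hL
  have h7 := h4 L hL
  have h8 : (D + 68) * 2 ^ eN (D + 68) h ≤ (L + 2) ^ 3 := h7
  have h9 : 2 ^ eN 68 h ≤ 2 ^ eN (D + 68) h :=
    Nat.pow_le_pow_right (by norm_num) (eN_mono (by omega) h)
  have h10 : 0 < 2 ^ eN (D + 68) h := Nat.two_pow_pos _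
  have h11 : 2 ^ h ≤ 2 ^ eN (D + 68) h := Nat.pow_le_pow_right (by norm_num) (by unfold eN; omega)
  have h12 : h < 2 ^ h := Nat.lt_two_pow_self
  have hI : II h ≤ h := by
    unfold II
    have h14 : 4 ≤ nn h := by
      unfold nn
      have hM := Mg_pos h
      nlinarith
    have h15 : h / nn h ≤ h / 4 := Nat.div_le_div_left h14 (by norm_num)
    omega
  have hEK : D * (EE h * KK h + 1) ≤ h := by
    refine le_trans ?_ h5
    have hL1 := Lg_pos h
    rw [pow_zero, mul_one, Nat.mul_comm D]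
    refine Nat.mul_le_mul (by omega) ?_
    exact (Nat.le_succ D).trans (Nat.le_mul_of_pos_right _ hL1)
  refine ⟨h2 L hL, h3 L hL, ?_, ?_, ?_⟩
  · have a1 := Bnd275.bA_le_two_pow (P := parOf h) (cr := 4) (by norm_num) (II h)
    have a2 : 2 ^ topC h * (Bnd275.bA (parOf h) (II h) + 2) ≤ 2 ^ eN 68 h := by
      calc 2 ^ topC h * (Bnd275.bA (parOf h) (II h) + 2)
          ≤ 2 ^ topC h * 2 ^ (4 + (nn h + 8 + 8 + 4) * II h) := Nat.mul_le_mul_left _ a1
        _ = 2 ^ (topC h + (4 + (nn h + 8 + 8 + 4) * II h)) := (pow_add _ _ _).symm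
        _ ≤ 2 ^ eN 68 h := Nat.pow_le_pow_right (by norm_num) (topC_le h)
    calc D * (2 ^ topC h * (Bnd275.bA (parOf h) (II h) + 2))
        ≤ D * 2 ^ eN (D + 68) h := Nat.mul_le_mul_left _ (a2.trans h9)
      _ < (D + 68) * 2 ^ eN (D + 68) h := Nat.mul_lt_mul_of_pos_right (by omega) h10
      _ ≤ (L + 2) ^ 3 := h8
  · have a2 : 2 ^ (topC h + (4 + (nn h + 8 + 8 + 4) * II h)) ≤ 2 ^ eN 68 h :=
      Nat.pow_le_pow_right (by norm_num) (topC_le h)
    calc D * 2 ^ (topC h + (4 + (nn h + 8 + 8 + 4) * II h))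
        ≤ D * 2 ^ eN (D + 68) h := Nat.mul_le_mul_left _ (a2.trans h9)
      _ < (D + 68) * 2 ^ eN (D + 68) h := Nat.mul_lt_mul_of_pos_right (by omega) h10
      _ ≤ (L + 2) ^ 3 := h8
  · intro Lx hLx M hM
    have b1 : 2 ^ eN (D + 68) h ≤ M := by
      refine le_trans ?_ (h8.trans hM)
      exact Nat.le_mul_of_pos_left _ (by omega)
    have b2 : 2 ^ eN 8 h ≤ M := le_trans (Nat.pow_le_pow_right (by norm_num)
      (eN_mono (by omega) h)) b1
    have b3 : h < M := by omega
    exact {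
      mA := (mA_lt h).trans_le b2
      N0 := Nat.two_pow_pos _
      nd := by
        show (2 ^ nn h) ^ II h < M
        rw [← pow_mul]
        refine lt_of_lt_of_le (Nat.pow_lt_pow_right (by norm_num) ?_) b1
        unfold eN
        omega
      ht := by show II h < M; omega
      lx := by omega
      κ := by
        show K0O h + II h * (8 + 8) + 8 < M
        refine lt_of_lt_of_le (b := 2 ^ (K0O h + II h * (8 + 8) + 8)) Nat.lt_two_pow_self ?_
        refine le_trans (Nat.pow_le_pow_right (by norm_num) ?_) b1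
        refine le_trans ?_ (eN_mono (show 68 ≤ D + 68 by omega) h)
        refine le_trans ?_ (topC_le h)
        unfold topC
        omega
      tg := by omega }

end Crest.Agent.R288.HypN53
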