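import Crest.Agent.R288.SoundB_829
import Crest.Agent.R288.LipO_364
import Crest.Agent.R288.HypA_275

/-!
# Row 288, PROG.P10 (helper53), part 2: values of a good tape at `cfgO`

* `sOkO`, `vOkO`   : `Sound829.SOk`, `HypV53.VOk` at `cfgO x y ε`
* `BigH h`, `ev_BigH` : what is used of the height
* `soundO` : soundness of every epoch of a good history
-/

set_option autoImplicit false
set_option maxHeartbeats 400000

open Filter

namespace Crest.Agent.R288.HypW53

open Crest.Agent.R288.Asy720 Crest.Agent.R288.Par806 Crest.Agent.R288.ParO331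
open Crest.Agent.R288.Alg45 Crest.Agent.R288.Dom20 Crest.Agent.R288.Asm331
open Crest.Agent.R288.Asm12 Crest.Agent.R288.Top791 Crest.Agent.R288.HypV53
open Crest.Agent.R288.Sound829 Crest.Agent.R288.AnaLip364

/-- what is used of the height -/
structure BigH (h : ℕ) : Prop where
  par : ParN h
  KK : 0 < Par806.KK h
  dl : dl h ≤ h
  h2 : 2 ≤ h

theorem ev_BigH : ∀ᶠ h : ℕ in atTop, BigH h := by
  filter_upwards [ev_ParN, ev_KK_pos, ev_const_len 8, eventually_ge_atTop 2] with h h1 h2 h3 h4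
  refine ⟨h1, h2, ?_, h4⟩
  refine le_trans ?_ h3
  have e : dl h = 8 * (W h * Lg h) := by unfold dl; ring
  rw [e]
  exact Nat.mul_le_mul_left _ (by omega)

theorem BigH.pb {h : ℕ} (H : BigH h) : gI h + Lg h + 33 ≤ Par806.pb h + 1 := by
  have h2 := H.par.W16
  have h5 := H.par.Lg16
  have h4 : 16 * Lg h ≤ W h * Lg h := Nat.mul_le_mul_right _ h2
  have e : Par806.pb h = 16 * (W h * Lg h) := by unfold Par806.pb; ring
  have e2 : gI h = W h * Lg h := rfl
  rw [e, e2]
  omega

theorem BigH.grd1 {h : ℕ} (H : BigH h) : GrdOK (parOf h) (K0O h + 1) :=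
  grdOK_of_pow (H := nn h * II h + 1) (parOf h) rfl (by
    have := H.pb
    show K0O h + 1 ≤ Par806.pb h + (nn h * II h + 1)
    unfold K0O HH
    omega)

theorem BigH.g {h : ℕ} (H : BigH h) : 0 < (parOf h).g := by
  show 0 < gg h
  have := H.par.g_ge
  omega

theorem BigH.um {h : ℕ} (H : BigH h) : 0 < (parOf h).um := by
  show 0 < Par806.um h
  have := H.par.g_ge
  rw [← H.par.um_ge]
  positivity

theorem BigH.mJ (h : ℕ) : 0 < (parOf h).mJ := by
  show 0 < Par806.mJ h
  have hW := W_pos h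
  have hL := Lg_pos h
  unfold Par806.mJ
  positivity

variable {x y : List ℕ} {ε : ℚ}

theorem dl_tapeW (hN : Num x y ε) (H : BigH (hh x y ε)) :
    Par806.dl (hh x y ε) ≤ PltT365.tapeW x y ε := by
  have h1 := H.dl
  have h2 := hN.le_size
  have h3 := H.h2
  unfold PltT365.tapeW
  omega

theorem sOkO (hN : Num x y ε) (H : BigH (hh x y ε)) :
    SOk (cfgO x y ε) x y (2 ^ lam (hh x y ε)) :=
  ⟨H.grd1, by show 8 ≤ 40; norm_num, by
    show 10 ≤ Par806.pb (hh x y ε)
    have := H.pb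
    omega, H.g, H.um, dl_tapeW hN H, fun _ _ => rfl⟩

theorem vOkO (H : BigH (hh x y ε)) : VOk (cfgO x y ε) x y 4 :=
  ⟨by show 0 < 40; norm_num, Nat.succ_pos _, BigH.mJ _, by
    show 2 ≤ Par806.pb (hh x y ε)
    have := H.pb
    omega, fun κ hκ => H.grd1 κ (hκ.trans (Nat.le_succ _)), fun _ _ _ hc => (LeafO690.leafO_le hc).2, by
    show 8 + 3 ≤ 2 ^ 4; norm_num⟩

/-- soundness of every epoch of a good history at `cfgO` -/
theorem soundO (hN : Num x y ε) (H : BigH (hh x y ε)) {X : ℕ → ℕ × St → ℕ}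
    (h : (cfgO x y ε).Good X) {e : ℕ} (he : e ≤ (cfgO x y ε).P.E) :
    ∀ s, InD (cfgO x y ε).P.N (cfgO x y ε).I (cfgO x y ε).P.Dm s →
      GSt442.gst x y (cfgO x y ε).P.n s ≤ FE (cfgO x y ε).P X e s :=
  sound h (LipO364.lipOk hN H.par H.KK) (sOkO hN H) (LipO364.ζO_le H.par.Lg16) he

end Crest.Agent.R288.HypW53
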