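import Crest.Agent.R288.PgWc_155
import Crest.Agent.R288.PgC_578

/-!
# R288, [PROG] P10 (helper155): the fields `X_eq`, `X_nxt` of `Pgc578.Hyp`

* `numPair_congr`, `tape_lo` : `tapeRT P leaf U l (lo l X) = tapeRT P leaf U l X` (every history)
* `Of c C τ` : `c : Pgc578.Cx` has the data of `C : Asm331.Cfg` on the tape `τ`
* `Of.tX_eq`, **`Of.X_eq`**, `Of.X_zero`  (every tape, good or not)
* at `cfgO`: **`X_nxt`**, `X_nxt_zero`, `o_le`, `o_zero`
-/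

set_option autoImplicit false

namespace Crest.Agent.R288.HypX155

open Crest.Agent.R288.Alg45 Crest.Agent.R288.Asm331 Crest.Agent.R288.Tape829
open Crest.Agent.R288.Dom20 Crest.Agent.R295.Rnd627 Crest.Agent.R288.Asm12
open Crest.Agent.R288.PgW155 Crest.Agent.R288.Top791 Crest.Agent.R288.Shell12
open Crest.Agent.R288.PltT365 Crest.Agent.R288.Pl726 Crest.Agent.R288.Par806
open Crest.Agent.R288.ParO331

/-! ### the history -/

/-- **locality of a number** -/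
theorem numPair_congr (P : Par) {leaf : St → Option ℕ} {F : St → ℕ} {X X' : ℕ → ℕ → St → ℕ} {k : ℕ}
    (h : ∀ i < k, X i = X' i) (κ : ℕ) (z : St) :
    numPair P leaf F X k κ z = numPair P leaf F X' k κ z := by
  unfold numPair
  rw [Good829.lanePair_congr P h]

/-- an index `l > 0` -/
theorem tape_pos (P : Par) (leaf : St → Option ℕ) (U : St → RT ℕ) {l : ℕ} (hl : l ≠ 0)
    (X : ℕ → ℕ × St → ℕ) (s : ℕ × St) : tapeRT P leaf U l X s =
      numPair P leaf (FE P X ((l - 1) / P.K)) (fun i κ z => X (idx P ((l - 1) / P.K) i) (κ, z))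
        ((l - 1) % P.K) s.1 s.2 := by
  unfold tapeRT
  rw [if_neg hl]

/-- an index reads lower indices only -/
theorem tape_lo (P : Par) (leaf : St → Option ℕ) (U : St → RT ℕ) (l : ℕ) (X : ℕ → ℕ × St → ℕ)
    (s : ℕ × St) : tapeRT P leaf U l (lo l X) s = tapeRT P leaf U l X s := by
  by_cases hl : l = 0
  · unfold tapeRT
    rw [if_pos hl, if_pos hl]
  · have h2 : (l - 1) / P.K * P.K + (l - 1) % P.K = l - 1 := by
      rw [Nat.mul_comm]
      exact Nat.div_add_mod _ _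
    have e1 : FE P (lo l X) ((l - 1) / P.K) = FE P X ((l - 1) / P.K) :=
      Good829.FE_lo P (by omega)
    rw [tape_pos P leaf U hl, tape_pos P leaf U hl, e1]
    refine numPair_congr P (fun i hi => ?_) s.1 s.2
    have e2 : lo l X (idx P ((l - 1) / P.K) i) = X (idx P ((l - 1) / P.K) i) :=
      lo_lt (by unfold idx; omega) X
    rw [e2]

/-- **the equation of the history of a tape, with the full history** -/
theorem cfg_X (C : Cfg) (τ : ℕ → ℕ) {l : ℕ} {s : ℕ × St} (hs : s ∈ OmP C.P.N C.I C.P.Dm C.K0) :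
    C.X τ l s = (tapeRT C.P C.leaf C.U l (C.X τ) s).val (2 ^ C.W) τ (C.o l) := by
  rw [← tape_lo]
  exact Cfg.X_succ τ hs

/-- the data of a configuration on one tape -/
structure Of (c : Pgc578.Cx) (C : Cfg) (τ : ℕ → ℕ) : Prop where
  P : c.P = C.P
  leaf : c.leaf = C.leaf
  X : c.X = C.X τ
  o : ∀ l, c.o l = C.o l
  Om : ∀ κ z, c.DP κ z → (κ, z) ∈ OmP C.P.N C.I C.P.Dm C.K0

section

variable {c : Pgc578.Cx} {C : Cfg} {τ : ℕ → ℕ}

theorem Of.tX_eq (h : Of c C τ) {l : ℕ} (hl : 0 < l) (κ : ℕ) (z : St) :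
    c.tX l κ z = tapeRT C.P C.leaf C.U l (C.X τ) (κ, z) := by
  obtain ⟨l, rfl⟩ := Nat.exists_eq_succ_of_ne_zero hl.ne'
  unfold Pgc578.Cx.tX Pgc578.Cx.Fl Pgc578.Cx.Xl Pgc578.ep Pgc578.rk tapeRT
  rw [if_neg (Nat.succ_ne_zero l), h.P, h.leaf, h.X]

/-- **field `X_eq`** -/
theorem Of.X_eq (h : Of c C τ) {l : ℕ} (hl : 0 < l) {κ : ℕ} {z : St} (hz : c.DP κ z) :
    c.X l (κ, z) = (c.tX l κ z).val (2 ^ C.W) τ (c.o l) := by
  rw [h.tX_eq hl, h.o, h.X]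
  exact cfg_X C τ (h.Om κ z hz)

/-- the number of index `0` -/
theorem Of.X_zero (h : Of c C τ) {κ : ℕ} {z : St} (hz : c.DP κ z) :
    c.X 0 (κ, z) = (C.U z).val (2 ^ C.W) τ (c.o 0) := by
  rw [h.o, h.X]
  exact Cfg.X_zero τ (h.Om κ z hz)

/-- the pairs of the domain -/
theorem Of.dom (h : Of c C τ) {κ : ℕ} {z : St} (hz : c.DP κ z) :
    κ ≤ C.K0 ∧ InD C.P.N C.I C.P.Dm z :=
  (mem_OmP (p := (κ, z)) (show 0 < C.P.N from Nat.two_pow_pos _)).1 (h.Om κ z hz)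

/-- the macro height of a pair of the domain -/
theorem Of.i_le (h : Of c C τ) {κ : ℕ} {z : St} (hz : c.DP κ z) : z.i ≤ C.I := (h.dom hz).2.1

end

/-! ### pointers at `cfgO` -/

section cfg

variable {x y : List ℕ} {ε : ℚ} {c : Pgc578.Cx} {τ : ℕ → ℕ}

theorem o_zero : (cfgO x y ε).o 0 = 0 := Nat.zero_mul _

/-- the tape of an index starts below the number of words -/
theorem o_le {l : ℕ} (hl : l ≤ (cfgO x y ε).P.E * (cfgO x y ε).P.K) :
    (cfgO x y ε).o l ≤ tapeD (PgW155.fW rW) x y ε := by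
  rw [tapeD_rW]
  exact Nat.mul_le_mul_right _ (by omega)

/-- **field `X_nxt`** (`W.N = 2 ^ tapeW`, `W.Z = τ`, `W.Pm = tapeD (fW rW)`) -/
theorem X_nxt (h : WOk (hh x y ε)) (hc : Of c (cfgO x y ε) τ) {l : ℕ} (hl : 0 < l)
    (hl' : l ≤ c.EK) {κ : ℕ} {z : St} (hz : c.DP κ z) (ρ : ℕ → ℕ) :
    (c.tX l κ z).nxt (2 ^ (cfgO x y ε).W) ρ (c.o l) ≤ tapeD (PgW155.fW rW) x y ε := by
  rw [hc.tX_eq hl, hc.o]
  refine nxt_cfg h ?_ _ _ (hc.i_le hz) ρ
  unfold Pgc578.Cx.EK at hl'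
  rwa [hc.P] at hl'

/-- the same for index `0` -/
theorem X_nxt_zero (h : WOk (hh x y ε)) (hc : Of c (cfgO x y ε) τ) {κ : ℕ} {z : St}
    (hz : c.DP κ z) (ρ : ℕ → ℕ) :
    ((cfgO x y ε).U z).nxt (2 ^ (cfgO x y ε).W) ρ (c.o 0) ≤ tapeD (PgW155.fW rW) x y ε := by
  rw [hc.o]
  exact nxt_cfg h (Nat.zero_le _) (fun _ _ => 0) (κ, z) (hc.i_le hz) ρ

/-- index `0`, any state of the domain -/
theorem U_nxt (h : WOk (hh x y ε)) {z : St} (hz : z.i ≤ (cfgO x y ε).I) (ρ : ℕ → ℕ) :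
    ((cfgO x y ε).U z).nxt (2 ^ (cfgO x y ε).W) ρ ((cfgO x y ε).o 0) ≤
      tapeD (PgW155.fW rW) x y ε :=
  nxt_cfg h (Nat.zero_le _) (fun _ _ => 0) (0, z) hz ρ

end cfg

end Crest.Agent.R288.HypX155
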