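import Mathlib
import Crest.Agent.R288.InitC_772

/-!
# R288 (S0433), leaf [Init]: the estimator of helper772 on lists

Tables are lists of naturals: `tab κ z F` = the values of `F` at the grid points of the window `z`
of scale `2 ^ κ`. `icL`, `locL`, `smpL`, `accL`, `laysL`, `stepL` are the list forms of `icg`,
`phi ∘ icg ∘ big`, `smp`, the sum over the samples, `lays`, `step`; they make the same draws:
`stepL_eq : stepL CL r κ z = (step C r κ z).map (tab κ z)`.
-/

set_option autoImplicit false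

namespace Crest.Agent.R288.InitL663

open Finset Crest.Agent.R295.Rnd627 Crest.Agent.R295.Rnd627.RT Crest.Agent.R288.Init772

universe u v w'

/-! ### `RT` -/

section rt

variable {α : Type u} {β : Type v} {γ : Type w'}

theorem bind_congr {t : RT α} {f g : α → RT β} (h : ∀ a, f a = g a) : t.bind f = t.bind g := by
  have : f = g := funext h
  rw [this]

theorem map_bind (t : RT α) (f : α → β) (g : β → RT γ) :
    (t.map f).bind g = t.bind fun a => g (f a) := by
  unfold RT.map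
  rw [bind_assoc]
  rfl

theorem bind_map (t : RT α) (f : α → RT β) (g : β → γ) :
    (t.bind f).map g = t.bind fun a => (f a).map g := by
  unfold RT.map
  rw [bind_assoc]

theorem map_map (t : RT α) (f : α → β) (g : β → γ) :
    (t.map f).map g = t.map fun a => g (f a) := by
  unfold RT.map
  rw [bind_assoc]
  rfl

theorem map_eq_bind (t : RT α) (f : α → β) : t.map f = t.bind fun a => ret (f a) := rfl

theorem map_congr {t : RT α} {f g : α → β} (h : ∀ a, f a = g a) : t.map f = t.map g := by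
  have : f = g := funext h
  rw [this]

theorem map_rnd (k : ℕ → RT α) (f : α → β) : (rnd k).map f = rnd fun v => (k v).map f := rfl

end rt

namespace Par

variable (P : Init772.Par)

/-- the table of a function on the grid points of a window -/
def tab (κ : ℕ) (z : ℤ) (F : ℤ → ℕ) : List ℕ :=
  (List.range (2 ^ P.mu κ)).map fun t : ℕ => F (2 ^ κ * z + P.st κ * t)

@[simp] theorem length_tab (κ : ℕ) (z : ℤ) (F : ℤ → ℕ) : (tab P κ z F).length = 2 ^ P.mu κ := by
  simp [tab]

theorem getD_tab {κ : ℕ} {z : ℤ} {F : ℤ → ℕ} {t : ℕ} (h : t < 2 ^ P.mu κ) (d : ℕ) :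
    (tab P κ z F).getD t d = F (2 ^ κ * z + P.st κ * t) := by
  rw [List.getD_eq_getElem?_getD]
  simp [tab, h]

/-- the distance -/
def dst (a b : ℕ) : ℕ := (a - b) + (b - a)

theorem dst_eq (a b : ℕ) : dst a b = ((a : ℤ) - b).natAbs := by unfold dst; omega

/-- minimum over the grid points, `o` = position of the leftmost one in the list -/
def icL (κ : ℕ) (W : List ℕ) (o : ℕ) : ℕ :=
  (List.range (2 * 2 ^ P.mu κ + 1)).foldl
    (fun m n => min m (W.getD (o + n) 0 + 2 ^ P.s * (P.st κ * dst n (2 ^ P.mu κ)))) (P.cap κ)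

theorem icr_eq_foldl (κ : ℕ) (B : ℤ → ℕ) (u : ℤ) (n : ℕ) :
    P.icr κ B u n = (List.range n).foldl (fun m (n : ℕ) => min m (B (u + P.st κ * ((n : ℤ) - 2 ^ P.mu κ)) +
      2 ^ P.s * (P.st κ * ((n : ℤ) - 2 ^ P.mu κ).natAbs))) (P.cap κ) := by
  induction n with
  | zero => rfl
  | succ n ih =>
    rw [List.range_succ, List.foldl_append, ← ih]
    rfl

theorem foldl_congr_mem {α β : Type*} {f g : β → α → β} {l : List α} {b : β}
    (h : ∀ b, ∀ a ∈ l, f b a = g b a) : l.foldl f b = l.foldl g b := by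
  induction l generalizing b with
  | nil => rfl
  | cons a l ih =>
    rw [List.foldl_cons, List.foldl_cons, h b a (by simp)]
    exact ih fun b a ha => h b a (by simp [ha])

theorem icL_eq {κ : ℕ} {B : ℤ → ℕ} {u : ℤ} {W : List ℕ} {o : ℕ}
    (h : ∀ n < 2 * 2 ^ P.mu κ + 1, W.getD (o + n) 0 = B (u + P.st κ * ((n : ℤ) - 2 ^ P.mu κ))) :
    icL P κ W o = P.icg κ B u := by
  unfold icL Init772.Par.icg
  rw [icr_eq_foldl]
  apply foldl_congr_mem
  intro b n hn
  rw [List.mem_range] at hn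
  rw [h n hn, dst_eq]
  push_cast
  rfl

/-- the values of the tables on consecutive windows -/
def cat (κ : ℕ) (z0 : ℤ) (F : ℕ → ℤ → ℕ) (n : ℕ) : List ℕ :=
  (List.range n).flatMap fun c : ℕ => tab P κ (z0 + c) (F c)

theorem cat_succ (κ : ℕ) (z0 : ℤ) (F : ℕ → ℤ → ℕ) (n : ℕ) :
    cat P κ z0 F (n + 1) = cat P κ z0 F n ++ tab P κ (z0 + n) (F n) := by
  simp [cat, List.range_succ, List.flatMap_append]

@[simp] theorem length_cat (κ : ℕ) (z0 : ℤ) (F : ℕ → ℤ → ℕ) (n : ℕ) :
    (cat P κ z0 F n).length = n * 2 ^ P.mu κ := by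
  induction n with
  | zero => simp [cat]
  | succ n ih => rw [cat_succ, List.length_append, ih, length_tab]; ring

theorem getD_cat {κ : ℕ} {z0 : ℤ} {F : ℕ → ℤ → ℕ} {n c t : ℕ} (hc : c < n)
    (ht : t < 2 ^ P.mu κ) :
    (cat P κ z0 F n).getD (c * 2 ^ P.mu κ + t) 0 = F c (2 ^ κ * (z0 + c) + P.st κ * t) := by
  induction n with
  | zero => omega
  | succ n ih =>
    rw [cat_succ, List.getD_eq_getElem?_getD]
    rcases Nat.lt_succ_iff_lt_or_eq.1 hc with h | rfl
    · rw [List.getElem?_append_left, ← List.getD_eq_getElem?_getD, ih h]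
      rw [length_cat]
      calc c * 2 ^ P.mu κ + t < (c + 1) * 2 ^ P.mu κ := by rw [add_mul, one_mul]; omega
        _ ≤ n * 2 ^ P.mu κ := Nat.mul_le_mul_right _ h
    · rw [List.getElem?_append_right (by rw [length_cat]; omega), length_cat,
        Nat.add_sub_cancel_left, ← List.getD_eq_getElem?_getD, getD_tab P ht]

/-- `big` from the list -/
theorem getD_cat_big {κ : ℕ} {z0 : ℤ} {F : ℕ → ℤ → ℕ} {n j : ℕ} (hj : j < n * 2 ^ P.mu κ) :
    (cat P κ z0 F n).getD j 0 = Init772.Par.big κ z0 F (2 ^ κ * z0 + P.st κ * j) := by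
  have hp : 0 < 2 ^ P.mu κ := Nat.two_pow_pos _
  have hk : (0 : ℤ) < 2 ^ κ := by positivity
  have h1 := Nat.div_add_mod j (2 ^ P.mu κ)
  have h2 := Nat.mod_lt j hp
  have h3 : j / 2 ^ P.mu κ < n := Nat.div_lt_of_lt_mul (by rw [mul_comm]; exact hj)
  set c := j / 2 ^ P.mu κ with hc
  set t := j % 2 ^ P.mu κ with ht
  have h4 : j = c * 2 ^ P.mu κ + t := by rw [mul_comm]; exact h1.symm
  have hst : (P.st κ : ℤ) * 2 ^ P.mu κ = 2 ^ κ := by exact_mod_cast P.st_mul κ
  have h5 : (2 : ℤ) ^ κ * z0 + P.st κ * j = 2 ^ κ * (z0 + c) + P.st κ * t := by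
    rw [h4]; push_cast; linear_combination (c : ℤ) * hst
  have h6 : (P.st κ : ℤ) * t < 2 ^ κ := by
    rw [← hst]
    have : (t : ℤ) < 2 ^ P.mu κ := by exact_mod_cast h2
    exact mul_lt_mul_of_pos_left this (by exact_mod_cast P.st_pos κ)
  have h7 : (2 ^ κ * (z0 + c) + P.st κ * t) / 2 ^ κ = z0 + c := by
    rw [mul_comm, Int.add_ediv_of_dvd_left (Dvd.intro_left _ rfl),
      Int.mul_ediv_cancel _ hk.ne', Int.ediv_eq_zero_of_lt (by positivity) h6, add_zero]
  rw [h5]
  unfold Init772.Par.big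
  rw [h7, add_sub_cancel_left, Int.toNat_natCast, h4]
  exact getD_cat P h3 h2

/-- ratio of the grid steps -/
def rat (κ κ' : ℕ) : ℕ := 2 ^ ((κ - P.σ) - (κ' - P.σ))

theorem rat_mul {κ κ' : ℕ} (h : κ' ≤ κ) : P.st κ = P.st κ' * rat P κ κ' := by
  unfold Init772.Par.st rat
  rw [← pow_add]
  congr 1
  omega

/-- one sample: the layer `l` of all grid points of the window, from the concatenated tables of the
child -/
def locL (κ l : ℕ) (W : List ℕ) : List ℕ :=
  (List.range (2 ^ P.mu κ)).map fun t => P.phi (κ - l) (icL P (κ - l) W (rat P κ (κ - l) * t))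

theorem locL_eq {κ l : ℕ} (hl : l ≤ κ) (z : ℤ) (F : ℕ → ℤ → ℕ) :
    locL P κ l (cat P (κ - l) (2 ^ l * z - 1) F (2 ^ l + 2)) =
      tab P κ z fun u => P.phi (κ - l) (P.icg (κ - l) (Init772.Par.big (κ - l) (2 ^ l * z - 1) F) u) := by
  unfold locL tab
  apply List.map_congr_left
  intro t ht
  rw [List.mem_range] at ht
  congr 1
  have hk : (2 : ℤ) ^ κ = 2 ^ (κ - l) * 2 ^ l := by rw [← pow_add]; congr 1; omega
  have hkN : 2 ^ κ = 2 ^ (κ - l) * 2 ^ l := by rw [← pow_add]; congr 1; omega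
  have hst' : (P.st (κ - l) : ℤ) * 2 ^ P.mu (κ - l) = 2 ^ (κ - l) := by
    exact_mod_cast P.st_mul (κ - l)
  have hr := rat_mul P (show κ - l ≤ κ by omega)
  apply icL_eq
  intro n hn
  have hlt : rat P κ (κ - l) * t + n < (2 ^ l + 2) * 2 ^ P.mu (κ - l) := by
    -- in units of the grid step
    have h1 : P.st (κ - l) * (rat P κ (κ - l) * t + 1) ≤ 2 ^ κ := by
      have h2 : P.st κ * (t + 1) ≤ 2 ^ κ := by
        rw [← P.st_mul κ]
        exact Nat.mul_le_mul_left _ ht
      have h3 : P.st (κ - l) * (rat P κ (κ - l) * t + 1) ≤ P.st κ * (t + 1) := by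
        rw [hr, mul_assoc]
        apply Nat.mul_le_mul_left
        have : 1 ≤ rat P κ (κ - l) := Nat.one_le_two_pow
        rw [mul_add, mul_one]
        omega
      exact h3.trans h2
    have h4 : rat P κ (κ - l) * t + 1 ≤ 2 ^ l * 2 ^ P.mu (κ - l) := by
      apply Nat.le_of_mul_le_mul_left _ (P.st_pos (κ - l))
      refine h1.trans (le_of_eq ?_)
      rw [hkN, ← P.st_mul (κ - l)]
      ring
    have h5 : (2 ^ l + 2) * 2 ^ P.mu (κ - l) = 2 ^ l * 2 ^ P.mu (κ - l) +
        2 * 2 ^ P.mu (κ - l) := by ring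
    rw [h5]
    omega
  rw [getD_cat_big P hlt]
  congr 1
  have hr' : (P.st κ : ℤ) = P.st (κ - l) * rat P κ (κ - l) := by exact_mod_cast hr
  push_cast
  rw [hr']
  linear_combination (-1 : ℤ) * z * hk + hst'

/-! ### the randomized part -/

/-- the concatenated tables of consecutive windows -/
def winsL (f : ℕ → RT (List ℕ)) : ℕ → RT (List ℕ)
  | 0 => ret []
  | n + 1 => (winsL f n).bind fun W => (f n).map fun T => W ++ T

theorem winsL_eq {κ : ℕ} {z0 : ℤ} {f : ℕ → RT (ℤ → ℕ)} {fL : ℕ → RT (List ℕ)} {n : ℕ}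
    (h : ∀ c < n, fL c = (f c).map (tab P κ (z0 + c))) :
    winsL fL n = (wins f n).map fun F => cat P κ z0 F n := by
  induction n with
  | zero => rfl
  | succ n ih =>
    rw [winsL, wins, ih fun c hc => h c (by omega), map_bind, bind_map]
    apply bind_congr
    intro F
    rw [h n (by omega), map_map, map_map]
    apply map_congr
    intro T
    rw [cat_succ]
    congr 1
    · unfold cat
      apply List.flatMap_congr
      intro c hc
      rw [List.mem_range] at hc
      simp [hc.ne]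
    · simp

/-- one sampled child -/
def smpL (CL : ℕ → ℕ → ℤ → RT (List ℕ)) (r κ l : ℕ) (z : ℤ) : RT (List ℕ) :=
  rnd fun v => (winsL (fun c => CL (κ - l) (v % 2 ^ r) (2 ^ l * z - 1 + c)) (2 ^ l + 2)).map
    fun W => locL P κ l W

theorem smpL_eq {C : ℕ → ℕ → ℤ → RT (ℤ → ℕ)} {CL : ℕ → ℕ → ℤ → RT (List ℕ)} {r κ l : ℕ} {z : ℤ}
    (hl : l ≤ κ) (h : ∀ i z, CL (κ - l) i z = (C (κ - l) i z).map (tab P (κ - l) z)) :
    smpL P CL r κ l z = (P.smp C r κ l z).map (tab P κ z) := by
  unfold smpL Init772.Par.smp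
  rw [map_rnd]
  congr 1
  funext v
  rw [winsL_eq P (κ := κ - l) (z0 := 2 ^ l * z - 1)
    (f := fun c => C (κ - l) (v % 2 ^ r) (2 ^ l * z - 1 + c)) (fun c _ => h _ _), map_map, map_map]
  apply map_congr
  intro F
  exact locL_eq P hl z F

/-- add two lists -/
def addL (A T : List ℕ) : List ℕ := List.zipWith (· + ·) A T

/-- the sum of the results of `n` repetitions, added to `S` -/
def accL (t : RT (List ℕ)) : ℕ → List ℕ → RT (List ℕ)
  | 0, S => ret S
  | n + 1, S => t.bind fun T => accL t n (addL S T)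

theorem accL_eq {t : RT (ℤ → ℕ)} {tL : RT (List ℕ)} {κ : ℕ} {z : ℤ}
    (h : tL = t.map (tab P κ z)) (n : ℕ) (A : ℤ → ℕ) :
    accL tL n (tab P κ z A) =
      (reps n t).map fun L => tab P κ z fun u => A u + (L.map fun T => T u).sum := by
  induction n generalizing A with
  | zero => simp [accL, reps, RT.map]
  | succ n ih =>
    rw [accL, reps_succ, h, map_bind, bind_map]
    apply bind_congr
    intro T
    rw [bind_map, ← h]
    have h1 : addL (tab P κ z A) (tab P κ z T) = tab P κ z fun u => A u + T u := by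
      unfold addL tab
      rw [List.zipWith_map, List.zipWith_self]
    rw [h1, ih, map_eq_bind]
    apply bind_congr
    intro L
    simp only [map_eq_bind, ret_bind, List.map_cons, List.sum_cons]
    congr 2
    funext u
    ring

/-- add a layer -/
def layL (l : ℕ) (A S : List ℕ) : List ℕ := List.zipWith (fun a s => a + 2 ^ l * s / 2 ^ P.c) A S

/-- the layers -/
def laysL (CL : ℕ → ℕ → ℤ → RT (List ℕ)) (r κ : ℕ) (z : ℤ) : ℕ → RT (List ℕ)
  | 0 => ret (List.replicate (2 ^ P.mu κ) 0)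
  | l + 1 => (laysL CL r κ z l).bind fun A =>
      (accL (smpL P CL r κ l z) (2 ^ (P.c + r - l)) (List.replicate (2 ^ P.mu κ) 0)).map
        fun S => layL P l A S

theorem tab_zero (κ : ℕ) (z : ℤ) : tab P κ z (fun _ => 0) = List.replicate (2 ^ P.mu κ) 0 := by
  simp [tab]

theorem laysL_eq {C : ℕ → ℕ → ℤ → RT (ℤ → ℕ)} {CL : ℕ → ℕ → ℤ → RT (List ℕ)} {r κ : ℕ} {z : ℤ}
    {n : ℕ} (hn : n ≤ κ + 1)
    (h : ∀ l < n, ∀ i z, CL (κ - l) i z = (C (κ - l) i z).map (tab P (κ - l) z)) :
    laysL P CL r κ z n = (P.lays C r κ z n).map (tab P κ z) := by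
  induction n with
  | zero =>
    simp only [laysL, Init772.Par.lays, map_eq_bind, ret_bind, tab_zero]
  | succ n ih =>
    rw [laysL, Init772.Par.lays, ih (by omega) fun l hl => h l (by omega), map_bind, bind_map]
    apply bind_congr
    intro A
    rw [← tab_zero, accL_eq P (smpL_eq P (show n ≤ κ by omega) (h n (by omega))), map_map, map_map]
    apply map_congr
    intro L
    unfold layL tab
    rw [List.zipWith_map, List.zipWith_self]
    simp

/-- the last step: inflation and cap -/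
def finL (κ : ℕ) (A : List ℕ) : List ℕ := A.map fun a => min (P.cap κ) (a + a / 2 ^ P.t)

/-- the estimator -/
def stepL (CL : ℕ → ℕ → ℤ → RT (List ℕ)) (r κ : ℕ) (z : ℤ) : RT (List ℕ) :=
  (laysL P CL r κ z (min κ P.J + 1)).map (finL P κ)

theorem stepL_eq {C : ℕ → ℕ → ℤ → RT (ℤ → ℕ)} {CL : ℕ → ℕ → ℤ → RT (List ℕ)} {r κ : ℕ} {z : ℤ}
    (h : ∀ κ' ≤ κ, ∀ i z, CL κ' i z = (C κ' i z).map (tab P κ' z)) :
    stepL P CL r κ z = (P.step C r κ z).map (tab P κ z) := by
  unfold stepL Init772.Par.step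
  rw [laysL_eq P (C := C) (by omega) (fun l _ => h _ (by omega)), map_map, map_map]
  apply map_congr
  intro A
  unfold finL tab
  rw [List.map_map]
  rfl

/-- probabilities of properties of the table -/
theorem Pr_tab {M : ℕ} {t : RT (ℤ → ℕ)} {tL : RT (List ℕ)} {κ : ℕ} {z : ℤ}
    (h : tL = t.map (tab P κ z)) (Q : List ℕ → Prop) :
    tL.Pr M Q = t.Pr M fun F => Q (tab P κ z F) := by
  rw [h, Pr_map]

end Par

end Crest.Agent.R288.InitL663
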