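import Mathlib
import Crest.Agent.R288.InitE_772
import Crest.Agent.R288.InitL_663
import Crest.Agent.R288.NodePT_222

/-!
# R288 (S0433), leaf [Init]: the recursive estimator on lists, with the leaf command as oracle

* `E_eq_zero_iff`: the E-distance vanishes iff all rows of the block match;
* `bl_leaf`: `min 1 (E g (mis x y) h j u) = min (gn x y h j u u) 1`, the value of the leaf command
  (`LeafX_222`) with `D = 0`;
* `estL`, `estHL`: list forms of `P.est`, `P.estH`; they ask only for `bl h j u`.
-/

set_option autoImplicit false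

namespace Crest.Agent.R288.InitL663

open Finset Crest.Agent.R295.Rnd627 Crest.Agent.R295.Rnd627.RT Crest.Agent.R288.Init772
open Crest.GraphRAM Crest.Agent.R288.Ed Crest.Agent.R288.GameA347 Crest.Agent.R288.NodeA785

/-! ### blocks of distance zero -/

theorem ic_eq_zero_iff (F : ℤ → ℕ) (u : ℤ) : ic F u = 0 ↔ F u = 0 := by
  constructor
  · intro h
    obtain ⟨w, hw⟩ := exists_ic F u
    have h1 : w = u := by omega
    subst h1
    omega
  · intro h
    have := ic_le_self F u
    omega

theorem wr_eq_zero_iff (g h : ℕ) (F : ℤ → ℕ) (u : ℤ) : wr g h F u = 0 ↔ F u = 0 := by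
  unfold wr
  split_ifs
  · exact ic_eq_zero_iff F u
  · rfl

theorem E_eq_zero_iff (g : ℕ) (e : ℕ → ℤ → ℕ) (h : ℕ) : ∀ (j : ℕ) (u : ℤ),
    E g e h j u = 0 ↔ ∀ t, j * 2 ^ h ≤ t → t < (j + 1) * 2 ^ h → e t u = 0 := by
  induction h with
  | zero =>
    intro j u
    rw [E_zero]
    constructor
    · intro h t h1 h2
      have : t = j := by simp only [pow_zero, mul_one] at h1 h2; omega
      rw [this]; exact h
    · intro h
      exact h j (by simp) (by simp)
  | succ h ih =>
    intro j u
    rw [E_succ, Nat.add_eq_zero_iff, wr_eq_zero_iff, wr_eq_zero_iff, ih, ih]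
    have e1 : 2 * j * 2 ^ h = j * 2 ^ (h + 1) := by ring
    have e2 : (2 * j + 1 + 1) * 2 ^ h = (j + 1) * 2 ^ (h + 1) := by ring
    have e3 : 2 * j * 2 ^ h ≤ (2 * j + 1) * 2 ^ h := Nat.mul_le_mul_right _ (by omega)
    have e4 : (2 * j + 1) * 2 ^ h ≤ (2 * j + 1 + 1) * 2 ^ h := Nat.mul_le_mul_right _ (by omega)
    rw [e1] at *
    rw [e2] at *
    constructor
    · rintro ⟨h1, h2⟩ t h3 h4
      rcases lt_or_ge t ((2 * j + 1) * 2 ^ h) with h5 | h5
      · exact h1 t h3 h5
      · exact h2 t h5 h4
    · intro h1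
      exact ⟨fun t h3 h4 => h1 t h3 (by omega), fun t h3 h4 => h1 t (by omega) h4⟩

/-- a block which matches -/
theorem E_of_gn {x y : List ℕ} {g h j : ℕ} {u : ℤ} (h0 : gn x y h j u u = 0) :
    E g (mis x y) h j u = 0 := by
  rw [E_eq_zero_iff]
  intro t h1 h2
  unfold mis
  split_ifs with ht hm
  · rfl
  · exfalso
    apply hm
    unfold gn GameA347.g at h0
    set a := lo x.length h j with ha
    set b := hi x.length h j with hb
    set p := pos y.length a u with hp
    set q := pos y.length b u with hq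
    unfold GameA347.G at h0
    have h3 : editDist (seg x a b) (seg y p q) = 0 := by omega
    have h4 : p ≤ q := by omega
    rw [ed_eq_zero_iff] at h3
    have hat : a ≤ t := (min_le_right _ _).trans h1
    have htb : t < b := by rw [hb]; unfold NodeA785.hi; omega
    have hbx : b ≤ x.length := hi_le _ _ _
    have hqy : q ≤ y.length := min_le_right _ _
    have h5 := congrArg List.length h3
    rw [seg_length, seg_length] at h5
    -- the positions are not clipped
    have h6 : b - a = q - p := by omega
    have hp' : p = min ((a : ℤ) + u).toNat y.length := hp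
    have hq' : q = min ((b : ℤ) + u).toNat y.length := hq
    have h7 : (p : ℤ) = a + u := by omega
    have h8 : (0 : ℤ) ≤ t + u := by omega
    refine ⟨h8, ?_⟩
    have h9 : ((t : ℤ) + u).toNat = p + (t - a) := by omega
    have h10 : (seg x a b)[t - a]? = (seg y p q)[t - a]? := by rw [h3]
    have h11 : (seg x a b)[t - a]? = x[t]? := by
      have h12 := getElem?_seg x a b (t - a) (by omega)
      rw [h12]
      congr 1
      omega
    have h13 : (seg y p q)[t - a]? = y[p + (t - a)]? := getElem?_seg y p q (t - a) (by omega)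
    rw [h9, ← h11, ← h13]
    exact h10
  · rfl

theorem gn_of_E {x y : List ℕ} {g h j : ℕ} {u : ℤ} (h0 : E g (mis x y) h j u = 0) :
    gn x y h j u u = 0 := by
  have := gn_le_E x y g h j u u
  rw [h0] at this
  omega

/-- **the oracle of the estimator is the leaf command with `D = 0`** -/
theorem bl_leaf (x y : List ℕ) (g h j : ℕ) (u : ℤ) :
    min 1 (E g (mis x y) h j u) = min (gn x y h j u u) 1 := by
  rcases Nat.eq_zero_or_pos (E g (mis x y) h j u) with h0 | h0
  · rw [h0, gn_of_E h0]
    rfl
  · have h1 : 0 < gn x y h j u u := by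
      rcases Nat.eq_zero_or_pos (gn x y h j u u) with h2 | h2
      · rw [E_of_gn h2] at h0; omega
      · exact h2
    omega

/-- the oracle as a call of the leaf command -/
theorem bl_leafF (x y : List ℕ) (g h j : ℕ) (u : ℤ) :
    min 1 (E g (mis x y) h j u) =
      LeafX222.leafF x y (NodePT222.leafA x.length y.length h j u u 0) := by
  rw [NodePT222.leafF_leafA x y h j u u (Nat.zero_le _), bl_leaf]

namespace Par

variable (P : Init772.Par)

/-! ### the recursion -/

/-- the table of the oracle -/
def blT (bl : ℕ → ℕ → ℤ → ℕ) (h κ j : ℕ) (z : ℤ) : List ℕ :=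
  tab P κ z fun u => 2 ^ P.s * bl h j u

/-- the estimator at macro heights, on lists -/
def estL (bl : ℕ → ℕ → ℤ → ℕ) : ℕ → ℕ → ℕ → ℤ → RT (List ℕ)
  | 0, κ, j, z => ret (blT P bl 0 κ j z)
  | q + 1, κ, j, z => if κ = 0 then ret (blT P bl (P.g * (q + 1)) 0 j z)
    else stepL P (fun κ' i z' => estL bl q κ' (2 ^ P.g * j + i) z') P.g κ z

/-- the estimator at the height `g q + r`, on lists -/
def estHL (bl : ℕ → ℕ → ℤ → ℕ) (q r κ j : ℕ) (z : ℤ) : RT (List ℕ) :=
  if κ = 0 then ret (blT P bl (P.g * q + r) 0 j z)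
  else stepL (P.up r) (fun κ' i z' => estL P bl q κ' (2 ^ r * j + i) z') r κ z

section hook

variable {e : ℕ → ℤ → ℕ} {bl : ℕ → ℕ → ℤ → ℕ}

theorem estL_eq (he : ∀ j u, e j u ≤ 1) (hbl : ∀ h j u, bl h j u = min 1 (E P.g e h j u)) (q : ℕ) :
    ∀ (κ j : ℕ) (z : ℤ), estL P bl q κ j z = (P.est e q κ j z).map (tab P κ z) := by
  induction q with
  | zero =>
    intro κ j z
    unfold estL Init772.Par.est
    rw [map_eq_bind, ret_bind]
    congr 1
    unfold blT
    congr 1
    funext u
    rw [hbl, E_zero, min_eq_right (he j u)]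
  | succ q ih =>
    intro κ j z
    unfold estL Init772.Par.est
    split_ifs with h0
    · subst h0
      rw [map_eq_bind, ret_bind]
      congr 1
      unfold blT
      congr 1
      funext u
      rw [hbl]
    · exact stepL_eq P fun κ' _ i z' => ih κ' _ z'

theorem estHL_eq (he : ∀ j u, e j u ≤ 1) (hbl : ∀ h j u, bl h j u = min 1 (E P.g e h j u))
    (q r κ j : ℕ) (z : ℤ) : estHL P bl q r κ j z = (P.estH e q r κ j z).map (tab P κ z) := by
  unfold estHL Init772.Par.estH
  split_ifs with h0
  · subst h0
    rw [map_eq_bind, ret_bind]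
    congr 1
    unfold blT
    congr 1
    funext u
    rw [hbl]
  · exact stepL_eq (P.up r) fun κ' _ i z' => estL_eq P he hbl q κ' _ z'

end hook

end Par

end Crest.Agent.R288.InitL663
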