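import Crest.Agent.Lib.PT.ArithMore
import Crest.Agent.Lib.PT.ListFns2
import Crest.Agent.Lib.PT.ArithInt

/-!
# R288, PTF kit for DP-type list functions (helper966)

* `iterate_out`, `foldl_out`, `loop_out`: loops all of whose intermediate results have
  polynomially bounded codes because every step has a bounded OUTPUT;
  `iterate_inv`, `foldl_inv`, `loop_ptf`: the same with an invariant.
* `cap N V l`, `cap2 N M V t`: lists / tables cut to a given size with entries `≤ V`.
* binary indexed lookup, `tab`, `tab2`.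
* `minR`, `argR`, `maxR`, `sumR`: minimum, first minimiser, maximum, sum over a range.
-/

set_option autoImplicit false

namespace Crest.Agent.R288.PtDP966

open Crest.Agent.Lib.PT

/-! ### loops with bounded outputs -/

section loops

/-- loop `x := f i x` for `i = 0, .., n - 1` -/
def loop {β : Type} (n : ℕ) (f : ℕ → β → β) (b : β) : β := (List.range n).foldl (fun x i => f i x) b

@[simp] theorem loop_zero {β : Type} (f : ℕ → β → β) (b : β) : loop 0 f b = b := rfl

theorem loop_succ {β : Type} (n : ℕ) (f : ℕ → β → β) (b : β) :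
    loop (n + 1) f b = f n (loop n f b) := by
  simp [loop, List.range_succ]

/-- invariants of a loop -/
theorem loop_inv {β : Type} {f : ℕ → β → β} {b : β} (P : ℕ → β → Prop) (h0 : P 0 b)
    (n : ℕ) (h : ∀ i < n, ∀ x, P i x → P (i + 1) (f i x)) : P n (loop n f b) := by
  induction n with
  | zero => exact h0
  | succ n ih =>
    rw [loop_succ]
    exact h n (by omega) _ (ih fun i hi x hx => h i (by omega) x hx)

theorem loop_congr {β : Type} {f g : ℕ → β → β} {b : β} {n : ℕ}
    (h : ∀ i < n, ∀ x, f i x = g i x) : loop n f b = loop n g b := by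
  induction n with
  | zero => rfl
  | succ n ih =>
    rw [loop_succ, loop_succ, ih fun i hi => h i (by omega), h n (by omega)]

variable {α β γ δ : Type} [PTCode α] [PTCode β] [PTCode γ] [PTCode δ]

theorem pb_sz {a : γ → α} (ha : PTF a) : PB (fun c => sz (a c)) := by
  obtain ⟨p, hp⟩ := ha.bound
  exact ⟨p, hp⟩

theorem iterate_inv {n : γ → ℕ} {f : γ → α → α} {a : γ → α} (hn : PTU n) (hf : PTF₂ f)
    (ha : PTF a) {G : γ → ℕ} (hG : PB G) (P : γ → α → Prop) (h0 : ∀ c, P c (a c))
    (h1 : ∀ c x, P c x → P c (f c x)) (h2 : ∀ c x, P c x → sz x ≤ G c) :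
    PTF (fun c => (f c)^[n c] (a c)) := by
  refine PTF.iterate' hn hf ha (B := G) hG ?_
  intro c i _
  have key : ∀ i, P c ((f c)^[i] (a c)) := by
    intro i
    induction i with
    | zero => exact h0 c
    | succ i ih => rw [Function.iterate_succ_apply']; exact h1 c _ ih
  exact h2 c _ (key i)

theorem iterate_out {n : γ → ℕ} {f : γ → α → α} {a : γ → α} (hn : PTU n) (hf : PTF₂ f)
    (ha : PTF a) {G : γ → ℕ} (hG : PB G) (h : ∀ c x, sz (f c x) ≤ G c) :
    PTF (fun c => (f c)^[n c] (a c)) := by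
  have ha' := pb_sz ha
  refine iterate_inv hn hf ha (G := fun c => sz (a c) + G c) (by fun_prop)
    (fun c x => sz x ≤ sz (a c) + G c) ?_ ?_ ?_
  · intro c; exact Nat.le_add_right _ _
  · intro c x _; exact (h c x).trans (Nat.le_add_left _ _)
  · intro c x hx; exact hx

theorem foldl_inv {l : γ → List α} {f : γ → β → α → β} {b : γ → β} (hl : PTF l)
    (hf : PTF (fun p : γ × β × α => f p.1 p.2.1 p.2.2)) (hb : PTF b) {G : γ → ℕ} (hG : PB G)
    (P : γ → β → Prop) (h0 : ∀ c, P c (b c)) (h1 : ∀ c x, ∀ a ∈ l c, P c x → P c (f c x a))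
    (h2 : ∀ c x, P c x → sz x ≤ G c) :
    PTF (fun c => (l c).foldl (f c) (b c)) := by
  refine PTF.foldl hl hf hb hG ?_
  intro c i _
  refine h2 c _ ?_
  have key : ∀ (l' : List α) (x : β), (∀ a ∈ l', a ∈ l c) → P c x → P c (l'.foldl (f c) x) := by
    intro l'
    induction l' with
    | nil => intro x _ hx; exact hx
    | cons a l' ih =>
      intro x hx hx'
      rw [List.foldl_cons]
      exact ih _ (fun a' ha' => hx a' (by simp [ha'])) (h1 c x a (hx a (by simp)) hx')
  exact key _ _ (fun a ha => List.mem_of_mem_take ha) (h0 c)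

theorem foldl_out {l : γ → List α} {f : γ → β → α → β} {b : γ → β} (hl : PTF l)
    (hf : PTF (fun p : γ × β × α => f p.1 p.2.1 p.2.2)) (hb : PTF b) {G : γ → ℕ} (hG : PB G)
    (h : ∀ c b, ∀ a ∈ l c, sz (f c b a) ≤ G c) :
    PTF (fun c => (l c).foldl (f c) (b c)) := by
  have hb' := pb_sz hb
  refine foldl_inv hl hf hb (G := fun c => sz (b c) + G c) (by fun_prop)
    (fun c x => sz x ≤ sz (b c) + G c) ?_ ?_ ?_
  · intro c; exact Nat.le_add_right _ _
  · intro c x a ha _; exact (h c x a ha).trans (Nat.le_add_left _ _)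
  · intro c x hx; exact hx

/-- loop with an invariant (which may depend on the counter) -/
theorem loop_ptf {n : γ → ℕ} {f : γ → ℕ → β → β} {b : γ → β} (hn : PTU n)
    (hf : PTF (fun p : γ × ℕ × β => f p.1 p.2.1 p.2.2)) (hb : PTF b) {G : γ → ℕ} (hG : PB G)
    (P : γ → ℕ → β → Prop) (h0 : ∀ c, P c 0 (b c))
    (h1 : ∀ c, ∀ i < n c, ∀ x, P c i x → P c (i + 1) (f c i x))
    (h2 : ∀ c, ∀ i ≤ n c, ∀ x, P c i x → sz x ≤ G c) :
    PTF (fun c => loop (n c) (f c) (b c)) := by
  refine PTF.natRec (r := fun c i => loop i (f c) (b c)) (s := f) (b := b) hn hb hf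
    (fun c => rfl) (fun c i _ => loop_succ _ _ _) hG ?_
  intro c i hi
  exact h2 c i hi _ (loop_inv (P c) (h0 c) i (fun j hj x hx => h1 c j (by omega) x hx))

theorem loop_out {n : γ → ℕ} {f : γ → ℕ → β → β} {b : γ → β} (hn : PTU n)
    (hf : PTF (fun p : γ × ℕ × β => f p.1 p.2.1 p.2.2)) (hb : PTF b) {G : γ → ℕ} (hG : PB G)
    (h : ∀ c x, ∀ i < n c, sz (f c i x) ≤ G c) :
    PTF (fun c => loop (n c) (f c) (b c)) := by
  have hb' := pb_sz hb
  refine loop_ptf hn hf hb (G := fun c => sz (b c) + G c) (by fun_prop)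
    (fun c _ x => sz x ≤ sz (b c) + G c) ?_ ?_ ?_
  · intro c; exact Nat.le_add_right _ _
  · intro c i hi x _; exact (h c x i hi).trans (Nat.le_add_left _ _)
  · intro c i _ x hx; exact hx

end loops

/-! ### cut lists and tables -/

section caps

variable {α β γ δ : Type} [PTCode α] [PTCode β] [PTCode γ] [PTCode δ]

/-- at most `N` entries, each at most `V` -/
def cap (N V : ℕ) (l : List ℕ) : List ℕ := (l.take N).map (min V)

theorem cap_of {N V : ℕ} {l : List ℕ} (h1 : l.length ≤ N) (h2 : ∀ a ∈ l, a ≤ V) :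
    cap N V l = l := by
  rw [cap, List.take_of_length_le h1]
  conv_rhs => rw [← List.map_id l]
  exact List.map_congr_left fun a ha => by simp [h2 a ha]

theorem length_cap (N V : ℕ) (l : List ℕ) : (cap N V l).length = min N l.length := by
  simp [cap]

theorem mem_cap {N V : ℕ} {l : List ℕ} {a : ℕ} (h : a ∈ cap N V l) : a ≤ V := by
  obtain ⟨b, _, rfl⟩ := List.mem_map.1 h
  exact min_le_left _ _

theorem sz_nat_of_le {a V : ℕ} (h : a ≤ V) : sz a ≤ V.size := by
  rw [sz_nat]; exact Nat.size_le_size h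

/-- size of a list of at most `N` entries `≤ V` -/
theorem sz_le_of_bd {N V : ℕ} {l : List ℕ} (h1 : l.length ≤ N) (h2 : ∀ a ∈ l, a ≤ V) :
    sz l ≤ N * (2 * V.size + 1) :=
  (sz_list_le fun a ha => sz_nat_of_le (h2 a ha)).trans (Nat.mul_le_mul_right _ h1)

theorem sz_cap_le (N V : ℕ) (l : List ℕ) : sz (cap N V l) ≤ N * (2 * V.size + 1) :=
  sz_le_of_bd (by rw [length_cap]; exact min_le_left _ _) fun _ h => mem_cap h

@[fun_prop]
theorem ptf_cap {N V : γ → ℕ} {l : γ → List ℕ} (hN : PTU N) (hV : PTF V) (hl : PTF l) :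
    PTF (fun c => cap (N c) (V c) (l c)) :=
  PTF.map (f := fun c a => min (V c) a) (PTF.take hN hl)
    (PTF.natMin (by fun_prop) (by fun_prop))

theorem pb_size {V : γ → ℕ} (hV : PTF V) : PB (fun c => (V c).size) := by
  obtain ⟨p, hp⟩ := hV.bound
  refine ⟨p, fun c => ?_⟩
  have h := hp c
  rwa [sz_nat] at h

theorem pb_cap {N V : γ → ℕ} (hN : PTU N) (hV : PTF V) :
    PB (fun c => N c * (2 * (V c).size + 1)) := by
  have h1 := hN.pb
  have h2 := pb_size hV
  fun_prop

/-- table with at most `N` rows, each cut by `cap M V` -/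
def cap2 (N M V : ℕ) (t : List (List ℕ)) : List (List ℕ) := (t.take N).map (cap M V)

theorem cap2_of {N M V : ℕ} {t : List (List ℕ)} (h1 : t.length ≤ N)
    (h2 : ∀ r ∈ t, r.length ≤ M ∧ ∀ a ∈ r, a ≤ V) : cap2 N M V t = t := by
  rw [cap2, List.take_of_length_le h1]
  conv_rhs => rw [← List.map_id t]
  exact List.map_congr_left fun r hr => by simp [cap_of (h2 r hr).1 (h2 r hr).2]

theorem sz2_le_of_bd {N M V : ℕ} {t : List (List ℕ)} (h1 : t.length ≤ N)
    (h2 : ∀ r ∈ t, r.length ≤ M ∧ ∀ a ∈ r, a ≤ V) :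
    sz t ≤ N * (2 * (M * (2 * V.size + 1)) + 1) :=
  (sz_list_le fun r hr => sz_le_of_bd (h2 r hr).1 (h2 r hr).2).trans (Nat.mul_le_mul_right _ h1)

theorem sz_cap2_le (N M V : ℕ) (t : List (List ℕ)) :
    sz (cap2 N M V t) ≤ N * (2 * (M * (2 * V.size + 1)) + 1) := by
  refine sz2_le_of_bd (by simp [cap2]) ?_
  intro r hr
  obtain ⟨b, _, rfl⟩ := List.mem_map.1 hr
  exact ⟨by rw [length_cap]; exact min_le_left _ _, fun _ h => mem_cap h⟩

@[fun_prop]
theorem ptf_cap2 {N M V : γ → ℕ} {t : γ → List (List ℕ)} (hN : PTU N) (hM : PTU M) (hV : PTF V)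
    (ht : PTF t) : PTF (fun c => cap2 (N c) (M c) (V c) (t c)) := by
  refine PTF.map (f := fun c r => cap (M c) (V c) r) (PTF.take hN ht) ?_
  exact ptf_cap (by fun_prop) (by fun_prop) (by fun_prop)

theorem pb_cap2 {N M V : γ → ℕ} (hN : PTU N) (hM : PTU M) (hV : PTF V) :
    PB (fun c => N c * (2 * (M c * (2 * (V c).size + 1)) + 1)) := by
  have h1 := hN.pb
  have h2 := hM.pb
  have h3 := pb_size hV
  fun_prop

/-- capped iteration of list functions: no size bounds needed -/
theorem iterate_cap {n N V : γ → ℕ} {f : γ → List ℕ → List ℕ} {a : γ → List ℕ} (hn : PTU n)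
    (hN : PTU N) (hV : PTF V) (hf : PTF₂ f) (ha : PTF a) :
    PTF (fun c => (fun x => cap (N c) (V c) (f c x))^[n c] (a c)) := by
  refine iterate_out hn ?_ ha (pb_cap hN hV) (fun c x => sz_cap_le _ _ _)
  exact ptf_cap (by fun_prop) (by fun_prop) (by pt_prop)

theorem loop_cap {n N V : γ → ℕ} {f : γ → ℕ → List ℕ → List ℕ} {a : γ → List ℕ} (hn : PTU n)
    (hN : PTU N) (hV : PTF V) (hf : PTF (fun p : γ × ℕ × List ℕ => f p.1 p.2.1 p.2.2))
    (ha : PTF a) :
    PTF (fun c => loop (n c) (fun i x => cap (N c) (V c) (f c i x)) (a c)) := by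
  refine loop_out (f := fun c i x => cap (N c) (V c) (f c i x)) hn ?_ ha (pb_cap hN hV)
    (fun c x i _ => sz_cap_le _ _ _)
  exact ptf_cap (by fun_prop) (by fun_prop) (by fun_prop)

theorem loop_cap2 {n N M V : γ → ℕ} {f : γ → ℕ → List (List ℕ) → List (List ℕ)}
    {a : γ → List (List ℕ)} (hn : PTU n) (hN : PTU N) (hM : PTU M) (hV : PTF V)
    (hf : PTF (fun p : γ × ℕ × List (List ℕ) => f p.1 p.2.1 p.2.2)) (ha : PTF a) :
    PTF (fun c => loop (n c) (fun i x => cap2 (N c) (M c) (V c) (f c i x)) (a c)) := by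
  refine loop_out (f := fun c i x => cap2 (N c) (M c) (V c) (f c i x)) hn ?_ ha
    (pb_cap2 hN hM hV) (fun c x i _ => sz_cap2_le _ _ _ _)
  exact ptf_cap2 (by fun_prop) (by fun_prop) (by fun_prop) (by fun_prop)

end caps


/-! ### binary indexed access -/

section access

variable {α β γ δ : Type} [PTCode α] [PTCode β] [PTCode γ] [PTCode δ]

/-- lookup at a binary index -/
@[fun_prop]
theorem ptf_getD {l : γ → List α} {i : γ → ℕ} {d : γ → α} (hl : PTF l) (hi : PTF i) (hd : PTF d) :
    PTF (fun c => (l c).getD (i c) (d c)) := by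
  have h1 : PTU (fun c => min (i c) (l c).length) := PTF.natMinUn hi (by fun_prop)
  refine PTF.of_eq (PTF.getD h1 hl hd) fun c => ?_
  rcases le_or_gt (i c) (l c).length with h | h
  · rw [min_eq_left h]
  · rw [min_eq_right h.le]
    simp [List.getD_eq_getElem?_getD, List.getElem?_eq_none h.le]

@[fun_prop]
theorem ptf_get? {l : γ → List α} {i : γ → ℕ} (hl : PTF l) (hi : PTF i) :
    PTF (fun c => (l c)[i c]?) := by
  have h1 : PTU (fun c => min (i c) (l c).length) := PTF.natMinUn hi (by fun_prop)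
  refine PTF.of_eq (PTF.getElem? h1 hl) fun c => ?_
  rcases le_or_gt (i c) (l c).length with h | h
  · rw [min_eq_left h]
  · rw [min_eq_right h.le]
    simp [List.getElem?_eq_none h.le]

@[fun_prop]
theorem ptf_takeB {l : γ → List α} {i : γ → ℕ} (hl : PTF l) (hi : PTF i) :
    PTF (fun c => (l c).take (i c)) := by
  have h1 : PTU (fun c => min (i c) (l c).length) := PTF.natMinUn hi (by fun_prop)
  refine PTF.of_eq (PTF.take h1 hl) fun c => ?_
  rcases le_or_gt (i c) (l c).length with h | h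
  · rw [min_eq_left h]
  · rw [min_eq_right h.le, List.take_length, List.take_of_length_le h.le]

@[fun_prop]
theorem ptf_dropB {l : γ → List α} {i : γ → ℕ} (hl : PTF l) (hi : PTF i) :
    PTF (fun c => (l c).drop (i c)) := by
  have h1 : PTU (fun c => min (i c) (l c).length) := PTF.natMinUn hi (by fun_prop)
  refine PTF.of_eq (PTF.drop h1 hl) fun c => ?_
  rcases le_or_gt (i c) (l c).length with h | h
  · rw [min_eq_left h]
  · rw [min_eq_right h.le, List.drop_length, List.drop_of_length_le h.le]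

@[fun_prop]
theorem ptf_setB {l : γ → List α} {i : γ → ℕ} {a : γ → α} (hl : PTF l) (hi : PTF i)
    (ha : PTF a) : PTF (fun c => (l c).set (i c) (a c)) := by
  have h1 : PTU (fun c => min (i c) (l c).length) := PTF.natMinUn hi (by fun_prop)
  refine PTF.of_eq (PTF.set hl h1 ha) fun c => ?_
  rcases le_or_gt (i c) (l c).length with h | h
  · rw [min_eq_left h]
  · rw [min_eq_right h.le, List.set_eq_of_length_le le_rfl, List.set_eq_of_length_le h.le]

@[fun_prop]
theorem ptf_headD {l : γ → List α} {d : γ → α} (hl : PTF l) (hd : PTF d) :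
    PTF (fun c => (l c).headD (d c)) := by
  refine PTF.of_eq (f := fun c => (l c).head?.getD (d c)) (by fun_prop) fun c => ?_
  cases l c <;> rfl

@[fun_prop]
theorem ptf_lengthN {l : γ → List α} (hl : PTF l) : PTF (fun c => (l c).length) :=
  PTU.toPTF (PTU.length hl)

/-- two-dimensional lookup -/
def get2 (t : List (List α)) (i j : ℕ) (d : α) : α := (t.getD i []).getD j d

@[fun_prop]
theorem ptf_get2 {t : γ → List (List α)} {i j : γ → ℕ} {d : γ → α} (ht : PTF t) (hi : PTF i)
    (hj : PTF j) (hd : PTF d) : PTF (fun c => get2 (t c) (i c) (j c) (d c)) := by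
  unfold get2
  fun_prop

/-- tabulation -/
def tab {α : Type} (n : ℕ) (f : ℕ → α) : List α := (List.range n).map f

@[simp] theorem length_tab {α : Type} (n : ℕ) (f : ℕ → α) : (tab n f).length = n := by simp [tab]

theorem mem_tab {α : Type} {n : ℕ} {f : ℕ → α} {a : α} : a ∈ tab n f ↔ ∃ i < n, f i = a := by
  simp [tab]

theorem getD_tab {α : Type} {n : ℕ} {f : ℕ → α} {i : ℕ} {d : α} (h : i < n) :
    (tab n f).getD i d = f i := by
  simp [tab, List.getD_eq_getElem?_getD, h]

theorem getD_tab_of_le {α : Type} {n : ℕ} {f : ℕ → α} {i : ℕ} {d : α} (h : n ≤ i) :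
    (tab n f).getD i d = d := by
  simp [tab, List.getD_eq_getElem?_getD, h]

theorem tab_congr {α : Type} {n : ℕ} {f g : ℕ → α} (h : ∀ i < n, f i = g i) : tab n f = tab n g :=
  List.map_congr_left fun i hi => h i (List.mem_range.1 hi)

theorem sum_tab (n : ℕ) (f : ℕ → ℕ) : (tab n f).sum = ∑ i ∈ Finset.range n, f i := by
  induction n with
  | zero => simp [tab]
  | succ n ih =>
    rw [Finset.sum_range_succ, ← ih]
    simp [tab, List.range_succ]

theorem ptf_tab {n : γ → ℕ} {f : γ → ℕ → α} (hn : PTU n) (hf : PTF₂ f) :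
    PTF (fun c => tab (n c) (f c)) := PTF.tabulate hn hf

/-- two-dimensional tabulation -/
def tab2 {α : Type} (n m : ℕ) (f : ℕ → ℕ → α) : List (List α) := tab n fun i => tab m (f i)

omit [PTCode α] in
theorem get2_tab2 {n m : ℕ} {f : ℕ → ℕ → α} {i j : ℕ} {d : α} (hi : i < n) (hj : j < m) :
    get2 (tab2 n m f) i j d = f i j := by
  rw [get2, tab2, getD_tab hi, getD_tab hj]

theorem ptf_tab2 {n m : γ → ℕ} {f : γ → ℕ → ℕ → α} (hn : PTU n) (hm : PTU m)
    (hf : PTF (fun p : γ × ℕ × ℕ => f p.1 p.2.1 p.2.2)) :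
    PTF (fun c => tab2 (n c) (m c) (f c)) := by
  refine ptf_tab (f := fun c i => tab (m c) (f c i)) hn ?_
  refine ptf_tab (γ := γ × ℕ) (n := fun p => m p.1) (f := fun p j => f p.1 p.2 j) (by fun_prop) ?_
  exact PTF.comp (g := fun q : γ × ℕ × ℕ => f q.1 q.2.1 q.2.2)
    (f := fun p : (γ × ℕ) × ℕ => (p.1.1, p.1.2, p.2)) hf (by fun_prop)

end access

/-! ### minima, maxima, sums over a range -/

section ranges

variable {α β γ δ : Type} [PTCode α] [PTCode β] [PTCode γ] [PTCode δ]

/-- `min d (min_{i < n} f i)` -/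
def minR (n : ℕ) (f : ℕ → ℕ) (d : ℕ) : ℕ := loop n (fun i x => min x (f i)) d

@[simp] theorem minR_zero (f : ℕ → ℕ) (d : ℕ) : minR 0 f d = d := rfl

theorem minR_succ (n : ℕ) (f : ℕ → ℕ) (d : ℕ) : minR (n + 1) f d = min (minR n f d) (f n) :=
  loop_succ _ _ _

theorem minR_le_init (n : ℕ) (f : ℕ → ℕ) (d : ℕ) : minR n f d ≤ d := by
  induction n with
  | zero => exact le_rfl
  | succ n ih => rw [minR_succ]; exact (min_le_left _ _).trans ih

theorem minR_le {n : ℕ} {f : ℕ → ℕ} {d i : ℕ} (h : i < n) : minR n f d ≤ f i := by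
  induction n with
  | zero => omega
  | succ n ih =>
    rw [minR_succ]
    rcases Nat.lt_succ_iff_lt_or_eq.1 h with h | h
    · exact (min_le_left _ _).trans (ih h)
    · subst h; exact min_le_right _ _

theorem le_minR {n : ℕ} {f : ℕ → ℕ} {d a : ℕ} (h0 : a ≤ d) (h : ∀ i < n, a ≤ f i) :
    a ≤ minR n f d := by
  induction n with
  | zero => exact h0
  | succ n ih =>
    rw [minR_succ]
    exact le_min (ih fun i hi => h i (by omega)) (h n (by omega))

theorem minR_attained (n : ℕ) (f : ℕ → ℕ) (d : ℕ) : minR n f d = d ∨ ∃ i < n, minR n f d = f i := by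
  induction n with
  | zero => exact Or.inl rfl
  | succ n ih =>
    rw [minR_succ]
    rcases le_total (minR n f d) (f n) with h | h
    · rw [min_eq_left h]
      rcases ih with ih | ⟨i, hi, ih⟩
      · exact Or.inl ih
      · exact Or.inr ⟨i, by omega, ih⟩
    · rw [min_eq_right h]
      exact Or.inr ⟨n, by omega, rfl⟩

theorem minR_congr {n : ℕ} {f g : ℕ → ℕ} {d : ℕ} (h : ∀ i < n, f i = g i) :
    minR n f d = minR n g d := loop_congr fun i hi x => by rw [h i hi]

theorem ptf_minR {n : γ → ℕ} {f : γ → ℕ → ℕ} {d : γ → ℕ} (hn : PTU n) (hf : PTF₂ f)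
    (hd : PTF d) : PTF (fun c => minR (n c) (f c) (d c)) := by
  refine loop_ptf (f := fun c i x => min x (f c i)) hn ?_ hd (G := fun c => (d c).size)
    (pb_size hd) (fun c _ x => x ≤ d c) (fun c => le_rfl) ?_ ?_
  · refine PTF.natMin (by fun_prop) ?_
    exact PTF.comp (g := fun q : γ × ℕ => f q.1 q.2) (f := fun p : γ × ℕ × ℕ => (p.1, p.2.1)) hf
      (by fun_prop)
  · intro c i _ x hx; exact (min_le_left _ _).trans hx
  · intro c i _ x hx; exact sz_nat_of_le hx

/-- `max_{i < n} f i` (`0` for `n = 0`) -/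
def maxR (n : ℕ) (f : ℕ → ℕ) : ℕ := loop n (fun i x => max x (f i)) 0

theorem maxR_succ (n : ℕ) (f : ℕ → ℕ) : maxR (n + 1) f = max (maxR n f) (f n) := loop_succ _ _ _

theorem le_maxR {n : ℕ} {f : ℕ → ℕ} {i : ℕ} (h : i < n) : f i ≤ maxR n f := by
  induction n with
  | zero => omega
  | succ n ih =>
    rw [maxR_succ]
    rcases Nat.lt_succ_iff_lt_or_eq.1 h with h | h
    · exact (ih h).trans (le_max_left _ _)
    · subst h; exact le_max_right _ _

theorem maxR_le {n : ℕ} {f : ℕ → ℕ} {a : ℕ} (h : ∀ i < n, f i ≤ a) : maxR n f ≤ a := by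
  induction n with
  | zero => exact Nat.zero_le _
  | succ n ih =>
    rw [maxR_succ]
    exact max_le (ih fun i hi => h i (by omega)) (h n (by omega))

theorem maxR_attained {n : ℕ} {f : ℕ → ℕ} (hn : 0 < n) : ∃ i < n, maxR n f = f i := by
  induction n with
  | zero => omega
  | succ n ih =>
    rw [maxR_succ]
    rcases Nat.eq_zero_or_pos n with h0 | h0
    · subst h0
      refine ⟨0, by omega, ?_⟩
      change max 0 (f 0) = f 0
      simp
    rcases le_total (maxR n f) (f n) with h | h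
    · rw [max_eq_right h]; exact ⟨n, by omega, rfl⟩
    · rw [max_eq_left h]
      obtain ⟨i, hi, he⟩ := ih h0
      exact ⟨i, by omega, he⟩

theorem size_max_le (a b : ℕ) : (max a b).size ≤ max a.size b.size := by
  rcases le_total a b with h | h
  · rw [max_eq_right h]; exact le_max_right _ _
  · rw [max_eq_left h]; exact le_max_left _ _

theorem ptf_maxR {n : γ → ℕ} {f : γ → ℕ → ℕ} (hn : PTU n) (hf : PTF₂ f) :
    PTF (fun c => maxR (n c) (f c)) := by
  obtain ⟨B, hB, hBd⟩ := Arith.pb_index hn hf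
  refine loop_ptf (f := fun c i x => max x (f c i)) (b := fun _ => 0) hn ?_ (PTF.const 0)
    (G := B) hB (fun c _ x => x.size ≤ B c) (fun c => by simp) ?_ ?_
  · refine PTF.natMax (by fun_prop) ?_
    exact PTF.comp (g := fun q : γ × ℕ => f q.1 q.2) (f := fun p : γ × ℕ × ℕ => (p.1, p.2.1)) hf
      (by fun_prop)
  · intro c i hi x hx
    have := hBd c i hi.le
    rw [sz_nat] at this
    exact (size_max_le _ _).trans (max_le hx this)
  · intro c i _ x hx; rw [sz_nat]; exact hx

/-- the first minimiser of `f` over `i < n` (`0` for `n = 0`) -/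
def argR (n : ℕ) (f : ℕ → ℕ) : ℕ := loop n (fun i x => if f i < f x then i else x) 0

theorem argR_succ (n : ℕ) (f : ℕ → ℕ) :
    argR (n + 1) f = if f n < f (argR n f) then n else argR n f := loop_succ _ _ _

theorem argR_lt {n : ℕ} {f : ℕ → ℕ} (hn : 0 < n) : argR n f < n := by
  induction n with
  | zero => omega
  | succ n ih =>
    rw [argR_succ]
    split_ifs
    · omega
    · rcases Nat.eq_zero_or_pos n with h0 | h0
      · subst h0; exact Nat.zero_lt_one
      · have := ih h0; omega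

theorem argR_le {n : ℕ} {f : ℕ → ℕ} {i : ℕ} (h : i < n) : f (argR n f) ≤ f i := by
  induction n with
  | zero => omega
  | succ n ih =>
    rw [argR_succ]
    split_ifs with hc
    · rcases Nat.lt_succ_iff_lt_or_eq.1 h with h | h
      · exact hc.le.trans (ih h)
      · rw [h]
    · rcases Nat.lt_succ_iff_lt_or_eq.1 h with h | h
      · exact ih h
      · rw [h]; omega

/-- the value at the minimiser is the minimum -/
theorem argR_min {n : ℕ} {f : ℕ → ℕ} {d : ℕ} (hn : 0 < n) (hd : ∀ i < n, f i ≤ d) :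
    f (argR n f) = minR n f d := by
  apply le_antisymm
  · exact le_minR (hd _ (argR_lt hn)) fun i hi => argR_le hi
  · exact minR_le (argR_lt hn)

theorem argR_congr {n : ℕ} {f g : ℕ → ℕ} (h : ∀ i < n, f i = g i) : argR n f = argR n g := by
  induction n with
  | zero => rfl
  | succ n ih =>
    have e := ih fun i hi => h i (by omega)
    rw [argR_succ, argR_succ, e, h n (by omega)]
    rcases Nat.eq_zero_or_pos n with h0 | h0
    · subst h0
      have e0 : argR 0 g = 0 := rfl
      rw [e0, h 0 (by omega)]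
    · have := argR_lt (f := g) h0
      rw [h _ (show argR n g < n + 1 by omega)]

theorem ptf_argR {n : γ → ℕ} {f : γ → ℕ → ℕ} (hn : PTU n) (hf : PTF₂ f) :
    PTF (fun c => argR (n c) (f c)) := by
  have h1 : PTF (fun p : γ × ℕ × ℕ => f p.1 p.2.1) :=
    PTF.comp (g := fun q : γ × ℕ => f q.1 q.2) (f := fun p : γ × ℕ × ℕ => (p.1, p.2.1)) hf
      (by fun_prop)
  have h2 : PTF (fun p : γ × ℕ × ℕ => f p.1 p.2.2) :=
    PTF.comp (g := fun q : γ × ℕ => f q.1 q.2) (f := fun p : γ × ℕ × ℕ => (p.1, p.2.2)) hf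
      (by fun_prop)
  refine loop_ptf (f := fun c i x => if f c i < f c x then i else x) (b := fun _ => 0) hn ?_
    (PTF.const 0) (G := n) hn.pb (fun c i x => x ≤ i) (fun c => le_rfl) ?_ ?_
  · exact PTF.ite (PTPred.natLt h1 h2) (by fun_prop) (by fun_prop)
  · intro c i _ x hx
    split_ifs
    · omega
    · omega
  · intro c i hi x hx
    exact (sz_nat_le x).trans (hx.trans hi)

/-- sum over a range, as a list sum -/
def sumR (n : ℕ) (f : ℕ → ℕ) : ℕ := (tab n f).sum

theorem sumR_eq (n : ℕ) (f : ℕ → ℕ) : sumR n f = ∑ i ∈ Finset.range n, f i := sum_tab n f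

theorem ptf_sumR {n : γ → ℕ} {f : γ → ℕ → ℕ} (hn : PTU n) (hf : PTF₂ f) :
    PTF (fun c => sumR (n c) (f c)) :=
  PTF.natListSum (ptf_tab hn hf)

end ranges

end Crest.Agent.R288.PtDP966
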