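import Mathlib
import Crest.Agent.R288.InitM_663
import Crest.Agent.R288.PtX_949
import Crest.Agent.R288.PtDP_966

/-!
# R288 (S0433), leaf [Init]: the local functions of the estimator are poly-time

All ranges are cut at a unary bound `N` (the length of a pad carried by the program); for
`2 * 2 ^ σ + 1 ≤ N` the functions are those of `InitL_663` (`icN_eq`, `locN_eq`, ...).
Certificates: `ptf_icN`, `ptf_locN`, `ptf_addL`, `ptf_layL`, `ptf_finL`, `ptf_gridN`, `ptf_winN`.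
-/

set_option autoImplicit false

namespace Crest.Agent.R288.InitL663

open Crest.Agent.R288.Init772
open Crest.Agent.Lib.PT

namespace Par

section defs

variable (N : ℕ) (P : Init772.Par)

/-- `icL` with a cut range -/
def icN (κ : ℕ) (W : List ℕ) (o : ℕ) : ℕ :=
  (List.range (min (2 * 2 ^ P.mu κ + 1) N)).foldl
    (fun m n => min m (W.getD (o + n) 0 + 2 ^ P.s * (P.st κ * dst n (2 ^ P.mu κ)))) (P.cap κ)

/-- `locL` with cut ranges -/
def locN (κ l : ℕ) (W : List ℕ) : List ℕ :=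
  (List.range (min (2 ^ P.mu κ) N)).map fun t =>
    P.phi (κ - l) (icN N P (κ - l) W (rat P κ (κ - l) * t))

/-- the grid points of a window -/
def gridN (κ : ℕ) (z : ℤ) : List ℤ :=
  (List.range (min (2 ^ P.mu κ) N)).map fun t : ℕ => 2 ^ κ * z + P.st κ * t

/-- the windows of the children tables -/
def winN (l : ℕ) (z : ℤ) : List ℤ :=
  (List.range (min (2 ^ l + 2) N)).map fun c : ℕ => 2 ^ l * z - 1 + c

variable {N} {P}

theorem icN_eq (hN : 2 * 2 ^ P.σ + 1 ≤ N) (κ : ℕ) (W : List ℕ) (o : ℕ) :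
    icN N P κ W o = icL P κ W o := by
  have h1 : 2 ^ P.mu κ ≤ 2 ^ P.σ := Nat.pow_le_pow_right (by norm_num) (min_le_right _ _)
  unfold icN icL
  rw [min_eq_left (by omega)]

theorem locN_eq (hN : 2 * 2 ^ P.σ + 1 ≤ N) (κ l : ℕ) (W : List ℕ) :
    locN N P κ l W = locL P κ l W := by
  have h1 : 2 ^ P.mu κ ≤ 2 ^ P.σ := Nat.pow_le_pow_right (by norm_num) (min_le_right _ _)
  unfold locN locL
  rw [min_eq_left (by omega)]
  apply List.map_congr_left
  intro t _
  rw [icN_eq hN]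

theorem gridN_eq (hN : 2 * 2 ^ P.σ + 1 ≤ N) (κ : ℕ) (z : ℤ) (F : ℤ → ℕ) :
    (gridN N P κ z).map F = tab P κ z F := by
  have h1 : 2 ^ P.mu κ ≤ 2 ^ P.σ := Nat.pow_le_pow_right (by norm_num) (min_le_right _ _)
  unfold gridN tab
  rw [min_eq_left (by omega), List.map_map]
  rfl

theorem length_gridN (hN : 2 * 2 ^ P.σ + 1 ≤ N) (κ : ℕ) (z : ℤ) :
    (gridN N P κ z).length = 2 ^ P.mu κ := by
  have h1 : 2 ^ P.mu κ ≤ 2 ^ P.σ := Nat.pow_le_pow_right (by norm_num) (min_le_right _ _)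
  unfold gridN
  rw [List.length_map, List.length_range, min_eq_left (by omega)]

theorem winN_eq {l : ℕ} (hN : 2 ^ l + 2 ≤ N) (z : ℤ) :
    winN N l z = (List.range (2 ^ l + 2)).map fun c : ℕ => 2 ^ l * z - 1 + c := by
  unfold winN
  rw [min_eq_left hN]

end defs

/-! ### certificates -/

section ptf

variable {α : Type} [PTCode α] {P : α → Init772.Par} {N κ l : α → ℕ} {W A S : α → List ℕ}
  {z : α → ℤ}

theorem ptu_mu (hσ : PTU fun a => (P a).σ) (hκ : PTU κ) : PTU fun a => (P a).mu (κ a) :=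
  PTU.min hκ hσ

theorem ptf_mu2 (hσ : PTU fun a => (P a).σ) (hκ : PTU κ) : PTF fun a => 2 ^ (P a).mu (κ a) :=
  PTF.natTwoPow (ptu_mu hσ hκ)

theorem ptf_st (hσ : PTU fun a => (P a).σ) (hκ : PTU κ) : PTF fun a => (P a).st (κ a) :=
  PTF.natTwoPow (PTU.sub hκ hσ)

theorem ptf_cap (hs : PTU fun a => (P a).s) (hκ : PTU κ) : PTF fun a => (P a).cap (κ a) :=
  PTF.natMul (PTF.natTwoPow hs) (PTF.natTwoPow hκ)

theorem ptf_rat (hσ : PTU fun a => (P a).σ) {κ' : α → ℕ} (hκ : PTU κ) (hκ' : PTU κ') :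
    PTF fun a => rat (P a) (κ a) (κ' a) :=
  PTF.natTwoPow (PTU.sub (PTU.sub hκ hσ) (PTU.sub hκ' hσ))

theorem ptf_phi (hs : PTU fun a => (P a).s) (hκ : PTU κ) {x : α → ℕ} (hx : PTF x) :
    PTF fun a => (P a).phi (κ a) (x a) := by
  have h1 := ptf_cap (P := P) hs hκ
  have h2 : PTF fun a => (P a).cap (κ a - 1) := ptf_cap (P := P) hs (PTU.sub hκ (PTU.const 1))
  have h3 : PTF κ := hκ.toPTF
  unfold Init772.Par.phi
  fun_prop

theorem ptf_minfold {n cp s2 st m2 o : α → ℕ} (hn : PTU n) (hcp : PTF cp) (hs2 : PTF s2)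
    (hst : PTF st) (hm2 : PTF m2) (ho : PTF o) (hW : PTF W) :
    PTF fun a => (List.range (n a)).foldl (fun m i => min m ((W a).getD (o a + i) 0 +
      s2 a * (st a * ((i - m2 a) + (m2 a - i))))) (cp a) := by
  refine PtDP966.foldl_inv (G := fun a => sz (cp a)) (PTF.range hn) ?_ hcp hcp.sz
    (fun a x => x ≤ cp a) (fun _ => le_rfl) (fun a x n _ hx => (min_le_left _ _).trans hx)
    (fun a x hx => by rw [sz_nat, sz_nat]; exact Nat.size_le_size hx)
  have e1 : PTF (fun p : α × ℕ × ℕ => (W p.1).getD (o p.1 + p.2.2) 0) :=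
    PtX949.getD (by fun_prop) (by fun_prop) (by fun_prop)
  fun_prop

/-- the minimum over the grid is poly-time -/
theorem ptf_icN (hN : PTU N) (hσ : PTU fun a => (P a).σ) (hs : PTU fun a => (P a).s)
    (hκ : PTU κ) (hW : PTF W) {o : α → ℕ} (ho : PTF o) :
    PTF fun a => icN (N a) (P a) (κ a) (W a) (o a) := by
  have h2 := ptf_mu2 (P := P) hσ hκ
  have h5 : PTU fun a => min (2 * 2 ^ (P a).mu (κ a) + 1) (N a) :=
    PTF.natMinUn (by fun_prop) hN
  exact ptf_minfold h5 (ptf_cap hs hκ) (PTF.natTwoPow hs) (ptf_st hσ hκ) h2 ho hW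

/-- one sample is poly-time -/
theorem ptf_locN (hN : PTU N) (hσ : PTU fun a => (P a).σ) (hs : PTU fun a => (P a).s)
    (hκ : PTU κ) (hl : PTU l) (hW : PTF W) :
    PTF fun a => locN (N a) (P a) (κ a) (l a) (W a) := by
  have h2 := ptf_mu2 (P := P) hσ hκ
  have h5 : PTU fun a => min (2 ^ (P a).mu (κ a)) (N a) := PTF.natMinUn (by fun_prop) hN
  have hd : PTU fun a => κ a - l a := PTU.sub hκ hl
  have hr := ptf_rat (P := P) hσ hκ hd
  unfold locN
  refine PTF.map (PTF.range h5) ?_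
  have hσ' : PTU (fun p : α × ℕ => (P p.1).σ) := PTU.comp (n := fun a => (P a).σ) hσ PTF.fst
  have hs' : PTU (fun p : α × ℕ => (P p.1).s) := PTU.comp (n := fun a => (P a).s) hs PTF.fst
  have hd' : PTU (fun p : α × ℕ => κ p.1 - l p.1) := PTU.comp hd PTF.fst
  have hr' : PTF (fun p : α × ℕ => rat (P p.1) (κ p.1) (κ p.1 - l p.1) * p.2) := by
    have := PTF.comp hr (PTF.fst (α := α) (β := ℕ))
    exact PTF.natMul this PTF.snd
  exact ptf_phi (P := fun p : α × ℕ => P p.1) hs' hd'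
    (ptf_icN (P := fun p : α × ℕ => P p.1) (PTU.comp hN PTF.fst) hσ' hs' hd'
      (PTF.comp hW PTF.fst) hr')

theorem ptf_addL (hA : PTF A) (hS : PTF S) : PTF fun a => addL (A a) (S a) := by
  unfold addL
  exact PTF.zipWith hA hS (by fun_prop)

theorem ptf_layL (hl : PTU l) (hc : PTU fun a => (P a).c) (hA : PTF A) (hS : PTF S) :
    PTF fun a => layL (P a) (l a) (A a) (S a) := by
  have h1 : PTF fun a => 2 ^ l a := PTF.natTwoPow hl
  have h2 : PTF fun a => 2 ^ (P a).c := PTF.natTwoPow hc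
  unfold layL
  refine PTF.zipWith hA hS ?_
  have h1' : PTF fun p : α × ℕ × ℕ => 2 ^ l p.1 := PTF.comp (g := fun a => 2 ^ l a) h1 PTF.fst
  have h2' : PTF fun p : α × ℕ × ℕ => 2 ^ (P p.1).c :=
    PTF.comp (g := fun a => 2 ^ (P a).c) h2 PTF.fst
  exact PTF.natAdd (by fun_prop) (PTF.natDiv (PTF.natMul h1' (by fun_prop)) h2')

theorem ptf_finL (hs : PTU fun a => (P a).s) (ht : PTU fun a => (P a).t) (hκ : PTU κ)
    (hA : PTF A) : PTF fun a => finL (P a) (κ a) (A a) := by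
  have h1 := ptf_cap (P := P) hs hκ
  have h2 : PTF fun a => 2 ^ (P a).t := PTF.natTwoPow ht
  unfold finL
  refine PTF.map hA ?_
  have h1' : PTF fun p : α × ℕ => (P p.1).cap (κ p.1) :=
    PTF.comp (g := fun a => (P a).cap (κ a)) h1 PTF.fst
  have h2' : PTF fun p : α × ℕ => 2 ^ (P p.1).t :=
    PTF.comp (g := fun a => 2 ^ (P a).t) h2 PTF.fst
  exact PTF.natMin h1' (PTF.natAdd (by fun_prop) (PTF.natDiv (by fun_prop) h2'))

theorem ptf_gridN (hN : PTU N) (hσ : PTU fun a => (P a).σ) (hκ : PTU κ) (hz : PTF z) :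
    PTF fun a => gridN (N a) (P a) (κ a) (z a) := by
  have h2 := ptf_mu2 (P := P) hσ hκ
  have h3 := ptf_st (P := P) hσ hκ
  have h4 : PTF fun a => 2 ^ κ a := PTF.natTwoPow hκ
  have h5 : PTU fun a => min (2 ^ (P a).mu (κ a)) (N a) := PTF.natMinUn (by fun_prop) hN
  have h6 : PTF fun a => ((2 : ℤ) ^ κ a) := (PTF.of_eq (f := fun a => ((2 ^ κ a : ℕ) : ℤ))
    (by fun_prop) fun a => by push_cast; rfl)
  unfold gridN
  refine PTF.map (PTF.range h5) ?_
  have h3' : PTF fun p : α × ℕ => (P p.1).st (κ p.1) :=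
    PTF.comp (g := fun a => (P a).st (κ a)) h3 PTF.fst
  have h6' : PTF fun p : α × ℕ => ((2 : ℤ) ^ κ p.1) := PTF.comp (g := fun a => (2 : ℤ) ^ κ a) h6 PTF.fst
  have h7 : PTF fun p : α × ℕ => (((P p.1).st (κ p.1) : ℕ) : ℤ) := by
    have : PTF fun n : ℕ => ((n : ℕ) : ℤ) := by fun_prop
    exact PTF.comp this h3'
  exact PTF.intAdd (PTF.intMul h6' (by fun_prop)) (PTF.intMul h7 (by fun_prop))

theorem ptf_winN (hN : PTU N) (hl : PTU l) (hz : PTF z) :
    PTF fun a => winN (N a) (l a) (z a) := by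
  have h4 : PTF fun a => 2 ^ l a := PTF.natTwoPow hl
  have h5 : PTU fun a => min (2 ^ l a + 2) (N a) := PTF.natMinUn (by fun_prop) hN
  have h6 : PTF fun a => ((2 : ℤ) ^ l a) := (PTF.of_eq (f := fun a => ((2 ^ l a : ℕ) : ℤ))
    (by fun_prop) fun a => by push_cast; rfl)
  unfold winN
  refine PTF.map (PTF.range h5) ?_
  have h6' : PTF fun p : α × ℕ => ((2 : ℤ) ^ l p.1) := PTF.comp (g := fun a => (2 : ℤ) ^ l a) h6 PTF.fst
  exact PTF.intAdd (PTF.intSub (PTF.intMul h6' (by fun_prop)) (by fun_prop)) (by fun_prop)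

end ptf

end Par

end Crest.Agent.R288.InitL663
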