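import Mathlib
import Crest.Agent.R288.InitM_663
import Crest.Agent.R288.Bern_775

/-!
# R288 (S0433), leaf [Init]: the estimator as a state machine (pure and random part)

* `nodeL P bl q r κ j z`: the estimator of the block of height `g q + r` (list form); for `r = g`
  it is `estL (q+1)`, for `q = r = 0` it is `estL 0`;
* `restL`, `tailL`: the layers of a step from the middle of a layer on: `node_eq_rest`,
  `rest_zero`, `rest_succ` (one word, then the tables of the windows of the child).
-/

set_option autoImplicit false

namespace Crest.Agent.R288.InitQ663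

open Crest.Agent.R295.Rnd627 Crest.Agent.R295.Rnd627.RT Crest.Agent.R288.Init772
open Crest.Agent.R288.InitL663 Crest.Agent.R288.InitL663.Par Crest.Agent.R288.Bern775

universe u v w'

/-! ### sequences of computations -/

section seq

variable {α : Type u} {β : Type v}

theorem bind_ret (t : RT α) : t.bind (fun a => ret a) = t := by
  induction t with
  | ret a => rfl
  | rnd k ih => simp only [RT.bind]; congr 1; funext v; exact ih v

theorem seqL_append_one (ts : List (RT α)) (t : RT α) :
    seqL (ts ++ [t]) = (seqL ts).bind fun r => t.map fun a => r ++ [a] := by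
  induction ts with
  | nil => simp [seqL, RT.map]
  | cons s ts ih =>
    rw [List.cons_append, seqL_cons, seqL_cons, bind_assoc]
    apply InitL663.bind_congr
    intro a
    rw [ih, bind_assoc, bind_assoc]
    apply InitL663.bind_congr
    intro r
    rw [map_eq_bind, bind_assoc]
    rfl

theorem winsL_seqL (f : ℕ → RT (List ℕ)) (n : ℕ) :
    winsL f n = (seqL ((List.range n).map f)).map List.flatten := by
  induction n with
  | zero => simp [winsL, RT.map]
  | succ n ih =>
    rw [winsL, ih, List.range_succ, List.map_append, List.map_cons, List.map_nil, seqL_append_one,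
      map_bind, bind_map]
    apply InitL663.bind_congr
    intro r
    rw [map_map]
    apply InitL663.map_congr
    intro T
    simp

end seq

variable (P : Init772.Par)

theorem up_self : P.up P.g = P := by unfold Init772.Par.up; simp

/-- the estimator of the block of height `g q + r` -/
def nodeL (bl : ℕ → ℕ → ℤ → ℕ) (q r κ j : ℕ) (z : ℤ) : RT (List ℕ) :=
  if r = 0 ∨ κ = 0 then ret (blT P bl (P.g * q + r) κ j z)
  else stepL (P.up r) (fun κ' i z' => estL P bl q κ' (2 ^ r * j + i) z') r κ z

/-- the second argument of the child -/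
def chr (q : ℕ) : ℕ := if q = 0 then 0 else P.g

theorem estL_node (hg : 1 ≤ P.g) (bl : ℕ → ℕ → ℤ → ℕ) (q κ j : ℕ) (z : ℤ) :
    estL P bl q κ j z = nodeL P bl (q - 1) (chr P q) κ j z := by
  cases q with
  | zero => simp [estL, nodeL, chr]
  | succ q =>
    unfold estL nodeL chr
    have h1 : ¬ (P.g = 0) := by omega
    simp only [Nat.add_sub_cancel, Nat.succ_ne_zero, if_false, h1, false_or, up_self]
    by_cases h2 : κ = 0
    · subst h2
      simp only [if_true]
      rw [mul_add, mul_one]
    · simp only [h2, if_false]

section loop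

variable (CL : ℕ → ℕ → ℤ → RT (List ℕ)) (r κ : ℕ) (z : ℤ)

/-- the empty table -/
def zerosL : List ℕ := List.replicate (2 ^ P.mu κ) 0

/-- the layers `l, …, l + k - 1` and the last step -/
def tailL : ℕ → ℕ → List ℕ → RT (List ℕ)
  | 0, _, A => ret (finL P κ A)
  | k + 1, l, A => (accL (smpL P CL r κ l z) (2 ^ (P.c + r - l)) (zerosL P κ)).bind fun S =>
      tailL k (l + 1) (layL P l A S)

theorem laysL_tail (k l : ℕ) : (laysL P CL r κ z l).bind (tailL P CL r κ z k l) =
    (laysL P CL r κ z (l + k)).map (finL P κ) := by
  induction k generalizing l with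
  | zero => rfl
  | succ k ih =>
    rw [show l + (k + 1) = l + 1 + k by omega, ← ih (l + 1), laysL, bind_assoc]
    apply InitL663.bind_congr
    intro A
    rw [map_bind]
    rfl

/-- the rest of a step: `cnt` samples of the layer `l`, then `k` layers and the last step -/
def restL (k l cnt : ℕ) (A S : List ℕ) : RT (List ℕ) :=
  (accL (smpL P CL r κ l z) cnt S).bind fun S' => tailL P CL r κ z k (l + 1) (layL P l A S')

theorem stepL_rest : stepL P CL r κ z =
    restL P CL r κ z (min κ P.J) 0 (2 ^ (P.c + r)) (zerosL P κ) (zerosL P κ) := by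
  have h1 := laysL_tail P CL r κ z (min κ P.J + 1) 0
  rw [zero_add] at h1
  unfold stepL
  rw [← h1]
  rfl

theorem rest_done_zero (l : ℕ) (A S : List ℕ) :
    restL P CL r κ z 0 l 0 A S = ret (finL P κ (layL P l A S)) := rfl

theorem rest_done_succ (k l : ℕ) (A S : List ℕ) :
    restL P CL r κ z (k + 1) l 0 A S =
      restL P CL r κ z k (l + 1) (2 ^ (P.c + r - (l + 1))) (layL P l A S) (zerosL P κ) := rfl

/-- the computation after a word -/
def winL (k l cnt : ℕ) (A S : List ℕ) (v : ℕ) : RT (List ℕ) :=
  (seqL ((List.range (2 ^ l + 2)).map fun c : ℕ =>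
    CL (κ - l) (v % 2 ^ r) (2 ^ l * z - 1 + c))).bind fun ws =>
      restL P CL r κ z k l cnt A (addL S (locL P κ l ws.flatten))

/-- one sample -/
theorem rest_succ (k l cnt : ℕ) (A S : List ℕ) :
    restL P CL r κ z k l (cnt + 1) A S = rnd fun v => winL P CL r κ z k l cnt A S v := by
  unfold restL winL
  rw [accL, bind_assoc]
  unfold smpL
  simp only [RT.bind]
  congr 1
  funext v
  rw [winsL_seqL, map_map, map_bind]
  rfl

end loop

end Crest.Agent.R288.InitQ663
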