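import Mathlib
import Crest.Agent.R288.InitP_663
import Crest.Agent.R288.InitQ_663
import Crest.Agent.R288.PtY_949

/-!
# R288 (S0433), leaf [Init]: the procedure of the estimator (one step function, poly-time)

A frame of the procedure is `tg :: tow (phase, arguments, loop)`, arguments `(q, r, κ, j, z)`
(block `j` of height `g q + r`, window `z` of scale `2 ^ κ`), loop `(l, n, A, S)` (layer, samples
to be drawn, sum of the finished layers, sum of the layer). `dE tg K F rs` = next frame and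
requests (no request: stop with this result). Requests: `[0]` a word; `3 :: leafA ..` the leaf;
`4 :: frame` a recursive call.

Phases: 0 entry; 1 the leaf values are there; 2 the word is there; 3 the tables of the child are
there. Certificate: `ptf_dE`. The equations `dE_base`, `dE_start`, `dE_tab`, `dE_word`, `dE_next`,
`dE_layer`, `dE_stop` describe the run; together with `InitQ663.rest_succ` the procedure
realises `nodeL`.
-/

set_option autoImplicit false

namespace Crest.Agent.R288.InitS663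

open Crest.Agent.R288.Init772 Crest.Agent.R288.InitL663 Crest.Agent.R288.InitL663.Par
open Crest.Agent.R288.InitQ663 Crest.Agent.R288.PtY949 Crest.Agent.R295.Pt949
open Crest.Agent.Lib.PT

/-! ### constants of the run -/

/-- constants: `(g, σ, J), (c, s, t), (|x|, |y|)`, length of the pad -/
abbrev KI : Type := (Un × Un × Un) × (Un × Un × Un) × (ℕ × ℕ) × Un

/-- the parameters of the estimator -/
def parK (K : KI) : Init772.Par where
  g := K.1.1.val
  σ := K.1.2.1.val
  J := K.1.2.2.val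
  c := K.2.1.1.val
  s := K.2.1.2.1.val
  t := K.2.1.2.2.val

/-- length of `x` -/
def nK (K : KI) : ℕ := K.2.2.1.1

/-- length of `y` -/
def mK (K : KI) : ℕ := K.2.2.1.2

/-- length of the pad -/
def pK (K : KI) : ℕ := K.2.2.2.val

/-- arguments -/
abbrev AE : Type := Un × Un × Un × ℕ × ℤ

/-- loop data -/
abbrev LE : Type := Un × ℕ × List ℕ × List ℕ

/-- frames -/
abbrev FE : Type := ℕ × AE × LE

def arg (q r κ j : ℕ) (z : ℤ) : AE := (Un.mk q, Un.mk r, Un.mk κ, j, z)

def lp (l n : ℕ) (A S : List ℕ) : LE := (Un.mk l, n, A, S)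

/-- the code of a frame -/
def frE (tg ph : ℕ) (a : AE) (L : LE) : List ℕ := tg :: tow ((ph, a, L) : FE)

/-- the entry frame -/
def entE (tg q r κ j : ℕ) (z : ℤ) : List ℕ := frE tg 0 (arg q r κ j z) (lp 0 0 [] [])

/-- `zerosL` with a cut range -/
def zerosN (N : ℕ) (P : Init772.Par) (κ : ℕ) : List ℕ :=
  (List.range (min (2 ^ P.mu κ) N)).map fun _ => 0

theorem zerosN_eq {N : ℕ} {P : Init772.Par} (hN : 2 * 2 ^ P.σ + 1 ≤ N) (κ : ℕ) :
    zerosN N P κ = zerosL P κ := by
  have h1 : 2 ^ P.mu κ ≤ 2 ^ P.σ := Nat.pow_le_pow_right (by norm_num) (min_le_right _ _)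
  unfold zerosN zerosL
  rw [min_eq_left (by omega)]
  simp

/-- requests of the base case -/
def reqB (K : KI) (a : AE) : List (List ℕ) :=
  (gridN (pK K) (parK K) a.2.2.1.val a.2.2.2.2).map fun u =>
    3 :: NodePT222.leafA (nK K) (mK K) ((parK K).g * a.1.val + a.2.1.val) a.2.2.2.1 u u 0

/-- requests for the tables of the child, `v` = the word -/
def reqW (tg : ℕ) (K : KI) (a : AE) (l v : ℕ) : List (List ℕ) :=
  (winN (pK K) l a.2.2.2.2).map fun z' =>
    4 :: entE tg (a.1.val - 1) (chr (parK K) a.1.val) (a.2.2.1.val - l)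
      (2 ^ a.2.1.val * a.2.2.2.1 + v % 2 ^ a.2.1.val) z'

/-- number of samples of the layer `l` -/
def smps (K : KI) (a : AE) (l : ℕ) : ℕ :=
  2 ^ (((parK K).up a.2.1.val).c + a.2.1.val - l)

/-- the sum of the layer after the tables `rs` -/
def sumS (K : KI) (a : AE) (L : LE) (rs : List (List ℕ)) : List ℕ :=
  addL L.2.2.2 (locN (pK K) (parK K) a.2.2.1.val L.1.val rs.flatten)

/-- the sum of the layers after the last sample of a layer -/
def sumA (K : KI) (a : AE) (L : LE) (rs : List (List ℕ)) : List ℕ :=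
  layL ((parK K).up a.2.1.val) L.1.val L.2.2.1 (sumS K a L rs)

/-- **the step function** -/
def dE (tg : ℕ) (K : KI) (F : FE) (rs : List (List ℕ)) : List ℕ × List (List ℕ) :=
  if F.1 = 0 then
    if F.2.1.2.1.val = 0 ∨ F.2.1.2.2.1.val = 0 then
      (frE tg 1 F.2.1 (lp 0 0 [] []), reqB K F.2.1)
    else
      (frE tg 2 F.2.1 (lp 0 (smps K F.2.1 0) (zerosN (pK K) (parK K) F.2.1.2.2.1.val)
        (zerosN (pK K) (parK K) F.2.1.2.2.1.val)), [[0]])
  else if F.1 = 1 then
    (rs.map fun t => 2 ^ (parK K).s * t.headD 0, [])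
  else if F.1 = 2 then
    (frE tg 3 F.2.1 F.2.2, reqW tg K F.2.1 F.2.2.1.val ((rs.headD []).headD 0))
  else
    if 1 < F.2.2.2.1 then
      (frE tg 2 F.2.1 (lp F.2.2.1.val (F.2.2.2.1 - 1) F.2.2.2.2.1 (sumS K F.2.1 F.2.2 rs)), [[0]])
    else if F.2.2.1.val < F.2.1.2.2.1.val ∧ F.2.2.1.val < (parK K).J then
      (frE tg 2 F.2.1 (lp (F.2.2.1.val + 1) (smps K F.2.1 (F.2.2.1.val + 1))
        (sumA K F.2.1 F.2.2 rs) (zerosN (pK K) (parK K) F.2.1.2.2.1.val)), [[0]])
    else
      (finL (parK K) F.2.1.2.2.1.val (sumA K F.2.1 F.2.2 rs), [])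

/-! ### the certificate -/

section ptf

variable {α : Type} [PTCode α] {K : α → KI} {a : α → AE} {L : α → LE}

theorem ptu_g (hK : PTF K) : PTU fun x => (parK (K x)).g :=
  PTU.val (f := fun x => (K x).1.1) (by fun_prop)

theorem ptu_σ (hK : PTF K) : PTU fun x => (parK (K x)).σ :=
  PTU.val (f := fun x => (K x).1.2.1) (by fun_prop)

theorem ptu_J (hK : PTF K) : PTU fun x => (parK (K x)).J :=
  PTU.val (f := fun x => (K x).1.2.2) (by fun_prop)

theorem ptu_c (hK : PTF K) : PTU fun x => (parK (K x)).c :=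
  PTU.val (f := fun x => (K x).2.1.1) (by fun_prop)

theorem ptu_s (hK : PTF K) : PTU fun x => (parK (K x)).s :=
  PTU.val (f := fun x => (K x).2.1.2.1) (by fun_prop)

theorem ptu_t (hK : PTF K) : PTU fun x => (parK (K x)).t :=
  PTU.val (f := fun x => (K x).2.1.2.2) (by fun_prop)

theorem ptf_nK (hK : PTF K) : PTF fun x => nK (K x) := by unfold nK; fun_prop

theorem ptf_mK (hK : PTF K) : PTF fun x => mK (K x) := by unfold mK; fun_prop

theorem ptu_pK (hK : PTF K) : PTU fun x => pK (K x) :=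
  PTU.val (f := fun x => (K x).2.2.2) (by fun_prop)

theorem ptu_q (ha : PTF a) : PTU fun x => (a x).1.val :=
  PTU.val (f := fun x => (a x).1) (by fun_prop)

theorem ptu_r (ha : PTF a) : PTU fun x => (a x).2.1.val :=
  PTU.val (f := fun x => (a x).2.1) (by fun_prop)

theorem ptu_κ (ha : PTF a) : PTU fun x => (a x).2.2.1.val :=
  PTU.val (f := fun x => (a x).2.2.1) (by fun_prop)

theorem ptf_j (ha : PTF a) : PTF fun x => (a x).2.2.2.1 := by fun_prop

theorem ptf_z (ha : PTF a) : PTF fun x => (a x).2.2.2.2 := by fun_prop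

theorem ptf_arg {q r κ j : α → ℕ} {z : α → ℤ} (hq : PTU q) (hr : PTU r) (hκ : PTU κ) (hj : PTF j)
    (hz : PTF z) : PTF fun x => arg (q x) (r x) (κ x) (j x) (z x) := by
  have h1 := PTF.unMk hq
  have h2 := PTF.unMk hr
  have h3 := PTF.unMk hκ
  unfold arg
  fun_prop

theorem ptf_lp {l n : α → ℕ} {A S : α → List ℕ} (hl : PTU l) (hn : PTF n) (hA : PTF A)
    (hS : PTF S) : PTF fun x => lp (l x) (n x) (A x) (S x) := by
  have h1 := PTF.unMk hl
  unfold lp
  fun_prop

theorem ptf_frE {tg ph : ℕ} (ha : PTF a) (hL : PTF L) : PTF fun x => frE tg ph (a x) (L x) := by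
  unfold frE
  have h : PTF (fun x => ((ph, a x, L x) : FE)) := by fun_prop
  have h2 := ptf_tow' (α := FE) h
  fun_prop

theorem ptf_entE {tg : ℕ} {q r κ j : α → ℕ} {z : α → ℤ} (hq : PTU q) (hr : PTU r) (hκ : PTU κ)
    (hj : PTF j) (hz : PTF z) : PTF fun x => entE tg (q x) (r x) (κ x) (j x) (z x) :=
  ptf_frE (ptf_arg hq hr hκ hj hz) (PTF.const _)

theorem ptf_zerosN {κ : α → ℕ} (hK : PTF K) (hκ : PTU κ) :
    PTF fun x => zerosN (pK (K x)) (parK (K x)) (κ x) := by
  have h5 : PTU fun x => min (2 ^ (parK (K x)).mu (κ x)) (pK (K x)) :=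
    PTF.natMinUn (ptf_mu2 (P := fun x => parK (K x)) (ptu_σ hK) hκ) (ptu_pK hK)
  unfold zerosN
  exact PTF.map (PTF.range h5) (PTF.const _)

theorem ptf_smps {l : α → ℕ} (hK : PTF K) (ha : PTF a) (hl : PTU l) :
    PTF fun x => smps (K x) (a x) (l x) :=
  PTF.natTwoPow (PTU.sub (PTU.add (PTU.add (ptu_c hK) (PTU.sub (ptu_g hK) (ptu_r ha)))
    (ptu_r ha)) hl)

theorem ptf_reqB (hK : PTF K) (ha : PTF a) : PTF fun x => reqB (K x) (a x) := by
  unfold reqB
  refine PTF.map (ptf_gridN (P := fun x => parK (K x)) (ptu_pK hK) (ptu_σ hK) (ptu_κ ha)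
    (ptf_z ha)) ?_
  have hK' : PTF (fun p : α × ℤ => K p.1) := PTF.comp hK PTF.fst
  have ha' : PTF (fun p : α × ℤ => a p.1) := PTF.comp ha PTF.fst
  have hh : PTF fun p : α × ℤ => (parK (K p.1)).g * (a p.1).1.val + (a p.1).2.1.val :=
    PTF.natAdd (PTF.natMul (ptu_g hK').toPTF (ptu_q ha').toPTF) (ptu_r ha').toPTF
  have hl : PTF fun p : α × ℤ => NodePT222.leafA (nK (K p.1)) (mK (K p.1))
      ((parK (K p.1)).g * (a p.1).1.val + (a p.1).2.1.val) (a p.1).2.2.2.1 p.2 p.2 0 :=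
    NodePT222.ptf_leafA (ptf_nK hK') (ptf_mK hK') hh (ptf_j ha') PTF.snd PTF.snd (PTF.const _)
  exact PTF.listCons (PTF.const 3) hl

theorem ptf_reqW {tg : ℕ} {l v : α → ℕ} (hK : PTF K) (ha : PTF a) (hl : PTU l) (hv : PTF v) :
    PTF fun x => reqW tg (K x) (a x) (l x) (v x) := by
  unfold reqW
  refine PTF.map (ptf_winN (ptu_pK hK) hl (ptf_z ha)) ?_
  have hK' : PTF (fun p : α × ℤ => K p.1) := PTF.comp hK PTF.fst
  have ha' : PTF (fun p : α × ℤ => a p.1) := PTF.comp ha PTF.fst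
  have hl' : PTU (fun p : α × ℤ => l p.1) := PTU.comp hl PTF.fst
  have hv' : PTF (fun p : α × ℤ => v p.1) := PTF.comp hv PTF.fst
  have hr2 : PTF (fun p : α × ℤ => 2 ^ (a p.1).2.1.val) := PTF.natTwoPow (ptu_r ha')
  have hch : PTU (fun p : α × ℤ => chr (parK (K p.1)) (a p.1).1.val) := by
    unfold chr
    exact PTU.ite (PTU.eq (ptu_q ha') (PTU.const 0)) (PTU.const 0) (ptu_g hK')
  have hl : PTF fun p : α × ℤ => entE tg ((a p.1).1.val - 1)
      (chr (parK (K p.1)) (a p.1).1.val) ((a p.1).2.2.1.val - l p.1)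
      (2 ^ (a p.1).2.1.val * (a p.1).2.2.2.1 + v p.1 % 2 ^ (a p.1).2.1.val) p.2 :=
    ptf_entE (PTU.sub (ptu_q ha') (PTU.const 1)) hch (PTU.sub (ptu_κ ha') hl')
      (PTF.natAdd (PTF.natMul hr2 (ptf_j ha')) (PTF.natMod hv' hr2)) PTF.snd
  exact PTF.listCons (PTF.const 4) hl

theorem ptf_sumS {rs : α → List (List ℕ)} (hK : PTF K) (ha : PTF a) (hL : PTF L)
    (hrs : PTF rs) : PTF fun x => sumS (K x) (a x) (L x) (rs x) :=
  ptf_addL (by fun_prop) (ptf_locN (P := fun x => parK (K x)) (ptu_pK hK) (ptu_σ hK) (ptu_s hK)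
    (ptu_κ ha) (PTU.val (f := fun x => (L x).1) (by fun_prop)) (by fun_prop))

theorem ptf_sumA {rs : α → List (List ℕ)} (hK : PTF K) (ha : PTF a) (hL : PTF L)
    (hrs : PTF rs) : PTF fun x => sumA (K x) (a x) (L x) (rs x) :=
  ptf_layL (P := fun x => (parK (K x)).up (a x).2.1.val)
    (PTU.val (f := fun x => (L x).1) (by fun_prop))
    (PTU.add (ptu_c hK) (PTU.sub (ptu_g hK) (ptu_r ha))) (by fun_prop) (ptf_sumS hK ha hL hrs)

/-- **the step function is poly-time** -/
theorem ptf_dE {tg : ℕ} {F : α → FE} {rs : α → List (List ℕ)} (hK : PTF K) (hF : PTF F)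
    (hrs : PTF rs) : PTF fun x => dE tg (K x) (F x) (rs x) := by
  have ha : PTF fun x => (F x).2.1 := by fun_prop
  have hL : PTF fun x => (F x).2.2 := by fun_prop
  have hl : PTU fun x => (F x).2.2.1.val := PTU.val (f := fun x => (F x).2.2.1) (by fun_prop)
  have hz := ptf_zerosN hK (ptu_κ ha)
  have hS := ptf_sumS hK ha hL hrs
  have hA := ptf_sumA hK ha hL hrs
  have c0 : PTPred fun x => (F x).1 = 0 := by fun_prop
  have c1 : PTPred fun x => (F x).1 = 1 := by fun_prop
  have c2 : PTPred fun x => (F x).1 = 2 := by fun_prop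
  have c3 : PTPred fun x => (F x).2.1.2.1.val = 0 ∨ (F x).2.1.2.2.1.val = 0 :=
    PTPred.or (PTU.eq (ptu_r ha) (PTU.const 0)) (PTU.eq (ptu_κ ha) (PTU.const 0))
  have c4 : PTPred fun x => 1 < (F x).2.2.2.1 := by fun_prop
  have c5 : PTPred fun x => (F x).2.2.1.val < (F x).2.1.2.2.1.val ∧
      (F x).2.2.1.val < (parK (K x)).J := PTPred.and (PTU.lt hl (ptu_κ ha)) (PTU.lt hl (ptu_J hK))
  have e : PTF fun _ : α => lp 0 0 [] [] := PTF.const _
  have o : PTF fun _ : α => ([[0]] : List (List ℕ)) := PTF.const _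
  have nl : PTF fun _ : α => ([] : List (List ℕ)) := PTF.const _
  unfold dE
  refine PTF.ite c0 (PTF.ite c3 (PTF.prodMk (ptf_frE ha e) (ptf_reqB hK ha))
    (PTF.prodMk (ptf_frE ha (ptf_lp (PTU.const 0) (ptf_smps hK ha (PTU.const 0)) hz hz)) o)) ?_
  refine PTF.ite c1 (PTF.prodMk ?_ nl) ?_
  · refine PTF.map hrs ?_
    have h2 : PTF fun p : α × List ℕ => 2 ^ (parK (K p.1)).s :=
      PTF.natTwoPow (ptu_s (PTF.comp hK PTF.fst))
    exact PTF.natMul h2 (PTF.comp (g := fun t : List ℕ => t.headD 0) (by fun_prop) PTF.snd)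
  refine PTF.ite c2 (PTF.prodMk (ptf_frE ha hL) (ptf_reqW hK ha hl (by fun_prop))) ?_
  refine PTF.ite c4 (PTF.prodMk (ptf_frE ha (ptf_lp hl (by fun_prop) (by fun_prop) hS)) o) ?_
  refine PTF.ite c5 (PTF.prodMk (ptf_frE ha (ptf_lp (PTU.add hl (PTU.const 1))
    (ptf_smps hK ha (PTU.add hl (PTU.const 1))) hA hz)) o) ?_
  exact PTF.prodMk (ptf_finL (P := fun x => parK (K x)) (ptu_s hK) (ptu_t hK) (ptu_κ ha) hA) nl

end ptf

/-! ### the equations -/

section eqs

variable {tg : ℕ} {K : KI} {q r κ j : ℕ} {z : ℤ} {rs : List (List ℕ)} {l n : ℕ} {A S : List ℕ}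
  {L : LE}

theorem dE_base (h : r = 0 ∨ κ = 0) : dE tg K (0, arg q r κ j z, L) rs =
    (frE tg 1 (arg q r κ j z) (lp 0 0 [] []), reqB K (arg q r κ j z)) := by
  unfold dE arg
  simp only [if_true]
  rw [if_pos h]

theorem dE_start (h : ¬ (r = 0 ∨ κ = 0)) : dE tg K (0, arg q r κ j z, L) rs =
    (frE tg 2 (arg q r κ j z) (lp 0 (smps K (arg q r κ j z) 0) (zerosN (pK K) (parK K) κ)
      (zerosN (pK K) (parK K) κ)), [[0]]) := by
  unfold dE
  simp only [if_true]
  rw [if_neg (by exact h)]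
  rfl

theorem dE_tab {a : AE} : dE tg K (1, a, L) rs =
    (rs.map fun t => 2 ^ (parK K).s * t.headD 0, []) := by
  unfold dE
  simp

theorem dE_word {a : AE} {v : ℕ} : dE tg K (2, a, L) [[v]] =
    (frE tg 3 a L, reqW tg K a L.1.val v) := by
  unfold dE
  simp

theorem dE_next (hn : 1 < n) : dE tg K (3, arg q r κ j z, lp l n A S) rs =
    (frE tg 2 (arg q r κ j z) (lp l (n - 1) A (sumS K (arg q r κ j z) (lp l n A S) rs)),
      [[0]]) := by
  unfold dE
  rw [if_neg (by norm_num), if_neg (by norm_num), if_neg (by norm_num), if_pos (by exact hn)]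
  rfl

theorem dE_layer (hn : ¬ 1 < n) (h : l < κ ∧ l < (parK K).J) :
    dE tg K (3, arg q r κ j z, lp l n A S) rs =
    (frE tg 2 (arg q r κ j z) (lp (l + 1) (smps K (arg q r κ j z) (l + 1))
      (sumA K (arg q r κ j z) (lp l n A S) rs) (zerosN (pK K) (parK K) κ)), [[0]]) := by
  unfold dE
  rw [if_neg (by norm_num), if_neg (by norm_num), if_neg (by norm_num), if_neg (by exact hn),
    if_pos (by exact h)]
  rfl

theorem dE_stop (hn : ¬ 1 < n) (h : ¬ (l < κ ∧ l < (parK K).J)) :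
    dE tg K (3, arg q r κ j z, lp l n A S) rs =
    (finL (parK K) κ (sumA K (arg q r κ j z) (lp l n A S) rs), []) := by
  unfold dE
  rw [if_neg (by norm_num), if_neg (by norm_num), if_neg (by norm_num), if_neg (by exact hn),
    if_neg (by exact h)]
  rfl

end eqs

end Crest.Agent.R288.InitS663
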