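import Crest.Agent.R288.PheB_940
import Crest.Agent.R288.AlgB_45

/-!
# R288, phase engine, part C (helper940): the external statement, fuel, rules for the user

* `x3`, `wld e N Z a1 a2 Pm`, `mch` : the machine realises the world of the leaf command.
* `Run`, `Rn`, `Qn`, `Ln` : one frame / request / list of requests at a fixed tape position.
* `Rz P W n f rs t C`, `Rq P W n q t C`, `Rqs P W n reqs ts C` : on the tape `W.Z` the frame /
  request / list of requests realises the randomized computation `t` at cost `≤ C`.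
-/

set_option autoImplicit false

namespace Crest.Agent.R288.Phe940

open Crest.Agent.R295 HL Pt949 Crest.Agent.R295.Rnd627 Crest.Agent.R288.Pl726
open Crest.Agent.Lib.PT (PTF PTPred PTU PB sz PTCode)
open Crest.Agent.R288.Alg45 (seqL)

/-! ### the external statement -/

theorem ptf_hqt : PTF (fun v : List ℕ => (hq v).tail) := PTF.tail ptf_hq

/-- the leaf command on the data of the head request -/
def x3 : PS := .seq (.ext _ ptf_hqt) (.asg _ ptf_one)

/-- the world of a machine: random words `Z i % N`, first array, second array, pointer bound -/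
def wld (e : PEnv) (N : ℕ) (Z : ℕ → ℕ) (a1 a2 Pm : ℕ) : Wld where
  M := e.B
  N := N
  Z := Z
  O1 := e.O a1
  O2 := e.O a2
  E := fun a => [e.X a]
  cE := fun a => e.XT a
  okE := fun a => a.length = 5
  S := e.S
  L := e.L
  Pm := Pm

theorem x3_sim {P : Prg} {e : PEnv} {N : ℕ} {Z : ℕ → ℕ} {a1 a2 Pm : ℕ} {pr : List PS}
    (hx : P.X3 = x3) (PM : Pm < e.B) (SM : e.S < e.B) (p : ℕ) (f q : List ℕ)
    (pd rs : List (List ℕ)) (i : ℕ) (hp : p ≤ Pm) (h5 : q.tail.length = 5)
    (hk : (wld e N Z a1 a2 Pm).okv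
      ((pd.length + 1) :: (fl (q :: pd) ++ (tow f ++ fl rs)) ++ tow [e.X q.tail])) :
    ∃ t d, PEx e pr P.X3 (ev p f (q :: pd) rs) i (tow [e.X q.tail] ++ ev p f (q :: pd) rs) i t d ∧
      t ≤ 40 * e.XT q.tail + 20 ∧ d ≤ 0 := by
  obtain ⟨hl, hm⟩ := hk
  have hl' : ((pd.length + 1) :: (fl (q :: pd) ++ (tow f ++ fl rs)) ++ tow [e.X q.tail]).length +
      12 ≤ e.S := hl
  have hm' : ∀ a ∈ (pd.length + 1) :: (fl (q :: pd) ++ (tow f ++ fl rs)) ++ tow [e.X q.tail],
      a < e.B := hm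
  have hlenq : (tow q : List ℕ).length = q.length + 1 := by rw [tow_list]; rfl
  have hf : ∀ v : List ℕ, v.length ≤ ((pd.length + 1) :: (fl (q :: pd) ++ (tow f ++ fl rs)) ++
      tow [e.X q.tail]).length + 12 → (∀ a ∈ v, a ∈ (pd.length + 1) :: (fl (q :: pd) ++
      (tow f ++ fl rs)) ++ tow [e.X q.tail] ∨ a ≤ e.S ∨ a ≤ Pm) → e.Fits v := by
    intro v h1 h2
    refine ⟨h1.trans hl', fun a ha => ?_⟩
    rcases h2 a ha with h | h | h
    · exact hm' a h
    · omega
    · omega
  have hev : ∀ a ∈ ev p f (q :: pd) rs, a ∈ (pd.length + 1) :: (fl (q :: pd) ++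
      (tow f ++ fl rs)) ++ tow [e.X q.tail] ∨ a ≤ e.S ∨ a ≤ Pm := by
    intro a ha
    unfold ev at ha
    rw [List.mem_cons, List.mem_cons, List.mem_cons] at ha
    rcases ha with rfl | rfl | rfl | ha
    · right; left; omega
    · left; simp
    · right; right; exact hp
    · left
      rw [List.mem_append, List.mem_cons]
      left; right; exact ha
  have hlenv : (ev p f (q :: pd) rs).length + 1 = ((pd.length + 1) :: (fl (q :: pd) ++
      (tow f ++ fl rs)) ++ tow [e.X q.tail]).length + 1 := by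
    unfold ev
    simp only [List.length_append, List.length_cons, tow_list, List.length_nil]
  have hlenX : (tow [e.X q.tail] : List ℕ).length = 2 := by rw [tow_list]; rfl
  have ha : (hq (ev p f (q :: pd) rs)).tail = q.tail := by rw [hq_ev]
  rw [hx]
  have e1 : PEx e pr (.ext _ ptf_hqt) (ev p f (q :: pd) rs) i
      (e.X q.tail :: ev p f (q :: pd) rs) i (e.XT q.tail + 1) 0 := by
    have := PEx.ext (e := e) (pr := pr) (g := fun v : List ℕ => (hq v).tail) (hg := ptf_hqt)
      (v := ev p f (q :: pd) rs) (i := i) (by rw [ha]; exact h5) (by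
        rw [ha]
        refine hf _ ?_ fun a h => Or.inl ?_
        · rw [fl_cons]
          simp only [List.length_append, List.length_cons, hlenq, List.length_tail]
          omega
        · have := List.mem_of_mem_tail h
          simp [this]) (by
        rw [ha]
        refine hf _ ?_ fun a h => ?_
        · rw [List.length_cons]
          omega
        · rw [List.mem_cons] at h
          rcases h with rfl | h
          · left
            simp
          · exact hev a h)
    rwa [ha] at this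
  have e2 : PEx e pr (.asg _ ptf_one) (e.X q.tail :: ev p f (q :: pd) rs) i
      (tow [e.X q.tail] ++ ev p f (q :: pd) rs) i 1 0 := by
    have := PEx.asg (e := e) (pr := pr) (f := one) (hf := ptf_one)
      (v := e.X q.tail :: ev p f (q :: pd) rs) (i := i) (by
        rw [one_ev]
        refine hf _ ?_ fun a h => ?_
        · rw [List.length_append, hlenX]
          omega
        · rw [List.mem_append] at h
          rcases h with h | h
          · left
            rw [List.mem_append]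
            exact Or.inr h
          · exact hev a h)
    rwa [one_ev] at this
  exact ⟨_, _, PEx.seq e1 e2, by omega, by simp⟩

/-- **the machine realises the world** -/
theorem mch {P : Prg} {e : PEnv} {N : ℕ} {Z : ℕ → ℕ} {Pm : ℕ} {pr : List PS}
    (hx : P.X3 = x3) (hb : pbody pr 0 = P.proc) (hT : ∀ i < Pm, e.O P.aT i = Z i % N)
    (PL : Pm ≤ e.L) (PM : Pm < e.B) (SM : e.S < e.B) :
    Mch P (wld e N Z P.a1 P.a2 Pm) e pr where
  B := rfl
  S := rfl
  L := rfl
  T := hT
  O1 := rfl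
  O2 := rfl
  PL := PL
  PM := PM
  SM := SM
  body := hb
  X3 := fun p f q pd rs i h1 _ h3 h4 => x3_sim hx PM SM p f q pd rs i h1 h3 h4

/-! ### runs at a fixed position -/

section runs

variable {P : Prg} {W : Wld}

/-- a valid run of a checked computation -/
def Run (W : Wld) {α : Type} (t : RT (α × ℕ × Prop)) (p : ℕ) (u : α) (p' c : ℕ) : Prop :=
  ∃ ok : Prop, t.run W.N W.Z p = ((u, c, ok), p') ∧ ok

theorem Run.le {α : Type} {t : RT (α × ℕ × Prop)} {p : ℕ} {u : α} {p' c : ℕ}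
    (h : Run W t p u p' c) : p ≤ p' := by
  obtain ⟨ok, h1, -⟩ := h
  exact le_run2 h1

theorem Run.bind {α β : Type} {t : RT (α × ℕ × Prop)} {k : α × ℕ × Prop → RT (β × ℕ × Prop)}
    {p : ℕ} {u : β} {p' c : ℕ} (h : Run W (t.bind k) p u p' c) :
    ∃ ok, (k ((t.run W.N W.Z p).1)).run W.N W.Z (t.run W.N W.Z p).2 = ((u, c, ok), p') ∧ ok := by
  obtain ⟨ok, h1, h2⟩ := h
  rw [RT.run_bind] at h1
  exact ⟨ok, h1, h2⟩

/-- fuel: more valid calls -/
theorem rq_mono {call call' : List ℕ → RT Rs}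
    (hc : ∀ q p u p' c, Run W (call q) p u p' c → Run W (call' q) p u p' c)
    {q : List ℕ} {p : ℕ} {u : List ℕ} {p' c : ℕ} (h : Run W (rq P W call q) p u p' c) :
    Run W (rq P W call' q) p u p' c := by
  by_cases k0 : kq q = 0
  · rw [rq, if_pos k0] at h ⊢
    exact h
  by_cases k1 : kq q = 1
  · rw [rq, if_neg k0, if_pos k1] at h ⊢
    exact h
  by_cases k2 : kq q = 2
  · rw [rq, if_neg k0, if_neg k1, if_pos k2] at h ⊢
    exact h
  by_cases k3 : kq q = 3
  · rw [rq, if_neg k0, if_neg k1, if_neg k2, if_pos k3] at h ⊢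
    exact h
  by_cases k5 : kq q = 5
  · rw [rq, if_neg k0, if_neg k1, if_neg k2, if_neg k3, if_pos k5] at h ⊢
    obtain ⟨ok, h1, h2⟩ := h
    rw [RT.run_ret] at h1
    simp only [Prod.mk.injEq] at h1
    obtain ⟨⟨hu, hc', hok⟩, rfl⟩ := h1
    rw [← hok] at h2
    obtain ⟨g1, g2⟩ := h2
    have g3 : Run W (call q.tail) (P.base q.tail)
        ((call q.tail).val W.N W.Z (P.base q.tail)).1
        ((call q.tail).nxt W.N W.Z (P.base q.tail))
        ((call q.tail).val W.N W.Z (P.base q.tail)).2.1 :=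
      ⟨((call q.tail).val W.N W.Z (P.base q.tail)).2.2, rfl, g1⟩
    obtain ⟨ok', h3, h4⟩ := hc _ _ _ _ _ g3
    have h5 : (call' q.tail).val W.N W.Z (P.base q.tail) = _ := congrArg Prod.fst h3
    have h6 : (call' q.tail).nxt W.N W.Z (P.base q.tail) = _ := congrArg Prod.snd h3
    rw [h5, h6]
    refine ⟨ok' ∧ (call q.tail).nxt W.N W.Z (P.base q.tail) ≤ W.Pm, ?_, h4, g2⟩
    rw [RT.run_ret, hu, hc']
  · rw [rq, if_neg k0, if_neg k1, if_neg k2, if_neg k3, if_neg k5] at h ⊢
    exact hc _ _ _ _ _ h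

theorem lps_mono {call call' : List ℕ → RT Rs}
    (hc : ∀ q p u p' c, Run W (call q) p u p' c → Run W (call' q) p u p' c) {f : List ℕ}
    (pd : List (List ℕ)) : ∀ {rs : List (List ℕ)} {p : ℕ} {u : List (List ℕ)} {p' c : ℕ},
      Run W (lps P W call f pd rs) p u p' c → Run W (lps P W call' f pd rs) p u p' c := by
  induction pd with
  | nil => intro rs p u p' c h; exact h
  | cons q pd ih =>
    intro rs p u p' c h
    rw [lps] at h ⊢
    obtain ⟨ok, h1, h2⟩ := h.bind
    set x := (rq P W call q).run W.N W.Z p with hx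
    rw [RT.run_bind] at h1
    set z := (lps P W call f pd (rs ++ [x.1.1])).run W.N W.Z x.2 with hz
    simp only [RT.run_ret, Prod.mk.injEq] at h1
    obtain ⟨⟨rfl, rfl, rfl⟩, rfl⟩ := h1
    obtain ⟨k1, k2, k3⟩ := h2
    obtain ⟨ok1, g1, g2⟩ := rq_mono (P := P) hc (⟨x.1.2.2, rfl, k1⟩ :
      Run W (rq P W call q) p x.1.1 x.2 x.1.2.1)
    obtain ⟨ok2, g3, g4⟩ := ih (⟨z.1.2.2, rfl, k3⟩ :
      Run W (lps P W call f pd (rs ++ [x.1.1])) x.2 z.1.1 z.2 z.1.2.1)
    refine ⟨ok1 ∧ W.okv ((pd.length + 1) :: (fl (q :: pd) ++ (tow f ++ fl rs)) ++ tow x.1.1) ∧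
      ok2, ?_, g2, k2, g4⟩
    rw [RT.run_bind, g1, RT.run_bind]
    simp only
    rw [g3]
    rfl

/-- fuel monotonicity -/
theorem sem_succ (n : ℕ) : ∀ {f : List ℕ} {rs : List (List ℕ)} {p : ℕ} {u : List ℕ} {p' c : ℕ},
    Run W (sem P W n f rs) p u p' c → Run W (sem P W (n + 1) f rs) p u p' c := by
  induction n with
  | zero =>
    intro f rs p u p' c h
    obtain ⟨ok, h1, h2⟩ := h
    rw [sem, RT.run_ret] at h1
    simp only [Prod.mk.injEq] at h1
    obtain ⟨⟨-, -, rfl⟩, -⟩ := h1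
    exact h2.elim
  | succ n ih =>
    intro f rs p u p' c h
    rw [sem] at h ⊢
    split at h
    · rename_i hs
      rw [if_pos hs]
      exact h
    · rename_i hs
      rw [if_neg hs]
      obtain ⟨ok, h1, h2⟩ := h.bind
      set y := (lps P W (fun q => sem P W n q []) (P.δ f rs).1 (P.δ f rs).2 []).run W.N W.Z p
        with hy
      rw [RT.run_bind] at h1
      set z := (sem P W n (P.δ f rs).1 y.1.1).run W.N W.Z y.2 with hz
      simp only [RT.run_ret, Prod.mk.injEq] at h1
      obtain ⟨⟨rfl, rfl, rfl⟩, rfl⟩ := h1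
      obtain ⟨k1, k2⟩ := h2
      obtain ⟨ok1, g1, g2⟩ := lps_mono (P := P) (call' := fun q => sem P W (n + 1) q [])
        (fun q p u p' c h => ih h) (P.δ f rs).2 (⟨y.1.2.2, rfl, k1⟩ :
          Run W (lps P W (fun q => sem P W n q []) (P.δ f rs).1 (P.δ f rs).2 []) p y.1.1 y.2
            y.1.2.1)
      obtain ⟨ok2, g3, g4⟩ := ih (⟨z.1.2.2, rfl, k2⟩ :
        Run W (sem P W n (P.δ f rs).1 y.1.1) y.2 z.1.1 z.2 z.1.2.1)
      refine ⟨ok1 ∧ ok2, ?_, g2, g4⟩
      rw [RT.run_bind, g1, RT.run_bind]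
      simp only
      rw [g3]
      rfl

/-- a frame at a fixed position -/
def Rn (P : Prg) (W : Wld) (n : ℕ) (f : List ℕ) (rs : List (List ℕ)) (p : ℕ) (u : List ℕ)
    (p' c : ℕ) : Prop := Run W (sem P W n f rs) p u p' c

/-- a request at a fixed position -/
def Qn (P : Prg) (W : Wld) (n : ℕ) (q : List ℕ) (p : ℕ) (u : List ℕ) (p' c : ℕ) : Prop :=
  Run W (rq P W (fun q => sem P W n q []) q) p u p' c

/-- a list of requests at a fixed position -/
inductive Ln (P : Prg) (W : Wld) (n : ℕ) :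
    List (List ℕ) → ℕ → List (List ℕ) → ℕ → ℕ → Prop
  | nil (p : ℕ) : Ln P W n [] p [] p 0
  | cons {q : List ℕ} {reqs us : List (List ℕ)} {u : List ℕ} {p p1 p2 c c' : ℕ} :
      Qn P W n q p u p1 c → Ln P W n reqs p1 us p2 c' →
      Ln P W n (q :: reqs) p (u :: us) p2 (c + c' + 1)

theorem Rn.succ {n : ℕ} {f : List ℕ} {rs : List (List ℕ)} {p : ℕ} {u : List ℕ} {p' c : ℕ}
    (h : Rn P W n f rs p u p' c) : Rn P W (n + 1) f rs p u p' c := sem_succ n h

theorem Rn.mono {n m : ℕ} {f : List ℕ} {rs : List (List ℕ)} {p : ℕ} {u : List ℕ} {p' c : ℕ}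
    (h : Rn P W n f rs p u p' c) (hm : n ≤ m) : Rn P W m f rs p u p' c := by
  induction hm with
  | refl => exact h
  | step _ ih => exact ih.succ

theorem Qn.mono {n m : ℕ} {q : List ℕ} {p : ℕ} {u : List ℕ} {p' c : ℕ}
    (h : Qn P W n q p u p' c) (hm : n ≤ m) : Qn P W m q p u p' c :=
  rq_mono (fun _ _ _ _ _ h => Rn.mono h hm) h

theorem Ln.mono {n m : ℕ} {reqs us : List (List ℕ)} {p p' c : ℕ}
    (h : Ln P W n reqs p us p' c) (hm : n ≤ m) : Ln P W m reqs p us p' c := by
  induction h with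
  | nil p => exact .nil p
  | cons h1 _ ih => exact .cons (h1.mono hm) ih

theorem Ln.length {n : ℕ} {reqs us : List (List ℕ)} {p p' c : ℕ}
    (h : Ln P W n reqs p us p' c) : us.length = reqs.length := by
  induction h with
  | nil p => rfl
  | cons _ _ ih => rw [List.length_cons, List.length_cons, ih]

theorem Ln.append {n : ℕ} {reqs us reqs' us' : List (List ℕ)} {p p' p'' c c' : ℕ}
    (h : Ln P W n reqs p us p' c) (h' : Ln P W n reqs' p' us' p'' c') :
    Ln P W n (reqs ++ reqs') p (us ++ us') p'' (c + c') := by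
  induction h with
  | nil p => simpa using h'
  | cons h1 _ ih =>
    have := Ln.cons h1 (ih h')
    rw [List.cons_append, List.cons_append]
    convert this using 1
    omega

theorem fl_lt {M : ℕ} {rs : List (List ℕ)} (h : ∀ r ∈ rs, ∀ a ∈ r, a < M)
    (hl : (fl rs).length < M) : ∀ a ∈ fl rs, a < M := by
  induction rs with
  | nil => intro a ha; simp at ha
  | cons r rs ih =>
    intro a ha
    rw [fl_cons, List.length_append, tow_list, List.length_cons] at hl
    rw [fl_cons, tow_list, List.mem_append, List.mem_cons] at ha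
    rcases ha with (rfl | ha) | ha
    · omega
    · exact h r List.mem_cons_self a ha
    · exact ih (fun r' hr' => h r' (List.mem_cons_of_mem _ hr')) (by omega) a ha

/-- the phase fits: new local data, requests, results -/
structure Szo (W : Wld) (f : List ℕ) (reqs us : List (List ℕ)) : Prop where
  /-- length -/
  len : f.length + (fl reqs).length + (fl us).length + 16 ≤ W.S
  /-- words -/
  wf : ∀ a ∈ f, a < W.M
  /-- words -/
  wq : ∀ q ∈ reqs, ∀ a ∈ q, a < W.M
  /-- words -/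
  wu : ∀ u ∈ us, ∀ a ∈ u, a < W.M

theorem Ln.lps (hSM : W.S < W.M) {n : ℕ} {f : List ℕ} {reqs us : List (List ℕ)} {p p' c : ℕ}
    (h : Ln P W n reqs p us p' c) : ∀ {rs : List (List ℕ)},
      f.length + (fl reqs).length + (fl (rs ++ us)).length + 16 ≤ W.S → (∀ a ∈ f, a < W.M) →
      (∀ q ∈ reqs, ∀ a ∈ q, a < W.M) → (∀ u ∈ rs ++ us, ∀ a ∈ u, a < W.M) →
      Run W (lps P W (fun q => sem P W n q []) f reqs rs) p (rs ++ us) p' c := by
  induction h with
  | nil p =>
    intro rs _ _ _ _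
    rw [List.append_nil]
    exact ⟨True, rfl, trivial⟩
  | @cons q reqs us u p p1 p2 c c' h1 _ ih =>
    intro rs hl hf hq hu
    have e1 : rs ++ [u] ++ us = rs ++ u :: us := by simp
    have hl1 : (fl (q :: reqs)).length = q.length + 1 + (fl reqs).length := by
      rw [fl_cons, List.length_append, tow_list, List.length_cons]
    have hl2 : (fl (rs ++ u :: us)).length =
        (fl rs).length + (u.length + 1) + (fl us).length := by
      rw [fl_append, fl_cons, List.length_append, List.length_append, tow_list, List.length_cons]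
      omega
    obtain ⟨ok2, g3, g4⟩ := ih (rs := rs ++ [u]) (by rw [e1]; omega) hf
      (fun q' hq' => hq q' (List.mem_cons_of_mem _ hq')) (by rw [e1]; exact hu)
    obtain ⟨ok1, g1, g2⟩ := h1
    have hok : W.okv ((reqs.length + 1) :: (fl (q :: reqs) ++ (tow f ++ fl rs)) ++ tow u) := by
      refine ⟨?_, ?_⟩
      · simp only [List.length_append, List.length_cons, tow_list, hl1]
        omega
      · intro a ha
        have hlq := length_le_fl (q :: reqs)
        rw [List.length_cons] at hlq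
        simp only [List.mem_append, List.mem_cons, tow_list] at ha
        rcases ha with (rfl | ha | ((rfl | ha) | ha)) | (rfl | ha)
        · omega
        · exact fl_lt hq (by omega) a ha
        · omega
        · exact hf a ha
        · exact fl_lt (fun r hr => hu r (List.mem_append_left _ hr)) (by omega) a ha
        · omega
        · exact hu u (by simp) a ha
    refine ⟨ok1 ∧ W.okv ((reqs.length + 1) :: (fl (q :: reqs) ++ (tow f ++ fl rs)) ++ tow u) ∧
      ok2, ?_, g2, hok, g4⟩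
    rw [Phe940.lps, RT.run_bind, g1, RT.run_bind]
    simp only
    rw [g3, RT.run_ret, e1]

/-- stop -/
theorem Rn.stop {n : ℕ} {f u : List ℕ} {rs : List (List ℕ)} (h : P.δ f rs = (u, []))
    (hu : W.okv u) (p : ℕ) : Rn P W (n + 1) f rs p u p 0 := by
  unfold Rn
  rw [sem, if_pos (by rw [h]), h]
  exact ⟨W.okv u, rfl, hu⟩

/-- a phase -/
theorem Rn.step (hSM : W.S < W.M) {n : ℕ} {f f' u : List ℕ} {rs reqs us : List (List ℕ)}
    {p p1 p2 c1 c2 : ℕ} (h : P.δ f rs = (f', reqs)) (hne : reqs ≠ [])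
    (hl : Ln P W n reqs p us p1 c1) (hs : Szo W f' reqs us) (hk : Rn P W n f' us p1 u p2 c2) :
    Rn P W (n + 1) f rs p u p2 (c1 + c2) := by
  unfold Rn
  rw [sem, if_neg (by rw [h]; exact hne), h]
  obtain ⟨ok1, g1, g2⟩ := hl.lps hSM (f := f') (rs := []) (by simpa using hs.len) hs.wf hs.wq
    (by simpa using hs.wu)
  obtain ⟨ok2, g3, g4⟩ := hk
  refine ⟨ok1 ∧ ok2, ?_, g2, g4⟩
  simp only [List.nil_append] at g1
  rw [RT.run_bind, g1, RT.run_bind]
  simp only
  rw [g3]
  rfl

end runs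

/-! ### rules for randomized computations -/

section rules

variable {P : Prg} {W : Wld}

/-- the frame `(f, rs)` realises `t` with fuel `n` at cost at most `C` -/
def Rz (P : Prg) (W : Wld) (n : ℕ) (f : List ℕ) (rs : List (List ℕ)) (t : RT (List ℕ))
    (C : ℕ) : Prop :=
  ∀ p, t.nxt W.N W.Z p ≤ W.Pm →
    ∃ c ≤ C, Rn P W n f rs p (t.val W.N W.Z p) (t.nxt W.N W.Z p) c

/-- the request `q` realises `t` -/
def Rq (P : Prg) (W : Wld) (n : ℕ) (q : List ℕ) (t : RT (List ℕ)) (C : ℕ) : Prop :=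
  ∀ p, t.nxt W.N W.Z p ≤ W.Pm →
    ∃ c ≤ C, Qn P W n q p (t.val W.N W.Z p) (t.nxt W.N W.Z p) c

/-- the requests `reqs` realise `ts` -/
def Rqs (P : Prg) (W : Wld) (n : ℕ) (reqs : List (List ℕ)) (ts : RT (List (List ℕ)))
    (C : ℕ) : Prop :=
  ∀ p, ts.nxt W.N W.Z p ≤ W.Pm →
    ∃ c ≤ C, Ln P W n reqs p (ts.val W.N W.Z p) (ts.nxt W.N W.Z p) c

variable {n m : ℕ} {f q : List ℕ} {rs reqs reqs' : List (List ℕ)} {t : RT (List ℕ)}
  {ts ts' : RT (List (List ℕ))} {C C' : ℕ}

theorem Rz.mono (h : Rz P W n f rs t C) (hn : n ≤ m) (hC : C ≤ C') : Rz P W m f rs t C' := by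
  intro p hp
  obtain ⟨c, hc, h1⟩ := h p hp
  exact ⟨c, hc.trans hC, h1.mono hn⟩

theorem Rq.mono (h : Rq P W n q t C) (hn : n ≤ m) (hC : C ≤ C') : Rq P W m q t C' := by
  intro p hp
  obtain ⟨c, hc, h1⟩ := h p hp
  exact ⟨c, hc.trans hC, h1.mono hn⟩

theorem Rqs.mono (h : Rqs P W n reqs ts C) (hn : n ≤ m) (hC : C ≤ C') :
    Rqs P W m reqs ts C' := by
  intro p hp
  obtain ⟨c, hc, h1⟩ := h p hp
  exact ⟨c, hc.trans hC, h1.mono hn⟩

/-- stop with the result `u` -/
theorem Rz.stop {u : List ℕ} (h : P.δ f rs = (u, [])) (hu : W.okv u) :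
    Rz P W (n + 1) f rs (.ret u) 0 := fun p _ => ⟨0, le_rfl, Rn.stop h hu p⟩

/-- **a phase**: general form, the continuation only has to be realised at the real results -/
theorem Rz.stepV (hSM : W.S < W.M) {f' : List ℕ} {k : List (List ℕ) → RT (List ℕ)}
    (h : P.δ f rs = (f', reqs)) (hne : reqs ≠ []) (hts : Rqs P W n reqs ts C)
    (hs : ∀ p, ts.nxt W.N W.Z p ≤ W.Pm → Szo W f' reqs (ts.val W.N W.Z p))
    (hk : ∀ p, ts.nxt W.N W.Z p ≤ W.Pm →
      Rz P W n f' (ts.val W.N W.Z p) (k (ts.val W.N W.Z p)) C') :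
    Rz P W (n + 1) f rs (ts.bind k) (C + C') := by
  intro p hp
  have e1 : (ts.bind k).nxt W.N W.Z p = (k (ts.val W.N W.Z p)).nxt W.N W.Z (ts.nxt W.N W.Z p) := by
    unfold RT.nxt RT.val
    rw [RT.run_bind]
  have e2 : (ts.bind k).val W.N W.Z p = (k (ts.val W.N W.Z p)).val W.N W.Z (ts.nxt W.N W.Z p) := by
    unfold RT.nxt RT.val
    rw [RT.run_bind]
  rw [e1] at hp
  have hp1 : ts.nxt W.N W.Z p ≤ W.Pm := (RT.le_nxt _ _ _ _).trans hp
  obtain ⟨c1, hc1, g1⟩ := hts p hp1
  obtain ⟨c2, hc2, g2⟩ := hk p hp1 _ hp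
  rw [e1, e2]
  exact ⟨c1 + c2, Nat.add_le_add hc1 hc2, Rn.step hSM h hne g1 (hs p hp1) g2⟩

/-- **a phase**, with a property of all results -/
theorem Rz.step (hSM : W.S < W.M) (hN : 0 < W.N) {f' : List ℕ}
    {k : List (List ℕ) → RT (List ℕ)} {Q : List (List ℕ) → Prop}
    (h : P.δ f rs = (f', reqs)) (hne : reqs ≠ []) (hts : Rqs P W n reqs ts C)
    (hQ : ts.All W.N Q) (hs : ∀ us, Q us → Szo W f' reqs us)
    (hk : ∀ us, Q us → Rz P W n f' us (k us) C') :
    Rz P W (n + 1) f rs (ts.bind k) (C + C') :=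
  Rz.stepV hSM h hne hts (fun p _ => hs _ (hQ.val hN _ _)) fun p _ => hk _ (hQ.val hN _ _)

/-- **a phase without randomness** -/
theorem Rz.step_ret (hSM : W.S < W.M) {f' : List ℕ} {us : List (List ℕ)} (h : P.δ f rs = (f', reqs)) (hne : reqs ≠ [])
    (hts : Rqs P W n reqs (.ret us) C) (hs : Szo W f' reqs us) (hk : Rz P W n f' us t C') :
    Rz P W (n + 1) f rs t (C + C') := by
  have := Rz.stepV (k := fun _ => t) hSM h hne hts (fun _ _ => hs) fun _ _ => hk
  rwa [RT.ret_bind] at this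

/-! requests -/

/-- the next word of the tape -/
theorem Rq.word (h : kq q = 0) : Rq P W n q (RT.draw.map fun r => [r]) 1 := by
  intro p _
  refine ⟨1, le_rfl, ?_⟩
  unfold Qn
  rw [rq, if_pos h]
  exact ⟨True, rfl, trivial⟩

/-- first array -/
theorem Rq.rd1 (h : kq q = 1) (hL : q.getD 1 0 < W.L) : Rq P W n q (.ret [W.O1 (q.getD 1 0)]) 1 := by
  intro p _
  refine ⟨1, le_rfl, ?_⟩
  unfold Qn
  rw [rq, if_neg (by omega), if_pos h]
  exact ⟨_, rfl, hL⟩

/-- second array -/
theorem Rq.rd2 (h : kq q = 2) (hL : q.getD 1 0 < W.L) : Rq P W n q (.ret [W.O2 (q.getD 1 0)]) 1 := by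
  intro p _
  refine ⟨1, le_rfl, ?_⟩
  unfold Qn
  rw [rq, if_neg (by omega), if_neg (by omega), if_pos h]
  exact ⟨_, rfl, hL⟩

/-- the external statement -/
theorem Rq.ext (h : kq q = 3) (hE : W.okE q.tail) :
    Rq P W n q (.ret (W.E q.tail)) (W.cE q.tail) := by
  intro p _
  refine ⟨_, le_rfl, ?_⟩
  unfold Qn
  rw [rq, if_neg (by omega), if_neg (by omega), if_neg (by omega), if_pos h]
  exact ⟨_, rfl, hE⟩

/-- a call of the same index -/
theorem Rq.call (h : 4 ≤ kq q) (h5 : kq q ≠ 5) (hz : Rz P W n q.tail [] t C) :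
    Rq P W n q t C := by
  intro p hp
  obtain ⟨c, hc, h1⟩ := hz p hp
  refine ⟨c, hc, ?_⟩
  unfold Qn
  rw [rq, if_neg (by omega), if_neg (by omega), if_neg (by omega), if_neg (by omega), if_neg h5]
  exact h1

/-- a call of a lower index -/
theorem Rq.low (h : kq q = 5) (hz : Rz P W n q.tail [] t C)
    (hp : t.nxt W.N W.Z (P.base q.tail) ≤ W.Pm) :
    Rq P W n q (.ret (t.val W.N W.Z (P.base q.tail))) C := by
  intro p _
  obtain ⟨c, hc, ok, h1, h2⟩ := hz _ hp
  refine ⟨c, hc, ?_⟩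
  unfold Qn
  rw [rq, if_neg (by omega), if_neg (by omega), if_neg (by omega), if_neg (by omega), if_pos h]
  have h3 : (sem P W n q.tail []).val W.N W.Z (P.base q.tail) = _ := congrArg Prod.fst h1
  have h4 : (sem P W n q.tail []).nxt W.N W.Z (P.base q.tail) = _ := congrArg Prod.snd h1
  refine ⟨ok ∧ t.nxt W.N W.Z (P.base q.tail) ≤ W.Pm, ?_, h2, hp⟩
  simp only [h3, h4]
  rfl

/-! lists of requests -/

theorem Rqs.nil : Rqs P W n [] (.ret []) 0 := fun p _ => ⟨0, le_rfl, .nil p⟩

theorem Rqs.cons (h : Rq P W n q t C) (hs : Rqs P W n reqs ts C') :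
    Rqs P W n (q :: reqs) (t.bind fun u => ts.bind fun us => .ret (u :: us)) (C + C' + 1) := by
  intro p hp
  have e1 : (t.bind fun u => ts.bind fun us => .ret (u :: us)).run W.N W.Z p =
      (t.val W.N W.Z p :: ts.val W.N W.Z (t.nxt W.N W.Z p), ts.nxt W.N W.Z (t.nxt W.N W.Z p)) := by
    rw [RT.run_bind, RT.run_bind]
    rfl
  have e2 : (t.bind fun u => ts.bind fun us => .ret (u :: us)).nxt W.N W.Z p =
      ts.nxt W.N W.Z (t.nxt W.N W.Z p) := by
    have := congrArg Prod.snd e1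
    exact this
  have e3 : (t.bind fun u => ts.bind fun us => .ret (u :: us)).val W.N W.Z p =
      t.val W.N W.Z p :: ts.val W.N W.Z (t.nxt W.N W.Z p) := by
    have := congrArg Prod.fst e1
    exact this
  rw [e2] at hp
  obtain ⟨c1, hc1, g1⟩ := h p ((RT.le_nxt _ _ _ _).trans hp)
  obtain ⟨c2, hc2, g2⟩ := hs _ hp
  rw [e2, e3]
  exact ⟨c1 + c2 + 1, by omega, .cons g1 g2⟩

/-- a deterministic request first -/
theorem Rqs.cons_ret {u : List ℕ} {us : List (List ℕ)} (h : Rq P W n q (.ret u) C)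
    (hs : Rqs P W n reqs (.ret us) C') : Rqs P W n (q :: reqs) (.ret (u :: us)) (C + C' + 1) :=
  Rqs.cons h hs

theorem Rqs.append (h : Rqs P W n reqs ts C) (h' : Rqs P W n reqs' ts' C') :
    Rqs P W n (reqs ++ reqs') (ts.bind fun us => ts'.bind fun us' => .ret (us ++ us'))
      (C + C') := by
  intro p hp
  have e1 : (ts.bind fun us => ts'.bind fun us' => .ret (us ++ us')).run W.N W.Z p =
      (ts.val W.N W.Z p ++ ts'.val W.N W.Z (ts.nxt W.N W.Z p),
        ts'.nxt W.N W.Z (ts.nxt W.N W.Z p)) := by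
    rw [RT.run_bind, RT.run_bind]
    rfl
  have e2 : (ts.bind fun us => ts'.bind fun us' => .ret (us ++ us')).nxt W.N W.Z p =
      ts'.nxt W.N W.Z (ts.nxt W.N W.Z p) := by
    have := congrArg Prod.snd e1
    exact this
  have e3 : (ts.bind fun us => ts'.bind fun us' => .ret (us ++ us')).val W.N W.Z p =
      ts.val W.N W.Z p ++ ts'.val W.N W.Z (ts.nxt W.N W.Z p) := by
    have := congrArg Prod.fst e1
    exact this
  rw [e2] at hp
  obtain ⟨c1, hc1, g1⟩ := h p ((RT.le_nxt _ _ _ _).trans hp)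
  obtain ⟨c2, hc2, g2⟩ := h' _ hp
  rw [e2, e3]
  exact ⟨c1 + c2, by omega, g1.append g2⟩

theorem Rqs.append_ret {us us' : List (List ℕ)} (h : Rqs P W n reqs (.ret us) C)
    (h' : Rqs P W n reqs' (.ret us') C') :
    Rqs P W n (reqs ++ reqs') (.ret (us ++ us')) (C + C') := Rqs.append h h'

/-- **a list of requests of one form** -/
theorem Rqs.map {ι : Type} (l : List ι) (enc : ι → List ℕ) (t : ι → RT (List ℕ)) (c : ι → ℕ)
    (h : ∀ x ∈ l, Rq P W n (enc x) (t x) (c x)) :
    Rqs P W n (l.map enc) (seqL (l.map t)) (l.map fun x => c x + 1).sum := by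
  induction l with
  | nil => exact Rqs.nil
  | cons x l ih =>
    rw [List.map_cons, List.map_cons, List.map_cons, List.sum_cons, seqL]
    exact (Rqs.cons (h x List.mem_cons_self)
      (ih fun y hy => h y (List.mem_cons_of_mem _ hy))).mono le_rfl (by omega)

theorem sum_le_mul {ι : Type} (l : List ι) (c : ι → ℕ) (C : ℕ) (h : ∀ x ∈ l, c x ≤ C) :
    (l.map fun x => c x + 1).sum ≤ l.length * (C + 1) := by
  induction l with
  | nil => simp
  | cons x l ih =>
    rw [List.map_cons, List.sum_cons, List.length_cons, Nat.add_mul, Nat.one_mul]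
    have h1 := h x List.mem_cons_self
    have h2 := ih fun y hy => h y (List.mem_cons_of_mem _ hy)
    omega

/-- the same with one cost -/
theorem Rqs.map_le {ι : Type} (l : List ι) (enc : ι → List ℕ) (t : ι → RT (List ℕ)) (C : ℕ)
    (h : ∀ x ∈ l, Rq P W n (enc x) (t x) C) :
    Rqs P W n (l.map enc) (seqL (l.map t)) (l.length * (C + 1)) :=
  (Rqs.map l enc t (fun _ => C) h).mono le_rfl (sum_le_mul l _ C fun _ _ => le_rfl)

/-- **a list of deterministic requests of one form** -/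
theorem Rqs.map_ret {ι : Type} (l : List ι) (enc : ι → List ℕ) (v : ι → List ℕ) (c : ι → ℕ)
    (h : ∀ x ∈ l, Rq P W n (enc x) (.ret (v x)) (c x)) :
    Rqs P W n (l.map enc) (.ret (l.map v)) (l.map fun x => c x + 1).sum := by
  induction l with
  | nil => exact Rqs.nil
  | cons x l ih =>
    rw [List.map_cons, List.map_cons, List.map_cons, List.sum_cons]
    exact (Rqs.cons_ret (h x List.mem_cons_self)
      (ih fun y hy => h y (List.mem_cons_of_mem _ hy))).mono le_rfl (by omega)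

theorem Rqs.map_ret_le {ι : Type} (l : List ι) (enc : ι → List ℕ) (v : ι → List ℕ) (C : ℕ)
    (h : ∀ x ∈ l, Rq P W n (enc x) (.ret (v x)) C) :
    Rqs P W n (l.map enc) (.ret (l.map v)) (l.length * (C + 1)) :=
  (Rqs.map_ret l enc v (fun _ => C) h).mono le_rfl (sum_le_mul l _ C fun _ _ => le_rfl)

theorem Rqs.congr {ts' : RT (List (List ℕ))} (h : Rqs P W n reqs ts C)
    (he : ∀ p, ts'.run W.N W.Z p = ts.run W.N W.Z p) : Rqs P W n reqs ts' C := by
  intro p hp
  have h1 := h p
  unfold RT.nxt RT.val at *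
  rw [he] at *
  exact h1 hp

theorem Rz.congr {t' : RT (List ℕ)} (h : Rz P W n f rs t C)
    (he : ∀ p, t'.run W.N W.Z p = t.run W.N W.Z p) : Rz P W n f rs t' C := by
  intro p hp
  have h1 := h p
  unfold RT.nxt RT.val at *
  rw [he] at *
  exact h1 hp

/-- `k` words of the tape -/
theorem Rqs.words (k : ℕ) (w : ℕ → List ℕ) (hw : ∀ j < k, kq (w j) = 0) :
    Rqs P W n ((List.range k).map w) ((RT.reps k RT.draw).map fun l => l.map fun r => [r])
      (k * 2) := by
  refine ((Rqs.map_le (List.range k) w (fun _ => RT.draw.map fun r => [r]) 1 fun j hj =>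
    Rq.word (hw j (List.mem_range.1 hj))).mono le_rfl (by simp)).congr fun p => ?_
  congr 1
  have key : ∀ l : List ℕ, seqL (l.map fun _ => RT.draw.map fun r => [r]) =
      (RT.reps l.length RT.draw).map fun l => l.map fun r => [r] := by
    intro l
    induction l with
    | nil => rfl
    | cons x l ih =>
      rw [List.map_cons, seqL, ih, List.length_cons, RT.reps]
      simp only [RT.map, RT.bind_assoc, RT.ret_bind, List.map_cons]
  rw [key, List.length_range]

/-- **the procedure realises the computation** -/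
theorem Rz.proc {e : PEnv} {pr : List PS} (hm : Mch P W e pr) (h : Rz P W n q [] t C) (p i : ℕ)
    (hp : t.nxt W.N W.Z p ≤ W.Pm) :
    ∃ s d, PEx e pr P.proc (p :: q) i (t.nxt W.N W.Z p :: t.val W.N W.Z p) i s d ∧
      s ≤ 40 * C + 20 ∧ d ≤ n := by
  obtain ⟨c, hc, ok, h1, h2⟩ := h p hp
  obtain ⟨s, d, g1, g2, g3⟩ := proc_sim hm h1 h2 hp (i := i)
  exact ⟨s, d, g1, by omega, g3⟩

end rules

end Crest.Agent.R288.Phe940
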