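import Mathlib
import Crest.Agent.R288.InitS_663
import Crest.Agent.R288.PheC_940

/-!
# R288 (S0433), leaf [Init]: rules with a wrapper, sizes of the frames of the estimator

* `Wr P W wr kl dl`: the engine of helper940 with frames `wr g` (the constants of the run are added
  by `wr`, length `≤ + kl`) runs the step function `dl`; rules `Wr.stopR`, `Wr.stepR`;
* `seqL_eq`: the two `seqL` agree;
* `TOk`, `nodeL_All`, `estL_All`: all results of the estimator are tables of the right length with
  entries at most the cap;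
* `length_frE`, `lt_frE`: sizes of frames.
-/

set_option autoImplicit false

namespace Crest.Agent.R288.InitR663

open Crest.Agent.R295.Rnd627 Crest.Agent.R295.Rnd627.RT
open Crest.Agent.R288.Init772 Crest.Agent.R288.InitL663 Crest.Agent.R288.InitL663.Par
open Crest.Agent.R288.InitQ663 Crest.Agent.R288.InitS663
open Crest.Agent.R288.PtY949 Crest.Agent.R295.Pt949
open Crest.Agent.Lib.PT Crest.Agent.R288.Phe940

/-! ### rules with a wrapper -/

/-- wrapped request -/
def wq (wr : List ℕ → List ℕ) (q : List ℕ) : List ℕ :=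
  if q.headD 0 = 4 ∨ q.headD 0 = 5 then q.headD 0 :: wr q.tail else q

/-- the engine runs the step function `dl` on wrapped frames -/
structure Wr (P : Prg) (W : Wld) (wr : List ℕ → List ℕ) (kl : ℕ)
    (dl : List ℕ → List (List ℕ) → List ℕ × List (List ℕ)) : Prop where
  go : ∀ {g f' : List ℕ} {rs reqs : List (List ℕ)}, dl g rs = (f', reqs) → reqs ≠ [] →
    P.δ (wr g) rs = (wr f', reqs.map (wq wr))
  stop : ∀ {g u : List ℕ} {rs : List (List ℕ)}, dl g rs = (u, []) → P.δ (wr g) rs = (u, [])
  len : ∀ g, (wr g).length ≤ g.length + kl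
  lt : ∀ g, g.length < W.M → (∀ a ∈ g, a < W.M) → ∀ a ∈ wr g, a < W.M

/-- sizes of a phase, before wrapping -/
structure Szw (W : Wld) (kl : ℕ) (f : List ℕ) (reqs us : List (List ℕ)) : Prop where
  len : f.length + kl + ((fl reqs).length + reqs.length * kl) + (fl us).length + 16 ≤ W.S
  wf : ∀ a ∈ f, a < W.M
  wq : ∀ q ∈ reqs, ∀ a ∈ q, a < W.M
  wu : ∀ u ∈ us, ∀ a ∈ u, a < W.M

theorem fl_len (rs : List (List ℕ)) : (fl rs).length = (rs.map fun r => r.length + 1).sum := by
  induction rs with
  | nil => rfl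
  | cons r rs ih =>
    rw [fl_cons, List.length_append, tow_list, List.length_cons, ih, List.map_cons, List.sum_cons]

theorem fl_len_le {rs : List (List ℕ)} {R : ℕ} (h : ∀ r ∈ rs, r.length ≤ R) :
    (fl rs).length ≤ rs.length * (R + 1) := by
  induction rs with
  | nil => simp
  | cons r rs ih =>
    rw [fl_cons, List.length_append, tow_list, List.length_cons, List.length_cons, Nat.add_mul,
      Nat.one_mul]
    have h1 := h r List.mem_cons_self
    have h2 := ih fun r hr => h r (List.mem_cons_of_mem _ hr)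
    omega

theorem length_le_fl' {rs : List (List ℕ)} {r : List ℕ} (h : r ∈ rs) :
    r.length + 1 ≤ (fl rs).length := by
  induction rs with
  | nil => simp at h
  | cons s rs ih =>
    rw [fl_cons, List.length_append, tow_list, List.length_cons]
    rcases List.mem_cons.1 h with rfl | h
    · omega
    · have := ih h
      omega

section wrap

variable {P : Prg} {W : Wld} {wr : List ℕ → List ℕ} {kl : ℕ}
  {dl : List ℕ → List (List ℕ) → List ℕ × List (List ℕ)}

theorem Wr.length_wq (hw : Wr P W wr kl dl) (q : List ℕ) : (wq wr q).length ≤ q.length + kl := by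
  unfold wq
  split_ifs with h
  · cases q with
    | nil => simp at h
    | cons a t =>
      have := hw.len t
      simp only [List.length_cons, List.tail_cons]
      omega
  · omega

theorem Wr.szo (hw : Wr P W wr kl dl) (hSM : W.S < W.M) {f : List ℕ} {reqs us : List (List ℕ)}
    (h : Szw W kl f reqs us) : Szo W (wr f) (reqs.map (wq wr)) us where
  len := by
    have h1 := hw.len f
    have h2 : (fl (reqs.map (wq wr))).length ≤ (fl reqs).length + reqs.length * kl := by
      clear h
      induction reqs with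
      | nil => simp
      | cons q reqs ih =>
        rw [List.map_cons, fl_cons, fl_cons, List.length_append, List.length_append, tow_list,
          tow_list, List.length_cons, List.length_cons, List.length_cons, Nat.add_mul, Nat.one_mul]
        have := hw.length_wq q
        omega
    have h3 := h.len
    omega
  wf := hw.lt f (by have := h.len; omega) h.wf
  wq := by
    intro q' hq' a ha
    rw [List.mem_map] at hq'
    obtain ⟨q, hq, rfl⟩ := hq'
    have h1 := h.wq q hq
    have h2 := length_le_fl' hq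
    have h3 := h.len
    unfold InitR663.wq at ha
    split_ifs at ha with h4
    · cases q with
      | nil => simp at h4
      | cons b t =>
        rw [List.headD_cons, List.tail_cons, List.mem_cons] at ha
        rcases ha with rfl | ha
        · exact h1 _ (by simp)
        · refine hw.lt t ?_ (fun c hc => h1 c (by simp [hc])) a ha
          rw [List.length_cons] at h2
          omega
    · exact h1 a ha
  wu := h.wu

variable {n : ℕ} {g f' u : List ℕ} {rs reqs : List (List ℕ)} {ts : RT (List (List ℕ))}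
  {C C' : ℕ}

theorem Wr.stopR (hw : Wr P W wr kl dl) (h : dl g rs = (u, [])) (hu : W.okv u) :
    Rz P W (n + 1) (wr g) rs (.ret u) 0 := Rz.stop (hw.stop h) hu

theorem Wr.stepR (hw : Wr P W wr kl dl) (hSM : W.S < W.M) (hN : 0 < W.N)
    {k : List (List ℕ) → RT (List ℕ)} {Q : List (List ℕ) → Prop}
    (h : dl g rs = (f', reqs)) (hne : reqs ≠ []) (hts : Rqs P W n (reqs.map (wq wr)) ts C)
    (hQ : ts.All W.N Q) (hs : ∀ us, Q us → Szw W kl f' reqs us)
    (hk : ∀ us, Q us → Rz P W n (wr f') us (k us) C') :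
    Rz P W (n + 1) (wr g) rs (ts.bind k) (C + C') :=
  Rz.step hSM hN (hw.go h hne) (by simpa using hne) hts hQ (fun us hu => hw.szo hSM (hs us hu)) hk

theorem Wr.step_retR (hw : Wr P W wr kl dl) (hSM : W.S < W.M) {us : List (List ℕ)}
    {t : RT (List ℕ)} (h : dl g rs = (f', reqs)) (hne : reqs ≠ [])
    (hts : Rqs P W n (reqs.map (wq wr)) (.ret us) C) (hs : Szw W kl f' reqs us)
    (hk : Rz P W n (wr f') us t C') : Rz P W (n + 1) (wr g) rs t (C + C') :=
  Rz.step_ret hSM (hw.go h hne) (by simpa using hne) hts (hw.szo hSM hs) hk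

end wrap

theorem seqL_eq (ts : List (RT (List ℕ))) : Alg45.seqL ts = Bern775.seqL ts := by
  induction ts with
  | nil => rfl
  | cons t ts ih =>
    rw [Alg45.seqL, Bern775.seqL_cons, ih]

/-! ### the tables -/

section tables

variable (P : Init772.Par)

/-- a table of the window of scale `2 ^ κ` -/
def TOk (κ : ℕ) (T : List ℕ) : Prop := T.length = 2 ^ P.mu κ ∧ ∀ a ∈ T, a ≤ P.cap κ

theorem two_pow_le_cap (κ : ℕ) : 2 ^ P.s ≤ P.cap κ :=
  Nat.le_mul_of_pos_right _ (Nat.two_pow_pos _)

theorem phi_le (κ x : ℕ) : P.phi κ x ≤ P.cap κ :=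
  (Nat.sub_le _ _).trans (min_le_right _ _)

theorem cap_mono {κ' κ : ℕ} (h : κ' ≤ κ) : P.cap κ' ≤ P.cap κ :=
  Nat.mul_le_mul_left _ (Nat.pow_le_pow_right (by norm_num) h)

theorem blT_ok {bl : ℕ → ℕ → ℤ → ℕ} (hbl : ∀ h j u, bl h j u ≤ 1) (h κ j : ℕ) (z : ℤ) :
    TOk P κ (blT P bl h κ j z) := by
  refine ⟨length_tab P κ z _, fun a ha => ?_⟩
  unfold blT tab at ha
  rw [List.mem_map] at ha
  obtain ⟨t, _, rfl⟩ := ha
  calc 2 ^ P.s * bl h j _ ≤ 2 ^ P.s * 1 := Nat.mul_le_mul_left _ (hbl _ _ _)
    _ ≤ P.cap κ := by rw [mul_one]; exact two_pow_le_cap P κ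

theorem length_addL (A T : List ℕ) : (addL A T).length = min A.length T.length := by
  unfold addL; simp

theorem length_layL (l : ℕ) (A T : List ℕ) : (layL P l A T).length = min A.length T.length := by
  unfold layL; simp

theorem length_locL (κ l : ℕ) (W : List ℕ) : (locL P κ l W).length = 2 ^ P.mu κ := by
  unfold locL; simp

theorem length_zerosL (κ : ℕ) : (zerosL P κ).length = 2 ^ P.mu κ := by unfold zerosL; simp

theorem accL_All {M m : ℕ} {t : RT (List ℕ)} (ht : t.All M fun T => T.length = m) (n : ℕ) :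
    ∀ S : List ℕ, S.length = m → (accL t n S).All M fun S => S.length = m := by
  induction n with
  | zero => intro S hS; exact hS
  | succ n ih =>
    intro S hS
    rw [accL, All_bind]
    exact ht.mono fun T hT => ih _ (by rw [length_addL, hS, hT, min_self])

theorem smpL_All (M : ℕ) (CL : ℕ → ℕ → ℤ → RT (List ℕ)) (r κ l : ℕ) (z : ℤ) :
    (smpL P CL r κ l z).All M fun T => T.length = 2 ^ P.mu κ := by
  unfold smpL
  rw [All_rnd]
  intro v _
  unfold RT.map
  rw [All_bind]
  exact All.of_forall fun W => length_locL P κ l W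

theorem laysL_All (M : ℕ) (CL : ℕ → ℕ → ℤ → RT (List ℕ)) (r κ : ℕ) (z : ℤ) (n : ℕ) :
    (laysL P CL r κ z n).All M fun T => T.length = 2 ^ P.mu κ := by
  induction n with
  | zero => exact length_zerosL P κ
  | succ n ih =>
    rw [laysL, All_bind]
    refine ih.mono fun A hA => ?_
    unfold RT.map
    rw [All_bind]
    refine (accL_All (smpL_All P M CL r κ n z) _ _ (length_zerosL P κ)).mono fun S hS => ?_
    rw [All_ret, length_layL, hA, hS, min_self]

theorem finL_ok {κ : ℕ} {A : List ℕ} (hA : A.length = 2 ^ P.mu κ) : TOk P κ (finL P κ A) := by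
  refine ⟨by unfold finL; rw [List.length_map, hA], fun a ha => ?_⟩
  unfold finL at ha
  rw [List.mem_map] at ha
  obtain ⟨b, _, rfl⟩ := ha
  exact min_le_left _ _

theorem stepL_All (M : ℕ) (CL : ℕ → ℕ → ℤ → RT (List ℕ)) (r κ : ℕ) (z : ℤ) :
    (stepL P CL r κ z).All M (TOk P κ) := by
  unfold InitL663.Par.stepL RT.map
  rw [All_bind]
  exact (laysL_All P M CL r κ z _).mono fun A hA => finL_ok P hA

theorem nodeL_All (M : ℕ) {bl : ℕ → ℕ → ℤ → ℕ} (hbl : ∀ h j u, bl h j u ≤ 1)
    (q r κ j : ℕ) (z : ℤ) : (nodeL P bl q r κ j z).All M (TOk P κ) := by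
  unfold nodeL
  split_ifs
  · exact blT_ok P hbl _ _ _ _
  · exact stepL_All (P.up r) M _ r κ z

/-- entries of a sum -/
theorem addL_le {b c : ℕ} {A T : List ℕ} (hA : ∀ a ∈ A, a ≤ b) (hT : ∀ a ∈ T, a ≤ c) :
    ∀ a ∈ addL A T, a ≤ b + c := by
  intro a ha
  unfold addL at ha
  rw [List.mem_iff_getElem] at ha
  obtain ⟨i, hi, rfl⟩ := ha
  rw [List.getElem_zipWith]
  exact Nat.add_le_add (hA _ (List.getElem_mem _)) (hT _ (List.getElem_mem _))

theorem layL_le {l b c : ℕ} {A T : List ℕ} (hA : ∀ a ∈ A, a ≤ b) (hT : ∀ a ∈ T, a ≤ c) :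
    ∀ a ∈ layL P l A T, a ≤ b + 2 ^ l * c / 2 ^ P.c := by
  intro a ha
  unfold layL at ha
  rw [List.mem_iff_getElem] at ha
  obtain ⟨i, hi, rfl⟩ := ha
  rw [List.getElem_zipWith]
  exact Nat.add_le_add (hA _ (List.getElem_mem _))
    (Nat.div_le_div_right (Nat.mul_le_mul_left _ (hT _ (List.getElem_mem _))))

theorem locL_le (κ l : ℕ) (W : List ℕ) : ∀ a ∈ locL P κ l W, a ≤ P.cap κ := by
  intro a ha
  unfold locL at ha
  rw [List.mem_map] at ha
  obtain ⟨t, _, rfl⟩ := ha
  exact (phi_le P _ _).trans (cap_mono P (Nat.sub_le _ _))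

theorem zerosL_le (κ b : ℕ) : ∀ a ∈ zerosL P κ, a ≤ b := by
  intro a ha
  unfold zerosL at ha
  rw [List.mem_replicate] at ha
  omega

end tables

/-! ### the frames -/

section frames

@[simp] theorem tow_int (z : ℤ) : (tow z : List ℕ) = [if z < 0 then 1 else 0, z.natAbs] := rfl

theorem frE_eq (tg ph q r κ j l n : ℕ) (z : ℤ) (A S : List ℕ) :
    frE tg ph (arg q r κ j z) (lp l n A S) =
      tg :: ph :: 2 ^ q :: 2 ^ r :: 2 ^ κ :: j :: (if z < 0 then 1 else 0) :: z.natAbs ::
        2 ^ l :: n :: A.length :: (A ++ S.length :: S) := by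
  unfold frE arg InitS663.lp
  simp

theorem length_frE (tg ph q r κ j l n : ℕ) (z : ℤ) (A S : List ℕ) :
    (frE tg ph (arg q r κ j z) (lp l n A S)).length = 12 + A.length + S.length := by
  rw [frE_eq]
  simp only [List.length_cons, List.length_append]
  omega

theorem lt_frE {M tg ph q r κ j l n : ℕ} {z : ℤ} {A S : List ℕ} (h1 : tg < M) (h2 : ph < M)
    (h3 : 2 ^ q < M) (h4 : 2 ^ r < M) (h5 : 2 ^ κ < M) (h6 : j < M) (h7 : z.natAbs < M)
    (h8 : 2 ^ l < M) (h9 : n < M) (h10 : A.length < M) (h11 : S.length < M)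
    (h12 : ∀ a ∈ A, a < M) (h13 : ∀ a ∈ S, a < M) :
    ∀ a ∈ frE tg ph (arg q r κ j z) (lp l n A S), a < M := by
  intro a ha
  rw [frE_eq] at ha
  simp only [List.mem_cons, List.mem_append] at ha
  have h14 : 1 ≤ 2 ^ q := Nat.one_le_two_pow
  rcases ha with rfl | rfl | rfl | rfl | rfl | rfl | rfl | rfl | rfl | rfl | rfl | ha | rfl | ha
  · exact h1
  · exact h2
  · exact h3
  · exact h4
  · exact h5
  · exact h6
  · split_ifs <;> omega
  · exact h7
  · exact h8
  · exact h9
  · exact h10
  · exact h12 a ha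
  · exact h11
  · exact h13 a ha

end frames

end Crest.Agent.R288.InitR663
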