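import Mathlib
import Crest.Agent.R288.InitF_772
import Crest.Agent.R288.InitP_663
import Crest.Agent.R288.InitQ_663
import Crest.Agent.R288.Gt_373

/-!
# R288 (S0433), leaf [Init]: the scale search on lists, poly-time

`Ts` = list of the tables of the scales `κ < n` (the windows `u / 2 ^ κ`).

* `ehat_seqL`: `P.ehat C u n d` = the tables of all scales drawn one after the other (`seqL`), then
  the pure function `ehatL`;
* `ehatN` (ranges cut at a pad), `ehatN_eq`, certificate `ptf_ehatN`;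
* `offZ`, `ptf_off`, `ptf_U0h`: the start bound.
-/

set_option autoImplicit false

namespace Crest.Agent.R288.InitV663

open Crest.Agent.R295.Rnd627 Crest.Agent.R295.Rnd627.RT Crest.Agent.R288.Init772
open Crest.Agent.R288.InitL663 Crest.Agent.R288.InitL663.Par Crest.Agent.R288.Bern775
open Crest.Agent.R288.InitQ663 Crest.Agent.Lib.PT

variable (P : Init772.Par)

/-- index of the grid point at or below `u` in its window -/
def ixU (κ : ℕ) (u : ℤ) : ℕ := ((P.uk κ u - 2 ^ κ * (u / 2 ^ κ)) / P.st κ).toNat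

theorem ixU_spec (κ : ℕ) (u : ℤ) : ixU P κ u < 2 ^ P.mu κ ∧
    2 ^ κ * (u / 2 ^ κ) + P.st κ * (ixU P κ u : ℤ) = P.uk κ u := by
  obtain ⟨h1, h2⟩ := P.uk_mem κ u
  have hst : (P.st κ : ℤ) * 2 ^ P.mu κ = 2 ^ κ := by exact_mod_cast P.st_mul κ
  have h3 : (P.st κ : ℤ) ∣ P.uk κ u - 2 ^ κ * (u / 2 ^ κ) := by
    apply dvd_sub (P.uk_dvd κ u)
    rw [← hst, mul_assoc]
    exact dvd_mul_right _ _
  obtain ⟨t, ht⟩ := h3
  have hs : (0 : ℤ) < P.st κ := by exact_mod_cast P.st_pos κ
  have h4 : (P.uk κ u - 2 ^ κ * (u / 2 ^ κ)) / P.st κ = t := by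
    rw [ht, Int.mul_ediv_cancel_left _ hs.ne']
  have h5 : 0 ≤ t := by
    by_contra h
    have : (P.st κ : ℤ) * t < 0 := mul_neg_of_pos_of_neg hs (not_le.1 h)
    omega
  have h6 : ((ixU P κ u : ℕ) : ℤ) = t := by
    unfold ixU
    rw [h4, Int.toNat_of_nonneg h5]
  refine ⟨?_, by rw [h6, ← ht]; ring⟩
  have h7 : (P.st κ : ℤ) * t < P.st κ * 2 ^ P.mu κ := by
    rw [hst, ← ht]
    rw [mul_add, mul_one] at h2
    linarith
  have h8 : t < 2 ^ P.mu κ := lt_of_mul_lt_mul_left h7 hs.le
  have : ((ixU P κ u : ℕ) : ℤ) < ((2 ^ P.mu κ : ℕ) : ℤ) := by rw [h6]; exact_mod_cast h8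
  exact_mod_cast this

/-- the value at the scale `κ` -/
def valL (Ts : List (List ℕ)) (u : ℤ) (κ : ℕ) : ℕ := (Ts.getD κ []).getD (ixU P κ u) 0

theorem valL_eq {n : ℕ} (F : ℕ → ℤ → ℕ) (u : ℤ) {κ : ℕ} (h : κ < n) :
    valL P ((List.range n).map fun κ : ℕ => tab P κ (u / 2 ^ κ) (F κ)) u κ = F κ (P.uk κ u) := by
  unfold valL
  have h1 : ((List.range n).map fun κ : ℕ => tab P κ (u / 2 ^ κ) (F κ)).getD κ [] =
      tab P κ (u / 2 ^ κ) (F κ) := by
    rw [List.getD_eq_getElem?_getD]
    simp [h]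
  obtain ⟨h2, h3⟩ := ixU_spec P κ u
  rw [h1, getD_tab P h2, h3]

/-- the estimate from the tables -/
def ehatL (Ts : List (List ℕ)) (u : ℤ) (n d : ℕ) : ℕ := P.sel (valL P Ts u) d 0 n

theorem sel_congr {V V' : ℕ → ℕ} {d : ℕ} (m κ : ℕ) (h : ∀ i, κ ≤ i → i < κ + m → V i = V' i) :
    P.sel V d κ m = P.sel V' d κ m := by
  induction m generalizing κ with
  | zero => rfl
  | succ m ih =>
    unfold Init772.Par.sel
    rw [h κ le_rfl (by omega), ih (κ + 1) fun i h1 h2 => h i (by omega) (by omega)]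

/-- the tables of the scales, drawn one after the other -/
theorem seqL_tab {f : ℕ → RT (ℤ → ℕ)} {zf : ℕ → ℤ} (n : ℕ) :
    seqL ((List.range n).map fun κ => (f κ).map (tab P κ (zf κ))) =
      (wins f n).map fun F => (List.range n).map fun κ => tab P κ (zf κ) (F κ) := by
  induction n with
  | zero => simp [wins, RT.map]
  | succ n ih =>
    rw [List.range_succ, List.map_append, List.map_cons, List.map_nil, seqL_append_one, ih, wins,
      map_bind, bind_map]
    apply InitL663.bind_congr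
    intro F
    rw [map_map, map_map]
    apply InitL663.map_congr
    intro T
    rw [List.map_append, List.map_cons, List.map_nil]
    congr 1
    · apply List.map_congr_left
      intro c hc
      rw [List.mem_range] at hc
      simp only [hc.ne, if_false]
    · simp only [if_true]

theorem vals_wins {C : ℕ → ℤ → RT (ℤ → ℕ)} (u : ℤ) (n : ℕ) :
    P.vals C u n = (wins (fun κ => C κ (u / 2 ^ κ)) n).map
      fun F κ => if κ < n then F κ (P.uk κ u) else 0 := by
  induction n with
  | zero => simp [wins, Init772.Par.vals, RT.map]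
  | succ n ih =>
    rw [Init772.Par.vals, ih, wins, map_bind, bind_map]
    apply InitL663.bind_congr
    intro F
    rw [map_map]
    apply InitL663.map_congr
    intro T
    funext κ
    by_cases h1 : κ = n
    · subst h1
      simp
    · by_cases h2 : κ < n
      · have h3 : κ < n + 1 := by omega
        simp [h1, h2, h3]
      · have h3 : ¬ κ < n + 1 := by omega
        simp [h1, h2, h3]

/-- **the scale search on lists** -/
theorem ehat_seqL {C : ℕ → ℤ → RT (ℤ → ℕ)} {CL : ℕ → ℤ → RT (List ℕ)}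
    (h : ∀ κ z, CL κ z = (C κ z).map (tab P κ z)) (u : ℤ) (n d : ℕ) :
    P.ehat C u n d =
      (seqL ((List.range n).map fun κ : ℕ => CL κ (u / 2 ^ κ))).map
        fun Ts => ehatL P Ts u n d := by
  have h1 : ((List.range n).map fun κ : ℕ => CL κ (u / 2 ^ κ)) =
      (List.range n).map fun κ : ℕ => (C κ (u / 2 ^ κ)).map (tab P κ (u / 2 ^ κ)) :=
    List.map_congr_left fun κ _ => h _ _
  rw [h1, seqL_tab P (f := fun κ => C κ (u / 2 ^ κ)) (zf := fun κ => u / 2 ^ κ), map_map]
  unfold Init772.Par.ehat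
  rw [vals_wins, map_map]
  apply InitL663.map_congr
  intro F
  unfold ehatL
  apply sel_congr
  intro i _ h2
  rw [zero_add] at h2
  rw [valL_eq P F u h2, if_pos h2]

/-! ### poly-time -/

/-- the first uncapped scale by a search in a list -/
theorem sel_find (V : ℕ → ℕ) (d : ℕ) (m κ : ℕ) : P.sel V d κ m =
    ((List.range' κ m).find? fun i => decide (V i < P.cap i)).elim d fun i => V i / 2 ^ P.s := by
  induction m generalizing κ with
  | zero => rfl
  | succ m ih =>
    unfold Init772.Par.sel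
    rw [List.range'_succ, List.find?_cons]
    by_cases h : V κ < P.cap κ
    · simp [h]
    · simp only [h, if_false, decide_false]
      exact ih (κ + 1)

/-- `ixU` with a cut exponent -/
def ixN (N κ : ℕ) (u : ℤ) : ℕ := ixU P (min κ N) u

/-- `ehatL` with ranges and exponents cut at `N` -/
def ehatN (N : ℕ) (Ts : List (List ℕ)) (u : ℤ) (n d : ℕ) : ℕ :=
  ((List.range (min n N)).find? fun i => decide ((Ts.getD i []).getD (ixU P (min i N) u) 0 <
    P.cap (min i N))).elim d fun i => (Ts.getD i []).getD (ixU P (min i N) u) 0 / 2 ^ P.s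

theorem find?_congr_mem {α : Type} {l : List α} {p q : α → Bool} (h : ∀ a ∈ l, p a = q a) :
    l.find? p = l.find? q := by
  induction l with
  | nil => rfl
  | cons a l ih =>
    rw [List.find?_cons, List.find?_cons, h a (by simp), ih fun b hb => h b (by simp [hb])]

theorem ehatN_eq {N n : ℕ} (hn : n ≤ N) (Ts : List (List ℕ)) (u : ℤ) (d : ℕ) :
    ehatN P N Ts u n d = ehatL P Ts u n d := by
  unfold ehatL
  rw [sel_find, ← List.range_eq_range']
  unfold ehatN
  rw [min_eq_left hn]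
  have h1 : ((List.range n).find? fun i => decide ((Ts.getD i []).getD (ixU P (min i N) u) 0 <
      P.cap (min i N))) = (List.range n).find? fun i => decide (valL P Ts u i < P.cap i) := by
    apply find?_congr_mem
    intro i hi
    rw [List.mem_range] at hi
    rw [min_eq_left (by omega : i ≤ N)]
    rfl
  rw [h1]
  cases h2 : (List.range n).find? fun i => decide (valL P Ts u i < P.cap i) with
  | none => rfl
  | some i =>
    have h3 := List.mem_of_find?_eq_some h2
    rw [List.mem_range] at h3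
    simp only [Option.elim_some]
    rw [min_eq_left (by omega : i ≤ N)]
    rfl

section ptf

variable {α : Type} [PTCode α] {Q : α → Init772.Par} {N κ n : α → ℕ} {u : α → ℤ}

theorem ptf_int2 (hκ : PTU κ) : PTF fun a => ((2 : ℤ) ^ κ a) := by
  have h4 : PTF fun a => 2 ^ κ a := PTF.natTwoPow hκ
  exact PTF.of_eq (f := fun a => ((2 ^ κ a : ℕ) : ℤ)) (by fun_prop) fun a => by push_cast; rfl

theorem ptf_stZ (hσ : PTU fun a => (Q a).σ) (hκ : PTU κ) :
    PTF fun a => (((Q a).st (κ a) : ℕ) : ℤ) := by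
  have h3 := ptf_st (P := Q) hσ hκ
  have : PTF fun n : ℕ => ((n : ℕ) : ℤ) := by fun_prop
  exact PTF.comp this h3

theorem ptf_uk (hσ : PTU fun a => (Q a).σ) (hκ : PTU κ) (hu : PTF u) :
    PTF fun a => (Q a).uk (κ a) (u a) := by
  have h := ptf_stZ (Q := Q) hσ hκ
  unfold Init772.Par.uk
  exact PTF.intMul h (PTF.intEdiv hu h)

theorem ptf_ixU (hσ : PTU fun a => (Q a).σ) (hκ : PTU κ) (hu : PTF u) :
    PTF fun a => ixU (Q a) (κ a) (u a) := by
  have h := ptf_stZ (Q := Q) hσ hκ
  have h2 := ptf_int2 hκ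
  unfold ixU
  exact PTF.intToNat (PTF.intEdiv (PTF.intSub (ptf_uk hσ hκ hu)
    (PTF.intMul h2 (PTF.intEdiv hu h2))) h)

theorem ptf_ehatN {Ts : α → List (List ℕ)} {d : α → ℕ} (hσ : PTU fun a => (Q a).σ)
    (hs : PTU fun a => (Q a).s) (hN : PTU N) (hTs : PTF Ts) (hu : PTF u) (hn : PTF n)
    (hd : PTF d) : PTF fun a => ehatN (Q a) (N a) (Ts a) (u a) (n a) (d a) := by
  have hσ' : PTU (fun p : α × ℕ => (Q p.1).σ) := PTU.comp (n := fun a => (Q a).σ) hσ PTF.fst
  have hs' : PTU (fun p : α × ℕ => (Q p.1).s) := PTU.comp (n := fun a => (Q a).s) hs PTF.fst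
  have hN' : PTU (fun p : α × ℕ => N p.1) := PTU.comp hN PTF.fst
  have hκ : PTU (fun p : α × ℕ => min p.2 (N p.1)) := PTF.natMinUn PTF.snd hN'
  have hTs' : PTF (fun p : α × ℕ => Ts p.1) := PTF.comp hTs PTF.fst
  have hu' : PTF (fun p : α × ℕ => u p.1) := PTF.comp hu PTF.fst
  have hix : PTF fun p : α × ℕ => ixU (Q p.1) (min p.2 (N p.1)) (u p.1) :=
    ptf_ixU (Q := fun p : α × ℕ => Q p.1) hσ' hκ hu'
  have hT : PTF fun p : α × ℕ => (Ts p.1).getD p.2 [] :=
    PtX949.getD PTF.snd hTs' (PTF.const _)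
  have hv : PTF fun p : α × ℕ => ((Ts p.1).getD p.2 []).getD
      (ixU (Q p.1) (min p.2 (N p.1)) (u p.1)) 0 := PtX949.getD hix hT (PTF.const _)
  have hc : PTF fun p : α × ℕ => (Q p.1).cap (min p.2 (N p.1)) :=
    ptf_cap (P := fun p : α × ℕ => Q p.1) hs' hκ
  have h2 : PTF fun p : α × ℕ => 2 ^ (Q p.1).s := PTF.natTwoPow hs'
  unfold ehatN
  have hf : PTF fun a => (List.range (min (n a) (N a))).find? fun i =>
      decide (((Ts a).getD i []).getD (ixU (Q a) (min i (N a)) (u a)) 0 <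
        (Q a).cap (min i (N a))) :=
    PTF.find? (PTF.range (PTF.natMinUn hn hN)) (PTPred.natLt hv hc).toPTF
  exact PtX949.optionElim hf hd (PTF.natDiv hv h2)

/-! ### the start bound -/

theorem ptf_off {m r : α → ℕ} (hm : PTF m) (hr : PTF r) (hu : PTF u) :
    PTF fun a => Gt373.off (m a) (r a) (u a) := by
  unfold Gt373.off GameA347.clip
  have h := NodePT222.ptf_pos hm hr hu
  have h1 : PTF fun n : ℕ => ((n : ℕ) : ℤ) := by fun_prop
  have h2 := PTF.comp h1 h
  have h3 := PTF.comp h1 hr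
  exact PTF.intNatAbs (PTF.intSub hu (PTF.intSub h2 h3))

theorem ptf_U0h {p e : α → ℕ} {v : α → ℤ} (hp : PTF p) (hu : PTF u) (hv : PTF v) (he : PTF e) :
    PTF fun a => U0h (p a) (u a) (v a) (e a) := by
  unfold U0h
  fun_prop

end ptf

end Crest.Agent.R288.InitV663
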