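import Mathlib
import Crest.Agent.R288.InitS_663
import Crest.Agent.R288.InitV_663

/-!
# R288 (S0433), leaf [Init]: the procedure of the start unit (index 0)

* `u0L P p x y h j u v : RT ℕ`: the randomized start unit of helper772 (`P.eh`, `U0h`, `off`);
* `u0L_zero`, `u0L_succ`: it is a sequence of leaf values / of tables `nodeL`, then a pure function;
* `dU tg tU p K F rs`: the step function of the procedure: frame `tU :: tow (phase, h, j, u, v)`;
  entry `entU`; certificate `ptf_dU`, equations `dU_leaf`, `dU_scales`, `dU_one`, `dU_end`.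
-/

set_option autoImplicit false

namespace Crest.Agent.R288.InitW663

open Crest.Agent.R295.Rnd627 Crest.Agent.R295.Rnd627.RT
open Crest.Agent.R288.Init772 Crest.Agent.R288.InitL663 Crest.Agent.R288.InitL663.Par
open Crest.Agent.R288.InitQ663 Crest.Agent.R288.InitS663 Crest.Agent.R288.InitV663
open Crest.Agent.R288.PtY949 Crest.Agent.R295.Pt949 Crest.Agent.R288.Bern775
open Crest.Agent.Lib.PT Crest.Agent.R288.NodeA785

/-! ### the start unit -/

section rt

variable (P : Init772.Par) (x y : List ℕ)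

/-- the offsets -/
def offs (n m h j : ℕ) (u v : ℤ) : ℕ :=
  Gt373.off m (lo n h j) u + Gt373.off m (hi n h j) v

/-- the start unit at all heights -/
noncomputable def u0L (p h j : ℕ) (u v : ℤ) : RT ℕ :=
  if h = 0 then ret ((u - v).natAbs + 2 * mis x y j u + offs x.length y.length h j u v)
  else (P.eh (mis x y) ((h - 1) / P.g) ((h - 1) % P.g) j u).map fun a =>
    U0h p u v a + offs x.length y.length h j u v

theorem nodeL_estHL (bl : ℕ → ℕ → ℤ → ℕ) (q r κ j : ℕ) (z : ℤ) :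
    nodeL P bl q (r + 1) κ j z = estHL P bl q (r + 1) κ j z := by
  unfold nodeL estHL
  have h1 : ¬ (r + 1 = 0) := by omega
  by_cases h2 : κ = 0
  · subst h2; simp
  · simp [h2]

theorem mis_le_one (j : ℕ) (u : ℤ) : mis x y j u ≤ 1 := by
  unfold mis
  split_ifs <;> omega

/-- the oracle -/
def blF (h j : ℕ) (u : ℤ) : ℕ :=
  LeafX222.leafF x y (NodePT222.leafA x.length y.length h j u u 0)

theorem blF_eq (g h j : ℕ) (u : ℤ) : blF x y h j u = min 1 (E g (mis x y) h j u) :=
  (bl_leafF x y g h j u).symm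

theorem blF_zero (j : ℕ) (u : ℤ) : blF x y 0 j u = mis x y j u := by
  rw [blF_eq x y 0, E_zero, min_eq_right (mis_le_one x y j u)]

theorem u0L_zero (p j : ℕ) (u v : ℤ) : u0L P x y p 0 j u v =
    ret ((u - v).natAbs + 2 * blF x y 0 j u + offs x.length y.length 0 j u v) := by
  unfold u0L
  rw [if_pos rfl, blF_zero]

/-- the estimate as a sequence of tables -/
theorem eh_seqL (q r j : ℕ) (u : ℤ) : P.eh (mis x y) q r j u =
    (seqL ((List.range (P.g * q + r + 4)).map fun κ : ℕ =>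
      nodeL P (blF x y) q (r + 1) κ j (u / 2 ^ κ))).map
        fun Ts => ehatL P Ts u (P.g * q + r + 4) 0 := by
  unfold Init772.Par.eh
  refine ehat_seqL P (fun κ z => ?_) u _ 0
  rw [nodeL_estHL]
  exact estHL_eq P (mis_le_one x y) (fun h j u => blF_eq x y P.g h j u) q (r + 1) κ j z

theorem u0L_succ (p h j : ℕ) (u v : ℤ) : u0L P x y p (h + 1) j u v =
    (seqL ((List.range (h + 4)).map fun κ : ℕ =>
      nodeL P (blF x y) (h / P.g) (h % P.g + 1) κ j (u / 2 ^ κ))).map
        fun Ts => U0h p u v (ehatL P Ts u (h + 4) 0) +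
          offs x.length y.length (h + 1) j u v := by
  unfold u0L
  have h1 : P.g * (h / P.g) + h % P.g + 4 = h + 4 := by rw [Nat.div_add_mod]
  rw [if_neg (by omega), Nat.add_sub_cancel, eh_seqL, h1, map_map]

end rt

/-! ### the procedure -/

/-- arguments: height, block, diagonals -/
abbrev AU : Type := Un × ℕ × ℤ × ℤ

/-- frames -/
abbrev FU : Type := ℕ × AU

def argU (h j : ℕ) (u v : ℤ) : AU := (Un.mk h, j, u, v)

def frU (tU ph : ℕ) (a : AU) : List ℕ := tU :: tow ((ph, a) : FU)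

/-- the entry frame -/
def entU (tU h j : ℕ) (u v : ℤ) : List ℕ := frU tU 0 (argU h j u v)

/-- the leaf request -/
def reqL (K : KI) (a : AU) : List (List ℕ) :=
  [3 :: NodePT222.leafA (nK K) (mK K) 0 a.2.1 a.2.2.1 a.2.2.1 0]

/-- the requests for the tables of all scales -/
def reqS (tg : ℕ) (K : KI) (a : AU) : List (List ℕ) :=
  (List.range (min (a.1.val - 1 + 4) (pK K))).map fun κ =>
    4 :: entE tg ((a.1.val - 1) / (parK K).g) ((a.1.val - 1) % (parK K).g + 1) (min κ (pK K))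
      a.2.1 (a.2.2.1 / 2 ^ (min κ (pK K)))

/-- **the step function** -/
def dU (tg tU p : ℕ) (K : KI) (F : FU) (rs : List (List ℕ)) : List ℕ × List (List ℕ) :=
  if F.1 = 0 then
    if F.2.1.val = 0 then (frU tU 1 F.2, reqL K F.2) else (frU tU 2 F.2, reqS tg K F.2)
  else if F.1 = 1 then
    ([(F.2.2.2.1 - F.2.2.2.2).natAbs + 2 * (rs.headD []).headD 0 +
      offs (nK K) (mK K) F.2.1.val F.2.2.1 F.2.2.2.1 F.2.2.2.2], [])
  else
    ([U0h p F.2.2.2.1 F.2.2.2.2 (ehatN (parK K) (pK K) rs F.2.2.2.1 (F.2.1.val - 1 + 4) 0) +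
      offs (nK K) (mK K) F.2.1.val F.2.2.1 F.2.2.2.1 F.2.2.2.2], [])

section ptf

variable {α : Type} [PTCode α] {K : α → KI} {a : α → AU}

theorem ptf_offs {n m h j : α → ℕ} {u v : α → ℤ} (hn : PTF n) (hm : PTF m) (hh : PTF h)
    (hj : PTF j) (hu : PTF u) (hv : PTF v) :
    PTF fun x => offs (n x) (m x) (h x) (j x) (u x) (v x) :=
  PTF.natAdd (ptf_off hm (NodePT222.ptf_lo hn hh hj) hu) (ptf_off hm (NodePT222.ptf_hi hn hh hj) hv)

theorem ptf_frU {tU ph : ℕ} (ha : PTF a) : PTF fun x => frU tU ph (a x) := by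
  unfold frU
  have h : PTF (fun x => ((ph, a x) : FU)) := by fun_prop
  exact PTF.listCons (PTF.const _) (ptf_tow' (α := FU) h)

theorem ptf_entU {tU : ℕ} {h j : α → ℕ} {u v : α → ℤ} (hh : PTU h) (hj : PTF j) (hu : PTF u)
    (hv : PTF v) : PTF fun x => entU tU (h x) (j x) (u x) (v x) := by
  have h1 := PTF.unMk hh
  refine ptf_frU ?_
  unfold argU
  fun_prop

theorem ptu_h (ha : PTF a) : PTU fun x => (a x).1.val :=
  PTU.val (f := fun x => (a x).1) (by fun_prop)

theorem ptf_reqS {tg : ℕ} (hK : PTF K) (ha : PTF a) : PTF fun x => reqS tg (K x) (a x) := by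
  unfold reqS
  have hn : PTU fun x => min ((a x).1.val - 1 + 4) (pK (K x)) :=
    PTU.min (PTU.add (PTU.sub (ptu_h ha) (PTU.const 1)) (PTU.const 4)) (ptu_pK hK)
  refine PTF.map (PTF.range hn) ?_
  have hK' : PTF (fun p : α × ℕ => K p.1) := PTF.comp hK PTF.fst
  have ha' : PTF (fun p : α × ℕ => a p.1) := PTF.comp ha PTF.fst
  have hH : PTU fun p : α × ℕ => (a p.1).1.val - 1 := PTU.sub (ptu_h ha') (PTU.const 1)
  have hg : PTU fun p : α × ℕ => (parK (K p.1)).g := ptu_g hK'
  have hκ : PTU (fun p : α × ℕ => min p.2 (pK (K p.1))) := PTF.natMinUn PTF.snd (ptu_pK hK')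
  have hq : PTU fun p : α × ℕ => ((a p.1).1.val - 1) / (parK (K p.1)).g :=
    PtX949.ptu_div hH hg.toPTF
  have hr : PTU fun p : α × ℕ => ((a p.1).1.val - 1) % (parK (K p.1)).g + 1 :=
    PTU.add (PtX949.ptu_mod hH hg.toPTF) (PTU.const 1)
  have hu : PTF fun p : α × ℕ => (a p.1).2.2.1 := by fun_prop
  exact PTF.listCons (PTF.const 4) (ptf_entE hq hr hκ (by fun_prop)
    (PTF.intEdiv hu (ptf_int2 hκ)))

/-- **the step function is poly-time** -/
theorem ptf_dU {tg tU : ℕ} {p : α → ℕ} {F : α → FU} {rs : α → List (List ℕ)} (hp : PTF p)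
    (hK : PTF K) (hF : PTF F) (hrs : PTF rs) :
    PTF fun x => dU tg tU (p x) (K x) (F x) (rs x) := by
  have ha : PTF fun x => (F x).2 := by fun_prop
  have hu : PTF fun x => (F x).2.2.2.1 := by fun_prop
  have hv : PTF fun x => (F x).2.2.2.2 := by fun_prop
  have hj : PTF fun x => (F x).2.2.1 := by fun_prop
  have hh := ptu_h ha
  have c0 : PTPred fun x => (F x).1 = 0 := by fun_prop
  have c1 : PTPred fun x => (F x).1 = 1 := by fun_prop
  have c2 : PTPred fun x => (F x).2.1.val = 0 := PTU.eq hh (PTU.const 0)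
  have ho : PTF fun x => offs (nK (K x)) (mK (K x)) (F x).2.1.val (F x).2.2.1 (F x).2.2.2.1
      (F x).2.2.2.2 := ptf_offs (ptf_nK hK) (ptf_mK hK) hh.toPTF hj hu hv
  have he : PTF fun x => ehatN (parK (K x)) (pK (K x)) (rs x) (F x).2.2.2.1
      ((F x).2.1.val - 1 + 4) 0 :=
    ptf_ehatN (Q := fun x => parK (K x)) (ptu_σ hK) (ptu_s hK) (ptu_pK hK) hrs hu
      (PTU.add (PTU.sub hh (PTU.const 1)) (PTU.const 4)).toPTF (PTF.const 0)
  have nl : PTF fun _ : α => ([] : List (List ℕ)) := PTF.const _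
  have nn : PTF fun _ : α => ([] : List ℕ) := PTF.const _
  have hl : PTF fun x => NodePT222.leafA (nK (K x)) (mK (K x)) 0 (F x).2.2.1 (F x).2.2.2.1
      (F x).2.2.2.1 0 :=
    NodePT222.ptf_leafA (ptf_nK hK) (ptf_mK hK) (PTF.const _) hj hu hu (PTF.const _)
  unfold dU
  refine PTF.ite c0 (PTF.ite c2 (PTF.prodMk (ptf_frU ha) ?_)
    (PTF.prodMk (ptf_frU ha) (ptf_reqS hK ha))) ?_
  · unfold reqL
    exact PTF.listCons (PTF.listCons (PTF.const 3) hl) nl
  refine PTF.ite c1 (PTF.prodMk (PTF.listCons ?_ nn) nl) (PTF.prodMk (PTF.listCons ?_ nn) nl)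
  · have h1 : PTF fun x => ((rs x).headD []).headD 0 := by fun_prop
    exact PTF.natAdd (PTF.natAdd (PTF.intNatAbs (PTF.intSub hu hv))
      (PTF.natMul (PTF.const 2) h1)) ho
  · exact PTF.natAdd (ptf_U0h hp hu hv he) ho

end ptf

section eqs

variable {tg tU p : ℕ} {K : KI} {h j : ℕ} {u v : ℤ} {rs : List (List ℕ)}

theorem dU_leaf : dU tg tU p K (0, argU 0 j u v) rs =
    (frU tU 1 (argU 0 j u v), reqL K (argU 0 j u v)) := by
  unfold dU argU
  simp

theorem dU_scales : dU tg tU p K (0, argU (h + 1) j u v) rs =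
    (frU tU 2 (argU (h + 1) j u v), reqS tg K (argU (h + 1) j u v)) := by
  unfold dU argU
  simp

theorem dU_one {b : ℕ} : dU tg tU p K (1, argU h j u v) [[b]] =
    ([(u - v).natAbs + 2 * b + offs (nK K) (mK K) h j u v], []) := by
  unfold dU argU
  simp

theorem dU_end : dU tg tU p K (2, argU (h + 1) j u v) rs =
    ([U0h p u v (ehatN (parK K) (pK K) rs u (h + 4) 0) + offs (nK K) (mK K) (h + 1) j u v],
      []) := by
  unfold dU argU
  simp

theorem reqS_eq {H : ℕ} (hN : H + 4 ≤ pK K) : reqS tg K (argU (H + 1) j u v) =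
    (List.range (H + 4)).map fun κ : ℕ =>
      4 :: entE tg (H / (parK K).g) (H % (parK K).g + 1) κ j (u / 2 ^ κ) := by
  unfold reqS argU
  simp only [Nat.add_sub_cancel]
  rw [min_eq_left hN]
  apply List.map_congr_left
  intro κ hκ
  rw [List.mem_range] at hκ
  rw [min_eq_left (by omega : κ ≤ pK K)]

end eqs

end Crest.Agent.R288.InitW663
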