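import Mathlib
import Crest.Agent.R288.InitR_663
import Crest.Agent.R288.InitW_663

/-!
# R288 (S0433), leaf [Init]: the procedure of the estimator realises `nodeL`

`est_Rz`: on the engine of helper940 (with any wrapper `Wr`), the entry frame
`entE tg q r κ j z` realises `nodeL (parK K) (blF x y) q r κ j z`, fuel `fu K d`, cost `CE K CX d`
for `d ≥ dep q r` (`0` for a leaf, `q + 1` otherwise).
-/

set_option autoImplicit false

namespace Crest.Agent.R288.InitZ663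

open Crest.Agent.R295.Rnd627 Crest.Agent.R295.Rnd627.RT
open Crest.Agent.R288.Init772 Crest.Agent.R288.InitL663 Crest.Agent.R288.InitL663.Par
open Crest.Agent.R288.InitQ663 Crest.Agent.R288.InitS663 Crest.Agent.R288.InitR663
open Crest.Agent.R288.InitW663 Crest.Agent.R295.Pt949
open Crest.Agent.Lib.PT Crest.Agent.R288.Phe940

/-- depth of the recursion -/
def dep (q r : ℕ) : ℕ := if r = 0 then 0 else q + 1

/-- the hypotheses: engine, wrapper, parameters, sizes; `HB` bounds heights and scales, `JB` the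
rows, `ZB` the diagonals, `CX` the cost of a leaf call -/
structure HE (P : Prg) (W : Wld) (wr : List ℕ → List ℕ) (kl : ℕ)
    (dl : List ℕ → List (List ℕ) → List ℕ × List (List ℕ)) (tg : ℕ) (K : KI) (x y : List ℕ)
    (HB JB ZB CX : ℕ) : Prop where
  hw : Wr P W wr kl dl
  hdl : ∀ ph a L rs, dl (frE tg ph a L) rs = dE tg K (ph, a, L) rs
  SM : W.S < W.M
  N0 : 0 < W.N
  NM : W.N ≤ W.M
  g1 : 1 ≤ (parK K).g
  J : (parK K).J ≤ (parK K).c + (parK K).g
  p1 : 2 * 2 ^ (parK K).σ + 1 ≤ pK K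
  p2 : 2 ^ (parK K).J + 2 ≤ pK K
  tgM : tg < W.M
  M : ((parK K).J + 2) * 2 ^ ((parK K).c + 2 * (parK K).g) * (2 ^ (parK K).s * 2 ^ HB) * 4 < W.M
  JM : JB < W.M
  ZM : ZB < W.M
  nx : nK K = x.length
  ny : mK K = y.length
  xM : x.length < W.M
  yM : y.length < W.M
  S : (2 ^ (parK K).J + 2 ^ (parK K).σ + 2) * (16 + kl + 2 ^ (parK K).σ) + kl + 28 ≤ W.S
  E : ∀ h j u, W.E (NodePT222.leafA x.length y.length h j u u 0) =
    [LeafX222.leafF x y (NodePT222.leafA x.length y.length h j u u 0)]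
  okE : ∀ h j u, W.okE (NodePT222.leafA x.length y.length h j u u 0)
  cE : ∀ h j u, W.cE (NodePT222.leafA x.length y.length h j u u 0) ≤ CX

/-- admissible arguments -/
structure AB (K : KI) (HB JB ZB q r κ j : ℕ) (z : ℤ) : Prop where
  hr : r ≤ (parK K).g
  hr0 : r = 0 → q = 0
  hh : (parK K).g * q + r ≤ HB
  hκ : κ ≤ HB
  hj : (j + 1) * 2 ^ ((parK K).g * q + r) ≤ JB
  hz : (z.natAbs + dep q r) * 2 ^ κ ≤ ZB

section bounds

variable {P : Prg} {W : Wld} {wr : List ℕ → List ℕ} {kl : ℕ}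
  {dl : List ℕ → List (List ℕ) → List ℕ × List (List ℕ)} {tg : ℕ} {K : KI} {x y : List ℕ}
  {HB JB ZB CX : ℕ} {q r κ j : ℕ} {z : ℤ}

theorem AB.child (hg : 1 ≤ (parK K).g) (h : AB K HB JB ZB q r κ j z) (hr : r ≠ 0) {l : ℕ}
    (hl : l ≤ κ) {c : ℕ} (hc : c < 2 ^ l + 2) (v : ℕ) :
    AB K HB JB ZB (q - 1) (chr (parK K) q) (κ - l) (2 ^ r * j + v % 2 ^ r) (2 ^ l * z - 1 + c) := by
  have hh : (parK K).g * (q - 1) + chr (parK K) q = (parK K).g * q := by
    unfold chr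
    cases q with
    | zero => simp
    | succ q => simp [Nat.mul_add]
  have hd : dep (q - 1) (chr (parK K) q) = q := by
    unfold dep chr
    cases q with
    | zero => simp
    | succ q =>
      have : ¬ (parK K).g = 0 := by omega
      simp [this]
  have hd' : dep q r = q + 1 := by unfold dep; rw [if_neg hr]
  have h1 := h.hh
  have h2 := h.hκ
  refine ⟨?_, ?_, by rw [hh]; omega, by omega, ?_, ?_⟩
  · unfold chr; split_ifs <;> omega
  · intro h0
    unfold chr at h0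
    split_ifs at h0 with h3
    · omega
    · omega
  · rw [hh]
    have h3 : v % 2 ^ r + 1 ≤ 2 ^ r := Nat.mod_lt _ (Nat.two_pow_pos r)
    calc (2 ^ r * j + v % 2 ^ r + 1) * 2 ^ ((parK K).g * q)
        ≤ (2 ^ r * j + 2 ^ r) * 2 ^ ((parK K).g * q) := Nat.mul_le_mul_right _ (by omega)
      _ = (j + 1) * 2 ^ ((parK K).g * q + r) := by rw [pow_add]; ring
      _ ≤ JB := h.hj
  · rw [hd]
    have h3 : (2 ^ l * z - 1 + (c : ℤ)).natAbs ≤ 2 ^ l * z.natAbs + 2 ^ l := by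
      have e1 : (2 ^ l * z - 1 + (c : ℤ)).natAbs ≤ (2 ^ l * z : ℤ).natAbs + ((c : ℤ) - 1).natAbs := by
        have : (2 ^ l * z - 1 + (c : ℤ)) = 2 ^ l * z + ((c : ℤ) - 1) := by ring
        rw [this]
        exact Int.natAbs_add_le _ _
      have e2 : (2 ^ l * z : ℤ).natAbs = 2 ^ l * z.natAbs := by
        rw [Int.natAbs_mul, Int.natAbs_pow]
        rfl
      have e3 : ((c : ℤ) - 1).natAbs ≤ 2 ^ l := by
        have := Nat.one_le_two_pow (n := l)
        omega
      omega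
    have hz := h.hz
    rw [hd'] at hz
    have hk : 2 ^ κ = 2 ^ l * 2 ^ (κ - l) := by rw [← pow_add]; congr 1; omega
    calc ((2 ^ l * z - 1 + (c : ℤ)).natAbs + q) * 2 ^ (κ - l)
        ≤ (2 ^ l * z.natAbs + 2 ^ l + q) * 2 ^ (κ - l) := Nat.mul_le_mul_right _ (by omega)
      _ ≤ (2 ^ l * (z.natAbs + (q + 1))) * 2 ^ (κ - l) := by
          apply Nat.mul_le_mul_right
          have e1 : 1 ≤ 2 ^ l := Nat.one_le_two_pow
          have e2 : 1 * q ≤ 2 ^ l * q := Nat.mul_le_mul_right _ e1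
          have e3 : 2 ^ l * (z.natAbs + (q + 1)) = 2 ^ l * z.natAbs + 2 ^ l * q + 2 ^ l := by ring
          omega
      _ = (z.natAbs + (q + 1)) * 2 ^ κ := by rw [hk]; ring
      _ ≤ ZB := hz

theorem mul_le_of {a b c d : ℕ} (h1 : a ≤ c) (h2 : b ≤ d) : a * b ≤ c * d := Nat.mul_le_mul h1 h2

/-- the constants fit into words -/
theorem HE.big (H : HE P W wr kl dl tg K x y HB JB ZB CX) :
    ((parK K).J + 2) * 2 ^ ((parK K).c + 2 * (parK K).g) * (2 ^ (parK K).s * 2 ^ HB) < W.M ∧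
    2 ^ ((parK K).c + 2 * (parK K).g) < W.M ∧ 2 ^ (parK K).s < W.M ∧ 2 ^ HB < W.M ∧ 4 < W.M := by
  have h1 := H.M
  have a1 : 1 ≤ (parK K).J + 2 := by omega
  have a2 : 1 ≤ 2 ^ ((parK K).c + 2 * (parK K).g) := Nat.one_le_two_pow
  have a3 : 1 ≤ 2 ^ (parK K).s := Nat.one_le_two_pow
  have a4 : 1 ≤ 2 ^ HB := Nat.one_le_two_pow
  generalize 2 ^ ((parK K).c + 2 * (parK K).g) = X1 at *
  generalize 2 ^ (parK K).s = X2 at *
  generalize 2 ^ HB = X3 at *
  generalize (parK K).J + 2 = X0 at *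
  have b1 : X1 ≤ X0 * X1 := Nat.le_mul_of_pos_left _ a1
  have b2 : X2 ≤ X2 * X3 := Nat.le_mul_of_pos_right _ a4
  have b3 : X3 ≤ X2 * X3 := Nat.le_mul_of_pos_left _ a3
  have b4 : 1 ≤ X0 * X1 := Nat.mul_pos a1 a2
  have b5 : 1 ≤ X2 * X3 := Nat.mul_pos a3 a4
  have b6 : X0 * X1 ≤ X0 * X1 * (X2 * X3) := Nat.le_mul_of_pos_right _ b5
  have b7 : X2 * X3 ≤ X0 * X1 * (X2 * X3) := Nat.le_mul_of_pos_left _ b4
  refine ⟨by omega, by omega, by omega, by omega, by omega⟩

theorem HE.hbl (_H : HE P W wr kl dl tg K x y HB JB ZB CX) (h j : ℕ) (u : ℤ) :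
    blF x y h j u ≤ 1 := by
  rw [blF_eq x y 0]
  exact min_le_left _ _

/-- the size bound in two parts -/
theorem HE.sz (H : HE P W wr kl dl tg K x y HB JB ZB CX) :
    (2 ^ (parK K).J + 2) * (16 + kl + 2 ^ (parK K).σ) + 2 ^ (parK K).σ * (16 + kl) + kl + 28
      ≤ W.S := by
  refine le_trans ?_ H.S
  have e : (2 ^ (parK K).J + 2 ^ (parK K).σ + 2) * (16 + kl + 2 ^ (parK K).σ) =
      (2 ^ (parK K).J + 2) * (16 + kl + 2 ^ (parK K).σ) + 2 ^ (parK K).σ * (16 + kl) +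
        2 ^ (parK K).σ * 2 ^ (parK K).σ := by ring
  omega

theorem mu_le (κ : ℕ) : 2 ^ (parK K).mu κ ≤ 2 ^ (parK K).σ :=
  Nat.pow_le_pow_right (by norm_num) (min_le_right _ _)

/-- all frames of the procedure consist of words -/
theorem HE.frame (H : HE P W wr kl dl tg K x y HB JB ZB CX) (h : AB K HB JB ZB q r κ j z)
    {ph l n : ℕ} {A S : List ℕ} (hph : ph ≤ 4) (hl : l ≤ (parK K).J)
    (hn : n ≤ 2 ^ ((parK K).c + (parK K).g)) (hA : A.length ≤ 2 ^ (parK K).σ)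
    (hS : S.length ≤ 2 ^ (parK K).σ) (hA' : ∀ a ∈ A, a < W.M) (hS' : ∀ a ∈ S, a < W.M) :
    ∀ a ∈ frE tg ph (arg q r κ j z) (InitS663.lp l n A S), a < W.M := by
  obtain ⟨b1, b2, b3, b4, b5⟩ := H.big
  have hS0 := H.sz
  have hSM := H.SM
  have hσ2 : 2 ^ (parK K).σ * 1 ≤ 2 ^ (parK K).σ * (16 + kl) := Nat.mul_le_mul_left _ (by omega)
  have e1 : q ≤ (parK K).g * q := Nat.le_mul_of_pos_left _ H.g1
  have e2 := h.hh
  have e3 := h.hr
  have e4 := h.hκ
  have e5 := h.hj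
  have e6 := h.hz
  have hJ := H.J
  have p1 : 2 ^ q ≤ 2 ^ HB := Nat.pow_le_pow_right (by norm_num) (by omega)
  have p2 : 2 ^ r ≤ 2 ^ HB := Nat.pow_le_pow_right (by norm_num) (by omega)
  have p3 : 2 ^ κ ≤ 2 ^ HB := Nat.pow_le_pow_right (by norm_num) (by omega)
  have p4 : 2 ^ l ≤ 2 ^ ((parK K).c + 2 * (parK K).g) :=
    Nat.pow_le_pow_right (by norm_num) (by omega)
  have p5 : 2 ^ ((parK K).c + (parK K).g) ≤ 2 ^ ((parK K).c + 2 * (parK K).g) :=
    Nat.pow_le_pow_right (by norm_num) (by omega)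
  have p6 : (j + 1) * 1 ≤ (j + 1) * 2 ^ ((parK K).g * q + r) :=
    Nat.mul_le_mul_left _ Nat.one_le_two_pow
  have p7 : (z.natAbs + dep q r) * 1 ≤ (z.natAbs + dep q r) * 2 ^ κ :=
    Nat.mul_le_mul_left _ Nat.one_le_two_pow
  have hJM := H.JM
  have hZM := H.ZM
  refine lt_frE H.tgM (by omega) (by omega) (by omega) (by omega) (by omega) (by omega)
    (by omega) (by omega) (by omega) (by omega) hA' hS'

end bounds

/-! ### fuel and cost -/

/-- samples to be drawn -/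
def rem (cg : ℕ) : ℕ → ℕ → ℕ → ℕ
  | 0, _, n => n
  | k + 1, l, n => n + rem cg k (l + 1) (2 ^ (cg - (l + 1)))

/-- cost of the samples to be drawn -/
def co (cg X : ℕ) : ℕ → ℕ → ℕ → ℕ
  | 0, l, n => n * ((2 ^ l + 2) * (X + 1) + 2)
  | k + 1, l, n => n * ((2 ^ l + 2) * (X + 1) + 2) + co cg X k (l + 1) (2 ^ (cg - (l + 1)))

theorem rem_le (cg k l n : ℕ) : rem cg k l n ≤ n + k * 2 ^ cg := by
  induction k generalizing l n with
  | zero => simp [rem]
  | succ k ih =>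
    unfold rem
    have h1 := ih (l + 1) (2 ^ (cg - (l + 1)))
    have h2 : 2 ^ (cg - (l + 1)) ≤ 2 ^ cg := Nat.pow_le_pow_right (by norm_num) (by omega)
    have h3 : (k + 1) * 2 ^ cg = k * 2 ^ cg + 2 ^ cg := by ring
    omega

theorem co_le (cg X k l : ℕ) (h : l + k ≤ cg) :
    co cg X k l (2 ^ (cg - l)) ≤ (k + 1) * (2 ^ cg * (3 * X + 5)) := by
  have key : ∀ l ≤ cg, 2 ^ (cg - l) * ((2 ^ l + 2) * (X + 1) + 2) ≤ 2 ^ cg * (3 * X + 5) := by
    intro l hl
    have e1 : 2 ^ cg = 2 ^ (cg - l) * 2 ^ l := by rw [← pow_add]; congr 1; omega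
    have e2 : 1 ≤ 2 ^ l := Nat.one_le_two_pow
    rw [e1, mul_assoc]
    apply Nat.mul_le_mul_left
    have e3 : (2 ^ l + 2) * (X + 1) ≤ (3 * 2 ^ l) * (X + 1) := Nat.mul_le_mul_right _ (by omega)
    calc (2 ^ l + 2) * (X + 1) + 2 ≤ (3 * 2 ^ l) * (X + 1) + 2 * 2 ^ l := by omega
      _ = 2 ^ l * (3 * X + 5) := by ring
  induction k generalizing l with
  | zero =>
    unfold co
    rw [zero_add, one_mul]
    exact key l (by omega)
  | succ k ih =>
    unfold co
    have h1 := ih (l + 1) (by omega)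
    have h2 := key l (by omega)
    have h3 : (k + 1 + 1) * (2 ^ cg * (3 * X + 5)) =
        2 ^ cg * (3 * X + 5) + (k + 1) * (2 ^ cg * (3 * X + 5)) := by ring
    rw [h3]
    exact Nat.add_le_add h2 h1

/-- fuel -/
def fu (K : KI) (d : ℕ) : ℕ := (2 * (((parK K).J + 1) * 2 ^ ((parK K).c + (parK K).g)) + 2) * d + 2

/-- cost -/
def CE (K : KI) (CX : ℕ) : ℕ → ℕ
  | 0 => 2 ^ (parK K).σ * (CX + 1)
  | d + 1 => CE K CX d + 2 +
      ((parK K).J + 1) * (2 ^ ((parK K).c + (parK K).g) * (3 * CE K CX d + 5))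

theorem CE_mono (K : KI) (CX : ℕ) {d d' : ℕ} (h : d ≤ d') : CE K CX d ≤ CE K CX d' := by
  induction h with
  | refl => exact le_rfl
  | @step m _ ih =>
    refine ih.trans ?_
    show CE K CX m ≤ CE K CX m + 2 + _
    omega

theorem fu_mono (K : KI) {d d' : ℕ} (h : d ≤ d') : fu K d ≤ fu K d' := by
  unfold fu
  have := Nat.mul_le_mul_left (2 * (((parK K).J + 1) * 2 ^ ((parK K).c + (parK K).g)) + 2) h
  omega

/-- closed form of the cost -/
theorem CE_le (K : KI) (CX d : ℕ) : CE K CX d + 1 ≤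
    (10 * (((parK K).J + 1) * 2 ^ ((parK K).c + (parK K).g))) ^ d *
      (2 ^ (parK K).σ * (CX + 1) + 1) := by
  induction d with
  | zero => simp [CE]
  | succ d ih =>
    set R := ((parK K).J + 1) * 2 ^ ((parK K).c + (parK K).g) with hR
    have hR1 : 1 ≤ R := Nat.mul_pos (by omega) (Nat.two_pow_pos _)
    have h1 : CE K CX (d + 1) + 1 ≤ 10 * R * (CE K CX d + 1) := by
      have e1 : CE K CX (d + 1) = CE K CX d + 2 + R * (3 * CE K CX d + 5) := by
        rw [hR, mul_assoc]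
        rfl
      rw [e1]
      generalize CE K CX d = c
      have e2 : c + 3 ≤ R * (c + 3) := Nat.le_mul_of_pos_left _ hR1
      have e3 : 10 * R * (c + 1) = R * (c + 3) + R * (9 * c + 7) := by ring
      have e4 : R * (3 * c + 5) ≤ R * (9 * c + 7) := Nat.mul_le_mul_left _ (by omega)
      omega
    refine h1.trans ?_
    rw [pow_succ]
    calc 10 * R * (CE K CX d + 1) ≤ 10 * R * ((10 * R) ^ d * (2 ^ (parK K).σ * (CX + 1) + 1)) :=
          Nat.mul_le_mul_left _ ih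
      _ = _ := by ring

/-! ### the word step -/

section main

variable {P : Prg} {W : Wld} {wr : List ℕ → List ℕ} {kl : ℕ}
  {dl : List ℕ → List (List ℕ) → List ℕ × List (List ℕ)} {tg : ℕ} {K : KI} {x y : List ℕ}
  {HB JB ZB CX : ℕ} {q r κ j : ℕ} {z : ℤ}

/-- a phase which asks one word -/
theorem word_step (hw : Wr P W wr kl dl) (hSM : W.S < W.M) (hN : 0 < W.N) (hNM : W.N ≤ W.M)
    {g f' : List ℕ} {rs : List (List ℕ)} {n C : ℕ} {F : ℕ → RT (List ℕ)}
    (h : dl g rs = (f', [[0]])) (hl : f'.length + 2 * kl + 20 ≤ W.S) (hf : ∀ a ∈ f', a < W.M)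
    (hk : ∀ v < W.N, Rz P W n (wr f') [[v]] (F v) C) :
    Rz P W (n + 1) (wr g) rs (rnd F) (2 + C) := by
  have h1 : Rqs P W n ([[0]].map (wq wr))
      ((RT.draw.map fun r => [r]).bind fun u => (ret []).bind fun us => ret (u :: us)) (1 + 0 + 1) :=
    Rqs.cons (Rq.word rfl) Rqs.nil
  have h2 := hw.stepR hSM hN (k := fun us => F ((us.headD []).headD 0))
    (Q := fun us => ∃ v < W.N, us = [[v]]) h (by simp) h1
    (by
      show ∀ v < W.N, _
      intro v hv
      exact ⟨v, hv, rfl⟩)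
    (fun us hus => by
      obtain ⟨v, hv, rfl⟩ := hus
      refine ⟨?_, hf, ?_, ?_⟩
      · simp [fl]
        omega
      · intro q hq a ha
        simp only [List.mem_singleton] at hq
        subst hq
        simp only [List.mem_singleton] at ha
        omega
      · intro u hu a ha
        simp only [List.mem_singleton] at hu
        subst hu
        simp only [List.mem_singleton] at ha
        omega)
    (fun us hus => by
      obtain ⟨v, hv, rfl⟩ := hus
      exact hk v hv)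
  exact h2

end main

end Crest.Agent.R288.InitZ663
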