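import Mathlib
import Crest.Agent.R288.InitZ_663

/-!
# R288 (S0433), leaf [Init]: the procedure of the estimator realises `nodeL` (main part)

* `base_Rz`: a leaf (`r = 0` or `κ = 0`);
* `loop_Rz`: the loop over the samples and the layers;
* **`est_Rz`**: the entry frame realises `nodeL (parK K) (blF x y) q r κ j z`.
-/

set_option autoImplicit false

namespace Crest.Agent.R288.InitZ663

open Crest.Agent.R295.Rnd627 Crest.Agent.R295.Rnd627.RT
open Crest.Agent.R288.Init772 Crest.Agent.R288.InitL663 Crest.Agent.R288.InitL663.Par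
open Crest.Agent.R288.InitQ663 Crest.Agent.R288.InitS663 Crest.Agent.R288.InitR663
open Crest.Agent.R288.InitW663 Crest.Agent.R295.Pt949
open Crest.Agent.Lib.PT Crest.Agent.R288.Phe940

variable {P : Prg} {W : Wld} {wr : List ℕ → List ℕ} {kl : ℕ}
  {dl : List ℕ → List (List ℕ) → List ℕ × List (List ℕ)} {tg : ℕ} {K : KI} {x y : List ℕ}
  {HB JB ZB CX : ℕ} {q r κ j : ℕ} {z : ℤ}

/-! ### the base case -/

/-- the leaf values -/
def lvs (K : KI) (x y : List ℕ) (h κ j : ℕ) (z : ℤ) : List (List ℕ) :=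
  (gridN (pK K) (parK K) κ z).map fun u => [blF x y h j u]

theorem lvs_blT (hp : 2 * 2 ^ (parK K).σ + 1 ≤ pK K) (h κ j : ℕ) (z : ℤ) :
    (lvs K x y h κ j z).map (fun t => 2 ^ (parK K).s * t.headD 0) =
      blT (parK K) (blF x y) h κ j z := by
  unfold lvs blT
  rw [List.map_map, ← gridN_eq hp]
  rfl

theorem HE.reqB_eq (H : HE P W wr kl dl tg K x y HB JB ZB CX) :
    reqB K (arg q r κ j z) = (gridN (pK K) (parK K) κ z).map fun u =>
      3 :: NodePT222.leafA x.length y.length ((parK K).g * q + r) j u u 0 := by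
  unfold reqB
  rw [H.nx, H.ny]
  rfl

theorem HE.reqB_wq (H : HE P W wr kl dl tg K x y HB JB ZB CX) :
    (reqB K (arg q r κ j z)).map (wq wr) = (gridN (pK K) (parK K) κ z).map fun u =>
      3 :: NodePT222.leafA x.length y.length ((parK K).g * q + r) j u u 0 := by
  rw [H.reqB_eq, List.map_map]
  apply List.map_congr_left
  intro u _
  simp [wq]

theorem HE.base (H : HE P W wr kl dl tg K x y HB JB ZB CX) (h : AB K HB JB ZB q r κ j z)
    (h0 : r = 0 ∨ κ = 0) (L : LE) :
    Rz P W 2 (wr (frE tg 0 (arg q r κ j z) L)) [] (nodeL (parK K) (blF x y) q r κ j z)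
      (CE K CX 0) := by
  obtain ⟨b1, b2, b3, b4, b5⟩ := H.big
  have hS := H.sz
  have hSM := H.SM
  have hmu := mu_le (K := K) κ
  have hσ2 : 2 ^ (parK K).σ * (16 + kl) = 16 * 2 ^ (parK K).σ + 2 ^ (parK K).σ * kl := by ring
  have hJ1 : 1 ≤ 2 ^ (parK K).J := Nat.one_le_two_pow
  have hS3 : 3 * (16 + kl + 2 ^ (parK K).σ) ≤
      (2 ^ (parK K).J + 2) * (16 + kl + 2 ^ (parK K).σ) := Nat.mul_le_mul_right _ (by omega)
  have hσ0 : 1 ≤ 2 ^ (parK K).σ := Nat.one_le_two_pow
  have hlen : (gridN (pK K) (parK K) κ z).length = 2 ^ (parK K).mu κ := length_gridN H.p1 κ z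
  have e1 : nodeL (parK K) (blF x y) q r κ j z =
      ret (blT (parK K) (blF x y) ((parK K).g * q + r) κ j z) := by
    unfold nodeL
    rw [if_pos h0]
  rw [e1, ← lvs_blT H.p1]
  set hh := (parK K).g * q + r with hhh
  -- the second phase
  have h2 : Rz P W 1 (wr (frE tg 1 (arg q r κ j z) (InitS663.lp 0 0 [] [])))
      (lvs K x y hh κ j z) (ret ((lvs K x y hh κ j z).map
        (fun t => 2 ^ (parK K).s * t.headD 0))) 0 := by
    have hδ : dl (frE tg 1 (arg q r κ j z) (InitS663.lp 0 0 [] [])) (lvs K x y hh κ j z) =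
        ((lvs K x y hh κ j z).map (fun t => 2 ^ (parK K).s * t.headD 0), []) := by
      rw [H.hdl, dE_tab]
    refine H.hw.stopR (n := 0) hδ ⟨?_, ?_⟩
    · rw [lvs_blT H.p1, (blT_ok (parK K) H.hbl hh κ j z).1]
      omega
    · intro a ha
      rw [lvs_blT H.p1] at ha
      have h3 := (blT_ok (parK K) H.hbl hh κ j z).2 a ha
      have h4 : (parK K).cap κ ≤ 2 ^ (parK K).s * 2 ^ HB :=
        Nat.mul_le_mul_left _ (Nat.pow_le_pow_right (by norm_num) h.hκ)
      have h5 : 2 ^ (parK K).s * 2 ^ HB ≤ ((parK K).J + 2) *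
          2 ^ ((parK K).c + 2 * (parK K).g) * (2 ^ (parK K).s * 2 ^ HB) :=
        Nat.le_mul_of_pos_left _ (Nat.mul_pos (by omega) (Nat.two_pow_pos _))
      omega
  have h3 : Rqs P W 1 ((reqB K (arg q r κ j z)).map (wq wr)) (ret (lvs K x y hh κ j z))
      ((gridN (pK K) (parK K) κ z).length * (CX + 1)) := by
    rw [H.reqB_wq]
    refine Rqs.map_ret_le (gridN (pK K) (parK K) κ z) _ (fun u => [blF x y hh j u]) CX
      fun u _ => ?_
    have h4 := Rq.ext (P := P) (W := W) (n := 1) (q := 3 :: NodePT222.leafA x.length y.length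
      ((parK K).g * q + r) j u u 0) rfl (H.okE _ _ _)
    rw [List.tail_cons, H.E] at h4
    exact h4.mono le_rfl (H.cE _ _ _)
  have hδ : dl (frE tg 0 (arg q r κ j z) L) [] =
      (frE tg 1 (arg q r κ j z) (InitS663.lp 0 0 [] []), reqB K (arg q r κ j z)) := by
    rw [H.hdl, dE_base h0]
  refine (H.hw.step_retR (n := 1) hSM hδ ?_ h3 ?_ h2).mono le_rfl ?_
  · rw [H.reqB_eq]
    intro h7
    have h8 := congrArg List.length h7
    rw [List.length_map, hlen, List.length_nil] at h8
    have := Nat.two_pow_pos ((parK K).mu κ)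
    omega
  · rw [H.reqB_eq]
    refine ⟨?_, ?_, ?_, ?_⟩
    · have g1 : (fl ((gridN (pK K) (parK K) κ z).map fun u =>
          3 :: NodePT222.leafA x.length y.length ((parK K).g * q + r) j u u 0)).length ≤
          2 ^ (parK K).mu κ * (6 + 1) := by
        refine (fl_len_le (R := 6) fun r hr => ?_).trans (by rw [List.length_map, hlen])
        rw [List.mem_map] at hr
        obtain ⟨u, _, rfl⟩ := hr
        rw [List.length_cons, NodePT222.leafA_length]
      have g2 : (fl (lvs K x y hh κ j z)).length ≤ 2 ^ (parK K).mu κ * (1 + 1) := by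
        refine (fl_len_le (R := 1) fun r hr => ?_).trans (by
          unfold lvs
          rw [List.length_map, hlen])
        unfold lvs at hr
        rw [List.mem_map] at hr
        obtain ⟨u, _, rfl⟩ := hr
        simp
      rw [length_frE, List.length_map, hlen]
      simp only [List.length_nil]
      have g3 : 2 ^ (parK K).mu κ * kl ≤ 2 ^ (parK K).σ * kl := Nat.mul_le_mul_right _ hmu
      omega
    · exact H.frame h (by omega) (Nat.zero_le _) (Nat.zero_le _) (by simp) (by simp) (by simp)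
        (by simp)
    · intro q' hq' a ha
      rw [List.mem_map] at hq'
      obtain ⟨u, _, rfl⟩ := hq'
      rw [List.mem_cons] at ha
      rcases ha with rfl | ha
      · omega
      · exact NodePT222.leafA_lt H.xM H.yM (by omega) a ha
    · intro u hu a ha
      unfold lvs at hu
      rw [List.mem_map] at hu
      obtain ⟨w, _, rfl⟩ := hu
      rw [List.mem_singleton] at ha
      subst ha
      have := H.hbl hh j w
      omega
  · rw [hlen, Nat.add_zero]
    exact Nat.mul_le_mul_right _ hmu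

/-! ### the windows of a child -/

/-- requests for the tables of the child -/
theorem HE.reqW_eq (H : HE P W wr kl dl tg K x y HB JB ZB CX) {l : ℕ} (hl : l ≤ (parK K).J)
    (v : ℕ) : reqW tg K (arg q r κ j z) l v = (List.range (2 ^ l + 2)).map fun c : ℕ =>
      4 :: entE tg (q - 1) (chr (parK K) q) (κ - l) (2 ^ r * j + v % 2 ^ r)
        (2 ^ l * z - 1 + c) := by
  have h1 : 2 ^ l + 2 ≤ pK K := by
    have := Nat.pow_le_pow_right (n := 2) (by norm_num) hl
    have := H.p2
    omega
  unfold reqW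
  rw [show (arg q r κ j z).2.2.2.2 = z from rfl, winN_eq h1, List.map_map]
  rfl

/-- the children of a sample -/
def chd (K : KI) (x y : List ℕ) (q r κ j : ℕ) (z : ℤ) (l v : ℕ) (c : ℕ) : RT (List ℕ) :=
  estL (parK K) (blF x y) q (κ - l) (2 ^ r * j + v % 2 ^ r) (2 ^ l * z - 1 + c)

/-- the tables of a sample -/
def Qw (K : KI) (κ l : ℕ) (ws : List (List ℕ)) : Prop :=
  ws.length = 2 ^ l + 2 ∧ ∀ T ∈ ws, TOk (parK K) (κ - l) T

theorem HE.estL_All (H : HE P W wr kl dl tg K x y HB JB ZB CX) (M q κ j : ℕ) (z : ℤ) :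
    (estL (parK K) (blF x y) q κ j z).All M (TOk (parK K) κ) := by
  rw [estL_node (parK K) H.g1]
  exact nodeL_All (parK K) M H.hbl _ _ _ _ _

/-- the values in the frames are small -/
theorem HE.val_lt (H : HE P W wr kl dl tg K x y HB JB ZB CX) (hκ : κ ≤ HB) {a : ℕ}
    (ha : a ≤ ((parK K).J + 2) * 2 ^ ((parK K).c + 2 * (parK K).g) * (parK K).cap κ) :
    a < W.M := by
  have h1 := H.big.1
  have h2 : (parK K).cap κ ≤ 2 ^ (parK K).s * 2 ^ HB :=
    Nat.mul_le_mul_left _ (Nat.pow_le_pow_right (by norm_num) hκ)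
  exact lt_of_le_of_lt (ha.trans (Nat.mul_le_mul_left _ h2)) h1

theorem HE.window (H : HE P W wr kl dl tg K x y HB JB ZB CX) (h : AB K HB JB ZB q r κ j z)
    (hr : r ≠ 0) {l : ℕ} (hlκ : l ≤ κ) (hlJ : l ≤ (parK K).J) {v n cnt X C' : ℕ}
    {A S : List ℕ} {G : List (List ℕ) → RT (List ℕ)}
    (hn : cnt ≤ 2 ^ ((parK K).c + (parK K).g)) (hA : A.length = 2 ^ (parK K).mu κ)
    (hS : S.length = 2 ^ (parK K).mu κ) (hA' : ∀ a ∈ A, a < W.M) (hS' : ∀ a ∈ S, a < W.M)
    (hch : ∀ c < 2 ^ l + 2, Rz P W n (wr (entE tg (q - 1) (chr (parK K) q) (κ - l)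
      (2 ^ r * j + v % 2 ^ r) (2 ^ l * z - 1 + (c : ℕ)))) [] (chd K x y q r κ j z l v c) X)
    (hk : ∀ ws, Qw K κ l ws → Rz P W n (wr (frE tg 3 (arg q r κ j z)
      (InitS663.lp l cnt A S))) ws (G ws) C') :
    Rz P W (n + 1) (wr (frE tg 2 (arg q r κ j z) (InitS663.lp l cnt A S))) [[v]]
      ((Bern775.seqL ((List.range (2 ^ l + 2)).map (chd K x y q r κ j z l v))).bind G)
      ((2 ^ l + 2) * (X + 1) + C') := by
  obtain ⟨b1, b2, b3, b4, b5⟩ := H.big
  have hS0 := H.sz
  have hSM := H.SM
  have hmu := mu_le (K := K) κ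
  have hmu' := mu_le (K := K) (κ - l)
  have hσ2 : 2 ^ (parK K).σ * (16 + kl) = 16 * 2 ^ (parK K).σ + 2 ^ (parK K).σ * kl := by ring
  have hσ0 : 1 ≤ 2 ^ (parK K).σ := Nat.one_le_two_pow
  have hδ : dl (frE tg 2 (arg q r κ j z) (InitS663.lp l cnt A S)) [[v]] =
      (frE tg 3 (arg q r κ j z) (InitS663.lp l cnt A S), reqW tg K (arg q r κ j z) l v) := by
    rw [H.hdl, dE_word]
    rfl
  have hts : Rqs P W n ((reqW tg K (arg q r κ j z) l v).map (wq wr))
      (Alg45.seqL ((List.range (2 ^ l + 2)).map (chd K x y q r κ j z l v)))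
      ((2 ^ l + 2) * (X + 1)) := by
    rw [H.reqW_eq hlJ, List.map_map]
    have h1 := Rqs.map_le (P := P) (W := W) (n := n) (List.range (2 ^ l + 2))
      (wq wr ∘ fun c : ℕ => 4 :: entE tg (q - 1) (chr (parK K) q) (κ - l)
        (2 ^ r * j + v % 2 ^ r) (2 ^ l * z - 1 + c)) (chd K x y q r κ j z l v) X
      (fun c hc => by
        rw [List.mem_range] at hc
        refine Rq.call (P := P) (W := W) ?_ ?_ ?_
        · simp [wq, kq]
        · simp [wq, kq]
        · simpa [wq] using hch c hc)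
    rwa [List.length_range] at h1
  rw [← seqL_eq]
  refine H.hw.stepR hSM H.N0 (Q := Qw K κ l) hδ ?_ hts ?_ ?_ hk
  · rw [H.reqW_eq hlJ]
    simp
  · rw [seqL_eq]
    have g1 : ∀ t ∈ (List.range (2 ^ l + 2)).map (chd K x y q r κ j z l v),
        t.All W.N (TOk (parK K) (κ - l)) := by
      intro t ht
      rw [List.mem_map] at ht
      obtain ⟨c, _, rfl⟩ := ht
      exact H.estL_All _ _ _ _ _
    refine ((Bern775.length_seqL _).and (Bern775.All_seqL g1)).mono fun ws hws => ⟨?_, hws.2⟩
    rw [hws.1]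
    simp
  · intro ws hws
    rw [H.reqW_eq hlJ]
    refine ⟨?_, ?_, ?_, ?_⟩
    · have g1 : (fl ((List.range (2 ^ l + 2)).map fun c : ℕ =>
          4 :: entE tg (q - 1) (chr (parK K) q) (κ - l) (2 ^ r * j + v % 2 ^ r)
            (2 ^ l * z - 1 + c))).length ≤ (2 ^ l + 2) * (13 + 1) := by
        refine (fl_len_le (R := 13) fun r hr => ?_).trans (by simp)
        rw [List.mem_map] at hr
        obtain ⟨u, _, rfl⟩ := hr
        rw [List.length_cons, entE, length_frE]
        simp
      have g2 : (fl ws).length ≤ (2 ^ l + 2) * (2 ^ (parK K).σ + 1) := by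
        refine (fl_len_le (R := 2 ^ (parK K).σ) fun T hT => ?_).trans (by rw [hws.1])
        rw [(hws.2 T hT).1]
        exact hmu'
      have g3 : (2 ^ l + 2) * (16 + kl + 2 ^ (parK K).σ) ≤
          (2 ^ (parK K).J + 2) * (16 + kl + 2 ^ (parK K).σ) :=
        Nat.mul_le_mul_right _ (by
          have := Nat.pow_le_pow_right (n := 2) (by norm_num) hlJ
          omega)
      have g4 : (2 ^ l + 2) * (16 + kl + 2 ^ (parK K).σ) = (2 ^ l + 2) * (13 + 1) +
          (2 ^ l + 2) * kl + (2 ^ l + 2) * (2 ^ (parK K).σ + 1) + (2 ^ l + 2) := by ring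
      rw [length_frE, List.length_map, List.length_range, hA, hS]
      omega
    · exact H.frame h (by omega) hlJ hn (by omega) (by omega) hA' hS'
    · intro q' hq' a ha
      rw [List.mem_map] at hq'
      obtain ⟨c, hc, rfl⟩ := hq'
      rw [List.mem_range] at hc
      rw [List.mem_cons] at ha
      rcases ha with rfl | ha
      · omega
      · exact H.frame (h.child H.g1 hr hlκ hc v) (by omega) (Nat.zero_le _) (Nat.zero_le _)
          (by simp) (by simp) (by simp) (by simp) a ha
    · intro T hT a ha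
      refine H.val_lt (κ := κ - l) (by have := h.hκ; omega) ?_
      exact ((hws.2 T hT).2 a ha).trans (Nat.le_mul_of_pos_left _
        (Nat.mul_pos (by omega) (Nat.two_pow_pos _)))

/-! ### the loop -/

theorem rem_succ (cg k l n : ℕ) : rem cg k l (n + 1) = rem cg k l n + 1 := by
  cases k with
  | zero => rfl
  | succ k => unfold rem; omega

theorem co_succ (cg X k l n : ℕ) :
    co cg X k l (n + 1) = (2 ^ l + 2) * (X + 1) + 2 + co cg X k l n := by
  cases k with
  | zero => unfold co; ring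
  | succ k => unfold co; ring

theorem AB.smps_eq (h : AB K HB JB ZB q r κ j z) (l : ℕ) :
    smps K (arg q r κ j z) l = 2 ^ ((parK K).c + (parK K).g - l) := by
  have h1 := h.hr
  unfold smps
  have h2 : (((parK K).up (arg q r κ j z).2.1.val).c + (arg q r κ j z).2.1.val - l) =
      (parK K).c + (parK K).g - l := by
    show (parK K).c + ((parK K).g - r) + r - l = _
    omega
  rw [h2]

/-- a sampled child, as in `stepL` -/
def CLq (K : KI) (x y : List ℕ) (q r j : ℕ) : ℕ → ℕ → ℤ → RT (List ℕ) :=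
  fun κ' i z' => estL (parK K) (blF x y) q κ' (2 ^ r * j + i) z'

theorem winL_eq (k l cnt : ℕ) (A S : List ℕ) (v : ℕ) :
    winL ((parK K).up r) (CLq K x y q r j) r κ z k l cnt A S v =
      (Bern775.seqL ((List.range (2 ^ l + 2)).map (chd K x y q r κ j z l v))).bind fun ws =>
        restL ((parK K).up r) (CLq K x y q r j) r κ z k l cnt A
          (addL S (locL (parK K) κ l ws.flatten)) := rfl

theorem HE.sumS_eq (H : HE P W wr kl dl tg K x y HB JB ZB CX) (l n : ℕ) (A S : List ℕ)
    (ws : List (List ℕ)) : sumS K (arg q r κ j z) (InitS663.lp l n A S) ws =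
      addL S (locL (parK K) κ l ws.flatten) := by
  unfold sumS
  rw [locN_eq H.p1]
  rfl

theorem HE.sumA_eq (H : HE P W wr kl dl tg K x y HB JB ZB CX) (l n : ℕ) (A S : List ℕ)
    (ws : List (List ℕ)) : sumA K (arg q r κ j z) (InitS663.lp l n A S) ws =
      layL ((parK K).up r) l A (addL S (locL (parK K) κ l ws.flatten)) := by
  unfold sumA
  rw [H.sumS_eq]
  rfl

/-- invariant of the loop: `A` is the sum of `l` layers, `n` samples of the layer remain -/
structure LInv (K : KI) (κ l n : ℕ) (A S : List ℕ) : Prop where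
  lA : A.length = 2 ^ (parK K).mu κ
  lS : S.length = 2 ^ (parK K).mu κ
  cn : n ≤ 2 ^ ((parK K).c + (parK K).g - l)
  bA : ∀ a ∈ A, a ≤ l * (2 ^ (parK K).g * (parK K).cap κ)
  bS : ∀ a ∈ S, a + n * (parK K).cap κ ≤ 2 ^ ((parK K).c + (parK K).g - l) * (parK K).cap κ

theorem HE.inv_A (H : HE P W wr kl dl tg K x y HB JB ZB CX) (hκ : κ ≤ HB) {l n : ℕ}
    {A S : List ℕ} (hl : l ≤ (parK K).J) (I : LInv K κ l n A S) : ∀ a ∈ A, a < W.M := by
  intro a ha
  refine H.val_lt hκ ((I.bA a ha).trans ?_)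
  rw [← mul_assoc]
  apply Nat.mul_le_mul_right
  exact Nat.mul_le_mul (by omega) (Nat.pow_le_pow_right (by norm_num) (by omega))

theorem HE.inv_S (H : HE P W wr kl dl tg K x y HB JB ZB CX) (hκ : κ ≤ HB) {l n : ℕ}
    {A S : List ℕ} (I : LInv K κ l n A S) : ∀ a ∈ S, a < W.M := by
  intro a ha
  refine H.val_lt hκ (((Nat.le_add_right _ _).trans (I.bS a ha)).trans ?_)
  apply Nat.mul_le_mul_right
  calc 2 ^ ((parK K).c + (parK K).g - l) ≤ 2 ^ ((parK K).c + 2 * (parK K).g) :=
        Nat.pow_le_pow_right (by norm_num) (by omega)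
    _ ≤ _ := Nat.le_mul_of_pos_left _ (by omega)

/-- one more sample -/
theorem LInv.add {l n : ℕ} {A S : List ℕ} (I : LInv K κ l (n + 1) A S) (ws : List (List ℕ)) :
    LInv K κ l n A (addL S (locL (parK K) κ l ws.flatten)) where
  lA := I.lA
  lS := by rw [length_addL, I.lS, length_locL, min_self]
  cn := (Nat.le_succ n).trans I.cn
  bA := I.bA
  bS := by
    intro a ha
    unfold addL at ha
    rw [List.mem_iff_getElem] at ha
    obtain ⟨i, hi, rfl⟩ := ha
    rw [List.getElem_zipWith]
    have h1 := I.bS _ (List.getElem_mem (l := S) (by simp at hi; omega) : S[i]'(by simp at hi; omega) ∈ S)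
    have h2 := locL_le (parK K) κ l ws.flatten _ (List.getElem_mem (by simp at hi; omega) :
      (locL (parK K) κ l ws.flatten)[i]'(by simp at hi; omega) ∈ _)
    rw [Nat.add_mul, Nat.one_mul] at h1
    omega

/-- the layer is finished -/
theorem LInv.layer {l : ℕ} {A S : List ℕ} (hr : r ≤ (parK K).g) (hl : l ≤ (parK K).c + (parK K).g)
    (I : LInv K κ l 0 A S) :
    (layL ((parK K).up r) l A S).length = 2 ^ (parK K).mu κ ∧
    ∀ a ∈ layL ((parK K).up r) l A S, a ≤ (l + 1) * (2 ^ (parK K).g * (parK K).cap κ) := by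
  refine ⟨by rw [length_layL, I.lA, I.lS, min_self], ?_⟩
  intro a ha
  have h1 := layL_le ((parK K).up r) (l := l) I.bA
    (c := 2 ^ ((parK K).c + (parK K).g - l) * (parK K).cap κ)
    (fun a ha => (Nat.le_add_right _ _).trans (I.bS a ha)) a ha
  refine h1.trans ?_
  have h2 : 2 ^ l * (2 ^ ((parK K).c + (parK K).g - l) * (parK K).cap κ) =
      2 ^ ((parK K).up r).c * (2 ^ r * (parK K).cap κ) := by
    have e1 : ((parK K).up r).c = (parK K).c + ((parK K).g - r) := rfl
    rw [e1, ← mul_assoc, ← mul_assoc, ← pow_add, ← pow_add]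
    congr 2
    omega
  rw [h2, Nat.mul_div_cancel_left _ (Nat.two_pow_pos _), Nat.add_mul, Nat.one_mul]
  apply Nat.add_le_add_left
  exact Nat.mul_le_mul_right _ (Nat.pow_le_pow_right (by norm_num) hr)

theorem LInv.start {l : ℕ} {A : List ℕ} (hA : A.length = 2 ^ (parK K).mu κ)
    (hA' : ∀ a ∈ A, a ≤ l * (2 ^ (parK K).g * (parK K).cap κ)) :
    LInv K κ l (2 ^ ((parK K).c + (parK K).g - l)) A (zerosL (parK K) κ) where
  lA := hA
  lS := length_zerosL _ _
  cn := le_rfl
  bA := hA'
  bS := by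
    intro a ha
    have := zerosL_le (parK K) κ 0 a ha
    omega

/-- **the loop** -/
theorem HE.loop (H : HE P W wr kl dl tg K x y HB JB ZB CX) (h : AB K HB JB ZB q r κ j z)
    (hr : r ≠ 0) {fd X : ℕ}
    (hch : ∀ l ≤ κ, ∀ c < 2 ^ l + 2, ∀ v, Rz P W fd (wr (entE tg (q - 1) (chr (parK K) q) (κ - l)
      (2 ^ r * j + v % 2 ^ r) (2 ^ l * z - 1 + (c : ℕ)))) [] (chd K x y q r κ j z l v c) X) :
    ∀ k l cnt (A S : List ℕ) (v : ℕ), l + k = min κ (parK K).J → LInv K κ l (cnt + 1) A S →
      Rz P W (2 * rem ((parK K).c + (parK K).g) k l (cnt + 1) + fd)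
        (wr (frE tg 2 (arg q r κ j z) (InitS663.lp l (cnt + 1) A S))) [[v]]
        (winL ((parK K).up r) (CLq K x y q r j) r κ z k l cnt A S v)
        (co ((parK K).c + (parK K).g) X k l (cnt + 1)) := by
  obtain ⟨b1, b2, b3, b4, b5⟩ := H.big
  have hS0 := H.sz
  have hSM := H.SM
  have hmu := mu_le (K := K) κ
  have hσ2 : 2 ^ (parK K).σ * (16 + kl) = 16 * 2 ^ (parK K).σ + 2 ^ (parK K).σ * kl := by ring
  have hσ0 : 1 ≤ 2 ^ (parK K).σ := Nat.one_le_two_pow
  have hJ1 : 1 ≤ 2 ^ (parK K).J := Nat.one_le_two_pow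
  have hS3 : 3 * (16 + kl + 2 ^ (parK K).σ) ≤
      (2 ^ (parK K).J + 2) * (16 + kl + 2 ^ (parK K).σ) := Nat.mul_le_mul_right _ (by omega)
  have hJ := H.J
  -- length of the frames
  have hfl : ∀ {l n : ℕ} {A S : List ℕ}, LInv K κ l n A S →
      (frE tg 2 (arg q r κ j z) (InitS663.lp l n A S)).length + 2 * kl + 20 ≤ W.S := by
    intro l n A S I
    rw [length_frE, I.lA, I.lS]
    omega
  have hfw : ∀ {l n : ℕ} {A S : List ℕ}, l ≤ (parK K).J → LInv K κ l n A S →
      ∀ a ∈ frE tg 2 (arg q r κ j z) (InitS663.lp l n A S), a < W.M := by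
    intro l n A S hl I
    refine H.frame h (by omega) hl (I.cn.trans (Nat.pow_le_pow_right (by norm_num) (by omega)))
      (by rw [I.lA]; exact hmu) (by rw [I.lS]; exact hmu) (H.inv_A h.hκ hl I) (H.inv_S h.hκ I)
  intro k
  induction k with
  | zero =>
    intro l cnt
    induction cnt with
    | zero =>
      intro A S v hlk I
      have hl : l ≤ κ ∧ l ≤ (parK K).J := by omega
      rw [winL_eq, rem_succ, co_succ]
      have e1 : 2 * (rem ((parK K).c + (parK K).g) 0 l 0 + 1) + fd = (fd + 1) + 1 := by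
        simp only [rem]; omega
      rw [e1]
      refine (H.window h hr hl.1 hl.2 (I.cn.trans (Nat.pow_le_pow_right (by norm_num) (by omega)))
        I.lA I.lS (H.inv_A h.hκ hl.2 I) (H.inv_S h.hκ I)
        (fun c hc => (hch l hl.1 c hc v).mono (by omega) le_rfl) (C' := 0)
        (fun ws hws => ?_)).mono le_rfl (by omega)
      have I' := I.add ws
      have hL := I'.layer (r := r) h.hr (by omega)
      have hδ : dl (frE tg 3 (arg q r κ j z) (InitS663.lp l (0 + 1) A S)) ws =
          (finL (parK K) κ (layL ((parK K).up r) l A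
            (addL S (locL (parK K) κ l ws.flatten))), []) := by
        rw [H.hdl, dE_stop (by omega) (by omega), H.sumA_eq]
      have hok : W.okv (finL (parK K) κ (layL ((parK K).up r) l A
          (addL S (locL (parK K) κ l ws.flatten)))) := by
        refine ⟨?_, ?_⟩
        · rw [(finL_ok (parK K) hL.1).1]
          omega
        · intro a ha
          exact H.val_lt h.hκ (((finL_ok (parK K) hL.1).2 a ha).trans
            (Nat.le_mul_of_pos_left _ (Nat.mul_pos (by omega) (Nat.two_pow_pos _))))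
      exact H.hw.stopR hδ hok
    | succ cnt ih =>
      intro A S v hlk I
      have hl : l ≤ κ ∧ l ≤ (parK K).J := by omega
      rw [winL_eq, rem_succ, co_succ]
      have e1 : 2 * (rem ((parK K).c + (parK K).g) 0 l (cnt + 1) + 1) + fd =
          ((2 * rem ((parK K).c + (parK K).g) 0 l (cnt + 1) + fd) + 1) + 1 := by omega
      rw [e1]
      refine (H.window h hr hl.1 hl.2 (I.cn.trans (Nat.pow_le_pow_right (by norm_num) (by omega)))
        I.lA I.lS (H.inv_A h.hκ hl.2 I) (H.inv_S h.hκ I)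
        (fun c hc => (hch l hl.1 c hc v).mono (by omega) le_rfl)
        (C' := 2 + co ((parK K).c + (parK K).g) X 0 l (cnt + 1))
        (fun ws hws => ?_)).mono le_rfl (by omega)
      have I' := I.add ws
      have hδ : dl (frE tg 3 (arg q r κ j z) (InitS663.lp l (cnt + 1 + 1) A S)) ws =
          (frE tg 2 (arg q r κ j z) (InitS663.lp l (cnt + 1) A
            (addL S (locL (parK K) κ l ws.flatten))), [[0]]) := by
        rw [H.hdl, dE_next (by omega), H.sumS_eq, Nat.add_sub_cancel]
      rw [rest_succ]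
      exact word_step H.hw hSM H.N0 H.NM hδ (hfl I') (hfw hl.2 I')
        fun v _ => ih A _ v hlk I'
  | succ k ihk =>
    intro l cnt
    induction cnt with
    | zero =>
      intro A S v hlk I
      have hl : l < κ ∧ l < (parK K).J := by omega
      rw [winL_eq, rem_succ, co_succ]
      obtain ⟨m, hm⟩ : ∃ m, 2 ^ ((parK K).c + (parK K).g - (l + 1)) = m + 1 :=
        ⟨_, (Nat.succ_pred_eq_of_pos (Nat.two_pow_pos _)).symm⟩
      have e0 : rem ((parK K).c + (parK K).g) (k + 1) l 0 =
          rem ((parK K).c + (parK K).g) k (l + 1) (m + 1) := by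
        conv_lhs => unfold rem
        rw [hm]
        omega
      have e1 : 2 * (rem ((parK K).c + (parK K).g) (k + 1) l 0 + 1) + fd =
          ((2 * rem ((parK K).c + (parK K).g) k (l + 1) (m + 1) + fd) + 1) + 1 := by
        rw [e0]
        omega
      have e2 : co ((parK K).c + (parK K).g) X (k + 1) l 0 =
          co ((parK K).c + (parK K).g) X k (l + 1) (m + 1) := by
        conv_lhs => unfold co
        rw [hm]
        omega
      rw [e1, e2]
      refine (H.window h hr hl.1.le hl.2.le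
        (I.cn.trans (Nat.pow_le_pow_right (by norm_num) (by omega)))
        I.lA I.lS (H.inv_A h.hκ hl.2.le I) (H.inv_S h.hκ I)
        (fun c hc => (hch l hl.1.le c hc v).mono (by omega) le_rfl)
        (C' := 2 + co ((parK K).c + (parK K).g) X k (l + 1) (m + 1))
        (fun ws hws => ?_)).mono le_rfl (by omega)
      have I' := I.add ws
      have hL := I'.layer (r := r) h.hr (by omega)
      have I2 := LInv.start (K := K) (κ := κ) (l := l + 1) hL.1 hL.2
      rw [hm] at I2
      have hδ : dl (frE tg 3 (arg q r κ j z) (InitS663.lp l (0 + 1) A S)) ws =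
          (frE tg 2 (arg q r κ j z) (InitS663.lp (l + 1) (m + 1)
            (layL ((parK K).up r) l A (addL S (locL (parK K) κ l ws.flatten)))
            (zerosL (parK K) κ)), [[0]]) := by
        rw [H.hdl, dE_layer (by omega) hl, H.sumA_eq, h.smps_eq, hm, zerosN_eq H.p1]
      have e3 : restL ((parK K).up r) (CLq K x y q r j) r κ z (k + 1) l 0 A
          (addL S (locL (parK K) κ l ws.flatten)) =
          restL ((parK K).up r) (CLq K x y q r j) r κ z k (l + 1) (m + 1)
            (layL ((parK K).up r) l A (addL S (locL (parK K) κ l ws.flatten)))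
            (zerosL (parK K) κ) := by
        rw [rest_done_succ]
        have e4 : ((parK K).up r).c + r - (l + 1) = (parK K).c + (parK K).g - (l + 1) := by
          have := h.hr
          show (parK K).c + ((parK K).g - r) + r - (l + 1) = _
          omega
        rw [e4, hm]
        rfl
      rw [e3, rest_succ]
      exact word_step H.hw hSM H.N0 H.NM hδ (hfl I2) (hfw hl.2 I2)
        fun v _ => ihk (l + 1) m _ _ v (by omega) I2
    | succ cnt ih =>
      intro A S v hlk I
      have hl : l ≤ κ ∧ l ≤ (parK K).J := by omega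
      rw [winL_eq, rem_succ, co_succ]
      have e1 : 2 * (rem ((parK K).c + (parK K).g) (k + 1) l (cnt + 1) + 1) + fd =
          ((2 * rem ((parK K).c + (parK K).g) (k + 1) l (cnt + 1) + fd) + 1) + 1 := by omega
      rw [e1]
      refine (H.window h hr hl.1 hl.2 (I.cn.trans (Nat.pow_le_pow_right (by norm_num) (by omega)))
        I.lA I.lS (H.inv_A h.hκ hl.2 I) (H.inv_S h.hκ I)
        (fun c hc => (hch l hl.1 c hc v).mono (by omega) le_rfl)
        (C' := 2 + co ((parK K).c + (parK K).g) X (k + 1) l (cnt + 1))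
        (fun ws hws => ?_)).mono le_rfl (by omega)
      have I' := I.add ws
      have hδ : dl (frE tg 3 (arg q r κ j z) (InitS663.lp l (cnt + 1 + 1) A S)) ws =
          (frE tg 2 (arg q r κ j z) (InitS663.lp l (cnt + 1) A
            (addL S (locL (parK K) κ l ws.flatten))), [[0]]) := by
        rw [H.hdl, dE_next (by omega), H.sumS_eq, Nat.add_sub_cancel]
      rw [rest_succ]
      exact word_step H.hw hSM H.N0 H.NM hδ (hfl I') (hfw hl.2 I')
        fun v _ => ih A _ v hlk I'

/-! ### the theorem -/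

/-- **the procedure of the estimator realises `nodeL`** -/
theorem HE.est (H : HE P W wr kl dl tg K x y HB JB ZB CX) (d : ℕ) :
    ∀ (q r κ j : ℕ) (z : ℤ), dep q r ≤ d → AB K HB JB ZB q r κ j z → ∀ L : LE,
      Rz P W (fu K d) (wr (frE tg 0 (arg q r κ j z) L)) []
        (nodeL (parK K) (blF x y) q r κ j z) (CE K CX d) := by
  induction d with
  | zero =>
    intro q r κ j z hd h L
    have hr : r = 0 := by
      by_contra hr
      unfold dep at hd
      rw [if_neg hr] at hd
      omega
    exact (H.base h (Or.inl hr) L).mono (by simp [fu]) le_rfl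
  | succ d ih =>
    intro q r κ j z hd h L
    by_cases h0 : r = 0 ∨ κ = 0
    · exact (H.base h h0 L).mono (by unfold fu; omega) (CE_mono K CX (Nat.zero_le _))
    have hr : r ≠ 0 := fun h1 => h0 (Or.inl h1)
    have hq : q ≤ d := by
      unfold dep at hd
      rw [if_neg hr] at hd
      omega
    have hch : ∀ l ≤ κ, ∀ c < 2 ^ l + 2, ∀ v, Rz P W (fu K d) (wr (entE tg (q - 1)
        (chr (parK K) q) (κ - l) (2 ^ r * j + v % 2 ^ r) (2 ^ l * z - 1 + (c : ℕ)))) []
        (chd K x y q r κ j z l v c) (CE K CX d) := by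
      intro l hl c hc v
      unfold chd
      rw [estL_node (parK K) H.g1]
      refine ih _ _ _ _ _ ?_ (h.child H.g1 hr hl hc v) _
      unfold dep chr
      cases q with
      | zero => simp
      | succ q => split_ifs <;> omega
    obtain ⟨b1, b2, b3, b4, b5⟩ := H.big
    have hS0 := H.sz
    have hSM := H.SM
    have hmu := mu_le (K := K) κ
    have hσ2 : 2 ^ (parK K).σ * (16 + kl) = 16 * 2 ^ (parK K).σ + 2 ^ (parK K).σ * kl := by ring
    have hσ0 : 1 ≤ 2 ^ (parK K).σ := Nat.one_le_two_pow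
    have hJ1 : 1 ≤ 2 ^ (parK K).J := Nat.one_le_two_pow
    have hS3 : 3 * (16 + kl + 2 ^ (parK K).σ) ≤
        (2 ^ (parK K).J + 2) * (16 + kl + 2 ^ (parK K).σ) := Nat.mul_le_mul_right _ (by omega)
    have hrg := h.hr
    obtain ⟨m, hm⟩ : ∃ m, 2 ^ ((parK K).c + (parK K).g - 0) = m + 1 :=
      ⟨_, (Nat.succ_pred_eq_of_pos (Nat.two_pow_pos _)).symm⟩
    have I := LInv.start (K := K) (κ := κ) (l := 0) (length_zerosL _ _)
      (zerosL_le (parK K) κ _)
    rw [hm] at I
    have hδ : dl (frE tg 0 (arg q r κ j z) L) [] =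
        (frE tg 2 (arg q r κ j z) (InitS663.lp 0 (m + 1) (zerosL (parK K) κ)
          (zerosL (parK K) κ)), [[0]]) := by
      rw [H.hdl, dE_start h0, h.smps_eq, hm, zerosN_eq H.p1]
    have e1 : nodeL (parK K) (blF x y) q r κ j z = rnd fun v =>
        winL ((parK K).up r) (CLq K x y q r j) r κ z (min κ (parK K).J) 0 m
          (zerosL (parK K) κ) (zerosL (parK K) κ) v := by
      unfold nodeL
      rw [if_neg h0, stepL_rest]
      have e2 : 2 ^ (((parK K).up r).c + r) = m + 1 := by
        rw [← hm]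
        congr 1
        show (parK K).c + ((parK K).g - r) + r = _
        omega
      rw [e2, rest_succ]
      rfl
    rw [e1]
    have h1 := word_step H.hw hSM H.N0 H.NM hδ (by
        rw [length_frE, I.lA]
        omega)
      (H.frame h (by omega) (Nat.zero_le _) (I.cn.trans (by simp)) (by rw [I.lA]; exact hmu)
        (by rw [I.lS]; exact hmu) (H.inv_A h.hκ (Nat.zero_le _) I) (H.inv_S h.hκ I))
      fun v _ => H.loop h hr hch (min κ (parK K).J) 0 m _ _ v (by omega) I
    refine h1.mono ?_ ?_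
    · have h2 := rem_le ((parK K).c + (parK K).g) (min κ (parK K).J) 0 (m + 1)
      rw [← hm, Nat.sub_zero] at h2
      have h3 : min κ (parK K).J * 2 ^ ((parK K).c + (parK K).g) ≤
          (parK K).J * 2 ^ ((parK K).c + (parK K).g) := Nat.mul_le_mul_right _ (min_le_right _ _)
      rw [← hm, Nat.sub_zero]
      have h4 : fu K (d + 1) = fu K d +
          (2 * (((parK K).J + 1) * 2 ^ ((parK K).c + (parK K).g)) + 2) := by
        unfold fu; ring
      have h5 : ((parK K).J + 1) * 2 ^ ((parK K).c + (parK K).g) =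
          (parK K).J * 2 ^ ((parK K).c + (parK K).g) + 2 ^ ((parK K).c + (parK K).g) := by ring
      omega
    · have h2 := co_le ((parK K).c + (parK K).g) (CE K CX d) (min κ (parK K).J) 0 (by
        have := H.J
        omega)
      rw [← hm]
      have h3 : (min κ (parK K).J + 1) * (2 ^ ((parK K).c + (parK K).g) *
          (3 * CE K CX d + 5)) ≤ ((parK K).J + 1) * (2 ^ ((parK K).c + (parK K).g) *
          (3 * CE K CX d + 5)) := Nat.mul_le_mul_right _ (by omega)
      show _ ≤ CE K CX d + 2 + _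
      omega

end Crest.Agent.R288.InitZ663
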