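import Crest.Agent.R288.PrK_690
import Crest.Agent.R288.PheC_940

/-!
# R288, program side (helper690): the phase engine with constants (`kon`)

`KPrg` = step function `dl K g rs` and base `bs K g` WITHOUT the constants in the frames and
requests; `KPrg.prg : Prg` puts them there (`PrK690.wrapK`). For a fixed constant `K`:
* `Kz Q W K n g rs t C`, `Kq Q W K n q t C`, `Kqs Q W K n reqs ts C` : realisation of a frame / a
  request / a list of requests (`Phe940.Rz`, `Rq`, `Rqs` of the wrapped program);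
* rules `Kz.stop`, `Kz.step`, `Kz.stepV`, `Kz.step_ret`, `Kz.mono`, `Kz.congr`, `Kz.proc`; `Kq.word`,
  `Kq.rd1`, `Kq.rd2`, `Kq.ext`, `Kq.call`, `Kq.low`; `Kqs.nil/cons/append/map/map_le/map_ret/words`;
* sizes `KSz W K g' reqs us` (`KSz.szo`);
* `disp l` : dispatcher by the first word (tag), certificate and equations.
-/

set_option autoImplicit false

namespace Crest.Agent.R288.PrK690

open Crest.Agent.Lib.PT Crest.Agent.R295 Crest.Agent.R295.Pt949 Crest.Agent.R288.PtY949
open Crest.Agent.R295.Rnd627 Crest.Agent.R288.Pl726 Crest.Agent.R288.Phe940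
open Crest.Agent.R288.Alg45 (seqL)

/-- a step function -/
abbrev Dl : Type := KN → List ℕ → List (List ℕ) → List ℕ × List (List ℕ)

/-- a program with constants -/
structure KPrg where
  /-- the step function -/
  dl : Dl
  /-- first word of the tape of a call -/
  bs : KN → List ℕ → ℕ
  hdl : PTF (fun p : KN × List ℕ × List (List ℕ) => dl p.1 p.2.1 p.2.2)
  hbs : PTF (fun p : KN × List ℕ => bs p.1 p.2)
  /-- tape array -/
  aT : ℕ
  /-- first read-only array -/
  a1 : ℕ
  /-- second read-only array -/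
  a2 : ℕ
  hT : aT < 50
  h1 : a1 < 50
  h2 : a2 < 50

/-- the program of the engine -/
def KPrg.prg (Q : KPrg) : Prg where
  δ := wrapK Q.dl
  base := wrapB Q.bs
  hδ := ptf_wrapK Q.hdl
  hb := ptf_wrapB Q.hbs
  aT := Q.aT
  a1 := Q.a1
  a2 := Q.a2
  hT := Q.hT
  h1 := Q.h1
  h2 := Q.h2
  X3 := x3

/-- the frame `(g, rs)` realises `t` with fuel `n` at cost at most `C` -/
def Kz (Q : KPrg) (W : Wld) (K : KN) (n : ℕ) (g : List ℕ) (rs : List (List ℕ))
    (t : RT (List ℕ)) (C : ℕ) : Prop := Rz Q.prg W n (jn K g) rs t C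

/-- the request `q` realises `t` -/
def Kq (Q : KPrg) (W : Wld) (K : KN) (n : ℕ) (q : List ℕ) (t : RT (List ℕ)) (C : ℕ) : Prop :=
  Rq Q.prg W n (wrapQ K q) t C

/-- the requests `reqs` realise `ts` -/
def Kqs (Q : KPrg) (W : Wld) (K : KN) (n : ℕ) (reqs : List (List ℕ)) (ts : RT (List (List ℕ)))
    (C : ℕ) : Prop := Rqs Q.prg W n (reqs.map (wrapQ K)) ts C

/-- length of the constants in a frame -/
def klen (K : KN) : ℕ := K.1.length + K.2.length + 3

/-- sizes of a phase: new frame, requests, results -/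
structure KSz (W : Wld) (K : KN) (g : List ℕ) (reqs us : List (List ℕ)) : Prop where
  /-- length -/
  len : g.length + (fl reqs).length + (fl us).length + (reqs.length + 1) * klen K + 16 ≤ W.S
  /-- words -/
  K1 : ∀ a ∈ K.1, a < W.M
  /-- words -/
  K2 : ∀ a ∈ K.2, a < W.M
  /-- words -/
  wg : ∀ a ∈ g, a < W.M
  /-- words -/
  wq : ∀ q ∈ reqs, ∀ a ∈ q, a < W.M
  /-- words -/
  wu : ∀ u ∈ us, ∀ a ∈ u, a < W.M

section sizes

variable {W : Wld} {K : KN} {g : List ℕ} {reqs us : List (List ℕ)}

theorem jn_len (K : KN) (g : List ℕ) : (jn K g).length = klen K + g.length := by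
  rw [jn_length]
  unfold klen
  omega

theorem wrapQ_length (K : KN) (q : List ℕ) : (wrapQ K q).length ≤ q.length + klen K := by
  unfold wrapQ
  split_ifs with h
  · rw [List.length_cons, jn_len, List.length_tail]
    cases q with
    | nil => simp at h
    | cons a q => simp only [List.length_cons]; omega
  · omega

theorem fl_wrapQ_length (K : KN) (reqs : List (List ℕ)) :
    (fl (reqs.map (wrapQ K))).length ≤ (fl reqs).length + reqs.length * klen K := by
  induction reqs with
  | nil => simp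
  | cons q reqs ih =>
    rw [List.map_cons, fl_cons, fl_cons, List.length_append, List.length_append, tow_list,
      tow_list, List.length_cons, List.length_cons, List.length_cons, Nat.add_mul, Nat.one_mul]
    have := wrapQ_length K q
    omega

theorem length_le_fl' (l : List (List ℕ)) : l.length ≤ (fl l).length := by
  induction l with
  | nil => simp
  | cons q l ih =>
    rw [fl_cons, List.length_append, tow_list, List.length_cons, List.length_cons]
    omega

theorem mem_length_le_fl {l : List (List ℕ)} {q : List ℕ} (h : q ∈ l) :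
    q.length + 1 ≤ (fl l).length := by
  induction l with
  | nil => simp at h
  | cons a l ih =>
    rw [fl_cons, List.length_append, tow_list, List.length_cons]
    rcases List.mem_cons.1 h with rfl | h
    · omega
    · have := ih h
      omega

/-- the wrapped phase fits -/
theorem KSz.szo (hSM : W.S < W.M) (h : KSz W K g reqs us) :
    Szo W (jn K g) (reqs.map (wrapQ K)) us := by
  have hl := h.len
  rw [Nat.add_mul, Nat.one_mul] at hl
  have hk : K.1.length + K.2.length + 3 = klen K := rfl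
  refine ⟨?_, ?_, ?_, h.wu⟩
  · have := fl_wrapQ_length K reqs
    rw [jn_len]
    omega
  · exact jn_lt h.K1 h.K2 (by omega) (by omega) (by omega) h.wg
  · intro q hq a ha
    obtain ⟨q0, hq0, rfl⟩ := List.mem_map.1 hq
    have hlen := mem_length_le_fl hq0
    unfold wrapQ at ha
    split_ifs at ha with hc
    · rcases List.mem_cons.1 ha with rfl | ha
      · rcases hc with hc | hc <;> omega
      · refine jn_lt h.K1 h.K2 (by omega) (by omega) ?_ ?_ a ha
        · rw [List.length_tail]; omega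
        · intro b hb
          exact h.wq q0 hq0 b (List.mem_of_mem_tail hb)
    · exact h.wq q0 hq0 a ha

end sizes

section rules

variable {Q : KPrg} {W : Wld} {K : KN} {n m : ℕ} {g q : List ℕ} {rs reqs reqs' : List (List ℕ)}
  {t t' : RT (List ℕ)} {ts ts' : RT (List (List ℕ))} {C C' : ℕ}

theorem Kz.mono (h : Kz Q W K n g rs t C) (hn : n ≤ m) (hC : C ≤ C') : Kz Q W K m g rs t C' :=
  Rz.mono h hn hC

theorem Kq.mono (h : Kq Q W K n q t C) (hn : n ≤ m) (hC : C ≤ C') : Kq Q W K m q t C' :=
  Rq.mono h hn hC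

theorem Kqs.mono (h : Kqs Q W K n reqs ts C) (hn : n ≤ m) (hC : C ≤ C') :
    Kqs Q W K m reqs ts C' := Rqs.mono h hn hC

theorem Kz.congr (h : Kz Q W K n g rs t C) (he : ∀ p, t'.run W.N W.Z p = t.run W.N W.Z p) :
    Kz Q W K n g rs t' C := Rz.congr h he

theorem Kqs.congr (h : Kqs Q W K n reqs ts C) (he : ∀ p, ts'.run W.N W.Z p = ts.run W.N W.Z p) :
    Kqs Q W K n reqs ts' C := Rqs.congr h he

/-- stop with the result `u` -/
theorem Kz.stop {u : List ℕ} (h : Q.dl K g rs = (u, [])) (hu : W.okv u) :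
    Kz Q W K (n + 1) g rs (.ret u) 0 :=
  Rz.stop (P := Q.prg) (wrapK_stop h) hu

/-- **a phase**: the continuation only has to be realised at the real results -/
theorem Kz.stepV (hSM : W.S < W.M) {g' : List ℕ} {k : List (List ℕ) → RT (List ℕ)}
    (h : Q.dl K g rs = (g', reqs)) (hne : reqs ≠ []) (hts : Kqs Q W K n reqs ts C)
    (hs : ∀ p, ts.nxt W.N W.Z p ≤ W.Pm → KSz W K g' reqs (ts.val W.N W.Z p))
    (hk : ∀ p, ts.nxt W.N W.Z p ≤ W.Pm →
      Kz Q W K n g' (ts.val W.N W.Z p) (k (ts.val W.N W.Z p)) C') :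
    Kz Q W K (n + 1) g rs (ts.bind k) (C + C') :=
  Rz.stepV (P := Q.prg) hSM (wrapK_step h hne) (by simpa using hne) hts
    (fun p hp => (hs p hp).szo hSM) hk

/-- **a phase**, with a property of all results -/
theorem Kz.step (hSM : W.S < W.M) (hN : 0 < W.N) {g' : List ℕ} {k : List (List ℕ) → RT (List ℕ)}
    {R : List (List ℕ) → Prop} (h : Q.dl K g rs = (g', reqs)) (hne : reqs ≠ [])
    (hts : Kqs Q W K n reqs ts C) (hR : ts.All W.N R) (hs : ∀ us, R us → KSz W K g' reqs us)
    (hk : ∀ us, R us → Kz Q W K n g' us (k us) C') :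
    Kz Q W K (n + 1) g rs (ts.bind k) (C + C') :=
  Kz.stepV hSM h hne hts (fun p _ => hs _ (hR.val hN _ _)) fun p _ => hk _ (hR.val hN _ _)

/-- **a phase without randomness** -/
theorem Kz.step_ret (hSM : W.S < W.M) {g' : List ℕ} {us : List (List ℕ)}
    (h : Q.dl K g rs = (g', reqs)) (hne : reqs ≠ []) (hts : Kqs Q W K n reqs (.ret us) C)
    (hs : KSz W K g' reqs us) (hk : Kz Q W K n g' us t C') :
    Kz Q W K (n + 1) g rs t (C + C') :=
  Rz.step_ret (P := Q.prg) hSM (wrapK_step h hne) (by simpa using hne) hts (hs.szo hSM) hk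

/-! requests -/

/-- the next word of the tape -/
theorem Kq.word (l : List ℕ) : Kq Q W K n (0 :: l) (RT.draw.map fun r => [r]) 1 :=
  Rq.word (P := Q.prg) rfl

/-- first array -/
theorem Kq.rd1 (i : ℕ) (l : List ℕ) (hL : i < W.L) :
    Kq Q W K n (1 :: i :: l) (.ret [W.O1 i]) 1 :=
  Rq.rd1 (P := Q.prg) (q := 1 :: i :: l) rfl hL

/-- second array -/
theorem Kq.rd2 (i : ℕ) (l : List ℕ) (hL : i < W.L) :
    Kq Q W K n (2 :: i :: l) (.ret [W.O2 i]) 1 :=
  Rq.rd2 (P := Q.prg) (q := 2 :: i :: l) rfl hL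

/-- the external statement -/
theorem Kq.ext (l : List ℕ) (hE : W.okE l) : Kq Q W K n (3 :: l) (.ret (W.E l)) (W.cE l) :=
  Rq.ext (P := Q.prg) (q := 3 :: l) rfl hE

/-- a call of the same index -/
theorem Kq.call (hz : Kz Q W K n g [] t C) : Kq Q W K n (4 :: g) t C :=
  Rq.call (P := Q.prg) (q := 4 :: jn K g) (le_refl 4) (show (4 : ℕ) ≠ 5 by norm_num) hz

/-- a call of a lower index -/
theorem Kq.low (hz : Kz Q W K n g [] t C) (hp : t.nxt W.N W.Z (Q.bs K g) ≤ W.Pm) :
    Kq Q W K n (5 :: g) (.ret (t.val W.N W.Z (Q.bs K g))) C := by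
  have hb : Q.prg.base (jn K g) = Q.bs K g := wrapB_jn Q.bs K g
  have := Rq.low (P := Q.prg) (W := W) (q := 5 :: jn K g) rfl hz (by
    show t.nxt W.N W.Z (Q.prg.base (jn K g)) ≤ W.Pm
    rw [hb]
    exact hp)
  show Rq Q.prg W n (5 :: jn K g) (.ret (t.val W.N W.Z (Q.bs K g))) C
  rw [← hb]
  exact this

/-- a call without randomness -/
theorem Kq.low_ret {u : List ℕ} (hz : Kz Q W K n g [] (.ret u) C) (hp : Q.bs K g ≤ W.Pm) :
    Kq Q W K n (5 :: g) (.ret u) C := Kq.low hz hp

/-! lists of requests -/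

theorem Kqs.nil : Kqs Q W K n [] (.ret []) 0 := Rqs.nil

theorem Kqs.cons (h : Kq Q W K n q t C) (hs : Kqs Q W K n reqs ts C') :
    Kqs Q W K n (q :: reqs) (t.bind fun u => ts.bind fun us => .ret (u :: us)) (C + C' + 1) :=
  Rqs.cons h hs

theorem Kqs.cons_ret {u : List ℕ} {us : List (List ℕ)} (h : Kq Q W K n q (.ret u) C)
    (hs : Kqs Q W K n reqs (.ret us) C') :
    Kqs Q W K n (q :: reqs) (.ret (u :: us)) (C + C' + 1) := Kqs.cons h hs

theorem Kqs.append (h : Kqs Q W K n reqs ts C) (h' : Kqs Q W K n reqs' ts' C') :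
    Kqs Q W K n (reqs ++ reqs') (ts.bind fun us => ts'.bind fun us' => .ret (us ++ us'))
      (C + C') := by
  unfold Kqs
  rw [List.map_append]
  exact Rqs.append h h'

theorem Kqs.append_ret {us us' : List (List ℕ)} (h : Kqs Q W K n reqs (.ret us) C)
    (h' : Kqs Q W K n reqs' (.ret us') C') :
    Kqs Q W K n (reqs ++ reqs') (.ret (us ++ us')) (C + C') := Kqs.append h h'

/-- **a list of requests of one form** -/
theorem Kqs.map {ι : Type} (l : List ι) (enc : ι → List ℕ) (t : ι → RT (List ℕ)) (c : ι → ℕ)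
    (h : ∀ x ∈ l, Kq Q W K n (enc x) (t x) (c x)) :
    Kqs Q W K n (l.map enc) (seqL (l.map t)) (l.map fun x => c x + 1).sum := by
  unfold Kqs
  rw [List.map_map]
  exact Rqs.map l (wrapQ K ∘ enc) t c h

/-- the same with one cost -/
theorem Kqs.map_le {ι : Type} (l : List ι) (enc : ι → List ℕ) (t : ι → RT (List ℕ)) (C : ℕ)
    (h : ∀ x ∈ l, Kq Q W K n (enc x) (t x) C) :
    Kqs Q W K n (l.map enc) (seqL (l.map t)) (l.length * (C + 1)) :=
  (Kqs.map l enc t (fun _ => C) h).mono le_rfl (sum_le_mul l _ C fun _ _ => le_rfl)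

/-- **a list of deterministic requests of one form** -/
theorem Kqs.map_ret {ι : Type} (l : List ι) (enc : ι → List ℕ) (v : ι → List ℕ) (c : ι → ℕ)
    (h : ∀ x ∈ l, Kq Q W K n (enc x) (.ret (v x)) (c x)) :
    Kqs Q W K n (l.map enc) (.ret (l.map v)) (l.map fun x => c x + 1).sum := by
  unfold Kqs
  rw [List.map_map]
  exact Rqs.map_ret l (wrapQ K ∘ enc) v c h

theorem Kqs.map_ret_le {ι : Type} (l : List ι) (enc : ι → List ℕ) (v : ι → List ℕ) (C : ℕ)
    (h : ∀ x ∈ l, Kq Q W K n (enc x) (.ret (v x)) C) :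
    Kqs Q W K n (l.map enc) (.ret (l.map v)) (l.length * (C + 1)) :=
  (Kqs.map_ret l enc v (fun _ => C) h).mono le_rfl (sum_le_mul l _ C fun _ _ => le_rfl)

/-- `k` words of the tape -/
theorem Kqs.words (k : ℕ) : Kqs Q W K n ((List.range k).map fun _ => [0])
    ((RT.reps k RT.draw).map fun l => l.map fun r => [r]) (k * 2) := by
  unfold Kqs
  rw [List.map_map]
  exact Rqs.words k (fun j => (wrapQ K ∘ fun _ => [0]) j) fun j _ => rfl

/-- the same with `replicate` -/
theorem Kqs.words' (k : ℕ) : Kqs Q W K n (List.replicate k [0])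
    ((RT.reps k RT.draw).map fun l => l.map fun r => [r]) (k * 2) := by
  have h := Kqs.words (Q := Q) (W := W) (K := K) (n := n) k
  have e : (List.range k).map (fun _ => [0]) = List.replicate k [0] := by
    rw [List.map_const', List.length_range]
  rwa [e] at h

/-- **the procedure realises the computation** -/
theorem Kz.proc {e : PEnv} {pr : List PS} (hm : Mch Q.prg W e pr) (h : Kz Q W K n q [] t C)
    (p i : ℕ) (hp : t.nxt W.N W.Z p ≤ W.Pm) :
    ∃ s d, PEx e pr Q.prg.proc (p :: jn K q) i (t.nxt W.N W.Z p :: t.val W.N W.Z p) i s d ∧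
      s ≤ 40 * C + 20 ∧ d ≤ n := Rz.proc hm h p i hp

end rules

/-! ### the dispatcher -/

/-- the handler of the tag `g.headD 0` -/
def disp : List Dl → Dl
  | [], _, _, _ => ([], [])
  | d :: l, K, g, rs => if g.headD 0 = 0 then d K g rs else dispN 1 l K g rs
where
  /-- the handlers of the tags `k, k+1, ..` -/
  dispN : ℕ → List Dl → Dl
    | _, [], _, _, _ => ([], [])
    | k, d :: l, K, g, rs => if g.headD 0 = k then d K g rs else dispN (k + 1) l K g rs

theorem dispN_eq (l : List Dl) (k : ℕ) (K : KN) (g : List ℕ) (rs : List (List ℕ)) (j : ℕ)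
    (hj : g.headD 0 = k + j) (hl : j < l.length) :
    disp.dispN k l K g rs = l[j] K g rs := by
  induction l generalizing k j with
  | nil => simp at hl
  | cons d l ih =>
    rw [disp.dispN]
    cases j with
    | zero => rw [if_pos (by omega)]; rfl
    | succ j =>
      rw [if_neg (by omega), ih (k + 1) j (by omega) (by simpa using hl)]
      rfl

theorem disp_eq (l : List Dl) (K : KN) (g : List ℕ) (rs : List (List ℕ)) (j : ℕ)
    (hj : g.headD 0 = j) (hl : j < l.length) : disp l K g rs = l[j] K g rs := by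
  cases l with
  | nil => simp at hl
  | cons d l =>
    rw [disp]
    cases j with
    | zero => rw [if_pos hj]; rfl
    | succ j =>
      rw [if_neg (by omega), dispN_eq l 1 K g rs j (by omega) (by simpa using hl)]
      rfl

theorem ptf_dispN (l : List Dl) (k : ℕ)
    (h : ∀ d ∈ l, PTF (fun p : KN × List ℕ × List (List ℕ) => d p.1 p.2.1 p.2.2)) :
    PTF (fun p : KN × List ℕ × List (List ℕ) => disp.dispN k l p.1 p.2.1 p.2.2) := by
  induction l generalizing k with
  | nil =>
    show PTF (fun _ : KN × List ℕ × List (List ℕ) => (([], []) : List ℕ × List (List ℕ)))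
    exact PTF.const _
  | cons d l ih =>
    have e : (fun p : KN × List ℕ × List (List ℕ) => disp.dispN k (d :: l) p.1 p.2.1 p.2.2) =
        fun p => if p.2.1.headD 0 = k then d p.1 p.2.1 p.2.2
          else disp.dispN (k + 1) l p.1 p.2.1 p.2.2 := by
      funext p
      rw [disp.dispN]
    rw [e]
    refine PTF.ite ?_ (h d List.mem_cons_self)
      (ih (k + 1) fun d' hd' => h d' (List.mem_cons_of_mem _ hd'))
    have h2 : PTF (fun p : KN × List ℕ × List (List ℕ) => p.2.1) :=
      PTF.comp (g := fun p : List ℕ × List (List ℕ) => p.1) PTF.fst PTF.snd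
    exact PTPred.natEq (PTF.comp (g := fun l : List ℕ => l.headD 0) (by fun_prop) h2) (PTF.const k)

/-- certificate of the dispatcher -/
theorem ptf_disp (l : List Dl)
    (h : ∀ d ∈ l, PTF (fun p : KN × List ℕ × List (List ℕ) => d p.1 p.2.1 p.2.2)) :
    PTF (fun p : KN × List ℕ × List (List ℕ) => disp l p.1 p.2.1 p.2.2) := by
  cases l with
  | nil =>
    show PTF (fun _ : KN × List ℕ × List (List ℕ) => (([], []) : List ℕ × List (List ℕ)))
    exact PTF.const _
  | cons d l =>
    have e : (fun p : KN × List ℕ × List (List ℕ) => disp (d :: l) p.1 p.2.1 p.2.2) =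
        fun p => if p.2.1.headD 0 = 0 then d p.1 p.2.1 p.2.2
          else disp.dispN 1 l p.1 p.2.1 p.2.2 := by
      funext p
      rw [disp]
    rw [e]
    refine PTF.ite ?_ (h d List.mem_cons_self)
      (ptf_dispN l 1 fun d' hd' => h d' (List.mem_cons_of_mem _ hd'))
    have h2 : PTF (fun p : KN × List ℕ × List (List ℕ) => p.2.1) :=
      PTF.comp (g := fun p : List ℕ × List (List ℕ) => p.1) PTF.fst PTF.snd
    exact PTPred.natEq (PTF.comp (g := fun l : List ℕ => l.headD 0) (by fun_prop) h2) (PTF.const 0)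

end Crest.Agent.R288.PrK690
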