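import Mathlib
import Crest.Agent.R288.InitY_663
import Crest.Agent.R288.InitN_775
import Crest.Agent.R288.PadK_901
import Crest.Agent.R288.ParO_331
import Crest.Agent.R288.PrR_690

/-!
# R288 (S0433), [PROG.P3] EST: the handler of the tag of the estimator in the final program

* `wr_of`: `Wr G W (jn k) (klen k) (dl k)` for the wrapper of helper690 (`G.δ = wrapK dl`);
* `kiH k : KI`: the constants of the estimator read off `kon` (official table: `gI`, `DI`, `mI`),
  `parK_kiH : parK (kiH k) = par (gI h) (DI h) (mI h)`, `h = hK k`; certificate `ptf_kiH`;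
* `hE tg k g rs = dE tg (kiH k) (un FE g.tail) rs`: the handler, `hE_frE`, `ptf_hE`;
* `hU`: the same for the typed frames of `dU` (not used by the typed layer).
-/

set_option autoImplicit false

namespace Crest.Agent.R288.InitK663

open Crest.Agent.R295.Rnd627 Crest.Agent.R295.Rnd627.RT
open Crest.Agent.R288.Init772 Crest.Agent.R288.InitL663 Crest.Agent.R288.InitL663.Par
open Crest.Agent.R288.InitQ663 Crest.Agent.R288.InitS663 Crest.Agent.R288.InitR663
open Crest.Agent.R288.InitW663 Crest.Agent.R288.InitZ663 Crest.Agent.R295.Pt949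
open Crest.Agent.Lib.PT Crest.Agent.R288.Phe940 Crest.Agent.R288.PrK690
open Crest.Agent.R288.Par806 Crest.Agent.R288.ParO331 Crest.Agent.R288.PadK901
open Crest.Agent.R288.ParP901 Crest.Agent.R288.InitN775

/-! ### the wrapper -/

section wrap

variable {G : Prg} {W : Wld} {k : KN}

theorem wq_jn (q : List ℕ) : wq (jn k) q = wrapQ k q := rfl

/-- **the wrapper of helper690 is a wrapper** -/
theorem wr_of {dl : KN → List ℕ → List (List ℕ) → List ℕ × List (List ℕ)} (hG : G.δ = wrapK dl)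
    (h1 : ∀ a ∈ k.1, a < W.M) (h2 : ∀ a ∈ k.2, a < W.M) (h3 : k.1.length < W.M)
    (h4 : k.2.length < W.M) : Wr G W (jn k) (klen k) (dl k) where
  go := by
    intro g f' rs reqs h hne
    rw [hG, wrapK_step h hne]
    rfl
  stop := by
    intro g u rs h
    rw [hG, wrapK_stop h]
  len := by
    intro g
    rw [jn_len]
    omega
  lt := by
    intro g hg hg'
    exact jn_lt h1 h2 h3 h4 hg hg'

end wrap

/-! ### the constants -/

/-- the constants of the estimator from `kon` -/
def kiH (k : KN) : KI :=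
  ((Un.mk (gI (hK k)), Un.mk (gI (hK k) + DI (hK k)), Un.mk (gI (hK k) + DI (hK k) + 4)),
    (Un.mk (2 * DI (hK k) + 11 + Nat.clog 2 (gI (hK k) + DI (hK k) + 5) + Nat.clog 2 (mI (hK k))),
      Un.mk (gI (hK k) + 2 * DI (hK k) + 10), Un.mk (DI (hK k))),
    (k.1.getD 1 0, k.1.getD 2 0), Un.mk k.2.length)

theorem parK_kiH (k : KN) : parK (kiH k) = par (gI (hK k)) (DI (hK k)) (mI (hK k)) := rfl

theorem nK_kiH (k : KN) : nK (kiH k) = k.1.getD 1 0 := rfl

theorem mK_kiH (k : KN) : mK (kiH k) = k.1.getD 2 0 := rfl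

theorem pK_kiH (k : KN) : pK (kiH k) = k.2.length := rfl

section ptf

variable {γ : Type} [PTCode γ] {k : γ → KN} {g : γ → List ℕ} {rs : γ → List (List ℕ)}

theorem ptu_DI {h : γ → ℕ} (hh : PTU h) : PTU (fun c => DI (h c)) := by
  unfold DI
  exact PTU.mul (PTU.const 10) (ptu_Lg hh)

theorem ptu_mI {h : γ → ℕ} (hh : PTU h) : PTU (fun c => mI (h c)) := by
  unfold mI
  exact PTU.mul (ptu_W hh) hh

theorem ptf_pI {h : γ → ℕ} (hh : PTU h) : PTF (fun c => pI (h c)) := by
  unfold pI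
  exact PTF.natTwoPow (PTU.mul (PTU.const 8) (ptu_Lg hh))

theorem ptf_kiH (hk : PTF k) : PTF fun c => kiH (k c) := by
  have hh : PTU fun c => hK (k c) := ptu_hK hk
  have h1 : PTU fun c => gI (hK (k c)) := ptu_gI hh
  have h2 : PTU fun c => DI (hK (k c)) := ptu_DI hh
  have h3 : PTU fun c => mI (hK (k c)) := ptu_mI hh
  have h4 : PTU fun c => gI (hK (k c)) + DI (hK (k c)) := PTU.add h1 h2
  have h5 : PTU fun c => Nat.clog 2 (gI (hK (k c)) + DI (hK (k c)) + 5) :=
    PtX949.ptu_clog2 (PTU.add h4 (PTU.const 5)).toPTF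
  have h6 : PTU fun c => Nat.clog 2 (mI (hK (k c))) := PtX949.ptu_clog2 h3.toPTF
  have h7 : PTU fun c => 2 * DI (hK (k c)) := PTU.mul (PTU.const 2) h2
  have e1 := PTF.unMk h1
  have e2 := PTF.unMk h4
  have e3 := PTF.unMk (PTU.add h4 (PTU.const 4))
  have e4 := PTF.unMk (PTU.add (PTU.add (PTU.add h7 (PTU.const 11)) h5) h6)
  have e5 := PTF.unMk (PTU.add (PTU.add h1 h7) (PTU.const 10))
  have e6 := PTF.unMk h2
  have e7 : PTF fun c => Un.mk (k c).2.length := PTF.unMk (PTU.length (by fun_prop))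
  have e8 : PTF fun c => (k c).1.getD 1 0 := PtX949.getD (PTF.const 1) (by fun_prop) (PTF.const 0)
  have e9 : PTF fun c => (k c).1.getD 2 0 := PtX949.getD (PTF.const 2) (by fun_prop) (PTF.const 0)
  unfold kiH
  exact PTF.prodMk (PTF.prodMk e1 (PTF.prodMk e2 e3)) (PTF.prodMk (PTF.prodMk e4 (PTF.prodMk e5 e6))
    (PTF.prodMk (PTF.prodMk e8 e9) e7))

end ptf

/-! ### the handler -/

/-- **the handler of the estimator** -/
def hE (tg : ℕ) (k : KN) (g : List ℕ) (rs : List (List ℕ)) : List ℕ × List (List ℕ) :=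
  dE tg (kiH k) (PtY949.un FE g.tail) rs

theorem hE_frE (tg : ℕ) (k : KN) (ph : ℕ) (a : AE) (L : LE) (rs : List (List ℕ)) :
    hE tg k (frE tg ph a L) rs = dE tg (kiH k) (ph, a, L) rs := by
  unfold hE frE
  rw [List.tail_cons, PtY949.un_tow]

theorem headD_frE (tg ph : ℕ) (a : AE) (L : LE) : (frE tg ph a L).headD 0 = tg := rfl

theorem headD_entE (tg q r κ j : ℕ) (z : ℤ) : (entE tg q r κ j z).headD 0 = tg := rfl

/-- certificate of the handler -/
theorem ptf_hE (tg : ℕ) : PTF (fun p : KN × List ℕ × List (List ℕ) => hE tg p.1 p.2.1 p.2.2) := by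
  have h1 : PTF fun p : KN × List ℕ × List (List ℕ) => kiH p.1 := ptf_kiH PTF.fst
  have h2 : PTF fun p : KN × List ℕ × List (List ℕ) => PtY949.un FE p.2.1.tail :=
    PtY949.ptf_un (α := FE) (f := fun p : KN × List ℕ × List (List ℕ) => p.2.1.tail) (by fun_prop)
  unfold hE
  exact ptf_dE h1 h2 (PTF.comp PTF.snd PTF.snd)

end Crest.Agent.R288.InitK663
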