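import Mathlib
import Crest.Agent.R288.InitY_663
import Crest.Agent.R288.InitW_663
import Crest.Agent.R288.InitI_772

/-!
# R288 (S0433), [PROG] P3: the procedure U (index 0) is realised

* `u0L_eq`: the form of helper663 is `Par.u0`;
* `offs_le`: size of the offsets;
* **`u0_rz`**: on the engine of helper940 with any wrapper (`Wr`), with the procedure EST of
  helper663 (`HE`), the entry frame `entU tU h j u v` realises
  `(Par.u0 (parK K) p x y h j u v).map fun w => [w]`, fuel `fu K d + 2`,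
  cost `(h + 4) * (CE K CX d + 1)`, `d = (h - 1) / g + 1`.
-/

set_option autoImplicit false

namespace Crest.Agent.R288.InitX772

open Crest.Agent.R295.Rnd627 Crest.Agent.R295.Rnd627.RT
open Crest.Agent.R288.Init772 Crest.Agent.R288.InitL663 Crest.Agent.R288.InitL663.Par
open Crest.Agent.R288.InitQ663 Crest.Agent.R288.InitS663 Crest.Agent.R288.InitR663
open Crest.Agent.R288.InitV663 Crest.Agent.R288.InitW663 Crest.Agent.R295.Pt949
open Crest.Agent.R288.InitZ663
open Crest.Agent.Lib.PT Crest.Agent.R288.Phe940 Crest.Agent.R288.NodeA785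

/-! ### the two forms -/

theorem u0L_eq (P : Init772.Par) (p : ℕ) (x y : List ℕ) (h j : ℕ) (u v : ℤ) :
    u0L P x y p h j u v = P.u0 p x y h j u v := by
  unfold u0L
  cases h with
  | zero =>
    rw [if_pos rfl]
    show _ = ret (U0n x y P.g 0 j u v)
    congr 1
    unfold U0n U0 InitW663.offs
    rw [E_zero]
    omega
  | succ H =>
    rw [if_neg (by omega), Nat.add_sub_cancel]
    show _ = ((P.eh (mis x y) (H / P.g) (H % P.g) j u).map fun a =>
      U0h p u v a + Gt373.off y.length (NodeA785.lo x.length (H + 1) j) u +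
        Gt373.off y.length (NodeA785.hi x.length (H + 1) j) v)
    apply InitL663.map_congr
    intro a
    unfold InitW663.offs
    rw [Nat.add_assoc]

theorem off_le (m a : ℕ) (u : ℤ) : Gt373.off m a u ≤ u.natAbs + a + m := by
  unfold Gt373.off GameA347.clip GameA347.pos
  omega

/-- size of the offsets -/
theorem offs_le (n m h j : ℕ) (u v : ℤ) :
    offs n m h j u v ≤ u.natAbs + v.natAbs + 2 * (n + m) := by
  have h1 := off_le m (lo n h j) u
  have h2 := off_le m (hi n h j) v
  have h3 : lo n h j ≤ n := min_le_left _ _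
  have h4 : hi n h j ≤ n := hi_le _ _ _
  unfold offs
  omega

/-! ### lists of computations -/

theorem seqL_All {α : Type} {M : ℕ} {R : α → Prop} {ts : List (RT α)}
    (h : ∀ t ∈ ts, t.All M R) :
    (Alg45.seqL ts).All M fun us => us.length = ts.length ∧ ∀ T ∈ us, R T := by
  induction ts with
  | nil =>
    show (ret ([] : List α)).All M _
    exact ⟨rfl, by simp⟩
  | cons t ts ih =>
    show (t.bind fun a => (Alg45.seqL ts).bind fun l => ret (a :: l)).All M _
    rw [All_bind]
    refine (h t List.mem_cons_self).mono fun a ha => ?_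
    rw [All_bind]
    refine (ih fun t' ht' => h t' (List.mem_cons_of_mem _ ht')).mono fun l hl => ?_
    refine ⟨by rw [List.length_cons, List.length_cons, hl.1], fun T hT => ?_⟩
    rcases List.mem_cons.1 hT with rfl | hT
    · exact ha
    · exact hl.2 T hT

/-! ### frames -/

theorem frU_eq (tU ph h j : ℕ) (u v : ℤ) : frU tU ph (argU h j u v) =
    tU :: ph :: 2 ^ h :: j :: (if u < 0 then 1 else 0) :: u.natAbs ::
      (if v < 0 then 1 else 0) :: [v.natAbs] := by
  unfold frU argU
  simp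

theorem length_frU (tU ph h j : ℕ) (u v : ℤ) : (frU tU ph (argU h j u v)).length = 8 := by
  rw [frU_eq]; rfl

theorem lt_frU {M tU ph h j : ℕ} {u v : ℤ} (h1 : tU < M) (h2 : ph < M) (h3 : 2 ^ h < M)
    (h4 : j < M) (h5 : u.natAbs < M) (h6 : v.natAbs < M) :
    ∀ a ∈ frU tU ph (argU h j u v), a < M := by
  intro a ha
  rw [frU_eq] at ha
  simp only [List.mem_cons, List.not_mem_nil, or_false] at ha
  have h7 : 1 ≤ 2 ^ h := Nat.one_le_two_pow
  rcases ha with rfl | rfl | rfl | rfl | rfl | rfl | rfl | rfl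
  · exact h1
  · exact h2
  · exact h3
  · exact h4
  · split_ifs <;> omega
  · exact h5
  · split_ifs <;> omega
  · exact h6

/-! ### the theorem -/

section main

variable {P : Prg} {W : Wld} {wr : List ℕ → List ℕ} {kl : ℕ}
  {dl : List ℕ → List (List ℕ) → List ℕ × List (List ℕ)} {tg tU p : ℕ} {K : KI} {x y : List ℕ}
  {HB JB ZB CX : ℕ} {h j : ℕ} {u v : ℤ}

/-- the hypotheses of the procedure U, besides those of EST -/
structure HU (W : Wld) (kl : ℕ) (dl : List ℕ → List (List ℕ) → List ℕ × List (List ℕ))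
    (tg tU p : ℕ) (K : KI) (x y : List ℕ) (HB JB ZB : ℕ) (h j : ℕ) (u v : ℤ) : Prop where
  hdl : ∀ ph a rs, dl (frU tU ph a) rs = dU tg tU p K (ph, a) rs
  tM : tU < W.M
  hh : h + 3 ≤ HB
  hp : h + 3 ≤ pK K
  hj : (j + 1) * 2 ^ h ≤ JB
  hu : u.natAbs + (h + 2) * 2 ^ (h + 3) ≤ ZB
  hv : v.natAbs ≤ ZB
  hS : (h + 4) * (16 + kl + 2 ^ (parK K).σ) + kl + 28 ≤ W.S
  hM : 2 * (u.natAbs + v.natAbs) + 2 * (x.length + y.length) + 2 ^ (h + 6) < W.M

theorem HU.frame (H : HE P W wr kl dl tg K x y HB JB ZB CX)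
    (U : HU W kl dl tg tU p K x y HB JB ZB h j u v) {ph : ℕ} (hph : ph ≤ 4) :
    ∀ a ∈ frU tU ph (argU h j u v), a < W.M := by
  obtain ⟨b1, b2, b3, b4, b5⟩ := H.big
  have h1 := U.hh
  have h2 := U.hj
  have h3 := U.hM
  have hJ := H.JM
  have p1 : 2 ^ h ≤ 2 ^ HB := Nat.pow_le_pow_right (by norm_num) (by omega)
  have p2 : (j + 1) * 1 ≤ (j + 1) * 2 ^ h := Nat.mul_le_mul_left _ Nat.one_le_two_pow
  have p3 : 0 < 2 ^ (h + 6) := Nat.two_pow_pos _
  exact lt_frU U.tM (by omega) (by omega) (by omega) (by omega) (by omega)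

/-- the result fits into a word -/
theorem HU.res (H : HE P W wr kl dl tg K x y HB JB ZB CX)
    (U : HU W kl dl tg tU p K x y HB JB ZB h j u v) {w : ℕ}
    (hw : w ≤ (u - v).natAbs + offs x.length y.length h j u v + 2 ^ (h + 6)) : W.okv [w] := by
  have h1 := offs_le x.length y.length h j u v
  have h2 := U.hM
  have h3 := H.sz
  refine ⟨by simp only [List.length_cons, List.length_nil]; omega, fun a ha => ?_⟩
  rw [List.mem_singleton] at ha
  subst ha
  omega

theorem u0_rz_zero (H : HE P W wr kl dl tg K x y HB JB ZB CX)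
    (U : HU W kl dl tg tU p K x y HB JB ZB 0 j u v) :
    Rz P W 2 (wr (entU tU 0 j u v)) [] ((Par.u0 (parK K) p x y 0 j u v).map fun w => [w])
      (CX + 1) := by
  have hb1 : blF x y 0 j u ≤ 1 := H.hbl 0 j u
  have e0 : (Par.u0 (parK K) p x y 0 j u v).map (fun w => [w]) =
      ret [(u - v).natAbs + 2 * blF x y 0 j u + offs x.length y.length 0 j u v] := by
    rw [← u0L_eq, u0L_zero]
    rfl
  rw [e0]
  have hreq : reqL K (argU 0 j u v) =
      [3 :: NodePT222.leafA x.length y.length 0 j u u 0] := by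
    unfold reqL argU
    rw [H.nx, H.ny]
  have hδ : dl (entU tU 0 j u v) [] = (frU tU 1 (argU 0 j u v),
      [3 :: NodePT222.leafA x.length y.length 0 j u u 0]) := by
    rw [← hreq]
    show dl (frU tU 0 (argU 0 j u v)) [] = _
    rw [U.hdl, dU_leaf]
  have hq : Rqs P W 1 ([3 :: NodePT222.leafA x.length y.length 0 j u u 0].map (wq wr))
      (ret [[blF x y 0 j u]]) (CX + 1) := by
    have h4 := Rq.ext (P := P) (W := W) (n := 1) (q := 3 :: NodePT222.leafA x.length y.length
      0 j u u 0) rfl (H.okE _ _ _)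
    rw [List.tail_cons, H.E] at h4
    have h5 := h4.mono le_rfl (H.cE 0 j u)
    have h6 := Rqs.cons_ret h5 (Rqs.nil (P := P) (W := W) (n := 1))
    exact h6.mono le_rfl (by omega)
  have hS := U.hS
  have hσ0 : 1 ≤ 2 ^ (parK K).σ := Nat.one_le_two_pow
  have hk : Rz P W 1 (wr (frU tU 1 (argU 0 j u v))) [[blF x y 0 j u]]
      (ret [(u - v).natAbs + 2 * blF x y 0 j u + offs x.length y.length 0 j u v]) 0 := by
    refine H.hw.stopR (n := 0) ?_ (HU.res H U ?_)
    · rw [U.hdl, dU_one, H.nx, H.ny]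
    · have : 2 ^ (0 + 6) = 64 := by norm_num
      omega
  refine (H.hw.step_retR H.SM hδ (by simp) hq ?_ hk).mono le_rfl (by omega)
  refine ⟨?_, HU.frame H U (by norm_num), ?_, ?_⟩
  · rw [length_frU]
    simp only [fl_cons, fl_nil, List.append_nil, tow_list, List.length_cons, List.length_nil,
      NodePT222.leafA_length]
    have : (0 + 4) * (16 + kl + 2 ^ (parK K).σ) = 64 + 4 * kl + 4 * 2 ^ (parK K).σ := by ring
    omega
  · intro q hq a ha
    rw [List.mem_singleton] at hq
    subst hq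
    rcases List.mem_cons.1 ha with rfl | ha
    · obtain ⟨b1, b2, b3, b4, b5⟩ := H.big
      omega
    · exact NodePT222.leafA_lt H.xM H.yM (by have := H.SM; omega) a ha
  · intro us hus a ha
    rw [List.mem_singleton] at hus
    subst hus
    rw [List.mem_singleton] at ha
    subst ha
    obtain ⟨b1, b2, b3, b4, b5⟩ := H.big
    omega

theorem dep_le (q r : ℕ) : dep q r ≤ q + 1 := by
  unfold dep
  split_ifs <;> omega

theorem u0_rz_succ (H : HE P W wr kl dl tg K x y HB JB ZB CX) {h : ℕ}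
    (U : HU W kl dl tg tU p K x y HB JB ZB (h + 1) j u v) {d : ℕ} (hd : h / (parK K).g + 1 ≤ d) :
    Rz P W (fu K d + 1) (wr (entU tU (h + 1) j u v)) []
      ((Par.u0 (parK K) p x y (h + 1) j u v).map fun w => [w]) ((h + 4) * (CE K CX d + 1)) := by
  have hg := H.g1
  have hS := U.hS
  have hSM := H.SM
  have hhB := U.hh
  have hσ0 : 1 ≤ 2 ^ (parK K).σ := Nat.one_le_two_pow
  obtain ⟨b1, b2, b3, b4, b5⟩ := H.big
  have hdm := Nat.div_add_mod h (parK K).g
  have hmod : h % (parK K).g < (parK K).g := Nat.mod_lt _ (by omega)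
  -- the arguments of the calls
  have hAB : ∀ κ < h + 4, AB K HB JB ZB (h / (parK K).g) (h % (parK K).g + 1) κ j
      (u / 2 ^ κ) := by
    intro κ hκ
    have hhe : (parK K).g * (h / (parK K).g) + (h % (parK K).g + 1) = h + 1 := by omega
    refine ⟨by omega, by omega, by rw [hhe]; omega, by omega, by rw [hhe]; exact U.hj, ?_⟩
    have h1 := dep_le (h / (parK K).g) (h % (parK K).g + 1)
    have h2 : h / (parK K).g ≤ h := Nat.div_le_self _ _
    have h3 : (u / 2 ^ κ).natAbs * 2 ^ κ ≤ u.natAbs + 2 ^ κ := by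
      have hk : (0 : ℤ) < 2 ^ κ := by positivity
      have e1 := Int.mul_ediv_self_le (x := u) (k := 2 ^ κ) hk.ne'
      have e2 := Int.lt_mul_ediv_self_add (x := u) hk
      have e3 : ((u / 2 ^ κ).natAbs * 2 ^ κ : ℕ) = (2 ^ κ * (u / 2 ^ κ)).natAbs := by
        rw [Int.natAbs_mul, Int.natAbs_pow, mul_comm]
        rfl
      rw [e3]
      have e4 : ((2 ^ κ : ℕ) : ℤ) = 2 ^ κ := by push_cast; rfl
      omega
    have h4 : 2 ^ κ ≤ 2 ^ (h + 4) := Nat.pow_le_pow_right (by norm_num) (by omega)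
    have h5 := U.hu
    calc ((u / 2 ^ κ).natAbs + dep (h / (parK K).g) (h % (parK K).g + 1)) * 2 ^ κ
        ≤ ((u / 2 ^ κ).natAbs + (h + 1)) * 2 ^ κ := Nat.mul_le_mul_right _ (by omega)
      _ = (u / 2 ^ κ).natAbs * 2 ^ κ + (h + 1) * 2 ^ κ := by ring
      _ ≤ u.natAbs + 2 ^ κ + (h + 1) * 2 ^ κ := by omega
      _ = u.natAbs + (h + 2) * 2 ^ κ := by ring
      _ ≤ u.natAbs + (h + 2) * 2 ^ (h + 4) := Nat.add_le_add_left (Nat.mul_le_mul_left _ h4) _
      _ ≤ u.natAbs + (h + 1 + 2) * 2 ^ (h + 1 + 3) := by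
          apply Nat.add_le_add_left
          exact Nat.mul_le_mul_right _ (by omega)
      _ ≤ ZB := h5
  have hp : h + 4 ≤ pK K := by have := U.hp; omega
  set reqs : List (List ℕ) := (List.range (h + 4)).map fun κ : ℕ =>
    4 :: entE tg (h / (parK K).g) (h % (parK K).g + 1) κ j (u / 2 ^ κ) with hreqs
  have hδ : dl (entU tU (h + 1) j u v) [] = (frU tU 2 (argU (h + 1) j u v), reqs) := by
    rw [hreqs, ← reqS_eq hp]
    show dl (frU tU 0 (argU (h + 1) j u v)) [] = _
    rw [U.hdl, dU_scales]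
  have hne : reqs ≠ [] := by
    rw [hreqs]
    intro h0
    have := congrArg List.length h0
    simp at this
  -- the requests
  have hts : Rqs P W (fu K d) (reqs.map (wq wr)) (Alg45.seqL ((List.range (h + 4)).map fun κ : ℕ =>
      nodeL (parK K) (blF x y) (h / (parK K).g) (h % (parK K).g + 1) κ j (u / 2 ^ κ)))
      ((h + 4) * (CE K CX d + 1)) := by
    rw [hreqs, List.map_map]
    have h1 := Rqs.map_le (P := P) (W := W) (n := fu K d) (List.range (h + 4))
      ((wq wr) ∘ fun κ : ℕ =>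
        4 :: entE tg (h / (parK K).g) (h % (parK K).g + 1) κ j (u / 2 ^ κ))
      (fun κ : ℕ => nodeL (parK K) (blF x y) (h / (parK K).g) (h % (parK K).g + 1) κ j
        (u / 2 ^ κ)) (CE K CX d) (fun κ hκ => by
        rw [List.mem_range] at hκ
        have h2 := H.est d (h / (parK K).g) (h % (parK K).g + 1) κ j (u / 2 ^ κ)
          ((dep_le _ _).trans hd) (hAB κ hκ) (InitS663.lp 0 0 [] [])
        have h3 : ((wq wr) ∘ fun κ : ℕ => 4 :: entE tg (h / (parK K).g)
            (h % (parK K).g + 1) κ j (u / 2 ^ κ)) κ =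
            4 :: wr (entE tg (h / (parK K).g) (h % (parK K).g + 1) κ j (u / 2 ^ κ)) := by
          simp [wq]
        rw [h3]
        exact Rq.call (P := P) (q := 4 :: wr (entE tg (h / (parK K).g) (h % (parK K).g + 1) κ j
          (u / 2 ^ κ))) (le_refl 4) (show (4 : ℕ) ≠ 5 by norm_num) h2)
    rw [List.length_range] at h1
    exact h1
  -- the results
  have hQ : (Alg45.seqL ((List.range (h + 4)).map fun κ : ℕ =>
      nodeL (parK K) (blF x y) (h / (parK K).g) (h % (parK K).g + 1) κ j (u / 2 ^ κ))).All W.N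
      fun us => us.length = h + 4 ∧ ∀ T ∈ us, T.length ≤ 2 ^ (parK K).σ ∧ ∀ a ∈ T, a < W.M := by
    have h1 := seqL_All (M := W.N) (R := fun T : List ℕ => T.length ≤ 2 ^ (parK K).σ ∧
      ∀ a ∈ T, a < W.M) (ts := (List.range (h + 4)).map fun κ : ℕ =>
      nodeL (parK K) (blF x y) (h / (parK K).g) (h % (parK K).g + 1) κ j (u / 2 ^ κ))
      (fun t ht => by
        obtain ⟨κ, hκ, rfl⟩ := List.mem_map.1 ht
        rw [List.mem_range] at hκ
        refine (nodeL_All (parK K) W.N H.hbl _ _ κ j _).mono fun T hT => ⟨?_, fun a ha => ?_⟩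
        · rw [hT.1]
          exact mu_le κ
        · have h4 := hT.2 a ha
          exact H.val_lt (κ := κ) (by omega) (h4.trans (Nat.le_mul_of_pos_left _
            (Nat.mul_pos (by omega) (Nat.two_pow_pos _)))))
    rw [List.length_map, List.length_range] at h1
    exact h1
  have hreq : ∀ q ∈ reqs, q.length = 13 ∧ ∀ a ∈ q, a < W.M := by
    intro q hq
    rw [hreqs] at hq
    obtain ⟨κ, hκ, rfl⟩ := List.mem_map.1 hq
    rw [List.mem_range] at hκ
    refine ⟨by rw [List.length_cons, entE, length_frE]; rfl, fun a ha => ?_⟩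
    rcases List.mem_cons.1 ha with rfl | ha
    · omega
    · exact H.frame (hAB κ hκ) (by norm_num) (Nat.zero_le _) (Nat.zero_le _) (by simp) (by simp)
        (by simp) (by simp) a ha
  have e0 : (Par.u0 (parK K) p x y (h + 1) j u v).map (fun w => [w]) =
      (Alg45.seqL ((List.range (h + 4)).map fun κ : ℕ =>
        nodeL (parK K) (blF x y) (h / (parK K).g) (h % (parK K).g + 1) κ j (u / 2 ^ κ))).bind
        fun Ts => ret [U0h p u v (ehatN (parK K) (pK K) Ts u (h + 4) 0) +
          offs x.length y.length (h + 1) j u v] := by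
    rw [← u0L_eq, u0L_succ, seqL_eq, InitL663.map_map, map_eq_bind]
    apply InitL663.bind_congr
    intro Ts
    rw [ehatN_eq (parK K) hp]
  rw [e0]
  have h1 := H.hw.stepR (n := fu K d) H.SM H.N0 (C' := 0)
    (k := fun Ts => ret [U0h p u v (ehatN (parK K) (pK K) Ts u (h + 4) 0) +
          offs x.length y.length (h + 1) j u v]) hδ hne hts hQ ?_ ?_
  · exact h1
  · rintro us ⟨hu1, hu2⟩
    refine ⟨?_, HU.frame H U (by norm_num), fun q hq => (hreq q hq).2, fun T hT => (hu2 T hT).2⟩
    have c1 : (fl reqs).length ≤ reqs.length * (13 + 1) := fl_len_le fun q hq => (hreq q hq).1.le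
    have c2 : (fl us).length ≤ us.length * (2 ^ (parK K).σ + 1) :=
      fl_len_le fun T hT => (hu2 T hT).1
    have c3 : reqs.length = h + 4 := by rw [hreqs, List.length_map, List.length_range]
    rw [c3] at c1 ⊢
    rw [hu1] at c2
    rw [length_frU]
    have c4 : (h + 1 + 4) * (16 + kl + 2 ^ (parK K).σ) = (h + 4) * (13 + 1) + (h + 4) * kl +
        (h + 4) * (2 ^ (parK K).σ + 1) + (h + 4) + (16 + kl + 2 ^ (parK K).σ) := by ring
    omega
  · rintro us ⟨hu1, hu2⟩
    obtain ⟨n, hn⟩ : ∃ n, fu K d = n + 1 := ⟨_, rfl⟩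
    rw [hn]
    refine H.hw.stopR ?_ (HU.res H U ?_)
    · rw [U.hdl, dU_end, H.nx, H.ny]
    · have h2 : ehatN (parK K) (pK K) us u (h + 4) 0 < 2 ^ (0 + (h + 4)) := by
        rw [ehatN_eq (parK K) hp]
        exact sel_lt (parK K) _ 0 (h + 4)
      have h3 : (ehatN (parK K) (pK K) us u (h + 4) 0 + 1) / p ≤
          ehatN (parK K) (pK K) us u (h + 4) 0 + 1 := Nat.div_le_self _ _
      have h4 : 2 ^ (h + 1 + 6) = 8 * 2 ^ (0 + (h + 4)) := by
        rw [show h + 1 + 6 = 3 + (0 + (h + 4)) by omega, pow_add 2 3]; norm_num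
      unfold U0h
      omega

/-- **the procedure U realises the number of index `0`** -/
theorem u0_rz (H : HE P W wr kl dl tg K x y HB JB ZB CX)
    (U : HU W kl dl tg tU p K x y HB JB ZB h j u v) {d : ℕ}
    (hd : (h - 1) / (parK K).g + 1 ≤ d) :
    Rz P W (fu K d + 2) (wr (entU tU h j u v)) []
      ((Par.u0 (parK K) p x y h j u v).map fun w => [w]) ((h + 4) * (CE K CX d + 1)) := by
  cases h with
  | zero =>
    refine (u0_rz_zero H U).mono (by omega) ?_
    have h1 := CE_mono K CX (Nat.zero_le d)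
    have h2 : CX + 1 ≤ CE K CX 0 := Nat.le_mul_of_pos_left _ (Nat.two_pow_pos _)
    omega
  | succ h =>
    rw [Nat.add_sub_cancel] at hd
    exact (u0_rz_succ H U hd).mono (by omega) (Nat.mul_le_mul_right _ (by omega))

end main

end Crest.Agent.R288.InitX772
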