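import Mathlib
import Crest.Agent.R288.InitX_772
import Crest.Agent.R288.InitK_663
import Crest.Agent.R288.PgB_578
import Crest.Agent.R288.PgY_583

/-!
# R288 (S0433), [PROG] P3: the procedure U (index 0) as a typed procedure (tag 2)

* `phU : Ph` : text of U on the frames of helper578 (arguments `arS 0 0 z`): phase 0 = one leaf
  request (binary height `0`) or the requests `4 :: entE 1 ..` for the tables of all scales (EST of
  helper663, tag 1); phase 1 = the number.  Certificate `ptf_phU`.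
* `UH` : the numbers; **`u_cz`** : `Cz G W k 2 (fu (kiH k) d + 2) (arS 0 0 z) []
  ((iniU (par gI DI mI) pI x y nn z).map fun w => [w]) C` from EST (`HE`).
-/

set_option autoImplicit false

namespace Crest.Agent.R288.PuU772

open Crest.Agent.R295.Rnd627 Crest.Agent.R295.Rnd627.RT
open Crest.Agent.R288.Init772 Crest.Agent.R288.InitL663 Crest.Agent.R288.InitL663.Par
open Crest.Agent.R288.InitQ663 Crest.Agent.R288.InitS663 Crest.Agent.R288.InitR663
open Crest.Agent.R288.InitV663 Crest.Agent.R288.InitW663 Crest.Agent.R288.InitZ663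
open Crest.Agent.R288.InitK663 Crest.Agent.R288.InitX772
open Crest.Agent.R295.Pt949 Crest.Agent.Lib.PT Crest.Agent.R288.PrK690 Crest.Agent.R288.Pgb578
open Crest.Agent.R288.Par806 Crest.Agent.R288.ParO331 Crest.Agent.R288.PadK901
open Crest.Agent.R288.ParP901 Crest.Agent.R288.InitN775
open Crest.Agent.R288.Alg45 (St)
open Crest.Agent.R288.PgY583 (arS)
open Crest.Agent.R288.Phe940 (Prg Wld fl Rz Rq Rqs Szo kq)

/-! ### the text -/

/-- binary height, cut at the pad -/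
def hU (k : KN) (ar : Ar) : ℕ := min (nn (hK k) * ar.2.2.1) k.2.length

/-- the arguments in the form of helper663 -/
def aU (k : KN) (ar : Ar) : AU := argU (hU k ar) ar.2.2.2.1 ar.2.2.2.2.1 ar.2.2.2.2.2

/-- **the text of U** (tag 2) -/
def phU : Ph := fun k _ ar sv =>
  if sv.length = 0 then .inr (dU 1 0 (pI (hK k)) (kiH k) (0, aU k ar) []).2
  else .inl (dU 1 0 (pI (hK k)) (kiH k) (if hU k ar = 0 then 1 else 2, aU k ar)
    (sv.getD 0 [])).1

section ptf

variable {γ : Type} [PTCode γ] {k : γ → KN} {ar : γ → Ar}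

theorem ptu_hU (hk : PTF k) (ha : PTF ar) : PTU fun c => hU (k c) (ar c) := by
  unfold hU
  have h1 : PTU fun c => nn (hK (k c)) := ptu_nn (ptu_hK hk)
  have h2 : PTF fun c => (ar c).2.2.1 := by fun_prop
  have h3 : PTU (fun c => (k c).2.length) := by fun_prop
  exact PTF.natMinUn (PTF.natMul h1.toPTF h2) h3

theorem ptf_aU (hk : PTF k) (ha : PTF ar) : PTF fun c => aU (k c) (ar c) := by
  have h1 := PTF.unMk (ptu_hU hk ha)
  unfold aU argU
  fun_prop

/-- **the text is poly-time** -/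
theorem ptf_phU : PTF (fun p : KN × ℕ × Ar × Svd => phU p.1 p.2.1 p.2.2.1 p.2.2.2) := by
  have hk : PTF fun p : KN × ℕ × Ar × Svd => p.1 := by fun_prop
  have ha : PTF fun p : KN × ℕ × Ar × Svd => p.2.2.1 := by fun_prop
  have hs : PTF fun p : KN × ℕ × Ar × Svd => p.2.2.2 := by fun_prop
  have hp : PTF fun p : KN × ℕ × Ar × Svd => pI (hK p.1) := ptf_pI (ptu_hK hk)
  have hki := ptf_kiH hk
  have haU := ptf_aU hk ha
  have c0 : PTPred fun p : KN × ℕ × Ar × Svd => hU p.1 p.2.2.1 = 0 :=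
    PTU.eq (ptu_hU hk ha) (PTU.const 0)
  have h0 : PTF fun p : KN × ℕ × Ar × Svd =>
      (dU 1 0 (pI (hK p.1)) (kiH p.1) (0, aU p.1 p.2.2.1) []).2 := by
    have := ptf_dU (tg := 1) (tU := 0) hp hki (F := fun p : KN × ℕ × Ar × Svd =>
      ((0, aU p.1 p.2.2.1) : FU)) (PTF.prodMk (PTF.const 0) haU)
      (rs := fun _ => ([] : List (List ℕ))) (PTF.const _)
    exact PTF.comp PTF.snd this
  have h1 : PTF fun p : KN × ℕ × Ar × Svd =>
      (dU 1 0 (pI (hK p.1)) (kiH p.1) (if hU p.1 p.2.2.1 = 0 then 1 else 2, aU p.1 p.2.2.1)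
        (p.2.2.2.getD 0 [])).1 := by
    have := ptf_dU (tg := 1) (tU := 0) hp hki (F := fun p : KN × ℕ × Ar × Svd =>
      ((if hU p.1 p.2.2.1 = 0 then 1 else 2, aU p.1 p.2.2.1) : FU))
      (PTF.prodMk (PTF.ite c0 (PTF.const 1) (PTF.const 2)) haU)
      (rs := fun p : KN × ℕ × Ar × Svd => p.2.2.2.getD 0 [])
      (PtX949.getD (PTF.const 0) hs (PTF.const _))
    exact PTF.comp PTF.fst this
  have c1 : PTPred fun p : KN × ℕ × Ar × Svd => p.2.2.2.length = 0 := by fun_prop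
  unfold phU
  exact PTF.ite c1 (PTF.inr h0) (PTF.inl h1)

end ptf

/-! ### equations -/

section eqs

variable {k : KN} {z : St} {sv : Svd} {us : List (List ℕ)}

/-- the binary height of a state of the domain -/
theorem hU_arS (h : nn (hK k) * z.i ≤ k.2.length) : hU k (arS 0 0 z) = nn (hK k) * z.i :=
  min_eq_left h

theorem aU_arS (h : nn (hK k) * z.i ≤ k.2.length) :
    aU k (arS 0 0 z) = argU (nn (hK k) * z.i) z.j z.u z.v := by
  unfold aU
  rw [hU_arS h]
  rfl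

/-- height `0` : the leaf request -/
theorem phU_leaf {tg : ℕ} (h : nn (hK k) * z.i = 0) :
    phU k tg (arS 0 0 z) [] = .inr (reqL (kiH k) (argU 0 z.j z.u z.v)) := by
  have h1 : nn (hK k) * z.i ≤ k.2.length := by omega
  unfold phU
  rw [aU_arS h1, h, dU_leaf]
  rfl

/-- the requests for the tables -/
theorem phU_scales {tg H : ℕ} (h : nn (hK k) * z.i = H + 1) (hp : H + 4 ≤ k.2.length) :
    phU k tg (arS 0 0 z) [] = .inr ((List.range (H + 4)).map fun κ : ℕ =>
      4 :: entE 1 (H / (parK (kiH k)).g) (H % (parK (kiH k)).g + 1) κ z.j (z.u / 2 ^ κ)) := by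
  have h1 : nn (hK k) * z.i ≤ k.2.length := by omega
  unfold phU
  rw [aU_arS h1, h, dU_scales, reqS_eq (by rw [pK_kiH]; exact hp)]
  rfl

theorem phU_one {tg : ℕ} (h : nn (hK k) * z.i = 0) {b : ℕ} :
    phU k tg (arS 0 0 z) [[[b]]] = .inl [(z.u - z.v).natAbs + 2 * b +
      offs (nK (kiH k)) (mK (kiH k)) 0 z.j z.u z.v] := by
  have h1 : nn (hK k) * z.i ≤ k.2.length := by omega
  unfold phU
  rw [aU_arS h1, hU_arS h1, h]
  simp only [if_true, List.length_singleton, one_ne_zero, if_false, List.getD_cons_zero]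
  rw [dU_one]

theorem phU_end {tg H : ℕ} (h : nn (hK k) * z.i = H + 1) (hp : H + 4 ≤ k.2.length) :
    phU k tg (arS 0 0 z) [us] = .inl [U0h (pI (hK k)) z.u z.v
      (ehatN (parK (kiH k)) (pK (kiH k)) us z.u (H + 4) 0) +
        offs (nK (kiH k)) (mK (kiH k)) (H + 1) z.j z.u z.v] := by
  have h1 : nn (hK k) * z.i ≤ k.2.length := by omega
  unfold phU
  rw [aU_arS h1, hU_arS h1, h]
  simp only [List.length_singleton, one_ne_zero, if_false, List.getD_cons_zero,
    Nat.succ_ne_zero]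
  rw [dU_end]

end eqs

/-! ### the realisation -/

/-- the numbers of the procedure U at the state `z` -/
structure UH (W : Wld) (k : KN) (x y : List ℕ) (HB JB ZB Z : ℕ) (z : St) : Prop where
  pad : nn (hK k) * z.i + 3 ≤ k.2.length
  hh : nn (hK k) * z.i + 3 ≤ HB
  hj : (z.j + 1) * 2 ^ (nn (hK k) * z.i) ≤ JB
  hu : z.u.natAbs + (nn (hK k) * z.i + 2) * 2 ^ (nn (hK k) * z.i + 3) ≤ ZB
  hZ : nn (hK k) * z.i + 3 ≤ Z
  hM : 2 * (z.u.natAbs + z.v.natAbs) + 2 * (x.length + y.length) +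
    2 ^ (nn (hK k) * z.i + 6) < W.M

section main

variable {G : Prg} {W : Wld} {k : KN} {wr : List ℕ → List ℕ} {kl : ℕ}
  {dl : List ℕ → List (List ℕ) → List ℕ × List (List ℕ)} {x y : List ℕ}
  {HB JB ZB CX Z : ℕ} {z : St}

/-- the result fits into a word -/
theorem UH.res (hE : Env W k Z) (U : UH W k x y HB JB ZB Z z) {w : ℕ}
    (hw : w ≤ (z.u - z.v).natAbs + offs x.length y.length (nn (hK k) * z.i) z.j z.u z.v +
      2 ^ (nn (hK k) * z.i + 6)) : Wd W.M Z [w] := by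
  have h1 := offs_le x.length y.length (nn (hK k) * z.i) z.j z.u z.v
  have h2 := U.hM
  have h8 := hE.Z8
  refine ⟨by simp only [List.length_cons, List.length_nil]; omega, fun a ha => ?_⟩
  rw [List.mem_singleton] at ha
  subst ha
  omega

/-- admissible arguments of EST -/
theorem UH.ab (hg : 1 ≤ (parK (kiH k)).g) (U : UH W k x y HB JB ZB Z z) {H : ℕ}
    (hH : nn (hK k) * z.i = H + 1) : ∀ κ < H + 4, AB (kiH k) HB JB ZB (H / (parK (kiH k)).g)
      (H % (parK (kiH k)).g + 1) κ z.j (z.u / 2 ^ κ) := by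
  have hhB := U.hh
  have hdm := Nat.div_add_mod H (parK (kiH k)).g
  have hmod : H % (parK (kiH k)).g < (parK (kiH k)).g := Nat.mod_lt _ (by omega)
  intro κ hκ
  have hhe : (parK (kiH k)).g * (H / (parK (kiH k)).g) + (H % (parK (kiH k)).g + 1) = H + 1 := by
    omega
  refine ⟨by omega, by omega, by rw [hhe]; omega, by omega, ?_, ?_⟩
  · rw [hhe, ← hH]
    exact U.hj
  have h1 := dep_le (H / (parK (kiH k)).g) (H % (parK (kiH k)).g + 1)
  have h2 : H / (parK (kiH k)).g ≤ H := Nat.div_le_self _ _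
  have h3 : (z.u / 2 ^ κ).natAbs * 2 ^ κ ≤ z.u.natAbs + 2 ^ κ := by
    have hk : (0 : ℤ) < 2 ^ κ := by positivity
    have e1 := Int.mul_ediv_self_le (x := z.u) (k := 2 ^ κ) hk.ne'
    have e2 := Int.lt_mul_ediv_self_add (x := z.u) hk
    have e3 : ((z.u / 2 ^ κ).natAbs * 2 ^ κ : ℕ) = (2 ^ κ * (z.u / 2 ^ κ)).natAbs := by
      rw [Int.natAbs_mul, Int.natAbs_pow, mul_comm]
      rfl
    rw [e3]
    have e4 : ((2 ^ κ : ℕ) : ℤ) = 2 ^ κ := by push_cast; rfl
    omega
  have h4 : 2 ^ κ ≤ 2 ^ (H + 4) := Nat.pow_le_pow_right (by norm_num) (by omega)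
  have h5 := U.hu
  rw [hH] at h5
  calc ((z.u / 2 ^ κ).natAbs + dep (H / (parK (kiH k)).g) (H % (parK (kiH k)).g + 1)) * 2 ^ κ
      ≤ ((z.u / 2 ^ κ).natAbs + (H + 1)) * 2 ^ κ := Nat.mul_le_mul_right _ (by omega)
    _ = (z.u / 2 ^ κ).natAbs * 2 ^ κ + (H + 1) * 2 ^ κ := by ring
    _ ≤ z.u.natAbs + 2 ^ κ + (H + 1) * 2 ^ κ := by omega
    _ = z.u.natAbs + (H + 2) * 2 ^ κ := by ring
    _ ≤ z.u.natAbs + (H + 2) * 2 ^ (H + 4) := Nat.add_le_add_left (Nat.mul_le_mul_left _ h4) _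
    _ ≤ z.u.natAbs + (H + 1 + 2) * 2 ^ (H + 1 + 3) := by
        apply Nat.add_le_add_left
        exact Nat.mul_le_mul_right _ (by omega)
    _ ≤ ZB := h5

/-- **height `0`** -/
theorem u_cz_zero (H : HE G W wr kl dl 1 (kiH k) x y HB JB ZB CX) (hG : Has G k phU 2)
    (hE : Env W k Z) (ha : ArOk W.M 2 (arS 0 0 z)) (U : UH W k x y HB JB ZB Z z)
    (h0 : nn (hK k) * z.i = 0) :
    Cz G W k 2 2 (arS 0 0 z) []
      ((iniU (par (gI (hK k)) (DI (hK k)) (mI (hK k))) (pI (hK k)) x y (nn (hK k)) z).map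
        fun w => [w]) (CX + 3) := by
  have hb1 : blF x y 0 z.j z.u ≤ 1 := H.hbl 0 z.j z.u
  have h8 := hE.Z8
  obtain ⟨b1, b2, b3, b4, b5⟩ := H.big
  have e0 : (iniU (par (gI (hK k)) (DI (hK k)) (mI (hK k))) (pI (hK k)) x y (nn (hK k)) z).map
      (fun w => [w]) = ret [(z.u - z.v).natAbs + 2 * blF x y 0 z.j z.u +
        offs x.length y.length 0 z.j z.u z.v] := by
    unfold iniU
    rw [h0, ← u0L_eq, u0L_zero]
    rfl
  have hreq : reqL (kiH k) (argU 0 z.j z.u z.v) =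
      [3 :: NodePT222.leafA x.length y.length 0 z.j z.u z.u 0] := by
    unfold reqL argU
    rw [H.nx, H.ny]
  have hq : Rqs G W 1 ([3 :: NodePT222.leafA x.length y.length 0 z.j z.u z.u 0].map (wrapQ k))
      (ret [[blF x y 0 z.j z.u]]) (CX + 1) := by
    have h4 := Rq.ext (P := G) (W := W) (n := 1) (q := 3 :: NodePT222.leafA x.length y.length
      0 z.j z.u z.u 0) rfl (H.okE _ _ _)
    rw [List.tail_cons, H.E] at h4
    have h5 := h4.mono le_rfl (H.cE 0 z.j z.u)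
    have h6 := Rqs.cons_ret h5 (Rqs.nil (P := G) (W := W) (n := 1))
    exact h6.mono le_rfl (by omega)
  have hk : Cz G W k 2 1 (arS 0 0 z) ([] ++ [[[blF x y 0 z.j z.u]]])
      (ret [(z.u - z.v).natAbs + 2 * blF x y 0 z.j z.u +
        offs x.length y.length 0 z.j z.u z.v]) 0 := by
    refine Cz.stop hG hE ?_ (U.res hE ?_)
    · rw [List.nil_append, phU_one h0, H.nx, H.ny]
    · have : 2 ^ (0 + 6) = 64 := by norm_num
      rw [h0]
      omega
  rw [e0]
  refine (Cz.step_ret hG hE (phU_leaf h0 |>.trans (by rw [hreq])) hq (by simp; omega) ?_ ha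
    SvOk.nil (by simp; omega) ?_ hk).mono le_rfl (by omega)
  · intro q hq
    rw [List.mem_singleton] at hq
    subst hq
    refine ⟨by rw [List.length_cons, NodePT222.leafA_length]; omega, fun a ha => ?_⟩
    rcases List.mem_cons.1 ha with rfl | ha
    · omega
    · exact NodePT222.leafA_lt H.xM H.yM (by have := H.SM; omega) a ha
  · intro u hu
    rw [List.mem_singleton] at hu
    subst hu
    refine ⟨by simp; omega, fun a ha => ?_⟩
    rw [List.mem_singleton] at ha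
    subst ha
    omega

/-- **heights `≥ 1`** -/
theorem u_cz_succ (H : HE G W (jn k) kl dl 1 (kiH k) x y HB JB ZB CX) (hG : Has G k phU 2)
    (hE : Env W k Z) (h13 : 13 ≤ Z) (hσ : 2 ^ (parK (kiH k)).σ ≤ Z)
    (ha : ArOk W.M 2 (arS 0 0 z)) (U : UH W k x y HB JB ZB Z z) {Hh : ℕ}
    (hH : nn (hK k) * z.i = Hh + 1) {d : ℕ} (hd : Hh / (parK (kiH k)).g + 1 ≤ d) :
    Cz G W k 2 (fu (kiH k) d + 1) (arS 0 0 z) []
      ((iniU (par (gI (hK k)) (DI (hK k)) (mI (hK k))) (pI (hK k)) x y (nn (hK k)) z).map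
        fun w => [w]) ((Hh + 4) * (CE (kiH k) CX d + 1) + 2) := by
  have hpad : Hh + 4 ≤ k.2.length := by have := U.pad; omega
  have hp : Hh + 4 ≤ pK (kiH k) := hpad
  have hAB := U.ab H.g1 hH
  have hhB := U.hh
  have hZ := U.hZ
  obtain ⟨b1, b2, b3, b4, b5⟩ := H.big
  set reqs : List (List ℕ) := (List.range (Hh + 4)).map fun κ : ℕ =>
    4 :: entE 1 (Hh / (parK (kiH k)).g) (Hh % (parK (kiH k)).g + 1) κ z.j (z.u / 2 ^ κ)
    with hreqs
  have hph : phU k 2 (arS 0 0 z) [] = .inr reqs := phU_scales hH hpad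
  -- the requests
  have hts : Rqs G W (fu (kiH k) d) (reqs.map (wrapQ k)) (Alg45.seqL
      ((List.range (Hh + 4)).map fun κ : ℕ => nodeL (parK (kiH k)) (blF x y)
        (Hh / (parK (kiH k)).g) (Hh % (parK (kiH k)).g + 1) κ z.j (z.u / 2 ^ κ)))
      ((Hh + 4) * (CE (kiH k) CX d + 1)) := by
    rw [hreqs, List.map_map]
    have h1 := Rqs.map_le (P := G) (W := W) (n := fu (kiH k) d) (List.range (Hh + 4))
      ((wrapQ k) ∘ fun κ : ℕ =>
        4 :: entE 1 (Hh / (parK (kiH k)).g) (Hh % (parK (kiH k)).g + 1) κ z.j (z.u / 2 ^ κ))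
      (fun κ : ℕ => nodeL (parK (kiH k)) (blF x y) (Hh / (parK (kiH k)).g)
        (Hh % (parK (kiH k)).g + 1) κ z.j (z.u / 2 ^ κ)) (CE (kiH k) CX d) (fun κ hκ => by
        rw [List.mem_range] at hκ
        have h2 := H.est d (Hh / (parK (kiH k)).g) (Hh % (parK (kiH k)).g + 1) κ z.j
          (z.u / 2 ^ κ) ((dep_le _ _).trans hd) (hAB κ hκ) (InitS663.lp 0 0 [] [])
        rw [Function.comp_apply, wrapQ_four]
        exact Rq.call (P := G) (q := 4 :: jn k (entE 1 (Hh / (parK (kiH k)).g)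
          (Hh % (parK (kiH k)).g + 1) κ z.j (z.u / 2 ^ κ))) (le_refl 4)
          (show (4 : ℕ) ≠ 5 by norm_num) h2)
    rw [List.length_range] at h1
    exact h1
  -- the results
  have hQ : (Alg45.seqL ((List.range (Hh + 4)).map fun κ : ℕ =>
      nodeL (parK (kiH k)) (blF x y) (Hh / (parK (kiH k)).g) (Hh % (parK (kiH k)).g + 1) κ z.j
        (z.u / 2 ^ κ))).All W.N
      fun us => us.length = Hh + 4 ∧ ∀ T ∈ us, T.length ≤ 2 ^ (parK (kiH k)).σ ∧
        ∀ a ∈ T, a < W.M := by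
    have h1 := seqL_All (M := W.N) (R := fun T : List ℕ => T.length ≤ 2 ^ (parK (kiH k)).σ ∧
      ∀ a ∈ T, a < W.M) (ts := (List.range (Hh + 4)).map fun κ : ℕ =>
      nodeL (parK (kiH k)) (blF x y) (Hh / (parK (kiH k)).g) (Hh % (parK (kiH k)).g + 1) κ z.j
        (z.u / 2 ^ κ))
      (fun t ht => by
        obtain ⟨κ, hκ, rfl⟩ := List.mem_map.1 ht
        rw [List.mem_range] at hκ
        refine (nodeL_All (parK (kiH k)) W.N H.hbl _ _ κ z.j _).mono fun T hT =>
          ⟨?_, fun a ha => ?_⟩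
        · rw [hT.1]
          exact mu_le κ
        · have h4 := hT.2 a ha
          exact H.val_lt (κ := κ) (by omega) (h4.trans (Nat.le_mul_of_pos_left _
            (Nat.mul_pos (by omega) (Nat.two_pow_pos _)))))
    rw [List.length_map, List.length_range] at h1
    exact h1
  have e0 : (iniU (par (gI (hK k)) (DI (hK k)) (mI (hK k))) (pI (hK k)) x y (nn (hK k)) z).map
      (fun w => [w]) = (Alg45.seqL ((List.range (Hh + 4)).map fun κ : ℕ =>
        nodeL (parK (kiH k)) (blF x y) (Hh / (parK (kiH k)).g) (Hh % (parK (kiH k)).g + 1) κ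
          z.j (z.u / 2 ^ κ))).bind
        fun Ts => ret [U0h (pI (hK k)) z.u z.v (ehatN (parK (kiH k)) (pK (kiH k)) Ts z.u
          (Hh + 4) 0) + offs x.length y.length (Hh + 1) z.j z.u z.v] := by
    unfold iniU
    rw [hH, ← u0L_eq, ← parK_kiH, u0L_succ, seqL_eq, InitL663.map_map, map_eq_bind]
    apply InitL663.bind_congr
    intro Ts
    rw [ehatN_eq (parK (kiH k)) hp]
  rw [e0]
  refine Cz.stepA (C' := 0) hG hE H.N0 hph hts ?_ ?_ ha SvOk.nil hQ ?_ ?_
  · rw [hreqs, List.length_map, List.length_range]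
    omega
  · intro q hq
    rw [hreqs] at hq
    obtain ⟨κ, hκ, rfl⟩ := List.mem_map.1 hq
    rw [List.mem_range] at hκ
    refine ⟨?_, fun a ha => ?_⟩
    · rw [List.length_cons, entE, length_frE]
      exact h13
    rcases List.mem_cons.1 ha with rfl | ha
    · omega
    · exact H.frame (hAB κ hκ) (by norm_num) (Nat.zero_le _) (Nat.zero_le _) (by simp) (by simp)
        (by simp) (by simp) a ha
  · rintro us ⟨hu1, hu2⟩
    exact ⟨by omega, fun T hT => ⟨(hu2 T hT).1.trans hσ, (hu2 T hT).2⟩⟩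
  · rintro us ⟨hu1, hu2⟩
    obtain ⟨n, hn⟩ : ∃ n, fu (kiH k) d = n + 1 := ⟨_, rfl⟩
    rw [hn]
    refine Cz.stop hG hE ?_ (U.res hE ?_)
    · rw [List.nil_append, phU_end hH hpad, H.nx, H.ny]
    · have h2 : ehatN (parK (kiH k)) (pK (kiH k)) us z.u (Hh + 4) 0 < 2 ^ (0 + (Hh + 4)) := by
        rw [ehatN_eq (parK (kiH k)) hp]
        exact sel_lt (parK (kiH k)) _ 0 (Hh + 4)
      have h3 : (ehatN (parK (kiH k)) (pK (kiH k)) us z.u (Hh + 4) 0 + 1) / pI (hK k) ≤
          ehatN (parK (kiH k)) (pK (kiH k)) us z.u (Hh + 4) 0 + 1 := Nat.div_le_self _ _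
      have h4 : 2 ^ (Hh + 1 + 6) = 8 * 2 ^ (0 + (Hh + 4)) := by
        rw [show Hh + 1 + 6 = 3 + (0 + (Hh + 4)) by omega, pow_add 2 3]; norm_num
      rw [hH]
      unfold U0h
      omega

/-- **the procedure U realises the number of index `0`** -/
theorem u_cz (H : HE G W (jn k) kl dl 1 (kiH k) x y HB JB ZB CX) (hG : Has G k phU 2)
    (hE : Env W k Z) (h13 : 13 ≤ Z) (hσ : 2 ^ (parK (kiH k)).σ ≤ Z)
    (ha : ArOk W.M 2 (arS 0 0 z)) (U : UH W k x y HB JB ZB Z z) {d : ℕ}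
    (hd : (nn (hK k) * z.i - 1) / (parK (kiH k)).g + 1 ≤ d) :
    Cz G W k 2 (fu (kiH k) d + 2) (arS 0 0 z) []
      ((iniU (par (gI (hK k)) (DI (hK k)) (mI (hK k))) (pI (hK k)) x y (nn (hK k)) z).map
        fun w => [w]) ((nn (hK k) * z.i + 4) * (CE (kiH k) CX d + 1) + 2) := by
  rcases Nat.eq_zero_or_pos (nn (hK k) * z.i) with h0 | h0
  · refine (u_cz_zero H hG hE ha U h0).mono (by omega) ?_
    have h1 := CE_mono (kiH k) CX (Nat.zero_le d)
    have h2 : CX + 1 ≤ CE (kiH k) CX 0 := Nat.le_mul_of_pos_left _ (Nat.two_pow_pos _)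
    rw [h0]
    omega
  · obtain ⟨Hh, hH⟩ : ∃ Hh, nn (hK k) * z.i = Hh + 1 := ⟨_, (Nat.succ_pred_eq_of_pos h0).symm⟩
    rw [hH, Nat.add_sub_cancel] at hd
    rw [hH]
    exact (u_cz_succ H hG hE h13 hσ ha U hH hd).mono (by omega)
      (Nat.add_le_add_right (Nat.mul_le_mul_right _ (by omega)) 2)

end main

end Crest.Agent.R288.PuU772
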