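import Crest.Agent.R288.PrgI_966
import Crest.Agent.R288.PuU_772

/-!
# R288, [PROG]: THE program (helper966)

`progG = prgO phU ptf_phU` with the text of the start unit of helper772 (tag 2); its facts.
-/

set_option autoImplicit false

namespace Crest.Agent.R288.PrgG966

open Crest.Agent.R288.PrgI966 Crest.Agent.R288.Pgb578 Crest.Agent.R288.Pgc578
open Crest.Agent.R288.PrK690 Crest.Agent.R288.Alg45 Crest.Agent.R288.PadK901
open Crest.Agent.R288.Phe940 (Prg Wld x3)
open Crest.Agent.R288.InitR663 Crest.Agent.R288.InitS663 Crest.Agent.R288.InitK663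
open Crest.Agent.R288.PgY583 (arS)
open Crest.Agent.R288.PuU772 (phU ptf_phU)
open Crest.Agent.R288.PltT365 (v0)
open Crest.Agent.R288.Asm331 (cfgO)

/-- **the program** -/
noncomputable def progG : Prg := prgO phU ptf_phU

/-- the step function of the program -/
def dlP : KN → List ℕ → List (List ℕ) → List ℕ × List (List ℕ) := dlG phU

@[simp] theorem progG_aT : progG.aT = 15 := rfl
@[simp] theorem progG_a1 : progG.a1 = 0 := rfl
@[simp] theorem progG_a2 : progG.a2 = 0 := rfl
@[simp] theorem progG_X3 : progG.X3 = x3 := rfl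
theorem progG_δ : progG.δ = wrapK dlP := rfl

theorem has_U (K : KN) : Has progG K phU 2 := PrgI966.has_U K
theorem has_X (K : KN) : Has progG K (phAll txtO) 3 := has_all K (by norm_num) (by norm_num)
theorem has_F (K : KN) : Has progG K (phAll txtO) 4 := has_all K (by norm_num) (by norm_num)
theorem has_A (K : KN) : Has progG K (phAll txtO) 5 := has_all K (by norm_num) (by norm_num)
theorem has_B (K : KN) : Has progG K (phAll txtO) 6 := has_all K (by norm_num) (by norm_num)

/-- tag 1 -/
theorem dlP_frE (K : KN) (ph : ℕ) (a : AE) (L : LE) (rs : List (List ℕ)) :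
    dlP K (frE 1 ph a L) rs = dE 1 (kiH K) (ph, a, L) rs := dlG_frE K ph a L rs

/-- the wrapper of the estimator -/
theorem wr_prog {W : Wld} {k : KN} (h1 : ∀ a ∈ k.1, a < W.M) (h2 : ∀ a ∈ k.2, a < W.M)
    (h3 : k.1.length < W.M) (h4 : k.2.length < W.M) :
    Wr progG W (jn k) (klen k) (dlP k) := wr_prg h1 h2 h3 h4

theorem base_ne (K : KN) {tg : ℕ} (h : tg ≠ 3) (a : Ar) (sv : Svd) :
    progG.base (fr K tg a sv) = 0 := PrgI966.base_ne K h a sv

theorem base_konO {x y : List ℕ} {ε : ℚ} (l κ : ℕ) (z : St) :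
    progG.base (fr (konO (v0 x y ε)) 3 (arS l κ z) []) = (cfgO x y ε).o l :=
  PrgI966.base_konO l κ z

end Crest.Agent.R288.PrgG966
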