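import Crest.Agent.R288.HypCb_692
import Crest.Agent.R288.HypL_200
import Crest.Agent.R288.HypX_155
import Crest.Agent.R288.HypN_53
import Crest.Agent.R288.PrgG_966
import Crest.Agent.R288.EnvK_901
import Crest.Agent.R288.SoundD_548

/-!
# R288, P10 (helper692, second hand): all hypotheses of the run at the configuration of an input

* `ev_val` : the value bound; `vOk` : 53's `VOk` at `cfgO`;
* **`hyp_of`** : `Pgc578.Hyp` at `cfgO x y ε`, on every good tape, for every size number `Z`;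
* **`hyp_cfg`** : the same for all large inputs, for every `Zf` of class `PQ` above `2 ZP + 2 ^ cPad + 12`.
-/

set_option autoImplicit false

open Filter

namespace Crest.Agent.R288.HypY692

open Crest.Agent.R288.Alg45 Crest.Agent.R288.Dom20 Crest.Agent.R288.Asm331 Crest.Agent.R288.Asm12
open Crest.Agent.R288.HypA275 (cxOf top)
open Crest.Agent.R288.AnaLip364 (LipOk)
open Crest.Agent.R288.Par806 Crest.Agent.R288.ParO331 Crest.Agent.R288.Asy720
open Crest.Agent.R288.PadK901 (cPad konO)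
open Crest.Agent.R288.Top791 (inp)
open Crest.Agent.R288.Pl726 (PIn PEnv og)
open Crest.Agent.R288.Pgc578 Crest.Agent.R288.Phe940
open Crest.Agent.R288.PltT365 (tapeW tapeD)
open Crest.Agent.R288.ProgTop901 (fR)
open Crest.Agent.R288.HypL200 (laN lfN lgN lcO)
open Crest.Agent.R288.PrgG966 (progG)
open Crest.Agent.R288.PrgI966 (txtO)
open Crest.Agent.R288.PgZ692

/-- the big exponent of a value at the table -/
def eV (h : ℕ) : ℕ :=
  K0O h + II h * (8 + 8) + 8 + 4 + (nn h + 8 + 8 + 4) * II h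

theorem ev_val : ∀ᶠ h : ℕ in atTop, ∀ L : ℕ, Nat.clog 2 L = h → 2 ^ eV h < (L + 2) ^ 3 := by
  filter_upwards [ParV53.pow_val 69] with h h1 L hL
  have h2 : 69 * 2 ^ HypN53.eN 69 h ≤ (L + 2) ^ 3 := h1 L hL
  have h3 : eV h ≤ HypN53.eN 68 h := by
    refine le_trans ?_ (HypN53.topC_le h)
    unfold eV HypN53.topC
    omega
  have h4 : 2 ^ eV h ≤ 2 ^ HypN53.eN 69 h :=
    Nat.pow_le_pow_right (by norm_num) (h3.trans (HypN53.eN_mono (by norm_num) h))
  have h5 : 0 < 2 ^ HypN53.eN 69 h := Nat.two_pow_pos _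
  omega

/-- 53's `VOk` at the configuration -/
theorem vOk {x y : List ℕ} {ε : ℚ} (hG : GrdOK (parOf (hh x y ε)) (K0O (hh x y ε)))
    (hpb : 2 ≤ pb (hh x y ε)) : HypV53.VOk (cfgO x y ε) x y 4 where
  r := by show 0 < 40; norm_num
  gJ := by show 0 < 12 * sJ (hh x y ε) + 1; omega
  mJ := by show 0 < mJ (hh x y ε); unfold mJ; positivity
  pb := hpb
  grd := hG
  leaf_le := fun _ _ _ h => (LeafO690.leafO_le h).2
  cr := by show 8 + 3 ≤ 2 ^ 4; norm_num

/-- the eventual facts at a height -/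
structure Ft (h : ℕ) : Prop where
  fit : ∀ M : ℕ, 2 ^ (HH h + 2) ≤ M →
    Fit (parOf h) (II h) (EE h * KK h + EE h + 1) (K0O h) M
  HH : HH h + 2 ≤ 3 * (h - 1)
  par : ParN h
  KK : 0 < KK h
  grd : GrdOK (parOf h) (K0O h)
  top : K0O h + II h * ((parOf h).a2 + (parOf h).du) + (parOf h).a2 ≤ 2 ^ cPad h
  val : ∀ L : ℕ, Nat.clog 2 L = h → 2 ^ eV h < (L + 2) ^ 3
  wok : PgW155.WOk h
  pfit : ParK901.Fit (parOf h) (cPad h)
  pb : 2 ≤ pb h

theorem ev_Ft : ∀ᶠ h : ℕ in atTop, Ft h := by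
  filter_upwards [ev_fit, ev_HH, ev_ParN, ev_KK_pos, ev_grdOK, ev_top, ev_val, PgW155.ev_WOk,
    ParX901.ev_fit, ev_W_ge 2] with h a1 a2 a3 a4 a5 a6 a7 a8 a9 a10
  refine ⟨a1, a2, a3, a4, a5, a6, a7, a8, a9, ?_⟩
  have := Lg_pos h
  unfold Par806.pb
  nlinarith

theorem eV_eq (x y : List ℕ) (ε : ℚ) : top (cfgO x y ε) + 4 + ((cfgO x y ε).P.n +
    (cfgO x y ε).P.du + (cfgO x y ε).P.a2 + 4) * (cfgO x y ε).I = eV (hh x y ε) := by
  have e1 : (cfgO x y ε).K0 = K0O (hh x y ε) := rfl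
  have e2 : (cfgO x y ε).I = II (hh x y ε) := rfl
  have e3 : (cfgO x y ε).P.a2 = 8 := rfl
  have e4 : (cfgO x y ε).P.du = 8 := rfl
  have e5 : (cfgO x y ε).P.n = nn (hh x y ε) := rfl
  unfold top eV
  rw [e1, e2, e3, e4, e5]

theorem val_lt {x y : List ℕ} {ε : ℚ} (F : Ft (hh x y ε)) {pe : PEnv} (hin : PIn x y ε pe) :
    2 ^ (top (cfgO x y ε) + 4 + ((cfgO x y ε).P.n + (cfgO x y ε).P.du +
      (cfgO x y ε).P.a2 + 4) * (cfgO x y ε).I) < pe.B := by
  rw [eV_eq]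
  exact lt_of_lt_of_le (F.val _ rfl) hin.B

/-- **all hypotheses of the run** -/
theorem hyp_of {x y : List ℕ} {ε : ℚ} (hN : Num x y ε) (F : Ft (hh x y ε)) {τ : ℕ → ℕ}
    (hG : (cfgO x y ε).Good ((cfgO x y ε).X τ))
    (hs : ∀ e ≤ (cfgO x y ε).P.E, ∀ s, InD (cfgO x y ε).P.N (cfgO x y ε).I (cfgO x y ε).P.Dm s →
      GSt442.gst x y (cfgO x y ε).P.n s ≤ FE (cfgO x y ε).P ((cfgO x y ε).X τ) e s)
    {pe : PEnv} (hin : PIn x y ε pe) {cS kS rS Z : ℕ}
    (hS : pe.S = og cS kS rS 3 (inp x y ε).length)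
    (hL : og cS kS rS 3 (inp x y ε).length ≤ (inp x y ε).length)
    (h16 : 16 * (Z + 2) ^ 2 ≤ og cS kS rS 3 (inp x y ε).length)
    (hZ : 2 * ZP (parOf (hh x y ε)) ≤ Z) (hp : 2 ^ cPad (hh x y ε) ≤ Z) (h12 : 12 ≤ Z) :
    Hyp (cxOf (cfgO x y ε) (laN x y (hh x y ε)) (lfN x y (hh x y ε)) (lgN x y (hh x y ε)) τ)
      txtO progG
      (wld pe (2 ^ tapeW x y ε) τ progG.a1 progG.a2 (tapeD fR x y ε))
      (konO (PltT365.v0 x y ε)) Z (lcO (hh x y ε)) := by
  have hO := LipO364.lipOk hN F.par F.KK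
  have hV := vOk (x := x) (y := y) (ε := ε) F.grd F.pb
  have hE := EnvK901.env_konO (N := 2 ^ tapeW x y ε) (R := tapeD fR x y ε) (a1 := progG.a1)
    (a2 := progG.a2) (τ := τ) hin (by norm_num) hS hL hp h16
  have hclo : Clo (cxOf (cfgO x y ε) (laN x y (hh x y ε)) (lfN x y (hh x y ε))
      (lgN x y (hh x y ε)) τ) (txtO.b (konO (PltT365.v0 x y ε))) pe.B Z :=
    clo_cxOf hG hO (F.fit _ (B_ge hin F.HH)) (by
      show EE (hh x y ε) * KK (hh x y ε) ≤ _
      omega) (by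
      show EE (hh x y ε) ≤ _
      omega) F.KK (by
      show 1 ≤ 40
      norm_num) F.grd (by
      rw [PrgI966.b_konO]
      exact F.top) hZ
  have hof : HypX155.Of (cxOf (cfgO x y ε) (laN x y (hh x y ε)) (lfN x y (hh x y ε))
      (lgN x y (hh x y ε)) τ) (cfgO x y ε) τ :=
    ⟨rfl, rfl, rfl, fun _ => rfl, fun _ _ h => h⟩
  have hleaf := HypL200.leafH (c := cxOf (cfgO x y ε) (laN x y (hh x y ε)) (lfN x y (hh x y ε))
    (lgN x y (hh x y ε)) τ) hN hin hE rfl rfl rfl rfl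
  have hZ1 : ZP (cfgO x y ε).P ≤ Z := le_trans (by
    show ZP (parOf (hh x y ε)) ≤ 2 * ZP (parOf (hh x y ε))
    omega) hZ
  have hM : 2 ^ (top (cfgO x y ε) + 4 + ((cfgO x y ε).P.n + (cfgO x y ε).P.du +
      (cfgO x y ε).P.a2 + 4) * (cfgO x y ε).I) < pe.B := val_lt F hin
  exact
    { env := hE
      Z12 := h12
      N := EnvK901.N_pos
      NM := EnvK901.N_le hin
      Kpos := F.KK
      gX := PrgG966.has_X _
      gF := PrgG966.has_F _
      gA := PrgG966.has_A _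
      gB := PrgG966.has_B _
      dP := PrgI966.PK_konO F.pfit
      dla := PrgI966.la_konO
      dlf := PrgI966.lf_konO
      bX := fun l κ z => PrgG966.base_konO l κ z
      bF := fun e y => by rw [PrgG966.base_ne _ (by norm_num)]; exact Nat.zero_le _
      X_eq := fun l hl _ κ z hz => hof.X_eq hl hz
      X_nxt := fun l hl hl' κ z hz => HypX155.X_nxt F.wok hof hl hl' hz τ
      la_ok := hleaf.la_ok
      la_E := hleaf.la_E
      la_c := hleaf.la_c
      la_wd := hleaf.la_wd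
      lg_lt := hleaf.lg_lt
      leaf_eq := hleaf.leaf_eq
      vX := HypA275.vX _ _ _ hG hO hV hs hZ1 hM
      vF := HypA275.vF _ _ _ hG hO hM
      vA := HypA275.vA _ _ _ hG hO hV hs hZ1 hM
      vB := HypA275.vB _ _ _ hG hO hV hs hZ1 hM
      P_b := hclo.P_b
      A_b := hclo.A_b
      B_b := hclo.B_b
      P_S := hclo.P_S
      P_A := hclo.P_A
      S_0 := hclo.S_0
      S_h := hclo.S_h
      S_h0 := hclo.S_h0
      A_S := hclo.A_S
      A_B := hclo.A_B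
      B_i := hclo.B_i
      B_S := hclo.B_S
      B_P := hclo.B_P
      B_A := hclo.B_A
      wU := hclo.wU
      wX := hclo.wX
      wF := hclo.wF
      wA := hclo.wA
      wB := hclo.wB
      zX := hclo.zX
      zF := hclo.zF
      z0 := hclo.z0
      zA := hclo.zA
      zA0 := hclo.zA0
      zB0 := hclo.zB0
      zB1 := hclo.zB1 }

theorem og_mono {c k r c' k' r' : ℕ} (hc : c ≤ c') (hk : k ≤ k') (hr : r ≤ r') (j L : ℕ) :
    og c k r j L ≤ og c' k' r' j L := by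
  unfold og
  refine Nat.mul_le_mul (Nat.mul_le_mul hc (Nat.pow_le_pow_right (by norm_num) ?_))
    (Nat.pow_le_pow_right (Nat.succ_pos _) hk)
  exact Nat.div_le_div_right (Nat.mul_le_mul_right _ hr)

/-- a size number -/
def zN (h : ℕ) : ℕ := 2 * ZP (parOf h) + 2 ^ cPad h + 12

theorem pQ_zN : ParW951.PQ zN := by
  have h1 := HypN53.pQ_ZP
  have h2 := HypN53.pQ_pad
  have : ParW951.PQ (fun h => 2 * ZP (parOf h) + 2 ^ cPad h + 12) := by pw_tac
  exact this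

/-- **P10** : all hypotheses of the run, for all large inputs and every size number `Zf` -/
theorem hypO_of {Zf : ℕ → ℕ} (hQ : ParW951.PQ Zf) (hZf : ∀ᶠ h : ℕ in atTop,
    2 * ZP (parOf h) ≤ Zf h ∧ 2 ^ cPad h ≤ Zf h ∧ 12 ≤ Zf h) :
    ∃ r0, ∀ cS kS rS, 1 ≤ cS → r0 ≤ rS → Ev fun x y ε =>
      ∀ τ, (cfgO x y ε).Good ((cfgO x y ε).X τ) → ∀ pe, PIn x y ε pe →
        pe.S = og cS kS rS 3 (inp x y ε).length →
        Hyp (cxOf (cfgO x y ε) (laN x y (hh x y ε)) (lfN x y (hh x y ε)) (lgN x y (hh x y ε)) τ)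
          txtO progG
          (wld pe (2 ^ tapeW x y ε) τ progG.a1 progG.a2 (tapeD fR x y ε))
          (konO (PltT365.v0 x y ε)) (Zf (hh x y ε)) (lcO (hh x y ε)) := by
  have h0 : ParW951.PQ (fun h => 16 * (Zf h + 2) ^ 2) := by pw_tac
  obtain ⟨r0, h1⟩ := h0.toSI.ev_og
  refine ⟨r0, fun cS kS rS hc hr => ?_⟩
  have h2 : Ev fun x y ε => Num x y ε := Ev.of (Eventually.of_forall fun _ => trivial)
    fun _ _ _ hN _ => hN
  refine ((Ev.of ((h1.and (PgG8155.og_le cS kS rS)).and (ev_Ft.and hZf)) fun x y ε _ h => h).and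
    SoundD548.soundStm).mono ?_
  rintro x y ε hN ⟨⟨⟨h3, h4⟩, hF, h5, h6, h7⟩, hs⟩ τ hG pe hin hS
  refine hyp_of hN hF hG (fun e he s hs' => hs _ hG e he s hs') hin hS (h4 _ rfl) ?_ h5 h6 h7
  exact (h3 _ rfl).trans (og_mono hc (Nat.zero_le _) hr _ _)

/-- **P10 at the size number `zN`** -/
theorem hypO : ∃ r0, ∀ cS kS rS, 1 ≤ cS → r0 ≤ rS → Ev fun x y ε =>
    ∀ τ, (cfgO x y ε).Good ((cfgO x y ε).X τ) → ∀ pe, PIn x y ε pe →
      pe.S = og cS kS rS 3 (inp x y ε).length →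
      Hyp (cxOf (cfgO x y ε) (laN x y (hh x y ε)) (lfN x y (hh x y ε)) (lgN x y (hh x y ε)) τ)
        txtO progG
        (wld pe (2 ^ tapeW x y ε) τ progG.a1 progG.a2 (tapeD fR x y ε))
        (konO (PltT365.v0 x y ε)) (zN (hh x y ε)) (lcO (hh x y ε)) :=
  hypO_of pQ_zN (Eventually.of_forall fun h => by
    have h1 : 0 < 2 ^ cPad h := Nat.two_pow_pos _
    unfold zN
    omega)

end Crest.Agent.R288.HypY692
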