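import Crest.Agent.R288.HypN_53
import Crest.Agent.R288.HypW_53
import Crest.Agent.R288.HypCb_692
import Crest.Agent.R288.HypL_200
import Crest.Agent.R288.HypX_155
import Crest.Agent.R288.EnvK_901
import Crest.Agent.R288.PrgG_966
import Crest.Agent.R288.ProgTop_901

/-!
# Row 288, PROG.P10 (helper53): `Pgc578.Hyp` at the configuration of an input

* `cxO`, `wO`, `kO` : the data of a run on the input `x y ε` and the tape `τ`
* **`hyp_cfg`** : all hypotheses of the realisation theorems, on every good tape, for every input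
  of large height
-/

set_option autoImplicit false
set_option maxHeartbeats 400000

open Filter

namespace Crest.Agent.R288.Hyp53

open Crest.Agent.R295 HL Pt949 Crest.Agent.R295.Rnd627 Crest.Agent.R288.Pl726
open Crest.Agent.R288.Phe940 Crest.Agent.R288.Top791
open Crest.Agent.R288.Alg45 Crest.Agent.R288.Dom20 Crest.Agent.R288.Asm331
open Crest.Agent.R288.Asm12 Crest.Agent.R288.Par806 Crest.Agent.R288.ParO331
open Crest.Agent.R288.HypV53 Crest.Agent.R288.HypW53 Crest.Agent.R288.HypN53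
open Crest.Agent.R288.HypA275 Crest.Agent.R288.HypL200 Crest.Agent.R288.HypX155
open Crest.Agent.R288.PadK901 Crest.Agent.R288.PrgI966 Crest.Agent.R288.PrgG966
open Crest.Agent.R288.PltT365 (tapeW tapeD)
open Crest.Agent.R288.PrK690 (KN)

/-- the mathematical data of the run -/
noncomputable def cxO (x y : List ℕ) (ε : ℚ) (τ : ℕ → ℕ) : Pgc578.Cx :=
  cxOf (cfgO x y ε) (laN x y (hh x y ε)) (lfN x y (hh x y ε)) (lgN x y (hh x y ε)) τ

/-- the world of the run -/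
noncomputable def wO (x y : List ℕ) (ε : ℚ) (τ : ℕ → ℕ) (pe : PEnv) : Wld :=
  wld pe (2 ^ tapeW x y ε) τ progG.a1 progG.a2 (tapeD ProgTop901.fR x y ε)

/-- the constants of the run -/
noncomputable def kO (x y : List ℕ) (ε : ℚ) : KN := konO (PltT365.v0 x y ε)

/-- what is used of the height -/
structure AllH (rS h : ℕ) : Prop where
  big : BigH h
  num : ∀ L : ℕ, Nat.clog 2 L = h → Nums 1 rS h L
  fit : ParK901.Fit (parOf h) (cPad h)
  w : PgW155.WOk h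

theorem ev_AllH : ∃ rS : ℕ, ∀ᶠ h : ℕ in atTop, AllH rS h := by
  obtain ⟨rS, h1⟩ := ev_Nums 1
  refine ⟨rS, ?_⟩
  filter_upwards [h1, ev_BigH, ParX901.ev_fit, PgW155.ev_WOk] with h a1 a2 a3 a4
  exact ⟨a2, a1, a3, a4⟩

variable {x y : List ℕ} {ε : ℚ} {τ : ℕ → ℕ} {pe : PEnv}

/-- the exponent of the values -/
theorem exp_lt {rS : ℕ} (H : AllH rS (hh x y ε)) (hin : PIn x y ε pe) :
    2 ^ (top (cfgO x y ε) + 4 + ((cfgO x y ε).P.n + (cfgO x y ε).P.du + (cfgO x y ε).P.a2 + 4) *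
      (cfgO x y ε).I) < pe.B := by
  have h1 := (H.num _ rfl).two
  rw [one_mul] at h1
  refine lt_of_le_of_lt (Nat.pow_le_pow_right (by norm_num) ?_) (h1.trans_le hin.B)
  show K0O (hh x y ε) + II (hh x y ε) * (8 + 8) + 8 + 4 +
    (nn (hh x y ε) + 8 + 8 + 4) * II (hh x y ε) ≤ _
  unfold topC
  generalize (nn (hh x y ε) + 8 + 8 + 4) * II (hh x y ε) = A
  generalize K0O (hh x y ε) = B
  omega

theorem of_cxO : Of (cxO x y ε τ) (cfgO x y ε) τ := ⟨rfl, rfl, rfl, fun _ => rfl, fun _ _ h => h⟩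

theorem Zn_ge (h : ℕ) : 2 * PgZ692.ZP (parOf h) ≤ Zn h ∧ 2 ^ cPad h ≤ Zn h ∧ 64 ≤ Zn h := by
  unfold Zn
  generalize PgF380.uP (parOf h) * (KK h + 1) = A
  generalize PgZ692.ZP (parOf h) = B
  generalize 2 ^ cPad h = D
  generalize zI h = E
  omega

/-- **all hypotheses of the realisation theorems at one input** -/
theorem hyp_one {cS kS rS r0 : ℕ} (hN : Num x y ε) (H : AllH r0 (hh x y ε)) (h1 : 1 ≤ cS)
    (h2 : r0 ≤ rS) (hL : og cS kS rS 3 (inp x y ε).length ≤ (inp x y ε).length)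
    (hG : (cfgO x y ε).Good ((cfgO x y ε).X τ))
    (hC : ∀ (la : St → List ℕ) (lf : ℕ → St → Option ℕ) (lg : St → ℕ) (pe : PEnv), PIn x y ε pe →
      ∀ b Z, 2 ^ cPad (hh x y ε) ≤ b → 2 * PgZ692.ZP (parOf (hh x y ε)) ≤ Z →
      PgZ692.Clo (cxOf (cfgO x y ε) la lf lg τ) b pe.B Z)
    (hin : PIn x y ε pe) (hS : pe.S = og cS kS rS 3 (inp x y ε).length) :
    Pgc578.Hyp (cxO x y ε τ) txtO progG (wO x y ε τ pe) (kO x y ε) (Zn (hh x y ε))
      (lcO (hh x y ε)) := by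
  have hO := LipO364.lipOk hN H.big.par H.big.KK
  have hV := vOkO (x := x) (y := y) (ε := ε) H.big
  have hs : ∀ e ≤ (cfgO x y ε).P.E, ∀ s, InD (cfgO x y ε).P.N (cfgO x y ε).I (cfgO x y ε).P.Dm s →
      GSt442.gst x y (cfgO x y ε).P.n s ≤ FE (cfgO x y ε).P ((cfgO x y ε).X τ) e s :=
    fun e he => soundO hN H.big hG he
  obtain ⟨hZ2, hZp, hZ64⟩ := Zn_ge (hh x y ε)
  have hZ : PgZ692.ZP (cfgO x y ε).P ≤ Zn (hh x y ε) :=
    le_trans (Nat.le_mul_of_pos_left _ (by norm_num)) hZ2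
  have hZ12 : 12 ≤ Zn (hh x y ε) := le_trans (by norm_num) hZ64
  have hM := exp_lt H hin
  have hE : Pgb578.Env (wO x y ε τ pe) (kO x y ε) (Zn (hh x y ε)) := by
    refine EnvK901.env_konO hin (by rw [progG_a1]; norm_num) hS hL hZp ?_
    have h3 := (H.num _ rfl).S
    refine le_trans ?_ (h3.trans (og_mono h1 (Nat.zero_le _) h2 _ _))
    rw [one_mul]
  have hcl := hC (laN x y (hh x y ε)) (lfN x y (hh x y ε)) (lgN x y (hh x y ε)) pe hin
    (txtO.b (kO x y ε)) (Zn (hh x y ε)) (b_konO.ge) hZ2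
  have hlf : LeafH (cxO x y ε τ) (wO x y ε τ pe) (Zn (hh x y ε)) (lcO (hh x y ε)) :=
    leafH hN hin hE rfl rfl rfl rfl
  exact {
    env := hE
    Z12 := hZ12
    N := EnvK901.N_pos
    NM := EnvK901.N_le hin
    Kpos := H.big.KK
    gX := has_X _
    gF := has_F _
    gA := has_A _
    gB := has_B _
    dP := PK_konO H.fit
    dla := la_konO
    dlf := lf_konO
    bX := fun l κ z => PrgG966.base_konO l κ z
    bF := fun e y => (PrgG966.base_ne _ (by norm_num) _ _).le.trans (Nat.zero_le _)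
    X_eq := fun l hl _ κ z hz => of_cxO.X_eq hl hz
    X_nxt := fun l hl hl' κ z hz => X_nxt H.w of_cxO hl hl' hz τ
    la_ok := hlf.la_ok
    la_E := hlf.la_E
    la_c := hlf.la_c
    la_wd := hlf.la_wd
    lg_lt := hlf.lg_lt
    leaf_eq := hlf.leaf_eq
    P_b := hcl.P_b
    A_b := hcl.A_b
    B_b := hcl.B_b
    P_S := hcl.P_S
    P_A := hcl.P_A
    S_0 := hcl.S_0
    S_h := hcl.S_h
    S_h0 := hcl.S_h0
    A_S := hcl.A_S
    A_B := hcl.A_B
    B_i := hcl.B_i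
    B_S := hcl.B_S
    B_P := hcl.B_P
    B_A := hcl.B_A
    wU := hcl.wU
    wX := hcl.wX
    wF := hcl.wF
    wA := hcl.wA
    wB := hcl.wB
    vX := vX _ _ _ hG hO hV hs hZ hM
    vF := vF _ _ _ hG hO hM
    vA := vA _ _ _ hG hO hV hs hZ hM
    vB := vB _ _ _ hG hO hV hs hZ hM
    zX := hcl.zX
    zF := hcl.zF
    z0 := hcl.z0
    zA := hcl.zA
    zA0 := hcl.zA0
    zB0 := hcl.zB0
    zB1 := hcl.zB1 }

/-- **P10: `Pgc578.Hyp` on every good tape of every input of large height** -/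
theorem hyp_cfg : ∃ r0 : ℕ, ∀ cS kS rS : ℕ, 1 ≤ cS → r0 ≤ rS → Ev fun x y ε =>
    og cS kS rS 3 (inp x y ε).length ≤ (inp x y ε).length ∧
    ∀ τ, (cfgO x y ε).Good ((cfgO x y ε).X τ) → ∀ pe, PIn x y ε pe →
      pe.S = og cS kS rS 3 (inp x y ε).length →
      Pgc578.Hyp (cxO x y ε τ) txtO progG (wO x y ε τ pe) (kO x y ε) (Zn (hh x y ε))
        (lcO (hh x y ε)) := by
  obtain ⟨r0, hr0⟩ := ev_AllH
  refine ⟨r0, fun cS kS rS h1 h2 => ?_⟩
  have hP : ∀ᶠ h : ℕ in atTop, AllH r0 h ∧ ∀ L : ℕ, Nat.clog 2 L = h → og cS kS rS 3 L ≤ L :=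
    hr0.and (PgG8155.og_le cS kS rS)
  refine (PgZ692.clo_cfgO.and (Ev.of hP fun x y ε hN h => (⟨hN, h⟩ : Num x y ε ∧ _))).mono ?_
  rintro x y ε - ⟨hC, hN, H, hL⟩
  exact ⟨hL _ rfl, fun τ hG pe hin hS => hyp_one hN H h1 h2 (hL _ rfl) hG (hC τ hG) hin hS⟩

end Crest.Agent.R288.Hyp53
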