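import Crest.Agent.R288.InitQ_663
import Crest.Agent.R288.InitN_775

/-!
# R288, leaf PROG.P6, index `0`: cost and fuel of the estimator in engine units (helper654)

The engine (PheC_940) pays `c + 1` for a request of cost `c`; every phase may carry one dummy
request (PgB_578 / PrK_690), cost `2`.

* `sC C l`          : one sample of the layer `l` (word phase, phase with `2 ^ l + 2` tables of cost `C`)
* `rC P C r k l cnt`: `cnt` samples of the layer `l`, then `k` layers (the shape of `InitQ663.restL`);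
  `rC_word`, `rC_next`, `rC_stop`
* `rF P F r k l cnt`: fuel, `F` = fuel of the child; `rF_word`, `rF_next`, `rF_stop`, `le_rF`
* `nC P lf m`, `nF P m` : cost and fuel of a node of level `m` (`lev q r`), `lf` = cost of a leaf request;
  `base_le`, `step_le`, `baseF_le`, `stepF_le`; closed forms `nC_le`, `nF_eq`
* `uC P lf h`, `uF P h` : the start unit at binary height `h`; `uC_le`
-/

set_option autoImplicit false

namespace Crest.Agent.R288.InitC654

open Crest.Agent.R288.Init772 Crest.Agent.R288.InitQ663 Crest.Agent.R288.InitN775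

/-! ### one node -/

/-- cost of one sample of the layer `l` -/
def sC (C l : ℕ) : ℕ := 4 + ((2 ^ l + 2) * (C + 1) + 2)

section node

variable (P : Init772.Par) (C F r : ℕ)

/-- cost of the layers `l, …, l + k - 1` -/
def tC : ℕ → ℕ → ℕ
  | 0, _ => 0
  | k + 1, l => 2 ^ (P.c + r - l) * sC C l + tC k (l + 1)

/-- cost of the rest: `cnt` samples of the layer `l`, then `k` layers -/
def rC (k l cnt : ℕ) : ℕ := cnt * sC C l + tC P C r k (l + 1)

/-- fuel of the layers `l, …, l + k - 1` -/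
def tF : ℕ → ℕ → ℕ
  | 0, _ => F + 1
  | k + 1, l => 2 ^ (P.c + r - l) * 2 + tF k (l + 1)

/-- fuel of the rest -/
def rF (k l cnt : ℕ) : ℕ := cnt * 2 + tF P F r k (l + 1)

/-- a sample: word phase, window phase, rest -/
theorem rC_word (k l cnt : ℕ) :
    rC P C r k l (cnt + 1) = 4 + (((2 ^ l + 2) * (C + 1) + 2) + rC P C r k l cnt) := by
  unfold rC sC
  ring

/-- the next layer -/
theorem rC_next (k l : ℕ) :
    rC P C r (k + 1) l 0 = rC P C r k (l + 1) (2 ^ (P.c + r - (l + 1))) := by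
  simp only [rC, tC, Nat.zero_mul, Nat.zero_add]

/-- the end -/
theorem rC_stop (l : ℕ) : rC P C r 0 l 0 = 0 := by simp [rC, tC]

theorem rF_word (k l cnt : ℕ) : rF P F r k l (cnt + 1) = rF P F r k l cnt + 1 + 1 := by
  unfold rF
  ring

theorem rF_next (k l : ℕ) :
    rF P F r (k + 1) l 0 = rF P F r k (l + 1) (2 ^ (P.c + r - (l + 1))) := by
  simp only [rF, tF, Nat.zero_mul, Nat.zero_add]

theorem rF_stop (l : ℕ) : rF P F r 0 l 0 = F + 1 := by simp [rF, tF]

theorem le_tF (k l : ℕ) : F + 1 ≤ tF P F r k l := by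
  induction k generalizing l with
  | zero => exact le_rfl
  | succ k ih => rw [tF]; exact (ih (l + 1)).trans (Nat.le_add_left _ _)

/-- the fuel of the child is below the fuel of every state -/
theorem le_rF (k l cnt : ℕ) : F + 1 ≤ rF P F r k l cnt :=
  (le_tF P F r k (l + 1)).trans (Nat.le_add_left _ _)

theorem tC_mono {C C' : ℕ} (hC : C ≤ C') {k k' : ℕ} (hk : k ≤ k') (l : ℕ) :
    tC P C r k l ≤ tC P C' r k' l := by
  induction k generalizing k' l with
  | zero => exact Nat.zero_le _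
  | succ k ih =>
    obtain ⟨k', rfl⟩ : ∃ j, k' = j + 1 := ⟨k' - 1, by omega⟩
    rw [tC, tC]
    refine Nat.add_le_add (Nat.mul_le_mul_left _ ?_) (ih (by omega) (l + 1))
    unfold sC
    gcongr

theorem tF_mono {F F' : ℕ} (hF : F ≤ F') {k k' : ℕ} (hk : k ≤ k') (l : ℕ) :
    tF P F r k l ≤ tF P F' r k' l := by
  induction k generalizing k' l with
  | zero => exact (Nat.add_le_add_right hF 1).trans (le_tF P F' r k' l)
  | succ k ih =>
    obtain ⟨k', rfl⟩ : ∃ j, k' = j + 1 := ⟨k' - 1, by omega⟩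
    rw [tF, tF]
    exact Nat.add_le_add_left (ih (by omega) (l + 1)) _

theorem rC_mono {C C' : ℕ} (hC : C ≤ C') {k k' : ℕ} (hk : k ≤ k') (l cnt : ℕ) :
    rC P C r k l cnt ≤ rC P C' r k' l cnt := by
  unfold rC
  refine Nat.add_le_add (Nat.mul_le_mul_left _ ?_) (tC_mono P r hC hk _)
  unfold sC
  gcongr

theorem rF_mono {F F' : ℕ} (hF : F ≤ F') {k k' : ℕ} (hk : k ≤ k') (l cnt : ℕ) :
    rF P F r k l cnt ≤ rF P F' r k' l cnt := Nat.add_le_add_left (tF_mono P r hF hk _) _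

/-- one layer -/
theorem layer_le {l : ℕ} (hl : l ≤ P.c + r) :
    2 ^ (P.c + r - l) * sC C l ≤ 9 * 2 ^ (P.c + r) * (C + 1) := by
  have h1 : sC C l ≤ 9 * 2 ^ l * (C + 1) := by
    have h2 : 1 ≤ 2 ^ l := Nat.one_le_two_pow
    unfold sC
    nlinarith [Nat.mul_le_mul_right (C + 1) h2]
  have h3 : 2 ^ (P.c + r) = 2 ^ (P.c + r - l) * 2 ^ l := by
    rw [← pow_add]; congr 1; omega
  calc 2 ^ (P.c + r - l) * sC C l ≤ 2 ^ (P.c + r - l) * (9 * 2 ^ l * (C + 1)) :=
        Nat.mul_le_mul_left _ h1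
    _ = 9 * 2 ^ (P.c + r) * (C + 1) := by rw [h3]; ring

theorem tC_le {k l : ℕ} (h : l + k ≤ P.c + r + 1) :
    tC P C r k l ≤ k * (9 * 2 ^ (P.c + r) * (C + 1)) := by
  induction k generalizing l with
  | zero => simp [tC]
  | succ k ih =>
    rw [tC]
    have h1 := layer_le P C r (l := l) (by omega)
    have h2 := ih (l := l + 1) (by omega)
    calc _ ≤ 9 * 2 ^ (P.c + r) * (C + 1) + k * (9 * 2 ^ (P.c + r) * (C + 1)) :=
          Nat.add_le_add h1 h2
      _ = _ := by ring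

/-- cost of a whole node -/
theorem rC_le (k : ℕ) (h : k ≤ P.c + r) :
    rC P C r k 0 (2 ^ (P.c + r)) ≤ (k + 1) * (9 * 2 ^ (P.c + r) * (C + 1)) := by
  have h1 := layer_le P C r (l := 0) (Nat.zero_le _)
  rw [Nat.sub_zero] at h1
  have h2 := tC_le P C r (k := k) (l := 0 + 1) (by omega)
  unfold rC
  calc _ ≤ 9 * 2 ^ (P.c + r) * (C + 1) + k * (9 * 2 ^ (P.c + r) * (C + 1)) :=
        Nat.add_le_add h1 h2
    _ = _ := by ring

theorem tF_le {k l : ℕ} (h : l + k ≤ P.c + r + 1) :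
    tF P F r k l ≤ F + 1 + 2 * 2 ^ (P.c + r + 1 - l) := by
  induction k generalizing l with
  | zero => rw [tF]; exact Nat.le_add_right _ _
  | succ k ih =>
    rw [tF]
    have h2 := ih (l := l + 1) (by omega)
    have h3 : P.c + r + 1 - l = P.c + r - l + 1 := by omega
    have h4 : P.c + r + 1 - (l + 1) = P.c + r - l := by omega
    rw [h4] at h2
    rw [h3, pow_succ]
    omega

/-- fuel of a whole node -/
theorem rF_le (k : ℕ) (h : k ≤ P.c + r) :
    rF P F r k 0 (2 ^ (P.c + r)) ≤ F + 1 + 2 ^ (P.c + r + 2) := by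
  have h2 := tF_le P F r (k := k) (l := 0 + 1) (by omega)
  unfold rF
  have h4 : P.c + r + 1 - (0 + 1) = P.c + r := by omega
  rw [h4] at h2
  have h5 : 2 ^ (P.c + r + 2) = 4 * 2 ^ (P.c + r) := by rw [pow_add]; ring
  omega

end node

/-! ### the levels -/

section levels

variable (P : Init772.Par) (lf : ℕ)

/-- level of the node `(q, r)` -/
def lev (q r : ℕ) : ℕ := if r = 0 then 0 else q + 1

theorem lev_zero (q : ℕ) : lev q 0 = 0 := by simp [lev]

theorem lev_pos {q r : ℕ} (hr : 1 ≤ r) : lev q r = q + 1 := by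
  unfold lev
  rw [if_neg (by omega)]

/-- the child of `(q, r)` has level `q` -/
theorem lev_child (hg : 1 ≤ P.g) (q : ℕ) : lev (q - 1) (chr P q) = q := by
  cases q with
  | zero => simp [chr, lev]
  | succ q =>
    have h1 : P.g ≠ 0 := by omega
    simp [chr, lev, h1]

/-- cost of a node of level `m` -/
def nC : ℕ → ℕ
  | 0 => 2 ^ P.σ * (lf + 1) + 2
  | m + 1 => (P.J + 1) * (9 * 2 ^ (P.c + P.g) * (nC m + 1))

/-- fuel of a node of level `m` -/
def nF (m : ℕ) : ℕ := m * (2 ^ (P.c + P.g + 2) + 1) + 2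

theorem nC_succ (m : ℕ) :
    nC P lf (m + 1) = (P.J + 1) * (9 * 2 ^ (P.c + P.g) * (nC P lf m + 1)) := rfl

theorem nC_le_succ (m : ℕ) : nC P lf m ≤ nC P lf (m + 1) := by
  rw [nC_succ]
  have h1 : 1 ≤ (P.J + 1) * (9 * 2 ^ (P.c + P.g)) :=
    Nat.mul_pos (by omega) (Nat.mul_pos (by norm_num) (Nat.two_pow_pos _))
  have h2 := Nat.mul_le_mul_right (nC P lf m + 1) h1
  have h3 : (P.J + 1) * (9 * 2 ^ (P.c + P.g)) * (nC P lf m + 1) =
      (P.J + 1) * (9 * 2 ^ (P.c + P.g) * (nC P lf m + 1)) := by ring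
  omega

theorem nC_mono {m m' : ℕ} (h : m ≤ m') : nC P lf m ≤ nC P lf m' :=
  monotone_nat_of_le_succ (nC_le_succ P lf) h

theorem nF_mono {m m' : ℕ} (h : m ≤ m') : nF P m ≤ nF P m' :=
  Nat.add_le_add_right (Nat.mul_le_mul_right _ h) _

/-- **the base case**: at most `2 ^ σ` leaf requests, one phase -/
theorem base_le (κ m : ℕ) : 2 ^ P.mu κ * (lf + 1) + 2 ≤ nC P lf m := by
  have h1 : 2 ^ P.mu κ ≤ 2 ^ P.σ := Nat.pow_le_pow_right (by norm_num) (min_le_right _ _)
  exact (Nat.add_le_add_right (Nat.mul_le_mul_right _ h1) _).trans (nC_mono P lf (Nat.zero_le m))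

theorem baseF_le (m : ℕ) : 2 ≤ nF P m := Nat.le_add_left _ _

theorem up_c {r : ℕ} (hr : r ≤ P.g) : (P.up r).c + r = P.c + P.g := by
  show P.c + (P.g - r) + r = P.c + P.g
  omega

/-- **the recursive case** -/
theorem step_le (hJ : P.J ≤ P.c + P.g) {r : ℕ} (hr : r ≤ P.g) (κ m : ℕ) {C : ℕ}
    (hC : C ≤ nC P lf m) :
    rC (P.up r) C r (min κ (P.up r).J) 0 (2 ^ ((P.up r).c + r)) ≤ nC P lf (m + 1) := by
  have e := up_c P hr
  have h1 := rC_le (P.up r) (nC P lf m) r P.J (by rw [e]; exact hJ)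
  rw [e] at h1
  rw [e]
  exact (rC_mono (P.up r) r hC (min_le_right κ P.J) 0 _).trans h1

theorem stepF_le (hJ : P.J ≤ P.c + P.g) {r : ℕ} (hr : r ≤ P.g) (κ m : ℕ) {F : ℕ}
    (hF : F ≤ nF P m) :
    rF (P.up r) F r (min κ (P.up r).J) 0 (2 ^ ((P.up r).c + r)) ≤ nF P (m + 1) := by
  have e := up_c P hr
  have h1 := rF_le (P.up r) (nF P m) r P.J (by rw [e]; exact hJ)
  rw [e] at h1
  rw [e]
  refine (rF_mono (P.up r) r hF (min_le_right κ P.J) 0 _).trans (h1.trans (le_of_eq ?_))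
  unfold nF
  ring

/-- **closed form** -/
theorem nC_le (m : ℕ) : nC P lf m + 1 ≤ (2 ^ P.σ * (lf + 1) + 3) * (2 ^ P.g * (4 * K P)) ^ m := by
  induction m with
  | zero => simp [nC]
  | succ m ih =>
    have h1 : (P.J + 1) * (9 * 2 ^ (P.c + P.g)) + 1 ≤ 2 ^ P.g * (4 * K P) := by
      have h2 : 2 ^ P.g * (4 * K P) = 16 * ((P.J + 1) * 2 ^ (P.c + P.g)) := by
        unfold K
        rw [pow_add]
        ring
      have h3 : 1 ≤ (P.J + 1) * 2 ^ (P.c + P.g) := Nat.mul_pos (by omega) (Nat.two_pow_pos _)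
      have h4 : (P.J + 1) * (9 * 2 ^ (P.c + P.g)) = 9 * ((P.J + 1) * 2 ^ (P.c + P.g)) := by ring
      omega
    rw [nC_succ]
    calc (P.J + 1) * (9 * 2 ^ (P.c + P.g) * (nC P lf m + 1)) + 1
        ≤ ((P.J + 1) * (9 * 2 ^ (P.c + P.g)) + 1) * (nC P lf m + 1) := by
          have h5 : (P.J + 1) * (9 * 2 ^ (P.c + P.g) * (nC P lf m + 1)) =
            (P.J + 1) * (9 * 2 ^ (P.c + P.g)) * (nC P lf m + 1) := by ring
          rw [h5]
          generalize (P.J + 1) * (9 * 2 ^ (P.c + P.g)) = a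
          rw [Nat.add_mul, Nat.one_mul]
          omega
      _ ≤ 2 ^ P.g * (4 * K P) * ((2 ^ P.σ * (lf + 1) + 3) * (2 ^ P.g * (4 * K P)) ^ m) :=
          Nat.mul_le_mul h1 ih
      _ = _ := by rw [pow_succ]; ring

/-! ### the start unit -/

/-- cost of the start unit at binary height `h` -/
def uC (h : ℕ) : ℕ := (h + 3) * (nC P lf ((h - 1) / P.g + 1) + 1) + 2

/-- fuel of the start unit -/
def uF (h : ℕ) : ℕ := nF P ((h - 1) / P.g + 1) + 1

/-- height `0`: one leaf request, one phase -/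
theorem uC_leaf (h : ℕ) : lf + 1 + 2 ≤ uC P lf h := by
  have h1 := base_le P lf 0 ((h - 1) / P.g + 1)
  have h2 : 1 * (lf + 1) ≤ 2 ^ P.mu 0 * (lf + 1) := Nat.mul_le_mul_right _ Nat.one_le_two_pow
  unfold uC
  nlinarith

/-- the scales of the height `h + 1`: node `(h / g, h % g + 1)` -/
theorem uC_succ (h : ℕ) : uC P lf (h + 1) = (h + 4) * (nC P lf (h / P.g + 1) + 1) + 2 := rfl

theorem uF_succ (h : ℕ) : uF P (h + 1) = nF P (h / P.g + 1) + 1 := rfl

theorem uC_le (h : ℕ) : uC P lf h ≤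
    ((h + 3) * (2 ^ P.σ * (lf + 1) + 3) + 2) * (2 ^ P.g * (4 * K P)) ^ ((h - 1) / P.g + 1) := by
  have h1 := nC_le P lf ((h - 1) / P.g + 1)
  have h2 : 1 ≤ (2 ^ P.g * (4 * K P)) ^ ((h - 1) / P.g + 1) :=
    Nat.one_le_pow _ _ (Nat.mul_pos (Nat.two_pow_pos _) (Nat.mul_pos (by norm_num) (one_le_K P)))
  unfold uC
  calc _ ≤ (h + 3) * ((2 ^ P.σ * (lf + 1) + 3) * (2 ^ P.g * (4 * K P)) ^ ((h - 1) / P.g + 1)) +
        2 * (2 ^ P.g * (4 * K P)) ^ ((h - 1) / P.g + 1) :=
        Nat.add_le_add (Nat.mul_le_mul_left _ h1) (by omega)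
    _ = _ := by ring

end levels

end Crest.Agent.R288.InitC654
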