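import Crest.Agent.R288.InitC_654
import Crest.Agent.R288.PgG8i_654

/-!
# R288, leaf PROG.P6, index `0`: cost and fuel of the start unit against the table (helper654)

Parameters `InitN775.par (gI h) D m`, `DmOk h D m` : `D ≤ 10 Lg h`, `m ≠ 0`, `m ≤ 10 W h h` (both instances
of `DI`, `mI` in use satisfy it: `dmOk_331`, `dmOk_806`).

* `two_pow_le_sub`, `ev_K` : `4 K (par ..) ≤ 2 ^ (26 Lg h)`
* **`uC_ev`** : `uC (par ..) lf (nn h * i) ≤ sui C' h * Y ^ i` for `lf ≤ sub C h`, `i ≤ II h + C`, `2 ^ nn h ≤ Y`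
* **`uF_ev`** : `uF (par ..) (nn h * i) ≤ sub C' h`
-/

set_option autoImplicit false

namespace Crest.Agent.R288.InitD654

open Filter Crest.Agent.R288.Asy720 Crest.Agent.R288.Pl726 Crest.Agent.R288.Shell12
open Crest.Agent.R288.Front327 Crest.Agent.R288.Par806 Crest.Agent.R288.PgG8155
open Crest.Agent.R288.PgG8i654 Crest.Agent.R288.InitC654
open Crest.Agent.R288.InitN775

/-- precision and failure exponent of INIT -/
structure DmOk (h D m : ℕ) : Prop where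
  D : D ≤ 10 * Lg h
  m0 : m ≠ 0
  m : m ≤ 10 * W h * h

theorem dmOk_331 : ∀ᶠ h : ℕ in atTop, DmOk h (10 * Lg h) (W h * h) := by
  filter_upwards [eventually_ge_atTop 1] with h h1
  have hW := W_pos h
  refine ⟨le_refl _, Nat.mul_ne_zero (by omega) (by omega), ?_⟩
  calc W h * h = 1 * (W h * h) := (one_mul _).symm
    _ ≤ 10 * (W h * h) := Nat.mul_le_mul_right _ (by norm_num)
    _ = 10 * W h * h := by ring

theorem dmOk_806 : ∀ᶠ h : ℕ in atTop,
    DmOk h (10 * Lg h) (W h * h + 2 * gI h + 2 * (10 * Lg h) + 12) := by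
  filter_upwards [eventually_ge_atTop 1, ev_pow_le_self 4 0 1 0 0 0 1] with h h1 h2
  simp only [pow_zero, mul_one, pow_one, zero_mul, add_zero] at h2
  have hW := W_pos h
  have hL := Lg_pos h
  refine ⟨le_refl _, by omega, ?_⟩
  have h3 : 4 * (W h * Lg h) ≤ W h * h := by
    calc 4 * (W h * Lg h) = W h * (4 * Lg h) := by ring
      _ ≤ W h * h := Nat.mul_le_mul_left _ h2
  have h4 : Lg h ≤ W h * Lg h := Nat.le_mul_of_pos_left _ hW
  have h5 : 1 ≤ W h * Lg h := Nat.mul_pos hW hL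
  have h6 : 10 * W h * h = 10 * (W h * h) := by ring
  unfold gI
  omega

/-- exponents -/
theorem two_pow_le_sub {e C h : ℕ} (he : e ≤ C * W h ^ C * Lg h ^ C * Mg h ^ C) :
    2 ^ e ≤ sub C h := Nat.pow_le_pow_right (by norm_num) he

/-- exponents `≤ a W Lg` -/
theorem two_pow_WL_le_sub {a C h : ℕ} (ha : a ≤ C) (hC : 1 ≤ C) :
    2 ^ (a * (W h * Lg h)) ≤ sub C h := by
  refine two_pow_le_sub ?_
  have hW := W_pos h
  have hL := Lg_pos h
  have hM := Mg_pos h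
  calc a * (W h * Lg h) = a * W h ^ 1 * Lg h ^ 1 * 1 := by ring
    _ ≤ C * W h ^ C * Lg h ^ C * Mg h ^ C :=
      Nat.mul_le_mul (Nat.mul_le_mul (Nat.mul_le_mul ha (Nat.pow_le_pow_right hW hC))
        (Nat.pow_le_pow_right hL hC)) (Nat.one_le_pow _ _ hM)

/-- the factor of a macro level -/
theorem ev_K : ∀ᶠ h : ℕ in atTop, ∀ D m : ℕ, DmOk h D m →
    4 * K (par (gI h) D m) ≤ 2 ^ (26 * Lg h) := by
  filter_upwards [K_ev 10] with h h1 D m hd
  have h3 := h1 D m hd.D hd.m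
  have h4 := (K_le (g := gI h) (D := D) hd.m0).trans h3
  have hL := Lg_pos h
  calc 4 * K (par (gI h) D m) ≤ 4 * 2 ^ ((2 * 10 + 4) * Lg h) := Nat.mul_le_mul_left _ h4
    _ = 2 ^ (2 + 24 * Lg h) := by rw [pow_add]; norm_num
    _ ≤ 2 ^ (26 * Lg h) := Nat.pow_le_pow_right (by norm_num) (by omega)

/-- the hypotheses of InitC_654 -/
theorem par_J (g D m : ℕ) : (par g D m).J ≤ (par g D m).c + (par g D m).g := by
  show g + D + 4 ≤ 2 * D + 11 + Nat.clog 2 (g + D + 5) + Nat.clog 2 m + g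
  omega

theorem par_g (h D m : ℕ) : 1 ≤ (par (gI h) D m).g := Nat.mul_pos (W_pos h) (Lg_pos h)

/-- heights -/
theorem ev_H (C : ℕ) : ∀ᶠ h : ℕ in atTop, ∀ i : ℕ, i ≤ II h + C → nn h * i + 4 ≤ 2 ^ (2 * Lg h) := by
  filter_upwards [ev_pow_le_self (C + 5) 2 0 1 0 0 1, eventually_ge_atTop 1] with h h1 h2 i hi
  simp only [pow_zero, mul_one, pow_one, zero_mul, add_zero] at h1
  have hn := nn_mul_le hi
  have e1 : (C + 1) * nn h + 4 ≤ h := by
    have hW := W_pos h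
    have hM := Mg_pos h
    have h5 : 1 ≤ W h ^ 2 * Mg h := Nat.mul_pos (by positivity) hM
    calc (C + 1) * nn h + 4 ≤ (C + 1) * (W h ^ 2 * Mg h) + 4 * (W h ^ 2 * Mg h) := by
          unfold nn
          have : (C + 1) * (Mg h * W h ^ 2) = (C + 1) * (W h ^ 2 * Mg h) := by ring
          omega
      _ = (C + 5) * W h ^ 2 * Mg h := by ring
      _ ≤ h := h1
  have hh := lt_two_pow_Lg h
  have hL := Lg_pos h
  have h6 : 2 * 2 ^ Lg h ≤ 2 ^ (2 * Lg h) := by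
    calc 2 * 2 ^ Lg h = 2 ^ (Lg h + 1) := by rw [pow_succ]; ring
      _ ≤ 2 ^ (2 * Lg h) := Nat.pow_le_pow_right (by norm_num) (by omega)
  omega

/-- **cost of the start unit** -/
theorem uC_ev (C : ℕ) : ∃ C' : ℕ, ∀ᶠ h : ℕ in atTop, ∀ D m : ℕ, DmOk h D m → ∀ lf i Y : ℕ,
    lf ≤ sub C h → i ≤ II h + C → 2 ^ nn h ≤ Y →
    uC (par (gI h) D m) lf (nn h * i) ≤ sui C' h * Y ^ i := by
  refine ⟨C + 16 + (C + 26 + 2) ^ 2, ?_⟩
  filter_upwards [ev_K, ev_H C] with h h1 h2 D m hd lf i Y h3 h4 h5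
  replace h1 := h1 D m hd
  have hD := hd.D
  have hL := Lg_pos h
  have hW := W_pos h
  have h6 := uC_le (par (gI h) D m) lf (nn h * i)
  have hA : (nn h * i + 3) * (2 ^ (par (gI h) D m).σ * (lf + 1) + 3) + 2 ≤ sub (C + 16) h := by
    have a0 : Lg h ≤ W h * Lg h := Nat.le_mul_of_pos_left _ hW
    have a1 := h2 i h4
    have a2 : 1 ≤ 2 ^ (par (gI h) D m).σ := Nat.one_le_two_pow
    have a3 : 2 ^ (par (gI h) D m).σ ≤ 2 ^ (11 * (W h * Lg h)) := by
      refine Nat.pow_le_pow_right (by norm_num) ?_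
      show gI h + D ≤ _
      unfold gI
      omega
    have a4 : 1 ≤ sub C h := one_le_sub C h
    have a5 : 2 ^ (par (gI h) D m).σ * (lf + 1) + 3 ≤ 2 ^ (11 * (W h * Lg h)) * (5 * sub C h) := by
      calc 2 ^ (par (gI h) D m).σ * (lf + 1) + 3 ≤ 2 ^ (par (gI h) D m).σ * (sub C h + 1) + 3 * 2 ^ (par (gI h) D m).σ := by
            gcongr
            omega
        _ = 2 ^ (par (gI h) D m).σ * (sub C h + 4) := by ring
        _ ≤ 2 ^ (11 * (W h * Lg h)) * (5 * sub C h) := Nat.mul_le_mul a3 (by omega)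
    have a6 : 2 ≤ 2 ^ (11 * (W h * Lg h)) * (5 * sub C h) := by
      have : 1 ≤ 2 ^ (11 * (W h * Lg h)) := Nat.one_le_two_pow
      nlinarith
    have a7 : 5 ≤ 2 ^ (3 * (W h * Lg h)) := by
      have : 1 ≤ W h * Lg h := Nat.mul_pos hW hL
      calc 5 ≤ 2 ^ (3 * 1) := by norm_num
        _ ≤ _ := Nat.pow_le_pow_right (by norm_num) (by omega)
    calc (nn h * i + 3) * (2 ^ (par (gI h) D m).σ * (lf + 1) + 3) + 2
        ≤ (nn h * i + 3) * (2 ^ (11 * (W h * Lg h)) * (5 * sub C h)) +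
            2 ^ (11 * (W h * Lg h)) * (5 * sub C h) := Nat.add_le_add (Nat.mul_le_mul_left _ a5) a6
      _ = (nn h * i + 4) * (2 ^ (11 * (W h * Lg h)) * (5 * sub C h)) := by ring
      _ ≤ 2 ^ (2 * Lg h) * (2 ^ (11 * (W h * Lg h)) * (2 ^ (3 * (W h * Lg h)) * sub C h)) := by
          gcongr
      _ ≤ 2 ^ (2 * (W h * Lg h)) * (2 ^ (11 * (W h * Lg h)) *
            (2 ^ (3 * (W h * Lg h)) * sub C h)) :=
          Nat.mul_le_mul_right _ (Nat.pow_le_pow_right (by norm_num) (by omega))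
      _ = 2 ^ (16 * (W h * Lg h)) * sub C h := by
          rw [← mul_assoc, ← mul_assoc, ← pow_add, ← pow_add]
          congr 2
          ring
      _ ≤ sub 16 h * sub C h :=
          Nat.mul_le_mul_right _ (two_pow_WL_le_sub (le_refl _) (by norm_num))
      _ ≤ sub (16 + C) h := sub_mul _ _ _
      _ = sub (C + 16) h := by rw [Nat.add_comm]
  have h7 : uC (par (gI h) D m) lf (nn h * i) ≤
      sub (C + 16) h * (2 ^ gI h * (4 * K (par (gI h) D m))) ^ ((nn h * i - 1) / gI h + 1) :=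
    h6.trans (Nat.mul_le_mul_right _ hA)
  have h8 : 4 * K (par (gI h) D m) ≤ 2 ^ ((C + 26) * Lg h) :=
    h1.trans (Nat.pow_le_pow_right (by norm_num) (Nat.mul_le_mul_right _ (by omega)))
  have h9 := init_b0 (C + 26) (h := h) (i := i) (q := (nn h * i - 1) / gI h + 1)
    (K := 4 * K (par (gI h) D m)) (A := sub (C + 16) h) (Y := Y) (by omega) h8 (q_le h _) h5 h7
  refine h9.trans (Nat.mul_le_mul_right _ ?_)
  exact (Nat.mul_le_mul_right _ (sub_le_sui _ _)).trans (sui_mul _ _ _)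

/-- **fuel of the start unit** -/
theorem uF_ev (C : ℕ) : ∃ C' : ℕ, ∀ᶠ h : ℕ in atTop, ∀ D m : ℕ, DmOk h D m → ∀ i : ℕ,
    i ≤ II h + C → uF (par (gI h) D m) (nn h * i) ≤ sub C' h := by
  refine ⟨32, ?_⟩
  filter_upwards [ev_K, ev_H C] with h h1 h2 D m hd i h4
  replace h1 := h1 D m hd
  have hL := Lg_pos h
  have hW := W_pos h
  have a0 : Lg h ≤ W h * Lg h := Nat.le_mul_of_pos_left _ hW
  have a1 := h2 i h4
  have b1 : (nn h * i - 1) / (par (gI h) D m).g + 1 ≤ 2 ^ (2 * Lg h) := by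
    have := Nat.div_le_self (nn h * i - 1) (par (gI h) D m).g
    omega
  have b2 : 2 ^ ((par (gI h) D m).c + (par (gI h) D m).g + 2) ≤ 2 ^ (gI h) * 2 ^ (26 * Lg h) := by
    have e1 : 2 ^ ((par (gI h) D m).c + (par (gI h) D m).g + 2) = 2 ^ gI h * (4 * 2 ^ (par (gI h) D m).c) := by
      rw [show (par (gI h) D m).c + (par (gI h) D m).g + 2 = gI h + (2 + (par (gI h) D m).c) by
        show (par (gI h) D m).c + gI h + 2 = _
        omega, pow_add, pow_add 2 2]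
      norm_num
    rw [e1]
    refine Nat.mul_le_mul_left _ (le_trans ?_ h1)
    unfold K
    calc 4 * 2 ^ (par (gI h) D m).c = 4 * (1 * 2 ^ (par (gI h) D m).c) := by ring
      _ ≤ 4 * (4 * ((par (gI h) D m).J + 1) * 2 ^ (par (gI h) D m).c) := by
        gcongr
        omega
  have b3 : uF (par (gI h) D m) (nn h * i) ≤ 2 ^ (2 * Lg h) * (5 * (2 ^ (gI h) * 2 ^ (26 * Lg h))) := by
    have c1 : 1 ≤ 2 ^ (2 * Lg h) := Nat.one_le_two_pow
    have c2 : 1 ≤ 2 ^ (gI h) * 2 ^ (26 * Lg h) := Nat.mul_pos (Nat.two_pow_pos _) (Nat.two_pow_pos _)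
    unfold uF nF
    calc ((nn h * i - 1) / (par (gI h) D m).g + 1) * (2 ^ ((par (gI h) D m).c + (par (gI h) D m).g + 2) + 1) + 2 + 1
        ≤ 2 ^ (2 * Lg h) * (2 ^ (gI h) * 2 ^ (26 * Lg h) + 1) + 2 + 1 := by gcongr
      _ ≤ 2 ^ (2 * Lg h) * (5 * (2 ^ (gI h) * 2 ^ (26 * Lg h))) := by nlinarith
  refine b3.trans ?_
  have a7 : 5 ≤ 2 ^ (3 * (W h * Lg h)) := by
    have : 1 ≤ W h * Lg h := Nat.mul_pos hW hL
    calc 5 ≤ 2 ^ (3 * 1) := by norm_num
      _ ≤ _ := Nat.pow_le_pow_right (by norm_num) (by omega)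
  calc 2 ^ (2 * Lg h) * (5 * (2 ^ (gI h) * 2 ^ (26 * Lg h)))
      ≤ 2 ^ (2 * (W h * Lg h)) * (2 ^ (3 * (W h * Lg h)) * (2 ^ (W h * Lg h) *
          2 ^ (26 * (W h * Lg h)))) := by
        refine Nat.mul_le_mul (Nat.pow_le_pow_right (by norm_num) (by omega))
          (Nat.mul_le_mul a7 (Nat.mul_le_mul (le_refl _) (Nat.pow_le_pow_right (by norm_num)
            (by omega))))
    _ = 2 ^ (32 * (W h * Lg h)) := by
        rw [← pow_add, ← pow_add, ← pow_add]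
        congr 1
        ring
    _ ≤ sub 32 h := two_pow_WL_le_sub (le_refl _) (by norm_num)

end Crest.Agent.R288.InitD654
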