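import Crest.Agent.R288.InitD_654
import Crest.Agent.R288.InitZ_663

/-!
# R288, leaf PROG.P6, index `0`: cost `CE` and fuel `fu` of InitZ_663 / InitX_772 against the table
(helper654)

`InitX772.u0_rz`: the start unit at binary height `H = nn i` has cost `(H + 4) * (CE K CX d + 1)`, fuel
`fu K d + 2`, `d = (H - 1) / g + 1`.

* **`CE_ev`** : `(nn h * i + C) * (CE K lf d + C) + C ≤ sui C' h * Y ^ i`
* **`fu_ev`** : `fu K d + C ≤ sub C' h`

for `parK K = InitN775.par (gI h) D m`, `DmOk h D m`, `lf ≤ sub C h`, `i ≤ II h + C`, `2 ^ nn h ≤ Y`,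
`d ≤ (nn h * i - 1) / gI h + 1`, `h` large.
-/

set_option autoImplicit false

namespace Crest.Agent.R288.InitE654

open Filter Crest.Agent.R288.Asy720 Crest.Agent.R288.Pl726 Crest.Agent.R288.Shell12
open Crest.Agent.R288.Front327 Crest.Agent.R288.Par806 Crest.Agent.R288.PgG8155
open Crest.Agent.R288.PgG8i654 Crest.Agent.R288.InitD654
open Crest.Agent.R288.InitN775 Crest.Agent.R288.InitS663 Crest.Agent.R288.InitZ663

theorem const_le_sub (a h : ℕ) : a ≤ sub a h := by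
  have h2 := W_pos h
  have h3 := Lg_pos h
  have h4 := Mg_pos h
  unfold sub
  refine (Nat.lt_two_pow_self (n := a)).le.trans (Nat.pow_le_pow_right (by norm_num) ?_)
  calc a = a * 1 * 1 * 1 := by ring
    _ ≤ a * W h ^ a * Lg h ^ a * Mg h ^ a :=
      Nat.mul_le_mul (Nat.mul_le_mul (Nat.mul_le_mul_left _ (Nat.one_le_pow _ _ h2))
        (Nat.one_le_pow _ _ h3)) (Nat.one_le_pow _ _ h4)

/-- the product of the three factors -/
theorem comb {N a b c h x y : ℕ} (h1 : N ≤ a * x) (h2 : a ≤ sub a h)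
    (h3 : x ≤ sub b h * sui c h * y) : N ≤ sui (a + b + c) h * y := by
  calc N ≤ a * x := h1
    _ ≤ sui a h * (sub b h * sui c h * y) := Nat.mul_le_mul (h2.trans (sub_le_sui _ _)) h3
    _ ≤ sui a h * (sui b h * sui c h * y) :=
        Nat.mul_le_mul_left _ (Nat.mul_le_mul_right _ (Nat.mul_le_mul_right _ (sub_le_sui _ _)))
    _ = sui a h * sui b h * sui c h * y := by ring
    _ ≤ _ := Nat.mul_le_mul_right _ ((Nat.mul_le_mul_right _ (sui_mul _ _ _)).trans (sui_mul _ _ _))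

/-- constants -/
theorem slack (C H c : ℕ) :
    (H + C) * (c + C) + C ≤ ((C + 1) ^ 2 * (C + 2)) * ((H + 4) * (c + 1)) := by
  have e1 : H + C ≤ (C + 1) * (H + 4) := by
    have : (C + 1) * (H + 4) = H + C + (C * H + 3 * C + 4) := by ring
    omega
  have e2 : c + C ≤ (C + 1) * (c + 1) := by
    have : (C + 1) * (c + 1) = c + C + (C * c + 1) := by ring
    omega
  have e3 : C ≤ C * ((H + 4) * (c + 1)) :=
    Nat.le_mul_of_pos_right _ (Nat.mul_pos (by omega) (by omega))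
  have e4 : (C + 1) ^ 2 * (C + 2) = (C + 1) ^ 2 + C + ((C + 1) ^ 3 - C) := by
    have : C ≤ (C + 1) ^ 3 := by
      calc C ≤ C + 1 := by omega
        _ = (C + 1) ^ 1 := (pow_one _).symm
        _ ≤ (C + 1) ^ 3 := Nat.pow_le_pow_right (by omega) (by norm_num)
    have h2 : (C + 1) ^ 2 * (C + 2) = (C + 1) ^ 2 + (C + 1) ^ 3 := by ring
    omega
  calc (H + C) * (c + C) + C ≤ ((C + 1) * (H + 4)) * ((C + 1) * (c + 1)) +
        C * ((H + 4) * (c + 1)) := Nat.add_le_add (Nat.mul_le_mul e1 e2) e3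
    _ = ((C + 1) ^ 2 + C) * ((H + 4) * (c + 1)) := by ring
    _ ≤ ((C + 1) ^ 2 * (C + 2)) * ((H + 4) * (c + 1)) := by
        refine Nat.mul_le_mul_right _ ?_
        rw [e4]
        exact Nat.le_add_right _ _

/-- the factor of one macro level -/
theorem ten_le (P : Init772.Par) :
    10 * ((P.J + 1) * 2 ^ (P.c + P.g)) ≤ 2 ^ P.g * (4 * InitN775.K P) := by
  have h2 : 2 ^ P.g * (4 * InitN775.K P) = 16 * ((P.J + 1) * 2 ^ (P.c + P.g)) := by
    unfold InitN775.K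
    rw [pow_add]
    ring
  rw [h2]
  exact Nat.mul_le_mul_right _ (by norm_num)

/-- **cost of the start unit** -/
theorem CE_ev (C : ℕ) : ∃ C' : ℕ, ∀ᶠ h : ℕ in atTop, ∀ D m : ℕ, DmOk h D m → ∀ K : KI,
    parK K = par (gI h) D m → ∀ lf i Y d : ℕ, lf ≤ sub C h → i ≤ II h + C → 2 ^ nn h ≤ Y →
    d ≤ (nn h * i - 1) / gI h + 1 →
    (nn h * i + C) * (CE K lf d + C) + C ≤ sui C' h * Y ^ i := by
  refine ⟨(C + 1) ^ 2 * (C + 2) + (C + 20) + (C + 26 + 2) ^ 2, ?_⟩
  filter_upwards [ev_K, ev_H C] with h h1 h2 D m hd K hK lf i Y d h3 h4 h5 hdd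
  replace h1 := h1 D m hd
  have hD := hd.D
  have hL := Lg_pos h
  have hW := W_pos h
  set P := par (gI h) D m with hP
  have hg : P.g = gI h := rfl
  set X := 2 ^ gI h * (4 * InitN775.K P) with hX
  set q := (nn h * i - 1) / gI h + 1 with hq
  -- the closed form
  have c1 : CE K lf d + 1 ≤ X ^ q * (2 ^ P.σ * (lf + 1) + 1) := by
    refine (Nat.add_le_add_right (CE_mono K lf hdd) 1).trans ((CE_le K lf q).trans ?_)
    rw [hK]
    refine Nat.mul_le_mul_right _ (Nat.pow_le_pow_left ?_ _)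
    have := ten_le P
    rwa [hg] at this
  have hA : (nn h * i + 4) * (2 ^ P.σ * (lf + 1) + 1) ≤ sub (C + 20) h := by
    have a0 : Lg h ≤ W h * Lg h := Nat.le_mul_of_pos_left _ hW
    have a1 := h2 i h4
    have a3 : 2 ^ P.σ ≤ 2 ^ (11 * (W h * Lg h)) := by
      refine Nat.pow_le_pow_right (by norm_num) ?_
      show gI h + D ≤ _
      unfold gI
      omega
    have a4 : 1 ≤ sub C h := one_le_sub C h
    have a5 : 2 ^ P.σ * (lf + 1) + 1 ≤ 2 ^ (11 * (W h * Lg h)) * (3 * sub C h) := by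
      have a2 : 1 ≤ 2 ^ P.σ := Nat.one_le_two_pow
      calc 2 ^ P.σ * (lf + 1) + 1 ≤ 2 ^ P.σ * (sub C h + 1) + 1 * 2 ^ P.σ := by
            gcongr
            omega
        _ = 2 ^ P.σ * (sub C h + 2) := by ring
        _ ≤ 2 ^ (11 * (W h * Lg h)) * (3 * sub C h) := Nat.mul_le_mul a3 (by omega)
    have a7 : 3 ≤ 2 ^ (2 * (W h * Lg h)) := by
      have : 1 ≤ W h * Lg h := Nat.mul_pos hW hL
      calc 3 ≤ 2 ^ (2 * 1) := by norm_num
        _ ≤ _ := Nat.pow_le_pow_right (by norm_num) (by omega)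
    calc (nn h * i + 4) * (2 ^ P.σ * (lf + 1) + 1)
        ≤ 2 ^ (2 * Lg h) * (2 ^ (11 * (W h * Lg h)) * (2 ^ (2 * (W h * Lg h)) * sub C h)) := by
          refine Nat.mul_le_mul a1 (a5.trans (Nat.mul_le_mul_left _ (Nat.mul_le_mul_right _ a7)))
      _ ≤ 2 ^ (2 * (W h * Lg h)) * (2 ^ (11 * (W h * Lg h)) *
            (2 ^ (2 * (W h * Lg h)) * sub C h)) :=
          Nat.mul_le_mul_right _ (Nat.pow_le_pow_right (by norm_num) (by omega))
      _ = 2 ^ (15 * (W h * Lg h)) * sub C h := by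
          rw [← mul_assoc, ← mul_assoc, ← pow_add, ← pow_add]
          congr 2
          ring
      _ ≤ sub 20 h * sub C h :=
          Nat.mul_le_mul_right _ (two_pow_WL_le_sub (by norm_num) (by norm_num))
      _ ≤ sub (20 + C) h := sub_mul _ _ _
      _ = sub (C + 20) h := by rw [Nat.add_comm]
  have c2 := slack C (nn h * i) (CE K lf d)
  have c3 : (nn h * i + 4) * (CE K lf d + 1) ≤ sub (C + 20) h * X ^ q := by
    calc (nn h * i + 4) * (CE K lf d + 1)
        ≤ (nn h * i + 4) * (X ^ q * (2 ^ P.σ * (lf + 1) + 1)) := Nat.mul_le_mul_left _ c1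
      _ = ((nn h * i + 4) * (2 ^ P.σ * (lf + 1) + 1)) * X ^ q := by ring
      _ ≤ _ := Nat.mul_le_mul_right _ hA
  have h8 : 4 * InitN775.K P ≤ 2 ^ ((C + 26) * Lg h) :=
    h1.trans (Nat.pow_le_pow_right (by norm_num) (Nat.mul_le_mul_right _ (by omega)))
  have h9 := init_b0 (C + 26) (h := h) (i := i) (q := q)
    (K := 4 * InitN775.K P) (A := sub (C + 20) h) (Y := Y) (by omega) h8 (q_le h _) h5 c3
  exact comb c2 (const_le_sub _ h) h9

/-- **fuel of the start unit** -/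
theorem fu_ev (C : ℕ) : ∃ C' : ℕ, ∀ᶠ h : ℕ in atTop, ∀ D m : ℕ, DmOk h D m → ∀ K : KI,
    parK K = par (gI h) D m → ∀ i d : ℕ, i ≤ II h + C → d ≤ (nn h * i - 1) / gI h + 1 →
    fu K d + C ≤ sub C' h := by
  refine ⟨32 + (C + 2), ?_⟩
  filter_upwards [ev_K, ev_H C] with h h1 h2 D m hd K hK i d h4 hdd
  replace h1 := h1 D m hd
  have hL := Lg_pos h
  have hW := W_pos h
  have a0 : Lg h ≤ W h * Lg h := Nat.le_mul_of_pos_left _ hW
  have a1 := h2 i h4
  set P := par (gI h) D m with hP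
  have hg : P.g = gI h := rfl
  set R := (P.J + 1) * 2 ^ (P.c + P.g) with hR
  have hR1 : 1 ≤ R := Nat.mul_pos (by omega) (Nat.two_pow_pos _)
  have b1 : d ≤ 2 ^ (2 * Lg h) := by
    have := Nat.div_le_self (nn h * i - 1) (gI h)
    omega
  have b2 : 10 * R ≤ 2 ^ gI h * 2 ^ (26 * Lg h) := by
    have := ten_le P
    rw [hg] at this
    exact this.trans (Nat.mul_le_mul_left _ h1)
  have b3 : fu K d ≤ 2 ^ (2 * Lg h) * (2 ^ gI h * 2 ^ (26 * Lg h)) := by
    have b4 : 1 ≤ 2 ^ (2 * Lg h) := Nat.one_le_two_pow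
    unfold fu
    rw [hK]
    calc (2 * R + 2) * d + 2 ≤ (2 * R + 2) * 2 ^ (2 * Lg h) + 2 * 2 ^ (2 * Lg h) := by
          gcongr
          omega
      _ = 2 ^ (2 * Lg h) * (2 * R + 4) := by ring
      _ ≤ 2 ^ (2 * Lg h) * (10 * R) := Nat.mul_le_mul_left _ (by omega)
      _ ≤ _ := Nat.mul_le_mul_left _ b2
  have b5 : 2 ^ (2 * Lg h) * (2 ^ gI h * 2 ^ (26 * Lg h)) ≤ sub 32 h := by
    calc 2 ^ (2 * Lg h) * (2 ^ gI h * 2 ^ (26 * Lg h))
        ≤ 2 ^ (2 * (W h * Lg h)) * (2 ^ (W h * Lg h) * 2 ^ (26 * (W h * Lg h))) := by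
          refine Nat.mul_le_mul (Nat.pow_le_pow_right (by norm_num) (by omega))
            (Nat.mul_le_mul (le_refl _) (Nat.pow_le_pow_right (by norm_num) (by omega)))
      _ = 2 ^ (29 * (W h * Lg h)) := by
          rw [← pow_add, ← pow_add]
          congr 1
          ring
      _ ≤ sub 32 h := two_pow_WL_le_sub (by norm_num) (by norm_num)
  have b6 : C + 2 ≤ sub (C + 2) h := const_le_sub _ _
  have b7 : 1 ≤ sub 32 h := one_le_sub _ _
  have b8 : 1 ≤ sub (C + 2) h := one_le_sub _ _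
  calc fu K d + C ≤ sub 32 h + C := Nat.add_le_add_right (b3.trans b5) _
    _ ≤ sub 32 h * sub (C + 2) h := by nlinarith
    _ ≤ _ := sub_mul _ _ _

end Crest.Agent.R288.InitE654
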