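import Crest.Agent.R288.InitD_654
import Crest.Agent.R288.InitZ_663

/-!
# R288, leaf PROG.P6, index `0`: cost `CE` and fuel `fu` of InitZ_663 / InitX_772 against the table (helper776)

`K : KI` with `parK K = par (gI h) D m`, `DmOk h D m` (InitD_654), `h` = parameter, `i` = macro height.

* **`cE_ev`** : `(nn h * i + 4) * (CE K CX d + 1) + x ≤ sui C' h * Y ^ i` for `CX, x ≤ sub C h`,
  `i ≤ II h + C`, `d ≤ nn h * i / gI h + 1`, `2 ^ nn h ≤ Y` (so `CP.b0 := sui C' h`, `CP.init_ok`)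
* **`fu_ev`** : `fu K d + x ≤ sub C' h` for `d ≤ nn h * (II h + C) / gI h + 1`, `x ≤ sub C h`
-/

set_option autoImplicit false

namespace Crest.Agent.R288.InitE776

open Filter Crest.Agent.R288.Asy720 Crest.Agent.R288.Par806 Crest.Agent.R288.PgG8155
open Crest.Agent.R288.PgG8i654 Crest.Agent.R288.InitD654 Crest.Agent.R288.InitN775
open Crest.Agent.R288.InitZ663 Crest.Agent.R288.InitW663 Crest.Agent.R288.InitS663
open Crest.Agent.R288.InitQ663

/-- the factor of a macro level of `CE_le` -/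
theorem base_le (P : Init772.Par) :
    10 * ((P.J + 1) * 2 ^ (P.c + P.g)) ≤ 2 ^ P.g * (4 * InitN775.K P) := by
  unfold InitN775.K
  rw [pow_add]
  calc 10 * ((P.J + 1) * (2 ^ P.c * 2 ^ P.g)) = 2 ^ P.g * (10 * ((P.J + 1) * 2 ^ P.c)) := by ring
    _ ≤ 2 ^ P.g * (16 * ((P.J + 1) * 2 ^ P.c)) := by gcongr; norm_num
    _ = _ := by ring

/-- the prefactor -/
theorem A_le {C h i CX σ x : ℕ} (h1 : nn h * i + 4 ≤ 2 ^ (2 * Lg h)) (hσ : σ ≤ 11 * (W h * Lg h))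
    (h3 : CX ≤ sub C h) (hx : x ≤ sub C h) :
    (nn h * i + 4) * (2 ^ σ * (CX + 1) + 1) + x ≤ sub (C + 16) h := by
  have hL := Lg_pos h
  have hW := W_pos h
  have hWL : 1 ≤ W h * Lg h := Nat.mul_pos hW hL
  have a0 : Lg h ≤ W h * Lg h := Nat.le_mul_of_pos_left _ hW
  have a4 : 1 ≤ sub C h := one_le_sub C h
  have a3 : 2 ^ σ ≤ 2 ^ (11 * (W h * Lg h)) := Nat.pow_le_pow_right (by norm_num) hσ
  have a2 : 1 ≤ 2 ^ (11 * (W h * Lg h)) := Nat.one_le_two_pow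
  have a1 : 1 ≤ 2 ^ (2 * Lg h) := Nat.one_le_two_pow
  have a5 : 2 ^ (2 * Lg h) ≤ 2 ^ (2 * (W h * Lg h)) :=
    Nat.pow_le_pow_right (by norm_num) (by omega)
  have a7 : 4 ≤ 2 ^ (3 * (W h * Lg h)) := by
    calc 4 ≤ 2 ^ (3 * 1) := by norm_num
      _ ≤ _ := Nat.pow_le_pow_right (by norm_num) (by omega)
  have e2 : 2 ^ σ * (CX + 1) + 1 ≤ 2 ^ (11 * (W h * Lg h)) * (3 * sub C h) := by
    calc 2 ^ σ * (CX + 1) + 1 ≤ 2 ^ (11 * (W h * Lg h)) * (sub C h + 1) + 2 ^ (11 * (W h * Lg h)) := by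
          gcongr
      _ = 2 ^ (11 * (W h * Lg h)) * (sub C h + 2) := by ring
      _ ≤ _ := Nat.mul_le_mul_left _ (by omega)
  calc (nn h * i + 4) * (2 ^ σ * (CX + 1) + 1) + x
      ≤ 2 ^ (2 * Lg h) * (2 ^ (11 * (W h * Lg h)) * (3 * sub C h)) +
        2 ^ (2 * Lg h) * (2 ^ (11 * (W h * Lg h)) * (1 * sub C h)) := by
        refine Nat.add_le_add (Nat.mul_le_mul h1 e2) ?_
        calc x ≤ 1 * (1 * (1 * sub C h)) := by omega
          _ ≤ _ := Nat.mul_le_mul a1 (Nat.mul_le_mul_right _ a2)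
    _ = 2 ^ (2 * Lg h) * (2 ^ (11 * (W h * Lg h)) * (4 * sub C h)) := by ring
    _ ≤ 2 ^ (2 * (W h * Lg h)) * (2 ^ (11 * (W h * Lg h)) * (2 ^ (3 * (W h * Lg h)) * sub C h)) := by
        gcongr
    _ = 2 ^ (16 * (W h * Lg h)) * sub C h := by
        rw [show 16 * (W h * Lg h) = 2 * (W h * Lg h) + 11 * (W h * Lg h) + 3 * (W h * Lg h) by ring,
          pow_add, pow_add]
        ring
    _ ≤ sub 16 h * sub C h :=
        Nat.mul_le_mul_right _ (two_pow_WL_le_sub (le_refl 16) (by norm_num))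
    _ ≤ sub (16 + C) h := sub_mul _ _ _
    _ ≤ _ := sub_mono (by omega) h

theorem comb {n c b x T u : ℕ} (h : c ≤ u * b) (hu : u ≤ T) (hT : 1 ≤ T) :
    n * c + x ≤ (n * b + x) * T := by
  calc n * c + x ≤ n * (T * b) + x * T :=
        Nat.add_le_add (Nat.mul_le_mul_left _ (h.trans (Nat.mul_le_mul_right _ hu)))
          (Nat.le_mul_of_pos_right _ hT)
    _ = _ := by ring

/-- **cost of INIT in the units of InitX_772** -/
theorem cE_ev (C : ℕ) : ∃ C' : ℕ, ∀ᶠ h : ℕ in atTop, ∀ D m : ℕ, DmOk h D m → ∀ K : KI,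
    parK K = par (gI h) D m → ∀ CX i Y d x : ℕ, CX ≤ sub C h → x ≤ sub C h → i ≤ II h + C →
    2 ^ nn h ≤ Y → d ≤ nn h * i / gI h + 1 →
    (nn h * i + 4) * (CE K CX d + 1) + x ≤ sui C' h * Y ^ i := by
  refine ⟨C + 16 + (C + 26 + 2) ^ 2, ?_⟩
  filter_upwards [ev_K, ev_H C] with h h1 h2 D m hd K hK CX i Y d x h3 hx h4 h5 h6
  replace h1 := h1 D m hd
  have hD := hd.D
  have hL := Lg_pos h
  have hW := W_pos h
  have a0 : Lg h ≤ W h * Lg h := Nat.le_mul_of_pos_left _ hW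
  have hce := CE_le K CX d
  rw [hK] at hce
  have hg : (par (gI h) D m).g = gI h := rfl
  have hσ : (par (gI h) D m).σ ≤ 11 * (W h * Lg h) := by
    show gI h + D ≤ _
    unfold gI
    omega
  have hAle := A_le (x := x) (h2 i h4) hσ h3 hx
  have h1' : 1 ≤ (2 ^ gI h * (4 * InitN775.K (par (gI h) D m))) ^ d := by
    refine Nat.one_le_pow _ _ (Nat.mul_pos (Nat.two_pow_pos _) ?_)
    have := one_le_K (par (gI h) D m)
    omega
  have hc := comb (n := nn h * i + 4) (x := x) hce (Nat.pow_le_pow_left (base_le _) d) h1'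
  generalize (nn h * i + 4) * (CE K CX d + 1) + x = ci at hc ⊢
  generalize (nn h * i + 4) * (2 ^ (par (gI h) D m).σ * (CX + 1) + 1) + x = A at hc hAle
  have hfin := init_b0 (C + 26) (h := h) (i := i) (q := d)
    (K := 4 * InitN775.K (par (gI h) D m)) (A := A) (Y := Y) (by omega)
    (h1.trans (Nat.pow_le_pow_right (by norm_num) (Nat.mul_le_mul_right _ (by omega)))) h6 h5 hc
  refine hfin.trans (Nat.mul_le_mul_right _ ?_)
  calc A * sui ((C + 26 + 2) ^ 2) h ≤ sub (C + 16) h * sui ((C + 26 + 2) ^ 2) h :=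
        Nat.mul_le_mul_right _ hAle
    _ ≤ sui (C + 16) h * sui ((C + 26 + 2) ^ 2) h := Nat.mul_le_mul_right _ (sub_le_sui _ _)
    _ ≤ _ := sui_mul _ _ _

/-- **fuel of INIT** -/
theorem fu_ev (C : ℕ) : ∃ C' : ℕ, ∀ᶠ h : ℕ in atTop, ∀ D m : ℕ, DmOk h D m → ∀ K : KI,
    parK K = par (gI h) D m → ∀ d x : ℕ, x ≤ sub C h → d ≤ nn h * (II h + C) / gI h + 1 →
    fu K d + x ≤ sub C' h := by
  refine ⟨C + 40, ?_⟩
  filter_upwards [ev_K, ev_H C] with h h1 h2 D m hd K hK d x hx h6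
  replace h1 := h1 D m hd
  have hL := Lg_pos h
  have hW := W_pos h
  have hWL : 1 ≤ W h * Lg h := Nat.mul_pos hW hL
  have a0 : Lg h ≤ W h * Lg h := Nat.le_mul_of_pos_left _ hW
  have hb := base_le (par (gI h) D m)
  have hg : (par (gI h) D m).g = gI h := rfl
  have hd1 : d ≤ 2 ^ (2 * Lg h) := by
    have h7 := h2 (II h + C) le_rfl
    have h8 : nn h * (II h + C) / gI h ≤ nn h * (II h + C) := Nat.div_le_self _ _
    omega
  have hR : 10 * (((par (gI h) D m).J + 1) * 2 ^ ((par (gI h) D m).c + (par (gI h) D m).g)) ≤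
      2 ^ (27 * (W h * Lg h)) := by
    refine hb.trans ?_
    rw [hg]
    calc 2 ^ gI h * (4 * InitN775.K (par (gI h) D m)) ≤ 2 ^ gI h * 2 ^ (26 * Lg h) :=
          Nat.mul_le_mul_left _ h1
      _ = 2 ^ (gI h + 26 * Lg h) := by rw [pow_add]
      _ ≤ _ := Nat.pow_le_pow_right (by norm_num) (by unfold gI; omega)
  unfold fu
  rw [hK]
  set R := ((par (gI h) D m).J + 1) * 2 ^ ((par (gI h) D m).c + (par (gI h) D m).g) with hRd
  have hR1 : 1 ≤ R := Nat.mul_pos (by omega) (Nat.two_pow_pos _)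
  have e1 : 1 ≤ 2 ^ (2 * Lg h) := Nat.one_le_two_pow
  have e2 : 1 ≤ 2 ^ (27 * (W h * Lg h)) := Nat.one_le_two_pow
  have e3 : 1 ≤ sub C h := one_le_sub C h
  have e4 : 2 ^ (2 * Lg h) ≤ 2 ^ (2 * (W h * Lg h)) :=
    Nat.pow_le_pow_right (by norm_num) (by omega)
  have e5 : 8 ≤ 2 ^ (3 * (W h * Lg h)) := by
    calc 8 ≤ 2 ^ (3 * 1) := by norm_num
      _ ≤ _ := Nat.pow_le_pow_right (by norm_num) (by omega)
  calc (2 * R + 2) * d + 2 + x ≤ (10 * R) * d + 2 + x := by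
        gcongr
        omega
    _ ≤ 2 ^ (27 * (W h * Lg h)) * 2 ^ (2 * Lg h) + 2 + sub C h := by gcongr
    _ ≤ 2 ^ (27 * (W h * Lg h)) * 2 ^ (2 * Lg h) * (4 * sub C h) := by
        have h9 : 1 ≤ 2 ^ (27 * (W h * Lg h)) * 2 ^ (2 * Lg h) := Nat.mul_pos e2 e1
        generalize 2 ^ (27 * (W h * Lg h)) * 2 ^ (2 * Lg h) = u at h9
        nlinarith
    _ ≤ 2 ^ (27 * (W h * Lg h)) * 2 ^ (2 * (W h * Lg h)) * (2 ^ (3 * (W h * Lg h)) * sub C h) := by
        gcongr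
        omega
    _ = 2 ^ (32 * (W h * Lg h)) * sub C h := by
        rw [show 32 * (W h * Lg h) = 27 * (W h * Lg h) + 2 * (W h * Lg h) + 3 * (W h * Lg h) by ring,
          pow_add, pow_add]
        ring
    _ ≤ sub 32 h * sub C h :=
        Nat.mul_le_mul_right _ (two_pow_WL_le_sub (le_refl 32) (by norm_num))
    _ ≤ sub (32 + C) h := sub_mul _ _ _
    _ ≤ _ := sub_mono (by omega) h

end Crest.Agent.R288.InitE776
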