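import Mathlib
import Crest.Agent.R288.InitK_663
import Crest.Agent.R288.PgB_578
import Crest.Agent.R288.PgY_583
import Crest.Agent.R288.PtfX_333

/-!
# R288 (S0433), [PROG.P3] U: the text of tag 2 in the typed layer

* `aU K ar`: the arguments of `dU` (height `nn h * i`, cut at the pad);
* **`phU K tg ar sv`**: no saved answer: the leaf request (height `0`) / the requests of the tables
  of all scales (tag 1); one saved answer: stop with the value of `dU`;
* **`ptf_phU`**, equations `phU_nil_zero`, `phU_nil_succ`, `phU_one_zero`, `phU_one_succ`.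
-/

set_option autoImplicit false

namespace Crest.Agent.R288.InitG663

open Crest.Agent.R288.InitS663 Crest.Agent.R288.InitV663 Crest.Agent.R288.InitW663
open Crest.Agent.R288.InitK663 Crest.Agent.R288.InitQ663 Crest.Agent.R288.Init772
open Crest.Agent.R288.PtY949 Crest.Agent.R295.Pt949 Crest.Agent.Lib.PT
open Crest.Agent.R288.PrK690 Crest.Agent.R288.Pgb578
open Crest.Agent.R288.Par806 Crest.Agent.R288.ParO331 Crest.Agent.R288.PadK901
open Crest.Agent.R288.ParP901
open Crest.Agent.R288.PgY583 (arS)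

/-- the height of a call, cut at the pad -/
def hU (K : KN) (i : ℕ) : ℕ := min (nn (hK K) * i) K.2.length

/-- arguments of the start unit -/
def aU (K : KN) (ar : Ar) : AU :=
  argU (hU K ar.2.2.1) ar.2.2.2.1 ar.2.2.2.2.1 ar.2.2.2.2.2

/-- the value at the end -/
def eU (K : KN) (a : AU) (us : List (List ℕ)) : ℕ :=
  if a.1.val = 0 then
    (a.2.2.1 - a.2.2.2).natAbs + 2 * (us.headD []).headD 0 +
      offs (nK (kiH K)) (mK (kiH K)) a.1.val a.2.1 a.2.2.1 a.2.2.2
  else
    U0h (pI (hK K)) a.2.2.1 a.2.2.2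
      (ehatN (parK (kiH K)) (pK (kiH K)) us a.2.2.1 (a.1.val - 1 + 4) 0) +
      offs (nK (kiH K)) (mK (kiH K)) a.1.val a.2.1 a.2.2.1 a.2.2.2

/-- **the text of the start unit** -/
def phU : Ph := fun K _ ar sv =>
  if sv = [] then
    (if (aU K ar).1.val = 0 then .inr (reqL (kiH K) (aU K ar)) else .inr (reqS 1 (kiH K) (aU K ar)))
  else .inl [eU K (aU K ar) (sv.headD [])]

section ptf

variable {γ : Type} [PTCode γ] {K : γ → KN} {ar : γ → Ar} {a : γ → AU} {us : γ → List (List ℕ)}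

theorem ptu_hU {i : γ → ℕ} (hK : PTF K) (hi : PTF i) : PTU fun c => hU (K c) (i c) := by
  unfold hU
  have h1 : PTU fun c => (K c).2.length := by fun_prop
  exact PTF.natMinUn (PTF.natMul (ptu_nn (ptu_hK hK)).toPTF hi) h1

theorem ptf_aU (hK : PTF K) (ha : PTF ar) : PTF fun c => aU (K c) (ar c) := by
  have h1 := PTF.unMk (ptu_hU (i := fun c => (ar c).2.2.1) hK (by fun_prop))
  unfold aU argU
  exact PTF.prodMk h1 (by fun_prop)

theorem ptf_eU (hk0 : PTF K) (ha : PTF a) (hus : PTF us) :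
    PTF fun c => eU (K c) (a c) (us c) := by
  have hk := ptf_kiH hk0
  have hu : PTF fun x => (a x).2.2.1 := by fun_prop
  have hv : PTF fun x => (a x).2.2.2 := by fun_prop
  have hj : PTF fun x => (a x).2.1 := by fun_prop
  have hh := ptu_h ha
  have ho : PTF fun x => offs (nK (kiH (K x))) (mK (kiH (K x))) (a x).1.val (a x).2.1 (a x).2.2.1
      (a x).2.2.2 := ptf_offs (ptf_nK hk) (ptf_mK hk) hh.toPTF hj hu hv
  have he : PTF fun x => ehatN (parK (kiH (K x))) (pK (kiH (K x))) (us x) (a x).2.2.1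
      ((a x).1.val - 1 + 4) 0 :=
    ptf_ehatN (Q := fun x => parK (kiH (K x))) (ptu_σ hk) (ptu_s hk) (ptu_pK hk) hus hu
      (PTU.add (PTU.sub hh (PTU.const 1)) (PTU.const 4)).toPTF (PTF.const 0)
  have c2 : PTPred fun x => (a x).1.val = 0 := PTU.eq hh (PTU.const 0)
  have hp : PTF fun x => pI (hK (K x)) := ptf_pI (ptu_hK hk0)
  unfold eU
  refine PTF.ite c2 ?_ (PTF.natAdd (ptf_U0h hp hu hv he) ho)
  have h1 : PTF fun x => ((us x).headD []).headD 0 := by fun_prop
  exact PTF.natAdd (PTF.natAdd (PTF.intNatAbs (PTF.intSub hu hv))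
    (PTF.natMul (PTF.const 2) h1)) ho

/-- **the text is poly-time** -/
theorem ptf_phU : PTF (fun p : KN × ℕ × Ar × Svd => phU p.1 p.2.1 p.2.2.1 p.2.2.2) := by
  have hk : PTF fun p : KN × ℕ × Ar × Svd => kiH p.1 := ptf_kiH PTF.fst
  have ha : PTF fun p : KN × ℕ × Ar × Svd => aU p.1 p.2.2.1 := ptf_aU PTF.fst (by fun_prop)
  have hs : PTPred fun p : KN × ℕ × Ar × Svd => p.2.2.2 = [] := by fun_prop
  have hh := ptu_h ha
  have c2 : PTPred fun p : KN × ℕ × Ar × Svd => (aU p.1 p.2.2.1).1.val = 0 := PTU.eq hh (PTU.const 0)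
  have h1 : PTF fun p : KN × ℕ × Ar × Svd => reqS 1 (kiH p.1) (aU p.1 p.2.2.1) := ptf_reqS hk ha
  have h2 : PTF fun p : KN × ℕ × Ar × Svd => reqL (kiH p.1) (aU p.1 p.2.2.1) := by
    unfold reqL
    have hl : PTF fun p : KN × ℕ × Ar × Svd => NodePT222.leafA (nK (kiH p.1)) (mK (kiH p.1)) 0
        (aU p.1 p.2.2.1).2.1 (aU p.1 p.2.2.1).2.2.1 (aU p.1 p.2.2.1).2.2.1 0 :=
      NodePT222.ptf_leafA (ptf_nK hk) (ptf_mK hk) (PTF.const _) (by fun_prop) (by fun_prop)
        (by fun_prop) (PTF.const _)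
    exact PTF.listCons (PTF.listCons (PTF.const 3) hl) (PTF.const _)
  have h3 : PTF fun p : KN × ℕ × Ar × Svd => eU p.1 (aU p.1 p.2.2.1) (p.2.2.2.headD []) :=
    ptf_eU PTF.fst ha (by fun_prop)
  unfold phU
  fun_prop

end ptf

/-! ### equations -/

section eqs

variable {K : KN} {tg l κ : ℕ} {z : Alg45.St} {us : List (List ℕ)}

theorem aU_arS {l κ : ℕ} {z : Alg45.St} (h : nn (hK K) * z.i ≤ K.2.length) :
    aU K (arS l κ z) = argU (nn (hK K) * z.i) z.j z.u z.v := by
  show argU (min (nn (hK K) * z.i) K.2.length) z.j z.u z.v = _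
  rw [min_eq_left h]

theorem phU_nil_zero (h : nn (hK K) * z.i = 0) :
    phU K tg (arS l κ z) [] = .inr (reqL (kiH K) (argU 0 z.j z.u z.v)) := by
  have h1 : aU K (arS l κ z) = argU 0 z.j z.u z.v := by
    rw [aU_arS (by omega), h]
  unfold phU
  rw [if_pos rfl, h1]
  simp [argU]

theorem phU_nil_succ {H : ℕ} (h : nn (hK K) * z.i = H + 1) (hp : H + 1 ≤ K.2.length) :
    phU K tg (arS l κ z) [] = .inr (reqS 1 (kiH K) (argU (H + 1) z.j z.u z.v)) := by
  have h1 : aU K (arS l κ z) = argU (H + 1) z.j z.u z.v := by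
    rw [aU_arS (by omega), h]
  unfold phU
  rw [if_pos rfl, h1]
  simp [argU]

theorem phU_one_zero {b : ℕ} (h : nn (hK K) * z.i = 0) :
    phU K tg (arS l κ z) [[[b]]] = .inl [(z.u - z.v).natAbs + 2 * b +
      offs (nK (kiH K)) (mK (kiH K)) 0 z.j z.u z.v] := by
  have h1 : aU K (arS l κ z) = argU 0 z.j z.u z.v := by
    rw [aU_arS (by omega), h]
  unfold phU
  rw [if_neg (by simp), h1]
  simp [argU, eU]

theorem phU_one_succ {H : ℕ} (h : nn (hK K) * z.i = H + 1) (hp : H + 1 ≤ K.2.length) :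
    phU K tg (arS l κ z) [us] = .inl [U0h (pI (hK K)) z.u z.v
      (ehatN (parK (kiH K)) (pK (kiH K)) us z.u (H + 4) 0) +
      offs (nK (kiH K)) (mK (kiH K)) (H + 1) z.j z.u z.v] := by
  have h1 : aU K (arS l κ z) = argU (H + 1) z.j z.u z.v := by
    rw [aU_arS (by omega), h]
  unfold phU
  rw [if_neg (by simp), h1]
  simp [argU, eU]

end eqs

end Crest.Agent.R288.InitG663
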