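import Mathlib
import Crest.Agent.R288.InitK_663
import Crest.Agent.R288.InitX_772
import Crest.Agent.R288.PgB_578

/-!
# R288 (S0433), [PROG.P3] EST: the hypotheses `HE` at the constants of the program

* **`he_of`**: the hypotheses `HE` of EST (`HE.est`, and `u0_rz` of helper772) for the wrapper of
  helper690 from `Env W k Z`, the length of the pad and plain inequalities.
-/

set_option autoImplicit false

namespace Crest.Agent.R288.InitJ663

open Crest.Agent.R295.Rnd627 Crest.Agent.R295.Rnd627.RT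
open Crest.Agent.R288.Init772 Crest.Agent.R288.InitL663 Crest.Agent.R288.InitL663.Par
open Crest.Agent.R288.InitQ663 Crest.Agent.R288.InitS663 Crest.Agent.R288.InitR663
open Crest.Agent.R288.InitV663 Crest.Agent.R288.InitW663 Crest.Agent.R288.InitZ663
open Crest.Agent.R288.InitK663 Crest.Agent.R288.InitX772
open Crest.Agent.R288.PtY949 Crest.Agent.R295.Pt949 Crest.Agent.Lib.PT
open Crest.Agent.R288.PrK690 Crest.Agent.R288.Pgb578
open Crest.Agent.R288.Par806 Crest.Agent.R288.ParO331 Crest.Agent.R288.PadK901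
open Crest.Agent.R288.ParP901 Crest.Agent.R288.InitN775
open Crest.Agent.R288.Phe940 (Prg Wld fl Rz Rq Rqs)

/-! ### the hypotheses of EST -/

section he

variable {G : Prg} {W : Wld} {k : KN} {Z : ℕ}
  {dl : KN → List ℕ → List (List ℕ) → List ℕ × List (List ℕ)} {x y : List ℕ} {HB JB ZB CX : ℕ}

/-- **the hypotheses of EST for the wrapper of helper690 at the constants of the program** -/
theorem he_of (hG : G.δ = wrapK dl)
    (hdl : ∀ ph a L rs, dl k (frE 1 ph a L) rs = hE 1 k (frE 1 ph a L) rs)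
    (env : Env W k Z) (N0 : 0 < W.N) (NM : W.N ≤ W.M)
    (nx : k.1.getD 1 0 = x.length) (ny : k.1.getD 2 0 = y.length)
    (hg : 1 ≤ gI (hK k)) (hp : 2 ^ (gI (hK k) + DI (hK k) + 5) ≤ k.2.length)
    (hM : ((parK (kiH k)).J + 2) * 2 ^ ((parK (kiH k)).c + 2 * (parK (kiH k)).g) *
      (2 ^ (parK (kiH k)).s * 2 ^ HB) * 4 < W.M)
    (JM : JB < W.M) (ZM : ZB < W.M) (xM : x.length < W.M) (yM : y.length < W.M)
    (hE1 : ∀ a, W.E a = [LeafX222.leafF x y a]) (hE2 : ∀ a : List ℕ, a.length = 5 → W.okE a)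
    (hE3 : ∀ h j u, W.cE (NodePT222.leafA x.length y.length h j u u 0) ≤ CX) :
    HE G W (jn k) (klen k) (dl k) 1 (kiH k) x y HB JB ZB CX := by
  have hnum := env.num
  have hS := env.S
  have hSM := env.SM
  have hK1 := env.K1.1
  have hK2 := env.K2.1
  have eJ : (parK (kiH k)).J = gI (hK k) + DI (hK k) + 4 := rfl
  have eσ : (parK (kiH k)).σ = gI (hK k) + DI (hK k) := rfl
  have e5 : 2 ^ (gI (hK k) + DI (hK k) + 5) = 2 ^ (gI (hK k) + DI (hK k)) * 32 := by
    rw [pow_add]; norm_num
  have e4 : 2 ^ (gI (hK k) + DI (hK k) + 4) = 2 ^ (gI (hK k) + DI (hK k)) * 16 := by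
    rw [pow_add]; norm_num
  have h1 : 1 ≤ 2 ^ (gI (hK k) + DI (hK k)) := Nat.one_le_two_pow
  refine
    { hw := wr_of hG env.K1.2 env.K2.2 (by omega) (by omega)
      hdl := fun ph a L rs => by rw [hdl, hE_frE]
      SM := env.SM
      N0 := N0
      NM := NM
      g1 := hg
      J := ?_
      p1 := ?_
      p2 := ?_
      tgM := by omega
      M := hM
      JM := JM
      ZM := ZM
      nx := by rw [nK_kiH, nx]
      ny := by rw [mK_kiH, ny]
      xM := xM
      yM := yM
      S := ?_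
      E := fun h j u => hE1 _
      okE := fun h j u => hE2 _ (NodePT222.leafA_length ..)
      cE := hE3 }
  · show gI (hK k) + DI (hK k) + 4 ≤ 2 * DI (hK k) + 11 + Nat.clog 2 (gI (hK k) + DI (hK k) + 5) +
      Nat.clog 2 (mI (hK k)) + gI (hK k)
    omega
  · rw [pK_kiH, eσ]
    omega
  · rw [pK_kiH, eJ]
    omega
  · rw [eJ, eσ, e4]
    unfold klen
    generalize hX : 2 ^ (gI (hK k) + DI (hK k)) = X at *
    have h32 : 32 * X ≤ Z := by omega
    have h2 : 16 + (k.1.length + k.2.length + 3) + X ≤ 3 * Z + 16 := by omega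
    have h3 : 2 * (X * 16 + X + 2) ≤ 2 * Z := by omega
    have h4 : (X * 16 + X + 2) * (16 + (k.1.length + k.2.length + 3) + X) ≤ Z * (3 * Z + 16) :=
      Nat.mul_le_mul (by omega) h2
    have h5 : Z * (3 * Z + 16) = 3 * (Z * (Z + 1)) + 13 * Z := by ring
    generalize (X * 16 + X + 2) * (16 + (k.1.length + k.2.length + 3) + X) = A at *
    generalize Z * (Z + 1) = B at *
    omega

end he

end Crest.Agent.R288.InitJ663
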