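import Mathlib
import Crest.Agent.R288.InitG_663
import Crest.Agent.R288.InitJ_663
import Crest.Agent.R288.InitX_772

/-!
# R288 (S0433), [PROG.P3] U: the typed procedure of tag 2 is realised

* `UN`: the numbers of one call;
* **`u_cz`** : from `Has G K phU 2`, `Env W K Z`, EST (`HE`):
  `Cz G W K 2 (fu (kiH K) d + 2) (arS 0 0 z) [] ((iniU .. z).map fun w => [w]) ..`.
-/

set_option autoImplicit false

namespace Crest.Agent.R288.InitG663

open Crest.Agent.R295.Rnd627 Crest.Agent.R295.Rnd627.RT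
open Crest.Agent.R288.Init772 Crest.Agent.R288.InitL663 Crest.Agent.R288.InitL663.Par
open Crest.Agent.R288.InitQ663 Crest.Agent.R288.InitS663 Crest.Agent.R288.InitR663
open Crest.Agent.R288.InitV663 Crest.Agent.R288.InitW663 Crest.Agent.R288.InitZ663
open Crest.Agent.R288.InitK663 Crest.Agent.R288.InitX772
open Crest.Agent.R288.PtY949 Crest.Agent.R295.Pt949 Crest.Agent.Lib.PT
open Crest.Agent.R288.PrK690 Crest.Agent.R288.Pgb578
open Crest.Agent.R288.Par806 Crest.Agent.R288.ParO331 Crest.Agent.R288.PadK901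
open Crest.Agent.R288.ParP901 Crest.Agent.R288.InitN775
open Crest.Agent.R288.Phe940 (Prg Wld fl Rz Rq Rqs)
open Crest.Agent.R288.PgY583 (arS)

variable {G : Prg} {W : Wld} {K : KN} {Z : ℕ}
  {dl : KN → List ℕ → List (List ℕ) → List ℕ × List (List ℕ)} {x y : List ℕ} {HB JB ZB CX : ℕ}
  {z : Alg45.St}

/-- the numbers of one call of the start unit -/
structure UN (W : Wld) (K : KN) (x y : List ℕ) (HB JB ZB Z : ℕ) (z : Alg45.St) : Prop where
  ar : ArOk W.M 2 (arS 0 0 z)
  hh : nn (hK K) * z.i + 3 ≤ HB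
  hp : nn (hK K) * z.i + 3 ≤ K.2.length
  hj : (z.j + 1) * 2 ^ (nn (hK K) * z.i) ≤ JB
  hu : z.u.natAbs + (nn (hK K) * z.i + 2) * 2 ^ (nn (hK K) * z.i + 3) ≤ ZB
  hZ : nn (hK K) * z.i + 4 ≤ Z
  hσ : 2 ^ (parK (kiH K)).σ ≤ Z
  hM : 2 * (z.u.natAbs + z.v.natAbs) + 2 * (x.length + y.length) + 2 ^ (nn (hK K) * z.i + 6) < W.M

theorem u_cz_zero (hU : Has G K phU 2) (env : Env W K Z) (hZ : 13 ≤ Z)
    (H : HE G W (jn K) (klen K) (dl K) 1 (kiH K) x y HB JB ZB CX)
    (U : UN W K x y HB JB ZB Z z) (h0 : nn (hK K) * z.i = 0) (n : ℕ) :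
    Cz G W K 2 (n + 2) (arS 0 0 z) []
      ((iniU (parK (kiH K)) (pI (hK K)) x y (nn (hK K)) z).map fun w => [w]) (CX + 3) := by
  have hnum := env.num
  have hSM := env.SM
  have hb1 : blF x y 0 z.j z.u ≤ 1 := H.hbl 0 z.j z.u
  have hM := U.hM
  have ho := offs_le x.length y.length 0 z.j z.u z.v
  have e0 : (iniU (parK (kiH K)) (pI (hK K)) x y (nn (hK K)) z).map (fun w => [w]) =
      ret [(z.u - z.v).natAbs + 2 * blF x y 0 z.j z.u + offs x.length y.length 0 z.j z.u z.v] := by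
    unfold iniU
    rw [h0, ← u0L_eq, u0L_zero]
    rfl
  rw [e0]
  have hreq : reqL (kiH K) (argU 0 z.j z.u z.v) =
      [3 :: NodePT222.leafA x.length y.length 0 z.j z.u z.u 0] := by
    unfold reqL argU
    rw [H.nx, H.ny]
  have hq : Rqs G W (n + 1) ([3 :: NodePT222.leafA x.length y.length 0 z.j z.u z.u 0].map
      (wrapQ K)) (ret [[blF x y 0 z.j z.u]]) (CX + 1) := by
    have h4 := Rq.ext (P := G) (W := W) (n := n + 1) (q := 3 :: NodePT222.leafA x.length y.length
      0 z.j z.u z.u 0) rfl (H.okE _ _ _)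
    rw [List.tail_cons, H.E] at h4
    have h5 := h4.mono le_rfl (H.cE 0 z.j z.u)
    have h6 := Rqs.cons_ret h5 (Rqs.nil (P := G) (W := W) (n := n + 1))
    exact h6.mono le_rfl (by omega)
  have h2 := Cz.step_ret (n := n + 1) (C' := 0) (t := ret [(z.u - z.v).natAbs +
    2 * blF x y 0 z.j z.u + offs x.length y.length 0 z.j z.u z.v]) hU env
    (phU_nil_zero (tg := 2) (l := 0) (κ := 0) h0) (by rw [hreq]; exact hq) ?_ ?_ U.ar SvOk.nil
    ?_ ?_ ?_
  · exact h2.mono le_rfl (by omega)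
  · rw [hreq]
    simp only [List.length_cons, List.length_nil]
    omega
  · intro q hq
    rw [hreq, List.mem_singleton] at hq
    subst hq
    refine ⟨?_, fun a ha => ?_⟩
    · rw [List.length_cons, NodePT222.leafA_length]
      omega
    · rcases List.mem_cons.1 ha with rfl | ha
      · omega
      · exact NodePT222.leafA_lt H.xM H.yM (by omega) a ha
  · simp only [List.length_cons, List.length_nil]
    omega
  · intro u hu
    rw [List.mem_singleton] at hu
    subst hu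
    refine ⟨by simp only [List.length_cons, List.length_nil]; omega, fun a ha => ?_⟩
    rw [List.mem_singleton] at ha
    subst ha
    omega
  · rw [List.nil_append]
    refine Cz.stop hU env (?_ : phU K 2 (arS 0 0 z) [[[blF x y 0 z.j z.u]]] = _) ?_
    · rw [phU_one_zero h0, H.nx, H.ny]
    · refine ⟨by simp only [List.length_cons, List.length_nil]; omega, fun a ha => ?_⟩
      rw [List.mem_singleton] at ha
      subst ha
      have h64 : 2 ^ (nn (hK K) * z.i + 6) = 64 := by rw [h0]; norm_num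
      omega

theorem u_cz_succ (hU : Has G K phU 2) (env : Env W K Z) (hZ : 13 ≤ Z)
    (H : HE G W (jn K) (klen K) (dl K) 1 (kiH K) x y HB JB ZB CX)
    (U : UN W K x y HB JB ZB Z z) {h : ℕ} (h0 : nn (hK K) * z.i = h + 1) {d : ℕ}
    (hd : h / (parK (kiH K)).g + 1 ≤ d) :
    Cz G W K 2 (fu (kiH K) d + 1) (arS 0 0 z) []
      ((iniU (parK (kiH K)) (pI (hK K)) x y (nn (hK K)) z).map fun w => [w])
      ((h + 4) * (CE (kiH K) CX d + 1) + 2) := by
  have hnum := env.num
  have hSM := env.SM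
  have hg := H.g1
  have hM := U.hM
  have uh := U.hh
  have uj := U.hj
  have uu := U.hu
  have uZ := U.hZ
  have uσ := U.hσ
  have up := U.hp
  rw [h0] at uh uj uu uZ up hM
  have ho := offs_le x.length y.length (h + 1) z.j z.u z.v
  have hσ0 : 1 ≤ 2 ^ (parK (kiH K)).σ := Nat.one_le_two_pow
  obtain ⟨b1, b2, b3, b4, b5⟩ := H.big
  have hdm := Nat.div_add_mod h (parK (kiH K)).g
  have hmod : h % (parK (kiH K)).g < (parK (kiH K)).g := Nat.mod_lt _ (by omega)
  -- the arguments of the calls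
  have hAB : ∀ κ < h + 4, AB (kiH K) HB JB ZB (h / (parK (kiH K)).g)
      (h % (parK (kiH K)).g + 1) κ z.j (z.u / 2 ^ κ) := by
    intro κ hκ
    have hhe : (parK (kiH K)).g * (h / (parK (kiH K)).g) + (h % (parK (kiH K)).g + 1) = h + 1 := by
      omega
    refine ⟨by omega, by omega, by rw [hhe]; omega, by omega, by rw [hhe]; exact uj, ?_⟩
    have h1 := dep_le (h / (parK (kiH K)).g) (h % (parK (kiH K)).g + 1)
    have h2 : h / (parK (kiH K)).g ≤ h := Nat.div_le_self _ _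
    have h3 : (z.u / 2 ^ κ).natAbs * 2 ^ κ ≤ z.u.natAbs + 2 ^ κ := by
      have hk : (0 : ℤ) < 2 ^ κ := by positivity
      have e1 := Int.mul_ediv_self_le (x := z.u) (k := 2 ^ κ) hk.ne'
      have e2 := Int.lt_mul_ediv_self_add (x := z.u) hk
      have e3 : ((z.u / 2 ^ κ).natAbs * 2 ^ κ : ℕ) = (2 ^ κ * (z.u / 2 ^ κ)).natAbs := by
        rw [Int.natAbs_mul, Int.natAbs_pow, mul_comm]
        rfl
      rw [e3]
      have e4 : ((2 ^ κ : ℕ) : ℤ) = 2 ^ κ := by push_cast; rfl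
      omega
    have h4 : 2 ^ κ ≤ 2 ^ (h + 4) := Nat.pow_le_pow_right (by norm_num) (by omega)
    calc ((z.u / 2 ^ κ).natAbs + dep (h / (parK (kiH K)).g) (h % (parK (kiH K)).g + 1)) * 2 ^ κ
        ≤ ((z.u / 2 ^ κ).natAbs + (h + 1)) * 2 ^ κ := Nat.mul_le_mul_right _ (by omega)
      _ = (z.u / 2 ^ κ).natAbs * 2 ^ κ + (h + 1) * 2 ^ κ := by ring
      _ ≤ z.u.natAbs + 2 ^ κ + (h + 1) * 2 ^ κ := by omega
      _ = z.u.natAbs + (h + 2) * 2 ^ κ := by ring
      _ ≤ z.u.natAbs + (h + 2) * 2 ^ (h + 4) := Nat.add_le_add_left (Nat.mul_le_mul_left _ h4) _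
      _ ≤ z.u.natAbs + (h + 1 + 2) * 2 ^ (h + 1 + 3) := by
          apply Nat.add_le_add_left
          exact Nat.mul_le_mul_right _ (by omega)
      _ ≤ ZB := uu
  have hp : h + 4 ≤ pK (kiH K) := by rw [pK_kiH]; omega
  have hre := reqS_eq (tg := 1) (j := z.j) (u := z.u) (v := z.v) hp
  set reqs : List (List ℕ) := (List.range (h + 4)).map fun κ : ℕ =>
    4 :: entE 1 (h / (parK (kiH K)).g) (h % (parK (kiH K)).g + 1) κ z.j (z.u / 2 ^ κ) with hreqs
  have hph : phU K 2 (arS 0 0 z) [] = .inr reqs := by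
    rw [phU_nil_succ h0 (by omega), hre]
  -- the requests
  have hts : Rqs G W (fu (kiH K) d) (reqs.map (wrapQ K)) (Alg45.seqL ((List.range (h + 4)).map
      fun κ : ℕ => nodeL (parK (kiH K)) (blF x y) (h / (parK (kiH K)).g)
        (h % (parK (kiH K)).g + 1) κ z.j (z.u / 2 ^ κ)))
      ((h + 4) * (CE (kiH K) CX d + 1)) := by
    rw [hreqs, List.map_map]
    have h1 := Rqs.map_le (P := G) (W := W) (n := fu (kiH K) d) (List.range (h + 4))
      ((wrapQ K) ∘ fun κ : ℕ =>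
        4 :: entE 1 (h / (parK (kiH K)).g) (h % (parK (kiH K)).g + 1) κ z.j (z.u / 2 ^ κ))
      (fun κ : ℕ => nodeL (parK (kiH K)) (blF x y) (h / (parK (kiH K)).g)
        (h % (parK (kiH K)).g + 1) κ z.j (z.u / 2 ^ κ)) (CE (kiH K) CX d) (fun κ hκ => by
        rw [List.mem_range] at hκ
        have h2 := H.est d (h / (parK (kiH K)).g) (h % (parK (kiH K)).g + 1) κ z.j (z.u / 2 ^ κ)
          ((dep_le _ _).trans hd) (hAB κ hκ) (InitS663.lp 0 0 [] [])
        have h3 : ((wrapQ K) ∘ fun κ : ℕ => 4 :: entE 1 (h / (parK (kiH K)).g)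
            (h % (parK (kiH K)).g + 1) κ z.j (z.u / 2 ^ κ)) κ =
            4 :: jn K (entE 1 (h / (parK (kiH K)).g) (h % (parK (kiH K)).g + 1) κ z.j
              (z.u / 2 ^ κ)) := rfl
        rw [h3]
        exact Rq.call (P := G) (q := 4 :: jn K (entE 1 (h / (parK (kiH K)).g)
          (h % (parK (kiH K)).g + 1) κ z.j (z.u / 2 ^ κ))) (le_refl 4)
          (show (4 : ℕ) ≠ 5 by norm_num) h2)
    rw [List.length_range] at h1
    exact h1
  -- the results
  have hQ : (Alg45.seqL ((List.range (h + 4)).map fun κ : ℕ =>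
      nodeL (parK (kiH K)) (blF x y) (h / (parK (kiH K)).g) (h % (parK (kiH K)).g + 1) κ z.j
        (z.u / 2 ^ κ))).All W.N
      fun us => us.length = h + 4 ∧ ∀ T ∈ us, T.length ≤ 2 ^ (parK (kiH K)).σ ∧
        ∀ a ∈ T, a < W.M := by
    have h1 := seqL_All (M := W.N) (R := fun T : List ℕ => T.length ≤ 2 ^ (parK (kiH K)).σ ∧
      ∀ a ∈ T, a < W.M) (ts := (List.range (h + 4)).map fun κ : ℕ =>
      nodeL (parK (kiH K)) (blF x y) (h / (parK (kiH K)).g) (h % (parK (kiH K)).g + 1) κ z.j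
        (z.u / 2 ^ κ))
      (fun t ht => by
        obtain ⟨κ, hκ, rfl⟩ := List.mem_map.1 ht
        rw [List.mem_range] at hκ
        refine (nodeL_All (parK (kiH K)) W.N H.hbl _ _ κ z.j _).mono fun T hT => ⟨?_, fun a ha => ?_⟩
        · rw [hT.1]
          exact mu_le κ
        · have h4 := hT.2 a ha
          exact H.val_lt (κ := κ) (by omega) (h4.trans (Nat.le_mul_of_pos_left _
            (Nat.mul_pos (by omega) (Nat.two_pow_pos _)))))
    rw [List.length_map, List.length_range] at h1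
    exact h1
  have hreq : ∀ q ∈ reqs, q.length = 13 ∧ ∀ a ∈ q, a < W.M := by
    intro q hq
    rw [hreqs] at hq
    obtain ⟨κ, hκ, rfl⟩ := List.mem_map.1 hq
    rw [List.mem_range] at hκ
    refine ⟨by rw [List.length_cons, entE, length_frE]; rfl, fun a ha => ?_⟩
    rcases List.mem_cons.1 ha with rfl | ha
    · omega
    · exact H.frame (hAB κ hκ) (by norm_num) (Nat.zero_le _) (Nat.zero_le _) (by simp) (by simp)
        (by simp) (by simp) a ha
  have e0 : (iniU (parK (kiH K)) (pI (hK K)) x y (nn (hK K)) z).map (fun w => [w]) =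
      (Alg45.seqL ((List.range (h + 4)).map fun κ : ℕ =>
        nodeL (parK (kiH K)) (blF x y) (h / (parK (kiH K)).g) (h % (parK (kiH K)).g + 1) κ z.j
          (z.u / 2 ^ κ))).bind
        fun Ts => ret [U0h (pI (hK K)) z.u z.v
          (ehatN (parK (kiH K)) (pK (kiH K)) Ts z.u (h + 4) 0) +
          offs x.length y.length (h + 1) z.j z.u z.v] := by
    unfold iniU
    rw [h0, ← u0L_eq, u0L_succ, seqL_eq, InitL663.map_map, map_eq_bind]
    apply InitL663.bind_congr
    intro Ts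
    rw [ehatN_eq (parK (kiH K)) hp]
  rw [e0]
  have h1 := Cz.stepA (n := fu (kiH K) d) (C' := 0) (k := fun Ts => ret [U0h (pI (hK K)) z.u z.v
      (ehatN (parK (kiH K)) (pK (kiH K)) Ts z.u (h + 4) 0) +
        offs x.length y.length (h + 1) z.j z.u z.v]) hU env H.N0 hph hts ?_ ?_ U.ar SvOk.nil hQ
      ?_ ?_
  · exact h1.mono le_rfl (by omega)
  · rw [hreqs, List.length_map, List.length_range]
    omega
  · intro q hq
    have h2 := hreq q hq
    exact ⟨by omega, h2.2⟩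
  · rintro us ⟨hu1, hu2⟩
    exact ⟨by omega, fun T hT => ⟨(hu2 T hT).1.trans uσ, (hu2 T hT).2⟩⟩
  · rintro us ⟨hu1, hu2⟩
    rw [List.nil_append]
    obtain ⟨n, hn⟩ : ∃ n, fu (kiH K) d = n + 1 := ⟨_, rfl⟩
    rw [hn]
    refine Cz.stop hU env (?_ : phU K 2 (arS 0 0 z) [us] = _) ?_
    · rw [phU_one_succ h0 (by omega), H.nx, H.ny]
    · refine ⟨by simp only [List.length_cons, List.length_nil]; omega, fun a ha => ?_⟩
      rw [List.mem_singleton] at ha
      subst ha
      have h2 : ehatN (parK (kiH K)) (pK (kiH K)) us z.u (h + 4) 0 < 2 ^ (0 + (h + 4)) := by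
        rw [ehatN_eq (parK (kiH K)) hp]
        exact sel_lt (parK (kiH K)) _ 0 (h + 4)
      have h3 : (ehatN (parK (kiH K)) (pK (kiH K)) us z.u (h + 4) 0 + 1) / pI (hK K) ≤
          ehatN (parK (kiH K)) (pK (kiH K)) us z.u (h + 4) 0 + 1 := Nat.div_le_self _ _
      have h4 : 2 ^ (h + 1 + 6) = 8 * 2 ^ (0 + (h + 4)) := by
        rw [show h + 1 + 6 = 3 + (0 + (h + 4)) by omega, pow_add 2 3]; norm_num
      unfold U0h
      omega

/-- **the typed procedure U realises the number of index `0`** -/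
theorem u_cz (hU : Has G K phU 2) (env : Env W K Z) (hZ : 13 ≤ Z)
    (H : HE G W (jn K) (klen K) (dl K) 1 (kiH K) x y HB JB ZB CX)
    (U : UN W K x y HB JB ZB Z z) {d : ℕ}
    (hd : (nn (hK K) * z.i - 1) / (parK (kiH K)).g + 1 ≤ d) :
    Cz G W K 2 (fu (kiH K) d + 2) (arS 0 0 z) []
      ((iniU (parK (kiH K)) (pI (hK K)) x y (nn (hK K)) z).map fun w => [w])
      ((nn (hK K) * z.i + 4) * (CE (kiH K) CX d + 1) + 2) := by
  rcases Nat.eq_zero_or_pos (nn (hK K) * z.i) with h0 | h0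
  · refine (u_cz_zero hU env hZ H U h0 (fu (kiH K) d)).mono le_rfl ?_
    have h1 := CE_mono (kiH K) CX (Nat.zero_le d)
    have h2 : CX + 1 ≤ CE (kiH K) CX 0 := Nat.le_mul_of_pos_left _ (Nat.two_pow_pos _)
    rw [h0]
    omega
  · obtain ⟨h, hh⟩ : ∃ h, nn (hK K) * z.i = h + 1 := ⟨nn (hK K) * z.i - 1, by omega⟩
    rw [hh, Nat.add_sub_cancel] at hd
    refine (u_cz_succ hU env hZ H U hh hd).mono (by omega) ?_
    rw [hh]
    have : (h + 4) * (CE (kiH K) CX d + 1) ≤ (h + 1 + 4) * (CE (kiH K) CX d + 1) :=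
      Nat.mul_le_mul_right _ (by omega)
    omega

end Crest.Agent.R288.InitG663
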