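import Crest.Agent.R288.PadK_901
import Crest.Agent.R288.GluE_365
import Crest.Agent.R288.PgB_578

/-!
# R288, [MAIN] (helper901): the main statement of the program

`mainM := mainS mnK ptf_rootQ` : the constant `konO`, then the root call `F (E, root)` (tag 4) of the
engine, then the output.  `root = ⟨II h, 0, 0, |y| - |x|⟩`, epoch `EE h`.
* `rootA k`, `rootQ v` : arguments and frame of the root call, `rootQ_tow`;
* **`runPL_main`** : `RunPL` from the realisation `Cz` of the root call.
-/

set_option autoImplicit false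

namespace Crest.Agent.R288.Main901

open Crest.Agent.R295 HL Pt949 Crest.Agent.R295.Rnd627 Crest.Agent.R288.Pl726
open Crest.Agent.R288.Phe940 Crest.Agent.R288.Top791 Crest.Agent.R288.Front327
open Crest.Agent.R288.Shell12 Crest.Agent.R288.Asm12 Crest.Agent.R288.PtY949
open Crest.Agent.R288.PrK690 (KN)
open Crest.Agent.R288.Pgb578 (Ar Svd fr fr0 Cz)
open Crest.Agent.R288.GluE365 Crest.Agent.R288.PadK901 Crest.Agent.R288.Par806
open Crest.Agent.R288.ParP901
open Crest.Agent.R288.PltT365 (v0 tapeW tapeD RunPL)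
open Crest.Agent.Lib.PT (PTF PTPred PTU PB sz PTCode)

/-- decode the constant -/
def unK (v : List ℕ) : KN := PtY949.un KN v

/-- arguments of the root call: epoch `EE h`, state `⟨II h, 0, 0, |y| - |x|⟩` -/
def rootA (k : KN) : Ar :=
  (EE (hK k), 0, II (hK k), 0, 0, (k.1.getD 2 0 : ℤ) - (k.1.getD 1 0 : ℤ))

/-- frame of the root call -/
def rootQ (v : List ℕ) : List ℕ := fr (unK v) 4 (rootA (unK v)) []

theorem ptf_unK : PTF unK := ptf_un (α := KN) PTF.id

theorem ptf_rootA {γ : Type} [PTCode γ] {k : γ → KN} (hk : PTF k) :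
    PTF (fun c => rootA (k c)) := by
  unfold rootA
  have h1 : PTF (fun c => EE (hK (k c))) := (ptu_EE (ptu_hK hk)).toPTF
  have h2 : PTF (fun c => II (hK (k c))) := (ptu_II (ptu_hK hk)).toPTF
  fun_prop

theorem ptf_rootQ : PTF rootQ := by
  unfold rootQ fr
  refine PrK690.ptf_jn ptf_unK ?_
  exact Pgb578.ptf_fr0 (PTF.const 4) (ptf_rootA ptf_unK) (PTF.const [])

@[simp] theorem unK_tow (k : KN) : unK (tow k) = k := PtY949.un_tow k

theorem rootQ_tow (k : KN) : rootQ (tow k) = fr k 4 (rootA k) [] := by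
  unfold rootQ
  rw [unK_tow]

/-- **the main statement of the program** -/
noncomputable def mainM : PS := mainS mnK ptf_rootQ

/-! ### sizes of the root call -/

/-- what the main statement needs of the height -/
structure MainOk (h : ℕ) : Prop where
  pad : PadOk h
  EE : Par806.EE h ≤ h

theorem ev_EE : ∀ᶠ h : ℕ in Filter.atTop, Par806.EE h ≤ h := by
  filter_upwards [Par806.ev_pow_le_self 8 1 1 0 0 0 1, Par806.ev_le_W 4] with h h1 h2
  simp only [pow_zero, mul_one, zero_mul, add_zero, pow_one] at h1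
  refine le_trans ?_ h1
  unfold Par806.EE
  refine Nat.mul_le_mul_right _ ?_
  omega

theorem ev_MainOk : ∀ᶠ h : ℕ in Filter.atTop, MainOk h := by
  filter_upwards [ev_PadOk, ev_EE] with h h1 h2
  exact ⟨h1, h2⟩

theorem II_le (h : ℕ) : Par806.II h ≤ h + 1 := by
  unfold Par806.II
  exact Nat.succ_le_succ (Nat.div_le_self _ _)

theorem tow_KN (k : KN) : tow k = (k.1.length :: k.1) ++ (k.2.length :: k.2) := by
  obtain ⟨k1, k2⟩ := k
  simp only [tow_prod, tow_list]

theorem tow_KN_length (k : KN) : (tow k).length = k.1.length + k.2.length + 2 := by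
  rw [tow_KN]
  simp only [List.length_append, List.length_cons]
  omega

/-- words of the constant and of the root frame -/
theorem root_words {B h n m L c : ℕ} (hh : h ≤ L) (hn : n ≤ L) (hm : m ≤ L) (hB : (L + 2) ^ 3 ≤ B)
    (hc : 2 ^ c < B) (h4 : 20 < B) (hE : Par806.EE h ≤ h) (hcl : Nat.clog 2 L = h) :
    (∀ a ∈ (tow (([h, n, m, L], List.replicate (2 ^ c) 0) : KN)), a < B) ∧
      ∀ a ∈ fr ([h, n, m, L], List.replicate (2 ^ c) 0) 4
        (rootA ([h, n, m, L], List.replicate (2 ^ c) 0)) [], a < B := by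
  have h1 : L + 2 < B := by
    refine lt_of_lt_of_le ?_ hB
    calc L + 2 < (L + 2) * (L + 2) := by nlinarith
      _ ≤ (L + 2) * (L + 2) * (L + 2) := Nat.le_mul_of_pos_right _ (by omega)
      _ = (L + 2) ^ 3 := by ring
  have hK1 : ∀ a ∈ ([h, n, m, L] : List ℕ), a < B := by
    intro a ha
    simp only [List.mem_cons, List.not_mem_nil, or_false] at ha
    rcases ha with ha | ha | ha | ha <;> omega
  have hK2 : ∀ a ∈ (List.replicate (2 ^ c) 0 : List ℕ), a < B := by
    intro a ha
    rw [(List.mem_replicate.1 ha).2]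
    omega
  have hl1 : ([h, n, m, L] : List ℕ).length < B := by
    simp only [List.length_cons, List.length_nil]
    omega
  have hl2 : (List.replicate (2 ^ c) 0 : List ℕ).length < B := by
    rw [List.length_replicate]
    exact hc
  have hII := II_le h
  have hA : Pgb578.ArOk B 4 (rootA ([h, n, m, L], List.replicate (2 ^ c) 0)) := by
    have e : hK ([h, n, m, L], List.replicate (2 ^ c) 0) = h := hcl
    refine ⟨by omega, ?_, ?_, ?_, ?_, ?_, ?_⟩
    · show Par806.EE (hK ([h, n, m, L], List.replicate (2 ^ c) 0)) < B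
      rw [e]; omega
    · show 0 < B
      omega
    · show Par806.II (hK ([h, n, m, L], List.replicate (2 ^ c) 0)) < B
      rw [e]; omega
    · show 0 < B
      omega
    · show (0 : ℤ).natAbs < B
      simp only [Int.natAbs_zero]
      omega
    · show ((m : ℤ) - (n : ℤ)).natAbs < B
      omega
  refine ⟨fun a ha => ?_, ?_⟩
  · rw [tow_KN] at ha
    rcases List.mem_append.1 ha with ha | ha
    · rcases List.mem_cons.1 ha with ha | ha
      · rw [ha]; exact hl1
      · exact hK1 a ha
    · rcases List.mem_cons.1 ha with ha | ha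
      · rw [ha]; exact hl2
      · exact hK2 a ha
  · refine PrK690.jn_lt hK1 hK2 hl1 hl2 ?_ fun a ha => ?_
    · show 10 < B
      omega
    · have e : fr0 4 (rootA ([h, n, m, L], List.replicate (2 ^ c) 0)) [] =
        4 :: (tow (rootA ([h, n, m, L], List.replicate (2 ^ c) 0)) ++ [0]) := rfl
      rw [e, List.mem_cons, List.mem_append, List.mem_singleton] at ha
      rcases ha with ha | ha | ha
      · omega
      · exact hA.lt (by omega) a ha
      · omega

/-- **`RunPL` from the realisation of the root call** -/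
theorem runPL_main {c k r cS kS rS : ℕ} (hc : 1 ≤ cS) (hr : 1 ≤ rS) {fR : List ℕ → ℕ} {G : Prg}
    (hT : G.aT = 15) (hX : G.X3 = x3) {x y : List ℕ} {ε : ℚ} {τ : ℕ → ℕ} {res : ℕ}
    (hM : MainOk (hh x y ε)) (hS : og cS kS rS 3 (inp x y ε).length ≤ (inp x y ε).length)
    (hR : tapeD fR x y ε ≤ ((inp x y ε).length + 2) ^ 2)
    (H : ∀ pe : PEnv, PIn x y ε pe → pe.S = og cS kS rS 3 (inp x y ε).length →
      ∃ n C t, Cz G (wld pe (2 ^ tapeW x y ε) τ G.a1 G.a2 (tapeD fR x y ε))
          (konO (PltT365.v0 x y ε)) 4 n (rootA (konO (PltT365.v0 x y ε))) [] t C ∧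
        t.nxt (2 ^ tapeW x y ε) τ 0 ≤ tapeD fR x y ε ∧ t.val (2 ^ tapeW x y ε) τ 0 = [res] ∧
        res < pe.B ∧ 2 * cPad (hh x y ε) + 40 * C + 30 ≤ fuc c k r 3 (inp x y ε).length ∧
        n + 1 ≤ (inp x y ε).length) :
    PltT365.RunPL 3 c k r cS kS rS fR [G.proc] mainM x y ε τ res := by
  refine runPLT_of hT hX ptf_rootQ hS hR fun pe hpe hSe => ?_
  obtain ⟨n, C, t, h1, h2, h3, h4, h5, h6⟩ := H pe hpe hSe
  have hL := inp_length x y ε
  have h0 := mnK_num hc hr hSe hM.pad hpe.B
  have hp1 : 2 ^ (cPad (hh x y ε) + 4) ≤ pe.S := by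
    rw [hSe]
    exact PadOk.two_pow hc hr hM.pad
  have hclg : hh x y ε ≤ (inp x y ε).length :=
    Nat.clog_le_of_le_pow (Nat.lt_two_pow_self).le
  change _ ∧ hh x y ε < pe.B ∧ 2 ^ cPad (hh x y ε) < pe.B ∧ _ ∧ 2 ^ cPad (hh x y ε) + 7 ≤ pe.S at h0
  obtain ⟨g1, g2, g3, g4, g5⟩ := h0
  have e16 : 2 ^ (cPad (hh x y ε) + 4) = 16 * 2 ^ cPad (hh x y ε) := by
    rw [pow_add]; ring
  have hc64 : 64 ≤ cPad (hh x y ε) := by
    unfold cPad
    have := Nat.mul_pos (Par806.W_pos (hh x y ε)) (Par806.Lg_pos (hh x y ε))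
    nlinarith
  have hbig : 64 ≤ 2 ^ cPad (hh x y ε) := hc64.trans (Nat.lt_two_pow_self).le
  have hl1 : (konO (PltT365.v0 x y ε)).1.length = 4 := rfl
  have hl2 : (konO (PltT365.v0 x y ε)).2.length = 2 ^ cPad (hh x y ε) := konO_len _
  have hlen1 : (tow (konO (PltT365.v0 x y ε))).length = 2 ^ cPad (hh x y ε) + 6 := by
    rw [tow_KN_length, hl1, hl2]
    omega
  have hs0 : (tow ([] : Svd)).length = 1 := rfl
  have hlen2 : (rootQ (tow (konO (PltT365.v0 x y ε)))).length = 2 ^ cPad (hh x y ε) + 17 := by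
    rw [rootQ_tow, Pgb578.fr_length, hl1, hl2, hs0]
    omega
  have hwords := root_words (B := pe.B) (h := hh x y ε) (n := x.length) (m := y.length)
    (L := (inp x y ε).length) (c := cPad (hh x y ε)) hclg (by omega) (by omega) hpe.B g3
    (by omega) hM.EE rfl
  refine ⟨tow (konO (PltT365.v0 x y ε)), 2 * cPad (hh x y ε) + 5, n, C, t, ?_⟩
  exact {
    pre := fun i => mnK_run hc hr hpe hSe hM.pad i
    len := by rw [hlen1, hlen2]; omega
    w1 := hwords.1
    w2 := by rw [rootQ_tow]; exact hwords.2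
    rz := by rw [rootQ_tow]; exact h1 [] [] rfl
    nxt := h2
    ulen := by
      show (t.val (2 ^ tapeW x y ε) τ 0).length + _ + 8 ≤ pe.S
      rw [h3, hlen1, List.length_singleton]
      omega
    uw := by
      show ∀ a ∈ t.val (2 ^ tapeW x y ε) τ 0, a < pe.B
      rw [h3]
      intro a ha
      rw [List.mem_singleton] at ha
      rw [ha]; exact h4
    ne := by
      show t.val (2 ^ tapeW x y ε) τ 0 ≠ []
      rw [h3]; simp
    res := by
      show (t.val (2 ^ tapeW x y ε) τ 0).headD 0 = res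
      rw [h3]; rfl
    time := by omega
    depth := h6 }

end Crest.Agent.R288.Main901
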