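import Mathlib
import Crest.Agent.R288.PuU_772
import Crest.Agent.R288.PgG_380
import Crest.Agent.R288.HypX_155
import Crest.Agent.R288.Main_901
import Crest.Agent.R288.ParV_53

/-!
# R288 (S0433), [PROG] P3: index 0 in the induction of the program

* **`rx_zero`** : `RX G W k P I K0 X 0 n c` (helper380) from `u_cz`;
* `UHN h` : the numbers, `ev_UHN`; **`uh_cfg`** : `UH` at every state of the domain of `cfgO`;
* **`rx_cfg`** : the claim of index 0 at `cfgO` on every tape.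
-/

set_option autoImplicit false

namespace Crest.Agent.R288.PuV772

open Crest.Agent.R295.Rnd627 Crest.Agent.R295.Rnd627.RT
open Crest.Agent.R288.Init772 Crest.Agent.R288.InitQ663 Crest.Agent.R288.InitS663
open Crest.Agent.R288.InitR663 Crest.Agent.R288.InitZ663 Crest.Agent.R288.InitK663
open Crest.Agent.R295.Pt949 Crest.Agent.R288.PrK690 Crest.Agent.R288.Pgb578
open Crest.Agent.R288.Par806 Crest.Agent.R288.ParO331 Crest.Agent.R288.PadK901
open Crest.Agent.R288.InitN775 Crest.Agent.R288.PuU772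
open Crest.Agent.R288.Alg45 (St)
open Crest.Agent.R288.PgY583 (arS qX qU)
open Crest.Agent.R288.Phe940 (Prg Wld Rz Rq Rqs wld)
open Crest.Agent.R288.Dom20 (Dom Om mem_Om)
open Crest.Agent.R288.PgF380 (RX)

/-! ### from the procedure to the claim -/

section gen

variable {G : Prg} {W : Wld} {k : KN} {kl : ℕ}
  {dl : List ℕ → List (List ℕ) → List ℕ × List (List ℕ)} {x y : List ℕ}
  {HB JB ZB CX Z : ℕ}

theorem val_map {α β : Type} (t : RT α) (f : α → β) (N : ℕ) (z : ℕ → ℕ) (q : ℕ) :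
    (t.map f).val N z q = f (t.val N z q) := by
  unfold RT.map RT.val
  rw [RT.run_bind]
  rfl

theorem nxt_map {α β : Type} (t : RT α) (f : α → β) (N : ℕ) (z : ℕ → ℕ) (q : ℕ) :
    (t.map f).nxt N z q = t.nxt N z q := by
  unfold RT.map RT.nxt
  rw [RT.run_bind]
  rfl

/-- fuel of U at macro height `i` -/
def fuI (k : KN) (i : ℕ) : ℕ := fu (kiH k) ((nn (hK k) * i - 1) / gI (hK k) + 1) + 2

/-- cost of U at macro height `i` -/
def coI (k : KN) (CX i : ℕ) : ℕ :=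
  (nn (hK k) * i + 4) * (CE (kiH k) CX ((nn (hK k) * i - 1) / gI (hK k) + 1) + 1) + 2

/-- **the claim of index 0** -/
theorem rx_zero (H : HE G W (jn k) kl dl 1 (kiH k) x y HB JB ZB CX) (hG : Has G k phU 2)
    (hE : Env W k Z) (h13 : 13 ≤ Z) (hσ : 2 ^ (parK (kiH k)).σ ≤ Z) {P : Alg45.Par} {I K0 : ℕ}
    {X : ℕ → ℕ × St → ℕ} (ha : ∀ z, Dom P I z → ArOk W.M 2 (arS 0 0 z))
    (U : ∀ z, Dom P I z → UH W k x y HB JB ZB Z z) {o : ℕ}
    (hb : ∀ z, G.base (fr k 2 (arS 0 0 z) []) = o)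
    (hX : ∀ κ z, (κ, z) ∈ Om P I K0 → X 0 (κ, z) =
      (iniU (par (gI (hK k)) (DI (hK k)) (mI (hK k))) (pI (hK k)) x y (nn (hK k)) z).val
        W.N W.Z o)
    (hnx : ∀ z, Dom P I z →
      (iniU (par (gI (hK k)) (DI (hK k)) (mI (hK k))) (pI (hK k)) x y (nn (hK k)) z).nxt
        W.N W.Z o ≤ W.Pm) {n : ℕ} {c : ℕ → ℕ} (hn : ∀ i ≤ I, fuI k i ≤ n)
    (hc : ∀ i ≤ I, coI k CX i ≤ c i) :
    RX G W k P I K0 X 0 n c := by
  intro κ z hz
  have hd := (mem_Om.1 hz).2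
  have hi : z.i ≤ I := Dom20.Dom.i_le hd
  have h1 := u_cz H hG hE h13 hσ (ha z hd) (U z hd) (d := (nn (hK k) * z.i - 1) / gI (hK k) + 1)
    (le_refl _)
  have h2 := cal5 h1 (by rw [nxt_map, hb]; exact hnx z hd)
  rw [val_map, hb, ← hX κ z hz] at h2
  exact h2.mono (hn z.i hi) (hc z.i hi)

end gen

/-! ### the numbers -/

/-- the numbers of index `0` -/
structure UHN (h : ℕ) : Prop where
  pad : HH h + 3 ≤ 2 ^ cPad h
  p13 : 13 ≤ 2 ^ cPad h
  σ : 2 ^ (gI h + DI h) ≤ 2 ^ cPad h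
  big : ∀ L, Nat.clog 2 L = h → 2 ^ (HH h + 7) + 2 * L < (L + 2) ^ 3

theorem ev_UHN : ∀ᶠ h : ℕ in Filter.atTop, UHN h := by
  filter_upwards [Par806.ev_pow_le_self 9 2 0 1 0 0 1, Filter.eventually_ge_atTop 16] with h h1 h2
  simp only [pow_zero, mul_one, pow_one, zero_mul, add_zero] at h1
  have hW := W_pos h
  have hL := Lg_pos h
  have hM := Mg_pos h
  have hWL : 1 ≤ W h * Lg h := Nat.mul_pos hW hL
  have hL1 : Lg h ≤ W h * Lg h := Nat.le_mul_of_pos_left _ hW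
  have hc : cPad h = 64 * (W h * Lg h) := by unfold cPad; ring
  have hnn : nn h = W h ^ 2 * Mg h := by unfold nn; ring
  have hn1 : 1 ≤ W h ^ 2 * Mg h := Nat.mul_pos (by positivity) hM
  have hn9 : nn h + 8 ≤ h := by
    have : 9 * W h ^ 2 * Mg h = 9 * (W h ^ 2 * Mg h) := by ring
    omega
  have hHH : HH h ≤ h + nn h := ParV53.nn_mul_II_le h
  have hlt := lt_two_pow_Lg h
  refine ⟨?_, ?_, ?_, ?_⟩
  · have e1 : 2 * 2 ^ Lg h ≤ 2 ^ cPad h := by
      calc 2 * 2 ^ Lg h = 2 ^ (Lg h + 1) := by rw [pow_succ]; ring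
        _ ≤ 2 ^ cPad h := Nat.pow_le_pow_right (by norm_num) (by omega)
    omega
  · calc 13 ≤ 2 ^ 4 := by norm_num
      _ ≤ 2 ^ cPad h := Nat.pow_le_pow_right (by norm_num) (by omega)
  · refine Nat.pow_le_pow_right (by norm_num) ?_
    have e1 : gI h = W h * Lg h := rfl
    have e2 : DI h = 10 * Lg h := rfl
    omega
  · intro L hLh
    have e1 : 2 ^ (h - 1) < L := by
      rw [← hLh]
      refine Nat.pow_pred_clog_lt_self (by norm_num) ?_
      by_contra h3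
      have h4 : Nat.clog 2 L = 0 := Nat.clog_of_right_le_one (by omega) 2
      omega
    have e2 : 2 ^ (HH h + 7) ≤ 2 * (2 ^ (h - 1) * 2 ^ (h - 1)) := by
      rw [← pow_add, ← pow_succ']
      exact Nat.pow_le_pow_right (by norm_num) (by omega)
    have e3 : 2 ^ (h - 1) * 2 ^ (h - 1) ≤ L * L := Nat.mul_le_mul e1.le e1.le
    have e4 : (L + 2) ^ 3 = L ^ 3 + 6 * (L * L) + 12 * L + 8 := by ring
    have e5 : 0 ≤ L ^ 3 := Nat.zero_le _
    generalize L * L = A at *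
    generalize L ^ 3 = B at *
    omega

/-! ### at the configuration -/

section cfg

open Crest.Agent.R288.Pl726 Crest.Agent.R288.Top791 Crest.Agent.R288.Asm331
open Crest.Agent.R288.Asm12 (hh)
open Crest.Agent.R288.PltT365 (v0 tapeW tapeD)

variable {x y : List ℕ} {ε : ℚ} {pe : PEnv}

theorem big_pe (hin : PIn x y ε pe) (hU : UHN (hh x y ε)) :
    2 ^ (HH (hh x y ε) + 7) + 2 * (inp x y ε).length < pe.B :=
  (hU.big _ rfl).trans_le hin.B

/-- the arguments of U are words -/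
theorem arOk_cfg (hin : PIn x y ε pe) (hU : UHN (hh x y ε)) {tg : ℕ} (htg : tg < 128) {z : St}
    (hz : Dom (cfgO x y ε).P (cfgO x y ε).I z) : ArOk pe.B tg (arS 0 0 z) := by
  have h1 := big_pe hin hU
  have h2 : HH (hh x y ε) < 2 ^ HH (hh x y ε) := Nat.lt_two_pow_self
  have h0 : 1 ≤ 2 ^ HH (hh x y ε) := Nat.one_le_two_pow
  have h3 : 2 ^ (HH (hh x y ε) + 7) = 128 * 2 ^ HH (hh x y ε) := by rw [pow_add]; ring
  have h4 : (cfgO x y ε).P.Dm = 2 ^ (HH (hh x y ε) + 1) := rfl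
  have h5 : 2 ^ (HH (hh x y ε) + 1) = 2 * 2 ^ HH (hh x y ε) := by rw [pow_succ]; ring
  have h6 : (cfgO x y ε).P.N ^ (cfgO x y ε).I = 2 ^ HH (hh x y ε) := by
    show (2 ^ nn (hh x y ε)) ^ II (hh x y ε) = _
    rw [← pow_mul]
    rfl
  have h7 : (cfgO x y ε).I ≤ HH (hh x y ε) := by
    show II (hh x y ε) ≤ nn (hh x y ε) * II (hh x y ε)
    exact Nat.le_mul_of_pos_left _ (ParV53.nn_pos _)
  refine PgF380.arOk_arS (by omega) (by omega) (by omega) (by omega) (by omega) (by omega) hz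

/-- **the numbers of U at every state of the domain** -/
theorem uh_cfg (hin : PIn x y ε pe) (hU : UHN (hh x y ε)) {Z N a1 a2 R : ℕ} {τ : ℕ → ℕ}
    (hE : Env (wld pe N τ a1 a2 R) (konO (v0 x y ε)) Z) {z : St}
    (hz : Dom (cfgO x y ε).P (cfgO x y ε).I z) :
    UH (wld pe N τ a1 a2 R) (konO (v0 x y ε)) x y (HH (hh x y ε) + 3) (2 ^ HH (hh x y ε))
      ((HH (hh x y ε) + 3) * 2 ^ (HH (hh x y ε) + 3)) Z z := by
  obtain ⟨z1, z2, z3, z4⟩ := (Dom20.dom_iff _).1 hz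
  have hk : hK (konO (v0 x y ε)) = hh x y ε := rfl
  have hl : (konO (v0 x y ε)).2.length = 2 ^ cPad (hh x y ε) := konO_len _
  have hZ : (konO (v0 x y ε)).2.length ≤ Z := hE.K2.1
  have hp := hU.pad
  have z1' : z.i ≤ II (hh x y ε) := z1
  have hi : nn (hh x y ε) * z.i ≤ HH (hh x y ε) := Nat.mul_le_mul_left _ z1'
  have z3' : z.u.natAbs ≤ 2 ^ (HH (hh x y ε) + 1) := z3
  have z4' : z.v.natAbs ≤ 2 ^ (HH (hh x y ε) + 1) := z4
  have hD : 2 ^ (HH (hh x y ε) + 1) ≤ 2 ^ (HH (hh x y ε) + 3) :=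
    Nat.pow_le_pow_right (by norm_num) (by omega)
  refine ⟨?_, ?_, ?_, ?_, ?_, ?_⟩
  · rw [hk, hl]; omega
  · rw [hk]; omega
  · rw [hk]
    have e1 : z.j + 1 ≤ (2 ^ nn (hh x y ε)) ^ (II (hh x y ε) - z.i) := z2
    calc (z.j + 1) * 2 ^ (nn (hh x y ε) * z.i)
        ≤ (2 ^ nn (hh x y ε)) ^ (II (hh x y ε) - z.i) * 2 ^ (nn (hh x y ε) * z.i) :=
          Nat.mul_le_mul_right _ e1
      _ = 2 ^ HH (hh x y ε) := by
          rw [← pow_mul, ← pow_add, ← Nat.mul_add, Nat.sub_add_cancel z1']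
          rfl
  · rw [hk]
    have e1 : 2 ^ (nn (hh x y ε) * z.i + 3) ≤ 2 ^ (HH (hh x y ε) + 3) :=
      Nat.pow_le_pow_right (by norm_num) (by omega)
    have e2 := Nat.mul_le_mul (show nn (hh x y ε) * z.i + 2 ≤ HH (hh x y ε) + 2 by omega) e1
    have e3 : (HH (hh x y ε) + 3) * 2 ^ (HH (hh x y ε) + 3) =
        (HH (hh x y ε) + 2) * 2 ^ (HH (hh x y ε) + 3) + 2 ^ (HH (hh x y ε) + 3) := by ring
    omega
  · rw [hk]
    omega
  · rw [hk]
    show _ < pe.B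
    have h1 := big_pe hin hU
    have h2 := inp_length x y ε
    have e1 : 2 ^ (nn (hh x y ε) * z.i + 6) ≤ 2 ^ (HH (hh x y ε) + 6) :=
      Nat.pow_le_pow_right (by norm_num) (by omega)
    have e2 : 2 ^ (HH (hh x y ε) + 7) = 128 * 2 ^ HH (hh x y ε) := by rw [pow_add]; ring
    have e3 : 2 ^ (HH (hh x y ε) + 6) = 64 * 2 ^ HH (hh x y ε) := by rw [pow_add]; ring
    have e4 : 2 ^ (HH (hh x y ε) + 1) = 2 * 2 ^ HH (hh x y ε) := by rw [pow_succ]; ring
    omega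

/-- **index `0` at the configuration, on every tape** -/
theorem rx_cfg (hin : PIn x y ε pe) (hU : UHN (hh x y ε)) (hW : PgW155.WOk (hh x y ε))
    {G : Prg} {kl : ℕ} {dl : List ℕ → List (List ℕ) → List ℕ × List (List ℕ)}
    {CX Z a1 a2 : ℕ} {τ : ℕ → ℕ}
    (hE : Env (wld pe (2 ^ tapeW x y ε) τ a1 a2 (tapeD (PgW155.fW rW) x y ε))
      (konO (v0 x y ε)) Z)
    (H : HE G (wld pe (2 ^ tapeW x y ε) τ a1 a2 (tapeD (PgW155.fW rW) x y ε))
      (jn (konO (v0 x y ε))) kl dl 1 (kiH (konO (v0 x y ε))) x y (HH (hh x y ε) + 3)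
      (2 ^ HH (hh x y ε)) ((HH (hh x y ε) + 3) * 2 ^ (HH (hh x y ε) + 3)) CX)
    (hG : Has G (konO (v0 x y ε)) phU 2)
    (hb : ∀ z, G.base (fr (konO (v0 x y ε)) 2 (arS 0 0 z) []) = 0) {n : ℕ} {c : ℕ → ℕ}
    (hn : ∀ i ≤ II (hh x y ε), fuI (konO (v0 x y ε)) i ≤ n)
    (hc : ∀ i ≤ II (hh x y ε), coI (konO (v0 x y ε)) CX i ≤ c i) :
    RX G (wld pe (2 ^ tapeW x y ε) τ a1 a2 (tapeD (PgW155.fW rW) x y ε)) (konO (v0 x y ε))
      (cfgO x y ε).P (cfgO x y ε).I (cfgO x y ε).K0 ((cfgO x y ε).X τ) 0 n c := by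
  have hl : (konO (v0 x y ε)).2.length = 2 ^ cPad (hh x y ε) := konO_len _
  have hZ : (konO (v0 x y ε)).2.length ≤ Z := hE.K2.1
  have h13 := hU.p13
  refine rx_zero H hG hE (by omega) ?_ (fun z hz => arOk_cfg hin hU (by norm_num) hz)
    (fun z hz => uh_cfg hin hU hE hz) hb (fun κ z hz => ?_) (fun z hz => ?_) hn hc
  · have e1 : (parK (kiH (konO (v0 x y ε)))).σ = gI (hh x y ε) + DI (hh x y ε) := rfl
    rw [e1]
    have := hU.σ
    omega
  · have h1 := Cfg.X_zero (C := cfgO x y ε) τ hz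
    rw [HypX155.o_zero] at h1
    exact h1
  · have h1 := HypX155.U_nxt (x := x) (y := y) (ε := ε) hW (z := z) (Dom20.Dom.i_le hz) τ
    rw [HypX155.o_zero] at h1
    exact h1

end cfg

end Crest.Agent.R288.PuV772
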