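import Mathlib
import Crest.Agent.R288.InitJ_663
import Crest.Agent.R288.PuV_772
import Crest.Agent.R288.HypL_200
import Crest.Agent.R288.EnvK_901

/-!
# R288 (S0433), [PROG] P3: the hypotheses `HE` of EST at the configuration

* `HEN h` : the numbers, `ev_HEN`;
* **`he_cfg`** : `HE G (wld pe N τ a1 a2 R) (jn (konO v0)) (klen (konO v0)) (dl (konO v0)) 1
  (kiH (konO v0)) x y (HH h + 3) (2 ^ HH h) ((HH h + 3) * 2 ^ (HH h + 3)) (lcO h)` in every machine
  environment of the input.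
-/

set_option autoImplicit false

namespace Crest.Agent.R288.InitHE663

open Filter
open Crest.Agent.R295.Rnd627 Crest.Agent.R288.InitS663 Crest.Agent.R288.InitR663
open Crest.Agent.R288.InitZ663 Crest.Agent.R288.InitK663 Crest.Agent.R288.InitJ663
open Crest.Agent.R295.Pt949 Crest.Agent.R288.PrK690 Crest.Agent.R288.Pgb578
open Crest.Agent.R288.Par806 Crest.Agent.R288.ParO331 Crest.Agent.R288.PadK901
open Crest.Agent.R288.Phe940 (Prg Wld wld)
open Crest.Agent.R288.Pl726 Crest.Agent.R288.Top791 Crest.Agent.R288.Asm331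
open Crest.Agent.R288.Asm12 (hh Num)
open Crest.Agent.R288.PltT365 (v0 tapeW tapeD)
open Crest.Agent.R288.HypL200 (lcO)

/-- the exponent of the word inequality of EST -/
def eHE (h : ℕ) : ℕ := (gI h + DI h + 6) + (2 * DI h + 11 + (gI h + DI h + 5) +
  Nat.clog 2 (mI h) + 2 * gI h) + (gI h + 2 * DI h + 10) + (HH h + 3) + 2

/-- the numbers of EST -/
structure HEN (h : ℕ) : Prop where
  pad : gI h + DI h + 5 ≤ cPad h
  e : eHE h + 3 ≤ 3 * h
  z : (2 * HH h + 6) + 3 ≤ 3 * h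

theorem clog_mI_le {h : ℕ} (hW : W h ≤ h) : Nat.clog 2 (mI h) ≤ 2 * Lg h := by
  refine Nat.clog_le_of_le_pow ?_
  have h1 := lt_two_pow_Lg h
  calc mI h = W h * h := rfl
    _ ≤ h * h := Nat.mul_le_mul_right _ hW
    _ ≤ 2 ^ Lg h * 2 ^ Lg h := Nat.mul_le_mul h1.le h1.le
    _ = 2 ^ (2 * Lg h) := by rw [← pow_add]; congr 1; ring

theorem ev_HEN : ∀ᶠ h : ℕ in atTop, HEN h := by
  filter_upwards [Par806.ev_pow_le_self 200 2 1 0 0 0 1, Par806.ev_pow_le_self 4 2 0 1 0 0 1,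
    eventually_ge_atTop 16] with h h1 h1' h2
  simp only [pow_zero, mul_one, pow_one, zero_mul, add_zero] at h1 h1'
  have hW := W_pos h
  have hL := Lg_pos h
  have hM := Mg_pos h
  have hWL : 1 ≤ W h * Lg h := Nat.mul_pos hW hL
  have hL1 : Lg h ≤ W h * Lg h := Nat.le_mul_of_pos_left _ hW
  have hc : cPad h = 64 * (W h * Lg h) := by unfold cPad; ring
  have hnn : nn h = W h ^ 2 * Mg h := by unfold nn; ring
  have hHH : HH h ≤ h + nn h := ParV53.nn_mul_II_le h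
  have e1 : gI h = W h * Lg h := rfl
  have e2 : DI h = 10 * Lg h := rfl
  have h3 : 200 * (W h * Lg h) ≤ h := by
    refine le_trans ?_ h1
    calc 200 * (W h * Lg h) ≤ 200 * (W h * (W h * Lg h)) :=
          Nat.mul_le_mul_left _ (Nat.le_mul_of_pos_left _ hW)
      _ = 200 * W h ^ 2 * Lg h := by ring
  have h4 : 4 * (W h ^ 2 * Mg h) ≤ h := by
    have : 4 * W h ^ 2 * Mg h = 4 * (W h ^ 2 * Mg h) := by ring
    omega
  have h5 : W h ≤ h := by
    have : W h ≤ W h * Lg h := Nat.le_mul_of_pos_right _ hL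
    omega
  have h6 := clog_mI_le h5
  refine ⟨by omega, ?_, by omega⟩
  unfold eHE
  omega

theorem two_pow_lt_cube {h L : ℕ} (h1 : 1 ≤ h) (hL : Nat.clog 2 L = h) {e : ℕ}
    (he : e + 3 ≤ 3 * h) : 2 ^ e < (L + 2) ^ 3 := by
  have e1 : 2 ^ (h - 1) < L := by
    rw [← hL]
    refine Nat.pow_pred_clog_lt_self (by norm_num) ?_
    by_contra h3
    have h4 : Nat.clog 2 L = 0 := Nat.clog_of_right_le_one (by omega) 2
    omega
  calc 2 ^ e ≤ 2 ^ ((h - 1) * 3) := Nat.pow_le_pow_right (by norm_num) (by omega)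
    _ = (2 ^ (h - 1)) ^ 3 := by rw [pow_mul]
    _ < (L + 2) ^ 3 := Nat.pow_lt_pow_left (by omega) (by norm_num)

theorem prod_le {X1 X2 a b c d : ℕ} (h1 : X1 ≤ 2 ^ a) (h2 : X2 ≤ 2 ^ b) :
    X1 * X2 * (2 ^ c * 2 ^ d) * 4 ≤ 2 ^ (a + b + c + d + 2) := by
  calc X1 * X2 * (2 ^ c * 2 ^ d) * 4 ≤ 2 ^ a * 2 ^ b * (2 ^ c * 2 ^ d) * 4 :=
        Nat.mul_le_mul_right _ (Nat.mul_le_mul_right _ (Nat.mul_le_mul h1 h2))
    _ = 2 ^ (a + b + c + d + 2) := by
        rw [pow_add, pow_add, pow_add, pow_add]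
        ring

variable {x y : List ℕ} {ε : ℚ} {pe : PEnv}

/-- **the hypotheses of EST at the configuration** -/
theorem he_cfg (hN : Num x y ε) (hin : PIn x y ε pe) (hH : HEN (hh x y ε))
    {G : Prg} {dl : KN → List ℕ → List (List ℕ) → List ℕ × List (List ℕ)} (hG : G.δ = wrapK dl)
    (hdl : ∀ ph a L rs, dl (konO (v0 x y ε)) (frE 1 ph a L) rs =
      hE 1 (konO (v0 x y ε)) (frE 1 ph a L) rs)
    {N Z a1 a2 R : ℕ} {τ : ℕ → ℕ} (env : Env (wld pe N τ a1 a2 R) (konO (v0 x y ε)) Z)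
    (N0 : 0 < N) (NM : N ≤ pe.B) :
    HE G (wld pe N τ a1 a2 R) (jn (konO (v0 x y ε))) (klen (konO (v0 x y ε)))
      (dl (konO (v0 x y ε))) 1 (kiH (konO (v0 x y ε))) x y (HH (hh x y ε) + 3)
      (2 ^ HH (hh x y ε)) ((HH (hh x y ε) + 3) * 2 ^ (HH (hh x y ε) + 3)) (lcO (hh x y ε)) := by
  have hk : hK (konO (v0 x y ε)) = hh x y ε := rfl
  have hW := W_pos (hh x y ε)
  have hL := Lg_pos (hh x y ε)
  have hg : 1 ≤ gI (hh x y ε) := Nat.mul_pos hW hL
  have h1 : 1 ≤ hh x y ε := by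
    have := hH.e
    unfold eHE at this
    omega
  have hB := hin.B
  have key : ∀ {e : ℕ}, e + 3 ≤ 3 * hh x y ε → 2 ^ e < pe.B := fun he =>
    (two_pow_lt_cube h1 rfl he).trans_le hB
  have he := hH.e
  have hlen := inp_length x y ε
  have hlt : ∀ a, a ≤ (inp x y ε).length → a < pe.B := fun a ha => HypL200.lt_of_PIn hin ha
  refine he_of hG hdl env N0 NM rfl rfl hg ?_ ?_ ?_ ?_ (hlt _ (by omega)) (hlt _ (by omega)) ?_ ?_ ?_
  · rw [hk, konO_len]
    exact Nat.pow_le_pow_right (by norm_num) hH.pad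
  · show (gI (hh x y ε) + DI (hh x y ε) + 4 + 2) * 2 ^ (2 * DI (hh x y ε) + 11 +
      Nat.clog 2 (gI (hh x y ε) + DI (hh x y ε) + 5) + Nat.clog 2 (mI (hh x y ε)) +
        2 * gI (hh x y ε)) * (2 ^ (gI (hh x y ε) + 2 * DI (hh x y ε) + 10) *
          2 ^ (HH (hh x y ε) + 3)) * 4 < pe.B
    refine lt_of_le_of_lt ?_ (key he)
    have c1 : gI (hh x y ε) + DI (hh x y ε) + 4 + 2 ≤ 2 ^ (gI (hh x y ε) + DI (hh x y ε) + 6) :=
      (Nat.lt_two_pow_self).le
    have c2 : Nat.clog 2 (gI (hh x y ε) + DI (hh x y ε) + 5) ≤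
        gI (hh x y ε) + DI (hh x y ε) + 5 :=
      Nat.clog_le_of_le_pow (Nat.lt_two_pow_self).le
    have c3 : 2 ^ (2 * DI (hh x y ε) + 11 +
      Nat.clog 2 (gI (hh x y ε) + DI (hh x y ε) + 5) + Nat.clog 2 (mI (hh x y ε)) +
        2 * gI (hh x y ε)) ≤ 2 ^ (2 * DI (hh x y ε) + 11 +
      (gI (hh x y ε) + DI (hh x y ε) + 5) + Nat.clog 2 (mI (hh x y ε)) +
        2 * gI (hh x y ε)) := Nat.pow_le_pow_right (by norm_num) (by omega)
    exact prod_le c1 c3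
  · show 2 ^ HH (hh x y ε) < pe.B
    refine key ?_
    unfold eHE at he
    omega
  · show (HH (hh x y ε) + 3) * 2 ^ (HH (hh x y ε) + 3) < pe.B
    refine lt_of_le_of_lt ?_ (key hH.z)
    calc (HH (hh x y ε) + 3) * 2 ^ (HH (hh x y ε) + 3)
        ≤ 2 ^ (HH (hh x y ε) + 3) * 2 ^ (HH (hh x y ε) + 3) :=
          Nat.mul_le_mul_right _ (Nat.lt_two_pow_self).le
      _ = 2 ^ (2 * HH (hh x y ε) + 6) := by rw [← pow_add]; congr 1; ring
  · intro a
    show [pe.X a] = _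
    rw [hin.X]
  · intro a ha
    exact ha
  · intro h j u
    show pe.XT _ ≤ _
    rw [hin.XT]
    refine le_trans (LeafX222.leafCost_mono (D' := 2 ^ lam (hh x y ε)) ?_)
      (HypL200.leafCost_le hN.size_le)
    exact Nat.zero_le _

end Crest.Agent.R288.InitHE663
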