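import Crest.Agent.R288.PgC_578

/-!
# R288, [PROG] procedure BODY (helper72): the realisation in the letters of `PgC_578`

**`b_hyp`** : under `Hyp`, the claim of the body table of the index `l` at the cell `d` from the
claims of the unit function, of the numbers of lower rank and of the arrival tables below.
-/

set_option autoImplicit false

namespace Crest.Agent.R288.Delta72

open Crest.Agent.R295.Rnd627 Crest.Agent.R288.Alg45 Crest.Agent.R288.PrK690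
open Crest.Agent.R288.Phe940 (Prg Wld fl Rz Rq Rqs Szo kq)
open Crest.Agent.R288.Delta222 Crest.Agent.R288.PgA172 Crest.Agent.R288.Pgb578
open Crest.Agent.R288.Pgc578
open Crest.Agent.R288.PgY583 (arS arC qX qF qA)

variable {c : Cx} {D : Txt} {G : Prg} {W : Wld} {K : KN} {Z lfc n : ℕ}

theorem rk_lt {P : Par} (hK : 0 < P.K) (l : ℕ) : rk P l < P.K := Nat.mod_lt _ hK

/-- indices of lower rank of the same epoch -/
theorem idx_lt {P : Par} {l i : ℕ} (hl : 0 < l) (hi : i < rk P l) : idx P (ep P l) i < l := by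
  unfold idx ep rk at *
  have h1 := Nat.div_add_mod (l - 1) P.K
  rw [Nat.mul_comm] at h1
  omega

theorem ep_le {P : Par} (hK : 0 < P.K) {l : ℕ} (h1 : l ≤ P.E * P.K) : ep P l ≤ P.E := by
  unfold ep
  calc (l - 1) / P.K ≤ (P.E * P.K) / P.K := Nat.div_le_div_right (by omega)
    _ = P.E := Nat.mul_div_cancel _ hK

/-- **BODY** -/
theorem b_hyp (h : Hyp c D G W K Z lfc) {l : ℕ} (hl : 0 < l) (hT : l ≤ c.EK) {d : Cel}
    (hd : c.DB d) {CA CF CX nB : ℕ}
    (hF : ∀ y ∈ bst c.P d, Rq G W (n + 2) (wrapQ K (qF (ep c.P l) y)) (.ret [c.Fl l y]) CF)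
    (hX : ∀ a ∈ rpr (rk c.P l) (bpr c.P (c.Fl l) d),
      Rq G W (n + 1) (wrapQ K (qX (idx c.P (ep c.P l) a.1) a.2.1 a.2.2))
        (.ret [c.Xl l a.1 a.2.1 a.2.2]) CX)
    (hA : ∀ d', c.DA d' → d'.i = d.i - 1 → Cz G W K 5 (n + 1) (arC l d') [] (c.tA l d') CA)
    (hB : ∀ ρ, (bkeys c.P d.κ d.m ρ).length ≤ nB) :
    Cz G W K 6 (n + 3) (arC l d) [] (c.tB l d)
      (nwd c.P * 2 + (bst c.P d).length * (CF + 1) + (nB * (CA + 1) +
        ((rpr (rk c.P l) (bpr c.P (c.Fl l) d)).length * (CX + 1) +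
          (cells c.P d).length * (lfc + 1)) + 2) + 2) := by
  have hE := h.env
  have hZ := h.Z12
  have hcl : ∀ y ∈ cells c.P d, c.DS y := by
    intro y hy
    unfold cells at hy
    obtain ⟨t, ht, rfl⟩ := List.mem_map.1 hy
    exact h.B_S d hd _ (mem_bst c.P (List.mem_range.1 ht) (self_mem c.P d.κ _))
  have hr : ∀ a ∈ rpr (rk c.P l) (bpr c.P (c.Fl l) d), c.DP a.2.1 a.2.2 ∧ a.1 < rk c.P l := by
    intro a ha
    unfold rpr at ha
    simp only [List.mem_flatMap, List.mem_range, List.mem_map] at ha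
    obtain ⟨i, hi, p, hp, rfl⟩ := ha
    exact ⟨h.B_P l hl hT d hd p hp, hi⟩
  have hs : ∀ ρ, ∀ key ∈ bkeys c.P d.κ d.m ρ, c.tA l (bcel c.P d key) =
      arrT c.P c.leaf (c.Fl l) (c.Xl l) (rk c.P l) (d.i - 1) (bcel c.P d key) :=
    fun ρ key _ => rfl
  unfold Cx.tB
  refine body_cz' (encA := qA l) (encF := qF (ep c.P l)) (encG := qL c.la)
    (encX := fun a => qX (idx c.P (ep c.P l) a.1) a.2.1 a.2.2) (lf := c.lf) (g := c.lg)
    h.gB hE h.N h.NM (fun y _ => h.leaf_eq y) ?_ (fun u0 hu0 => ?_) (fun u0 hu0 u1 hu1 => ?_)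
    hF (fun ρ key hkey => ?_) hX (fun y hy => ?_) (fun ρ key hkey => ?_)
    (fun y hy => h.vF _ (ep_le h.Kpos hT) y (h.B_S d hd y hy))
    (fun y hy => h.lg_lt y (hcl y hy)) (fun a ha => ?_)
    (fun ρ key hkey => cal_wd hE hZ (by norm_num) (h.wA l hT _ (h.B_A d hd ρ key hkey)))
    (fun y hy => cal_wd hE hZ (by norm_num) (h.wF _ (ep_le h.Kpos hT) y (h.B_S d hd y hy)))
    (fun y hy => h.la_wd y (hcl y hy)) (fun a ha => ?_) (h.wB l hT d hd) hB (h.zB0 d hd)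
    (h.zB1 l hl hT d hd) (h.vB l hl hT d hd)
  · rw [phAll_B D K (h.B_b d hd), phB_zero, rqB0, cOf_arC, arC_a, h.dP]
    rfl
  · rw [phAll_B D K (h.B_b d hd), phB_one, rqB1, cOf_arC, arC_a, h.dP, h.dla, kOf_eq h.Kpos]
    rfl
  · rw [phAll_B D K (h.B_b d hd), phB_two, cOf_arC, arC_a, h.dP, h.dlf, kOf_eq h.Kpos]
    rfl
  · exact cal4 (hs ρ key hkey ▸ hA _ (h.B_A d hd ρ key hkey) rfl)
  · have h4 : Rq G W (n + 1) (3 :: c.la y) (.ret (W.E (c.la y))) (W.cE (c.la y)) :=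
      Phe940.Rq.ext (q := 3 :: c.la y) (by simp [kq]) (h.la_ok y (hcl y hy))
    rw [qL, wrapQ_three, ← h.la_E y (hcl y hy)]
    exact h4.mono le_rfl (h.la_c y (hcl y hy))
  · rw [← hs ρ key hkey]
    exact h.vA l hl hT _ (h.B_A d hd ρ key hkey)
  · obtain ⟨h1, h2⟩ := hr a ha
    exact h.vX _ ((idx_lt hl h2).le.trans hT) _ _ h1
  · obtain ⟨h1, h2⟩ := hr a ha
    rw [PgX583.qX_eq (by unfold idx; omega)]
    exact cal_wd hE hZ (by norm_num) (h.wX _ ((idx_lt hl h2).le.trans hT) _ _ h1)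

end Crest.Agent.R288.Delta72
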