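import Crest.Agent.R288.PgC_578
import Crest.Agent.R288.PgG_380

/-!
# R288, [PROG] procedure F (helper380): the realisation in the letters of `PgC_578`

* **`f0_hyp`**, **`fs_hyp`** : under `Hyp`, the claim of the unit function of the epoch `0`, `e + 1`
  at the state `y` from the claim of the unit function of the epoch `e` at `y` and of the numbers of
  the indices of the epoch `e` at the pairs of the domain in the block of `y`; exact cost.
-/

set_option autoImplicit false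

namespace Crest.Agent.R288.PgF380

open Crest.Agent.R295.Rnd627 Crest.Agent.R288.Alg45 Crest.Agent.R288.PrK690
open Crest.Agent.R288.PgX583 Crest.Agent.R288.PgY583
open Crest.Agent.R288.Phe940 (Prg Wld Rz Rq Rqs)
open Crest.Agent.R288.Pgb578 Crest.Agent.R288.Pgc578

variable {c : Cx} {D : Txt} {G : Prg} {W : Wld} {K : KN} {Z lfc n : ℕ}

theorem hmenu_eq_hprs (P : Par) (F : St → ℕ) (y : St) : PgA172.hmenu P F y = hprs P (F y) y := rfl

/-- a request of a number is small -/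
theorem qX_wd_hyp (h : Hyp c D G W K Z lfc) {l κ : ℕ} {z : St} (hl : l ≤ c.EK) (hp : c.DP κ z) :
    Wd W.M Z (qX l κ z) := by
  unfold qX
  split_ifs with h0
  · exact cal_wd (tg := 2) h.env h.Z12 (kd := 5) le_rfl (h.wU z (h.P_S κ z hp))
  · exact cal_wd (tg := 3) h.env h.Z12 (kd := 5) le_rfl (h.wX l hl κ z hp)

theorem qF_wd_hyp (h : Hyp c D G W K Z lfc) {e : ℕ} {y : St} (he : e ≤ c.P.E) (hy : c.DS y) :
    Wd W.M Z (qF e y) := cal_wd (tg := 4) h.env h.Z12 (kd := 5) le_rfl (h.wF e he y hy)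

/-- **F at epoch `0`** -/
theorem f0_hyp (h : Hyp c D G W K Z lfc) {C0 C : ℕ} {y : St} (hy : c.DS y)
    (h0 : Rq G W (n + 2) (wrapQ K (qX 0 0 y)) (.ret [c.X 0 (0, y)]) C0)
    (hX : ∀ z, c.DS z → z.i = y.i → z.j = y.j →
      Rq G W (n + 1) (wrapQ K (qX 0 0 z)) (.ret [c.X 0 (0, z)]) C) :
    Cz G W K 4 (n + 3) (arS 0 0 y) [] (.ret [c.F 0 y])
      (4 + (C0 + 1) + uP c.P * (C + 1)) := by
  have key : ∀ k ∈ hkeys c.P (c.X 0 (0, y)) y [0], k.1 = 0 ∧ k.2.1 = 0 ∧ c.DS k.2.2 := by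
    intro k hk
    obtain ⟨h2, p, hp, h3⟩ := mem_hkeys.1 hk
    rw [List.mem_singleton] at h2
    have h4 : c.DS p.2 := h.S_h0 y hy p (by rw [hmenu_eq_hprs]; exact hp)
    rw [h2] at h3
    unfold harg at h3
    rw [if_pos rfl] at h3
    exact ⟨h2, by rw [h3], by rw [h3]; exact h4⟩
  have hr : FE c.P c.X 0 y < W.M := h.vF 0 (Nat.zero_le _) y hy
  have g := hf_cz' (ls := [0]) (y := y) (X := c.X) (v := c.X 0 (0, y)) (c := fun _ => C)
    (a := arS 0 0 y) (q0 := qX 0 0 y) (P := c.P) h.gF h.env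
    (fun sv => by rw [phAll_F, h.dP]; rfl)
    (h.wF 0 (Nat.zero_le _) y hy)
    (qX_wd_hyp h (Nat.zero_le _) (h.S_0 y hy)) h0 (h.vX 0 (Nat.zero_le _) 0 y (h.S_0 y hy))
    (fun k hk => by
      obtain ⟨e1, e2, h3⟩ := key k hk
      obtain ⟨h4, h5⟩ := hkeys_ij hk
      have h6 := hX k.2.2 h3 h4 h5
      obtain ⟨k1, k2, k3⟩ := k
      simp only at e1 e2 h6 ⊢
      subst e1 e2
      exact h6)
    (fun k hk => by
      obtain ⟨e1, e2, h3⟩ := key k hk
      have h6 := h.vX 0 (Nat.zero_le _) 0 k.2.2 (h.S_0 _ h3)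
      obtain ⟨k1, k2, k3⟩ := k
      simp only at e1 e2 h6 ⊢
      subst e1 e2
      exact h6)
    (fun k hk => by
      obtain ⟨e1, e2, h3⟩ := key k hk
      rw [e1, e2]
      exact qX_wd_hyp h (Nat.zero_le _) (h.S_0 _ h3))
    (h.z0 y hy)
    (by rw [← FE_zero_eq]; exact hr)
  rw [← FE_zero_eq] at g
  have e2 : (([0] : List ℕ).map fun _ => C + 1).sum = C + 1 := by simp
  rw [e2] at g
  exact g

/-- **F at epoch `e + 1`** -/
theorem fs_hyp (h : Hyp c D G W K Z lfc) {C0 e : ℕ} (he : e < c.P.E) {C : ℕ → ℕ} {y : St}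
    (hy : c.DS y) (h0 : Rq G W (n + 2) (wrapQ K (qF e y)) (.ret [c.F e y]) C0)
    (hX : ∀ j < c.P.K, ∀ κ z, c.DP κ z → z.i = y.i → z.j = y.j →
      Rq G W (n + 1) (wrapQ K (qX (1 + e * c.P.K + j) κ z))
        (.ret [c.X (1 + e * c.P.K + j) (κ, z)]) (C (1 + e * c.P.K + j))) :
    Cz G W K 4 (n + 3) (arS (e + 1) 0 y) [] (.ret [c.F (e + 1) y])
      (4 + (C0 + 1) + uP c.P * ∑ j ∈ Finset.range c.P.K, (C (1 + e * c.P.K + j) + 1)) := by
  have key : ∀ k ∈ hkeys c.P (FE c.P c.X e y) y (rks c.P e),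
      (∃ j < c.P.K, k.1 = 1 + e * c.P.K + j) ∧ c.DP k.2.1 k.2.2 := by
    intro k hk
    obtain ⟨h2, p, hp, h3⟩ := mem_hkeys.1 hk
    obtain ⟨j, hj, e1⟩ := mem_rks.1 h2
    have h4 : c.DP p.1 p.2 := h.S_h e he.le y hy p (by rw [hmenu_eq_hprs]; exact hp)
    have h5 : harg k.1 p = p := by
      unfold harg
      rw [if_neg (by omega)]
    rw [h5] at h3
    exact ⟨⟨j, hj, e1⟩, by rw [h3]; exact h4⟩
  have hl : ∀ j < c.P.K, 1 + e * c.P.K + j ≤ c.EK := fun j hj => idx_le he hj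
  have hr : FE c.P c.X (e + 1) y < W.M := h.vF (e + 1) he y hy
  have g := hf_cz' (ls := rks c.P e) (y := y) (X := c.X) (v := FE c.P c.X e y) (c := C)
    (a := arS (e + 1) 0 y) (q0 := qF e y) (P := c.P) h.gF h.env
    (fun sv => by rw [phAll_F, h.dP]; rfl)
    (h.wF (e + 1) he y hy) (qF_wd_hyp h he.le hy) h0 (h.vF e he.le y hy)
    (fun k hk => by
      obtain ⟨⟨j, hj, e1⟩, h3⟩ := key k hk
      obtain ⟨h4, h5⟩ := hkeys_ij hk
      rw [e1]
      exact hX j hj k.2.1 k.2.2 h3 h4 h5)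
    (fun k hk => by
      obtain ⟨⟨j, hj, e1⟩, h3⟩ := key k hk
      rw [e1]
      exact h.vX _ (hl j hj) _ _ h3)
    (fun k hk => by
      obtain ⟨⟨j, hj, e1⟩, h3⟩ := key k hk
      rw [e1]
      exact qX_wd_hyp h (hl j hj) h3)
    (h.zF e he y hy)
    (by rw [← FE_succ_eq]; exact hr)
  rw [← FE_succ_eq] at g
  have e2 : ((rks c.P e).map fun l => C l + 1).sum =
      ∑ j ∈ Finset.range c.P.K, (C (1 + e * c.P.K + j) + 1) := by
    unfold rks
    rw [List.map_map, ← list_sum_range]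
    rfl
  rw [e2] at g
  exact g

end Crest.Agent.R288.PgF380
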