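import Crest.Agent.R288.PgA_172
import Crest.Agent.R288.DomB_20

/-!
# R288, [PROG] P5b (helper172): lengths and ranges of the read sets of `PgA_172`

Lengths: `length_menu`, `nM` (pairs of one menu), `length_hmenu_le`, `length_pcs`, `length_wst`,
`length_wpr_le`, `length_cells`, `length_bst`, `length_bpr_le`, `length_rpr`, all in terms of `Par`.

Ranges: states of `pcs`, `wst`, `bst`, `cells` lie in the domain `Dom P I`; pairs of `own`, `hmenu`,
`wpr`, `bpr` lie in `Om P I K0` if all classes of `F` on the domain are `≤ K0 - a2`; they are grid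
states (`*_grid`), the blocks (`*_ij`).
-/

set_option autoImplicit false

namespace Crest.Agent.R288.PgL172

open Crest.Agent.R288.Alg45 Crest.Agent.R288.PgA172 Crest.Agent.R288.Dom20

variable (P : Par)

/-! ### lengths -/

theorem flatMap_len_le {α β : Type} (l : List α) (f : α → List β) (c : ℕ)
    (h : ∀ a ∈ l, (f a).length ≤ c) : (l.flatMap f).length ≤ l.length * c := by
  induction l with
  | nil => simp
  | cons a l ih =>
    rw [List.flatMap_cons, List.length_append, List.length_cons]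
    have h1 := h a (by simp)
    have h2 := ih fun b hb => h b (by simp [hb])
    calc (f a).length + (l.flatMap f).length ≤ c + l.length * c := Nat.add_le_add h1 h2
      _ = (l.length + 1) * c := by ring

theorem flatMap_len {α β : Type} (l : List α) (f : α → List β) (c : ℕ)
    (h : ∀ a ∈ l, (f a).length = c) : (l.flatMap f).length = l.length * c := by
  induction l with
  | nil => simp
  | cons a l ih =>
    rw [List.flatMap_cons, List.length_append, List.length_cons, h a (by simp),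
      ih fun b hb => h b (by simp [hb])]
    ring

@[simp] theorem length_rngC (lo hi : ℕ) : (rngC lo hi).length = hi + 1 - lo := by simp [rngC]

theorem length_castRange (n : ℕ) :
    (do let a ← List.range n; pure (a : ℤ) : List ℤ).length = n := by
  have : (do let a ← List.range n; pure (a : ℤ) : List ℤ) = (List.range n).map fun a => (a : ℤ) := by
    simp [List.map_eq_flatMap]
  rw [this]; simp

/-- length of a menu -/
@[simp] theorem length_menu (κ' ρ : ℕ) (y : St) :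
    (menu P κ' ρ y).length = (2 * (ρ / gst P κ') + 3) ^ 2 := by
  unfold menu
  rw [flatMap_len _ _ (2 * (ρ / gst P κ') + 3) fun a _ => by
    rw [List.length_map, length_castRange], length_castRange, pow_two]

/-- the number of letters of a menu of radius `2 F` at a class `≥ cls F - al` -/
theorem menu_size (P : Par) {κ κ' f : ℕ} (hf : f < 2 ^ (κ + 1)) (h : κ ≤ κ' + P.al) :
    2 * f / gst P κ' ≤ 4 * 2 ^ (P.al + P.pb) := by
  unfold gst
  have h1 : 2 ^ κ ≤ 2 ^ (κ' - P.pb) * 2 ^ (P.al + P.pb) := by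
    rw [← pow_add]
    exact Nat.pow_le_pow_right (by norm_num) (by omega)
  rw [pow_succ] at hf
  refine Nat.div_le_of_le_mul ?_
  calc 2 * f ≤ 4 * 2 ^ κ := by omega
    _ ≤ 4 * (2 ^ (κ' - P.pb) * 2 ^ (P.al + P.pb)) := Nat.mul_le_mul_left _ h1
    _ = 2 ^ (κ' - P.pb) * (4 * 2 ^ (P.al + P.pb)) := by ring

/-- bound of the number of the pairs of one menu -/
def nM : ℕ := (P.al + P.a2 + 1) * (8 * 2 ^ (P.al + P.pb) + 3) ^ 2

theorem mem_rngC {lo hi k : ℕ} : k ∈ rngC lo hi ↔ lo ≤ k ∧ k ≤ hi := by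
  unfold rngC
  simp only [List.mem_map, List.mem_range]
  constructor
  · rintro ⟨t, ht, rfl⟩; omega
  · rintro ⟨h1, h2⟩; exact ⟨k - lo, by omega, by omega⟩

theorem length_hmenu_le (F : St → ℕ) (y : St) : (hmenu P F y).length ≤ nM P := by
  unfold hmenu nM
  refine (flatMap_len_le _ _ ((8 * 2 ^ (P.al + P.pb) + 3) ^ 2) fun κ' hκ => ?_).trans ?_
  · rw [List.length_map, length_menu]
    obtain ⟨h1, -⟩ := mem_rngC.1 hκ
    have h2 := menu_size P (κ := cls F y) (κ' := κ') (f := F y)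
      (Nat.lt_pow_succ_log_self (by norm_num) _) (by omega)
    exact Nat.pow_le_pow_left (by omega) 2
  · rw [length_rngC]
    exact Nat.mul_le_mul_right _ (by omega)

@[simp] theorem length_pcs (κ : ℕ) (x : St) :
    (pcs P κ x).length = P.N * (WA P κ * WA P κ) := by
  unfold pcs
  rw [flatMap_len _ _ (WA P κ * WA P κ), List.length_range]
  intro q _
  rw [flatMap_len _ _ (WA P κ), List.length_range]
  intro a _
  simp

@[simp] theorem length_wst (κ : ℕ) (x : St) :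
    (wst P κ x).length = P.N * (WA P κ * WA P κ) + 1 := by
  simp [wst]

theorem length_wpr_le (F : St → ℕ) (κ : ℕ) (x : St) :
    (wpr P F κ x).length ≤ P.N * (WA P κ * WA P κ) * (nM P + 1) := by
  unfold wpr
  refine (flatMap_len_le _ _ (nM P + 1) fun y _ => ?_).trans (by rw [length_pcs])
  rw [List.length_cons]
  exact Nat.succ_le_succ (length_hmenu_le P F y)

@[simp] theorem length_cells (c : Cel) : (cells P c).length = csz P c.κ := by simp [cells]

@[simp] theorem length_bst (c : Cel) :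
    (bst P c).length = csz P c.κ * (P.N * (WA P c.κ * WA P c.κ) + 1) := by
  unfold bst
  rw [flatMap_len _ _ (P.N * (WA P c.κ * WA P c.κ) + 1), List.length_range]
  intro t _
  exact length_wst P _ _

theorem length_bpr_le (F : St → ℕ) (c : Cel) :
    (bpr P F c).length ≤ csz P c.κ * (P.N * (WA P c.κ * WA P c.κ) * (nM P + 1)) := by
  unfold bpr
  refine (flatMap_len_le _ _ _ fun t _ => length_wpr_le P F c.κ (cst P c t)).trans ?_
  rw [List.length_range]

@[simp] theorem length_rpr (k : ℕ) (L : List (ℕ × St)) : (rpr k L).length = k * L.length := by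
  unfold rpr
  rw [flatMap_len _ _ L.length, List.length_range]
  intro i _
  simp

theorem gpt_le (κ : ℕ) : gpt P κ ≤ 2 ^ P.pb := Nat.pow_le_pow_right (by norm_num) (min_le_right _ _)

theorem WA_le (κ : ℕ) : WA P κ ≤ 2 * P.r * 2 ^ P.pb + 1 := by
  unfold WA
  exact Nat.add_le_add_right (Nat.mul_le_mul_left _ (gpt_le P κ)) 1

theorem csz_le (κ : ℕ) : csz P κ ≤ 18 * (2 ^ P.pb * 2 ^ P.pb) := by
  unfold csz cu cv
  have h := gpt_le P κ
  have h1 : 1 ≤ 2 ^ P.pb := Nat.one_le_two_pow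
  calc gpt P κ * (17 * gpt P κ + 1) ≤ 2 ^ P.pb * (17 * 2 ^ P.pb + 1) :=
        Nat.mul_le_mul h (by omega)
    _ ≤ 2 ^ P.pb * (18 * 2 ^ P.pb) := Nat.mul_le_mul_left _ (by omega)
    _ = 18 * (2 ^ P.pb * 2 ^ P.pb) := by ring

/-- number of the pieces of one window, all classes -/
def nW (P : Par) : ℕ := P.N * ((2 * P.r * 2 ^ P.pb + 1) * (2 * P.r * 2 ^ P.pb + 1))

theorem win_le (κ : ℕ) : P.N * (WA P κ * WA P κ) ≤ nW P :=
  Nat.mul_le_mul_left _ (Nat.mul_le_mul (WA_le P κ) (WA_le P κ))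

/-- number of the requests `F` of a body table -/
def nF (P : Par) : ℕ := 18 * (2 ^ P.pb * 2 ^ P.pb) * (nW P + 1)

/-- number of the pairs of a body table -/
def nP (P : Par) : ℕ := 18 * (2 ^ P.pb * 2 ^ P.pb) * (nW P * (nM P + 1))

theorem length_bst_le (c : Cel) : (bst P c).length ≤ nF P := by
  rw [length_bst]
  exact Nat.mul_le_mul (csz_le P _) (Nat.add_le_add_right (win_le P _) 1)

theorem length_bpr_le' (F : St → ℕ) (c : Cel) : (bpr P F c).length ≤ nP P :=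
  (length_bpr_le P F c).trans
    (Nat.mul_le_mul (csz_le P _) (Nat.mul_le_mul_right _ (win_le P _)))

theorem length_rpr_bpr_le (k : ℕ) (F : St → ℕ) (c : Cel) :
    (rpr k (bpr P F c)).length ≤ k * nP P := by
  rw [length_rpr]
  exact Nat.mul_le_mul_left _ (length_bpr_le' P F c)

theorem length_wpr_le' (F : St → ℕ) (κ : ℕ) (x : St) :
    (wpr P F κ x).length ≤ nW P * (nM P + 1) :=
  (length_wpr_le P F κ x).trans (Nat.mul_le_mul_right _ (win_le P _))

/-! ### members -/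

variable {P}

theorem mem_hmenu {F : St → ℕ} {y : St} {p : ℕ × St} : p ∈ hmenu P F y ↔
    p.1 ∈ rngC (cls F y - P.al) (cls F y + P.a2) ∧ p.2 ∈ menu P p.1 (2 * F y) y := by
  unfold hmenu
  simp only [List.mem_flatMap, List.mem_map]
  constructor
  · rintro ⟨κ', h1, z, h2, rfl⟩; exact ⟨h1, h2⟩
  · rintro ⟨h1, h2⟩; exact ⟨p.1, h1, p.2, h2, rfl⟩

theorem hmenu_cls {F : St → ℕ} {y : St} {p : ℕ × St} (h : p ∈ hmenu P F y) :
    cls F y ≤ p.1 + P.al ∧ p.1 ≤ cls F y + P.a2 := by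
  obtain ⟨h1, -⟩ := mem_hmenu.1 h
  have := mem_rngC.1 h1
  omega

theorem hmenu_ij {F : St → ℕ} {y : St} {p : ℕ × St} (h : p ∈ hmenu P F y) :
    p.2.i = y.i ∧ p.2.j = y.j := menu_ij (mem_hmenu.1 h).2

theorem hmenu_dom {I : ℕ} {F : St → ℕ} {y : St} (hy : Dom P I y) {p : ℕ × St}
    (h : p ∈ hmenu P F y) : Dom P I p.2 := hy.menu (mem_hmenu.1 h).2

theorem hmenu_Om {I K0 : ℕ} {F : St → ℕ} {y : St} (hy : Dom P I y) (hc : cls F y + P.a2 ≤ K0)
    {p : ℕ × St} (h : p ∈ hmenu P F y) : p ∈ Om P I K0 :=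
  pair_menu hy hc (mem_hmenu.1 h).1 (mem_hmenu.1 h).2

theorem hmenu_grid {F : St → ℕ} {y : St} {p : ℕ × St} (hg : gst P p.1 ∣ P.Dm)
    (h : p ∈ hmenu P F y) : rdn P p.1 p.2 = p.2 := menu_grid hg (mem_hmenu.1 h).2

theorem own_Om {I K0 : ℕ} {F : St → ℕ} {y : St} (hy : Dom P I y) (hg : GrdOK P K0)
    (hc : cls F y ≤ K0) : own P F y ∈ Om P I K0 := pair_own hy hg hc

theorem own_ij (F : St → ℕ) (y : St) : (own P F y).2.i = y.i ∧ (own P F y).2.j = y.j := ⟨rfl, rfl⟩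

theorem rdn_rdn (κ : ℕ) (y : St) : rdn P κ (rdn P κ y) = rdn P κ y := by
  unfold rdn
  simp only [rd_of_dvd P (dvd_rd P κ _)]

theorem own_grid (F : St → ℕ) (y : St) : rdn P (own P F y).1 (own P F y).2 = (own P F y).2 :=
  rdn_rdn _ _

theorem pcs_i {κ : ℕ} {x y : St} (h : y ∈ pcs P κ x) : y.i = x.i - 1 := by
  obtain ⟨q, -, a, -, b, -, rfl⟩ := (mem_pcs P).1 h
  rfl

theorem pcs_dom {I κ : ℕ} {x y : St} (hx : Dom P I x) (hr : 1 ≤ P.r) (hi : 1 ≤ x.i)
    (h : y ∈ pcs P κ x) : Dom P I y := by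
  obtain ⟨q, hq, a, -, b, -, rfl⟩ := (mem_pcs P).1 h
  exact hx.piece hr hi hq κ a b

theorem wst_dom {I κ : ℕ} {x y : St} (hx : Dom P I x) (hr : 1 ≤ P.r) (hi : 1 ≤ x.i)
    (h : y ∈ wst P κ x) : Dom P I y := by
  rcases (mem_wst P).1 h with rfl | h
  · exact hx
  · exact pcs_dom hx hr hi h

theorem mem_wpr {F : St → ℕ} {κ : ℕ} {x : St} {p : ℕ × St} :
    p ∈ wpr P F κ x ↔ ∃ y ∈ pcs P κ x, p = own P F y ∨ p ∈ hmenu P F y := by
  unfold wpr
  simp only [List.mem_flatMap, List.mem_cons]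

theorem wpr_i {F : St → ℕ} {κ : ℕ} {x : St} {p : ℕ × St} (h : p ∈ wpr P F κ x) :
    p.2.i = x.i - 1 := by
  obtain ⟨y, hy, rfl | h⟩ := mem_wpr.1 h
  · exact (own_ij F y).1.trans (pcs_i hy)
  · exact (hmenu_ij h).1.trans (pcs_i hy)

theorem wpr_Om {I K0 : ℕ} {F : St → ℕ} {κ : ℕ} {x : St} (hx : Dom P I x) (hr : 1 ≤ P.r)
    (hi : 1 ≤ x.i) (hg : GrdOK P K0) (hc : ∀ y, Dom P I y → cls F y + P.a2 ≤ K0) {p : ℕ × St}
    (h : p ∈ wpr P F κ x) : p ∈ Om P I K0 := by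
  obtain ⟨y, hy, rfl | h⟩ := mem_wpr.1 h
  · have hy' := pcs_dom hx hr hi hy
    exact own_Om hy' hg (by have := hc y hy'; omega)
  · have hy' := pcs_dom hx hr hi hy
    exact hmenu_Om hy' (hc y hy') h

theorem wpr_grid {I K0 : ℕ} {F : St → ℕ} {κ : ℕ} {x : St} (hx : Dom P I x) (hr : 1 ≤ P.r)
    (hi : 1 ≤ x.i) (hg : GrdOK P K0) (hc : ∀ y, Dom P I y → cls F y + P.a2 ≤ K0) {p : ℕ × St}
    (h : p ∈ wpr P F κ x) : rdn P p.1 p.2 = p.2 := by
  have h0 := (mem_Om.1 (wpr_Om hx hr hi hg hc h)).1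
  obtain ⟨y, hy, rfl | h⟩ := mem_wpr.1 h
  · exact own_grid F y
  · exact hmenu_grid (hg _ h0) h

theorem mem_cells_iff {c : Cel} {y : St} : y ∈ cells P c ↔ ∃ t < csz P c.κ, y = cst P c t := by
  unfold cells
  simp only [List.mem_map, List.mem_range]
  exact ⟨fun ⟨t, h1, h2⟩ => ⟨t, h1, h2.symm⟩, fun ⟨t, h1, h2⟩ => ⟨t, h1, h2.symm⟩⟩

theorem cells_dom {I : ℕ} {c : Cel} (h1 : c.i ≤ I) (h2 : c.j < P.N ^ (I - c.i)) {y : St}
    (h : y ∈ cells P c) : Dom P I y := by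
  obtain ⟨t, -, rfl⟩ := mem_cells_iff.1 h
  exact Dom.cst h1 h2 t

theorem cells_ij {c : Cel} {y : St} (h : y ∈ cells P c) : y.i = c.i ∧ y.j = c.j := by
  obtain ⟨t, -, rfl⟩ := mem_cells_iff.1 h
  exact ⟨rfl, rfl⟩

theorem mem_bst_iff {c : Cel} {y : St} :
    y ∈ bst P c ↔ ∃ t < csz P c.κ, y ∈ wst P c.κ (cst P c t) := by
  unfold bst
  simp only [List.mem_flatMap, List.mem_range]

theorem bst_dom {I : ℕ} {c : Cel} (hr : 1 ≤ P.r) (h1 : c.i ≤ I) (h2 : c.j < P.N ^ (I - c.i))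
    (hi : 1 ≤ c.i) {y : St} (h : y ∈ bst P c) : Dom P I y := by
  obtain ⟨t, -, h⟩ := mem_bst_iff.1 h
  exact wst_dom (Dom.cst h1 h2 t) hr hi h

/-- heights of the states of a body table -/
theorem bst_i {c : Cel} {y : St} (h : y ∈ bst P c) : y.i = c.i ∨ y.i = c.i - 1 := by
  obtain ⟨t, -, h⟩ := mem_bst_iff.1 h
  rcases (mem_wst P).1 h with rfl | h
  · exact Or.inl rfl
  · exact Or.inr (pcs_i h)

theorem mem_bpr_iff {F : St → ℕ} {c : Cel} {p : ℕ × St} :
    p ∈ bpr P F c ↔ ∃ t < csz P c.κ, p ∈ wpr P F c.κ (cst P c t) := by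
  unfold bpr
  simp only [List.mem_flatMap, List.mem_range]

theorem bpr_i {F : St → ℕ} {c : Cel} {p : ℕ × St} (h : p ∈ bpr P F c) : p.2.i = c.i - 1 := by
  obtain ⟨t, -, h⟩ := mem_bpr_iff.1 h
  exact wpr_i h

/-- **the pairs of a body table lie in the pairs of the domain** -/
theorem bpr_Om {I K0 : ℕ} {F : St → ℕ} {c : Cel} (hr : 1 ≤ P.r) (h1 : c.i ≤ I)
    (h2 : c.j < P.N ^ (I - c.i)) (hi : 1 ≤ c.i) (hg : GrdOK P K0)
    (hc : ∀ y, Dom P I y → cls F y + P.a2 ≤ K0) {p : ℕ × St} (h : p ∈ bpr P F c) :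
    p ∈ Om P I K0 := by
  obtain ⟨t, -, h⟩ := mem_bpr_iff.1 h
  exact wpr_Om (Dom.cst h1 h2 t) hr hi hg hc h

theorem bpr_grid {I K0 : ℕ} {F : St → ℕ} {c : Cel} (hr : 1 ≤ P.r) (h1 : c.i ≤ I)
    (h2 : c.j < P.N ^ (I - c.i)) (hi : 1 ≤ c.i) (hg : GrdOK P K0)
    (hc : ∀ y, Dom P I y → cls F y + P.a2 ≤ K0) {p : ℕ × St} (h : p ∈ bpr P F c) :
    rdn P p.1 p.2 = p.2 := by
  obtain ⟨t, -, h⟩ := mem_bpr_iff.1 h
  exact wpr_grid (Dom.cst h1 h2 t) hr hi hg hc h

theorem mem_rpr_iff {k : ℕ} {L : List (ℕ × St)} {a : ℕ × ℕ × St} :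
    a ∈ rpr k L ↔ a.1 < k ∧ a.2 ∈ L := by
  unfold rpr
  simp only [List.mem_flatMap, List.mem_range, List.mem_map]
  constructor
  · rintro ⟨i, hi, p, hp, rfl⟩; exact ⟨hi, hp⟩
  · rintro ⟨h1, h2⟩; exact ⟨a.1, h1, a.2, h2, rfl⟩

end Crest.Agent.R288.PgL172
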