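import Crest.Agent.R288.PgC_578
import Crest.Agent.R288.PgXc_583

/-!
# R288, [PROG] procedure X (helper583), part E: X under `Pgc578.Hyp`

* `RzA`, `CzA` : realisation of a frame AT ONE TAPE POSITION (the final word has to fit only there);
  `CzA.step`, `CzA.step_ret`, `CzA.of`, `cal5A`;
* **`x_hyp`** : under `Hyp`, the request `qX l κ z` answers `[c.X l (κ, z)]`, from the claims of the
  unit function of the epoch and of the arrival table of the same index.  Nothing else is assumed.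
-/

set_option autoImplicit false

namespace Crest.Agent.R288.PgX583

open Crest.Agent.R295.Rnd627 Crest.Agent.R288.Alg45 Crest.Agent.R288.PrK690
  Crest.Agent.R288.Pgb578 Crest.Agent.R288.Pgc578 Crest.Agent.R288.Delta222
open Crest.Agent.R288.Phe940 (Prg Wld fl Rn Qn Ln Rz Rq Rqs Szo kq rq sem)
open Crest.Agent.R288.PgY583 (arS arC qX qF qA)

/-- the frame `(f, rs)` realises `t` at the tape position `p` -/
def RzA (P : Prg) (W : Wld) (n : ℕ) (f : List ℕ) (rs : List (List ℕ)) (t : RT (List ℕ))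
    (C p : ℕ) : Prop :=
  ∃ c ≤ C, Rn P W n f rs p (t.val W.N W.Z p) (t.nxt W.N W.Z p) c

/-- the procedure realises `t` at the tape position `p` -/
def CzA (G : Prg) (W : Wld) (K : KN) (tg n : ℕ) (a : Ar) (sv : Svd) (t : RT (List ℕ))
    (C p : ℕ) : Prop := ∀ sv0 rs, upd sv0 rs = sv → RzA G W n (fr K tg a sv0) rs t C p

section

variable {G : Prg} {W : Wld} {K : KN} {Z tg : ℕ} {ph : Ph} {n m C C' p : ℕ} {a : Ar} {sv : Svd}
  {t t' : RT (List ℕ)}

theorem RzA.step (hSM : W.S < W.M) {f f' : List ℕ} {rs reqs : List (List ℕ)}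
    {ts : RT (List (List ℕ))} {k : List (List ℕ) → RT (List ℕ)}
    (h : G.δ f rs = (f', reqs)) (hne : reqs ≠ []) (hts : Rqs G W n reqs ts C)
    (hp : ts.nxt W.N W.Z p ≤ W.Pm) (hs : Szo W f' reqs (ts.val W.N W.Z p))
    (hk : RzA G W n f' (ts.val W.N W.Z p) (k (ts.val W.N W.Z p)) C' (ts.nxt W.N W.Z p)) :
    RzA G W (n + 1) f rs (ts.bind k) (C + C') p := by
  have e1 : (ts.bind k).nxt W.N W.Z p = (k (ts.val W.N W.Z p)).nxt W.N W.Z (ts.nxt W.N W.Z p) := by
    unfold RT.nxt RT.val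
    rw [RT.run_bind]
  have e2 : (ts.bind k).val W.N W.Z p = (k (ts.val W.N W.Z p)).val W.N W.Z (ts.nxt W.N W.Z p) := by
    unfold RT.nxt RT.val
    rw [RT.run_bind]
  obtain ⟨c1, hc1, g1⟩ := hts p hp
  obtain ⟨c2, hc2, g2⟩ := hk
  unfold RzA
  rw [e1, e2]
  exact ⟨c1 + c2, Nat.add_le_add hc1 hc2, Rn.step hSM h hne g1 hs g2⟩

theorem CzA.of (h : Cz G W K tg n a sv t C) (hp : t.nxt W.N W.Z p ≤ W.Pm) :
    CzA G W K tg n a sv t C p := fun sv0 rs h1 => h sv0 rs h1 p hp

theorem CzA.mono (h : CzA G W K tg n a sv t C p) (hn : n ≤ m) (hC : C ≤ C') :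
    CzA G W K tg m a sv t C' p := by
  intro sv0 rs h1
  obtain ⟨c, hc, h2⟩ := h sv0 rs h1
  exact ⟨c, hc.trans hC, h2.mono hn⟩

/-- stop -/
theorem CzA.stop (hG : Has G K ph tg) (hE : Env W K Z) {r : List ℕ} (h : ph K tg a sv = .inl r)
    (hr : Wd W.M Z r) : CzA G W K tg (n + 1) a sv (.ret r) 0 p := by
  intro sv0 rs h1
  have h2 := hE.num
  refine ⟨0, le_rfl, Rn.stop ?_ ⟨by have := hr.1; omega, hr.2⟩ p⟩
  rw [hG a sv0 rs, h1, h]
  rfl

/-- one phase at one position -/
theorem CzA.step (hG : Has G K ph tg) (hE : Env W K Z) {reqs : List (List ℕ)}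
    {ts : RT (List (List ℕ))} {k : List (List ℕ) → RT (List ℕ)} (h : ph K tg a sv = .inr reqs)
    (hA : Rqs G W n (reqs.map (wrapQ K)) ts C) (hlen : reqs.length ≤ Z)
    (hq : ∀ q ∈ reqs, Wd W.M Z q) (ha : ArOk W.M tg a) (hsv : SvOk W.M Z sv)
    (hp : ts.nxt W.N W.Z p ≤ W.Pm) (u1 : (ts.val W.N W.Z p).length ≤ Z)
    (u2 : ∀ u ∈ ts.val W.N W.Z p, Wd W.M Z u)
    (hk : CzA G W K tg n a (sv ++ [ts.val W.N W.Z p]) (k (ts.val W.N W.Z p)) C'
      (ts.nxt W.N W.Z p)) :
    CzA G W K tg (n + 1) a sv (ts.bind k) (C + C' + 2) p := by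
  intro sv0 rs h1
  have hnum := hE.num
  have hSM := hE.SM
  have hd : Rqs G W n [[1, 0]] (.ret [[W.O1 0]]) 2 :=
    (Rqs.nil.cons_ret (Rq.rd1 (q := [1, 0]) rfl hE.L)).mono le_rfl (by omega)
  have hA2 := Rqs.append hA hd
  have heq : ts.bind k = (ts.bind fun us => (RT.ret [[W.O1 0]] : RT (List (List ℕ))).bind
      fun us' => .ret (us ++ us')).bind fun l => k l.dropLast := by
    rw [RT.bind_assoc]
    congr 1
    funext us
    rw [RT.ret_bind, RT.ret_bind, List.dropLast_concat]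
  have hval : (ts.bind fun us => (RT.ret [[W.O1 0]] : RT (List (List ℕ))).bind
      fun us' => .ret (us ++ us')).run W.N W.Z p =
        (ts.val W.N W.Z p ++ [[W.O1 0]], ts.nxt W.N W.Z p) := by
    rw [RT.run_bind]
    rfl
  have e1 : (ts.bind fun us => (RT.ret [[W.O1 0]] : RT (List (List ℕ))).bind
      fun us' => .ret (us ++ us')).nxt W.N W.Z p = ts.nxt W.N W.Z p := by
    unfold RT.nxt
    rw [hval]
    rfl
  have e2 : (ts.bind fun us => (RT.ret [[W.O1 0]] : RT (List (List ℕ))).bind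
      fun us' => .ret (us ++ us')).val W.N W.Z p = ts.val W.N W.Z p ++ [[W.O1 0]] := by
    unfold RT.val
    rw [hval]
    rfl
  rw [heq]
  have hC : C + C' + 2 = (C + 2) + C' := by ring
  rw [hC]
  refine RzA.step hSM (f' := fr K tg a sv) (reqs := reqs.map (wrapQ K) ++ [[1, 0]]) ?_ (by simp)
    hA2 (by rw [e1]; exact hp) ?_ ?_
  · rw [hG a sv0 rs, h1, h]
    rfl
  · rw [e2]
    have h3 := tow_svd_le hsv
    have h4 := fr_length K tg a sv
    have h5 := hE.K1.1
    have h6 := hE.K2.1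
    have h7 : (fl (reqs.map (wrapQ K))).length ≤ (reqs.map (wrapQ K)).length * (3 * Z + 3 + 1) :=
      Pgb578.fl_le (M := W.M) fun u hu => by
        obtain ⟨q, hq', rfl⟩ := List.mem_map.1 hu
        exact wrapQ_wd hE (hq q hq')
    have h8 := Pgb578.fl_le u2
    have h9 : (reqs.map (wrapQ K)).length * (3 * Z + 3 + 1) ≤ Z * (3 * Z + 3 + 1) :=
      Nat.mul_le_mul_right _ (by rw [List.length_map]; exact hlen)
    have h10 : (ts.val W.N W.Z p).length * (Z + 1) ≤ Z * (Z + 1) := Nat.mul_le_mul_right _ u1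
    have h11 : Z * (3 * Z + 3 + 1) = 3 * (Z * (Z + 1)) + Z := by ring
    refine ⟨?_, fr_lt hE ha hsv, ?_, ?_⟩
    · rw [Phe940.fl_append, Phe940.fl_append, List.length_append, List.length_append]
      simp only [Phe940.fl_cons, Phe940.fl_nil, List.append_nil, tow_nat_list, List.length_cons,
        List.length_nil]
      omega
    · intro q hq' x hx
      rcases List.mem_append.1 hq' with hq' | hq'
      · obtain ⟨q', hq'', rfl⟩ := List.mem_map.1 hq'
        exact (wrapQ_wd hE (hq q' hq'')).2 x hx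
      · rw [List.mem_singleton] at hq'
        subst hq'
        simp only [List.mem_cons, List.not_mem_nil, or_false] at hx
        omega
    · intro q hq' x hx
      rcases List.mem_append.1 hq' with hq' | hq'
      · exact (u2 q hq').2 x hx
      · rw [List.mem_singleton] at hq'
        subst hq'
        rw [List.mem_singleton] at hx
        exact hx ▸ hE.O1
  · rw [e1, e2, List.dropLast_concat]
    exact hk sv _ (upd_concat _ _ _)

/-- one phase with fixed answers, at one position -/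
theorem CzA.step_ret (hG : Has G K ph tg) (hE : Env W K Z) {reqs us : List (List ℕ)}
    (h : ph K tg a sv = .inr reqs)
    (hA : Rqs G W n (reqs.map (wrapQ K)) (.ret us) C) (hlen : reqs.length ≤ Z)
    (hq : ∀ q ∈ reqs, Wd W.M Z q) (ha : ArOk W.M tg a) (hsv : SvOk W.M Z sv) (hp : p ≤ W.Pm)
    (hu1 : us.length ≤ Z) (hu : ∀ u ∈ us, Wd W.M Z u)
    (hk : CzA G W K tg n a (sv ++ [us]) t C' p) :
    CzA G W K tg (n + 1) a sv t (C + C' + 2) p := by
  have := CzA.step (k := fun _ => t) (p := p) hG hE h hA hlen hq ha hsv hp hu1 hu hk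
  rwa [RT.ret_bind] at this

/-- a call with its own tape position, from the realisation at this position -/
theorem cal5A (h : CzA G W K tg n a [] t C (G.base (fr K tg a [])))
    (hp : t.nxt W.N W.Z (G.base (fr K tg a [])) ≤ W.Pm) :
    Rq G W n (wrapQ K (cal 5 tg a)) (.ret (t.val W.N W.Z (G.base (fr K tg a [])))) C := by
  intro p _
  obtain ⟨c, hc, ok, h1, h2⟩ := h [] [] rfl
  refine ⟨c, hc, ?_⟩
  have hk : kq (wrapQ K (cal 5 tg a)) = 5 := by
    show kq (5 :: fr K tg a []) = 5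
    simp [kq]
  have ht : (wrapQ K (cal 5 tg a)).tail = fr K tg a [] := rfl
  unfold Qn
  rw [rq, if_neg (by omega), if_neg (by omega), if_neg (by omega), if_neg (by omega), if_pos hk, ht]
  have h3 : (sem G W n (fr K tg a []) []).val W.N W.Z (G.base (fr K tg a [])) = _ :=
    congrArg Prod.fst h1
  have h4 : (sem G W n (fr K tg a []) []).nxt W.N W.Z (G.base (fr K tg a [])) = _ :=
    congrArg Prod.snd h1
  refine ⟨ok ∧ t.nxt W.N W.Z (G.base (fr K tg a [])) ≤ W.Pm, ?_, h2, hp⟩
  simp only [h3, h4]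
  rfl

end

section hyp

variable {c : Cx} {D : Txt} {G : Prg} {W : Wld} {K : KN} {Z lfc n : ℕ}

theorem ep_le' {P : Par} {l : ℕ} (h : l ≤ P.E * P.K) (hK : 0 < P.K) : ep P l ≤ P.E := by
  unfold ep
  calc (l - 1) / P.K ≤ (P.E * P.K) / P.K := Nat.div_le_div_right (by omega)
    _ = P.E := Nat.mul_div_cancel _ hK

/-- **X**, unit function as a request -/
theorem x_hyp' (H : Hyp c D G W K Z lfc) {l κ : ℕ} {z : St} (h0 : 0 < l) (hl : l ≤ c.EK)
    (hd : c.DP κ z) {CF CA : ℕ}
    (hF : Rq G W (n + 2) (wrapQ K (qF (ep c.P l) z)) (.ret [c.Fl l z]) CF)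
    (hA : adm c.P (c.Fl l) κ z = true →
      Cz G W K 5 (n + 1) (arC l (celOf κ z)) [] (c.tA l (celOf κ z)) CA) :
    Rq G W (n + 3) (wrapQ K (qX l κ z)) (.ret [c.X l (κ, z)])
      (CF + c.P.gX * c.P.mX * (CA + 1) + 5) := by
  have hE := H.env
  have hZ := H.Z12
  have hG := H.gX
  have hN := H.N
  have hz : c.DS z := H.P_S _ _ hd
  have hep : ep c.P l ≤ c.P.E := ep_le' hl H.Kpos
  have zF : c.Fl l z < W.M := H.vF _ hep z hz
  have ha : ArOk W.M 3 (arS l κ z) := H.wX l hl κ z hd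
  have haF : ArOk W.M 4 (arS (ep c.P l) 0 z) := H.wF _ hep z hz
  have hph : ∀ sv, phAll D K 3 (arS l κ z) sv = PgY583.phX c.P (arS l κ z) sv := fun sv => by
    rw [phAll_X D K (H.P_b κ z hd), H.dP]
  have hb : G.base (fr K 3 (arS l κ z) []) = c.o l := H.bX l κ z
  have hXe : c.X l (κ, z) = (c.tX l κ z).val W.N W.Z (c.o l) := H.X_eq l h0 hl κ z hd
  have hXn : (c.tX l κ z).nxt W.N W.Z (c.o l) ≤ W.Pm := H.X_nxt l h0 hl κ z hd
  have hXM : c.X l (κ, z) < W.M := H.vX l hl κ z hd
  have hone : (c.o l) ≤ W.Pm := (RT.le_nxt _ _ _ _).trans hXn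
  have mv : ((c.tX l κ z).map fun v => [v]).val W.N W.Z (c.o l) = [c.X l (κ, z)] := by
    rw [hXe]
    unfold RT.map RT.val
    rw [RT.run_bind]
    rfl
  have mn : ((c.tX l κ z).map fun v => [v]).nxt W.N W.Z (c.o l) =
      (c.tX l κ z).nxt W.N W.Z (c.o l) := by
    unfold RT.map RT.nxt
    rw [RT.run_bind]
    rfl
  have adm_iff : adm c.P (c.Fl l) κ z = admV c.P (c.Fl l z) κ z := adm_eq _ _ _ _
  have hq0 : phAll D K 3 (arS l κ z) [] = .inr [qF (ep c.P l) z] := by rw [hph]; rfl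
  have hr0 : Rqs G W (n + 2) ([qF (ep c.P l) z].map (wrapQ K)) (.ret [[c.Fl l z]])
      (CF + 1) := by
    have h := Rqs.map_ret_le (P := G) (W := W) (n := n + 2) [()]
      (fun _ => wrapQ K (qF (ep c.P l) z)) (fun _ => [c.Fl l z]) CF
      (fun _ _ => hF)
    simpa using h
  have hz0 : ∀ q ∈ [qF (ep c.P l) z], Wd W.M Z q := fun q hq => by
    rw [List.mem_singleton] at hq
    subst hq
    rw [qF_eq]
    exact cal_wd hE hZ (by omega) haF
  have hu0 : ∀ u ∈ ([[c.Fl l z]] : List (List ℕ)), Wd W.M Z u := fun u hu => by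
    rw [List.mem_singleton] at hu
    subst hu
    exact wd_one (by omega) zF
  have hsv : SvOk W.M Z ([] ++ [[[c.Fl l z]]]) :=
    SvOk.nil.snoc (by simp) (by simp; omega) hu0
  have h1 : phAll D K 3 (arS l κ z) ([] ++ [[[c.Fl l z]]]) =
      if admV c.P (c.Fl l z) κ z = false then .inl [c.Fl l z]
      else .inr (List.replicate (c.P.gX * c.P.mX) (qA l (celOf κ z))) := by
    rw [hph]; exact PgY583.phX_one _ _
  have main : CzA G W K 3 (n + 3) (arS l κ z) [] ((c.tX l κ z).map fun v => [v])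
      (CF + c.P.gX * c.P.mX * (CA + 1) + 5) (c.o l) := by
    by_cases hadm : admV c.P (c.Fl l z) κ z = false
    · have ht : (c.tX l κ z).map (fun v => [v]) = .ret [c.Fl l z] := by
        unfold Cx.tX
        rw [numPair_eq, if_pos hadm]
        rfl
      rw [ht]
      rw [if_pos hadm] at h1
      have hst : Cz G W K 3 (n + 1 + 1) (arS l κ z) ([] ++ [[[c.Fl l z]]])
          (.ret [c.Fl l z]) 0 := Cz.stop hG hE h1 (wd_one (by omega) zF)
      exact CzA.of ((Cz.step_ret hG hE hq0 hr0 (by simp; omega) hz0 ha SvOk.nil (by simp; omega)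
        hu0 hst).mono le_rfl (by omega)) hone
    · have hadm' : adm c.P (c.Fl l) κ z = true := by
        rw [adm_iff]
        simpa using hadm
      rw [if_neg hadm] at h1
      have hcel : (celOf κ z).i = z.i := rfl
      have hDA : c.DA (celOf κ z) := H.P_A l h0 hl κ z hd hadm'
      have tX_eq : c.tX l κ z = (seqL (List.replicate (c.P.gX * c.P.mX)
          (c.tA l (celOf κ z)))).bind fun us => .ret (xfin c.P κ z us) := by
        unfold Cx.tX
        rw [numPair_eq, if_neg hadm]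
        rfl
      have e : (c.tX l κ z).map (fun v => [v]) =
          (seqL (List.replicate (c.P.gX * c.P.mX) (c.tA l (celOf κ z)))).bind
            fun us => RT.ret [xfin c.P κ z us] := by
        rw [tX_eq]
        unfold RT.map
        rw [RT.bind_assoc]
        rfl
      have hqs : (seqL (List.replicate (c.P.gX * c.P.mX)
          (c.tA l (celOf κ z)))).All W.N fun us =>
            us.length = c.P.gX * c.P.mX ∧ ∀ u ∈ us, Wd W.M Z u := by
        have h := all_seqL (N := W.N) (p := Wd W.M Z) (List.replicate (c.P.gX * c.P.mX)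
          (c.tA l (celOf κ z))) (fun t ht => by
            rw [List.eq_of_mem_replicate ht]; exact H.vA l h0 hl _ hDA)
        rwa [List.length_replicate] at h
      have hv := hqs.val hN W.Z (c.o l)
      have hrs : Rqs G W (n + 1)
          ((List.replicate (c.P.gX * c.P.mX) (qA l (celOf κ z))).map (wrapQ K))
          (seqL (List.replicate (c.P.gX * c.P.mX) (c.tA l (celOf κ z))))
          (c.P.gX * c.P.mX * (CA + 1)) := by
        have h := Rqs.map_le (P := G) (W := W) (n := n + 1)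
          (List.replicate (c.P.gX * c.P.mX) ())
          (fun _ => wrapQ K (qA l (celOf κ z)))
          (fun _ => c.tA l (celOf κ z)) CA
          (fun _ _ => by rw [qA_eq]; exact cal4 (hA hadm'))
        simpa [List.map_replicate] using h
      have hnx : (seqL (List.replicate (c.P.gX * c.P.mX) (c.tA l (celOf κ z)))).nxt W.N W.Z
          (c.o l) ≤ W.Pm := by
        have h := hXn
        rw [tX_eq] at h
        unfold RT.nxt at h ⊢
        rw [RT.run_bind] at h
        exact h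
      have hw : xfin c.P κ z ((seqL (List.replicate (c.P.gX * c.P.mX)
          (c.tA l (celOf κ z)))).val W.N W.Z (c.o l)) < W.M := by
        have h := hXM
        rw [hXe, tX_eq] at h
        unfold RT.val at h ⊢
        rw [RT.run_bind] at h
        exact h
      have hk : CzA G W K 3 (n + 1 + 1) (arS l κ z) ([] ++ [[[c.Fl l z]]])
          ((seqL (List.replicate (c.P.gX * c.P.mX) (c.tA l (celOf κ z)))).bind
            fun us => RT.ret [xfin c.P κ z us]) (c.P.gX * c.P.mX * (CA + 1) + 0 + 2) (c.o l) := by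
        refine CzA.step (C := c.P.gX * c.P.mX * (CA + 1)) (C' := 0) hG hE h1 hrs
          (by simpa using H.zX) (fun q hq => ?_) ha hsv hnx (by rw [hv.1]; exact H.zX) hv.2 ?_
        · rw [List.eq_of_mem_replicate hq, qA_eq]
          exact cal_wd hE hZ (by omega) (H.wA l hl _ hDA)
        · refine CzA.stop hG hE ?_ (wd_one (by omega) hw)
          rw [hph]
          exact PgY583.phX_two _ _ _
      rw [e]
      exact (CzA.step_ret hG hE hq0 hr0 (by simp; omega) hz0 ha SvOk.nil hone (by simp; omega)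
        hu0 hk).mono le_rfl (by omega)
  rw [← hb] at main mv mn hXn
  have := cal5A main (by rw [mn]; exact hXn)
  rw [mv] at this
  rw [qX_eq (by omega)]
  exact this

/-- **X under `Hyp`** -/
theorem x_hyp (H : Hyp c D G W K Z lfc) {l κ : ℕ} {z : St} (h0 : 0 < l) (hl : l ≤ c.EK)
    (hd : c.DP κ z) {CF CA : ℕ}
    (hF : Cz G W K 4 (n + 2) (arS (ep c.P l) 0 z) [] (.ret [c.Fl l z]) CF)
    (hA : adm c.P (c.Fl l) κ z = true →
      Cz G W K 5 (n + 1) (arC l (celOf κ z)) [] (c.tA l (celOf κ z)) CA) :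
    Rq G W (n + 3) (wrapQ K (qX l κ z)) (.ret [c.X l (κ, z)])
      (CF + c.P.gX * c.P.mX * (CA + 1) + 5) :=
  x_hyp' H h0 hl hd (by rw [qF_eq]; exact cal5_ret hF (H.bF _ _)) hA

end hyp

end Crest.Agent.R288.PgX583
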