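import Crest.Agent.R288.PgZ_692

/-!
# R288, [SIZE] part b (helper692): the reads of the procedures stay in the box (Alg45 v2.2)

* `Nd`, `BodC`, `ArrC` : nodes, cells of BODY calls (they meet the box), cells of ARR calls;
* `bodC_natAbs`, `bodC_celOf`, `arrC_celOf`, `arrC_of_bodC`;
* `acell_mem`, `abod_mem` : cells of the body calls of a jump; `bkeys_mem` : requests of a window;
* `cst_InD`, `piece_InD`, `wst_InD`, `bst_InD`, `menu_InD`, `hmenu_dom`, `own_dom`, `wpr_dom`, `bpr_dom`,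
  and the form `.. ∈ OmP`.
-/

set_option autoImplicit false

namespace Crest.Agent.R288.PgZ692

open Crest.Agent.R288.Alg45 Crest.Agent.R288.PgA172 Crest.Agent.R288.Cnt308 Crest.Agent.R288.Dom20

variable (P : Par)

/-! ## Cells -/

/-- nodes of the tree: macro height `≤ I`, number of the block -/
def Nd (I i j : ℕ) : Prop := i ≤ I ∧ j < P.N ^ (I - i)

/-- cells of BODY calls: they meet the box -/
def BodC (c : Cel) : Prop := c.m * 2 ^ c.κ ≤ (P.Dm : ℤ) ∧ -(P.Dm : ℤ) < (c.m + 1) * 2 ^ c.κ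

/-- bound of the number of a cell of an ARR call -/
def mA : ℕ := P.Dm + (P.r + 1) * 2 ^ P.dl

/-- cells of ARR calls -/
def ArrC (c : Cel) : Prop := c.m.natAbs ≤ mA P

variable {P}

theorem Nd.child {I i j q : ℕ} (h : Nd P I i j) (hi : 1 ≤ i) (hq : q < P.N) :
    Nd P I (i - 1) (P.N * j + q) := by
  obtain ⟨h1, h2⟩ := h
  refine ⟨by omega, ?_⟩
  have e : I - (i - 1) = (I - i) + 1 := by omega
  rw [e, pow_succ]
  calc P.N * j + q < P.N * j + P.N := by omega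
    _ = P.N * (j + 1) := by ring
    _ ≤ P.N * P.N ^ (I - i) := Nat.mul_le_mul_left _ h2
    _ = P.N ^ (I - i) * P.N := by ring

theorem Nd.j_lt {I i j : ℕ} (hN : 0 < P.N) (h : Nd P I i j) : j < P.N ^ I :=
  h.2.trans_le (Nat.pow_le_pow_right hN (Nat.sub_le _ _))

theorem two_pow_pos' (κ : ℕ) : (0 : ℤ) < 2 ^ κ := by positivity

theorem one_le_two_pow' (κ : ℕ) : (1 : ℤ) ≤ 2 ^ κ := two_pow_pos' κ

theorem bodC_natAbs {c : Cel} (h : BodC P c) : c.m.natAbs ≤ P.Dm := by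
  obtain ⟨h1, h2⟩ := h
  have hp := one_le_two_pow' c.κ
  have a1 : c.m ≤ P.Dm := by
    rcases le_or_gt 0 c.m with h0 | h0
    · nlinarith
    · have : (0 : ℤ) ≤ P.Dm := Int.natCast_nonneg _
      omega
  have a2 : -(P.Dm : ℤ) ≤ c.m := by
    rcases le_or_gt (c.m + 1) 0 with h0 | h0
    · nlinarith
    · have : (0 : ℤ) ≤ P.Dm := Int.natCast_nonneg _
      omega
  omega

theorem arrC_of_bodC {c : Cel} (h : BodC P c) : ArrC P c := by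
  have := bodC_natAbs h
  unfold ArrC mA
  omega

theorem bodC_celOf {κ : ℕ} {z : St} (h : -(P.Dm : ℤ) ≤ z.u ∧ z.u ≤ P.Dm) : BodC P (celOf κ z) := by
  have hp := two_pow_pos' κ
  have h1 : z.u / 2 ^ κ * 2 ^ κ ≤ z.u := Int.ediv_mul_le _ hp.ne'
  have h2 : z.u < (z.u / 2 ^ κ + 1) * 2 ^ κ := Int.lt_ediv_add_one_mul_self _ hp
  exact ⟨h1.trans h.2, lt_of_le_of_lt h.1 h2⟩

theorem arrC_celOf {κ : ℕ} {z : St} (h : -(P.Dm : ℤ) ≤ z.u ∧ z.u ≤ P.Dm) : ArrC P (celOf κ z) :=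
  arrC_of_bodC (bodC_celOf h)

theorem acells_mem {κ : ℕ} {m : ℤ} {p : ℕ × ℤ} (h : p ∈ acells P κ m) :
    κ - P.a1 ≤ p.1 ∧ p.1 ≤ κ + P.a2 ∧ p.2 * 2 ^ p.1 ≤ (P.Dm : ℤ) ∧
      -(P.Dm : ℤ) < (p.2 + 1) * 2 ^ p.1 := by
  unfold acells jCl at h
  rw [List.mem_flatMap] at h
  obtain ⟨κ', hκ, h⟩ := h
  rw [List.mem_map] at h
  obtain ⟨m', hm, rfl⟩ := h
  rw [List.mem_filter] at hm
  have h2 := hm.2
  rw [Bool.and_eq_true, decide_eq_true_eq, decide_eq_true_eq] at h2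
  exact ⟨(mem_rngC.1 hκ).1, (mem_rngC.1 hκ).2, h2.1, h2.2⟩

/-- **cells of the body calls of a jump** (any cell `c`) -/
theorem acell_mem {c : Cel} {p : ℕ} (hp : p < (acells P c.κ c.m).length) :
    (acell P c p).i = c.i ∧ (acell P c p).j = c.j ∧ c.κ - P.a1 ≤ (acell P c p).κ ∧
      (acell P c p).κ ≤ c.κ + P.a2 ∧ BodC P (acell P c p) := by
  have hm : (acells P c.κ c.m).getD p (0, 0) ∈ acells P c.κ c.m := by
    rw [List.getD_eq_getElem?_getD, List.getElem?_eq_getElem hp, Option.getD_some]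
    exact List.getElem_mem hp
  obtain ⟨h1, h2, h3, h4⟩ := acells_mem hm
  exact ⟨rfl, rfl, h1, h2, h3, h4⟩

theorem abod_mem {c c' : Cel} (h : c' ∈ Delta222.abod P c) :
    c'.i = c.i ∧ c'.j = c.j ∧ c.κ - P.a1 ≤ c'.κ ∧ c'.κ ≤ c.κ + P.a2 ∧ BodC P c' := by
  unfold Delta222.abod at h
  rw [List.mem_flatten] at h
  obtain ⟨l, hl, h⟩ := h
  rw [List.mem_replicate] at hl
  rw [hl.2] at h
  unfold Delta222.acs at h
  rw [List.mem_map] at h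
  obtain ⟨p, hp, rfl⟩ := h
  exact acell_mem (List.mem_range.1 hp)

theorem cellsIn_mem {r κ κ' : ℕ} {m m' : ℤ} (h : m' ∈ cellsIn r κ m κ') :
    (m - r) * 2 ^ κ / 2 ^ κ' ≤ m' ∧ m' ≤ max ((m - r) * 2 ^ κ / 2 ^ κ') ((m + 1 + r) * 2 ^ κ / 2 ^ κ') := by
  rw [cellsIn_eq, List.mem_map] at h
  obtain ⟨t, ht, rfl⟩ := h
  rw [List.mem_range] at ht
  refine ⟨by omega, ?_⟩
  rw [le_max_iff]
  by_cases h0 : t = 0
  · left; subst h0; simp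
  · right; omega

/-- **requests of a window** -/
theorem bkeys_mem {κ : ℕ} {m : ℤ} {ρ : ℕ → ℕ → ℕ} {key : Key} (h : key ∈ bkeys P κ m ρ) :
    key.q < P.N ∧ κ - P.dl ≤ key.κ ∧ key.κ ≤ κ + P.du ∧ key.m ∈ cellsIn P.r κ m key.κ ∧
      key.s < copies P κ key.κ := by
  unfold bkeys spCl at h
  rw [List.mem_flatMap] at h
  obtain ⟨q, hq, h⟩ := h
  rw [List.mem_flatMap] at h
  obtain ⟨κ', hκ, h⟩ := h
  rw [List.mem_flatMap] at h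
  obtain ⟨m', hm, h⟩ := h
  rw [List.mem_map] at h
  obtain ⟨s, hs, rfl⟩ := h
  exact ⟨List.mem_range.1 hq, (mem_rngC.1 hκ).1, (mem_rngC.1 hκ).2, (List.mem_filter.1 hm).1,
    List.mem_range.1 hs⟩

theorem ediv_bounds {D κ' s : ℕ} {x : ℤ} (h : -(D : ℤ) - s * 2 ^ κ' ≤ x) :
    -(D : ℤ) - s ≤ x / 2 ^ κ' := by
  have hp := two_pow_pos' κ'
  rw [Int.le_ediv_iff_mul_le hp]
  have h1 := one_le_two_pow' κ'
  have h2 : (0 : ℤ) ≤ D := Int.natCast_nonneg _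
  nlinarith

theorem ediv_bounds' {D κ' s : ℕ} {x : ℤ} (h : x ≤ (D : ℤ) + s * 2 ^ κ') :
    x / 2 ^ κ' ≤ (D : ℤ) + s := by
  have hp := two_pow_pos' κ'
  have h1 := one_le_two_pow' κ'
  have h2 : (0 : ℤ) ≤ D := Int.natCast_nonneg _
  have h3 : x < ((D : ℤ) + s + 1) * 2 ^ κ' := by nlinarith
  exact Int.lt_add_one_iff.1 (Int.ediv_lt_of_lt_mul hp h3)

/-- the cell of a request of a window is a cell of an ARR call -/
theorem bkeys_arrC {c : Cel} (hc : BodC P c) {ρ : ℕ → ℕ → ℕ} {key : Key}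
    (h : key ∈ bkeys P c.κ c.m ρ) (i j : ℕ) : ArrC P ⟨i, j, key.κ, key.m⟩ := by
  obtain ⟨-, h1, -, h2, -⟩ := bkeys_mem h
  obtain ⟨h3, h4⟩ := cellsIn_mem h2
  obtain ⟨h5, h6⟩ := hc
  have hpow : (2 : ℤ) ^ c.κ ≤ 2 ^ P.dl * 2 ^ key.κ := by
    rw [← pow_add]
    exact pow_le_pow_right₀ (by norm_num) (by omega)
  have hκ := two_pow_pos' c.κ
  have hr : (0 : ℤ) ≤ (P.r : ℤ) + 1 := by positivity
  have hmul : ((P.r : ℤ) + 1) * 2 ^ c.κ ≤ ((P.r : ℤ) + 1) * (2 ^ P.dl * 2 ^ key.κ) :=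
    mul_le_mul_of_nonneg_left hpow hr
  have e1 : (((P.r + 1) * 2 ^ P.dl : ℕ) : ℤ) * 2 ^ key.κ =
      ((P.r : ℤ) + 1) * (2 ^ P.dl * 2 ^ key.κ) := by push_cast; ring
  have lo : -(P.Dm : ℤ) - ((P.r + 1) * 2 ^ P.dl : ℕ) ≤ (c.m - P.r) * 2 ^ c.κ / 2 ^ key.κ := by
    refine ediv_bounds ?_
    rw [e1]
    have : (c.m - P.r) * 2 ^ c.κ = (c.m + 1) * 2 ^ c.κ - ((P.r : ℤ) + 1) * 2 ^ c.κ := by ring
    rw [this]
    linarith
  have lo' : (c.m - P.r) * 2 ^ c.κ / 2 ^ key.κ ≤ (P.Dm : ℤ) + ((P.r + 1) * 2 ^ P.dl : ℕ) := by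
    refine ediv_bounds' ?_
    rw [e1]
    have : (c.m - P.r) * 2 ^ c.κ ≤ c.m * 2 ^ c.κ := by nlinarith [Int.natCast_nonneg P.r]
    have h0 : (0 : ℤ) ≤ ((P.r : ℤ) + 1) * (2 ^ P.dl * 2 ^ key.κ) := by positivity
    linarith
  have hi : (c.m + 1 + P.r) * 2 ^ c.κ / 2 ^ key.κ ≤ (P.Dm : ℤ) + ((P.r + 1) * 2 ^ P.dl : ℕ) := by
    refine ediv_bounds' ?_
    rw [e1]
    have : (c.m + 1 + P.r) * 2 ^ c.κ = c.m * 2 ^ c.κ + ((P.r : ℤ) + 1) * 2 ^ c.κ := by ring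
    rw [this]
    linarith
  show key.m.natAbs ≤ mA P
  unfold mA
  have h7 : key.m ≤ (P.Dm : ℤ) + ((P.r + 1) * 2 ^ P.dl : ℕ) := h4.trans (max_le lo' hi)
  have h8 : -(P.Dm : ℤ) - ((P.r + 1) * 2 ^ P.dl : ℕ) ≤ key.m := lo.trans h3
  omega

/-! ## States -/

theorem clp_box (u : ℤ) : -(P.Dm : ℤ) ≤ clp P u ∧ clp P u ≤ P.Dm := by
  unfold clp
  have : (0 : ℤ) ≤ P.Dm := Int.natCast_nonneg _
  omega

theorem inD_iff {y : St} : inD P y ↔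
    (-(P.Dm : ℤ) ≤ y.u ∧ y.u ≤ P.Dm) ∧ (-(P.Dm : ℤ) ≤ y.v ∧ y.v ≤ P.Dm) := by
  unfold inD; omega

theorem cst_InD {I : ℕ} {c : Cel} (h : Nd P I c.i c.j) (t : ℕ) :
    InD P.N I P.Dm (cst P c t) := ⟨h.1, h.2, clp_box _, clp_box _⟩

theorem cells_InD {I : ℕ} {c : Cel} (h : Nd P I c.i c.j) {y : St} (hy : y ∈ cells P c) :
    InD P.N I P.Dm y := by
  obtain ⟨t, -, rfl⟩ := List.mem_map.1 hy
  exact cst_InD h t

theorem csts_InD {I : ℕ} {c : Cel} (h : Nd P I c.i c.j) {y : St} (hy : y ∈ Delta222.csts P c) :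
    InD P.N I P.Dm y := by
  obtain ⟨t, -, rfl⟩ := List.mem_map.1 hy
  exact cst_InD h t

theorem gst_le_two_pow (κ : ℕ) : (gst P κ : ℤ) ≤ 2 ^ κ := by
  unfold gst
  push_cast
  exact pow_le_pow_right₀ (by norm_num) (Nat.sub_le _ _)

theorem pos_box (hr : 1 ≤ P.r) {κ : ℕ} {x : St} (hx : -(P.Dm : ℤ) ≤ x.u ∧ x.u ≤ P.Dm) (a : ℕ) :
    -(P.Dm : ℤ) ≤ pos P κ x a ∧ pos P κ x a ≤ P.Dm := by
  have h1 := rd_le P κ x.u
  have h2 := rd_gt P κ x.u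
  have h3 : (2 : ℤ) ^ κ ≤ P.r * 2 ^ κ := by
    have : (1 : ℤ) ≤ P.r := by exact_mod_cast hr
    nlinarith [two_pow_pos' κ]
  have h4 := gst_le_two_pow (P := P) κ
  have h5 : (0 : ℤ) ≤ (a : ℤ) * (gst P κ : ℤ) := by positivity
  have h6 : (0 : ℤ) ≤ P.Dm := Int.natCast_nonneg _
  unfold pos wlo whi
  generalize (a : ℤ) * (gst P κ : ℤ) = s at *
  generalize (P.r : ℤ) * 2 ^ κ = R at *
  omega

theorem cut_box (hr : 1 ≤ P.r) {I κ : ℕ} {x : St} (hx : InD P.N I P.Dm x) (q a : ℕ) :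
    -(P.Dm : ℤ) ≤ cut P κ x q a ∧ cut P κ x q a ≤ P.Dm := by
  unfold cut
  split_ifs
  · exact hx.2.2.1
  · exact hx.2.2.2
  · exact pos_box hr hx.2.2.1 a

theorem piece_InD (hr : 1 ≤ P.r) {I κ : ℕ} {x : St} (hx : InD P.N I P.Dm x) (hi : 1 ≤ x.i) {q : ℕ}
    (hq : q < P.N) (a b : ℕ) : InD P.N I P.Dm (piece P κ x q a b) :=
  InD.child hx hi hq (cut_box hr hx q a) (cut_box hr hx (q + 1) b)

theorem pcs_InD (hr : 1 ≤ P.r) {I κ : ℕ} {x y : St} (hx : InD P.N I P.Dm x) (hi : 1 ≤ x.i)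
    (hy : y ∈ pcs P κ x) : InD P.N I P.Dm y := by
  obtain ⟨q, hq, a, -, b, -, rfl⟩ := (mem_pcs P).1 hy
  exact piece_InD hr hx hi hq a b

theorem pcs_node {κ : ℕ} {x y : St} (hy : y ∈ pcs P κ x) :
    y.i = x.i - 1 ∧ ∃ q < P.N, y.j = P.N * x.j + q := by
  obtain ⟨q, hq, a, -, b, -, rfl⟩ := (mem_pcs P).1 hy
  exact ⟨rfl, q, hq, rfl⟩

theorem wst_InD (hr : 1 ≤ P.r) {I κ : ℕ} {x y : St} (hx : InD P.N I P.Dm x) (hi : 1 ≤ x.i)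
    (hy : y ∈ wst P κ x) : InD P.N I P.Dm y := by
  rcases (mem_wst P).1 hy with rfl | hy
  · exact hx
  · exact pcs_InD hr hx hi hy

theorem bst_InD (hr : 1 ≤ P.r) {I : ℕ} {c : Cel} {y : St} (h : Nd P I c.i c.j) (hi : 1 ≤ c.i)
    (hy : y ∈ bst P c) : InD P.N I P.Dm y := by
  unfold bst at hy
  obtain ⟨t, -, hy⟩ := List.mem_flatMap.1 hy
  exact wst_InD hr (cst_InD h t) hi hy

theorem menu_InD {I κ ρ : ℕ} {y z : St} (hy : InD P.N I P.Dm y) (hz : z ∈ menu P κ ρ y) :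
    InD P.N I P.Dm z := by
  unfold menu at hz
  simp only [List.mem_flatMap, List.mem_map, List.mem_range, bind_pure_comp, List.map_eq_map] at hz
  obtain ⟨a, _, b, _, rfl⟩ := hz
  exact hy.diag (clp_box _) (clp_box _)

theorem hmenu_dom {I : ℕ} {F : St → ℕ} {y : St} (hy : InD P.N I P.Dm y) {p : ℕ × St}
    (hp : p ∈ hmenu P F y) : p.1 ≤ cls F y + P.a2 ∧ InD P.N I P.Dm p.2 := by
  unfold hmenu at hp
  obtain ⟨κ', hκ, hp⟩ := List.mem_flatMap.1 hp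
  obtain ⟨z, hz, rfl⟩ := List.mem_map.1 hp
  exact ⟨(mem_rngC.1 hκ).2, menu_InD hy hz⟩

theorem own_dom {I : ℕ} {F : St → ℕ} {y : St} (hy : InD P.N I P.Dm y)
    (hD : gst P (cls F y) ∣ P.Dm) : (own P F y).1 = cls F y ∧ InD P.N I P.Dm (own P F y).2 :=
  ⟨rfl, rdn_InD P hD hy⟩

/-- bound of the classes: `cls F y ≤ K1` on the domain, and the grids of the classes `≤ K1` divide `Dm` -/
structure ClsOk (P : Par) (I K1 : ℕ) (F : St → ℕ) : Prop where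
  cls : ∀ y, InD P.N I P.Dm y → cls F y ≤ K1
  dvd : gst P K1 ∣ P.Dm

theorem gst_dvd_gst {κ κ' : ℕ} (h : κ ≤ κ') : gst P κ ∣ gst P κ' := by
  unfold gst; exact pow_dvd_pow 2 (by omega)

theorem wpr_dom (hr : 1 ≤ P.r) {I K1 κ : ℕ} {F : St → ℕ} (hF : ClsOk P I K1 F) {x : St}
    (hx : InD P.N I P.Dm x) (hi : 1 ≤ x.i) {p : ℕ × St} (hp : p ∈ wpr P F κ x) :
    p.1 ≤ K1 + P.a2 ∧ InD P.N I P.Dm p.2 := by
  unfold wpr at hp
  obtain ⟨y, hy, hp⟩ := List.mem_flatMap.1 hp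
  have hyD := pcs_InD hr hx hi hy
  have hc := hF.cls y hyD
  rcases List.mem_cons.1 hp with rfl | hp
  · have := own_dom (F := F) hyD ((gst_dvd_gst hc).trans hF.dvd)
    exact ⟨by rw [this.1]; omega, this.2⟩
  · have := hmenu_dom hyD hp
    exact ⟨by omega, this.2⟩

theorem bpr_dom (hr : 1 ≤ P.r) {I K1 : ℕ} {F : St → ℕ} (hF : ClsOk P I K1 F) {c : Cel}
    (h : Nd P I c.i c.j) (hi : 1 ≤ c.i) {p : ℕ × St} (hp : p ∈ bpr P F c) :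
    p.1 ≤ K1 + P.a2 ∧ InD P.N I P.Dm p.2 := by
  unfold bpr at hp
  obtain ⟨t, -, hp⟩ := List.mem_flatMap.1 hp
  exact wpr_dom hr hF (cst_InD h t) hi hp

theorem mem_rpr' {k : ℕ} {L : List (ℕ × St)} {s : ℕ × ℕ × St} (h : s ∈ rpr k L) :
    s.1 < k ∧ s.2 ∈ L := by
  unfold rpr at h
  obtain ⟨i, hi, h⟩ := List.mem_flatMap.1 h
  obtain ⟨p, hp, rfl⟩ := List.mem_map.1 h
  exact ⟨List.mem_range.1 hi, hp⟩

theorem hmenu_OmP (hN : 0 < P.N) {I K0 K1 : ℕ} (h0 : K1 + P.a2 ≤ K0) {F : St → ℕ}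
    (hF : ClsOk P I K1 F) {y : St} (hy : InD P.N I P.Dm y) {p : ℕ × St} (hp : p ∈ hmenu P F y) :
    p ∈ OmP P.N I P.Dm K0 := by
  have h1 := hmenu_dom hy hp
  have h2 := hF.cls y hy
  exact (mem_OmP hN).2 ⟨by omega, h1.2⟩

theorem wpr_OmP (hN : 0 < P.N) (hr : 1 ≤ P.r) {I K0 K1 κ : ℕ} (h0 : K1 + P.a2 ≤ K0) {F : St → ℕ}
    (hF : ClsOk P I K1 F) {x : St} (hx : InD P.N I P.Dm x) (hi : 1 ≤ x.i) {p : ℕ × St}
    (hp : p ∈ wpr P F κ x) : p ∈ OmP P.N I P.Dm K0 := by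
  have h1 := wpr_dom hr hF hx hi hp
  exact (mem_OmP hN).2 ⟨by omega, h1.2⟩

theorem bpr_OmP (hN : 0 < P.N) (hr : 1 ≤ P.r) {I K0 K1 : ℕ} (h0 : K1 + P.a2 ≤ K0) {F : St → ℕ}
    (hF : ClsOk P I K1 F) {c : Cel} (h : Nd P I c.i c.j) (hi : 1 ≤ c.i) {p : ℕ × St}
    (hp : p ∈ bpr P F c) : p ∈ OmP P.N I P.Dm K0 := by
  have h1 := bpr_dom hr hF h hi hp
  exact (mem_OmP hN).2 ⟨by omega, h1.2⟩

end Crest.Agent.R288.PgZ692
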