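import Crest.Agent.R288.PgI_726
import Crest.Agent.R288.PgC_578
import Crest.Agent.R288.PgBr_72
import Crest.Agent.R288.ArrH_222
import Crest.Agent.R288.PgXh_583
import Crest.Agent.R288.PgH_380
import Crest.Agent.R288.PgZb_692
import Crest.Agent.R288.PgZd_692
import Crest.Agent.R288.PgL_172
import Crest.Agent.R288.CpU_776

/-!
# R288, [PROG] P11 (helper726): all procedures under 578's `Hyp`

Claims (`cp := cpOf c.P Zc t0 lfc H b0` of 776, `p` phases): number of the index `l`: request, fuel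
`cp.dX p l`, cost `cp.cX l z.i`; unit function: `Cz` tag 4, `cp.dF p e`, `cp.cF e y.i`; ARR: `Cz` tag
5, `cp.dArr p l i`, `cp.cArr l i`; BODY: `Cz` tag 6, `cp.dBody p l i`, `cp.cBody l i`.

* `Nm` : the numbers `Zc`, `t0`, `H`, `p`; `fam` : the four families;
* `arr0`, `arr`, `body`, `num`, `f0`, `fs` : the steps;
* **`dep`**, **`allX`**, **`allF`**, **`root_cz`**.
-/

set_option autoImplicit false

namespace Crest.Agent.R288.PgK726

open Crest.Agent.R295.Rnd627 Crest.Agent.R288.Alg45 Crest.Agent.R288.PrK690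
  Crest.Agent.R288.Pgb578 Crest.Agent.R288.Delta222 Crest.Agent.R288.PgI726
  Crest.Agent.R288.PgZ692 Crest.Agent.R288.PgA172 Crest.Agent.R288.Pgc578
open Crest.Agent.R288.Phe940 (Prg Wld fl Rz Rq Rqs Szo kq)
open Crest.Agent.R288.PgY583 (arS arC qU qX qF qA qB phX phF)
open Crest.Agent.R288.Pg7776 (CP)
open Crest.Agent.R288.CpU776 (cpOf)

/-- the numbers of cost and fuel -/
structure Nm (c : Cx) (Zc t0 H p : ℕ) : Prop where
  /-- numbers of requests -/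
  ZP : ZP c.P ≤ Zc
  t0 : 10 ≤ t0
  p : 6 ≤ p
  /-- macro heights -/
  H : ∀ y, c.DS y → y.i ≤ H

section

variable {c : Cx} {D : Txt} {G : Prg} {W : Wld} {K : KN} {Z lfc Zc t0 H b0 p : ℕ}

local notation "cc" => cpOf c.P Zc t0 lfc H b0

variable (c G W K lfc Zc t0 H b0 p) in
/-- the four families of claims -/
def fam : Fam where
  X := fun l κ z => Rq G W ((cc).dX p l) (wrapQ K (qX l κ z)) (.ret [c.X l (κ, z)])
    ((cc).cX l z.i)
  F := fun e y => Cz G W K 4 ((cc).dF p e) (arS e 0 y) [] (.ret [c.F e y]) ((cc).cF e y.i)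
  A := fun l d => Cz G W K 5 ((cc).dArr p l d.i) (arC l d) [] (c.tA l d) ((cc).cArr l d.i)
  B := fun l d => Cz G W K 6 ((cc).dBody p l d.i) (arC l d) [] (c.tB l d) ((cc).cBody l d.i)
  okX := fun l κ z => c.DP κ z ∧ (l = 0 → κ = 0)
  okF := fun _ y => c.DS y
  okA := fun _ d => c.DA d
  okB := fun _ d => c.DB d

theorem ep_eq {e k : ℕ} (hk : k < c.P.K) : ep c.P (1 + e * c.P.K + k) = e := by
  unfold ep
  have hK : 0 < c.P.K := by omega
  rw [show 1 + e * c.P.K + k - 1 = k + e * c.P.K by omega, Nat.add_mul_div_right _ _ hK,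
    Nat.div_eq_of_lt hk, Nat.zero_add]

theorem rk_eq {e k : ℕ} (hk : k < c.P.K) : rk c.P (1 + e * c.P.K + k) = k := by
  unfold rk
  rw [show 1 + e * c.P.K + k - 1 = k + e * c.P.K by omega, Nat.add_mul_mod_self_right,
    Nat.mod_eq_of_lt hk]

theorem Fl_eq {e k : ℕ} (hk : k < c.P.K) : c.Fl (1 + e * c.P.K + k) = c.F e := by
  unfold Cx.Fl Cx.F
  rw [ep_eq hk]

theorem Xl_eq {e k : ℕ} (hk : k < c.P.K) (i κ : ℕ) (z : St) :
    c.Xl (1 + e * c.P.K + k) i κ z = c.X (1 + e * c.P.K + i) (κ, z) := by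
  unfold Cx.Xl
  rw [ep_eq hk]
  rfl

theorem csts_i {d : Cel} {y : St} (hy : y ∈ csts c.P d) : y.i = d.i := by
  unfold csts at hy
  rw [List.mem_map] at hy
  obtain ⟨t, -, rfl⟩ := hy
  rfl

/-- the unit function of the index as `Cz` -/
theorem czF {e m i : ℕ} (hF : (fam c G W K lfc Zc t0 H b0 p).AF e)
    (hm : (cc).dF p e ≤ m) {y : St} (hy : c.DS y) (hi : y.i = i) :
    Cz G W K 4 m (arS e 0 y) [] (.ret [c.F e y]) ((cc).cF e i) := by
  have h1 : Cz G W K 4 ((cc).dF p e) (arS e 0 y) [] (.ret [c.F e y]) ((cc).cF e y.i) := hF y hy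
  rw [hi] at h1
  exact h1.mono hm le_rfl

/-- **ARR, macro height `0`** -/
theorem arr0 (h : Hyp c D G W K Z lfc) (hN : Nm c Zc t0 H p) {e k : ℕ} (hk : k < c.P.K)
    (hT : 1 + e * c.P.K + k ≤ c.EK) (hF : (fam c G W K lfc Zc t0 H b0 p).AF e) :
    (fam c G W K lfc Zc t0 H b0 p).AA (1 + e * c.P.K + k) 0 := by
  intro d hd hi
  have hd' : c.DA d := hd
  have hp := hN.p
  have hdF : (cc).dF p e + p ≤ (cc).dArr p (1 + e * c.P.K + k) d.i :=
    le_trans (Nat.add_le_add_right CP.dF_le_low _) CP.dArr_low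
  obtain ⟨n, hn⟩ : ∃ n, (cc).dArr p (1 + e * c.P.K + k) d.i = n + 2 :=
    ⟨(cc).dArr p (1 + e * c.P.K + k) d.i - 2, by omega⟩
  have hl1 : (csts c.P d).length ≤ Zc := by
    rw [csts_len]; exact (csz_ZP _ _).trans hN.ZP
  have key := arr0_hyp (n := n) (CF := (cc).cF e 0) h (by omega : 0 < 1 + e * c.P.K + k) hT hd'
    hi (fun y hy => by
      rw [ep_eq hk, Fl_eq hk]
      exact czF hF (by omega) (h.A_S d hd' y hy) (by rw [csts_i hy, hi]))
  show Cz G W K 5 ((cc).dArr p (1 + e * c.P.K + k) d.i) (arC (1 + e * c.P.K + k) d) []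
    (c.tA (1 + e * c.P.K + k) d) ((cc).cArr (1 + e * c.P.K + k) d.i)
  rw [hn]
  refine key.mono le_rfl ?_
  have hc0 := CpU776.arr0_req (P := c.P) (Z := Zc) (t0 := t0) (lf := lfc) (H := H)
    (b0 := b0) h.Kpos (e := e) (k := k) (i := 0) hl1 hl1
  have ht := hN.t0
  rw [hi]
  refine le_trans ?_ hc0
  omega

/-- **ARR, positive macro height** -/
theorem arr (h : Hyp c D G W K Z lfc) (hN : Nm c Zc t0 H p) {e k i : ℕ} (hk : k < c.P.K)
    (hT : 1 + e * c.P.K + k ≤ c.EK) (hF : (fam c G W K lfc Zc t0 H b0 p).AF e)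
    (hB : (fam c G W K lfc Zc t0 H b0 p).AB (1 + e * c.P.K + k) (i + 1)) :
    (fam c G W K lfc Zc t0 H b0 p).AA (1 + e * c.P.K + k) (i + 1) := by
  intro d hd hi
  have hd' : c.DA d := hd
  have hp := hN.p
  have hdF : (cc).dF p e + p ≤ (cc).dArr p (1 + e * c.P.K + k) d.i :=
    le_trans (Nat.add_le_add_right CP.dF_le_low _) CP.dArr_low
  have hdB : (cc).dBody p (1 + e * c.P.K + k) d.i + p ≤ (cc).dArr p (1 + e * c.P.K + k) d.i :=
    CP.dArr_ok
  obtain ⟨n, hn⟩ : ∃ n, (cc).dArr p (1 + e * c.P.K + k) d.i = n + 2 :=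
    ⟨(cc).dArr p (1 + e * c.P.K + k) d.i - 2, by omega⟩
  have hl1 : (csts c.P d).length ≤ Zc := by
    rw [csts_len]; exact (csz_ZP _ _).trans hN.ZP
  have key := arr_hyp (n := n) (CB := (cc).cBody (1 + e * c.P.K + k) d.i)
    (CF := (cc).cF e d.i) h (by omega : 0 < 1 + e * c.P.K + k) hT hd' (by omega)
    (fun d' h1 => by
      have h2 := mem_abod c.P h1
      have h3 : Cz G W K 6 ((cc).dBody p (1 + e * c.P.K + k) d'.i)
          (arC (1 + e * c.P.K + k) d') [] (c.tB (1 + e * c.P.K + k) d')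
          ((cc).cBody (1 + e * c.P.K + k) d'.i) :=
        hB d' (h.A_B d hd' (by omega) d' h1) (by omega)
      rw [h2.1] at h3
      exact h3.mono (by omega) le_rfl)
    (fun y hy => by
      rw [ep_eq hk, Fl_eq hk]
      exact czF hF (by omega) (h.A_S d hd' y hy) (csts_i hy))
  show Cz G W K 5 ((cc).dArr p (1 + e * c.P.K + k) d.i) (arC (1 + e * c.P.K + k) d) []
    (c.tA (1 + e * c.P.K + k) d) ((cc).cArr (1 + e * c.P.K + k) d.i)
  rw [hn]
  refine key.mono le_rfl ?_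
  have hc0 := CpU776.arr_req (P := c.P) (Z := Zc) (t0 := t0) (lf := lfc) (H := H)
    (b0 := b0) h.Kpos (e := e) (k := k) (i := i) (abod_len c.P d) hl1
  have ht := hN.t0
  rw [hi]
  refine le_trans ?_ hc0
  omega

/-- **BODY** -/
theorem body (h : Hyp c D G W K Z lfc) (hN : Nm c Zc t0 H p) {e k i : ℕ} (hk : k < c.P.K)
    (hT : 1 + e * c.P.K + k ≤ c.EK) (hF : (fam c G W K lfc Zc t0 H b0 p).AF e)
    (hX : ∀ j < k, (fam c G W K lfc Zc t0 H b0 p).AX (1 + e * c.P.K + j))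
    (hA : (fam c G W K lfc Zc t0 H b0 p).AA (1 + e * c.P.K + k) i) :
    (fam c G W K lfc Zc t0 H b0 p).AB (1 + e * c.P.K + k) (i + 1) := by
  intro d hd hi
  have hd' : c.DB d := hd
  have hp := hN.p
  have hl0 : 0 < 1 + e * c.P.K + k := by omega
  have hdF : (cc).dF p e + p ≤ (cc).dBody p (1 + e * c.P.K + k) d.i := by
    rw [hi]
    exact le_trans (Nat.add_le_add_right CP.dF_le_low _) CP.dBody_low
  have hdA : (cc).dArr p (1 + e * c.P.K + k) i + p ≤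
      (cc).dBody p (1 + e * c.P.K + k) d.i := by
    rw [hi]
    exact CP.dBody_ok
  have hdX : ∀ j < k, (cc).dX p (1 + e * c.P.K + j) + p ≤
      (cc).dBody p (1 + e * c.P.K + k) d.i := fun j hj => by
    rw [hi]
    exact le_trans (Nat.add_le_add_right (CP.dX_le_low (by omega)) _) CP.dBody_low
  obtain ⟨n, hn⟩ : ∃ n, (cc).dBody p (1 + e * c.P.K + k) d.i = n + 3 :=
    ⟨(cc).dBody p (1 + e * c.P.K + k) d.i - 3, by omega⟩
  have hlb : (bst c.P d).length ≤ Zc := (bst_ZP _ _).trans hN.ZP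
  have hlc : (cells c.P d).length ≤ Zc := by
    rw [cells_len]; exact (csz_ZP _ _).trans hN.ZP
  have hlr : (rpr k (bpr c.P (c.F e) d)).length ≤ c.P.K * Zc := by
    rw [rpr_len]
    exact Nat.mul_le_mul hk.le ((bpr_ZP _ _ _).trans hN.ZP)
  have key := Delta72.b_hyp (n := n) (nB := Cnt308.nB c.P)
    (CA := (cc).cArr (1 + e * c.P.K + k) i) (CF := (cc).low (1 + e * c.P.K + k) (i + 1))
    (CX := (cc).low (1 + e * c.P.K + k) (i + 1)) h hl0 hT hd'
    (fun y hy => by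
      rw [ep_eq hk, Fl_eq hk]
      have hyi : y.i ≤ i + 1 := by rcases PgL172.bst_i hy with h1 | h1 <;> omega
      have h1 := czF (m := n + 2) hF (by omega) (h.B_S d hd' y hy) rfl
      exact (cal5_ret h1 (h.bF _ _)).mono le_rfl
        (CpU776.cF_low (P := c.P) h.Kpos (e := e) (k := k) hyi))
    (fun a ha => by
      rw [rk_eq hk, Fl_eq hk] at ha
      have h1 := mem_rpr' ha
      have h2 : c.DP a.2.1 a.2.2 := by
        refine h.B_P (1 + e * c.P.K + k) hl0 hT d hd' a.2 ?_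
        rw [Fl_eq hk]
        exact h1.2
      have h3 : Rq G W ((cc).dX p (1 + e * c.P.K + a.1))
          (wrapQ K (qX (1 + e * c.P.K + a.1) a.2.1 a.2.2))
          (.ret [c.X (1 + e * c.P.K + a.1) (a.2.1, a.2.2)])
          ((cc).cX (1 + e * c.P.K + a.1) a.2.2.i) :=
        hX a.1 h1.1 _ _ ⟨h2, fun h0 => absurd h0 (by omega)⟩
      have h4 := PgL172.bpr_i h1.2
      have h5 := hdX a.1 h1.1
      rw [Xl_eq hk, ep_eq hk]
      exact h3.mono (by omega) (CpU776.cX_low (P := c.P) h.Kpos (by omega) (by omega)))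
    (fun d' h1 h2 => by
      have h3 : Cz G W K 5 ((cc).dArr p (1 + e * c.P.K + k) d'.i)
          (arC (1 + e * c.P.K + k) d') [] (c.tA (1 + e * c.P.K + k) d')
          ((cc).cArr (1 + e * c.P.K + k) d'.i) := hA d' h1 (by omega)
      have h4 : d'.i = i := by omega
      rw [h4] at h3
      exact h3.mono (by omega) le_rfl)
    (fun ρ => Cnt308.bkeys_len c.P d.κ d.m ρ)
  show Cz G W K 6 ((cc).dBody p (1 + e * c.P.K + k) d.i) (arC (1 + e * c.P.K + k) d) []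
    (c.tB (1 + e * c.P.K + k) d) ((cc).cBody (1 + e * c.P.K + k) d.i)
  rw [hn]
  refine key.mono le_rfl ?_
  have hc0 := CpU776.body_req (P := c.P) (Z := Zc) (t0 := t0) (lf := lfc) (H := H)
    (b0 := b0) h.Kpos (l := 1 + e * c.P.K + k) (i := i) (nw := Delta72.nwd c.P) le_rfl
    (nb := Cnt308.nB c.P) le_rfl hlb hlc hlr
  have ht := hN.t0
  rw [rk_eq hk, Fl_eq hk, hi]
  refine le_trans ?_ hc0
  omega

theorem ep_le {l : ℕ} (hK : 0 < c.P.K) (h1 : l ≤ c.EK) : ep c.P l ≤ c.P.E :=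
  Delta72.ep_le hK h1

/-- **numbers of the ranks** -/
theorem num (h : Hyp c D G W K Z lfc) (hN : Nm c Zc t0 H p) {e k : ℕ} (hk : k < c.P.K)
    (hT : 1 + e * c.P.K + k ≤ c.EK) (hF : (fam c G W K lfc Zc t0 H b0 p).AF e)
    (hA : ∀ i, (fam c G W K lfc Zc t0 H b0 p).AA (1 + e * c.P.K + k) i) :
    (fam c G W K lfc Zc t0 H b0 p).AX (1 + e * c.P.K + k) := by
  intro κ z hz
  have hz' : c.DP κ z := hz.1
  have hp := hN.p
  have hl0 : 0 < 1 + e * c.P.K + k := by omega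
  have hS : c.DS z := h.P_S κ z hz'
  have hi : z.i ≤ H := hN.H z hS
  have hdF : (cc).dF p e + p ≤ (cc).dX p (1 + e * c.P.K + k) :=
    le_trans (Nat.add_le_add_right CP.dF_le_low _) CP.dX_low
  have hdA : (cc).dArr p (1 + e * c.P.K + k) z.i + p ≤ (cc).dX p (1 + e * c.P.K + k) :=
    CP.dX_ok hi
  obtain ⟨n, hn⟩ : ∃ n, (cc).dX p (1 + e * c.P.K + k) = n + 3 :=
    ⟨(cc).dX p (1 + e * c.P.K + k) - 3, by omega⟩
  have key := PgX583.x_hyp (n := n) (CF := (cc).cF e z.i)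
    (CA := (cc).cArr (1 + e * c.P.K + k) z.i) h hl0 hT hz'
    (by
      rw [ep_eq hk, Fl_eq hk]
      exact czF hF (by omega) hS rfl)
    (fun h1 => by
      have h2 : Cz G W K 5 ((cc).dArr p (1 + e * c.P.K + k) z.i)
          (arC (1 + e * c.P.K + k) (celOf κ z)) [] (c.tA (1 + e * c.P.K + k) (celOf κ z))
          ((cc).cArr (1 + e * c.P.K + k) z.i) := hA z.i _ (h.P_A _ hl0 hT κ z hz' h1) rfl
      exact h2.mono (m := n + 1) (by omega) le_rfl)
  show Rq G W ((cc).dX p (1 + e * c.P.K + k)) (wrapQ K (qX (1 + e * c.P.K + k) κ z)) _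
    ((cc).cX (1 + e * c.P.K + k) z.i)
  rw [hn]
  refine key.mono le_rfl ?_
  have hc0 := CpU776.x_req (P := c.P) (Z := Zc) (t0 := t0) (lf := lfc) (H := H)
    (b0 := b0) h.Kpos (e := e) (k := k) (i := z.i) hi (n := c.P.gX * c.P.mX) le_rfl
  have ht := hN.t0
  refine le_trans ?_ hc0
  omega

theorem uP_ZP (P : Par) : PgF380.uP P ≤ PgZ692.ZP P := by
  have h1 : PgF380.uP P = nH P := by
    unfold PgF380.uP nH
    have : 2 * 2 ^ (P.al + P.pb + 2) = 8 * 2 ^ (P.al + P.pb) := by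
      rw [pow_add]
      ring
    rw [this, pow_two]
  have h3 : nH P ≤ (P.K + 1) * nH P := Nat.le_mul_of_pos_left _ (by omega)
  unfold PgZ692.ZP
  omega

/-- **F, epoch `0`** -/
theorem f0 (h : Hyp c D G W K Z lfc) (hN : Nm c Zc t0 H p)
    (hX : (fam c G W K lfc Zc t0 H b0 p).AX 0) : (fam c G W K lfc Zc t0 H b0 p).AF 0 := by
  intro y hy
  have hy' : c.DS y := hy
  have hp := hN.p
  have hdF : (cc).dX p 0 + p ≤ (cc).dF p 0 := CP.dF0_x
  obtain ⟨n, hn⟩ : ∃ n, (cc).dF p 0 = n + 3 := ⟨(cc).dF p 0 - 3, by omega⟩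
  have hR : ∀ z, c.DS z → Rq G W ((cc).dX p 0) (wrapQ K (qX 0 0 z)) (.ret [c.X 0 (0, z)])
      ((cc).cX 0 z.i) := fun z hz => hX 0 z ⟨h.S_0 z hz, fun _ => rfl⟩
  have key := PgF380.f0_hyp (n := n) (C0 := (cc).cX 0 y.i) (C := (cc).cX 0 y.i) h hy'
    ((hR y hy').mono (by omega) le_rfl)
    (fun z hz hi _ => (hR z hz).mono (by omega) (by rw [hi]))
  show Cz G W K 4 ((cc).dF p 0) (arS 0 0 y) [] (.ret [c.F 0 y]) ((cc).cF 0 y.i)
  rw [hn]
  refine key.mono le_rfl ?_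
  have h1 := CpU776.f0_req (P := c.P) (Z := Zc) (t0 := t0) (lf := lfc) (H := H) (b0 := b0)
    h.Kpos (i := y.i) (n := PgF380.uP c.P + 1)
    (Nat.add_le_add_right ((uP_ZP _).trans hN.ZP) _)
  have ht := hN.t0
  have h5 : (PgF380.uP c.P + 1) * ((cc).cX 0 y.i + 1) =
      PgF380.uP c.P * ((cc).cX 0 y.i + 1) + ((cc).cX 0 y.i + 1) := by ring
  omega

/-- **F, epoch `e + 1`** -/
theorem fs (h : Hyp c D G W K Z lfc) (hN : Nm c Zc t0 H p) {e : ℕ}
    (hT : e * c.P.K + c.P.K ≤ c.EK) (hF : (fam c G W K lfc Zc t0 H b0 p).AF e)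
    (hX : ∀ j < c.P.K, (fam c G W K lfc Zc t0 H b0 p).AX (1 + e * c.P.K + j)) :
    (fam c G W K lfc Zc t0 H b0 p).AF (e + 1) := by
  intro y hy
  have hy' : c.DS y := hy
  have hp := hN.p
  have hK := h.Kpos
  have he : e < c.P.E := by
    have h1 : c.EK = c.P.E * c.P.K := rfl
    by_contra h2
    have h3 : c.P.E * c.P.K ≤ e * c.P.K := Nat.mul_le_mul_right _ (by omega)
    omega
  have hdF : (cc).dF p e + p ≤ (cc).dF p (e + 1) := CP.dF_ok (CpU776.ok hK)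
  have hdX : ∀ j < c.P.K, (cc).dX p (1 + e * c.P.K + j) + p ≤ (cc).dF p (e + 1) :=
    fun j hj => CP.dF_x (c := cc) hj
  obtain ⟨n, hn⟩ : ∃ n, (cc).dF p (e + 1) = n + 3 := ⟨(cc).dF p (e + 1) - 3, by omega⟩
  have key := PgF380.fs_hyp (n := n) (C0 := (cc).cF e y.i) (C := fun l => (cc).cX l y.i) h he
    hy' (cal5_ret (czF (m := n + 2) hF (by omega) hy' rfl) (h.bF _ _))
    (fun j hj κ z hz hi _ => by
      have h1 : Rq G W ((cc).dX p (1 + e * c.P.K + j))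
          (wrapQ K (qX (1 + e * c.P.K + j) κ z)) (.ret [c.X (1 + e * c.P.K + j) (κ, z)])
          ((cc).cX (1 + e * c.P.K + j) z.i) :=
        hX j hj κ z ⟨hz, fun h0 => absurd h0 (by omega)⟩
      have h2 := hdX j hj
      exact h1.mono (by omega) (by rw [hi]))
  show Cz G W K 4 ((cc).dF p (e + 1)) (arS (e + 1) 0 y) [] (.ret [c.F (e + 1) y])
    ((cc).cF (e + 1) y.i)
  rw [hn]
  refine key.mono le_rfl ?_
  have h1 := CpU776.f_req (P := c.P) (Z := Zc) (t0 := t0) (lf := lfc)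
    (H := H) (b0 := b0) h.Kpos (e := e) (i := y.i) (n := c.P.K * PgF380.uP c.P)
    (Nat.mul_le_mul_left _ ((uP_ZP _).trans hN.ZP))
  have h2 : ∑ j ∈ Finset.range c.P.K, ((cc).cX (1 + e * c.P.K + j) y.i + 1) ≤
      c.P.K * ((cc).cX ((e + 1) * c.P.K) y.i + 1) := by
    calc ∑ j ∈ Finset.range c.P.K, ((cc).cX (1 + e * c.P.K + j) y.i + 1)
        ≤ ∑ _j ∈ Finset.range c.P.K, ((cc).cX ((e + 1) * c.P.K) y.i + 1) :=
          Finset.sum_le_sum fun j hj => Nat.add_le_add_right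
            (CpU776.cX_f (P := c.P) h.Kpos (Finset.mem_range.1 hj)) _
      _ = _ := by rw [Finset.sum_const, Finset.card_range, smul_eq_mul]
  have h3 := Nat.mul_le_mul_left (PgF380.uP c.P) h2
  have h4 : PgF380.uP c.P * (c.P.K * ((cc).cX ((e + 1) * c.P.K) y.i + 1)) =
      c.P.K * PgF380.uP c.P * ((cc).cX ((e + 1) * c.P.K) y.i + 1) := by ring
  have ht := hN.t0
  refine le_trans ?_ h1
  omega

/-- the claim of index `0` (INIT): fuel `≤ nU`, cost `≤ b0 * Y ^ i` -/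
def InitOk (c : Cx) (G : Prg) (W : Wld) (K : KN) (b0 nU Y : ℕ) : Prop :=
  ∀ z, c.DS z → ∃ n C, Rq G W n (wrapQ K (qU z)) (.ret [c.X 0 (0, z)]) C ∧ n ≤ nU ∧
    C ≤ b0 * Y ^ z.i

theorem InitOk.rq (hU : InitOk c G W K b0 ((cc).dX p 0) (cc).Y) {z : St} (hz : c.DS z) :
    Rq G W ((cc).dX p 0) (wrapQ K (qU z)) (.ret [c.X 0 (0, z)]) ((cc).cX 0 z.i) := by
  obtain ⟨n, C, h1, h2, h3⟩ := hU z hz
  exact h1.mono h2 (CpU776.init_req h3)

/-- **all realisation theorems together** -/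
theorem dep (h : Hyp c D G W K Z lfc) (hN : Nm c Zc t0 H p)
    (h0 : ∀ z, c.DS z → Rq G W ((cc).dX p 0) (wrapQ K (qU z)) (.ret [c.X 0 (0, z)])
      ((cc).cX 0 z.i)) :
    (fam c G W K lfc Zc t0 H b0 p).Dep c.P.K (c.EK + 1) where
  init := by
    intro κ z hz
    have h4 : κ = 0 := hz.2 rfl
    subst h4
    exact h0 z (h.P_S _ z hz.1)
  f0 := fun hX => f0 h hN hX
  fs := fun e hT hF hX => fs h hN (by omega) hF hX
  a0 := fun e k hk hT hF => arr0 h hN hk (by omega) hF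
  as := fun e k i hk hT hF hB => arr h hN hk (by omega) hF hB
  bs := fun e k i hk hT hF hX hA => body h hN hk (by omega) hF hX hA
  x := fun e k hk hT hF hA => num h hN hk (by omega) hF hA

/-- **all numbers** -/
theorem allX (h : Hyp c D G W K Z lfc) (hN : Nm c Zc t0 H p)
    (h0 : ∀ z, c.DS z → Rq G W ((cc).dX p 0) (wrapQ K (qU z)) (.ret [c.X 0 (0, z)])
      ((cc).cX 0 z.i)) {l : ℕ} (hl0 : 0 < l) (hl : l ≤ c.EK)
    {κ : ℕ} {z : St} (hz : c.DP κ z) :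
    Rq G W ((cc).dX p l) (wrapQ K (qX l κ z)) (.ret [c.X l (κ, z)]) ((cc).cX l z.i) :=
  (dep h hN h0).allX h.Kpos l (by omega) κ z ⟨hz, fun h0 => absurd h0 (by omega)⟩

/-- **all unit functions** -/
theorem allF (h : Hyp c D G W K Z lfc) (hN : Nm c Zc t0 H p)
    (h0 : ∀ z, c.DS z → Rq G W ((cc).dX p 0) (wrapQ K (qU z)) (.ret [c.X 0 (0, z)])
      ((cc).cX 0 z.i)) {e : ℕ} (he : e ≤ c.P.E) {y : St} (hy : c.DS y) :
    Cz G W K 4 ((cc).dF p e) (arS e 0 y) [] (.ret [c.F e y]) ((cc).cF e y.i) := by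
  have h1 : e * c.P.K ≤ c.EK := Nat.mul_le_mul_right _ he
  exact (dep h hN h0).allF' h.Kpos (by omega) (by omega) y hy

/-- **P11: the root** -/
theorem root_cz (h : Hyp c D G W K Z lfc) (hN : Nm c Zc t0 H p)
    (hU : InitOk c G W K b0 ((cc).dX p 0) (cc).Y) {root : St} (hr : c.DS root) :
    Cz G W K 4 ((cc).dF p c.P.E) (arS c.P.E 0 root) [] (.ret [c.F c.P.E root])
      ((cc).cF c.P.E H) :=
  (allF h hN (fun _ hz => hU.rq hz) le_rfl hr).mono le_rfl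
    (CP.cF_mono (CpU776.ok h.Kpos) le_rfl (hN.H root hr))

/-- **P11, in the form (L4) of helper690's skeleton** (`hX0` is not used) -/
theorem all_of_hyp (h : Hyp c D G W K Z lfc) (ht : 10 ≤ t0) (hp : 6 ≤ p)
    (hZ : PgZ692.ZP c.P ≤ Zc) (hH : ∀ y, c.DS y → y.i ≤ H)
    (_hX0 : ∀ κ z, c.DP κ z → c.X 0 (κ, z) = c.X 0 (0, z))
    (h0 : ∀ z, c.DS z → Rq G W ((cc).dX p 0) (wrapQ K (qU z)) (.ret [c.X 0 (0, z)])
      ((cc).cX 0 z.i)) :
    ∀ e ≤ c.P.E, ∀ y, c.DS y →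
      Cz G W K 4 ((cc).dF p e) (arS e 0 y) [] (.ret [c.F e y]) ((cc).cF e y.i) :=
  fun _ he _ hy => allF h ⟨hZ, ht, hp, hH⟩ h0 he hy

end

end Crest.Agent.R288.PgK726
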