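import Crest.Agent.R288.TbO_589
import Crest.Agent.R288.HypN_53
import Crest.Agent.R288.HypL_200
import Crest.Agent.R288.InitE_776

/-!
# R288, [PROG] the numbers of the root call at the official table (helper589)

`N` = any constant overhead of the procedure of index `0`, `t0` = free overhead of a procedure.
* `Zc h = ZP + uP + 1`, `b0N N h`, `pN N h`, **`cpN N t0 h`** : the cost parameters of the run;
* `cpZ Zf`, `index0Z`, `root_numZ`, `root_numZO` : the same for any bound `Zf` of class `PQ` (e.g. `ZP`);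
* **`index0`** : cost and fuel of INIT (663, 772) are at most `cX 0 i`, `dX p 0`;
* **`root_num`** : the conclusions of `ProgTop901.RootClaim` (`cF ≤ fuc`, `dF + 1 ≤ L`).
-/

set_option autoImplicit false

open Filter

namespace Crest.Agent.R288.RootNum589

open Crest.Agent.R288.Par806 Crest.Agent.R288.ParO331 Crest.Agent.R288.CpU776
open Crest.Agent.R288.Pg7776 Crest.Agent.R288.PgG8155 Crest.Agent.R288.PgG8i654
open Crest.Agent.R288.Shell12 Crest.Agent.R288.PadK901 Crest.Agent.R288.HypL200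
open Crest.Agent.R288.InitE776 Crest.Agent.R288.InitD654 Crest.Agent.R288.ParW951
open Crest.Agent.R288.HypN53

/-- one bound of the lengths of all lists of lower requests -/
def Zc (h : ℕ) : ℕ := PgZ692.ZP (parOf h) + PgF380.uP (parOf h) + 1

theorem ZP_le_Zc (h : ℕ) : PgZ692.ZP (parOf h) ≤ Zc h := by unfold Zc; omega

theorem uP_le_Zc (h : ℕ) : PgF380.uP (parOf h) + 1 ≤ Zc h := by unfold Zc; omega

theorem pQ_Zc : PQ Zc := by
  have h1 := pQ_ZP
  have h2 := pQ_uP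
  have : PQ (fun h => PgZ692.ZP (parOf h) + PgF380.uP (parOf h) + 1) := by pw_tac
  exact this

theorem pQ_lcO : PQ lcO := by
  have : PQ (fun h => 500 * ((2 ^ lam h + 1) ^ 2 * (h + 1)) + 30) := by pw_tac
  exact this

/-- the constant of the leaf requests -/
noncomputable def cL (N : ℕ) : ℕ := max N (Classical.choose pQ_lcO.ev_sub)

theorem ev_lcO (N : ℕ) : ∀ᶠ h : ℕ in atTop, lcO h ≤ sub (cL N) h := by
  filter_upwards [Classical.choose_spec pQ_lcO.ev_sub] with h h1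
  exact h1.trans (sub_mono (le_max_right _ _) h)

theorem N_le (N h : ℕ) : N ≤ sub (cL N) h := by
  have hW := W_pos h
  have hL := Lg_pos h
  have hM := Mg_pos h
  have h1 : N ≤ cL N := le_max_left _ _
  have h2 : 0 < W h ^ cL N * Lg h ^ cL N * Mg h ^ cL N := by positivity
  have h3 : cL N ≤ cL N * (W h ^ cL N * Lg h ^ cL N * Mg h ^ cL N) :=
    Nat.le_mul_of_pos_right _ h2
  unfold sub
  calc N ≤ cL N := h1
    _ ≤ cL N * (W h ^ cL N * Lg h ^ cL N * Mg h ^ cL N) := h3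
    _ = cL N * W h ^ cL N * Lg h ^ cL N * Mg h ^ cL N := by ring
    _ ≤ _ := (Nat.lt_two_pow_self).le

/-- INIT costs at most `b0N N h * Y ^ i` -/
noncomputable def b0N (N h : ℕ) : ℕ := sui (Classical.choose (cE_ev (cL N))) h

/-- number of the phases of a procedure, fuel of INIT -/
noncomputable def pN (N h : ℕ) : ℕ := max 6 (sub (Classical.choose (fu_ev (cL N))) h)

theorem six_le_pN (N h : ℕ) : 6 ≤ pN N h := le_max_left _ _

/-- the cost parameters of the run, `Zf h` = bound of the lengths of the lists of lower requests -/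
noncomputable def cpZ (Zf : ℕ → ℕ) (N t0 h : ℕ) : CP :=
  cpOf (parOf h) (Zf h) t0 (lcO h) (II h) (b0N N h)

/-- **the cost parameters of the run** -/
noncomputable def cpN (N t0 h : ℕ) : CP := cpOf (parOf h) (Zc h) t0 (lcO h) (II h) (b0N N h)

theorem cpN_eq (N t0 h : ℕ) : cpN N t0 h = cpZ Zc N t0 h := rfl

open Crest.Agent.R288.InitN775 Crest.Agent.R288.InitZ663 Crest.Agent.R288.InitW663
  Crest.Agent.R288.InitS663 Crest.Agent.R288.InitQ663 in
/-- index `0`, any `Zf` -/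
theorem index0Z (Zf : ℕ → ℕ) (N t0 : ℕ) : ∀ᶠ h : ℕ in atTop, ∀ K : KI,
    parK K = par (gI h) (DI h) (mI h) →
    ∀ i d : ℕ, i ≤ II h → d ≤ nn h * i / gI h + 1 →
      (nn h * i + 4) * (CE K (lcO h) d + 1) + N ≤ (cpZ Zf N t0 h).cX 0 i ∧
      fu K d + N ≤ (cpZ Zf N t0 h).dX (pN N h) 0 := by
  filter_upwards [Classical.choose_spec (cE_ev (cL N)), Classical.choose_spec (fu_ev (cL N)),
    ev_lcO N, dmOk_331] with h h1 h2 h3 h4 K hK i d hi hd
  have h5 := N_le N h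
  have hY : 2 ^ nn h ≤ (cpZ Zf N t0 h).Y :=
    two_pow_le_Y (parOf h) (Zf h) t0 (lcO h) (II h) (b0N N h)
  refine ⟨?_, ?_⟩
  · refine CP.init_ok ?_
    exact h1 _ _ h4 K hK (lcO h) i _ d N h3 h5 (hi.trans (Nat.le_add_right _ _))
      hY hd
  · have h6 : d ≤ nn h * (II h + cL N) / gI h + 1 := by
      refine hd.trans (Nat.add_le_add_right (Nat.div_le_div_right (Nat.mul_le_mul_left _ ?_)) 1)
      exact hi.trans (Nat.le_add_right _ _)
    have h7 : fu K d + N ≤ pN N h := (h2 _ _ h4 K hK d N h5 h6).trans (le_max_right _ _)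
    refine h7.trans ?_
    show pN N h ≤ (2 * 0 + 1) * (pN N h * (2 * II h + 4))
    rw [Nat.mul_zero, Nat.zero_add, Nat.one_mul]
    exact Nat.le_mul_of_pos_right _ (by omega)

open Crest.Agent.R288.InitN775 Crest.Agent.R288.InitZ663 Crest.Agent.R288.InitW663
  Crest.Agent.R288.InitS663 Crest.Agent.R288.InitQ663 in
/-- **index `0`** : `N` = overhead of the typed layer, `d` = depth of the tree of INIT -/
theorem index0 (N t0 : ℕ) : ∀ᶠ h : ℕ in atTop, ∀ K : KI, parK K = par (gI h) (DI h) (mI h) →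
    ∀ i d : ℕ, i ≤ II h → d ≤ nn h * i / gI h + 1 →
      (nn h * i + 4) * (CE K (lcO h) d + 1) + N ≤ (cpN N t0 h).cX 0 i ∧
      fu K d + N ≤ (cpN N t0 h).dX (pN N h) 0 := index0Z Zc N t0

/-- the root, any `Zf` of class `PQ` -/
theorem root_numZ {Zf : ℕ → ℕ} (hZ : PQ Zf) (N t0 : ℕ) : ∃ c r : ℕ, ∀ c' r' k : ℕ, c ≤ c' →
    r ≤ r' → ∀ᶠ h : ℕ in atTop, ∀ L : ℕ, Nat.clog 2 L = h →
      2 * cPad h + 40 * (cpZ Zf N t0 h).cF (EE h) (II h) + 30 ≤ fuc c' k r' 3 L ∧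
      (cpZ Zf N t0 h).cF (EE h) (II h) ≤ fuc c' k r' 3 L ∧
      (cpZ Zf N t0 h).dF (pN N h) (EE h) + 1 ≤ L := by
  have hl := pQ_lcO
  have ht : PQ (fun _ => t0) := PQ.const t0
  obtain ⟨C1, h1⟩ := hZ
  obtain ⟨C2, h2⟩ := hl
  obtain ⟨C3, h3⟩ := ht
  obtain ⟨C5, hC5⟩ : ∃ C5, C5 = Classical.choose (fu_ev (cL N)) := ⟨_, rfl⟩
  obtain ⟨C4, hC4⟩ : ∃ C4, C4 = Classical.choose (cE_ev (cL N)) := ⟨_, rfl⟩
  obtain ⟨C, hC⟩ : ∃ C, C = C1 + C2 + C3 + C4 + C5 + 6 := ⟨_, rfl⟩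
  obtain ⟨c, r, h4⟩ := TbO589.ev_fuel C
  refine ⟨c, r, fun c' r' k hc hr => ?_⟩
  filter_upwards [h4 c' r' k hc hr, TbO589.ev_depth C, h1, h2, h3] with h g1 g2 g3 g4 g5 L hL
  have hup : ∀ {a : ℕ}, a ≤ C → 2 ^ (a * sQ h) ≤ 2 ^ (C * (W h ^ 4 * Lg h)) := fun {a} ha =>
    Nat.pow_le_pow_right (by norm_num) (Nat.mul_le_mul_right _ ha)
  have hb : b0N N h ≤ sui C h := by
    unfold b0N
    rw [← hC4]
    exact sui_mono (by omega) h
  have hp : pN N h ≤ sub C h := by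
    unfold pN
    rw [← hC5]
    refine max_le ?_ (sub_mono (by omega) h)
    have e1 : 6 ≤ C := by omega
    have hW := W_pos h
    have hLg := Lg_pos h
    have hM := Mg_pos h
    have e2 : 0 < W h ^ C * Lg h ^ C * Mg h ^ C := by positivity
    have e3 : C ≤ C * (W h ^ C * Lg h ^ C * Mg h ^ C) := Nat.le_mul_of_pos_right _ e2
    unfold sub
    calc 6 ≤ C := e1
      _ ≤ C * (W h ^ C * Lg h ^ C * Mg h ^ C) := e3
      _ = C * W h ^ C * Lg h ^ C * Mg h ^ C := by ring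
      _ ≤ _ := (Nat.lt_two_pow_self).le
  have f1 := g1 L hL (Zf h) t0 (lcO h) (b0N N h) 0 (g3.trans (hup (by omega)))
    (g5.trans (hup (by omega))) (g4.trans (hup (by omega))) hb (Nat.zero_le _)
  have f2 := g2 L hL (Zf h) t0 (lcO h) (b0N N h) (pN N h) 0 hp (Nat.zero_le _)
  change 2 * cPad h + 40 * ((cpZ Zf N t0 h).cF (EE h) (II h) + 0) + 30 ≤ fuc c' k r' 3 L at f1
  change (cpZ Zf N t0 h).dF (pN N h) (EE h) + 0 + 1 ≤ L at f2
  generalize (cpZ Zf N t0 h).cF (EE h) (II h) = q at f1 ⊢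
  generalize (cpZ Zf N t0 h).dF (pN N h) (EE h) = q' at f2 ⊢
  generalize fuc c' k r' 3 L = q'' at f1 ⊢
  refine ⟨?_, ?_, ?_⟩ <;> omega

/-- **the root**: fuel and depth, in the form of `ProgTop901.RootClaim` and of `Main901.runPL_main` -/
theorem root_num (N t0 : ℕ) : ∃ c r : ℕ, ∀ c' r' k : ℕ, c ≤ c' → r ≤ r' → ∀ᶠ h : ℕ in atTop,
    ∀ L : ℕ, Nat.clog 2 L = h →
      2 * cPad h + 40 * (cpN N t0 h).cF (EE h) (II h) + 30 ≤ fuc c' k r' 3 L ∧
      (cpN N t0 h).cF (EE h) (II h) ≤ fuc c' k r' 3 L ∧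
      (cpN N t0 h).dF (pN N h) (EE h) + 1 ≤ L := root_numZ pQ_Zc N t0

open Crest.Agent.R288.Asm331 Crest.Agent.R288.Asm12 Crest.Agent.R288.Front327 Crest.Agent.R288.Top791 in
/-- the root at `cfgO`, any `Zf` of class `PQ` -/
theorem root_numZO {Zf : ℕ → ℕ} (hZ : PQ Zf) (N t0 : ℕ) : ∃ c r : ℕ, ∀ c' r' k : ℕ, c ≤ c' →
    r ≤ r' → Ev fun x y ε =>
      (cpZ Zf N t0 (hh x y ε)).cF (cfgO x y ε).P.E (cfgO x y ε).I ≤
        fuc c' k r' 3 (inp x y ε).length ∧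
      (cpZ Zf N t0 (hh x y ε)).dF (pN N (hh x y ε)) (cfgO x y ε).P.E + 1 ≤
        (inp x y ε).length := by
  obtain ⟨c, r, h⟩ := root_numZ hZ N t0
  refine ⟨c, r, fun c' r' k hc hr => ?_⟩
  exact Ev.of (h c' r' k hc hr) fun x y ε _ hP => (hP _ rfl).2

open Crest.Agent.R288.Asm331 Crest.Agent.R288.Asm12 Crest.Agent.R288.Front327 Crest.Agent.R288.Top791 in
/-- **the root at `cfgO`** : the last two conjuncts of `ProgTop901.RootClaim` -/
theorem root_numO (N t0 : ℕ) : ∃ c r : ℕ, ∀ c' r' k : ℕ, c ≤ c' → r ≤ r' →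
    Ev fun x y ε =>
      (cpN N t0 (hh x y ε)).cF (cfgO x y ε).P.E (cfgO x y ε).I ≤
        fuc c' k r' 3 (inp x y ε).length ∧
      (cpN N t0 (hh x y ε)).dF (pN N (hh x y ε)) (cfgO x y ε).P.E + 1 ≤ (inp x y ε).length :=
  root_numZO pQ_Zc N t0

end Crest.Agent.R288.RootNum589
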