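import Mathlib
import Crest.Agent.R288.InitHE_663
import Crest.Agent.R288.PrgG_966
import Crest.Agent.R288.ProgTop_901
import Crest.Agent.R288.PgM_726
import Crest.Agent.R288.RootNum_589
import Crest.Agent.R288.HypL_200
import Crest.Agent.R288.HypA_275

/-!
# R288 (S0433), [PROG] P3: the claim of index `0` at the configuration

**`initO`** : `InitOk` of helper726 for the program of helper966, in every machine environment of
the input, on every tape (`Env` as only further hypothesis).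
-/

set_option autoImplicit false

namespace Crest.Agent.R288.InitO663

open Filter
open Crest.Agent.R295.Rnd627 Crest.Agent.R288.InitS663 Crest.Agent.R288.InitR663
open Crest.Agent.R288.InitZ663 Crest.Agent.R288.InitK663 Crest.Agent.R288.InitJ663
open Crest.Agent.R288.InitHE663 Crest.Agent.R288.PuV772 Crest.Agent.R288.PrgG966
open Crest.Agent.R295.Pt949 Crest.Agent.R288.PrK690 Crest.Agent.R288.Pgb578
open Crest.Agent.R288.Par806 Crest.Agent.R288.ParO331 Crest.Agent.R288.PadK901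
open Crest.Agent.R288.Phe940 (Prg Wld Rz Rq Rqs wld)
open Crest.Agent.R288.Pl726 Crest.Agent.R288.Top791 Crest.Agent.R288.Asm331
open Crest.Agent.R288.Asm12 (hh Num)
open Crest.Agent.R288.PltT365 (v0 tapeW tapeD)
open Crest.Agent.R288.HypL200 (lcO laN lfN lgN)
open Crest.Agent.R288.PgK726 (InitOk)
open Crest.Agent.R288.HypA275 (cxOf)
open Crest.Agent.R288.ProgTop901 (fR)
open Crest.Agent.R288.RootNum589 (cpN pN b0N Zc cL N_le ev_lcO index0)
open Crest.Agent.R288.InitE776 Crest.Agent.R288.InitD654 Crest.Agent.R288.CpU776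
open Crest.Agent.R288.Alg45 (St)
open Crest.Agent.R288.PgY583 (arS qX qU)
open Crest.Agent.R288.Dom20 (Dom Om mem_Om)

/-- the data of the run (as in ProgZ_578) -/
noncomputable def cx (x y : List ℕ) (ε : ℚ) (τ : ℕ → ℕ) : Pgc578.Cx :=
  cxOf (cfgO x y ε) (laN x y (hh x y ε)) (lfN x y (hh x y ε)) (lgN x y (hh x y ε)) τ

/-- the world of the run (as in ProgZ_578) -/
noncomputable def wl (G : Prg) (x y : List ℕ) (ε : ℚ) (τ : ℕ → ℕ) (pe : PEnv) : Wld :=
  wld pe (2 ^ tapeW x y ε) τ G.a1 G.a2 (tapeD fR x y ε)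

theorem wl_eq (x y : List ℕ) (ε : ℚ) (τ : ℕ → ℕ) (pe : PEnv) : wl progG x y ε τ pe =
    wld pe (2 ^ tapeW x y ε) τ progG.a1 progG.a2 (tapeD (PgW155.fW rW) x y ε) := rfl

theorem cx_X (x y : List ℕ) (ε : ℚ) (τ : ℕ → ℕ) : (cx x y ε τ).X = (cfgO x y ε).X τ := rfl

/-- cost of index `0` -/
theorem index0Y (N t0 : ℕ) : ∀ᶠ h : ℕ in atTop, ∀ K : KI, parK K = InitN775.par (gI h) (DI h) (mI h) →
    ∀ i d : ℕ, i ≤ II h → d ≤ nn h * i / gI h + 1 →
      (nn h * i + 4) * (CE K (lcO h) d + 1) + N ≤ b0N N h * (cpN N t0 h).Y ^ i := by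
  filter_upwards [Classical.choose_spec (cE_ev (cL N)), ev_lcO N, dmOk_331] with h h1 h3 h4 K hK
    i d hi hd
  have h5 := N_le N h
  have hY : 2 ^ nn h ≤ (cpN N t0 h).Y :=
    two_pow_le_Y (parOf h) (Zc h) t0 (lcO h) (II h) (b0N N h)
  exact h1 _ _ h4 K hK (lcO h) i _ d N h3 h5 (hi.trans (Nat.le_add_right _ _)) hY hd

/-- everything needed of the height -/
structure IOk (N h : ℕ) : Prop where
  hen : HEN h
  uhn : UHN h
  wok : PgW155.WOk h
  cost : ∀ K : KI, parK K = InitN775.par (gI h) (DI h) (mI h) →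
    ∀ i d : ℕ, i ≤ II h → d ≤ nn h * i / gI h + 1 →
      (nn h * i + 4) * (CE K (lcO h) d + 1) + N ≤ b0N N h * (cpN N 16 h).Y ^ i
  fuel : ∀ K : KI, parK K = InitN775.par (gI h) (DI h) (mI h) →
    ∀ i d : ℕ, i ≤ II h → d ≤ nn h * i / gI h + 1 →
      fu K d + N ≤ (cpN N 16 h).dX (pN N h) 0

theorem ev_IOk (N : ℕ) : ∀ᶠ h : ℕ in atTop, IOk N h := by
  filter_upwards [ev_HEN, ev_UHN, PgW155.ev_WOk, index0Y N 16, index0 N 16] with h h1 h2 h3 h4 h5
  exact ⟨h1, h2, h3, h4, fun K hK i d hi hd => (h5 K hK i d hi hd).2⟩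

/-- **the claim of index `0`** -/
theorem initOk_cfg {N : ℕ} (hN2 : 2 ≤ N) {x y : List ℕ} {ε : ℚ} (hN : Num x y ε)
    (hI : IOk N (hh x y ε)) {τ : ℕ → ℕ} {pe : PEnv} (hin : PIn x y ε pe) {Z : ℕ}
    (env : Env (wl progG x y ε τ pe) (konO (v0 x y ε)) Z) :
    InitOk (cx x y ε τ) progG (wl progG x y ε τ pe) (konO (v0 x y ε)) (b0N N (hh x y ε))
      ((cpN N 16 (hh x y ε)).dX (pN N (hh x y ε)) 0) (cpN N 16 (hh x y ε)).Y := by
  have env' : Env (wld pe (2 ^ tapeW x y ε) τ progG.a1 progG.a2 (tapeD (PgW155.fW rW) x y ε))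
    (konO (v0 x y ε)) Z := env
  have H : HE progG (wld pe (2 ^ tapeW x y ε) τ progG.a1 progG.a2 (tapeD (PgW155.fW rW) x y ε))
      (jn (konO (v0 x y ε))) (klen (konO (v0 x y ε))) (dlP (konO (v0 x y ε))) 1
      (kiH (konO (v0 x y ε))) x y (HH (hh x y ε) + 3) (2 ^ HH (hh x y ε))
      ((HH (hh x y ε) + 3) * 2 ^ (HH (hh x y ε) + 3)) (lcO (hh x y ε)) :=
    he_cfg hN hin hI.hen progG_δ (fun ph a L rs => (dlP_frE _ _ _ _ _).trans (hE_frE _ _ _ _ _ _).symm)
      env' (Nat.two_pow_pos _) (EnvK901.N_le hin (τ := τ) (a1 := 0) (a2 := 0) (R := 0))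
  have hd : ∀ i, (nn (hh x y ε) * i - 1) / gI (hh x y ε) + 1 ≤
      nn (hh x y ε) * i / gI (hh x y ε) + 1 := fun i =>
    Nat.add_le_add_right (Nat.div_le_div_right (Nat.sub_le _ _)) 1
  have hb : ∀ z, progG.base (fr (konO (v0 x y ε)) 2 (arS 0 0 z) []) = 0 := fun z =>
    base_ne _ (by norm_num) _ _
  have hn : ∀ i ≤ II (hh x y ε), fuI (konO (v0 x y ε)) i ≤
      (cpN N 16 (hh x y ε)).dX (pN N (hh x y ε)) 0 := fun i hi =>
    by
      have h1 := hI.fuel (kiH (konO (v0 x y ε))) rfl i _ hi (hd i)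
      unfold fuI
      rw [show hK (konO (v0 x y ε)) = hh x y ε from rfl]
      omega
  have R := rx_cfg (c := coI (konO (v0 x y ε)) (lcO (hh x y ε))) hin hI.uhn hI.wok env' H
    (has_U _) hb hn (fun i _ => le_rfl)
  intro z hz
  have hzD : Dom (cfgO x y ε).P (cfgO x y ε).I z := hz
  have hzi : z.i ≤ II (hh x y ε) := Dom20.Dom.i_le hzD
  have R0 := R 0 z (mem_Om.2 ⟨Nat.zero_le _, hzD⟩)
  rw [show qX 0 0 z = qU z from rfl] at R0
  have R1 : Rq progG (wl progG x y ε τ pe) ((cpN N 16 (hh x y ε)).dX (pN N (hh x y ε)) 0)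
    (wrapQ (konO (v0 x y ε)) (qU z)) (.ret [(cx x y ε τ).X 0 (0, z)])
    (coI (konO (v0 x y ε)) (lcO (hh x y ε)) z.i) := by
    rw [wl_eq, cx_X]
    exact R0
  have h2 : coI (konO (v0 x y ε)) (lcO (hh x y ε)) z.i ≤
      b0N N (hh x y ε) * (cpN N 16 (hh x y ε)).Y ^ z.i := by
    have h1 := hI.cost (kiH (konO (v0 x y ε))) rfl z.i _ hzi (hd z.i)
    unfold coI
    rw [show hK (konO (v0 x y ε)) = hh x y ε from rfl]
    omega
  exact Exists.intro _ (Exists.intro _ (And.intro R1 (And.intro (Nat.le_refl _) h2)))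

/-- **[PROG] conjunct (3) of helper578's `Run`** -/
theorem initO {N : ℕ} (hN2 : 2 ≤ N) : Ev fun x y ε => ∀ τ pe, PIn x y ε pe → ∀ Z,
    Env (wl progG x y ε τ pe) (konO (v0 x y ε)) Z →
      InitOk (cx x y ε τ) progG (wl progG x y ε τ pe) (konO (v0 x y ε)) (b0N N (hh x y ε))
        ((cpN N 16 (hh x y ε)).dX (pN N (hh x y ε)) 0) (cpN N 16 (hh x y ε)).Y :=
  Ev.of (ev_IOk N) fun _ _ _ hN hI _ _ hin _ env => initOk_cfg hN2 hN hI hin env

end Crest.Agent.R288.InitO663
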