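import Crest.Agent.R288.ProgZ_578
import Crest.Agent.R288.PuV_772
import Crest.Agent.R288.InitHE_663
import Crest.Agent.R288.PrgG_966
import Crest.Agent.R288.EnvK_901
import Crest.Agent.R288.HypN_53

/-!
# R288, [PROG] `InitOk` at `cfgO` (helper726): conjunct (3) of `ProgZ578.Run`
-/

set_option autoImplicit false
set_option maxHeartbeats 400000

namespace Crest.Agent.R288.InitO726

open Filter
open Crest.Agent.R295 HL Pt949 Crest.Agent.R295.Rnd627 Crest.Agent.R288.Pl726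
open Crest.Agent.R288.Phe940 Crest.Agent.R288.Top791 Crest.Agent.R288.Front327
open Crest.Agent.R288.Shell12 Crest.Agent.R288.Alg45
open Crest.Agent.R288.Asm12 (hh)
open Crest.Agent.R288.Pgb578 (Ar Svd fr fr0 Cz Has Env)
open Crest.Agent.R288.PadK901 Crest.Agent.R288.Main901 Crest.Agent.R288.Asm331
open Crest.Agent.R288.PltT365 (tapeW tapeD RunPL v0)
open Crest.Agent.R288.ProgTop901 (fR)
open Crest.Agent.R288.PgY583 (arS qX qU)
open Crest.Agent.R288.Pgc578 (Cx)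
open Crest.Agent.R288.PgK726 (InitOk)
open Crest.Agent.R288.HypA275 (cxOf)
open Crest.Agent.R288.HypL200 (lcO)
open Crest.Agent.R288.RootNum589
open Crest.Agent.R288.Par806 Crest.Agent.R288.ParO331 Crest.Agent.R288.Dom20
open Crest.Agent.R288.InitN775 Crest.Agent.R288.InitZ663 Crest.Agent.R288.InitW663
open Crest.Agent.R288.InitS663 Crest.Agent.R288.InitQ663 Crest.Agent.R288.InitK663
open Crest.Agent.R288.PuV772 Crest.Agent.R288.ProgZ578
open Crest.Agent.R288.PrK690 (jn wrapK)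
open Crest.Agent.R288.InitE776 Crest.Agent.R288.InitD654 Crest.Agent.R288.CpU776
open Crest.Agent.R288.PrgG966 Crest.Agent.R288.HypN53

/-- index `0`: the bound of `InitOk` -/
theorem index0Y (N t0 : ℕ) : ∀ᶠ h : ℕ in atTop, ∀ K : KI, parK K = par (gI h) (DI h) (mI h) →
    ∀ i d : ℕ, i ≤ II h → d ≤ nn h * i / gI h + 1 →
      (nn h * i + 4) * (CE K (lcO h) d + 1) + N ≤ b0N N h * (cpN N t0 h).Y ^ i ∧
      fu K d + N ≤ (cpN N t0 h).dX (pN N h) 0 := by
  filter_upwards [Classical.choose_spec (cE_ev (cL N)), index0 N t0,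
    ev_lcO N, dmOk_331] with h h1 h2 h3 h4 K hK i d hi hd
  have h5 := N_le N h
  have hY : 2 ^ nn h ≤ (cpN N t0 h).Y :=
    two_pow_le_Y (parOf h) (Zc h) t0 (lcO h) (II h) (b0N N h)
  exact ⟨h1 _ _ h4 K hK (lcO h) i _ d N h3 h5 (hi.trans (Nat.le_add_right _ _)) hY hd,
    (h2 K hK i d hi hd).2⟩

/-- **conjunct (3) of `Run`** (every tape) -/
theorem initO {N : ℕ} (hN2 : 2 ≤ N) {cS kS rS : ℕ}
    (hS : ∀ᶠ h : ℕ in atTop, ∀ L : ℕ, Nat.clog 2 L = h →
      16 * (Zn h + 2) ^ 2 ≤ og cS kS rS 3 L ∧ og cS kS rS 3 L ≤ L) :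
    Ev fun x y ε => ∀ τ : ℕ → ℕ, ∀ pe, PIn x y ε pe →
      pe.S = og cS kS rS 3 (inp x y ε).length →
      InitOk (cx x y ε τ) progG (wl progG x y ε τ pe) (konO (v0 x y ε)) (b0N N (hh x y ε))
        ((cpN N 16 (hh x y ε)).dX (pN N (hh x y ε)) 0) (cpN N 16 (hh x y ε)).Y := by
  refine Ev.of (((ev_UHN.and PgW155.ev_WOk).and InitHE663.ev_HEN).and (hS.and (index0Y N 16))) ?_
  rintro x y ε hN ⟨⟨⟨hU, hW⟩, hH⟩, hS, hI⟩ τ pe hin hpS z hz
  obtain ⟨h16, hL⟩ := hS _ rfl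
  have hE : Pgb578.Env (wl progG x y ε τ pe) (konO (v0 x y ε)) (Zn (hh x y ε)) :=
    EnvK901.env_konO hin (a1 := progG.a1) (by rw [progG_a1]; norm_num) hpS hL (by unfold Zn; omega) h16
  have H1 := InitHE663.he_cfg (G := progG) (dl := dlP) hN hin hH progG_δ
    (fun ph a L rs => (dlP_frE _ ph a L rs).trans (hE_frE ..).symm) hE
    (Nat.two_pow_pos _) hin.R
  have key := rx_cfg hin hU hW hE H1 (has_U _) (fun z => base_ne _ (by norm_num) _ _)
    (n := (cpN N 16 (hh x y ε)).dX (pN N (hh x y ε)) 0)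
    (c := fun i => b0N N (hh x y ε) * (cpN N 16 (hh x y ε)).Y ^ i) ?_ ?_
  · have hm : (0, z) ∈ Om (cfgO x y ε).P (cfgO x y ε).I (cfgO x y ε).K0 :=
      mem_Om.2 ⟨Nat.zero_le _, hz⟩
    have k1 := key 0 z hm
    have e1 : qX 0 0 z = qU z := rfl
    rw [e1] at k1
    have e2 : (cx x y ε τ).X = (cfgO x y ε).X τ := by unfold cx cxOf; rfl
    rw [e2]
    have e3 : wl progG x y ε τ pe = wld pe (2 ^ tapeW x y ε) τ progG.a1 progG.a2
      (tapeD (PgW155.fW rW) x y ε) := rfl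
    rw [e3]
    exact ⟨_, _, k1, le_refl _, le_refl _⟩
  · intro i hi
    obtain ⟨-, h1⟩ := hI (kiH (konO (PltT365.v0 x y ε))) rfl i
      ((nn (hh x y ε) * i - 1) / gI (hh x y ε) + 1) hi
      (Nat.add_le_add_right (Nat.div_le_div_right (Nat.sub_le _ _)) 1)
    exact le_trans (Nat.add_le_add_left hN2 _) h1
  · intro i hi
    obtain ⟨h1, -⟩ := hI (kiH (konO (PltT365.v0 x y ε))) rfl i
      ((nn (hh x y ε) * i - 1) / gI (hh x y ε) + 1) hi
      (Nat.add_le_add_right (Nat.div_le_div_right (Nat.sub_le _ _)) 1)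
    exact le_trans (Nat.add_le_add_left hN2 _) h1

end Crest.Agent.R288.InitO726
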