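import Crest.Agent.R288.InitC_772

/-!
# R288 (S0433), leaf [Init], the top loop: scale search for the estimator of `ic Ef u`

`T κ z : RT (ℤ → ℕ)` = tables at scale `2 ^ κ` on the window `z` (`Init772.Par.GoodC` with
probability `≥ 1 - δ`). For the scales `κ = 0, …, h + 2` the inf-convolution over the three
windows around `u` is computed (`sc`, list `scs`); `sel` takes the first scale at which it is below
half the cap, inflates and rounds down: `top`.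

* `top_le`: `top ≤ 2 ^ h` always;
* **`top_good`**: `ic Ef u ≤ top ≤ (1 + 64 / 2 ^ τ) ic Ef u` with probability
  `≥ 1 - 3 (h + 3) δ`.
-/

set_option autoImplicit false

namespace Crest.Agent.R288.InitT775

open Finset Crest.Agent.R295.Rnd627 Crest.Agent.R295.Rnd627.RT Crest.Agent.R288.Init772

variable (P : Par)

/-- rounding down to the grid of the scale -/
def rd (κ : ℕ) (u : ℤ) : ℤ := P.st κ * (u / P.st κ)

/-- the value of the inf-convolution at one scale -/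
def sc (T : ℕ → ℤ → RT (ℤ → ℕ)) (u : ℤ) (κ : ℕ) : RT ℕ :=
  (wins (fun c => T κ (u / 2 ^ κ - 1 + c)) 3).map fun F =>
    P.icg κ (Par.big κ (u / 2 ^ κ - 1) F) (rd P κ u)

/-- the values at the scales `0, …, n - 1` -/
def scs (T : ℕ → ℤ → RT (ℤ → ℕ)) (u : ℤ) : ℕ → RT (List ℕ)
  | 0 => ret []
  | n + 1 => (scs T u n).bind fun L => (sc P T u n).map fun x => L ++ [x]

/-- the search stops -/
def stop (κ g : ℕ) : Prop := if κ = 0 then g = 0 else 2 * g < P.cap κ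

instance (κ g : ℕ) : Decidable (stop P κ g) := by unfold stop; infer_instance

/-- the inflated value, rounded down -/
def vl (τ : ℕ) (u : ℤ) (κ g : ℕ) : ℕ :=
  if κ = 0 then 0 else
    (g + g / 2 ^ τ + P.cap κ / 2 ^ τ + 2 + 2 ^ P.s * (u - rd P κ u).natAbs) / 2 ^ P.s

/-- the value of the first scale `≥ κ` (among `n`) at which the search stops; `D` = default -/
def sel (τ : ℕ) (u : ℤ) (D : ℕ) (G : ℕ → ℕ) : ℕ → ℕ → ℕ
  | 0, _ => D
  | n + 1, κ => if stop P κ (G κ) then vl P τ u κ (G κ) else sel τ u D G n (κ + 1)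

/-- the estimate of `ic Ef u` -/
def top (τ : ℕ) (T : ℕ → ℤ → RT (ℤ → ℕ)) (h : ℕ) (u : ℤ) : RT ℕ :=
  (scs P T u (h + 3)).map fun L => min (2 ^ h) (sel P τ u (2 ^ h) (fun κ => L.getD κ 0) (h + 3) 0)

theorem top_le {M : ℕ} (τ : ℕ) (T : ℕ → ℤ → RT (ℤ → ℕ)) (h : ℕ) (u : ℤ) :
    (top P τ T h u).All M fun x => x ≤ 2 ^ h := by
  unfold top RT.map
  rw [All_bind]
  exact All.of_forall fun L => (min_le_left _ _ : min (2 ^ h) _ ≤ 2 ^ h)

/-! ### rounding -/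

theorem rd_le (κ : ℕ) (u : ℤ) : rd P κ u ≤ u := by
  unfold rd
  have h1 : (0 : ℤ) < P.st κ := by exact_mod_cast P.st_pos κ
  exact Int.mul_ediv_self_le h1.ne'

theorem lt_rd (κ : ℕ) (u : ℤ) : u < rd P κ u + P.st κ := by
  unfold rd
  have h1 : (0 : ℤ) < P.st κ := by exact_mod_cast P.st_pos κ
  have h2 := Int.lt_mul_ediv_self_add (x := u) h1
  linarith

theorem dvd_rd (κ : ℕ) (u : ℤ) : (P.st κ : ℤ) ∣ rd P κ u := dvd_mul_right _ _

theorem st_dvd_pow (κ : ℕ) : (P.st κ : ℤ) ∣ 2 ^ κ := by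
  have h := P.st_mul κ
  exact ⟨2 ^ P.mu κ, by exact_mod_cast h.symm⟩

/-- the rounded point is in the same window -/
theorem le_rd (κ : ℕ) (u : ℤ) : 2 ^ κ * (u / 2 ^ κ) ≤ rd P κ u := by
  have h1 : (0 : ℤ) < P.st κ := by exact_mod_cast P.st_pos κ
  have h2 : (0 : ℤ) < 2 ^ κ := by positivity
  obtain ⟨m, hm⟩ := st_dvd_pow P κ
  have h3 : 2 ^ κ * (u / 2 ^ κ) = P.st κ * (m * (u / 2 ^ κ)) := by rw [hm]; ring
  rw [h3]
  unfold rd
  apply mul_le_mul_of_nonneg_left _ h1.le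
  rw [Int.le_ediv_iff_mul_le h1, mul_comm, ← h3]
  exact Int.mul_ediv_self_le h2.ne'

theorem rd_lt (κ : ℕ) (u : ℤ) : rd P κ u < 2 ^ κ * (u / 2 ^ κ + 1) := by
  have h2 : (0 : ℤ) < 2 ^ κ := by positivity
  have h3 := Int.lt_mul_ediv_self_add (x := u) h2
  have := rd_le P κ u
  rw [mul_add, mul_one]
  linarith

/-- the rounding error -/
theorem natAbs_rd_le (κ : ℕ) (u : ℤ) {θ : ℝ} (hσ : (1 : ℝ) ≤ θ * 2 ^ P.σ) :
    ((u - rd P κ u).natAbs : ℝ) ≤ θ * 2 ^ κ := by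
  have h1 := rd_le P κ u
  have h2 := lt_rd P κ u
  have hθ : 0 ≤ θ := by
    by_contra h
    have : θ * 2 ^ P.σ ≤ 0 := mul_nonpos_of_nonpos_of_nonneg (not_le.1 h).le (by positivity)
    linarith
  rcases le_or_gt κ P.σ with h | h
  · have h3 : P.st κ = 1 := by unfold Par.st; rw [Nat.sub_eq_zero_of_le h, pow_zero]
    have h4 : (u - rd P κ u).natAbs = 0 := by rw [h3] at h2; push_cast at h2; omega
    rw [h4]
    push_cast
    positivity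
  · have h3 : (u - rd P κ u).natAbs ≤ P.st κ := by omega
    have h4 : ((u - rd P κ u).natAbs : ℝ) ≤ P.st κ := by exact_mod_cast h3
    refine h4.trans ?_
    have h5 : (2 : ℝ) ^ κ = 2 ^ P.σ * 2 ^ (κ - P.σ) := by rw [← pow_add]; congr 1; omega
    have h6 : ((P.st κ : ℕ) : ℝ) = 2 ^ (κ - P.σ) := by unfold Par.st; push_cast; rfl
    rw [h6, h5, ← mul_assoc]
    exact le_mul_of_one_le_left (by positivity) hσ

/-! ### one scale -/

section one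

variable {T : ℕ → ℤ → RT (ℤ → ℕ)} {κ : ℕ} {u : ℤ} {Ef : ℤ → ℕ} {ε η β δ : ℝ}

/-- good tables give a good value -/
theorem sc_bounds (hε : 0 ≤ ε) (hη : 0 ≤ η) (hβ0 : 0 ≤ β) (hε1 : ε ≤ 1)
    (hL : ∀ w w' : ℤ, Ef w ≤ Ef w' + 2 ^ P.g * (w - w').natAbs)
    (hβ : ((2 ^ P.g : ℕ) : ℝ) ≤ β * 2 ^ P.σ)
    {F : ℕ → ℤ → ℕ} (hF : ∀ c : ℕ, c < 3 → P.GoodC ε η κ Ef (u / 2 ^ κ - 1 + c) (F c)) :
    (κ = 0 → P.rv (P.icg κ (Par.big κ (u / 2 ^ κ - 1) F) (rd P κ u)) = min 1 (ic Ef u : ℝ)) ∧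
    min (2 ^ κ) ((1 - ε) * ic Ef (rd P κ u) - η * 2 ^ κ) ≤
        P.rv (P.icg κ (Par.big κ (u / 2 ^ κ - 1) F) (rd P κ u)) ∧
      P.rv (P.icg κ (Par.big κ (u / 2 ^ κ - 1) F) (rd P κ u)) ≤
        (1 + ε) * ic Ef (rd P κ u) + (η + 2 * β) * 2 ^ κ := by
  set u' := rd P κ u with hu'
  have hp' : (0 : ℤ) < 2 ^ κ := by positivity
  have hu1 := le_rd P κ u
  have hu2 := rd_lt P κ u
  rw [← hu'] at hu1 hu2
  have hB : ∀ (ε' η' : ℝ), (∀ c : ℕ, c < 3 → P.Good ε' η' κ Ef (u / 2 ^ κ - 1 + c) (F c)) →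
      ∀ w : ℤ, |w - u'| ≤ 2 ^ κ → (P.st κ : ℤ) ∣ w - u' →
      min (2 ^ κ) ((1 - ε') * Ef w - η' * 2 ^ κ) ≤ P.rv (Par.big κ (u / 2 ^ κ - 1) F w) ∧
        P.rv (Par.big κ (u / 2 ^ κ - 1) F w) ≤ (1 + ε') * Ef w + η' * 2 ^ κ := by
    intro ε' η' hG w hw1 hw2
    rw [abs_le] at hw1
    apply P.good_big hG
    · rw [mul_sub, mul_one]
      linarith [hw1.1]
    · have : (2 : ℤ) ^ κ * (u / 2 ^ κ - 1 + ((3 : ℕ) : ℤ)) = 2 ^ κ * (u / 2 ^ κ + 1) + 2 ^ κ := by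
        push_cast; ring
      rw [this]
      linarith [hw1.2]
    · have h2 : w = (w - u') + u' := by ring
      rw [h2]
      exact dvd_add hw2 (dvd_rd P κ u)
  have hst : ∀ κ', ((2 ^ P.g : ℕ) : ℝ) * ((P.st κ' - 1 : ℕ) : ℝ) ≤ β * 2 ^ κ' := by
    intro κ'
    rcases le_or_gt κ' P.σ with h | h
    · have : P.st κ' = 1 := by unfold Par.st; rw [Nat.sub_eq_zero_of_le h, pow_zero]
      rw [this]
      simp only [Nat.sub_self, Nat.cast_zero, mul_zero]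
      positivity
    · have h1 : ((P.st κ' - 1 : ℕ) : ℝ) ≤ 2 ^ (κ' - P.σ) := by
        have : P.st κ' - 1 ≤ 2 ^ (κ' - P.σ) := Nat.sub_le _ _
        exact_mod_cast this
      have h2 : (2 : ℝ) ^ κ' = 2 ^ P.σ * 2 ^ (κ' - P.σ) := by rw [← pow_add]; congr 1; omega
      calc ((2 ^ P.g : ℕ) : ℝ) * ((P.st κ' - 1 : ℕ) : ℝ) ≤ (β * 2 ^ P.σ) * 2 ^ (κ' - P.σ) :=
            mul_le_mul hβ h1 (Nat.cast_nonneg _) (by positivity)
        _ = β * 2 ^ κ' := by rw [h2]; ring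
  have hf0 : (0 : ℝ) ≤ ic Ef u' := Nat.cast_nonneg _
  by_cases h0 : κ = 0
  · have hG : ∀ c : ℕ, c < 3 → P.Good 0 0 κ Ef (u / 2 ^ κ - 1 + c) (F c) := by
      intro c hc
      have := hF c hc
      unfold Par.GoodC at this
      rwa [if_pos h0, if_pos h0] at this
    have hB' := hB 0 0 hG
    have hlow := P.icg_lower (κ := κ) (B := Par.big κ (u / 2 ^ κ - 1) F) (u := u') (Ef := Ef)
      (ε := 0) (η := 0) le_rfl zero_le_one (fun w h1 h2 => (hB' w h1 h2).1)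
    have hup := P.icg_upper (κ := κ) (B := Par.big κ (u / 2 ^ κ - 1) F) (u := u') (Ef := Ef)
      (b := 2 ^ P.g) (ε := 0) (η := 0) (β := 0) le_rfl zero_le_one le_rfl le_rfl hL
      (by rw [h0]; unfold Par.st; simp) (fun w h1 h2 => (hB' w h1 h2).2)
    have hcap := P.icg_le_cap (κ := κ) (B := Par.big κ (u / 2 ^ κ - 1) F) (u := u')
    set gg := P.rv (P.icg κ (Par.big κ (u / 2 ^ κ - 1) F) u') with hgg
    simp only [sub_zero, one_mul, zero_mul, add_zero, mul_zero] at hlow hup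
    have huu : u' = u := by
      have h1 := rd_le P κ u
      have h2 := lt_rd P κ u
      have h3 : P.st κ = 1 := by rw [h0]; unfold Par.st; simp
      rw [h3] at h2
      push_cast at h2
      omega
    refine ⟨fun _ => ?_, ?_, ?_⟩
    · rw [huu] at hlow hup
      have hk1 : (2 : ℝ) ^ κ = 1 := by rw [h0, pow_zero]
      rw [hk1] at hlow hcap
      exact le_antisymm (le_min hcap hup) hlow
    · refine le_trans (min_le_min le_rfl ?_) hlow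
      have : (0 : ℝ) ≤ 2 ^ κ := by positivity
      nlinarith [mul_nonneg hε hf0, mul_nonneg hη this]
    · refine hup.trans ?_
      have : (0 : ℝ) ≤ 2 ^ κ := by positivity
      nlinarith [mul_nonneg hε hf0, mul_nonneg hη this, mul_nonneg hβ0 this]
  · have hG : ∀ c : ℕ, c < 3 → P.Good ε η κ Ef (u / 2 ^ κ - 1 + c) (F c) := by
      intro c hc
      have := hF c hc
      unfold Par.GoodC at this
      rwa [if_neg h0, if_neg h0] at this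
    have hB' := hB ε η hG
    exact ⟨fun h => absurd h h0,
      P.icg_lower (κ := κ) (B := Par.big κ (u / 2 ^ κ - 1) F) (u := u') (Ef := Ef)
        hε hε1 (fun w h1 h2 => (hB' w h1 h2).1),
      P.icg_upper (κ := κ) (B := Par.big κ (u / 2 ^ κ - 1) F) (u := u') (Ef := Ef)
        (b := 2 ^ P.g) hε hε1 hη hβ0 hL (hst κ) (fun w h1 h2 => (hB' w h1 h2).2)⟩

/-- the value `g` at the scale `κ` is good -/
def GoodV (ε η β : ℝ) (Ef : ℤ → ℕ) (u : ℤ) (κ g : ℕ) : Prop :=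
  (κ = 0 → P.rv g = min 1 (ic Ef u : ℝ)) ∧
    min (2 ^ κ) ((1 - ε) * ic Ef (rd P κ u) - η * 2 ^ κ) ≤ P.rv g ∧
      P.rv g ≤ (1 + ε) * ic Ef (rd P κ u) + (η + 2 * β) * 2 ^ κ

variable {M : ℕ}

theorem sc_good (hM : 0 < M) (hδ : 0 ≤ δ) (hε : 0 ≤ ε) (hη : 0 ≤ η) (hβ0 : 0 ≤ β) (hε1 : ε ≤ 1)
    (hL : ∀ w w' : ℤ, Ef w ≤ Ef w' + 2 ^ P.g * (w - w').natAbs)
    (hβ : ((2 ^ P.g : ℕ) : ℝ) ≤ β * 2 ^ P.σ)
    (hT : ∀ z, (T κ z).Pr M (fun F => ¬ P.GoodC ε η κ Ef z F) ≤ δ) :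
    (sc P T u κ).Pr M (fun g => ¬ GoodV P ε η β Ef u κ g) ≤ 3 * δ := by
  unfold sc
  rw [Pr_map]
  have h := Pr_wins hM (fun c => T κ (u / 2 ^ κ - 1 + c))
    (fun c F => P.GoodC ε η κ Ef (u / 2 ^ κ - 1 + c) F) hδ 3 (fun c _ => hT _)
  refine le_trans (Pr_mono fun F hF => ?_) (h.trans (le_of_eq (by push_cast; ring)))
  intro hG
  exact hF (sc_bounds P hε hη hβ0 hε1 hL hβ hG)

theorem scs_good (hM : 0 < M) (hδ : 0 ≤ δ) (hε : 0 ≤ ε) (hη : 0 ≤ η) (hβ0 : 0 ≤ β) (hε1 : ε ≤ 1)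
    (hL : ∀ w w' : ℤ, Ef w ≤ Ef w' + 2 ^ P.g * (w - w').natAbs)
    (hβ : ((2 ^ P.g : ℕ) : ℝ) ≤ β * 2 ^ P.σ) (n : ℕ)
    (hT : ∀ κ < n, ∀ z, (T κ z).Pr M (fun F => ¬ P.GoodC ε η κ Ef z F) ≤ δ) :
    (scs P T u n).Pr M (fun L => ¬ (L.length = n ∧
      ∀ κ < n, GoodV P ε η β Ef u κ (L.getD κ 0))) ≤ n * (3 * δ) := by
  induction n with
  | zero =>
    have : (scs P T u 0).Pr M (fun L => ¬ (L.length = 0 ∧
      ∀ κ < 0, GoodV P ε η β Ef u κ (L.getD κ 0))) ≤ (scs P T u 0).Pr M (fun _ => False) :=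
      Pr_mono_all (show ¬ (([] : List ℕ).length = 0 ∧
        ∀ κ < 0, GoodV P ε η β Ef u κ (([] : List ℕ).getD κ 0)) → False from
        fun h => h ⟨rfl, fun κ hκ => absurd hκ (by omega)⟩)
    rw [Pr_false] at this
    simpa using this
  | succ n ih =>
    refine le_trans (Pr_bind_le hM (scs P T u n) _ (fun L => L.length = n ∧
      ∀ κ < n, GoodV P ε η β Ef u κ (L.getD κ 0)) _ (ih fun κ hκ => hT κ (by omega))
      (show (0 : ℝ) ≤ 3 * δ by positivity) (fun L hLL => ?_)) (le_of_eq (by push_cast; ring))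
    rw [Pr_map]
    refine le_trans (Pr_mono fun g hg => ?_)
      (sc_good P hM hδ hε hη hβ0 hε1 hL hβ (hT n (by omega)))
    intro hG
    apply hg
    obtain ⟨h1, h2⟩ := hLL
    refine ⟨by simp [h1], fun κ hκ => ?_⟩
    rcases Nat.lt_succ_iff_lt_or_eq.1 hκ with h | h
    · rw [List.getD_append _ _ _ _ (by omega)]
      exact h2 κ h
    · rw [List.getD_append_right _ _ _ _ (by omega), h, h1]
      simpa using hG

end one

/-! ### the search -/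

section search

variable {u : ℤ} {Ef : ℤ → ℕ} {ε η β : ℝ} {τ h : ℕ} {G : ℕ → ℕ}

theorem ic_rd_le (κ : ℕ) : (ic Ef (rd P κ u) : ℝ) ≤ ic Ef u + ((u - rd P κ u).natAbs : ℕ) := by
  have h1 := ic_lip Ef (rd P κ u) u
  have h2 : (rd P κ u - u).natAbs = (u - rd P κ u).natAbs := by omega
  rw [h2] at h1
  exact_mod_cast h1

theorem le_ic_rd (κ : ℕ) : (ic Ef u : ℝ) ≤ ic Ef (rd P κ u) + ((u - rd P κ u).natAbs : ℕ) := by
  have h1 := ic_lip Ef u (rd P κ u)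
  exact_mod_cast h1

/-- the inflated value in real form -/
theorem vl_real {κ g : ℕ} (hκ : κ ≠ 0) (hs : (1 : ℝ) ≤ (1 / 2 ^ τ) * 2 ^ P.s) :
    ∃ r : ℝ, vl P τ u κ g = ⌊r⌋₊ ∧
      (1 + 1 / 2 ^ τ) * P.rv g + 1 / 2 ^ τ * 2 ^ κ + ((u - rd P κ u).natAbs : ℕ) ≤ r ∧
      r ≤ (1 + 1 / 2 ^ τ) * P.rv g + 1 / 2 ^ τ * 2 ^ κ + ((u - rd P κ u).natAbs : ℕ) +
        2 * (1 / 2 ^ τ) := by
  have hp : (0 : ℝ) < 2 ^ P.s := by positivity
  have ht : (0 : ℝ) < 2 ^ τ := by positivity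
  have e0 : ∀ a : ℕ, ((a : ℝ) / 2 ^ τ) < ((a / 2 ^ τ : ℕ) : ℝ) + 1 := by
    intro a
    have h1 : a < (a / 2 ^ τ + 1) * 2 ^ τ := by
      have := Nat.lt_succ_self (a / 2 ^ τ)
      rw [mul_comm]
      exact Nat.lt_mul_div_succ a (Nat.two_pow_pos τ)
    rw [div_lt_iff₀ ht]
    exact_mod_cast h1
  have e1 : ∀ a : ℕ, ((a / 2 ^ τ : ℕ) : ℝ) ≤ (a : ℝ) / 2 ^ τ := by
    intro a
    rw [le_div_iff₀ ht]
    exact_mod_cast Nat.div_mul_le_self a (2 ^ τ)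
  refine ⟨((g + g / 2 ^ τ + P.cap κ / 2 ^ τ + 2 + 2 ^ P.s * (u - rd P κ u).natAbs : ℕ) : ℝ) / 2 ^ P.s,
    ?_, ?_, ?_⟩
  · unfold vl
    rw [if_neg hκ]
    have h1 := Nat.floor_div_eq_div (K := ℝ)
      (g + g / 2 ^ τ + P.cap κ / 2 ^ τ + 2 + 2 ^ P.s * (u - rd P κ u).natAbs) (2 ^ P.s)
    rw [← h1]
    push_cast
    rfl
  · rw [le_div_iff₀ hp]
    push_cast
    have h1 := e0 g
    have h2 := e0 (P.cap κ)
    have h3 : P.rv g * 2 ^ P.s = g := by unfold Par.rv; field_simp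
    have h4 : ((P.cap κ : ℕ) : ℝ) = 2 ^ P.s * 2 ^ κ := by unfold Par.cap; push_cast; rfl
    have h5 : ((1 + 1 / 2 ^ τ) * P.rv g + 1 / 2 ^ τ * 2 ^ κ + ((u - rd P κ u).natAbs : ℕ)) * 2 ^ P.s =
        g + g / 2 ^ τ + (2 ^ P.s * 2 ^ κ) / 2 ^ τ + 2 ^ P.s * ((u - rd P κ u).natAbs : ℕ) := by
      rw [← h3]; field_simp
    rw [h5]
    rw [h4] at h2
    linarith
  · rw [div_le_iff₀ hp]
    push_cast
    have h1 := e1 g
    have h2 := e1 (P.cap κ)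
    have h3 : P.rv g * 2 ^ P.s = g := by unfold Par.rv; field_simp
    have h4 : ((P.cap κ : ℕ) : ℝ) = 2 ^ P.s * 2 ^ κ := by unfold Par.cap; push_cast; rfl
    have h5 : ((1 + 1 / 2 ^ τ) * P.rv g + 1 / 2 ^ τ * 2 ^ κ + ((u - rd P κ u).natAbs : ℕ) +
        2 * (1 / 2 ^ τ)) * 2 ^ P.s =
        g + g / 2 ^ τ + (2 ^ P.s * 2 ^ κ) / 2 ^ τ + 2 ^ P.s * ((u - rd P κ u).natAbs : ℕ) +
          2 * (1 / 2 ^ τ * 2 ^ P.s) := by
      rw [← h3]; field_simp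
    rw [h5]
    rw [h4] at h2
    linarith

/-- the value at a scale at which the search stops, if the scale is not too large -/
theorem vl_good {κ g : ℕ} (hκ : κ ≠ 0) (hε : 0 ≤ ε) (hη : 0 ≤ η) (hβ0 : 0 ≤ β)
    (hθ : (1 : ℝ) / 2 ^ τ ≤ 1 / 16) (hε' : 2 * ε ≤ 1 / 2 ^ τ) (hη' : 2 * η ≤ 1 / 2 ^ τ)
    (hβ' : 2 * β ≤ 1 / 2 ^ τ) (hs : (1 : ℝ) ≤ (1 / 2 ^ τ) * 2 ^ P.s)
    (hσ : (1 : ℝ) ≤ (1 / 2 ^ τ) * 2 ^ P.σ)
    (hG : GoodV P ε η β Ef u κ g) (hst : stop P κ g) (hX : (2 : ℝ) ^ κ ≤ 8 * ic Ef u) :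
    ic Ef u ≤ vl P τ u κ g ∧ (vl P τ u κ g : ℝ) ≤ (1 + 64 * (1 / 2 ^ τ)) * ic Ef u := by
  obtain ⟨r, hr0, hr1, hr2⟩ := vl_real P (u := u) (g := g) (τ := τ) hκ hs
  obtain ⟨-, hG1, hG2⟩ := hG
  set θ : ℝ := 1 / 2 ^ τ with hθd
  have hθ0 : 0 < θ := by positivity
  have hk : (0 : ℝ) < 2 ^ κ := by positivity
  set f : ℝ := (ic Ef u : ℝ) with hf
  set f' : ℝ := (ic Ef (rd P κ u) : ℝ) with hf'
  have hf0 : 0 ≤ f := Nat.cast_nonneg _
  have hf0' : 0 ≤ f' := Nat.cast_nonneg _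
  have hd0 := natAbs_rd_le P κ u (θ := θ) hσ
  set d : ℝ := (((u - rd P κ u).natAbs : ℕ) : ℝ) with hd
  have hd1 : 0 ≤ d := Nat.cast_nonneg _
  have h1 : f' ≤ f + d := ic_rd_le P κ
  have h2 : f ≤ f' + d := le_ic_rd P κ
  have hgc : P.rv g < 2 ^ κ := by
    unfold stop at hst
    rw [if_neg hκ] at hst
    have h3 : (2 : ℝ) * g < P.cap κ := by exact_mod_cast hst
    have h4 : ((P.cap κ : ℕ) : ℝ) = 2 ^ P.s * 2 ^ κ := by unfold Par.cap; push_cast; rfl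
    rw [h4] at h3
    unfold Par.rv
    rw [div_lt_iff₀ (by positivity)]
    have : (0 : ℝ) ≤ g := Nat.cast_nonneg _
    linarith
  set y := P.rv g with hy
  have hy0 : 0 ≤ y := P.rv_nonneg g
  have hG3 : (1 - ε) * f' - η * 2 ^ κ ≤ y := by
    rcases min_le_iff.1 hG1 with h | h
    · linarith
    · exact h
  have hε2 : ε ≤ 1 / 32 := by linarith
  -- one-sided
  have hlow : f ≤ r := by
    have h3 : (1 - ε) * f' ≤ (1 - ε) * ((1 + θ) * y + θ * 2 ^ κ) := by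
      have h4 : y + η * 2 ^ κ ≤ (1 - ε) * ((1 + θ) * y + θ * 2 ^ κ) := by
        have h7 : ε * θ ≤ ε * (1 / 16) := mul_le_mul_of_nonneg_left hθ hε
        have h5 : 1 * y ≤ ((1 - ε) * (1 + θ)) * y := by
          apply mul_le_mul_of_nonneg_right _ hy0
          linarith
        have h6 : η * 2 ^ κ ≤ ((1 - ε) * θ) * 2 ^ κ := by
          apply mul_le_mul_of_nonneg_right _ hk.le
          linarith
        linarith
      linarith
    have h4 : f' ≤ (1 + θ) * y + θ * 2 ^ κ := by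
      have : 0 < 1 - ε := by linarith
      exact le_of_mul_le_mul_left h3 this
    linarith
  have hf1 : 1 ≤ f := by
    have h3 : 0 < f := by linarith
    have h4 : 0 < ic Ef u := by
      have : (0 : ℝ) < (ic Ef u : ℝ) := h3
      exact_mod_cast this
    have h5 : 1 ≤ ic Ef u := h4
    have : (1 : ℝ) ≤ (ic Ef u : ℝ) := by exact_mod_cast h5
    exact this
  have hup : r ≤ (1 + 64 * θ) * f := by
    have h3 : y ≤ (1 + θ) * (f + θ * 2 ^ κ) + 2 * θ * 2 ^ κ := by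
      have h4 : (1 + ε) * f' ≤ (1 + θ) * (f + θ * 2 ^ κ) := by
        apply mul_le_mul (by linarith) (by linarith) hf0' (by linarith)
      have h5 : (η + 2 * β) * 2 ^ κ ≤ 2 * θ * 2 ^ κ :=
        mul_le_mul_of_nonneg_right (by linarith) hk.le
      linarith
    set X : ℝ := 2 ^ κ with hXd
    have h6 : (1 + θ) * y ≤ (1 + θ) * ((1 + θ) * (f + θ * X) + 2 * θ * X) :=
      mul_le_mul_of_nonneg_left h3 (by linarith)
    have h7 : (1 + θ) * ((1 + θ) * (f + θ * X) + 2 * θ * X) ≤ (1 + 3 * θ) * f + 4 * (θ * X) := by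
      have e1 : (1 + θ) * ((1 + θ) * (f + θ * X) + 2 * θ * X) =
          (1 + 2 * θ + θ * θ) * f + ((1 + θ) * (1 + θ) + 2 * (1 + θ)) * (θ * X) := by ring
      rw [e1]
      have h8 : (1 + 2 * θ + θ * θ) * f ≤ (1 + 3 * θ) * f := by
        apply mul_le_mul_of_nonneg_right _ hf0
        nlinarith
      have h9 : ((1 + θ) * (1 + θ) + 2 * (1 + θ)) * (θ * X) ≤ 4 * (θ * X) := by
        apply mul_le_mul_of_nonneg_right _ (by positivity)
        nlinarith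
      linarith
    have h10 : θ * X ≤ θ * (8 * f) := mul_le_mul_of_nonneg_left hX hθ0.le
    have h11 : 2 * θ * 1 ≤ 2 * θ * f := mul_le_mul_of_nonneg_left hf1 (by linarith)
    have h12 : 0 ≤ θ * f := mul_nonneg hθ0.le hf0
    linarith
  constructor
  · rw [hr0]
    exact Nat.le_floor hlow
  · rw [hr0]
    exact (Nat.floor_le (hf0.trans hlow)).trans hup

/-- if the search does not stop at the scale `κ`, then the value is large -/
theorem not_stop {κ g : ℕ} (hε : 0 ≤ ε) (hη : 0 ≤ η) (hβ0 : 0 ≤ β)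
    (hθ : (1 : ℝ) / 2 ^ τ ≤ 1 / 16) (hε' : 2 * ε ≤ 1 / 2 ^ τ) (hη' : 2 * η ≤ 1 / 2 ^ τ)
    (hβ' : 2 * β ≤ 1 / 2 ^ τ) (hσ : (1 : ℝ) ≤ (1 / 2 ^ τ) * 2 ^ P.σ)
    (hG : GoodV P ε η β Ef u κ g) (hst : ¬ stop P κ g) : (2 : ℝ) ^ (κ + 1) ≤ 8 * ic Ef u := by
  unfold stop at hst
  by_cases hκ : κ = 0
  · rw [if_pos hκ] at hst
    have h1 := hG.1 hκ
    have h2 : (1 : ℝ) ≤ ic Ef u := by
      by_contra hcon
      have h3 : ic Ef u < 1 := by
        have := not_le.1 hcon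
        exact_mod_cast this
      have h4 : ic Ef u = 0 := by omega
      rw [h4] at h1
      simp only [Nat.cast_zero] at h1
      rw [min_eq_right (by norm_num)] at h1
      unfold Par.rv at h1
      rw [div_eq_zero_iff] at h1
      rcases h1 with h1 | h1
      · exact hst (by exact_mod_cast h1)
      · exact absurd h1 (by positivity)
    rw [hκ]
    norm_num
    linarith
  · rw [if_neg hκ] at hst
    obtain ⟨-, -, hG2⟩ := hG
    set θ : ℝ := 1 / 2 ^ τ with hθd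
    have hθ0 : 0 < θ := by positivity
    have hk : (0 : ℝ) < 2 ^ κ := by positivity
    set f : ℝ := (ic Ef u : ℝ) with hf
    set f' : ℝ := (ic Ef (rd P κ u) : ℝ) with hf'
    have hf0 : 0 ≤ f := Nat.cast_nonneg _
    have hf0' : 0 ≤ f' := Nat.cast_nonneg _
    have hd0 := natAbs_rd_le P κ u (θ := θ) hσ
    set d : ℝ := (((u - rd P κ u).natAbs : ℕ) : ℝ) with hd
    have h1 : f' ≤ f + d := ic_rd_le P κ
    have hg : (2 : ℝ) ^ κ ≤ 2 * P.rv g := by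
      have h3 : ((P.cap κ : ℕ) : ℝ) ≤ 2 * g := by exact_mod_cast not_lt.1 hst
      have h4 : ((P.cap κ : ℕ) : ℝ) = 2 ^ P.s * 2 ^ κ := by unfold Par.cap; push_cast; rfl
      rw [h4] at h3
      unfold Par.rv
      have hp : (0 : ℝ) < 2 ^ P.s := by positivity
      have e1 : 2 * ((g : ℝ) / 2 ^ P.s) = (2 * g) / 2 ^ P.s := by ring
      rw [e1, le_div_iff₀ hp]
      linarith
    rw [pow_succ]
    set X : ℝ := 2 ^ κ with hXd
    have h4 : (1 + ε) * f' ≤ (1 + 1 / 32) * (f + θ * X) := by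
      apply mul_le_mul (by linarith) (by linarith) hf0' (by norm_num)
    have h5 : (η + 2 * β) * X ≤ (3 / 32) * X :=
      mul_le_mul_of_nonneg_right (by linarith) hk.le
    have h6 : θ * X ≤ 1 / 16 * X := mul_le_mul_of_nonneg_right hθ hk.le
    linarith

/-- the search stops at the scale `h + 2` -/
theorem stop_last {g : ℕ} (hε : 0 ≤ ε) (hη : 0 ≤ η) (hβ0 : 0 ≤ β)
    (hθ : (1 : ℝ) / 2 ^ τ ≤ 1 / 16) (hε' : 2 * ε ≤ 1 / 2 ^ τ) (hη' : 2 * η ≤ 1 / 2 ^ τ)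
    (hβ' : 2 * β ≤ 1 / 2 ^ τ) (hE : ∀ w, Ef w ≤ 2 ^ h)
    (hG : GoodV P ε η β Ef u (h + 2) g) : stop P (h + 2) g := by
  unfold stop
  rw [if_neg (by omega)]
  obtain ⟨-, -, hG2⟩ := hG
  have h1 : (ic Ef (rd P (h + 2) u) : ℝ) ≤ 2 ^ h := by
    have := (ic_le_self Ef (rd P (h + 2) u)).trans (hE _)
    exact_mod_cast this
  have h2 : (2 : ℝ) ^ (h + 2) = 4 * 2 ^ h := by rw [pow_add]; ring
  rw [h2] at hG2
  have h3 : (0 : ℝ) < 2 ^ h := by positivity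
  have h4 : (1 + ε) * (ic Ef (rd P (h + 2) u) : ℝ) ≤ (1 + 1 / 32) * 2 ^ h :=
    mul_le_mul (by linarith) h1 (Nat.cast_nonneg _) (by norm_num)
  have h5 : (η + 2 * β) * (4 * 2 ^ h) ≤ (3 / 32) * (4 * 2 ^ h) :=
    mul_le_mul_of_nonneg_right (by linarith) (by positivity)
  have h6 : P.rv g < 2 * 2 ^ h := by linarith
  unfold Par.rv at h6
  rw [div_lt_iff₀ (by positivity)] at h6
  have h7 : (g : ℝ) < ((2 * 2 ^ h * 2 ^ P.s : ℕ) : ℝ) := by push_cast; exact h6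
  have h8 : g < 2 * 2 ^ h * 2 ^ P.s := by exact_mod_cast h7
  have h9 : P.cap (h + 2) = 2 * (2 * 2 ^ h * 2 ^ P.s) := by
    unfold Par.cap
    rw [pow_add]
    ring
  omega

/-- **the search** -/
theorem sel_good (hε : 0 ≤ ε) (hη : 0 ≤ η) (hβ0 : 0 ≤ β)
    (hθ : (1 : ℝ) / 2 ^ τ ≤ 1 / 16) (hε' : 2 * ε ≤ 1 / 2 ^ τ) (hη' : 2 * η ≤ 1 / 2 ^ τ)
    (hβ' : 2 * β ≤ 1 / 2 ^ τ) (hs : (1 : ℝ) ≤ (1 / 2 ^ τ) * 2 ^ P.s)
    (hσ : (1 : ℝ) ≤ (1 / 2 ^ τ) * 2 ^ P.σ) (hE : ∀ w, Ef w ≤ 2 ^ h) {D : ℕ}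
    (hG : ∀ κ < h + 3, GoodV P ε η β Ef u κ (G κ)) : ∀ n κ : ℕ, n + κ = h + 3 → n ≠ 0 →
    (κ ≠ 0 → (2 : ℝ) ^ κ ≤ 8 * ic Ef u) →
    ic Ef u ≤ sel P τ u D G n κ ∧ (sel P τ u D G n κ : ℝ) ≤ (1 + 64 * (1 / 2 ^ τ)) * ic Ef u := by
  intro n
  induction n with
  | zero => intro κ _ h; exact absurd rfl h
  | succ n ih =>
    intro κ hn _ hX
    unfold sel
    by_cases hst : stop P κ (G κ)
    · rw [if_pos hst]
      by_cases hκ : κ = 0
      · have h1 := (hG κ (by omega)).1 hκ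
        have h2 : G κ = 0 := by
          unfold stop at hst
          rwa [if_pos hκ] at hst
        rw [h2, P.rv_zero] at h1
        have h3 : (ic Ef u : ℝ) = 0 := by
          have : (0 : ℝ) ≤ (ic Ef u : ℝ) := Nat.cast_nonneg _
          rcases min_choice (1 : ℝ) (ic Ef u : ℝ) with h4 | h4
          · rw [h4] at h1; norm_num at h1
          · rw [h4] at h1; exact h1.symm
        have h4 : ic Ef u = 0 := by exact_mod_cast h3
        unfold vl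
        rw [if_pos hκ, h4]
        simp
      · exact vl_good P hκ hε hη hβ0 hθ hε' hη' hβ' hs hσ (hG κ (by omega)) hst (hX hκ)
    · rw [if_neg hst]
      have hn0 : n ≠ 0 := by
        intro h0
        have hκ : κ = h + 2 := by omega
        rw [hκ] at hst
        exact hst (stop_last P hε hη hβ0 hθ hε' hη' hβ' hE (hG _ (by omega)))
      exact ih (κ + 1) (by omega) hn0 fun _ =>
        not_stop P hε hη hβ0 hθ hε' hη' hβ' hσ (hG κ (by omega)) hst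

end search

/-- **the top loop** -/
theorem top_good {M : ℕ} {T : ℕ → ℤ → RT (ℤ → ℕ)} {u : ℤ} {Ef : ℤ → ℕ} {ε η β δ : ℝ} {τ h : ℕ}
    (hM : 0 < M) (hδ : 0 ≤ δ) (hε : 0 ≤ ε) (hη : 0 ≤ η) (hβ0 : 0 ≤ β)
    (hθ : (1 : ℝ) / 2 ^ τ ≤ 1 / 16) (hε' : 2 * ε ≤ 1 / 2 ^ τ) (hη' : 2 * η ≤ 1 / 2 ^ τ)
    (hβ' : 2 * β ≤ 1 / 2 ^ τ) (hs : τ ≤ P.s) (hσ : τ ≤ P.σ)
    (hL : ∀ w w' : ℤ, Ef w ≤ Ef w' + 2 ^ P.g * (w - w').natAbs)
    (hβ : ((2 ^ P.g : ℕ) : ℝ) ≤ β * 2 ^ P.σ) (hE : ∀ w, Ef w ≤ 2 ^ h)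
    (hT : ∀ κ < h + 3, ∀ z, (T κ z).Pr M (fun F => ¬ P.GoodC ε η κ Ef z F) ≤ δ) :
    (top P τ T h u).Pr M (fun x => ¬ (ic Ef u ≤ x ∧ (x : ℝ) ≤ (1 + 64 / 2 ^ τ) * ic Ef u)) ≤
      3 * (h + 3) * δ := by
  have hpow : ∀ a, τ ≤ a → (1 : ℝ) ≤ (1 / 2 ^ τ) * 2 ^ a := by
    intro a ha
    rw [one_div_mul_eq_div, one_le_div (by positivity)]
    exact pow_le_pow_right₀ (by norm_num) ha
  have h1 := scs_good P (u := u) hM hδ hε hη hβ0 (by linarith) hL hβ (h + 3) hT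
  unfold top
  rw [Pr_map]
  refine le_trans (Pr_mono fun L hL' => ?_) (h1.trans (le_of_eq (by push_cast; ring)))
  intro hG
  apply hL'
  have h2 := sel_good P (D := 2 ^ h) (h := h) hε hη hβ0 hθ hε' hη' hβ' (hpow _ hs) (hpow _ hσ) hE
    (G := fun κ => L.getD κ 0) hG.2 (h + 3) 0 (by omega) (by omega) (fun h => absurd rfl h)
  have h3 : ic Ef u ≤ 2 ^ h := (ic_le_self Ef u).trans (hE u)
  refine ⟨le_min h3 h2.1, ?_⟩
  have h4 : ((min (2 ^ h) (sel P τ u (2 ^ h) (fun κ => L.getD κ 0) (h + 3) 0) : ℕ) : ℝ) ≤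
      (sel P τ u (2 ^ h) (fun κ => L.getD κ 0) (h + 3) 0 : ℕ) := by
    exact_mod_cast min_le_right _ _
  refine h4.trans (h2.2.trans (le_of_eq ?_))
  ring

end Crest.Agent.R288.InitT775
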