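import Mathlib
import Crest.Agent.R288.InitQ_663
import Crest.Agent.R288.InitN_775

/-!
# R288 (S0433), leaf [Init]: numbers for the procedure EST (helper775)

* sizes: `len_*`, `le_*` for `locL`, `addL`, `layL`, `finL`; `All` form for `nodeL`, `winL`;
* cost of the engine: `cS b q r κ` (exact recursion) `≤ (b + 4) * 2 ^ (g (q+1)) K ^ (q+1)`;
* fuel of the engine: `nN q`.
-/

set_option autoImplicit false

namespace Crest.Agent.R288.InitY775

open Finset Crest.Agent.R295.Rnd627 Crest.Agent.R295.Rnd627.RT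
open Crest.Agent.R288.Init772 Crest.Agent.R288.InitL663 Crest.Agent.R288.InitL663.Par
open Crest.Agent.R288.InitQ663

variable (P : Init772.Par)

/-! ### lists -/

/-- short list of bounded numbers -/
def LB (n b : ℕ) (T : List ℕ) : Prop := T.length = n ∧ ∀ a ∈ T, a ≤ b

theorem LB.mono {n b b' : ℕ} {T : List ℕ} (h : LB n b T) (hb : b ≤ b') : LB n b' T :=
  ⟨h.1, fun a ha => (h.2 a ha).trans hb⟩

theorem icL_le (κ : ℕ) (W : List ℕ) (o : ℕ) : icL P κ W o ≤ P.cap κ := by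
  unfold icL
  generalize List.range (2 * 2 ^ P.mu κ + 1) = l
  have key : ∀ (l : List ℕ) (m : ℕ), m ≤ P.cap κ → l.foldl
      (fun m n => min m (W.getD (o + n) 0 + 2 ^ P.s * (P.st κ * dst n (2 ^ P.mu κ)))) m ≤
      P.cap κ := by
    intro l
    induction l with
    | nil => intro m hm; exact hm
    | cons a l ih => intro m hm; exact ih _ ((min_le_left _ _).trans hm)
  exact key l _ le_rfl

theorem phi_le (κ z : ℕ) : P.phi κ z ≤ P.cap κ := by
  unfold Init772.Par.phi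
  exact (Nat.sub_le _ _).trans (min_le_right _ _)

theorem lb_locL (κ l : ℕ) (W : List ℕ) : LB (2 ^ P.mu κ) (P.cap (κ - l)) (locL P κ l W) := by
  refine ⟨by simp [locL], fun a ha => ?_⟩
  unfold locL at ha
  rw [List.mem_map] at ha
  obtain ⟨t, _, rfl⟩ := ha
  exact phi_le P _ _

theorem lb_zerosL (κ : ℕ) : LB (2 ^ P.mu κ) 0 (zerosL P κ) := by
  refine ⟨by simp [zerosL], fun a ha => ?_⟩
  unfold zerosL at ha
  exact (List.eq_of_mem_replicate ha).le

theorem LB.addL {n a b : ℕ} {A T : List ℕ} (hA : LB n a A) (hT : LB n b T) :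
    LB n (a + b) (addL A T) := by
  refine ⟨by simp [InitL663.Par.addL, hA.1, hT.1], fun x hx => ?_⟩
  unfold InitL663.Par.addL at hx
  obtain ⟨i, hi, rfl⟩ := List.mem_iff_getElem.1 hx
  rw [List.getElem_zipWith]
  exact Nat.add_le_add (hA.2 _ (List.getElem_mem _)) (hT.2 _ (List.getElem_mem _))

theorem LB.layL {n a b l : ℕ} {A T : List ℕ} (hA : LB n a A) (hT : LB n b T) :
    LB n (a + 2 ^ l * b / 2 ^ P.c) (layL P l A T) := by
  refine ⟨by simp [InitL663.Par.layL, hA.1, hT.1], fun x hx => ?_⟩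
  unfold InitL663.Par.layL at hx
  obtain ⟨i, hi, rfl⟩ := List.mem_iff_getElem.1 hx
  rw [List.getElem_zipWith]
  exact Nat.add_le_add (hA.2 _ (List.getElem_mem _))
    (Nat.div_le_div_right (Nat.mul_le_mul_left _ (hT.2 _ (List.getElem_mem _))))

theorem lb_finL {n a κ : ℕ} {A : List ℕ} (hA : LB n a A) :
    LB n (P.cap κ) (finL P κ A) := by
  refine ⟨by simp [finL, hA.1], fun x hx => ?_⟩
  unfold finL at hx
  rw [List.mem_map] at hx
  obtain ⟨t, _, rfl⟩ := hx
  exact min_le_left _ _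

theorem lb_tab {κ : ℕ} {z : ℤ} {F : ℤ → ℕ} {b : ℕ} (h : ∀ u, F u ≤ b) :
    LB (2 ^ P.mu κ) b (tab P κ z F) := by
  refine ⟨length_tab P κ z F, fun x hx => ?_⟩
  unfold tab at hx
  rw [List.mem_map] at hx
  obtain ⟨t, _, rfl⟩ := hx
  exact h _

theorem lb_blT {bl : ℕ → ℕ → ℤ → ℕ} (hbl : ∀ h j u, bl h j u ≤ 1) (h κ j : ℕ) (z : ℤ) :
    LB (2 ^ P.mu κ) (P.cap κ) (blT P bl h κ j z) := by
  refine lb_tab P fun u => ?_
  unfold Init772.Par.cap
  exact Nat.mul_le_mul_left _ ((hbl h j u).trans Nat.one_le_two_pow)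

/-! ### the computation -/

section all

variable {P} {M : ℕ} {bl : ℕ → ℕ → ℤ → ℕ}

theorem All_map {α β : Type*} {t : RT α} {f : α → β} {Q : β → Prop}
    (h : t.All M fun a => Q (f a)) : (t.map f).All M Q := by
  unfold RT.map
  rw [All_bind]
  exact h

theorem All_seqL' {α : Type} {ts : List (RT α)} {Q : α → Prop} (h : ∀ t ∈ ts, t.All M Q) :
    (Bern775.seqL ts).All M fun l => l.length = ts.length ∧ ∀ a ∈ l, Q a :=
  (Bern775.length_seqL ts).and (Bern775.All_seqL h)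

theorem All_accL {t : RT (List ℕ)} {n b : ℕ} (ht : t.All M (LB n b)) (k a : ℕ) {S : List ℕ}
    (hS : LB n a S) : (accL t k S).All M (LB n (a + k * b)) := by
  induction k generalizing S a with
  | zero => simpa [accL] using hS
  | succ k ih =>
    rw [accL, All_bind]
    refine ht.mono fun T hT => ?_
    refine (ih (a + b) (hS.addL hT)).mono fun l hl => hl.mono (le_of_eq (by ring))

theorem All_smpL (CL : ℕ → ℕ → ℤ → RT (List ℕ)) (r κ l : ℕ) (z : ℤ) :
    (smpL P CL r κ l z).All M (LB (2 ^ P.mu κ) (P.cap (κ - l))) := by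
  unfold smpL
  rw [All_rnd]
  intro v _
  refine All_map (All.of_forall fun W => lb_locL P κ l W)

theorem All_laysL (CL : ℕ → ℕ → ℤ → RT (List ℕ)) (r κ : ℕ) (z : ℤ) (n : ℕ) :
    (laysL P CL r κ z n).All M fun A => A.length = 2 ^ P.mu κ := by
  induction n with
  | zero => simp [laysL]
  | succ n ih =>
    rw [laysL, All_bind]
    refine ih.mono fun A hA => ?_
    refine All_map ((All_accL (All_smpL CL r κ n z) (2 ^ (P.c + r - n)) 0
      (lb_zerosL P κ)).mono fun S hS => ?_)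
    unfold layL
    rw [List.length_zipWith, hA, hS.1, min_self]

theorem All_stepL (CL : ℕ → ℕ → ℤ → RT (List ℕ)) (r κ : ℕ) (z : ℤ) :
    (stepL P CL r κ z).All M (LB (2 ^ P.mu κ) (P.cap κ)) := by
  unfold stepL
  refine All_map ((All_laysL CL r κ z _).mono fun A hA => ?_)
  refine ⟨by simp [finL, hA], fun x hx => ?_⟩
  unfold finL at hx
  rw [List.mem_map] at hx
  obtain ⟨t, _, rfl⟩ := hx
  exact min_le_left _ _

/-- **every table is short and bounded, on every tape** -/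
theorem All_nodeL (hbl : ∀ h j u, bl h j u ≤ 1) (q r κ j : ℕ) (z : ℤ) :
    (nodeL P bl q r κ j z).All M (LB (2 ^ P.mu κ) (P.cap κ)) := by
  unfold nodeL
  split_ifs with h
  · exact lb_blT P hbl _ _ _ _
  · exact All_stepL (P := P.up r) _ r κ z

theorem All_estL (hg : 1 ≤ P.g) (hbl : ∀ h j u, bl h j u ≤ 1) (q κ j : ℕ) (z : ℤ) :
    (estL P bl q κ j z).All M (LB (2 ^ P.mu κ) (P.cap κ)) := by
  rw [estL_node P hg]
  exact All_nodeL hbl _ _ _ _ _

end all

/-! ### the invariant of the loop -/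

/-- sums: the layers `< l`, and `cnt` samples missing in the layer `l` -/
structure Inv (κ l cnt : ℕ) (A S : List ℕ) : Prop where
  /-- number of samples -/
  hc : cnt ≤ 2 ^ (P.c + P.g)
  /-- layers -/
  hA : LB (2 ^ P.mu κ) (l * (2 ^ P.J * (2 ^ (P.c + P.g) * P.cap κ))) A
  /-- current layer -/
  hS : LB (2 ^ P.mu κ) ((2 ^ (P.c + P.g) - cnt) * P.cap κ) S

theorem cap_mono {κ κ' : ℕ} (h : κ ≤ κ') : P.cap κ ≤ P.cap κ' :=
  Nat.mul_le_mul_left _ (Nat.pow_le_pow_right (by norm_num) h)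

variable {P}

theorem Inv.start {r κ : ℕ} (hr : r ≤ P.g) : Inv P κ 0 (2 ^ ((P.up r).c + r)) (zerosL P κ)
    (zerosL P κ) := by
  have h1 : (P.up r).c + r = P.c + P.g := by
    show P.c + (P.g - r) + r = P.c + P.g
    omega
  rw [h1]
  exact ⟨le_rfl, by simpa using lb_zerosL P κ, (lb_zerosL P κ).mono (Nat.zero_le _)⟩

/-- after a sample -/
theorem Inv.sample {κ l cnt : ℕ} {A S : List ℕ} (h : Inv P κ l (cnt + 1) A S) (W : List ℕ) :
    Inv P κ l cnt A (addL S (locL P κ l W)) := by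
  refine ⟨by have := h.hc; omega, h.hA, (h.hS.addL (lb_locL P κ l W)).mono ?_⟩
  have h1 := cap_mono P (show κ - l ≤ κ by omega)
  have h2 := h.hc
  have h3 : 2 ^ (P.c + P.g) - cnt = (2 ^ (P.c + P.g) - (cnt + 1)) + 1 := by omega
  rw [h3, add_mul, one_mul]
  omega

/-- after a layer -/
theorem Inv.layer {κ l r : ℕ} {A S : List ℕ} (h : Inv P κ l 0 A S) (hl : l ≤ P.J)
    (c' : ℕ) (hc' : c' ≤ 2 ^ (P.c + P.g)) :
    Inv P κ (l + 1) c' (layL (P.up r) l A S) (zerosL P κ) := by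
  refine ⟨hc', ?_, (lb_zerosL P κ).mono (Nat.zero_le _)⟩
  have h1 := LB.layL (P := P.up r) (l := l) h.hA h.hS
  refine h1.mono ?_
  rw [add_mul, one_mul]
  apply Nat.add_le_add_left
  refine (Nat.div_le_self _ _).trans ?_
  rw [Nat.sub_zero]
  exact Nat.mul_le_mul_right _ (Nat.pow_le_pow_right (by norm_num) hl)

/-- bound of all words -/
def wB (P : Init772.Par) (N : ℕ) : ℕ := (P.J + 1) * (2 ^ P.J * (2 ^ (P.c + P.g) * P.cap N))

theorem Inv.le_A {κ l cnt N : ℕ} {A S : List ℕ} (h : Inv P κ l cnt A S) (hl : l ≤ P.J + 1)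
    (hN : κ ≤ N) : ∀ a ∈ A, a ≤ wB P N := by
  intro a ha
  refine (h.hA.2 a ha).trans ?_
  unfold wB
  exact Nat.mul_le_mul hl (Nat.mul_le_mul_left _ (Nat.mul_le_mul_left _ (cap_mono P hN)))

theorem Inv.le_S {κ l cnt N : ℕ} {A S : List ℕ} (h : Inv P κ l cnt A S)
    (hN : κ ≤ N) : ∀ a ∈ S, a ≤ wB P N := by
  intro a ha
  refine (h.hS.2 a ha).trans ?_
  unfold wB
  calc (2 ^ (P.c + P.g) - cnt) * P.cap κ ≤ 2 ^ (P.c + P.g) * P.cap N :=
        Nat.mul_le_mul (Nat.sub_le _ _) (cap_mono P hN)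
    _ = 1 * (1 * (2 ^ (P.c + P.g) * P.cap N)) := by ring
    _ ≤ _ := Nat.mul_le_mul (by omega) (Nat.mul_le_mul_right _ Nat.one_le_two_pow)

theorem cap_le_wB {κ N : ℕ} (hN : κ ≤ N) : P.cap κ ≤ wB P N := by
  unfold wB
  calc P.cap κ ≤ 1 * (1 * (1 * P.cap N)) := by simpa using cap_mono P hN
    _ ≤ _ := Nat.mul_le_mul (by omega) (Nat.mul_le_mul Nat.one_le_two_pow
      (Nat.mul_le_mul_right _ Nat.one_le_two_pow))

/-! ### cost -/

/-- cost of one sample of the layer `l`; `C` = cost of a table of the child -/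
def per (C l : ℕ) : ℕ := 2 + (2 ^ l + 2) * (C + 1)

/-- cost from the middle of a layer -/
def cR (P : Init772.Par) (C : ℕ) : ℕ → ℕ → ℕ → ℕ
  | 0, l, cnt => cnt * per C l
  | k + 1, l, cnt => cnt * per C l + cR P C k (l + 1) (2 ^ (P.c + P.g - (l + 1)))

theorem per_le {C l a : ℕ} (h : l ≤ a) : 2 ^ (a - l) * per C l ≤ 2 ^ a * (3 * C + 5) := by
  unfold per
  have h1 : 2 ^ a = 2 ^ (a - l) * 2 ^ l := by rw [← pow_add]; congr 1; omega
  have h2 : 2 + (2 ^ l + 2) * (C + 1) ≤ 2 ^ l * (3 * C + 5) := by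
    have h3 := Nat.one_le_two_pow (n := l)
    nlinarith
  rw [h1, mul_assoc]
  exact Nat.mul_le_mul_left _ h2

theorem cR_le {C k l cnt : ℕ} (hl : l + k ≤ P.c + P.g) (hc : cnt ≤ 2 ^ (P.c + P.g - l)) :
    cR P C k l cnt ≤ (k + 1) * (2 ^ (P.c + P.g) * (3 * C + 5)) := by
  induction k generalizing l cnt with
  | zero =>
    rw [cR]
    refine (Nat.mul_le_mul_right _ hc).trans ?_
    simpa using per_le (C := C) (show l ≤ P.c + P.g by omega)
  | succ k ih =>
    rw [cR]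
    have h1 := ih (l := l + 1) (cnt := 2 ^ (P.c + P.g - (l + 1))) (by omega) le_rfl
    have h2 := (Nat.mul_le_mul_right (per C l) hc).trans
      (per_le (C := C) (show l ≤ P.c + P.g by omega))
    calc cnt * per C l + cR P C k (l + 1) (2 ^ (P.c + P.g - (l + 1)))
        ≤ 2 ^ (P.c + P.g) * (3 * C + 5) + (k + 1) * (2 ^ (P.c + P.g) * (3 * C + 5)) :=
          Nat.add_le_add h2 h1
      _ = _ := by ring

/-- cost of a table of level `q` (`b` = cost of a table of leaf values) -/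
def cU (P : Init772.Par) (b : ℕ) : ℕ → ℕ
  | 0 => b
  | q + 1 => b + (P.J + 1) * (2 ^ (P.c + P.g) * (3 * cU P b q + 5))

theorem b_le_cU (b q : ℕ) : b ≤ cU P b q := by
  cases q with
  | zero => exact le_rfl
  | succ q => exact Nat.le_add_right _ _

theorem cU_le (b q : ℕ) : cU P b q + 2 ≤ (b + 2) * (2 ^ P.g * InitN775.K P) ^ q := by
  induction q with
  | zero => simp [cU]
  | succ q ih =>
    rw [cU]
    set R := (b + 2) * (2 ^ P.g * InitN775.K P) ^ q with hR
    have hR1 : b + 2 ≤ R := Nat.le_mul_of_pos_right _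
      (Nat.pow_pos (Nat.mul_pos (Nat.two_pow_pos _) (InitN775.one_le_K P)))
    have h3 : (b + 2) * (2 ^ P.g * InitN775.K P) ^ (q + 1) =
        4 * ((P.J + 1) * 2 ^ (P.c + P.g) * R) := by
      rw [pow_succ, ← mul_assoc, ← hR]
      unfold InitN775.K
      rw [pow_add]
      ring
    have h4 : R ≤ (P.J + 1) * 2 ^ (P.c + P.g) * R :=
      Nat.le_mul_of_pos_left _ (Nat.mul_pos (by omega) (Nat.two_pow_pos _))
    have h5 : (P.J + 1) * (2 ^ (P.c + P.g) * (3 * cU P b q + 5)) ≤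
        3 * ((P.J + 1) * 2 ^ (P.c + P.g) * R) := by
      calc (P.J + 1) * (2 ^ (P.c + P.g) * (3 * cU P b q + 5))
          ≤ (P.J + 1) * (2 ^ (P.c + P.g) * (3 * R)) :=
            Nat.mul_le_mul_left _ (Nat.mul_le_mul_left _ (by omega))
        _ = _ := by ring
    omega

/-- in terms of the length of the block -/
theorem cU_le' (b q : ℕ) : cU P b q + 2 ≤ (b + 2) * (2 ^ (P.g * q) * InitN775.K P ^ q) := by
  refine (cU_le b q).trans (le_of_eq ?_)
  rw [mul_pow, ← pow_mul]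

/-! ### fuel -/

/-- number of phases from the middle of a layer (two per sample) -/
def nR (P : Init772.Par) : ℕ → ℕ → ℕ → ℕ
  | 0, _, cnt => 2 * cnt
  | k + 1, l, cnt => 2 * cnt + nR P k (l + 1) (2 ^ (P.c + P.g - (l + 1)))

theorem nR_le {k l cnt : ℕ} (hl : l + k ≤ P.c + P.g) (hc : cnt ≤ 2 ^ (P.c + P.g - l)) :
    nR P k l cnt ≤ 4 * 2 ^ (P.c + P.g - l) := by
  induction k generalizing l cnt with
  | zero => rw [nR]; omega
  | succ k ih =>
    rw [nR]
    have h1 := ih (l := l + 1) (cnt := 2 ^ (P.c + P.g - (l + 1))) (by omega) le_rfl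
    have h2 : 2 ^ (P.c + P.g - l) = 2 * 2 ^ (P.c + P.g - (l + 1)) := by
      rw [← pow_succ']; congr 1; omega
    omega

/-- fuel for a table of level `q` -/
def nU (P : Init772.Par) (q : ℕ) : ℕ := 2 + q * (4 * 2 ^ (P.c + P.g) + 2)

end Crest.Agent.R288.InitY775
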