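import Mathlib
import Crest.Prelude.Def_GraphRAM
import Crest.Prelude.Def_RatWords

/-!
# R288 leaf [I], part A (helper39): the words of a rational

`bw n` = the bits of `n` as words (least significant first) = `Nat.digits 2 n`; values of prefixes
(`Nat.ofDigits 2 (l.take i)`, = `n % 2 ^ i`) and of suffixes (`Nat.ofDigits 2 (l.drop i)`,
= `n / 2 ^ i`); `ratWords q = bw |num| ++ 2 :: bw den`; size bounds for `0 < ε < 1`.
-/

set_option autoImplicit false

namespace Crest.Agent.R288.Inp39

open Crest.GraphRAM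

/-! ### bits as words -/

/-- the bits of `n`, least significant first, as words -/
def bw (n : ℕ) : List ℕ := n.bits.map fun b => if b then 1 else 0

theorem bw_eq_digits (n : ℕ) : bw n = Nat.digits 2 n := by
  rw [Nat.digits_two_eq_bits, bw]
  congr 1
  funext b
  cases b <;> rfl

theorem bw_length (n : ℕ) : (bw n).length = n.size := by
  rw [bw, List.length_map, Nat.size_eq_bits_len]

theorem ofDigits_bw (n : ℕ) : Nat.ofDigits 2 (bw n) = n := by
  rw [bw_eq_digits, Nat.ofDigits_digits]

theorem bw_lt_two {n b : ℕ} (h : b ∈ bw n) : b < 2 := by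
  rw [bw_eq_digits] at h
  exact Nat.digits_lt_base (by norm_num) h

theorem lt_two_pow_bw (n : ℕ) : n < 2 ^ (bw n).length := by
  rw [bw_length]
  exact Nat.lt_size_self n

theorem bw_length_pos {n : ℕ} (h : 0 < n) : 0 < (bw n).length := by
  rw [bw_length]
  exact Nat.size_pos.2 h

theorem two_le_bw_length {n : ℕ} (h : 2 ≤ n) : 2 ≤ (bw n).length := by
  rw [bw_length]
  exact Nat.lt_size.2 (by simpa using h)

theorem bw_getD (n i : ℕ) : (bw n).getD i 0 = n / 2 ^ i % 2 := by
  rw [bw_eq_digits]
  exact Nat.getD_digits n i (by norm_num)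

/-! ### values of prefixes and suffixes of a digit list -/

section digits

variable {l : List ℕ}

theorem ofDigits_take_succ {i : ℕ} (h : i < l.length) :
    Nat.ofDigits 2 (l.take (i + 1)) = Nat.ofDigits 2 (l.take i) + l[i] * 2 ^ i := by
  rw [List.take_add_one, List.getElem?_eq_getElem h, Option.toList_some, Nat.ofDigits_append,
    Nat.ofDigits_singleton, List.length_take, min_eq_left h.le]
  ring

theorem ofDigits_drop {i : ℕ} (h : i < l.length) :
    Nat.ofDigits 2 (l.drop i) = l[i] + 2 * Nat.ofDigits 2 (l.drop (i + 1)) := by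
  rw [List.drop_eq_getElem_cons h, Nat.ofDigits_cons]

theorem ofDigits_take_lt (hl : ∀ b ∈ l, b < 2) (i : ℕ) : Nat.ofDigits 2 (l.take i) < 2 ^ i := by
  have h1 : Nat.ofDigits 2 (l.take i) < 2 ^ (l.take i).length :=
    Nat.ofDigits_lt_base_pow_length (by norm_num) fun x hx => hl x (List.mem_of_mem_take hx)
  exact h1.trans_le (Nat.pow_le_pow_right (by norm_num) (List.length_take_le _ _))

theorem ofDigits_take_le (i : ℕ) : Nat.ofDigits 2 (l.take i) ≤ Nat.ofDigits 2 l := by
  conv_rhs => rw [← List.take_append_drop i l]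
  rw [Nat.ofDigits_append]
  exact Nat.le_add_right _ _

theorem ofDigits_drop_le (i : ℕ) : Nat.ofDigits 2 (l.drop i) ≤ Nat.ofDigits 2 l := by
  conv_rhs => rw [← List.take_append_drop i l]
  rw [Nat.ofDigits_append]
  have : 1 ≤ 2 ^ (l.take i).length := Nat.one_le_two_pow
  nlinarith [Nat.zero_le (Nat.ofDigits 2 (l.take i)), Nat.zero_le (Nat.ofDigits 2 (l.drop i))]

end digits

theorem ofDigits_take_bw (n i : ℕ) : Nat.ofDigits 2 ((bw n).take i) = n % 2 ^ i := by
  have h : n = n % 2 ^ i + 2 ^ i * (n / 2 ^ i) := (Nat.mod_add_div n (2 ^ i)).symm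
  induction i with
  | zero => simp [Nat.mod_one]
  | succ i ih =>
    have ih := ih (Nat.mod_add_div n (2 ^ i)).symm
    by_cases hi : i < (bw n).length
    · rw [ofDigits_take_succ hi, ih, ← List.getD_eq_getElem _ 0 hi, bw_getD, pow_succ,
        Nat.mod_mul]
      ring
    · rw [List.take_of_length_le (by omega), ofDigits_bw, Nat.mod_eq_of_lt]
      exact (lt_two_pow_bw n).trans_le (Nat.pow_le_pow_right (by norm_num) (by omega))

theorem ofDigits_drop_bw (n i : ℕ) : Nat.ofDigits 2 ((bw n).drop i) = n / 2 ^ i := by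
  by_cases hi : i ≤ (bw n).length
  · have h1 : Nat.ofDigits 2 ((bw n).take i ++ (bw n).drop i) = n := by
      rw [List.take_append_drop, ofDigits_bw]
    rw [Nat.ofDigits_append, ofDigits_take_bw, List.length_take, min_eq_left hi] at h1
    have h2 := Nat.mod_add_div n (2 ^ i)
    exact Nat.eq_of_mul_eq_mul_left (Nat.two_pow_pos i) (by omega)
  · rw [List.drop_of_length_le (by omega), Nat.ofDigits_nil, Nat.div_eq_of_lt]
    exact (lt_two_pow_bw n).trans_le (Nat.pow_le_pow_right (by norm_num) (by omega))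

/-! ### the words of a rational -/

theorem ratWords_eq (q : ℚ) : ratWords q = bw q.num.natAbs ++ 2 :: bw q.den := rfl

theorem ratWords_length (q : ℚ) :
    (ratWords q).length = (bw q.num.natAbs).length + 1 + (bw q.den).length := by
  rw [ratWords_eq, List.length_append, List.length_cons]
  omega

/-- position of the separator -/
theorem ratWords_sep (q : ℚ) : (ratWords q)[(bw q.num.natAbs).length]? = some 2 := by
  rw [ratWords_eq, List.getElem?_append_right le_rfl]
  simp

theorem ratWords_take (q : ℚ) :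
    (ratWords q).take (bw q.num.natAbs).length = bw q.num.natAbs := by
  rw [ratWords_eq, List.take_left']
  rfl

theorem ratWords_drop (q : ℚ) :
    (ratWords q).drop ((bw q.num.natAbs).length + 1) = bw q.den := by
  rw [ratWords_eq, List.drop_append]
  simp

theorem ratWords_num {q : ℚ} {i : ℕ} (h : i < (bw q.num.natAbs).length) :
    (ratWords q)[i]? = some ((bw q.num.natAbs)[i]) := by
  rw [ratWords_eq, List.getElem?_append_left h, List.getElem?_eq_getElem h]

theorem ratWords_den {q : ℚ} {i : ℕ} (h : i < (bw q.den).length) :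
    (ratWords q)[(bw q.num.natAbs).length + 1 + i]? = some ((bw q.den)[i]) := by
  rw [ratWords_eq, List.getElem?_append_right (by omega),
    show (bw q.num.natAbs).length + 1 + i - (bw q.num.natAbs).length = i + 1 by omega,
    List.getElem?_cons_succ, List.getElem?_eq_getElem h]

/-- the first word `2` is the separator -/
theorem ratWords_eq_two_iff {q : ℚ} {i : ℕ} :
    (ratWords q)[i]? = some 2 ↔ i = (bw q.num.natAbs).length := by
  constructor
  · intro h
    by_contra hne
    rcases Nat.lt_or_gt_of_ne hne with h1 | h1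
    · rw [ratWords_num h1] at h
      have := bw_lt_two (List.getElem_mem h1)
      simp only [Option.some.injEq] at h
      omega
    · obtain ⟨j, rfl⟩ : ∃ j, i = (bw q.num.natAbs).length + 1 + j := ⟨_, (Nat.add_sub_cancel' h1).symm⟩
      by_cases h2 : j < (bw q.den).length
      · rw [ratWords_den h2] at h
        have := bw_lt_two (List.getElem_mem h2)
        simp only [Option.some.injEq] at h
        omega
      · rw [List.getElem?_eq_none] at h
        · simp at h
        · rw [ratWords_length]; omega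
  · rintro rfl
    exact ratWords_sep q

theorem ratWords_le_two {q : ℚ} {b : ℕ} (h : b ∈ ratWords q) : b ≤ 2 := by
  rw [ratWords_eq] at h
  rcases List.mem_append.1 h with hb | hb
  · exact (bw_lt_two hb).le
  · rcases List.mem_cons.1 hb with hb | hb
    · exact hb.le
    · exact (bw_lt_two hb).le

theorem ratWords_getD_le (q : ℚ) (i : ℕ) : (ratWords q).getD i 0 ≤ 2 := by
  by_cases h : i < (ratWords q).length
  · rw [List.getD_eq_getElem _ _ h]
    exact ratWords_le_two (List.getElem_mem h)
  · rw [List.getD_eq_default _ _ (by omega)]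
    omega

/-! ### `0 < ε < 1` -/

section eps

variable {ε : ℚ}

theorem num_pos (h0 : 0 < ε) : 0 < ε.num.natAbs := Int.natAbs_pos.2 (Rat.num_pos.2 h0).ne'

theorem num_lt_den (h0 : 0 < ε) (h1 : ε < 1) : ε.num.natAbs < ε.den := by
  have h3 := Rat.num_pos.2 h0
  have h2 : ε.num < ε.den := by
    have h4 : (ε.num : ℚ) / ε.den < 1 := by rw [Rat.num_div_den]; exact h1
    rw [div_lt_one (by exact_mod_cast ε.den_pos)] at h4
    exact_mod_cast h4
  omega

theorem two_le_den (h0 : 0 < ε) (h1 : ε < 1) : 2 ≤ ε.den := by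
  have := num_pos h0
  have := num_lt_den h0 h1
  omega

theorem four_le_ratWords (h0 : 0 < ε) (h1 : ε < 1) : 4 ≤ (ratWords ε).length := by
  rw [ratWords_length]
  have := bw_length_pos (num_pos h0)
  have := two_le_bw_length (two_le_den h0 h1)
  omega

theorem num_lt_two_pow (ε : ℚ) : ε.num.natAbs < 2 ^ (ratWords ε).length :=
  (lt_two_pow_bw _).trans_le (Nat.pow_le_pow_right (by norm_num) (by rw [ratWords_length]; omega))

theorem den_lt_two_pow (ε : ℚ) : ε.den < 2 ^ (ratWords ε).length :=
  (lt_two_pow_bw _).trans_le (Nat.pow_le_pow_right (by norm_num) (by rw [ratWords_length]; omega))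

theorem eps_eq (h0 : 0 < ε) : (ε : ℝ) = (ε.num.natAbs : ℝ) / (ε.den : ℝ) := by
  have h2 : ((ε.num.natAbs : ℤ) : ℝ) = (ε.num : ℝ) := by
    rw [Int.natAbs_of_nonneg (Rat.num_pos.2 h0).le]
  rw [← Int.cast_natCast (R := ℝ) ε.num.natAbs, h2]
  exact (Rat.cast_def ε)

theorem eps_mul_den (h0 : 0 < ε) : (ε : ℝ) * ε.den = ε.num.natAbs := by
  rw [eps_eq h0]
  have : (ε.den : ℝ) ≠ 0 := by exact_mod_cast ε.den_nz
  field_simp

theorem inv_den_le (h0 : 0 < ε) : 1 / (ε.den : ℝ) ≤ ε := by
  rw [eps_eq h0]
  have h1 : (1 : ℝ) ≤ ε.num.natAbs := by exact_mod_cast num_pos h0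
  have h2 : (0 : ℝ) < ε.den := by exact_mod_cast ε.den_pos
  gcongr

/-- the output condition in natural numbers -/
theorem cast_le_iff (h0 : 0 < ε) (D E : ℕ) :
    (D : ℝ) ≤ (1 + (ε : ℝ)) * E ↔ D * ε.den ≤ (ε.den + ε.num.natAbs) * E := by
  have h2 : (0 : ℝ) < ε.den := by exact_mod_cast ε.den_pos
  rw [eps_eq h0]
  have h3 : (1 + (ε.num.natAbs : ℝ) / ε.den) * E = ((ε.den + ε.num.natAbs) * E) / ε.den := by
    field_simp
  rw [h3, le_div_iff₀ h2]
  exact_mod_cast Iff.rfl

/-- slack: `E + k ≤ (1 + ε) E` as soon as `k * den ≤ E` -/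
theorem slack (h0 : 0 < ε) {k E : ℕ} (h : k * ε.den ≤ E) : ((E + k : ℕ) : ℝ) ≤ (1 + (ε : ℝ)) * E := by
  rw [cast_le_iff h0]
  have := num_pos h0
  nlinarith

/-- values not below `E` and at most `E + k` are good -/
theorem good_of_le (h0 : 0 < ε) {D k E : ℕ} (hD : D ≤ E + k) (h : k * ε.den ≤ E) :
    (D : ℝ) ≤ (1 + (ε : ℝ)) * E :=
  le_trans (by exact_mod_cast hD) (slack h0 h)

end eps

end Crest.Agent.R288.Inp39
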