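import Crest.Agent.R288.ArrX_984
import Crest.Agent.R288.DomB_20

/-!
# R288 (helper195): (J) and (A5) at EVERY admissible pair, all macro heights

One rank on one history: `RM κ z` = mean of the lane at the pair `(κ, z)`, `AM κ z` = mean of the body entry
(at macro height `0`: the number `botNum`).

* `BotOk` : the numbers of macro height `0` are `G` up to `+1`.
* `Jin` : everything which is used: `FOk` (944), the law of the body entries (`LawU944.body_law`), `JPar`
  (984), `GD`, `BotOk`.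
* `RM_lane` : `RM` is the mean of `lanePair`.
* **`Jin.ja`** : `ArrLip195.JA P F AM RM e i j` for every block, `e κ = 2 th + η 2^κ + 1`.
* **`Jin.stay`** : `RM κ y ≤ AM κ y + η 2^κ`; `Jin.retire`; `Jin.pair`.
-/

set_option autoImplicit false

namespace Crest.Agent.R288.JaC195

open Crest.Agent.R295.Rnd627 Crest.Agent.R295.Rnd627.RT Crest.Agent.R288.Alg45
  Crest.Agent.R288.XB715 Crest.Agent.R288.ArrX984 Crest.Agent.R288.LawU944
  Crest.Agent.R288.LawS944 Crest.Agent.R288.AdmR944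

variable (P : Par) (W : ℕ) (leaf : St → Option ℕ) (F : St → ℕ) (X : ℕ → ℕ → St → ℕ) (k : ℕ)

/-- mean of the lane at the pair -/
noncomputable def RM (κ : ℕ) (z : St) : ℝ := RS P W (fun c => arrT P leaf F X k z.i c) κ z

/-- mean of the body entry at the pair -/
noncomputable def AM (κ : ℕ) (z : St) : ℝ :=
  if z.i = 0 then (botNum P leaf F κ z : ℕ) else RS P W (bdy P leaf F X k (z.i - 1)) κ z

theorem RM_lane (κ : ℕ) (z : St) :
    RM P W leaf F X k κ z = (lanePair P leaf F X k κ z).Ev W fun a : ℕ => (a : ℝ) := by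
  unfold RM lanePair RS
  simp only [Ev_bind, Ev_ret]

/-- the numbers of macro height `0` -/
def BotOk (Dm : St → Prop) (G : St → ℕ) : Prop :=
  ∀ κ z, Dm z → z.i = 0 → adm P F κ z = true →
    G z ≤ botNum P leaf F κ z ∧ botNum P leaf F κ z ≤ G z + 1

/-- the hypotheses for one rank -/
structure Jin (Dm : St → Prop) (G : St → ℕ) (Λ : ℕ) (b w d η : ℝ) (s : ℕ) : Prop where
  W0 : 0 < W
  dom : ∀ y, Dm y → inD P y
  dcl : ∀ y z, Dm y → z.i = y.i → z.j = y.j → inD P z → Dm z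
  fok : FOk leaf F Dm Λ
  lam : 2 ^ (P.bb + P.a2 + 3) ≤ Λ
  gd : ∀ κ y, Dm y → adm P F κ y = true → GD P (κ + P.a2)
  par : JPar P b w d η s
  body : ∀ i κ z, z.i = i + 1 → Dm z → adm P F κ z = true →
    MS b w κ (ms P W (bdy P leaf F X k i) κ z)
  glip : ∀ y z, Dm y → Dm z → y.i = z.i → y.j = z.j → G y ≤ G z + Alg45.dist y z
  gF : ∀ y, Dm y → G y ≤ F y
  bot : BotOk P leaf F Dm G

variable {P W leaf F X k} {Dm : St → Prop} {G : St → ℕ} {Λ : ℕ} {b w d η : ℝ} {s : ℕ}

theorem RM_zero {κ : ℕ} {z : St} (hz : z.i = 0) (hd : inD P z) (ha : adm P F κ z = true) :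
    RM P W leaf F X k κ z = (botNum P leaf F κ z : ℕ) := by
  have h := ms_ret (P := P) (W := W) (F := F) (f := fun c => botNum P leaf F c.κ) (κ := κ) (z := z) hd ha
  have h1 : (ms P W (fun c => .ret (tabC P c (botNum P leaf F c.κ))) κ z).1 =
      RM P W leaf F X k κ z := by
    unfold RM
    rw [hz]
    rfl
  rw [← h1, h]
  rfl

theorem AM_zero {κ : ℕ} {z : St} (hz : z.i = 0) :
    AM P W leaf F X k κ z = (botNum P leaf F κ z : ℕ) := if_pos hz

theorem AM_succ {κ i : ℕ} {z : St} (hz : z.i = i + 1) :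
    AM P W leaf F X k κ z = RS P W (bdy P leaf F X k i) κ z := by
  unfold AM
  rw [if_neg (by omega), hz]
  rfl

theorem RM_succ {κ i : ℕ} {z : St} (hz : z.i = i + 1) :
    RM P W leaf F X k κ z = RS P W (fun c => arrOf P F (bdy P leaf F X k i) c) κ z := by
  unfold RM
  rw [hz]
  rfl

/-- the law of the jump at every admissible pair of macro height `i + 1` -/
theorem Jin.law (h : Jin P W leaf F X k Dm G Λ b w d η s) {i κ : ℕ} {y : St} (hi : y.i = i + 1)
    (hy : Dm y) (ha : adm P F κ y = true) : Law P W F (bdy P leaf F X k i) κ y (η * 2 ^ κ) :=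
  law_of (h.dom y hy) ha h.W0 (isTab_bdy W leaf F X k i) (h.gd κ y hy ha) (bodyConst_bdy i) h.par
    (fun κ' z h1 h2 h3 h4 => h.body i κ' z (by omega) (h.dcl y z hy h1 h2 h3) h4)
    (fun z h1 h2 h3 => by
      have h4 := h.fok.lip z y (h.dcl y z hy h1 h2 h3) hy h1.symm h2.symm
      have h5 : Alg45.dist z y = Alg45.dist y z := by unfold Alg45.dist; omega
      rw [h5] at h4
      omega)
    h.lam (fun z h1 h2 h3 h4 => h.fok.act z (h.dcl y z hy h1 h2 h3) h4)

/-- **third line of (A5)**: the jump never loses more than `η 2^κ` against staying -/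
theorem Jin.stay (h : Jin P W leaf F X k Dm G Λ b w d η s) {κ : ℕ} {y : St} (hy : Dm y)
    (ha : adm P F κ y = true) :
    RM P W leaf F X k κ y ≤ AM P W leaf F X k κ y + η * 2 ^ κ := by
  have h0 : 0 ≤ η * 2 ^ κ := mul_nonneg h.par.η0 (by positivity)
  rcases Nat.eq_zero_or_pos y.i with hi | hi
  · rw [RM_zero hi (h.dom y hy) ha, AM_zero hi]
    linarith
  · obtain ⟨i, hi'⟩ : ∃ i, y.i = i + 1 := ⟨y.i - 1, by omega⟩
    rw [RM_succ hi', AM_succ hi']
    exact (h.law hi' hy ha).stay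

/-- the loss of the jump against the other options -/
noncomputable def ee (P : Par) (η : ℝ) (κ : ℕ) : ℝ := 2 * (2 ^ κ / 2 ^ P.bb : ℕ) + η * 2 ^ κ + 1

theorem ee_nonneg (P : Par) (hη : 0 ≤ η) (κ : ℕ) : 0 ≤ ee P η κ := by
  unfold ee
  positivity

theorem ee_le (P : Par) (η : ℝ) (κ : ℕ) : ee P η κ ≤ (2 / 2 ^ P.bb + η) * 2 ^ κ + 1 := by
  unfold ee
  have h : ((2 ^ κ / 2 ^ P.bb : ℕ) : ℝ) ≤ 2 ^ κ / 2 ^ P.bb := by
    have := Nat.cast_div_le (α := ℝ) (m := 2 ^ κ) (n := 2 ^ P.bb)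
    push_cast at this
    exact this
  have e1 : (2 / 2 ^ P.bb + η) * 2 ^ κ + 1 = 2 * ((2 : ℝ) ^ κ / 2 ^ P.bb) + η * 2 ^ κ + 1 := by ring
  rw [e1]
  linarith

/-- **(J) on every block** -/
theorem Jin.ja (h : Jin P W leaf F X k Dm G Λ b w d η s) (hr : 8 ≤ P.r) {i j : ℕ}
    (hB : ∀ y, ArrLip195.Blk P i j y → Dm y) :
    ArrLip195.JA P F (AM P W leaf F X k) (RM P W leaf F X k) (ee P η) i j := by
  rcases Nat.eq_zero_or_pos i with hi | hi
  · -- macro height 0
    subst hi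
    have hAR : ∀ κ z, ArrLip195.Blk P 0 j z → adm P F κ z = true →
        AM P W leaf F X k κ z = (botNum P leaf F κ z : ℕ) ∧
          RM P W leaf F X k κ z = (botNum P leaf F κ z : ℕ) := fun κ z hz ha =>
      ⟨AM_zero hz.1, RM_zero hz.1 hz.2.2 ha⟩
    refine ⟨fun κ z hz ha => ?_, ee_nonneg P h.par.η0, ?_, ?_, ?_⟩
    · rw [(hAR κ z hz ha).1]
      exact Nat.cast_nonneg _
    · intro κ y hy ha m _ _ h2
      have h3 := h2 κ y hy ha (by omega) (by omega) (by unfold Alg45.dist; simp)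
      rw [(hAR κ y hy ha).1] at h3
      rw [(hAR κ y hy ha).2]
      have h4 : Alg45.dist y y = 0 := by unfold Alg45.dist; simp
      rw [h4] at h3
      simpa using h3
    · intro κ y hy ha
      rw [(hAR κ y hy ha).2]
      have h1 := (h.bot κ y (hB y hy) hy.1 ha).2
      have h2 := h.gF y (hB y hy)
      have h3 : ((botNum P leaf F κ y : ℕ) : ℝ) ≤ F y + 1 := by exact_mod_cast h1.trans (by omega)
      have h4 : 0 ≤ η * 2 ^ κ := mul_nonneg h.par.η0 (by positivity)
      have h5 : (0 : ℝ) ≤ ((2 ^ κ / 2 ^ P.bb : ℕ) : ℝ) := Nat.cast_nonneg _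
      unfold ee
      linarith
    · intro κ y hy ha κ' z hz haz _ _ _
      rw [(hAR κ y hy ha).2, (hAR κ' z hz haz).1]
      have h1 := (h.bot κ y (hB y hy) hy.1 ha).2
      have h2 := (h.bot κ' z (hB z hz) hz.1 haz).1
      have h3 := h.glip y z (hB y hy) (hB z hz) (hy.1.trans hz.1.symm) (hy.2.1.trans hz.2.1.symm)
      have h6 : ((botNum P leaf F κ y : ℕ) : ℝ) ≤ Alg45.dist y z + (botNum P leaf F κ' z : ℕ) + 1 := by
        exact_mod_cast (by omega : botNum P leaf F κ y ≤ Alg45.dist y z + botNum P leaf F κ' z + 1)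
      have h4 : 0 ≤ η * 2 ^ κ := mul_nonneg h.par.η0 (by positivity)
      have h5 : (0 : ℝ) ≤ ((2 ^ κ / 2 ^ P.bb : ℕ) : ℝ) := Nat.cast_nonneg _
      unfold ee
      linarith
  · obtain ⟨i', rfl⟩ : ∃ i', i = i' + 1 := ⟨i - 1, by omega⟩
    have h1 := ja_of_law (P := P) (W := W) (F := F) (leaf := leaf) (body := bdy P leaf F X k i') h.W0
      (isTab_bdy W leaf F X k i') (bodyConst_bdy i') (i := i' + 1) (j := j) hr
      (fun κ y hy ha => h.gd κ y (hB y hy) ha) (e := ee P η) (ee_nonneg P h.par.η0)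
      (fun κ y hy ha => by
        have h2 := h.law hy.1 (hB y hy) ha
        have h3 : η * 2 ^ κ ≤ ee P η κ - 2 * (2 ^ κ / 2 ^ P.bb : ℕ) := by unfold ee; linarith
        exact ⟨h2.low, h2.stay.trans (by linarith), h2.retire.trans (by linarith),
          fun κ' z hz => (h2.pair κ' z hz).trans (by linarith)⟩)
    have hA : ∀ κ z, ArrLip195.Blk P (i' + 1) j z →
        AM P W leaf F X k κ z = RS P W (bdy P leaf F X k i') κ z := fun κ z hz => AM_succ hz.1
    have hR : ∀ κ z, ArrLip195.Blk P (i' + 1) j z → RM P W leaf F X k κ z =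
        RS P W (fun c => arrOf P F (bdy P leaf F X k i') c) κ z := fun κ z hz => RM_succ hz.1
    refine ⟨fun κ z hz ha => ?_, h1.e0, ?_, ?_, ?_⟩
    · rw [hA κ z hz]
      exact h1.A0 κ z hz ha
    · intro κ y hy ha m m1 m2 m3
      rw [hR κ y hy]
      refine h1.low κ y hy ha m m1 m2 fun κ' z hz haz k1 k2 hd => ?_
      rw [← hA κ' z hz]
      exact m3 κ' z hz haz k1 k2 hd
    · intro κ y hy ha
      rw [hR κ y hy]
      exact h1.upF κ y hy ha
    · intro κ y hy ha κ' z hz haz k1 k2 hd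
      rw [hR κ y hy, hA κ' z hz]
      exact h1.upM κ y hy ha κ' z hz haz k1 k2 hd

end Crest.Agent.R288.JaC195
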