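import Crest.Agent.R288.SoundA_829
import Crest.Agent.R288.FOkG_829

/-!
# R288, [SOUND] part B (helper829): soundness of a good history

For an arbitrary `C : Asm331.Cfg` with `AnaLip364.LipOk` (772's INIT) and `SOk` (grids, leaf values of
690, positive parameters): for every good history `X`
* **`sound`** : `gst ≤ FE C.P X e` on the domain, `e ≤ E`;
* **`sound_num`** : `gst z ≤ X (idx e k) (κ, z)` at all pairs of the domain; `sound_lane` : `gst z ≤ C.R`;
* `leaf_le` : `leaf s = some c → c ≤ FE C.P X e s + 1`; **`fok`**, `env`.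
-/

set_option autoImplicit false

namespace Crest.Agent.R288.Sound829

open Finset Crest.Agent.R295.Rnd627
open Crest.Agent.R288.Alg45 Crest.Agent.R288.Dom20 Crest.Agent.R288.GSt442
open Crest.Agent.R288.Asm331 Crest.Agent.R288.AnaLip364 Crest.Agent.R288.AdmR944
open Crest.Agent.R288.Tape829

variable {C : Cfg} {X : ℕ → ℕ × St → ℕ} {x y : List ℕ} {g p L Λ : ℕ} {ζ : ℝ}

/-- what soundness uses of the configuration -/
structure SOk (C : Cfg) (x y : List ℕ) (Λ : ℕ) : Prop where
  gd : GrdOK C.P (C.K0 + 1)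
  r : 8 ≤ C.P.r
  pb : 10 ≤ C.P.pb
  g : 0 < C.P.g
  um : 0 < C.P.um
  dl : C.P.dl ≤ C.W
  leaf : ∀ s, Dom C.P C.I s → C.leaf s = LeafO690.leafO x y C.P.n Λ s

variable (h : C.Good X) (hO : LipOk C x y g p L ζ) (hS : SOk C x y Λ) (hζ : ζ ≤ 1 / 7)

include h hO hS hζ

theorem env {e : ℕ} (he : e ≤ C.P.E) (hs : ∀ s, Dom C.P C.I s → gst x y C.P.n s ≤ FE C.P X e s) :
    Env C.P C.I C.K0 Λ C.leaf (FE C.P X e) (gst x y C.P.n) where
  ex := exact_gst x y C.P.n hO.x_le hO.y_le
  gd := hS.gd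
  r := hS.r
  pb := hS.pb
  g := hS.g
  um := hS.um
  cl _ hs' := cls_le h hO e hs'
  GF := hs
  le s hs' c hc := by
    rw [hS.leaf s hs'] at hc
    exact (LeafO690.leafO_le hc).1
  l0 s hs' h0 := by
    rw [hS.leaf s hs']
    exact Option.isSome_iff_exists.1 (LeafO690.leafO_isSome h0)
  fok := FOkG829.fok_of_good h hO hζ hS.leaf he hs

/-- the numbers of a rank, from the ranks below and the unit function -/
theorem rank_above {e : ℕ} (he : e < C.P.E)
    (hs : ∀ s, Dom C.P C.I s → gst x y C.P.n s ≤ FE C.P X e s) :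
    ∀ k < C.P.K, (∀ κ ≤ C.K0, ∀ z, Dom C.P C.I z → adm C.P (FE C.P X e) κ z = true →
        (gst x y C.P.n z : ℝ) ≤ C.R X e k κ z) ∧
      AboveX C.P C.I C.K0 (gst x y C.P.n) (Xe C.P X e k) := by
  intro k
  induction k using Nat.strong_induction_on with
  | _ k ih =>
    intro hk
    have hE := env h hO hS hζ he.le hs
    have hR : ∀ κ ≤ C.K0, ∀ z, Dom C.P C.I z → adm C.P (FE C.P X e) κ z = true →
        (gst x y C.P.n z : ℝ) ≤ C.R X e k κ z := by
      intro κ _ z hz ha
      refine lane_low (X := Xe C.P (lo (idx C.P e k) X) e) (Nat.two_pow_pos _)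
        (Nat.pow_dvd_pow 2 hS.dl) hE (fun i hi => ?_) hz ha
      rw [Xe_lo hi]
      exact (ih i hi (by omega)).2
    refine ⟨hR, fun κ hκ z hz => ?_⟩
    have hm : (κ, z) ∈ OmP C.P.N C.I C.P.Dm C.K0 := (mem_OmP (Dom20.N_pos C.P)).2 ⟨hκ, hz⟩
    show gst x y C.P.n z ≤ X (idx C.P e k) (κ, z)
    cases ha : adm C.P (FE C.P X e) κ z with
    | true =>
      have h1 := (C.good_num h he hk hm ha).1
      exact_mod_cast (hR κ hκ z hz ha).trans h1
    | false =>
      rw [C.good_alt h he hk hm ha]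
      exact hs z hz

/-- **soundness of the unit functions of a good history** -/
theorem sound {e : ℕ} (he : e ≤ C.P.E) :
    ∀ s, Dom C.P C.I s → gst x y C.P.n s ≤ FE C.P X e s := by
  induction e with
  | zero =>
    intro s hs
    refine Init772.gst_le_FE_zero (fun z hi hj hz => ?_) (good_U h hO hs).gst_le
    have hz' : Dom C.P C.I z := InD_of_Blk (C := C) hs.1 hs.2.1 ⟨hi, hj, hz⟩
    exact (good_U h hO hz').gst_le
  | succ e ih =>
    have hs := ih (by omega)
    have hE := env h hO hS hζ (by omega) hs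
    intro s hs'
    show gst x y C.P.n s ≤ hull C.P (FE C.P X e) (Xbar C.P (Xe C.P X e)) s
    refine le_hull hE (fun κ hκ z hz => ?_) hs'
    unfold Xbar
    refine AlgS125.le_cdiv_of_mul_le hO.K ?_
    rw [AlgS125.sumR_eq]
    calc C.P.K * gst x y C.P.n z = ∑ _i ∈ range C.P.K, gst x y C.P.n z := by simp
      _ ≤ _ := sum_le_sum fun i hi =>
        (rank_above h hO hS hζ (by omega) hs i (mem_range.1 hi)).2 κ hκ z hz

/-- **soundness of the exact means of the lanes** -/
theorem sound_lane {e k κ : ℕ} {z : St} (he : e < C.P.E) (hk : k < C.P.K) (hκ : κ ≤ C.K0)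
    (hz : Dom C.P C.I z) (ha : adm C.P (FE C.P X e) κ z = true) :
    (gst x y C.P.n z : ℝ) ≤ C.R X e k κ z :=
  (rank_above h hO hS hζ he (sound h hO hS hζ he.le) k hk).1 κ hκ z hz ha

/-- **soundness of the numbers** -/
theorem sound_num {e k κ : ℕ} {z : St} (he : e < C.P.E) (hk : k < C.P.K) (hκ : κ ≤ C.K0)
    (hz : Dom C.P C.I z) : gst x y C.P.n z ≤ X (idx C.P e k) (κ, z) :=
  (rank_above h hO hS hζ he (sound h hO hS hζ he.le) k hk).2 κ hκ z hz

/-- leaf values and unit functions (HG of the program side) -/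
theorem leaf_le {e : ℕ} (he : e ≤ C.P.E) {s : St} (hs : Dom C.P C.I s) {c : ℕ}
    (hc : C.leaf s = some c) : c ≤ FE C.P X e s + 1 := by
  rw [hS.leaf s hs] at hc
  exact (LeafO690.leafO_le hc).2.trans (Nat.succ_le_succ (sound h hO hS hζ he s hs))

/-- **`FOk` of the unit functions of a good history** -/
theorem fok {e : ℕ} (he : e ≤ C.P.E) : FOk C.leaf (FE C.P X e) (Dom C.P C.I) Λ :=
  FOkG829.fok_of_good h hO hζ hS.leaf he (sound h hO hS hζ he)

/-- the environment of part A at every epoch of a good history -/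
theorem env' {e : ℕ} (he : e ≤ C.P.E) :
    Env C.P C.I C.K0 Λ C.leaf (FE C.P X e) (gst x y C.P.n) :=
  env h hO hS hζ he (sound h hO hS hζ he)

end Crest.Agent.R288.Sound829
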