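import Crest.Agent.R288.JaC_195
import Crest.Agent.R288.JC_984
import Crest.Agent.R288.SoundB_829

/-!
# R288 (helper195): `JaC195.Jin`, (J) and the Lipschitz bound of the lanes, from `C.Good X`

* `jpar_of` : `ArrX984.JPar` from `LaneLaw944.LaneNum`.
* `jin_of` : `JaC195.Jin` from `LaneNum`, `FOk`, the classes, and `G` (macro height `0`).
* `jin_cfg`, `jin_good` : the same at a configuration / for a good history (829's `SOk`, 364's `LipOk`).
* `RM_eq`, `AM_eq` : `RM = C.R`, `AM = JC984.A0` (in the domain).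
* **`ja_good`** : `JA C.P (FE C.P X e) (JC984.A0 C X e k) (C.R X e k) (JaC195.ee C.P η) i j`, every block,
  all `k < K`.
-/

set_option autoImplicit false

namespace Crest.Agent.R288.JaG195

open Crest.Agent.R295.Rnd627 Crest.Agent.R295.Rnd627.RT Crest.Agent.R288.Alg45
  Crest.Agent.R288.XB715 Crest.Agent.R288.ArrX984 Crest.Agent.R288.LawU944
  Crest.Agent.R288.LawS944 Crest.Agent.R288.AdmR944 Crest.Agent.R288.LaneLaw944
  Crest.Agent.R288.Dom20 Crest.Agent.R288.JaC195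

variable {P : Par} {W Λ s top I : ℕ} {leaf : St → Option ℕ} {F G : St → ℕ}
  {X : ℕ → ℕ → St → ℕ} {k : ℕ}

theorem jpar_of (h : LaneNum P W Λ s top) (hr : 8 ≤ P.r) :
    JPar P (bL P) (wL P) (dL P) (JC984.eta P s) s where
  r := hr
  gJ := h.gJ
  mJ := h.mJ_pos
  b0 := Nat.cast_nonneg _
  w0 := Nat.cast_nonneg _
  d1 := by unfold dL; push_cast; linarith
  d2 := by
    have h1 : 32 ≤ dL P := Nat.le_add_right _ _
    exact_mod_cast h1
  m3 := by exact_mod_cast h.mJ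
  q c := by
    unfold JC984.eta
    have h1 : ((ArrB147.jks P c).length : ℝ) ≤ eL P := by exact_mod_cast jks_length P c
    have h2 : ((ArrB147.jks P c).length : ℝ) + 1 ≤ ((eL P + 1 : ℕ) : ℝ) := by push_cast; linarith
    gcongr
  η0 := JC984.eta_nonneg P s

/-- the hypotheses of macro height `0` -/
structure Bot (P : Par) (I : ℕ) (leaf : St → Option ℕ) (F G : St → ℕ) : Prop where
  lip : ∀ y z, Dom P I y → Dom P I z → y.i = z.i → y.j = z.j → G y ≤ G z + Alg45.dist y z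
  GF : ∀ y, Dom P I y → G y ≤ F y
  lo : ∀ y, Dom P I y → y.i = 0 → G y ≤ JC984.bv leaf y
  up : ∀ y, Dom P I y → y.i = 0 → JC984.bv leaf y ≤ G y + 1

theorem botNum_eq {κ : ℕ} {z : St} (ha : adm P F κ z = true) :
    botNum P leaf F κ z = JC984.bv leaf z := by
  unfold botNum JC984.bv
  rw [if_neg (by simp [ha])]

/-- **`Jin` from the numeric conditions of the lane law** -/
theorem jin_of (h : LaneNum P W Λ s top) (hr : 8 ≤ P.r) (hF : FOk leaf F (Dom P I) Λ)
    (htop : ∀ y, Dom P I y → cls F y ≤ top) (hB : Bot P I leaf F G) :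
    Jin P W leaf F X k (Dom P I) G Λ (bL P) (wL P) (dL P) (JC984.eta P s) s where
  W0 := h.W0
  dom := fun y hy => hy.inD
  dcl := by
    intro y z hy h1 h2 h3
    obtain ⟨a1, a2, -, -⟩ := hy
    unfold inD at h3
    refine ⟨by omega, by rw [h1, h2]; exact a2, ?_, ?_⟩ <;> constructor <;> omega
  fok := hF
  lam := by
    refine le_trans (le_of_eq ?_) h.tiny
    rw [show P.bb + P.a2 + 3 = P.bb + 1 + P.a2 + 2 by ring, pow_add]
    ring
  gd := fun κ y hy ha => JC984.gd_of h htop hy ha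
  par := jpar_of h hr
  body := fun i κ z hi hz ha => h.body_sq hF htop i κ z hi hz ha
  glip := hB.lip
  gF := hB.GF
  bot := by
    intro κ z hz hi ha
    rw [botNum_eq ha]
    exact ⟨hB.lo z hz hi, hB.up z hz hi⟩

section cfg

open Crest.Agent.R288.Asm331 Crest.Agent.R288.LaneN540 Crest.Agent.R288.GSt442
  Crest.Agent.R288.AnaLip364 Crest.Agent.R288.Sound829

variable {C : Cfg} {H : ℕ → ℕ × St → ℕ} {e : ℕ}

/-- `RM` is 540's lane mean -/
theorem RM_eq (κ : ℕ) (z : St) : RM C.P (2 ^ C.W) C.leaf (FE C.P H e) (Xe C.P H e) k κ z =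
    C.R H e k κ z := by
  rw [R_eq, RL_eq]
  rfl

/-- `AM` is 984's `A0` at admissible pairs -/
theorem AM_eq {κ : ℕ} {z : St} (hd : inD C.P z) (ha : adm C.P (FE C.P H e) κ z = true) :
    AM C.P (2 ^ C.W) C.leaf (FE C.P H e) (Xe C.P H e) k κ z = JC984.A0 C H e k κ z := by
  rcases Nat.eq_zero_or_pos z.i with hi | hi
  · rw [AM_zero hi, JC984.A0_zero hi, ← RM_eq, RM_zero hi hd ha]
  · rw [JC984.A0_pos hi]
    obtain ⟨i, hi'⟩ : ∃ i, z.i = i + 1 := ⟨z.i - 1, by omega⟩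
    rw [AM_succ hi']
    exact (JC984.AL_succ hi').symm

variable {x y : List ℕ} {g p L : ℕ} {ζ : ℝ}

theorem bot_good (h : C.Good H) (hO : LipOk C x y g p L ζ) (hS : SOk C x y Λ) (hζ : ζ ≤ 1 / 7)
    (he : e ≤ C.P.E) : Bot C.P C.I C.leaf (FE C.P H e) (gst x y C.P.n) where
  lip a b _ _ h1 h2 := (exact_gst x y C.P.n hO.x_le hO.y_le).lip a b h1 h2
  GF := sound h hO hS hζ he
  lo a ha hi := by
    unfold JC984.bv
    rw [hS.leaf a ha]
    obtain ⟨c, hc⟩ := Option.isSome_iff_exists.1 (LeafO690.leafO_isSome (x := x) (y := y)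
      (k := C.P.n) (Lam := Λ) hi)
    rw [hc]
    exact (LeafO690.leafO_le hc).1
  up a ha hi := by
    unfold JC984.bv
    rw [hS.leaf a ha]
    obtain ⟨c, hc⟩ := Option.isSome_iff_exists.1 (LeafO690.leafO_isSome (x := x) (y := y)
      (k := C.P.n) (Lam := Λ) hi)
    rw [hc]
    exact (LeafO690.leafO_le hc).2

/-- **`Jin` for a good history** -/
theorem jin_good (hN : LaneNum C.P (2 ^ C.W) Λ s top) (hK : C.K0 ≤ top + C.P.a2)
    (h : C.Good H) (hO : LipOk C x y g p L ζ) (hS : SOk C x y Λ) (hζ : ζ ≤ 1 / 7)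
    (he : e ≤ C.P.E) (k : ℕ) :
    Jin C.P (2 ^ C.W) C.leaf (FE C.P H e) (Xe C.P H e) k (Dom C.P C.I) (gst x y C.P.n) Λ
      (bL C.P) (wL C.P) (dL C.P) (JC984.eta C.P s) s :=
  jin_of hN hS.r (fok h hO hS hζ he)
    (fun z hz => by have := cls_le h hO e hz; omega) (bot_good h hO hS hζ he)

/-- **(J) on every block, for a good history** -/
theorem ja_good (hN : LaneNum C.P (2 ^ C.W) Λ s top) (hK : C.K0 ≤ top + C.P.a2)
    (h : C.Good H) (hO : LipOk C x y g p L ζ) (hS : SOk C x y Λ) (hζ : ζ ≤ 1 / 7)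
    (he : e ≤ C.P.E) (k : ℕ) {i j : ℕ} (hi : i ≤ C.I) (hj : j < C.P.N ^ (C.I - i)) :
    ArrLip195.JA C.P (FE C.P H e) (JC984.A0 C H e k) (C.R H e k)
      (ee C.P (JC984.eta C.P s)) i j := by
  have hJ := (jin_good hN hK h hO hS hζ he k).ja hS.r (i := i) (j := j)
    fun z hz => JC984.blk_dom hi hj hz
  have hA : ∀ κ z, ArrLip195.Blk C.P i j z → adm C.P (FE C.P H e) κ z = true →
      AM C.P (2 ^ C.W) C.leaf (FE C.P H e) (Xe C.P H e) k κ z = JC984.A0 C H e k κ z :=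
    fun κ z hz ha => AM_eq hz.2.2 ha
  refine ⟨fun κ z hz ha => ?_, hJ.e0, ?_, ?_, ?_⟩
  · rw [← hA κ z hz ha]
    exact hJ.A0 κ z hz ha
  · intro κ y hy ha m m1 m2 m3
    rw [← RM_eq]
    refine hJ.low κ y hy ha m m1 m2 fun κ' z hz haz k1 k2 hd => ?_
    rw [hA κ' z hz haz]
    exact m3 κ' z hz haz k1 k2 hd
  · intro κ y hy ha
    rw [← RM_eq]
    exact hJ.upF κ y hy ha
  · intro κ y hy ha κ' z hz haz k1 k2 hd
    rw [← RM_eq, ← hA κ' z hz haz]
    exact hJ.upM κ y hy ha κ' z hz haz k1 k2 hd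

end cfg

end Crest.Agent.R288.JaG195
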