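import Mathlib

/-!
# R288, leaf [K]: Karp–Miller–Rosenberg names, pure part

* `rho q t`: number of changes of `q` on `[0, t]` (dense ranks of a sorted sequence).
* `Nm S M T k`: the cells `T (k * (M + 1) + i)` are names of the substrings
  `S i, …, S (i + 2 ^ k - 1)` of length `2 ^ k` (of the string `S 0, …, S (M - 1)`).
* `Names S M T`: names on all levels.
-/

set_option autoImplicit false

namespace Crest.Agent.R288.Kmr725

/-- number of changes of `q` on `[0, t]` -/
def rho (q : ℕ → ℕ) : ℕ → ℕ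
  | 0 => 0
  | t + 1 => if q (t + 1) = q t then rho q t else rho q t + 1

theorem rho_le (q : ℕ → ℕ) (t : ℕ) : rho q t ≤ t := by
  induction t with
  | zero => exact le_rfl
  | succ t ih =>
    rw [rho]
    split <;> omega

theorem rho_aux {q : ℕ → ℕ} {N : ℕ} (hq : ∀ t t', t ≤ t' → t' < N → q t ≤ q t') {t t' : ℕ}
    (h : t ≤ t') (h' : t' < N) :
    rho q t ≤ rho q t' ∧ (rho q t = rho q t' ↔ q t = q t') := by
  induction t', h using Nat.le_induction with
  | base => simp
  | succ t' ht ih =>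
    obtain ⟨h1, h2⟩ := ih (by omega)
    have h3 := hq t' (t' + 1) (by omega) h'
    have h4 := hq t t' ht (by omega)
    rw [rho]
    split
    · next h5 => rw [h5]; exact ⟨h1, h2⟩
    · next h5 =>
      refine ⟨by omega, ?_⟩
      constructor <;> intro h6 <;> omega

/-- the dense ranks of a sorted sequence compare like the sequence -/
theorem rho_le_iff {q : ℕ → ℕ} {N : ℕ} (hq : ∀ t t', t ≤ t' → t' < N → q t ≤ q t') {t t' : ℕ}
    (h : t < N) (h' : t' < N) : rho q t ≤ rho q t' ↔ q t ≤ q t' := by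
  rcases le_total t t' with h1 | h1
  · exact ⟨fun _ => hq _ _ h1 h', fun _ => (rho_aux hq h1 h').1⟩
  · obtain ⟨h2, h3⟩ := rho_aux hq h1 h
    have h4 := hq _ _ h1 h
    constructor
    · intro h5
      exact (h3.1 (by omega)).ge
    · intro h5
      exact (h3.2 (by omega)).ge

/-! ### names -/

/-- the substrings of length `2 ^ k` at `i` and `j` agree -/
def Blk (S : ℕ → ℕ) (k i j : ℕ) : Prop := ∀ t < 2 ^ k, S (i + t) = S (j + t)

theorem blk_zero {S : ℕ → ℕ} {i j : ℕ} : Blk S 0 i j ↔ S i = S j := by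
  unfold Blk
  constructor
  · intro h
    simpa using h 0 (by simp)
  · intro h t ht
    have : t = 0 := by simpa using ht
    subst this
    simpa using h

theorem blk_succ {S : ℕ → ℕ} {k i j : ℕ} :
    Blk S (k + 1) i j ↔ Blk S k i j ∧ Blk S k (i + 2 ^ k) (j + 2 ^ k) := by
  unfold Blk
  have hp : 2 ^ (k + 1) = 2 ^ k + 2 ^ k := by rw [pow_succ]; omega
  constructor
  · intro h
    refine ⟨fun t ht => h t (by omega), fun t ht => ?_⟩
    have := h (2 ^ k + t) (by omega)
    rw [← add_assoc, ← add_assoc] at this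
    exact this
  · rintro ⟨h1, h2⟩ t ht
    rcases lt_or_ge t (2 ^ k) with h3 | h3
    · exact h1 t h3
    · have := h2 (t - 2 ^ k) (by omega)
      have e1 : i + 2 ^ k + (t - 2 ^ k) = i + t := by omega
      have e2 : j + 2 ^ k + (t - 2 ^ k) = j + t := by omega
      rwa [e1, e2] at this

/-- the cells `T (k * (M + 1) + i)` are names of the substrings of length `2 ^ k` -/
def Nm (S : ℕ → ℕ) (M : ℕ) (T : ℕ → ℕ) (k : ℕ) : Prop :=
  ∀ i, i + 2 ^ k ≤ M → T (k * (M + 1) + i) < M ∧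
    ∀ j, j + 2 ^ k ≤ M → (T (k * (M + 1) + i) = T (k * (M + 1) + j) ↔ Blk S k i j)

/-- names on all levels (the levels `k` with `M < 2 ^ k` are empty) -/
def Names (S : ℕ → ℕ) (M : ℕ) (T : ℕ → ℕ) : Prop := ∀ k, Nm S M T k

theorem Nm.congr {S S' T T' : ℕ → ℕ} {M k : ℕ} (h : Nm S M T k)
    (hS : ∀ i < M, S' i = S i) (hT : ∀ i, i + 2 ^ k ≤ M → T' (k * (M + 1) + i) = T (k * (M + 1) + i)) :
    Nm S' M T' k := by
  intro i hi
  obtain ⟨h1, h2⟩ := h i hi
  rw [hT i hi]
  refine ⟨h1, fun j hj => ?_⟩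
  rw [hT j hj, h2 j hj]
  unfold Blk
  constructor
  · intro h3 t ht
    rw [hS _ (by omega), hS _ (by omega)]
    exact h3 t ht
  · intro h3 t ht
    have := h3 t ht
    rwa [hS _ (by omega), hS _ (by omega)] at this

theorem Names.congr {S S' T T' : ℕ → ℕ} {M : ℕ} (h : Names S M T)
    (hS : ∀ i < M, S' i = S i)
    (hT : ∀ k i, i + 2 ^ k ≤ M → T' (k * (M + 1) + i) = T (k * (M + 1) + i)) : Names S' M T' :=
  fun k => (h k).congr hS (hT k)

/-- the equality of two substrings of length `2 ^ k` -/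
theorem Names.eq_iff {S T : ℕ → ℕ} {M k i j : ℕ} (h : Names S M T) (hi : i + 2 ^ k ≤ M)
    (hj : j + 2 ^ k ≤ M) :
    T (k * (M + 1) + i) = T (k * (M + 1) + j) ↔ ∀ t < 2 ^ k, S (i + t) = S (j + t) :=
  (h k i hi).2 j hj

theorem Names.lt {S T : ℕ → ℕ} {M k i : ℕ} (h : Names S M T) (hi : i + 2 ^ k ≤ M) :
    T (k * (M + 1) + i) < M := (h k i hi).1

/-- equality of two substrings of length `l` with `2 ^ k ≤ l ≤ 2 ^ (k + 1)` by two overlapping
names -/
theorem Names.eq_iff_overlap {S T : ℕ → ℕ} {M k l i j : ℕ} (h : Names S M T) (hk : 2 ^ k ≤ l)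
    (hk' : l ≤ 2 ^ (k + 1)) (hi : i + l ≤ M) (hj : j + l ≤ M) :
    (T (k * (M + 1) + i) = T (k * (M + 1) + j) ∧
      T (k * (M + 1) + (i + (l - 2 ^ k))) = T (k * (M + 1) + (j + (l - 2 ^ k)))) ↔
    ∀ t < l, S (i + t) = S (j + t) := by
  have hp : 2 ^ (k + 1) = 2 ^ k + 2 ^ k := by rw [pow_succ]; omega
  rw [h.eq_iff (by omega) (by omega), h.eq_iff (by omega) (by omega)]
  constructor
  · rintro ⟨h1, h2⟩ t ht
    rcases lt_or_ge t (2 ^ k) with h3 | h3
    · exact h1 t h3
    · have := h2 (t - (l - 2 ^ k)) (by omega)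
      have e1 : i + (l - 2 ^ k) + (t - (l - 2 ^ k)) = i + t := by omega
      have e2 : j + (l - 2 ^ k) + (t - (l - 2 ^ k)) = j + t := by omega
      rwa [e1, e2] at this
  · intro h1
    refine ⟨fun t ht => h1 t (by omega), fun t ht => ?_⟩
    have := h1 (l - 2 ^ k + t) (by omega)
    rw [← add_assoc, ← add_assoc] at this
    exact this

/-- the pairs of names are coded injectively -/
theorem pair_eq_iff {D a b a' b' : ℕ} (hb : b < D) (hb' : b' < D) :
    a * D + b = a' * D + b' ↔ a = a' ∧ b = b' := by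
  constructor
  · intro h
    have h1 : (a * D + b) / D = a := by
      rw [mul_comm, Nat.mul_add_div (by omega), Nat.div_eq_of_lt hb, add_zero]
    have h2 : (a' * D + b') / D = a' := by
      rw [mul_comm, Nat.mul_add_div (by omega), Nat.div_eq_of_lt hb', add_zero]
    have h3 : a = a' := by rw [← h1, ← h2, h]
    subst h3
    exact ⟨rfl, by omega⟩
  · rintro ⟨rfl, rfl⟩
    rfl

/-- level `0` from ranks of the symbols -/
theorem nm_zero {S T : ℕ → ℕ} {M : ℕ}
    (h : ∀ i < M, T i < M ∧ ∀ j < M, (T i = T j ↔ S i = S j)) : Nm S M T 0 := by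
  intro i hi
  simp only [pow_zero, zero_mul, zero_add] at *
  refine ⟨(h i (by omega)).1, fun j hj => ?_⟩
  rw [(h i (by omega)).2 j (by omega), blk_zero]

/-- level `k + 1` from level `k` and ranks of the pairs -/
theorem nm_succ {S T T' : ℕ → ℕ} {M k N : ℕ} (h0 : Nm S M T k) (hN : N + 2 ^ (k + 1) = M + 1)
    (h : ∀ i < N, T' ((k + 1) * (M + 1) + i) < N ∧ ∀ j < N,
      (T' ((k + 1) * (M + 1) + i) = T' ((k + 1) * (M + 1) + j) ↔
        T (k * (M + 1) + i) * (M + 1) + T (k * (M + 1) + i + 2 ^ k) =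
          T (k * (M + 1) + j) * (M + 1) + T (k * (M + 1) + j + 2 ^ k))) : Nm S M T' (k + 1) := by
  have hp : 2 ^ (k + 1) = 2 ^ k + 2 ^ k := by rw [pow_succ]; omega
  have hp0 : 0 < 2 ^ k := Nat.two_pow_pos k
  intro i hi
  refine ⟨by have := (h i (by omega)).1; omega, fun j hj => ?_⟩
  rw [(h i (by omega)).2 j (by omega)]
  have a1 := h0 (i + 2 ^ k) (by omega)
  have a2 := h0 (j + 2 ^ k) (by omega)
  have a3 := h0 i (by omega)
  rw [← add_assoc] at a1 a2
  rw [pair_eq_iff (by omega) (by omega), a3.2 j (by omega), blk_succ, ← a1.2 (j + 2 ^ k) (by omega),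
    ← add_assoc]

end Crest.Agent.R288.Kmr725
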