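import Crest.Agent.R288.VI_684

/-!
# R288 (helper107): relative error of the value iteration computed on menus from noisy stops

Setting of `VI_684`: `C S P n k i j u v` = value iteration with `k` windows of look ahead, stops `S`,
terminal values `P`; `F` = mean of the first `K` iterates.

One step of a program (procedure LA of FROZEN PROGRAM v1, #4533): it has a number `a'` for the stop and
numbers `t q w w'` for the pieces, only for `w, w'` in a menu `M` (plus the two outer ends), and returns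
`min(a', min over the staircases with inner cuts in M of ∑ t)`.  The output is described by
`IsMin` (lower bound of everything, attained).

* `round_stair` : an optimal staircase can be moved into the menu, cost `2^(r+1) ρ`;
* `la_step` : relative errors: lower error `lo` is kept, upper error `hi` becomes `hi (1 + θ)`, if
  `2^(n+1) ρ ≤ θ C` (`ρ` = radius of the menu grid).  Noise of different calls is arbitrary
  (adversarial), so the lemma is used on the event that all calls are good.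
* `F_err` : the mean over the horizons.
* `msMenu`, `msMenu_near`, `la_step_ms` : the multi scale menu (165 #4613): relative error
  `2^(n+2) / Q` per window without any relation between the stop price and the value.
* `ic_step` : inf-convolution over a menu from noisy values (procedure CH).
-/

set_option autoImplicit false

namespace Crest.Agent.R288.LaErr107

open Finset Crest.Agent.R288.VI684

/-- all inner cuts of a staircase over `2^r` pieces lie in the menu -/
def InMenu (M : Set ℤ) (r : ℕ) (m : ℕ → ℤ) : Prop := ∀ q, 0 < q → q < 2 ^ r → m q ∈ M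

/-- sum of the numbers `t` over a staircase -/
noncomputable def tsum (t : ℕ → ℤ → ℤ → ℝ) (r : ℕ) (m : ℕ → ℤ) : ℝ :=
  ∑ q ∈ range (2 ^ r), t q (m q) (m (q + 1))

theorem stair_eq_tsum (f : ℕ → ℤ → ℤ → ℝ) (r j : ℕ) (m : ℕ → ℤ) :
    stair f r j m = tsum (fun q => f (2 ^ r * j + q)) r m := rfl

/-- `a` is the minimum of the stop `a'` and of all staircases in the menu -/
structure IsMin (M : Set ℤ) (t : ℕ → ℤ → ℤ → ℝ) (r : ℕ) (u v : ℤ) (a' a : ℝ) : Prop where
  le_stop : a ≤ a'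
  le_stair : ∀ m : ℕ → ℤ, m 0 = u → m (2 ^ r) = v → InMenu M r m → a ≤ tsum t r m
  att : a = a' ∨ ∃ m : ℕ → ℤ, m 0 = u ∧ m (2 ^ r) = v ∧ InMenu M r m ∧ a = tsum t r m

/-- the cuts of a staircase are at distance at most its cost from the left end -/
theorem cut_le {f : ℕ → ℤ → ℤ → ℝ} (hf : ∀ j, Coer (f j)) (r j : ℕ) (m : ℕ → ℤ) {q : ℕ}
    (hq : q ≤ 2 ^ r) : dz (m 0) (m q) ≤ stair f r j m := by
  have h1 : ∀ p ≤ 2 ^ r, dz (m 0) (m p) ≤
      ∑ s ∈ range p, f (2 ^ r * j + s) (m s) (m (s + 1)) := by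
    intro p
    induction p with
    | zero => intro _; simp [dz_self]
    | succ p ih =>
      intro hp
      rw [sum_range_succ]
      have h2 := ih (by omega)
      have h3 := hf (2 ^ r * j + p) (m p) (m (p + 1))
      have h4 := dz_tri (m 0) (m p) (m (p + 1))
      linarith
  refine (h1 q hq).trans ?_
  unfold stair
  refine sum_le_sum_of_subset_of_nonneg (range_mono hq) fun s _ _ => (hf _).nonneg _ _

/-- moving the inner cuts by at most `ρ` each costs at most `2^(r+1) ρ` -/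
theorem stair_move {f : ℕ → ℤ → ℤ → ℝ} (hL : ∀ j, Lip (f j)) (r j : ℕ) (m m' : ℕ → ℤ) {ρ : ℝ}
    (hm : ∀ q ≤ 2 ^ r, dz (m' q) (m q) ≤ ρ) :
    stair f r j m' ≤ stair f r j m + 2 ^ (r + 1) * ρ := by
  unfold stair
  have h1 : ∀ s ∈ range (2 ^ r), f (2 ^ r * j + s) (m' s) (m' (s + 1)) ≤
      f (2 ^ r * j + s) (m s) (m (s + 1)) + 2 * ρ := by
    intro s hs
    have hs' := mem_range.1 hs
    have h2 := hL (2 ^ r * j + s) (m' s) (m' (s + 1)) (m s) (m (s + 1))
    have h3 := hm s (by omega)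
    have h4 := hm (s + 1) (by omega)
    linarith
  refine (sum_le_sum h1).trans ?_
  rw [sum_add_distrib, sum_const, card_range, nsmul_eq_mul]
  push_cast
  have : (2 : ℝ) ^ r * (2 * ρ) = 2 ^ (r + 1) * ρ := by rw [pow_succ]; ring
  linarith

/-- **rounding an optimal staircase into the menu** -/
theorem round_stair {f : ℕ → ℤ → ℤ → ℝ} (hf : ∀ j, Coer (f j)) (hL : ∀ j, Lip (f j)) (r j : ℕ)
    (u v : ℤ) {M : Set ℤ} {ρ R : ℝ} (hρ : 0 ≤ ρ) (hR : W f r j u v ≤ R)
    (hM : ∀ w, dz u w ≤ R → ∃ w' ∈ M, dz w' w ≤ ρ) :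
    ∃ m : ℕ → ℤ, m 0 = u ∧ m (2 ^ r) = v ∧ InMenu M r m ∧
      stair f r j m ≤ W f r j u v + 2 ^ (r + 1) * ρ := by
  classical
  obtain ⟨m, h0, h1, hm⟩ := exists_stair hf r j u v
  have hw : ∀ q, q ≤ 2 ^ r → ∃ w' ∈ M, dz w' (m q) ≤ ρ := fun q hq => by
    refine hM _ ?_
    have := cut_le hf r j m hq
    rw [h0, hm] at this
    exact this.trans hR
  have hp : 0 < 2 ^ r := by positivity
  choose! w hwM hwρ using hw
  refine ⟨fun q => if q = 0 then u else if q = 2 ^ r then v else w q, by simp, ?_, ?_, ?_⟩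
  · show (if 2 ^ r = 0 then u else if 2 ^ r = 2 ^ r then v else w (2 ^ r)) = v
    rw [if_neg (by omega), if_pos rfl]
  · intro q hq0 hq1
    show (if q = 0 then u else if q = 2 ^ r then v else w q) ∈ M
    rw [if_neg (by omega), if_neg (by omega)]
    exact hwM q (by omega)
  · rw [← hm]
    refine stair_move hL r j m _ fun q hq => ?_
    show dz (if q = 0 then u else if q = 2 ^ r then v else w q) (m q) ≤ ρ
    rcases Nat.eq_zero_or_pos q with h | h
    · subst h
      rw [if_pos rfl, h0, dz_self]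
      exact hρ
    · rw [if_neg (by omega)]
      by_cases h2 : q = 2 ^ r
      · subst h2
        rw [if_pos rfl, h1, dz_self]
        exact hρ
      · rw [if_neg h2]
        exact hwρ q hq

section step

variable {S : ℕ → ℕ → ℤ → ℤ → ℝ} {P : ℕ → ℤ → ℤ → ℝ} {n : ℕ}

/-- **One step of the noisy value iteration on a menu.** -/
theorem la_step (hS : ∀ i j, Coer (S i j)) (hP : ∀ j, Coer (P j))
    (hSl : ∀ i j, Lip (S i j)) (hPl : ∀ j, Lip (P j)) (k i j : ℕ) (u v : ℤ)
    {M : Set ℤ} {t : ℕ → ℤ → ℤ → ℝ} {a' a lo hi θ ρ : ℝ}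
    (ha : IsMin M t n u v a' a) (hlo : 0 ≤ lo) (hhi : 0 ≤ hi) (hρ : 0 ≤ ρ)
    (ha1 : lo * S (i + 1) j u v ≤ a') (ha2 : a' ≤ hi * (1 + θ) * S (i + 1) j u v)
    (hM : ∀ w, dz u w ≤ C S P n (k + 1) (i + 1) j u v → ∃ w' ∈ M, dz w' w ≤ ρ)
    (hρθ : 2 ^ (n + 1) * ρ ≤ θ * C S P n (k + 1) (i + 1) j u v)
    (ht : ∀ q < 2 ^ n, ∀ w w', (w ∈ M ∨ w = u) → (w' ∈ M ∨ w' = v) →
      lo * C S P n k i (2 ^ n * j + q) w w' ≤ t q w w' ∧
      t q w w' ≤ hi * C S P n k i (2 ^ n * j + q) w w') :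
    lo * C S P n (k + 1) (i + 1) j u v ≤ a ∧
      a ≤ hi * (1 + θ) * C S P n (k + 1) (i + 1) j u v := by
  have hCc : ∀ j, Coer (C S P n k i j) := fun j => C_coer hS hP k i j
  have hCl : ∀ j, Lip (C S P n k i j) := fun j => C_lip hS hP hSl hPl k i j
  have hin : ∀ m : ℕ → ℤ, m 0 = u → m (2 ^ n) = v → InMenu M n m → ∀ q < 2 ^ n,
      (m q ∈ M ∨ m q = u) ∧ (m (q + 1) ∈ M ∨ m (q + 1) = v) := by
    intro m h0 h1 hm q hq
    constructor
    · rcases Nat.eq_zero_or_pos q with h | h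
      · right; rw [h, h0]
      · left; exact hm q h hq
    · by_cases h : q + 1 = 2 ^ n
      · right; rw [h, h1]
      · left; exact hm (q + 1) (by omega) (by omega)
  constructor
  · rcases ha.att with h | ⟨m, h0, h1, hm, h⟩
    · rw [h]
      exact (mul_le_mul_of_nonneg_left (C_le_S (k + 1) i j u v) hlo).trans ha1
    · rw [h]
      have h2 : lo * C S P n (k + 1) (i + 1) j u v ≤ lo * stair (C S P n k i) n j m := by
        refine mul_le_mul_of_nonneg_left ?_ hlo
        have := C_le_stair (n := n) hS hP k i j m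
        rwa [h0, h1] at this
      refine h2.trans ?_
      rw [stair_eq_tsum, tsum, tsum, mul_sum]
      refine sum_le_sum fun q hq => ?_
      have hq' := mem_range.1 hq
      exact (ht q hq' _ _ (hin m h0 h1 hm q hq').1 (hin m h0 h1 hm q hq').2).1
  · have hC0 : 0 ≤ C S P n (k + 1) (i + 1) j u v := (C_coer hS hP _ _ _).nonneg _ _
    rw [C_succ] at hρθ hC0 hM ⊢
    rcases min_choice (S (i + 1) j u v) (W (C S P n k i) n j u v) with h | h
    · rw [h]
      exact ha.le_stop.trans ha2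
    · rw [h] at hρθ hC0 hM ⊢
      obtain ⟨m, h0, h1, hm, h2⟩ := round_stair hCc hCl n j u v hρ le_rfl hM
      have h3 := ha.le_stair m h0 h1 hm
      have h4 : tsum t n m ≤ hi * stair (C S P n k i) n j m := by
        rw [stair_eq_tsum, tsum, tsum, mul_sum]
        refine sum_le_sum fun q hq => ?_
        have hq' := mem_range.1 hq
        exact (ht q hq' _ _ (hin m h0 h1 hm q hq').1 (hin m h0 h1 hm q hq').2).2
      have h5 : hi * stair (C S P n k i) n j m ≤
          hi * (W (C S P n k i) n j u v + θ * W (C S P n k i) n j u v) :=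
        mul_le_mul_of_nonneg_left (by linarith) hhi
      have h6 : hi * (W (C S P n k i) n j u v + θ * W (C S P n k i) n j u v) =
          hi * (1 + θ) * W (C S P n k i) n j u v := by ring
      linarith

/-- the mean over the horizons -/
theorem F_err {K : ℕ} (i j : ℕ) (u v : ℤ) {a : ℕ → ℝ} {lo hi : ℝ}
    (h : ∀ k < K, lo * C S P n k i j u v ≤ a k ∧ a k ≤ hi * C S P n k i j u v) :
    lo * F S P n K i j u v ≤ (∑ k ∈ range K, a k) / K ∧
      (∑ k ∈ range K, a k) / K ≤ hi * F S P n K i j u v := by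
  have hK : (0 : ℝ) ≤ K := by positivity
  unfold F
  rw [← mul_div_assoc, ← mul_div_assoc, mul_sum, mul_sum]
  exact ⟨div_le_div_of_nonneg_right (sum_le_sum fun k hk => (h k (mem_range.1 hk)).1) hK,
    div_le_div_of_nonneg_right (sum_le_sum fun k hk => (h k (mem_range.1 hk)).2) hK⟩

/-- errors of `k ≤ J` steps: `hi (1 + θ) ^ k` -/
theorem pow_err_mono {hi θ x : ℝ} (hhi : 0 ≤ hi) (hθ : 0 ≤ θ) (hx : 0 ≤ x) {k J : ℕ} (hk : k ≤ J) :
    hi * (1 + θ) ^ k * x ≤ hi * (1 + θ) ^ J * x :=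
  mul_le_mul_of_nonneg_right (mul_le_mul_of_nonneg_left
    (pow_le_pow_right₀ (by linarith) hk) hhi) hx

end step

/-! ### menus -/

/-- rounding down to a multiple -/
theorem near_mult {g : ℕ} (hg : 0 < g) (w : ℤ) : ∃ w' : ℤ, (g : ℤ) ∣ w' ∧ dz w' w ≤ g := by
  have hg' : (0 : ℤ) < g := by exact_mod_cast hg
  refine ⟨g * (w / g), Dvd.intro _ rfl, ?_⟩
  have h1 := Int.emod_add_mul_ediv w g
  have h2 := Int.emod_nonneg w hg'.ne'
  have h3 := Int.emod_lt_of_pos w hg'
  unfold dz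
  have h4 : ((g * (w / g) : ℤ) : ℝ) - (w : ℝ) = -((w % g : ℤ) : ℝ) := by
    have : ((w % g : ℤ) : ℝ) + ((g * (w / g) : ℤ) : ℝ) = (w : ℝ) := by exact_mod_cast h1
    linarith
  rw [h4, abs_neg, abs_of_nonneg (by exact_mod_cast h2)]
  exact_mod_cast h3.le

/-- the multi scale menu: multiples of `max 1 (2^a / P)` within `2 * 2^a` of `u`, for all `a ≤ A` -/
def msMenu (P A : ℕ) (u : ℤ) : Set ℤ :=
  {w | ∃ a ≤ A, ((max 1 (2 ^ a / P) : ℕ) : ℤ) ∣ w ∧ dz u w ≤ 2 * 2 ^ a}

/-- **the multi scale menu is relatively fine**: every cut at distance at most `c` from `u` is within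
`(2 / P) c` of the menu, whatever `c ≤ 2 ^ A` is. -/
theorem msMenu_near {P A : ℕ} (hP : 0 < P) {u w : ℤ} {c : ℝ} (hw : dz u w ≤ c) (hc : c ≤ 2 ^ A) :
    ∃ w' ∈ msMenu P A u, dz w' w ≤ 2 / P * c := by
  have hc0 : 0 ≤ c := (dz_nonneg _ _).trans hw
  have hP' : (0 : ℝ) < P := by exact_mod_cast hP
  -- the scale
  obtain ⟨a, haA, hca, hac⟩ : ∃ a ≤ A, c ≤ 2 ^ a ∧ (a = 0 ∨ (2 : ℝ) ^ a ≤ 2 * c) := by
    have hex : ∃ a : ℕ, c ≤ 2 ^ a := ⟨A, hc⟩
    classical
    refine ⟨Nat.find hex, Nat.find_min' hex hc, Nat.find_spec hex, ?_⟩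
    rcases Nat.eq_zero_or_pos (Nat.find hex) with h | h
    · exact Or.inl h
    · right
      have h1 := Nat.find_min hex (m := Nat.find hex - 1) (by omega)
      have h2 : (2 : ℝ) ^ Nat.find hex = 2 * 2 ^ (Nat.find hex - 1) := by
        rw [← pow_succ']
        congr 1
        omega
      rw [h2]
      exact mul_le_mul_of_nonneg_left (not_le.1 h1).le (by norm_num)
  have h2c : 0 ≤ 2 / (P : ℝ) * c := by positivity
  by_cases h : 2 ^ a / P ≤ 1
  · refine ⟨w, ⟨a, haA, ?_, ?_⟩, by rw [dz_self]; exact h2c⟩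
    · rw [max_eq_left h]
      simp
    · have : (0 : ℝ) < 2 ^ a := by positivity
      linarith
  · have hs : max 1 (2 ^ a / P) = 2 ^ a / P := max_eq_right (by omega)
    obtain ⟨w', h1, h3⟩ := near_mult (g := 2 ^ a / P) (by omega) w
    have h4 : ((2 ^ a / P : ℕ) : ℝ) ≤ 2 ^ a / P := by
      have := @Nat.cast_div_le ℝ _ _ _ (2 ^ a) P
      push_cast at this
      exact this
    have ha0 : a ≠ 0 := by
      rintro rfl
      have : 2 ^ 0 / P ≤ 1 := (Nat.div_le_self _ _).trans (by norm_num)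
      exact h this
    have h5 : (2 : ℝ) ^ a ≤ 2 * c := hac.resolve_left ha0
    have h6 : (2 : ℝ) ^ a / P ≤ 2 / P * c := by
      rw [div_mul_eq_mul_div]
      exact div_le_div_of_nonneg_right h5 hP'.le
    have h7 : (2 : ℝ) ^ a / P ≤ 2 ^ a := by
      apply div_le_self (by positivity)
      exact_mod_cast hP
    refine ⟨w', ⟨a, haA, by rw [hs]; exact h1, ?_⟩, by linarith⟩
    have h8 := dz_tri u w w'
    rw [dz_comm w w'] at h8
    linarith

section

variable {S : ℕ → ℕ → ℤ → ℤ → ℝ} {P : ℕ → ℤ → ℤ → ℝ} {n : ℕ}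

/-- `la_step` with the multi scale menu: the relative error of one window is `2^(n+2) / Q` -/
theorem la_step_ms (hS : ∀ i j, Coer (S i j)) (hP : ∀ j, Coer (P j))
    (hSl : ∀ i j, Lip (S i j)) (hPl : ∀ j, Lip (P j)) (k i j : ℕ) (u v : ℤ) {Q A : ℕ} (hQ : 0 < Q)
    {t : ℕ → ℤ → ℤ → ℝ} {a' a lo hi θ : ℝ} (hA : C S P n (k + 1) (i + 1) j u v ≤ 2 ^ A)
    (ha : IsMin (msMenu Q A u) t n u v a' a) (hlo : 0 ≤ lo) (hhi : 0 ≤ hi)
    (hθ : 2 ^ (n + 2) ≤ θ * Q)
    (ha1 : lo * S (i + 1) j u v ≤ a') (ha2 : a' ≤ hi * (1 + θ) * S (i + 1) j u v)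
    (ht : ∀ q < 2 ^ n, ∀ w w', (w ∈ msMenu Q A u ∨ w = u) → (w' ∈ msMenu Q A u ∨ w' = v) →
      lo * C S P n k i (2 ^ n * j + q) w w' ≤ t q w w' ∧
      t q w w' ≤ hi * C S P n k i (2 ^ n * j + q) w w') :
    lo * C S P n (k + 1) (i + 1) j u v ≤ a ∧
      a ≤ hi * (1 + θ) * C S P n (k + 1) (i + 1) j u v := by
  have hC0 : 0 ≤ C S P n (k + 1) (i + 1) j u v := (C_coer hS hP _ _ _).nonneg _ _
  have hQ' : (0 : ℝ) < Q := by exact_mod_cast hQ
  refine la_step hS hP hSl hPl k i j u v ha hlo hhi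
    (ρ := 2 / Q * C S P n (k + 1) (i + 1) j u v) (by positivity) ha1 ha2
    (fun w hw => msMenu_near hQ hw hA) ?_ ht
  have h1 : (2 : ℝ) ^ (n + 1) * (2 / Q * C S P n (k + 1) (i + 1) j u v) =
      2 ^ (n + 2) / Q * C S P n (k + 1) (i + 1) j u v := by
    rw [pow_succ 2 (n + 1)]
    ring
  rw [h1]
  refine mul_le_mul_of_nonneg_right ?_ hC0
  rw [div_le_iff₀ hQ']
  exact hθ

end

/-! ### inf-convolution over a menu -/

/-- `a` is the minimum over the menu `M` of pairs of `dist + b` -/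
structure IsConvMin (M : Set (ℤ × ℤ)) (b : ℤ → ℤ → ℝ) (u v : ℤ) (a : ℝ) : Prop where
  le : ∀ p ∈ M, a ≤ b p.1 p.2 + (dz u p.1 + dz v p.2)
  att : ∃ p ∈ M, a = b p.1 p.2 + (dz u p.1 + dz v p.2)

/-- **noisy inf-convolution over a menu** (`f` itself need not be Lipschitz; the menu contains a
point near every possible minimiser, with a value not much larger) -/
theorem ic_step {f : ℤ → ℤ → ℝ} (hf : ∀ u v, 0 ≤ f u v) {b : ℤ → ℤ → ℝ} {u v : ℤ} {a lo hi : ℝ}
    {M : Set (ℤ × ℤ)} (ha : IsConvMin M b u v a) (hlo : 0 ≤ lo) (hlo1 : lo ≤ 1) (hhi : 1 ≤ hi)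
    (hb : ∀ p ∈ M, lo * f p.1 p.2 ≤ b p.1 p.2 ∧ b p.1 p.2 ≤ hi * f p.1 p.2)
    {e : ℝ} (hM : ∀ w w', f w w' + (dz u w + dz v w') ≤ f u v →
      ∃ p ∈ M, f p.1 p.2 + (dz u p.1 + dz v p.2) ≤ f w w' + (dz u w + dz v w') + e) :
    lo * ic2 f u v ≤ a ∧ a ≤ hi * (ic2 f u v + e) := by
  constructor
  · obtain ⟨p, hp, h⟩ := ha.att
    have h1 := ic2_le hf u v p.1 p.2
    have h2 := (hb p hp).1
    have h3 : lo * ic2 f u v ≤ lo * (f p.1 p.2 + (dz u p.1 + dz v p.2)) :=
      mul_le_mul_of_nonneg_left h1 hlo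
    have h4 : 0 ≤ dz u p.1 + dz v p.2 := add_nonneg (dz_nonneg _ _) (dz_nonneg _ _)
    have h5 : lo * (dz u p.1 + dz v p.2) ≤ 1 * (dz u p.1 + dz v p.2) :=
      mul_le_mul_of_nonneg_right hlo1 h4
    rw [h]
    linarith
  · obtain ⟨w, w', hw⟩ := exists_ic2 hf u v
    have hle : f w w' + (dz u w + dz v w') ≤ f u v := by
      rw [← hw]
      exact ic2_le_self hf u v
    obtain ⟨p, hp, h1⟩ := hM w w' hle
    have h2 := ha.le p hp
    have h3 := (hb p hp).2
    have h4 : 0 ≤ dz u p.1 + dz v p.2 := add_nonneg (dz_nonneg _ _) (dz_nonneg _ _)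
    have h5 : 1 * (dz u p.1 + dz v p.2) ≤ hi * (dz u p.1 + dz v p.2) :=
      mul_le_mul_of_nonneg_right hhi h4
    have h6 : hi * (f p.1 p.2 + (dz u p.1 + dz v p.2)) ≤ hi * (ic2 f u v + e) := by
      refine mul_le_mul_of_nonneg_left ?_ (by linarith)
      rw [hw]
      linarith
    linarith

end Crest.Agent.R288.LaErr107
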