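import Crest.Agent.R288.XB_715
import Crest.Agent.R288.BodyLin_540
import Crest.Agent.R288.BLin_890

/-!
# R288 (helper540), leaf L5 (mean): the mean of the BODY value (line (A8) of the SPEC), on ALG v2

`sub` = ARBITRARY family of sub-computations (the arrival tables one macro height lower), `RS P W sub κ' z`
= mean of the entry of the pair `(κ', z)` (715), `BM` = mean of the entry of `bodyT` at `z`.

* `body_mean`   : calm case, `α Lc(numR RS) + (1-α) W ≤ BM ≤ same + 2^(n+1) + 1`;
* `body_F`, `body_leaf`, `body_wild` : the other cases, exact;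
* `body_le_num` : **`BM ≤ bodyNum .. (fun _ => Y) .. + 2^(n+1) + 1`** for all natural pair numbers `Y ≥ RS`
  at the near pieces;
* `le_body`     : **soundness**: `G ≤ BM` if `G ≤ F z`, `G ≤ leaf value`, `G ≤ W` and `G ≤ ∑ numR RS (pieces)`
  for every near staircase.
-/

set_option autoImplicit false

namespace Crest.Agent.R288.LaneM540

open Finset Crest.Agent.R295.Rnd627 Crest.Agent.R295.Rnd627.RT Crest.Agent.R288.Alg45
open Crest.Agent.R288.XB715 Crest.Agent.R288.BodyLin540

variable {P : Par} {leaf : St → Option ℕ} {F : St → ℕ} {X : ℕ → ℕ → St → ℕ} {k : ℕ}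
variable {sub : Cel → RT (List ℕ)} {c : Cel} {z : St} {W : ℕ}

/-- mean of the entry of the body table of the cell `c` at `z` -/
noncomputable def BM (P : Par) (W : ℕ) (leaf : St → Option ℕ) (F : St → ℕ) (X : ℕ → ℕ → St → ℕ) (k : ℕ)
    (sub : Cel → RT (List ℕ)) (c : Cel) (z : St) : ℝ :=
  (bodyT P leaf F X k sub c).Ev W fun T => (rdt P c T z : ℝ)

/-- reading an entry commutes with tabulating -/
def RdOk (P : Par) (c : Cel) (z : St) : Prop := ∀ f : St → ℕ, rdt P c (tabC P c f) z = f z

theorem BM_eq (hz : RdOk P c z) :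
    BM P W leaf F X k sub c z =
      (win P c sub).Ev W fun w => ((bodyNum P leaf F X k (spF P c.κ w.2) c.κ z : ℕ) : ℝ) := by
  unfold BM
  rw [bodyT_eq, Ev_map]
  refine congrArg _ ?_
  funext w
  rw [hz]

/-- the functional commutes with the mean -/
theorem Ev_Lc {β : Type} (t : RT β) (κ : ℕ) (x : St) (f : β → ℕ → ℕ → ℕ → ℝ) :
    t.Ev W (fun w => Lc P F X k κ x (f w)) = Lc P F X k κ x (fun q a b => t.Ev W fun w => f w q a b) := by
  unfold Lc
  rw [Ev_sum]
  refine sum_congr rfl fun q _ => ?_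
  rw [Ev_sum]
  refine sum_congr rfl fun a _ => ?_
  rw [Ev_sum]
  refine sum_congr rfl fun b _ => ?_
  rw [Ev_mul_left]

/-- inadmissible pair -/
theorem body_F (hW : 0 < W) (hz : RdOk P c z) (ha : adm P F c.κ z = false) :
    BM P W leaf F X k sub c z = F z := by
  rw [BM_eq hz]
  unfold bodyNum
  simp only [ha, if_true, Ev_const hW]

/-- leaf -/
theorem body_leaf (hW : 0 < W) (hz : RdOk P c z) (ha : adm P F c.κ z = true) {v : ℕ}
    (hl : leaf z = some v) : BM P W leaf F X k sub c z = v := by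
  rw [BM_eq hz]
  unfold bodyNum
  simp only [ha, hl]
  simp [Ev_const hW]

/-- R1 or irregular -/
theorem body_wild (hW : 0 < W) (hz : RdOk P c z) (ha : adm P F c.κ z = true) (hl : leaf z = none)
    (hR : R1 P F z ∨ ¬ regular P F c.κ z) :
    BM P W leaf F X k sub c z = (wild P F X c.κ z k : ℕ) := by
  rw [BM_eq hz]
  unfold bodyNum
  simp only [ha, hl, if_pos hR]
  simp [Ev_const hW]

/-- all near pieces are good ends -/
def EndsOk (P : Par) (F : St → ℕ) (c : Cel) (z : St) : Prop :=
  ∀ q < P.N, ∀ a < nlet P F c.κ z, ∀ b < nlet P F c.κ z, EndOk P F c q (npiece P F c.κ z q a b)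

/-- **calm case** -/
theorem body_mean (hW : 0 < W) (hd : 2 ^ P.dl ∣ W) (hg : 0 < P.g) (hum : 0 < P.um)
    (hz : RdOk P c z) (ha : adm P F c.κ z = true) (hl : leaf z = none) (hR : ¬ R1 P F z)
    (hreg : regular P F c.κ z) (hok : EndsOk P F c z) :
    al P F X k c.κ z * Lc P F X k c.κ z (fun q a b =>
        numR P F c.κ (RS P W sub) (npiece P F c.κ z q a b))
        + (1 - al P F X k c.κ z) * (wild P F X c.κ z k : ℕ)
      ≤ BM P W leaf F X k sub c z ∧
    BM P W leaf F X k sub c z ≤
      al P F X k c.κ z * Lc P F X k c.κ z (fun q a b =>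
        numR P F c.κ (RS P W sub) (npiece P F c.κ z q a b))
        + (1 - al P F X k c.κ z) * (wild P F X c.κ z k : ℕ) + (2 * 2 ^ P.n + 1) := by
  have hal0 := al_nonneg P F X k c.κ z
  have hal1 := al_le_one P F X k c.κ z
  have hpt := fun w : List ℕ × (Key → Option (List ℕ)) =>
    bodyNum_lin P F X k c.κ z hg hum (leaf := leaf) ha hl hR hreg (spF P c.κ w.2)
  have key : (win P c sub).Ev W (fun w => al P F X k c.κ z * Lc P F X k c.κ z (fun q a b =>
        (numSt P F c.κ (spF P c.κ w.2 q) (npiece P F c.κ z q a b) : ℝ))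
        + (1 - al P F X k c.κ z) * (wild P F X c.κ z k : ℕ)) =
      al P F X k c.κ z * Lc P F X k c.κ z (fun q a b => (win P c sub).Ev W fun w =>
        (numSt P F c.κ (spF P c.κ w.2 q) (npiece P F c.κ z q a b) : ℝ))
        + (1 - al P F X k c.κ z) * (wild P F X c.κ z k : ℕ) := by
    rw [Ev_add, Ev_const hW, Ev_mul_left, Ev_Lc]
  rw [BM_eq hz]
  constructor
  · refine le_trans ?_ (Ev_mono fun w => (hpt w).1)
    rw [key]
    have := Lc_mono P F X k c.κ z (E := fun q a b => numR P F c.κ (RS P W sub)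
        (npiece P F c.κ z q a b)) (E' := fun q a b => (win P c sub).Ev W fun w =>
        (numSt P F c.κ (spF P c.κ w.2 q) (npiece P F c.κ z q a b) : ℝ))
      fun q hq a hA b hB => le_Ev_XF hW hd hq (hok q hq a hA b hB)
    have := mul_le_mul_of_nonneg_left this hal0
    linarith
  · refine (Ev_mono fun w => (hpt w).2).trans ?_
    rw [Ev_add, key, Ev_const hW]
    have h1 := Lc_mono P F X k c.κ z (E := fun q a b => (win P c sub).Ev W fun w =>
        (numSt P F c.κ (spF P c.κ w.2 q) (npiece P F c.κ z q a b) : ℝ))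
        (E' := fun q a b => numR P F c.κ (RS P W sub) (npiece P F c.κ z q a b) + 1)
      fun q hq a hA b hB => Ev_XF_le hW hd hq (hok q hq a hA b hB)
    rw [Lc_add_const] at h1
    have h2 := mul_le_mul_of_nonneg_left h1 hal0
    have h3 : al P F X k c.κ z * (P.N * 1) ≤ 2 ^ P.n := by
      have : ((P.N : ℕ) : ℝ) = 2 ^ P.n := by unfold Par.N; push_cast; rfl
      rw [this]
      have : (0 : ℝ) ≤ 2 ^ P.n := by positivity
      nlinarith
    nlinarith

/-- **(A8)**: the mean is at most the body value with the numbers `Y` of rank `k` at the ends -/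
theorem body_le_num (hW : 0 < W) (hd : 2 ^ P.dl ∣ W) (hg : 0 < P.g) (hum : 0 < P.um)
    (hz : RdOk P c z) (hok : EndsOk P F c z) (Y : ℕ → St → ℕ)
    (hY : adm P F c.κ z = true → leaf z = none → ¬ R1 P F z → regular P F c.κ z →
      ∀ q < P.N, ∀ a < nlet P F c.κ z, ∀ b < nlet P F c.κ z,
        numR P F c.κ (RS P W sub) (npiece P F c.κ z q a b) ≤
          (numSt P F c.κ Y (npiece P F c.κ z q a b) : ℕ)) :
    BM P W leaf F X k sub c z ≤
      (bodyNum P leaf F X k (fun _ => Y) c.κ z : ℕ) + (2 * 2 ^ P.n + 1) := by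
  have hpos : (0 : ℝ) ≤ 2 * 2 ^ P.n + 1 := by positivity
  by_cases ha : adm P F c.κ z = false
  · rw [body_F hW hz ha]
    have : bodyNum P leaf F X k (fun _ => Y) c.κ z = F z := by unfold bodyNum; rw [if_pos ha]
    rw [this]
    linarith
  have ha' : adm P F c.κ z = true := by simpa using ha
  cases hl : leaf z with
  | some v =>
    rw [body_leaf hW hz ha' hl]
    have : bodyNum P leaf F X k (fun _ => Y) c.κ z = v := by
      unfold bodyNum; rw [if_neg ha, hl]
    rw [this]
    linarith
  | none =>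
    by_cases hR : R1 P F z ∨ ¬ regular P F c.κ z
    · rw [body_wild hW hz ha' hl hR]
      have : bodyNum P leaf F X k (fun _ => Y) c.κ z = wild P F X c.κ z k := by
        unfold bodyNum; rw [if_neg ha, hl]; simp only [if_pos hR]
      rw [this]
      linarith
    · push Not at hR
      have h1 := (body_mean (leaf := leaf) (X := X) (k := k) (sub := sub) hW hd hg hum hz ha' hl
        hR.1 hR.2 hok).2
      have h2 := (bodyNum_lin P F X k c.κ z hg hum (leaf := leaf) ha' hl hR.1 hR.2
        (fun _ => Y)).1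
      have h3 := Lc_mono P F X k c.κ z (E := fun q a b => numR P F c.κ (RS P W sub)
          (npiece P F c.κ z q a b)) (E' := fun q a b =>
          (numSt P F c.κ Y (npiece P F c.κ z q a b) : ℝ))
        fun q hq a hA b hB => hY ha' hl hR.1 hR.2 q hq a hA b hB
      have h4 := mul_le_mul_of_nonneg_left h3 (al_nonneg P F X k c.κ z)
      linarith

/-! ### soundness -/

theorem LV_eq_Hf (B : ℕ) (ρ : ℕ → ℕ → ℕ → ℕ → ℕ → ℝ) (E : ℕ → ℕ → ℕ → ℝ) (t : ℕ) :
    ∀ p a b, Lin908.LV B ρ E t p a b = BLin890.Hf B ρ E t p a b := by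
  induction t with
  | zero => intro p a b; rfl
  | succ t ih =>
    intro p a b
    simp only [Lin908.LV, BLin890.Hf, ih]

/-- the functional is at least the sum over one near staircase -/
theorem exists_stair_le (κ : ℕ) (x : St) (E : ℕ → ℕ → ℕ → ℝ) :
    ∃ m : ℕ → ℕ, (∀ q, m q < nlet P F κ x) ∧
      ∑ q ∈ range P.N, E q (m q) (m (q + 1)) ≤ Lc P F X k κ x E := by
  obtain ⟨m, -, -, hm, hs⟩ := BLin890.exists_Sg_le (q := kr P F X k κ x)
    (kr_nonneg P F X k κ x) (fun t p a b _ _ => kr_sum P F X k κ x t p a b) E P.n 0 0 0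
    (nlet_pos P F κ x) (nlet_pos P F κ x)
  refine ⟨m, hm, ?_⟩
  rw [← Lc_eq, LV_eq_Hf]
  refine le_trans (le_of_eq ?_) hs
  unfold BLin890.Sg Par.N
  simp

/-- **soundness of the body** -/
theorem le_body (hW : 0 < W) (hd : 2 ^ P.dl ∣ W) (hg : 0 < P.g) (hum : 0 < P.um)
    (hz : RdOk P c z) (hok : EndsOk P F c z) {G : ℝ} (hF : G ≤ F z)
    (hleaf : ∀ v, leaf z = some v → G ≤ v) (hwild : G ≤ (wild P F X c.κ z k : ℕ))
    (hst : leaf z = none → ∀ m : ℕ → ℕ, (∀ q, m q < nlet P F c.κ z) →
      G ≤ ∑ q ∈ range P.N, numR P F c.κ (RS P W sub) (npiece P F c.κ z q (m q) (m (q + 1)))) :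
    G ≤ BM P W leaf F X k sub c z := by
  by_cases ha : adm P F c.κ z = false
  · rw [body_F hW hz ha]; exact hF
  have ha' : adm P F c.κ z = true := by simpa using ha
  cases hl : leaf z with
  | some v => rw [body_leaf hW hz ha' hl]; exact hleaf v hl
  | none =>
    by_cases hR : R1 P F z ∨ ¬ regular P F c.κ z
    · rw [body_wild hW hz ha' hl hR]; exact hwild
    · push Not at hR
      refine le_trans ?_ (body_mean (leaf := leaf) (X := X) (k := k) (sub := sub) hW hd hg hum hz
        ha' hl hR.1 hR.2 hok).1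
      obtain ⟨m, hm, hs⟩ := exists_stair_le (P := P) (F := F) (X := X) (k := k) c.κ z
        (fun q a b => numR P F c.κ (RS P W sub) (npiece P F c.κ z q a b))
      have h1 : G ≤ Lc P F X k c.κ z (fun q a b =>
          numR P F c.κ (RS P W sub) (npiece P F c.κ z q a b)) := (hst hl m hm).trans hs
      have h2 := al_nonneg P F X k c.κ z
      have h3 := al_le_one P F X k c.κ z
      nlinarith [mul_le_mul_of_nonneg_left h1 h2,
        mul_le_mul_of_nonneg_left hwild (sub_nonneg.2 h3)]

end Crest.Agent.R288.LaneM540
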