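import Crest.Agent.R288.LanePar_806
import Crest.Agent.R288.LaneLaw_944
import Crest.Agent.R288.AsmD_331

/-!
# R288, R6 of #5086 (helper806): `LaneLaw944.LaneNum` for `ParO331.parOf h` and at `cfgO`
-/

set_option autoImplicit false
set_option maxHeartbeats 400000

open Filter

namespace Crest.Agent.R288.LanePar806

open Crest.Agent.R288 Crest.Agent.R288.Alg45 Crest.Agent.R288.Par806 Crest.Agent.R288.ParO331
  Crest.Agent.R288.Asy720 Crest.Agent.R288.ArrB147 Crest.Agent.R288.Cnt308 Crest.Agent.R288.LaneLaw944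
  Crest.Agent.R288.Dom20 Crest.Agent.R288.Asm331 Crest.Agent.R288.Asm12 Crest.Agent.R288.Pl726
  Crest.Agent.R288.PltT365

theorem cr (h : ℕ) : (parOf h).Creg = 8 := rfl
theorem ca (h : ℕ) : (parOf h).a2 = 8 := rfl

theorem bL_parOf (h : ℕ) : bL (parOf h) = 1184 := by
  unfold bL; rw [cr]

theorem dL_parOf (h : ℕ) : dL (parOf h) = 303136 := by
  unfold dL; rw [bL_parOf, ca]; norm_num

theorem vL_parOf (h : ℕ) : vL (parOf h) = 2 * (303136 ^ 2 + 4 ^ 8 * 1184 ^ 2) := by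
  unfold vL; rw [bL_parOf, dL_parOf, ca]

theorem wL_parOf (h : ℕ) : wL (parOf h) = 1184 ^ 2 + 2 * (303136 ^ 2 + 4 ^ 8 * 1184 ^ 2) := by
  unfold wL; rw [vL_parOf, bL_parOf]

theorem ev_eL : ∀ᶠ h : ℕ in atTop, (eL (parOf h) + 1) * dL (parOf h) ≤ 2 ^ sJ h := by
  filter_upwards [ev_nJ, ev_exp_le_Lg 26 0 15, ev_le_W 34] with h h1 h2 h3
  have e1 : (4 : ℕ) ^ (parOf h).pb = 2 ^ (32 * (W h * Lg h)) := by
    show (4 : ℕ) ^ pb h = _
    rw [show (4 : ℕ) = 2 ^ 2 by norm_num, ← pow_mul]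
    congr 1
    unfold pb
    ring
  have h4 : eL (parOf h) ≤ 2 ^ (15 * Mg h) * (18 * 2 ^ (32 * (W h * Lg h))) := by
    unfold eL
    rw [e1]
    exact Nat.mul_le_mul_right _ h1
  have h6 : ∀ A B : ℕ, 1 ≤ A → 1 ≤ B → (A * (18 * B) + 1) * 303136 ≤ 2 ^ 25 * (A * B) := by
    intro A B hA hB
    have a1 : 1 ≤ A * B := Nat.mul_pos hA hB
    have a2 : A * (18 * B) = 18 * (A * B) := by ring
    rw [a2]
    omega
  have h8 : 15 * Mg h + 25 ≤ W h * Lg h := by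
    have : Lg h ≤ W h * Lg h := Nat.le_mul_of_pos_left _ (W_pos h)
    omega
  have h9 : 34 * (W h * Lg h) ≤ sJ h := by
    have e : sJ h = W h * (W h * Lg h) := by unfold sJ; ring
    rw [e]
    exact Nat.mul_le_mul_right _ h3
  rw [dL_parOf]
  calc (eL (parOf h) + 1) * 303136
      ≤ (2 ^ (15 * Mg h) * (18 * 2 ^ (32 * (W h * Lg h))) + 1) * 303136 :=
        Nat.mul_le_mul_right _ (Nat.add_le_add_right h4 1)
    _ ≤ 2 ^ 25 * (2 ^ (15 * Mg h) * 2 ^ (32 * (W h * Lg h))) := h6 _ _ Nat.one_le_two_pow Nat.one_le_two_pow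
    _ = 2 ^ (25 + (15 * Mg h + 32 * (W h * Lg h))) := by rw [pow_add 2 25, pow_add 2 (15 * Mg h)]
    _ ≤ 2 ^ sJ h := Nat.pow_le_pow_right (by norm_num) (by omega)

/-- **`LaneNum` for the table** -/
theorem ev_LaneNum : ∀ᶠ h : ℕ in atTop, ∀ w top : ℕ, dl h ≤ w → top ≤ K0O h →
    LaneNum (parOf h) (2 ^ w) (2 ^ lam h) (sJ h) top := by
  filter_upwards [ev_LaneN, ev_eL, ev_mJ ((3 * (1184 ^ 2 + 2 * (303136 ^ 2 + 4 ^ 8 * 1184 ^ 2)) : ℕ) : ℝ),
    ev_ParOK 40] with h hL he hm hO w top hw ht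
  refine
    { W0 := Nat.two_pow_pos _
      dl := pow_dvd_pow 2 hw
      g := hL.g, um := hL.um, pm := hL.pm, r := ?_, Creg := ?_, pb := hL.pb, N := hL.Λ_N
      tiny := ?_, c0 := ?_, gJ := ?_, mJ := ?_, ent := he, grid := ?_ }
  · show 1 ≤ 40
    norm_num
  · show 1 ≤ 8
    norm_num
  · refine le_trans ?_ hL.Λ_bb
    rw [show (4 : ℕ) = 2 ^ 2 by norm_num, ← pow_add]
    exact Nat.pow_le_pow_right (by norm_num) (by omega)
  · have := hL.c0
    calc 2 * 4 ^ (parOf h).a2 * (16 * (parOf h).Creg) = 32 * 4 ^ (parOf h).a2 * (parOf h).Creg := by ring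
      _ ≤ _ := this
  · show 12 * sJ h + 1 = 2 * (6 * sJ h) + 1
    ring
  · rw [wL_parOf]
    exact_mod_cast hm
  · refine grdOK_of_pow (H := HH h + 1) (parOf h) rfl ?_
    have h1 : (parOf h).pb = pb h := rfl
    have h2 : (parOf h).a2 = 8 := rfl
    have h3 := hO.pb_ge
    have h4 : K0O h = HH h + gI h + Lg h + 32 := rfl
    rw [h1, h2]
    have h5 := hO.exp_ge
    have h6 := Lg_pos h
    omega

/-- at the official configuration -/
theorem laneNum_cfgO : Ev fun x y ε => ∀ top ≤ K0O (hh x y ε),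
    LaneNum (cfgO x y ε).P (2 ^ (cfgO x y ε).W) (2 ^ lam (hh x y ε)) (sJ (hh x y ε)) top := by
  refine Ev.of (ev_LaneNum.and (ev_const_len 16)) fun x y ε hN h top ht => ?_
  refine h.1 _ top ?_ ht
  show dl (hh x y ε) ≤ tapeW x y ε
  have h1 := h.2
  have h2 := hN.le_size
  have e : dl (hh x y ε) = 8 * (W (hh x y ε) * Lg (hh x y ε)) := by unfold dl; ring
  have h3 : tapeW x y ε = 2 * Nat.size (x.length + y.length) := rfl
  omega

/-- second moment against the shift, `3 vL 4^nb ≤ mX` -/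
theorem ev_vL : ∀ᶠ h : ℕ in atTop, 3 * (vL (parOf h) : ℝ) * 4 ^ (parOf h).nb ≤ (parOf h).mX := by
  filter_upwards [ev_mX (3 * ((2 * (303136 ^ 2 + 4 ^ 8 * 1184 ^ 2) : ℕ) : ℝ))] with h h1
  rw [vL_parOf]
  exact h1

end Crest.Agent.R288.LanePar806
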