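import Crest.Agent.R288.OscC_283
import Crest.Agent.R288.AsmC_331

/-!
# R288: `OscR` for the numbers of an epoch of a good history (helper283)

* **`oscR_cfg`** : for `C.Good X`, `e < E` and all ranks `k < K`:
  `OscR C.P (FE C.P X e) (Dom C.P C.I) (Xe C.P X e k) (numR C.P (FE C.P X e) (C.R X e k)) ..`.
* **`near_hyp_cfg`** : the hypotheses of 441's `near_body` at a state of the domain.
-/

set_option autoImplicit false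

namespace Crest.Agent.R288.OscD283

open Crest.Agent.R288.Alg45 Crest.Agent.R288.OscI283 Crest.Agent.R288.OscJ283
  Crest.Agent.R288.OscC283 Crest.Agent.R288.Dom20 Crest.Agent.R288.ArrLip195
  Crest.Agent.R288.Asm331

variable {C : Cfg} {X : ℕ → ℕ × St → ℕ} {e : ℕ} {ζ b c : ℝ} {A : ℕ → ℕ → St → ℝ} {er : ℕ → ℝ}

/-- **`OscR` for all ranks of epoch `e`** -/
theorem oscR_cfg (h : C.Good X) (he : e < C.P.E) (hb : 0 ≤ b) (hc : 0 ≤ c) (hζ : 0 ≤ ζ)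
    (her : ∀ κ, er κ ≤ b * 2 ^ κ + c) (ha2 : 5 ≤ C.P.a2)
    (hb' : b + 4 / 2 ^ C.P.a1 + 6 / 2 ^ C.P.pb + 5 * ζ ≤ 1)
    (hgr : GrdOK C.P C.K0) (hcl : ∀ y, Dom C.P C.I y → cls (FE C.P X e) y ≤ C.K0)
    (hFL : ∀ y, Dom C.P C.I y → FL C.P (FE C.P X e) ζ y.i y.j)
    (hJ : ∀ k < C.P.K, ∀ y, Dom C.P C.I y →
      JA C.P (FE C.P X e) (A k) (C.R X e k) er y.i y.j) :
    ∀ k < C.P.K, OscR C.P (FE C.P X e) (Dom C.P C.I) (Xe C.P X e k)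
      (numR C.P (FE C.P X e) (C.R X e k))
      (b + 4 / 2 ^ C.P.a1 + 6 / 2 ^ C.P.pb + 5 * ζ) (2 / 2 ^ C.P.nb) ζ 4 (1 + 2 * c) 0 :=
  fun k hk => oscR_of_JA hb hc her ha2 hb' hζ (fun _ hy => hy.inD) hFL (hJ k hk)
    fun y hy => Cfg.good_num h he hk (pair_own hy hgr (hcl y hy))
      ((hFL y hy).own_adm ⟨rfl, rfl, hy.inD⟩).2

/-- **the hypotheses of `RegE441.near_body`** for the numbers of epoch `e` -/
theorem near_hyp_cfg (h : C.Good X) (he : e < C.P.E) (hb : 0 ≤ b) (hc : 0 ≤ c) (hζ : 0 ≤ ζ)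
    (her : ∀ κ, er κ ≤ b * 2 ^ κ + c) (ha2 : 5 ≤ C.P.a2)
    (hb' : b + 4 / 2 ^ C.P.a1 + 6 / 2 ^ C.P.pb + 5 * ζ ≤ 1)
    (hgr : GrdOK C.P C.K0) (hcl : ∀ y, Dom C.P C.I y → cls (FE C.P X e) y ≤ C.K0)
    (hFL : ∀ y, Dom C.P C.I y → FL C.P (FE C.P X e) ζ y.i y.j)
    (hJ : ∀ k < C.P.K, ∀ y, Dom C.P C.I y →
      JA C.P (FE C.P X e) (A k) (C.R X e k) er y.i y.j) {κ G : ℕ} {x : St} {cs : ℕ → ℕ}
    (N : Num C.P (FE C.P X e) κ x G (b + 4 / 2 ^ C.P.a1 + 6 / 2 ^ C.P.pb + 5 * ζ)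
      (2 / 2 ^ C.P.nb) ζ 4 (1 + 2 * c) 0) (hx : Dom C.P C.I x) (hi : 1 ≤ x.i)
    (hreg : regular C.P (FE C.P X e) κ x) (hcls : cls (FE C.P X e) x ≤ κ + 1)
    (hcs : ∀ q, 0 < q → q < 2 ^ C.P.n → cs q < nlet C.P (FE C.P X e) κ x) :
    RegE441.Hyp C.P (FE C.P X e) (Xe C.P X e) κ x G cs :=
  near_hyp (oscR_cfg h he hb hc hζ her ha2 hb' hgr hcl hFL hJ) N hx hi
    (fun y hy => hgr _ (hcl y hy)) hreg hcls hcs

end Crest.Agent.R288.OscD283
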