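import Crest.Agent.R288.SoundA_548
import Crest.Agent.R288.AnaLip_364

/-!
# R288 [SOUND] (helper453): the induction over the indices

`sound_all` : for an arbitrary `C : Asm331.Cfg` and a good history, if the lane of every index is in the mean
`≥ G` at the admissible pairs of the domain (given that everything below is `≥ G`), then `G ≤ FE e` on the
domain for all `e ≤ E` (= `StmA616.SoundF`) and `G ≤ X (idx e k)` at all pairs of the domain.
-/

set_option autoImplicit false

namespace Crest.Agent.R288.SoundG453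

open Crest.Agent.R288.Asm331 Crest.Agent.R288.Alg45 Crest.Agent.R288.Dom20
open Crest.Agent.R288.GSt442 (Exact)
open Crest.Agent.R288.AnaLip364 (N_pos)

variable {C : Cfg} {X : ℕ → ℕ × St → ℕ} {G : St → ℕ}

/-- the history is above `G` at the index `l`, on the pairs of the domain -/
def Ge (C : Cfg) (X : ℕ → ℕ × St → ℕ) (G : St → ℕ) (l : ℕ) : Prop :=
  ∀ κ ≤ C.K0, ∀ z, InD C.P.N C.I C.P.Dm z → G z ≤ X l (κ, z)

/-- the unit function is above `G` on the domain -/
def GeF (C : Cfg) (X : ℕ → ℕ × St → ℕ) (G : St → ℕ) (e : ℕ) : Prop :=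
  ∀ y, InD C.P.N C.I C.P.Dm y → G y ≤ FE C.P X e y

/-- states of a menu are states of the domain -/
theorem menu_InD {κ' ρ : ℕ} {y z : St} (hy : InD C.P.N C.I C.P.Dm y) (hz : z ∈ menu C.P κ' ρ y) :
    InD C.P.N C.I C.P.Dm z := by
  obtain ⟨h4, h5, h6⟩ := HullLipA364.of_mem_menu C.P hz
  obtain ⟨a1, a2, -, -⟩ := hy
  refine ⟨by rw [h4]; exact a1, by rw [h4, h5]; exact a2, ?_, ?_⟩
  · have := h6.1; omega
  · have := h6.2; omega

/-- start -/
theorem geF_zero {Dm : ℕ} (E : Exact C.P.N Dm G) (h : C.Good X)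
    (hU : ∀ y w, InD C.P.N C.I C.P.Dm y → C.GU y w → G y ≤ w) : GeF C X G 0 := by
  have h0 : ∀ z, InD C.P.N C.I C.P.Dm z → G z ≤ X 0 (0, z) := fun z hz =>
    hU z _ hz (C.good_init h (s := (0, z)) ((mem_OmP (N_pos C.P)).2 ⟨Nat.zero_le _, hz⟩))
  intro y hy
  show G y ≤ hull C.P (fun z => X 0 (0, z)) (fun _ z => X 0 (0, z)) y
  exact Sound548.hull_ge E (h0 y hy) fun κ' _ z hz => h0 z (menu_InD hy hz)

/-- one epoch -/
theorem geF_succ {Dm : ℕ} (E : Exact C.P.N Dm G) (hK : 0 < C.P.K) {e : ℕ}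
    (hcls : ∀ y, InD C.P.N C.I C.P.Dm y → cls (FE C.P X e) y + C.P.a2 ≤ C.K0)
    (hF : GeF C X G e) (hX : ∀ k < C.P.K, Ge C X G (idx C.P e k)) : GeF C X G (e + 1) := by
  intro y hy
  show G y ≤ FNext C.P (FE C.P X e) (fun i κ z => X (idx C.P e i) (κ, z)) y
  refine Sound548.FNext_ge E hK (hF y hy) fun i hi κ' hκ z hz => ?_
  exact hX i hi κ' (((HullLipA364.mem_rngC).1 hκ).2.trans (hcls y hy)) z (menu_InD hy hz)

/-- **the induction over the indices** -/
theorem sound_all {Dm : ℕ} (E : Exact C.P.N Dm G) (h : C.Good X) (hK : 0 < C.P.K)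
    (hU : ∀ y w, InD C.P.N C.I C.P.Dm y → C.GU y w → G y ≤ w)
    (hcls : ∀ e ≤ C.P.E, ∀ y, InD C.P.N C.I C.P.Dm y → cls (FE C.P X e) y + C.P.a2 ≤ C.K0)
    (hlane : ∀ e < C.P.E, ∀ k < C.P.K, GeF C X G e → (∀ i < k, Ge C X G (idx C.P e i)) →
      ∀ κ ≤ C.K0, ∀ z, InD C.P.N C.I C.P.Dm z → adm C.P (FE C.P X e) κ z = true →
        (G z : ℝ) ≤ C.R X e k κ z) :
    (∀ e ≤ C.P.E, GeF C X G e) ∧ ∀ e < C.P.E, ∀ k < C.P.K, Ge C X G (idx C.P e k) := by
  have step : ∀ e < C.P.E, GeF C X G e → ∀ k < C.P.K, Ge C X G (idx C.P e k) := by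
    intro e he hF k
    induction k using Nat.strong_induction_on with
    | _ k ih =>
      intro hk κ hκ z hz
      have hmem : (κ, z) ∈ OmP C.P.N C.I C.P.Dm C.K0 := (mem_OmP (N_pos C.P)).2 ⟨hκ, hz⟩
      cases ha : adm C.P (FE C.P X e) κ z with
      | true =>
        have h1 := hlane e he k hk hF (fun i hi => ih i hi (hi.trans hk)) κ hκ z hz ha
        have h2 := (C.good_num h he hk hmem ha).1
        exact_mod_cast h1.trans h2
      | false =>
        rw [C.good_alt h he hk hmem ha]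
        exact hF z hz
  have hall : ∀ e ≤ C.P.E, GeF C X G e := by
    intro e
    induction e with
    | zero => exact fun _ => geF_zero E h hU
    | succ e ih =>
      intro he
      exact geF_succ E hK (hcls e (by omega)) (ih (by omega)) (step e (by omega) (ih (by omega)))
  exact ⟨hall, fun e he => step e he (hall e he.le)⟩

end Crest.Agent.R288.SoundG453
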