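import Crest.Agent.R288.LaneM_540
import Crest.Agent.R288.ArrW_984
import Crest.Agent.R288.ArrG_147
import Crest.Agent.R288.Geo_105
import Crest.Agent.R288.LawU_944
import Crest.Agent.R288.AnaLip_364
import Crest.Agent.R288.AdmR_944
import Crest.Agent.R288.LeafO_690
import Crest.Agent.R288.AlgApi_299
import Crest.Agent.R288.SoundG_453

/-!
# Row 288, (A4) SOUND (helper512; insurance for 548 / 988)

`G : St → ℕ` an exact cost (`GSt442.Exact`), `leaf ≥ G` and defined at macro height `0` (`GOk`).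

* `le_hull`, `le_wild`      : soundness of the deterministic parts on the domain;
* `le_BM`                   : mean of a body entry, for an arbitrary family `sub` of sub-tables;
* `le_arr`                  : mean of an arrival entry, arbitrary family of body tables;
* **`le_lane`**             : mean of every lane, `le_bdy` : mean of every body entry;
* **`sound`**               : for a good history `gst ≤ FE e` on the domain, `e ≤ E`;
* `sound_X`, `sound_R`, `sound_A` : numbers, lane means, body means of the ranks;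
* `HG`                      : `leaf y = some c → c ≤ FE e y + 1`.
-/

set_option autoImplicit false

namespace Crest.Agent.R288.Sound512

open Finset Crest.Agent.R295.Rnd627 Crest.Agent.R295.Rnd627.RT Crest.Agent.R288.Alg45
open Crest.Agent.R288.XB715 Crest.Agent.R288.Dom20 Crest.Agent.R288.GSt442
open Crest.Agent.R288.AdmR944 (FOk)
open Crest.Agent.R288.LaneM540 (BM RdOk EndsOk)

/-- an exact cost below the leaf values; every state of macro height `0` is a leaf -/
structure GOk (P : Par) (I D : ℕ) (G : St → ℕ) (leaf : St → Option ℕ) : Prop where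
  ex : Exact P.N D G
  bot : ∀ s, Dom P I s → s.i = 0 → leaf s ≠ none
  lf : ∀ s, Dom P I s → ∀ c, leaf s = some c → G s ≤ c

section det

variable {P : Par} {I D K0 : ℕ} {G F : St → ℕ} {leaf : St → Option ℕ} {X : ℕ → ℕ → St → ℕ} {k : ℕ}

/-- hull -/
theorem le_hull (hE : Exact P.N D G) (hF : ∀ s, Dom P I s → G s ≤ F s)
    (hc : ∀ s, Dom P I s → cls F s + P.a2 ≤ K0) {f : ℕ → St → ℕ}
    (hf : ∀ κ z, κ ≤ K0 → Dom P I z → G z ≤ f κ z) {y : St} (hy : Dom P I y) :
    G y ≤ hull P F f y := by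
  refine HullB407.le_hull_of_lip (hF y hy) (fun p hp => ?_) fun p hp => ?_
  · have h1 := hE.lip y p.2 (HullB407.cmenu_i hp).symm (HullB407.cmenu_j hp).symm
    omega
  · obtain ⟨⟨-, h1⟩, h2⟩ := HullB407.mem_cmenu.1 hp
    exact hf _ _ (h1.trans (hc y hy)) (hy.menu h2)

/-- every staircase of letters -/
theorem le_stair (hE : Exact P.N D G) {x : St} (hi : 0 < x.i) (κ : ℕ) (c : ℕ → ℕ) :
    G x ≤ ∑ q ∈ range P.N, G (piece P κ x q (c q) (c (q + 1))) := by
  obtain ⟨i, hi'⟩ : ∃ i, x.i = i + 1 := ⟨x.i - 1, by omega⟩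
  have h0 : cut P κ x 0 (c 0) = x.u := by unfold cut; rw [if_pos rfl]
  have hN : P.N ≠ 0 := (N_pos P).ne'
  have h1 : cut P κ x P.N (c P.N) = x.v := by unfold cut; rw [if_neg hN, if_pos rfl]
  have h := hE.le_cuts hi' (m := fun q => cut P κ x q (c q)) h0 h1
  refine h.trans (le_of_eq ?_)
  unfold ssum
  refine sum_congr rfl fun q _ => ?_
  unfold piece
  rw [hi', Nat.add_sub_cancel]

/-- the exact optimum over the grid staircases -/
theorem le_Vst (hE : Exact P.N D G) (hr : 1 ≤ P.r) {x : St} (hx : Dom P I x) (hi : 0 < x.i) (κ : ℕ)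
    {f : St → ℕ} (hf : ∀ y, Dom P I y → G y ≤ f y) : G x ≤ Vst P κ x f := by
  obtain ⟨c, -, h⟩ := AlgApi299.exists_Vst (P := P) κ x f
  rw [h]
  exact (le_stair hE hi κ c).trans (sum_le_sum fun q hq =>
    hf _ (hx.piece hr hi (mem_range.1 hq) κ _ _))

theorem le_Wm {g f : ℕ} {V : ℕ → ℕ} (h0 : g ≤ f) : ∀ i, (∀ i' < i, g ≤ V i') → g ≤ Wm f V i := by
  intro i
  induction i with
  | zero => intro _; exact h0
  | succ i ih => intro h; exact le_min (ih fun i' hi' => h i' (by omega)) (h i (by omega))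

/-- the wild value of rank `k` -/
theorem le_wild (hE : Exact P.N D G) (hr : 1 ≤ P.r) (hF : ∀ s, Dom P I s → G s ≤ F s)
    (hc : ∀ s, Dom P I s → cls F s + P.a2 ≤ K0)
    (hX : ∀ i < k, ∀ κ z, κ ≤ K0 → Dom P I z → G z ≤ X i κ z) {x : St} (hx : Dom P I x)
    (hi : 0 < x.i) (κ : ℕ) : G x ≤ wild P F X κ x k := by
  unfold wild
  refine le_Wm (hF x hx) k fun i hik => ?_
  exact le_Vst hE hr hx hi κ fun y hy => le_hull hE hF hc (hX i hik) hy

end det

section ran

variable {P : Par} {I D K0 Λ W : ℕ} {G F : St → ℕ} {leaf : St → Option ℕ} {X : ℕ → ℕ → St → ℕ} {k : ℕ}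

/-- the two forms of `InC` -/
theorem inC_conv {c : Cel} {y : St} (h : Cell488.InC P c y) : Cel734.InC P c y where
  hD := h.dom
  hi := h.hi
  hj := h.hj
  du := h.gr.1
  dv := h.gr.2
  ulo := h.u1
  uhi := h.u2
  vlo := h.v1
  vhi := h.v2

/-- what is used of one epoch -/
structure EpOk (P : Par) (I D K0 Λ W : ℕ) (G F : St → ℕ) (leaf : St → Option ℕ)
    (X : ℕ → ℕ → St → ℕ) (k : ℕ) : Prop where
  GO : GOk P I D G leaf
  fok : FOk leaf F (Dom P I) Λ
  GF : ∀ s, Dom P I s → G s ≤ F s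
  cl : ∀ s, Dom P I s → cls F s + P.a2 ≤ K0
  GX : ∀ i < k, ∀ κ z, κ ≤ K0 → Dom P I z → G z ≤ X i κ z
  grd : GrdOK P (K0 + 1)
  pb : 10 ≤ P.pb
  r : 1 ≤ P.r
  g : 0 < P.g
  um : 0 < P.um
  dl : 2 ^ P.dl ∣ W
  W0 : 0 < W

variable (H : EpOk P I D K0 Λ W G F leaf X k)

include H

/-- **mean of a body entry** -/
theorem EpOk.le_BM {sub : Cel → RT (List ℕ)} {c : Cel} {x : St} (hC : Cell488.InC P c x)
    (hx : Dom P I x) (hi : 0 < x.i)
    (hs : ∀ κ' z, z.i + 1 = x.i → Dom P I z → adm P F κ' z = true → (G z : ℝ) ≤ RS P W sub κ' z) :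
    (G x : ℝ) ≤ BM P W leaf F X k sub c x := by
  have hC' := inC_conv hC
  refine LaneM540.le_body H.W0 H.dl H.g H.um (fun f => Cell488.rdt_tabC P hC f)
    (fun q hq a _ b _ => Geo105.endOk_npiece P H.r hC' F hq a b) (by exact_mod_cast H.GF x hx)
    (fun v hv => by exact_mod_cast H.GO.lf x hx v hv)
    (by exact_mod_cast le_wild H.GO.ex H.r H.GF H.cl H.GX hx hi c.κ) ?_
  intro _ m _
  have h1 : (G x : ℝ) ≤ ∑ q ∈ range P.N, (G (npiece P F c.κ x q (m q) (m (q + 1))) : ℝ) := by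
    have h := le_stair H.GO.ex hi c.κ (fun q => near P F c.κ x q (m q))
    have h2 : (G x : ℝ) ≤ ((∑ q ∈ range P.N,
      G (piece P c.κ x q (near P F c.κ x q (m q)) (near P F c.κ x (q + 1) (m (q + 1)))) : ℕ) : ℝ) := by
      exact_mod_cast h
    rw [Nat.cast_sum] at h2
    exact h2
  refine h1.trans (sum_le_sum fun q hq => ?_)
  have hq' := mem_range.1 hq
  set y := npiece P F c.κ x q (m q) (m (q + 1)) with hy
  have hyD : Dom P I y := hx.npiece H.r hi hq' F c.κ _ _
  unfold numR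
  split_ifs with ho
  · exact_mod_cast H.GF y hyD
  · have hgr : gst P (cls F y) ∣ P.Dm := H.grd _ (by have := H.cl y hyD; omega)
    have hz : Dom P I (rdn P (cls F y) y) := hyD.rdn hgr
    have ha := AdmR944.adm_rdn H.fok H.pb hyD hz
    have hyi : y.i + 1 = x.i := by
      show x.i - 1 + 1 = x.i
      omega
    have h2 := hs (cls F y) (rdn P (cls F y) y) hyi hz ha
    have h3 := H.GO.ex.lip y (rdn P (cls F y) y) rfl rfl
    have h4 : (G y : ℝ) ≤ G (rdn P (cls F y) y) + (Alg45.dist y (rdn P (cls F y) y) : ℕ) := by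
      exact_mod_cast h3
    linarith

/-- class of an admissible pair -/
theorem EpOk.cl_adm {κ : ℕ} {y : St} (hy : Dom P I y) (ha : adm P F κ y = true) :
    κ + P.a2 ≤ K0 + 1 := by
  have h1 := ArrG147.adm_iff.1 ha
  have h2 := H.cl y hy
  omega

/-- **mean of an arrival entry**: `body` = body tables over an arbitrary family `sub` -/
theorem EpOk.le_arr {sub : Cel → RT (List ℕ)} {κ : ℕ} {y : St} (hy : Dom P I y) (hi : 0 < y.i)
    (ha : adm P F κ y = true)
    (hs : ∀ κ' z, z.i + 1 = y.i → Dom P I z → adm P F κ' z = true → (G z : ℝ) ≤ RS P W sub κ' z) :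
    (G y : ℝ) ≤ RS P W (fun c => arrOf P F (fun c' => bodyT P leaf F X k sub c') c) κ y := by
  have hC : Cell488.InC P (celOf κ y) y := ArrG147.adm_inC ha hy.inD
  have hct : cst P (celOf κ y) (cidx P (celOf κ y) y) = y := Cell488.cst_cidx P hC
  have ht := Cell488.cidx_lt P hC
  have hown := ArrG147.own_mem_acells P (ArrG147.meets_of_inC P hC)
  have hκ := H.cl_adm hy ha
  have hD : ∀ κ' ≤ (celOf κ y).κ + P.a2, (gst P κ' : ℤ) ∣ (P.Dm : ℤ) := fun κ' h => by
    exact_mod_cast H.grd κ' (h.trans hκ)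
  have hsel := ArrW984.jsel (P := P) (F := F) hown ht (by rw [hct]; exact ha)
  have hlow := hsel.low (body := fun c' => bodyT P leaf F X k sub c') H.W0 (m := (G y : ℝ)) ?_
  · exact hlow
  · intro o ho
    cases o with
    | none =>
      show (G y : ℝ) ≤ (F (cst P (celOf κ y) (cidx P (celOf κ y) y)) : ℝ)
      rw [hct]
      exact_mod_cast H.GF y hy
    | some x =>
      have hx := some_mem_insertNone.1 ho
      have hj := ((ArrB147.mem_mnu P).1 hx).1
      have hzC := ArrG147.zof_inC P hj hD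
      have hzi : (ArrB147.zof P (celOf κ y) x).i = y.i := rfl
      have hzj : (ArrB147.zof P (celOf κ y) x).j = y.j := rfl
      have hzD : Dom P I (ArrB147.zof P (celOf κ y) x) :=
        Dom.cst (c := acell P (celOf κ y) x.1) hy.1 hy.2.1 x.2
      have h1 : ArrV984.jmn P W (fun c' => bodyT P leaf F X k sub c') (celOf κ y) x =
          BM P W leaf F X k sub (acell P (celOf κ y) x.1) (ArrB147.zof P (celOf κ y) x) :=
        ArrG147.Ev_body_entry W ((ArrB147.mem_jks P).1 hj).2 hzC fun a => (a : ℝ)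
      have h2 := H.le_BM (sub := sub) hzC hzD (by rw [hzi]; exact hi) fun κ' z hz hzd haz =>
        hs κ' z (by rw [hzi] at hz; exact hz) hzd haz
      have h3 := H.GO.ex.lip y (ArrB147.zof P (celOf κ y) x) hzi.symm hzj.symm
      show (G y : ℝ) ≤ (ArrV984.jdst P (celOf κ y) (cidx P (celOf κ y) y) x : ℝ) +
        ArrV984.jmn P W _ (celOf κ y) x
      have h4 : ArrV984.jdst P (celOf κ y) (cidx P (celOf κ y) y) x =
          Alg45.dist y (ArrB147.zof P (celOf κ y) x) := by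
        unfold ArrV984.jdst
        rw [hct]
        rfl
      rw [h4, h1]
      have h5 : (G y : ℝ) ≤ G (ArrB147.zof P (celOf κ y) x) +
          (Alg45.dist y (ArrB147.zof P (celOf κ y) x) : ℕ) := by exact_mod_cast h3
      linarith

/-- **all arrival tables** -/
theorem EpOk.le_RS (i : ℕ) : ∀ κ z, z.i = i → Dom P I z → adm P F κ z = true →
    (G z : ℝ) ≤ RS P W (fun c => arrT P leaf F X k i c) κ z := by
  induction i with
  | zero =>
    intro κ z hz hzD ha
    have h := congrArg Prod.fst (LawU944.ms_ret (P := P) (W := W) (F := F)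
      (f := fun c => botNum P leaf F c.κ) hzD.inD ha)
    have h' : RS P W (fun c => arrT P leaf F X k 0 c) κ z = (botNum P leaf F κ z : ℝ) := h
    rw [h']
    have h1 : G z ≤ botNum P leaf F κ z := by
      unfold botNum
      rw [if_neg (by simp [ha])]
      rcases hl : leaf z with _ | a
      · exact absurd hl (H.GO.bot z hzD hz)
      · exact H.GO.lf z hzD a hl
    exact_mod_cast h1
  | succ i ih =>
    intro κ z hz hzD ha
    exact H.le_arr (sub := fun c => arrT P leaf F X k i c) hzD (by omega) ha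
      fun κ' z' hz' hzd' ha' => ih κ' z' (by omega) hzd' ha'

/-- **every lane** -/
theorem EpOk.le_lane {κ : ℕ} {z : St} (hz : Dom P I z) (ha : adm P F κ z = true) :
    (G z : ℝ) ≤ (lanePair P leaf F X k κ z).Ev W fun a => (a : ℝ) := by
  have h := H.le_RS z.i κ z rfl hz ha
  unfold lanePair
  simp only [Ev_bind, Ev_ret]
  exact h

/-- **every body entry** of the cell `c` (macro height `> 0`), admissible or not -/
theorem EpOk.le_bdy {c : Cel} {z : St} (hC : Cell488.InC P c z) (hz : Dom P I z) (hi : 0 < z.i) :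
    (G z : ℝ) ≤ BM P W leaf F X k (fun c' => arrT P leaf F X k (z.i - 1) c') c z :=
  H.le_BM hC hz hi fun κ' z' hz' hzd' ha' => H.le_RS (z.i - 1) κ' z' (by omega) hzd' ha'

/-- the mean of the body entry of an admissible pair -/
theorem EpOk.le_AL {κ : ℕ} {z : St} (hz : Dom P I z) (hi : 0 < z.i) (ha : adm P F κ z = true) :
    (G z : ℝ) ≤ RS P W (LawU944.bdy P leaf F X k (z.i - 1)) κ z :=
  H.le_bdy (c := celOf κ z) (ArrG147.adm_inC ha hz.inD) hz hi

end ran

/-! ### a good history -/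

section cfg

open Crest.Agent.R288.Asm331 Crest.Agent.R288.AnaLip364 Crest.Agent.R288.SoundG453
open Crest.Agent.R288.Tape829 (lo)

variable {C : Cfg} {X : ℕ → ℕ × St → ℕ} {x y : List ℕ} {g p L Λ : ℕ} {ζ : ℝ}

/-- numbers -/
structure SndOk (C : Cfg) : Prop where
  grd : GrdOK C.P (C.K0 + 1)
  pb : 10 ≤ C.P.pb
  r : 1 ≤ C.P.r
  g0 : 0 < C.P.g
  um : 0 < C.P.um
  dl : C.P.dl ≤ C.W

theorem gOk (hO : LipOk C x y g p L ζ)
    (hleaf : ∀ s, Dom C.P C.I s → C.leaf s = LeafO690.leafO x y C.P.n Λ s) :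
    GOk C.P C.I C.P.Dm (gst x y C.P.n) C.leaf where
  ex := exact_gst x y C.P.n hO.x_le hO.y_le
  bot := fun s hs hi hn => by
    rw [hleaf s hs, LeafO690.leafO_eq_none_iff] at hn
    omega
  lf := fun s hs c hc => by
    rw [hleaf s hs] at hc
    exact (LeafO690.leafO_le hc).1

/-- `FOk` of a unit function above the exact cost -/
theorem fokOf (h : C.Good X) (hO : LipOk C x y g p L ζ) (hζ : ζ ≤ 1 / 7)
    (hleaf : ∀ s, Dom C.P C.I s → C.leaf s = LeafO690.leafO x y C.P.n Λ s) {e : ℕ}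
    (he : e ≤ C.P.E) (hS : ∀ s, Dom C.P C.I s → gst x y C.P.n s ≤ FE C.P X e s) :
    FOk C.leaf (FE C.P X e) (Dom C.P C.I) Λ where
  leaf_le s hs c hc := by
    rw [hleaf s hs] at hc
    have h1 := (LeafO690.leafO_le hc).2
    have h2 := hS s hs
    omega
  act s hs hc := by
    rw [hleaf s hs, LeafO690.leafO_eq_none_iff] at hc
    have h2 := hS s hs
    omega
  coer s hs := ((exact_gst x y C.P.n hO.x_le hO.y_le).ge s).trans (hS s hs)
  lip s s' hs hs' hi hj := by
    have h1 := lip' h hO he hs hs' hi.symm hj.symm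
    have h2 : (0 : ℝ) ≤ (FE C.P X e s' : ℝ) + (Alg45.dist s s' : ℕ) := by positivity
    have h3 : (7 : ℝ) * FE C.P X e s ≤ 8 * (FE C.P X e s' + (Alg45.dist s s' : ℕ)) := by nlinarith
    have h4 : 7 * FE C.P X e s ≤ 8 * (FE C.P X e s' + Alg45.dist s s') := by exact_mod_cast h3
    omega

/-- everything about rank `k` of epoch `e` from the lower numbers -/
theorem epOk (h : C.Good X) (hO : LipOk C x y g p L ζ) (hζ : ζ ≤ 1 / 7) (hN : SndOk C)
    (hleaf : ∀ s, Dom C.P C.I s → C.leaf s = LeafO690.leafO x y C.P.n Λ s) {e k : ℕ}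
    (he : e ≤ C.P.E) (hF : GeF C X (gst x y C.P.n) e)
    (hX : ∀ i < k, Ge C X (gst x y C.P.n) (idx C.P e i)) :
    EpOk C.P C.I C.P.Dm C.K0 Λ (2 ^ C.W) (gst x y C.P.n) (FE C.P X e) C.leaf
      (Xe C.P (lo (idx C.P e k) X) e) k where
  GO := gOk hO hleaf
  fok := fokOf h hO hζ hleaf he hF
  GF := hF
  cl := fun s hs => cls_le h hO e hs
  GX := fun i hi κ z hκ hz => by
    rw [Xe_lo hi]
    exact hX i hi κ hκ z hz
  grd := hN.grd
  pb := hN.pb
  r := hN.r
  g := hN.g0
  um := hN.um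
  dl := pow_dvd_pow 2 hN.dl
  W0 := Nat.two_pow_pos _

/-- **(A4) SOUND** -/
theorem sound (h : C.Good X) (hO : LipOk C x y g p L ζ) (hζ : ζ ≤ 1 / 7) (hN : SndOk C)
    (hleaf : ∀ s, Dom C.P C.I s → C.leaf s = LeafO690.leafO x y C.P.n Λ s) :
    (∀ e ≤ C.P.E, GeF C X (gst x y C.P.n) e) ∧
      ∀ e < C.P.E, ∀ k < C.P.K, Ge C X (gst x y C.P.n) (idx C.P e k) :=
  sound_all (exact_gst x y C.P.n hO.x_le hO.y_le) h hO.K
    (fun _ _ _ hw => (hO.GU _ _ hw).gst_le) (fun e _ s hs => cls_le h hO e hs)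
    fun _ he _ _ hF hX _ _ _ hz ha => (epOk h hO hζ hN hleaf he.le hF hX).le_lane hz ha

/-- everything about rank `k` of epoch `e` -/
theorem epOk' (h : C.Good X) (hO : LipOk C x y g p L ζ) (hζ : ζ ≤ 1 / 7) (hN : SndOk C)
    (hleaf : ∀ s, Dom C.P C.I s → C.leaf s = LeafO690.leafO x y C.P.n Λ s) {e k : ℕ}
    (he : e < C.P.E) (hk : k < C.P.K) :
    EpOk C.P C.I C.P.Dm C.K0 Λ (2 ^ C.W) (gst x y C.P.n) (FE C.P X e) C.leaf
      (Xe C.P (lo (idx C.P e k) X) e) k :=
  epOk h hO hζ hN hleaf he.le ((sound h hO hζ hN hleaf).1 e he.le)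
    fun i hi => (sound h hO hζ hN hleaf).2 e he i (hi.trans hk)

/-- the units -/
theorem sound_F (h : C.Good X) (hO : LipOk C x y g p L ζ) (hζ : ζ ≤ 1 / 7) (hN : SndOk C)
    (hleaf : ∀ s, Dom C.P C.I s → C.leaf s = LeafO690.leafO x y C.P.n Λ s) {e : ℕ}
    (he : e ≤ C.P.E) {s : St} (hs : Dom C.P C.I s) : gst x y C.P.n s ≤ FE C.P X e s :=
  (sound h hO hζ hN hleaf).1 e he s hs

/-- the numbers -/
theorem sound_X (h : C.Good X) (hO : LipOk C x y g p L ζ) (hζ : ζ ≤ 1 / 7) (hN : SndOk C)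
    (hleaf : ∀ s, Dom C.P C.I s → C.leaf s = LeafO690.leafO x y C.P.n Λ s) {e k κ : ℕ}
    (he : e < C.P.E) (hk : k < C.P.K) (hκ : κ ≤ C.K0) {s : St} (hs : Dom C.P C.I s) :
    gst x y C.P.n s ≤ X (idx C.P e k) (κ, s) :=
  (sound h hO hζ hN hleaf).2 e he k hk κ hκ s hs

/-- the lane means -/
theorem sound_R (h : C.Good X) (hO : LipOk C x y g p L ζ) (hζ : ζ ≤ 1 / 7) (hN : SndOk C)
    (hleaf : ∀ s, Dom C.P C.I s → C.leaf s = LeafO690.leafO x y C.P.n Λ s) {e k κ : ℕ}
    (he : e < C.P.E) (hk : k < C.P.K) {s : St} (hs : Dom C.P C.I s)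
    (ha : adm C.P (FE C.P X e) κ s = true) : (gst x y C.P.n s : ℝ) ≤ C.R X e k κ s :=
  (epOk' h hO hζ hN hleaf he hk).le_lane hs ha

/-- the body means at admissible pairs -/
theorem sound_A (h : C.Good X) (hO : LipOk C x y g p L ζ) (hζ : ζ ≤ 1 / 7) (hN : SndOk C)
    (hleaf : ∀ s, Dom C.P C.I s → C.leaf s = LeafO690.leafO x y C.P.n Λ s) {e k κ : ℕ}
    (he : e < C.P.E) (hk : k < C.P.K) {s : St} (hs : Dom C.P C.I s) (hi : 0 < s.i)
    (ha : adm C.P (FE C.P X e) κ s = true) :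
    (gst x y C.P.n s : ℝ) ≤ RS C.P (2 ^ C.W) (LawU944.bdy C.P C.leaf (FE C.P X e)
      (Xe C.P (lo (idx C.P e k) X) e) k (s.i - 1)) κ s :=
  (epOk' h hO hζ hN hleaf he hk).le_AL hs hi ha

/-- **HG**: the leaf values are below the units -/
theorem HG (h : C.Good X) (hO : LipOk C x y g p L ζ) (hζ : ζ ≤ 1 / 7) (hN : SndOk C)
    (hleaf : ∀ s, Dom C.P C.I s → C.leaf s = LeafO690.leafO x y C.P.n Λ s) {e : ℕ}
    (he : e ≤ C.P.E) {s : St} (hs : Dom C.P C.I s) {c : ℕ} (hc : C.leaf s = some c) :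
    c ≤ FE C.P X e s + 1 := by
  rw [hleaf s hs] at hc
  have h1 := (LeafO690.leafO_le hc).2
  have h2 := sound_F h hO hζ hN hleaf he hs
  omega

/-- `FOk` of the unit functions, no open hypothesis -/
theorem fok (h : C.Good X) (hO : LipOk C x y g p L ζ) (hζ : ζ ≤ 1 / 7) (hN : SndOk C)
    (hleaf : ∀ s, Dom C.P C.I s → C.leaf s = LeafO690.leafO x y C.P.n Λ s) {e : ℕ}
    (he : e ≤ C.P.E) : FOk C.leaf (FE C.P X e) (Dom C.P C.I) Λ :=
  fokOf h hO hζ hleaf he fun _ hs => sound_F h hO hζ hN hleaf he hs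

end cfg

end Crest.Agent.R288.Sound512
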