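import Crest.Agent.R288.JaC_195
import Crest.Agent.R288.LaneLaw_944
import Crest.Agent.R288.LaneN_540
import Crest.Agent.R288.Sound_512
import Crest.Agent.R288.WinH_330
import Crest.Agent.R288.OscD_283

/-!
# R288 [ANA.N3] (helper147): the laws of the lanes of one epoch of a good history

For an arbitrary `C : Asm331.Cfg`, `X`, `C.Good X`, `e < E`.

* `eta P s` : probability of a bad estimate times the price, in units `2 ^ κ`;
* `jpar`, `jin` : `JPar` and `JaC195.Jin` from `LaneLaw944.LaneNum`, `FOk`, the exact cost;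
* `Hyp` : the hypotheses (`LipOk`, `SndOk`, leaf values of 690, `LaneNum`);
* `An C X e k κ z` : mean of the body entry of rank `k` at the pair (`botNum` at macro height `0`);
* **`law`** : `WinH330.Law C X e (An C X e) τ 1 c8`, all four fields, all macro heights;
* **`ja`** : `ArrLip195.JA` at every block of the domain; **`oscR`**, **`near`** : inputs of the near side;
* `upF_pos` : retiring at macro heights `≥ 1` with a tiny constant.
-/

set_option autoImplicit false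

namespace Crest.Agent.R288.LawN147

open Crest.Agent.R295.Rnd627 Crest.Agent.R295.Rnd627.RT Crest.Agent.R288.Alg45
  Crest.Agent.R288.Dom20 Crest.Agent.R288.Asm331 Crest.Agent.R288.AdmR944
  Crest.Agent.R288.ArrX984 Crest.Agent.R288.LaneLaw944 Crest.Agent.R288.JaC195
  Crest.Agent.R288.ArrB147 Crest.Agent.R288.AnaLip364 Crest.Agent.R288.GSt442

/-! ### one rank, arbitrary unit function -/

/-- probability of a bad estimate times the price, in units `2 ^ κ` -/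
noncomputable def eta (P : Par) (s : ℕ) : ℝ := ((eL P + 1 : ℕ) : ℝ) * (1 / 2) ^ s * dL P

theorem eta_nonneg (P : Par) (s : ℕ) : 0 ≤ eta P s := by
  unfold eta
  positivity

section gen

variable {P : Par} {W Λ s top I k : ℕ} {leaf : St → Option ℕ} {F : St → ℕ}
  {X : ℕ → ℕ → St → ℕ} {G : St → ℕ}

theorem eta_le_one (h : LaneNum P W Λ s top) : eta P s ≤ 1 := by
  have h1 : ((eL P + 1 : ℕ) : ℝ) * dL P ≤ 2 ^ s := by exact_mod_cast h.ent
  have h2 : eta P s = (((eL P + 1 : ℕ) : ℝ) * dL P) / 2 ^ s := by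
    unfold eta
    rw [one_div, inv_pow]
    ring
  rw [h2, div_le_one (by positivity)]
  exact h1

theorem jpar (h : LaneNum P W Λ s top) (hr : 8 ≤ P.r) :
    JPar P (bL P) (wL P) (dL P) (eta P s) s where
  r := hr
  gJ := h.gJ
  mJ := h.mJ_pos
  b0 := Nat.cast_nonneg _
  w0 := Nat.cast_nonneg _
  d1 := by
    unfold dL
    push_cast
    linarith
  d2 := by
    have h1 : 32 ≤ dL P := Nat.le_add_right _ _
    exact_mod_cast h1
  m3 := by exact_mod_cast h.mJ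
  q := fun c => by
    unfold eta
    have h4 : (((jks P c).length + 1 : ℝ)) ≤ ((eL P + 1 : ℕ) : ℝ) := by
      push_cast
      have : ((jks P c).length : ℝ) ≤ eL P := by exact_mod_cast jks_length P _
      linarith
    gcongr
  η0 := eta_nonneg P s

/-- the domain is closed inside a block -/
theorem dcl {y z : St} (hy : Dom P I y) (hi : z.i = y.i) (hj : z.j = y.j) (hz : inD P z) :
    Dom P I z := by
  obtain ⟨h1, h2, -, -⟩ := hy
  obtain ⟨h3, h4⟩ := hz
  refine ⟨by rw [hi]; exact h1, by rw [hi, hj]; exact h2, ?_, ?_⟩ <;> omega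

/-- the numbers of macro height `0` -/
theorem botOk {x y : List ℕ} {n : ℕ}
    (hleaf : ∀ z, Dom P I z → leaf z = LeafO690.leafO x y n Λ z) :
    BotOk P leaf F (Dom P I) (gst x y n) := by
  intro κ z hz hi ha
  unfold botNum
  rw [if_neg (by simp [ha])]
  rcases hl : leaf z with _ | c
  · rw [hleaf z hz, LeafO690.leafO_eq_none_iff] at hl
    omega
  · have h1 := LeafO690.leafO_le (x := x) (y := y) (k := n) (Lam := Λ) (s := z) (c := c)
      (by rw [← hleaf z hz]; exact hl)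
    simpa using h1

/-- **everything about one rank** -/
theorem jin (h : LaneNum P W Λ s top) (hr : 8 ≤ P.r) (hF : FOk leaf F (Dom P I) Λ)
    (htop : ∀ y, Dom P I y → cls F y ≤ top) {N D : ℕ} (hE : Exact N D G)
    (hGF : ∀ y, Dom P I y → G y ≤ F y) (hb : BotOk P leaf F (Dom P I) G) :
    Jin P W leaf F X k (Dom P I) G Λ (bL P) (wL P) (dL P) (eta P s) s where
  W0 := h.W0
  dom := fun _ hy => hy.inD
  dcl := fun _ _ hy hi hj hz => dcl hy hi hj hz
  fok := hF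
  lam := by
    refine le_trans (le_of_eq ?_) h.tiny
    rw [show P.bb + P.a2 + 3 = 2 + (P.bb + 1 + P.a2) by omega, pow_add]
    norm_num
  gd := fun κ y hy ha => h.arr_grid htop hy ha
  par := jpar h hr
  body := fun i κ z hi hz ha => h.body_sq hF htop i κ z hi hz ha
  glip := fun y z _ _ hi hj => hE.lip y z hi hj
  gF := hGF
  bot := hb

end gen

/-! ### a good history -/

variable {C : Cfg} {X : ℕ → ℕ × St → ℕ} {x y : List ℕ} {g p L Λ s e : ℕ} {ζ : ℝ}

/-- the hypotheses of this file -/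
structure Hyp (C : Cfg) (X : ℕ → ℕ × St → ℕ) (x y : List ℕ) (g p L Λ s : ℕ) (ζ : ℝ) : Prop where
  good : C.Good X
  lip : LipOk C x y g p L ζ
  ζ7 : ζ ≤ 1 / 7
  snd : Sound512.SndOk C
  leaf : ∀ z, Dom C.P C.I z → C.leaf z = LeafO690.leafO x y C.P.n Λ z
  r : 8 ≤ C.P.r
  lane : LaneNum C.P (2 ^ C.W) Λ s (C.K0 - C.P.a2)

namespace Hyp

variable (H : Hyp C X x y g p L Λ s ζ)

include H

theorem fok (he : e ≤ C.P.E) : FOk C.leaf (FE C.P X e) (Dom C.P C.I) Λ :=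
  Sound512.fok H.good H.lip H.ζ7 H.snd H.leaf he

theorem gF (he : e ≤ C.P.E) : ∀ z, Dom C.P C.I z → gst x y C.P.n z ≤ FE C.P X e z :=
  fun _ hz => Sound512.sound_F H.good H.lip H.ζ7 H.snd H.leaf he hz

theorem clsE (e : ℕ) : ∀ z, Dom C.P C.I z → cls (FE C.P X e) z + C.P.a2 ≤ C.K0 :=
  fun _ hz => cls_le H.good H.lip e hz

theorem clsK (e : ℕ) : ∀ z, Dom C.P C.I z → cls (FE C.P X e) z ≤ C.K0 :=
  fun _ hz => (Nat.le_add_right _ _).trans (H.clsE e _ hz)

theorem grd : GrdOK C.P C.K0 := fun κ hκ => H.snd.grd κ (hκ.trans (Nat.le_succ _))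

theorem jin (he : e ≤ C.P.E) (k : ℕ) :
    Jin C.P (2 ^ C.W) C.leaf (FE C.P X e) (Xe C.P X e) k (Dom C.P C.I) (gst x y C.P.n) Λ
      (bL C.P) (wL C.P) (dL C.P) (eta C.P s) s :=
  LawN147.jin H.lane H.r (H.fok he) (fun z hz => by have := H.clsE e z hz; omega)
    (exact_gst x y C.P.n H.lip.x_le H.lip.y_le) (H.gF he) (botOk H.leaf)

theorem un (he : e ≤ C.P.E) : LaneN540.Un C (FE C.P X e) where
  coer := (H.fok he).coer
  cls := H.clsK e
  grd := H.grd

end Hyp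

/-- the lane mean in the names of 195 -/
theorem R_eq_RM (C : Cfg) (X : ℕ → ℕ × St → ℕ) (e k : ℕ) :
    C.R X e k = RM C.P (2 ^ C.W) C.leaf (FE C.P X e) (Xe C.P X e) k := by
  funext κ z
  rw [LaneN540.R_eq, RM_lane]
  rfl

/-- mean of the body entry of rank `k` of epoch `e` (`botNum` at macro height `0`) -/
noncomputable def An (C : Cfg) (X : ℕ → ℕ × St → ℕ) (e k : ℕ) : ℕ → St → ℝ :=
  AM C.P (2 ^ C.W) C.leaf (FE C.P X e) (Xe C.P X e) k

theorem An_zero {k κ : ℕ} {z : St} (hz : z.i = 0) :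
    An C X e k κ z = (botNum C.P C.leaf (FE C.P X e) κ z : ℕ) := AM_zero hz

/-- macro height `≥ 1`: 540's body mean -/
theorem An_pos {k κ : ℕ} {z : St} (hz : 1 ≤ z.i) : An C X e k κ z = LaneN540.Ae C X e k κ z := by
  unfold An
  rw [AM_succ (i := z.i - 1) (by omega)]
  rfl

theorem mem_dom {κ : ℕ} {z : St} (hs : (κ, z) ∈ OmP C.P.N C.I C.P.Dm C.K0) : Dom C.P C.I z :=
  ((mem_OmP (Dom20.N_pos C.P)).1 hs).2

section

variable (H : Hyp C X x y g p L Λ s ζ)

include H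

/-- **(A5), staying** -/
theorem J (he : e ≤ C.P.E) (k : ℕ) {κ : ℕ} {z : St} (hz : Dom C.P C.I z)
    (ha : adm C.P (FE C.P X e) κ z = true) :
    C.R X e k κ z ≤ An C X e k κ z + eta C.P s * 2 ^ κ := by
  rw [R_eq_RM]
  exact (H.jin he k).stay hz ha

/-- macro height `0` -/
theorem R_zero (he : e ≤ C.P.E) (k : ℕ) {κ : ℕ} {z : St} (hz : Dom C.P C.I z) (hi : z.i = 0)
    (ha : adm C.P (FE C.P X e) κ z = true) :
    C.R X e k κ z = (botNum C.P C.leaf (FE C.P X e) κ z : ℕ) := by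
  rw [R_eq_RM]
  exact RM_zero hi ((H.jin he k).dom z hz) ha

/-- **(J) at every block of the domain** -/
theorem ja (he : e ≤ C.P.E) (k : ℕ) {z : St} (hz : Dom C.P C.I z) :
    ArrLip195.JA C.P (FE C.P X e) (An C X e k) (C.R X e k) (ee C.P (eta C.P s)) z.i z.j := by
  rw [R_eq_RM]
  exact (H.jin he k).ja H.r fun w hw => dcl hz hw.1 hw.2.1 hw.2.2

/-- retiring, all macro heights -/
theorem upF_ee (he : e ≤ C.P.E) (k : ℕ) {κ : ℕ} {z : St} (hz : Dom C.P C.I z)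
    (ha : adm C.P (FE C.P X e) κ z = true) :
    C.R X e k κ z ≤ FE C.P X e z + ee C.P (eta C.P s) κ :=
  (ja H he k hz).upF κ z ⟨rfl, rfl, hz.inD⟩ ha

/-- retiring at macro heights `≥ 1` -/
theorem upF_pos (he : e ≤ C.P.E) (k : ℕ) {κ : ℕ} {z : St} (hz : Dom C.P C.I z) (hi : 1 ≤ z.i)
    (ha : adm C.P (FE C.P X e) κ z = true) :
    C.R X e k κ z ≤ FE C.P X e z + (2 / 2 ^ C.P.bb + eta C.P s) * 2 ^ κ := by
  have h1 := ((H.jin he k).law (i := z.i - 1) (by omega) hz ha).retire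
  rw [R_eq_RM, RM_succ (i := z.i - 1) (by omega)]
  have h2 : ((2 ^ κ / 2 ^ C.P.bb : ℕ) : ℝ) ≤ 2 ^ κ / 2 ^ C.P.bb := by
    have := Nat.cast_div_le (α := ℝ) (m := 2 ^ κ) (n := 2 ^ C.P.bb)
    push_cast at this
    exact this
  have e1 : (2 / 2 ^ C.P.bb + eta C.P s) * 2 ^ κ =
      2 * ((2 : ℝ) ^ κ / 2 ^ C.P.bb) + eta C.P s * 2 ^ κ := by ring
  rw [e1]
  linarith

/-- retiring, all macro heights, constant `1` -/
theorem upF_one (he : e ≤ C.P.E) (hbb : 2 / 2 ^ C.P.bb + eta C.P s ≤ 1) (k : ℕ) {κ : ℕ} {z : St}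
    (hz : Dom C.P C.I z) (ha : adm C.P (FE C.P X e) κ z = true) :
    C.R X e k κ z ≤ FE C.P X e z + 1 * 2 ^ κ := by
  rcases Nat.eq_zero_or_pos z.i with hi | hi
  · rw [R_zero H he k hz hi ha]
    have h1 := ((H.jin he k).bot κ z hz hi ha).2
    have h2 := H.gF he z hz
    have h3 : botNum C.P C.leaf (FE C.P X e) κ z ≤ FE C.P X e z + 1 := by omega
    have h4 : ((botNum C.P C.leaf (FE C.P X e) κ z : ℕ) : ℝ) ≤ FE C.P X e z + 1 := by
      exact_mod_cast h3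
    have h5 : (1 : ℝ) ≤ 2 ^ κ := one_le_pow₀ (by norm_num)
    linarith
  · refine (upF_pos H he k hz hi ha).trans ?_
    have h5 : (0 : ℝ) < 2 ^ κ := by positivity
    have h6 := mul_le_mul_of_nonneg_right hbb h5.le
    linarith

/-- **the law of the lanes of epoch `e`**, all four fields -/
theorem law (he : e < C.P.E) {τ c8 : ℝ} (hτ : eta C.P s ≤ τ)
    (hbb : 2 / 2 ^ C.P.bb + eta C.P s ≤ 1) (hc8 : 2 * 2 ^ C.P.n + 1 ≤ c8) :
    WinH330.Law C X e (An C X e) τ 1 c8 where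
  J := fun k _ κ z hs ha => by
    have h1 := J H he.le k (mem_dom hs) ha
    have h2 : eta C.P s * 2 ^ κ ≤ τ * 2 ^ κ := mul_le_mul_of_nonneg_right hτ (by positivity)
    linarith
  upF := fun k _ κ z hs ha => upF_one H he.le hbb k (mem_dom hs) ha
  body := fun k hk κ z hs hi ha => by
    rw [An_pos hi]
    have h1 := LaneN540.law_body (k := k) (κ := κ) (z := z) H.good (H.un he.le) he hk H.snd.dl
      H.snd.g0 H.snd.um H.snd.r (mem_dom hs) hi ha
    linarith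
  bot := fun k _ κ z hs ha hi => (R_zero H he.le k (mem_dom hs) hi ha).le

/-- the unit functions in 195's form -/
theorem fl (he : e ≤ C.P.E) (hζ8 : ζ ≤ 1 / 8) (hpb : 5 ≤ C.P.pb) {z : St}
    (hz : Dom C.P C.I z) : ArrLip195.FL C.P (FE C.P X e) ζ z.i z.j where
  pb := hpb
  ζ0 := H.lip.z0
  ζ1 := hζ8
  lip := fun _ _ ha hb => lip' H.good H.lip he (dcl hz ha.1 ha.2.1 ha.2.2)
    (dcl hz hb.1 hb.2.1 hb.2.2) (ha.1.trans hb.1.symm) (ha.2.1.trans hb.2.1.symm)
  coer := fun a ha => (H.fok he).coer a (dcl hz ha.1 ha.2.1 ha.2.2)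
  dvd := fun a ha => H.grd _ (H.clsK e a (dcl hz ha.1 ha.2.1 ha.2.2))

/-- **arrival Lipschitz and oscillation input for all ranks of an epoch** -/
theorem oscR (he : e < C.P.E) (hζ8 : ζ ≤ 1 / 8) (ha2 : 5 ≤ C.P.a2)
    (hb' : 2 / 2 ^ C.P.bb + eta C.P s + 4 / 2 ^ C.P.a1 + 6 / 2 ^ C.P.pb + 5 * ζ ≤ 1) :
    ∀ k < C.P.K, OscI283.OscR C.P (FE C.P X e) (Dom C.P C.I) (Xe C.P X e k)
      (ArrLip195.numR C.P (FE C.P X e) (C.R X e k))
      (2 / 2 ^ C.P.bb + eta C.P s + 4 / 2 ^ C.P.a1 + 6 / 2 ^ C.P.pb + 5 * ζ) (2 / 2 ^ C.P.nb) ζ 4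
      (1 + 2 * 1) 0 :=
  OscD283.oscR_cfg (A := An C X e) H.good he
    (add_nonneg (by positivity) (eta_nonneg C.P s)) zero_le_one H.lip.z0
    (fun κ => ee_le C.P (eta C.P s) κ) ha2 hb' H.grd (H.clsK e)
    (fun z hz => fl H he.le hζ8 ((show 5 ≤ 10 by norm_num).trans H.snd.pb) hz)
    fun k _ z hz => ja H he.le k hz

/-- **the hypotheses of 441's `near_body`** at a state of the domain -/
theorem near (he : e < C.P.E) (hζ8 : ζ ≤ 1 / 8) (ha2 : 5 ≤ C.P.a2)
    (hb' : 2 / 2 ^ C.P.bb + eta C.P s + 4 / 2 ^ C.P.a1 + 6 / 2 ^ C.P.pb + 5 * ζ ≤ 1)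
    {κ G : ℕ} {z : St} {cs : ℕ → ℕ}
    (N : OscC283.Num C.P (FE C.P X e) κ z G
      (2 / 2 ^ C.P.bb + eta C.P s + 4 / 2 ^ C.P.a1 + 6 / 2 ^ C.P.pb + 5 * ζ)
      (2 / 2 ^ C.P.nb) ζ 4 (1 + 2 * 1) 0) (hz : Dom C.P C.I z) (hi : 1 ≤ z.i)
    (hreg : regular C.P (FE C.P X e) κ z) (hcls : cls (FE C.P X e) z ≤ κ + 1)
    (hcs : ∀ q, 0 < q → q < 2 ^ C.P.n → cs q < nlet C.P (FE C.P X e) κ z) :
    RegE441.Hyp C.P (FE C.P X e) (Xe C.P X e) κ z G cs :=
  OscD283.near_hyp_cfg (A := An C X e) H.good he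
    (add_nonneg (by positivity) (eta_nonneg C.P s)) zero_le_one H.lip.z0
    (fun κ => ee_le C.P (eta C.P s) κ) ha2 hb' H.grd (H.clsK e)
    (fun w hw => fl H he.le hζ8 ((show 5 ≤ 10 by norm_num).trans H.snd.pb) hw)
    (fun k _ w hw => ja H he.le k hw) N hz hi hreg hcls hcs

end

end Crest.Agent.R288.LawN147
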