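/-
# Row 288, RT.LANE2 (helper944) on ALG v2.2: the window step law, complete

* `endOk_npiece` : near pieces of a state of the domain lie in requested cells.
* **`body_step`** : `BodyStep` of `LawU_944` on the domain `Dom P I` of `DomB_20`, from `BodyM79.body_law`.
-/
import Crest.Agent.R288.LawU_944
import Crest.Agent.R288.BodyM_79
import Crest.Agent.R288.DomB_20

set_option autoImplicit false

namespace Crest.Agent.R288.LawV944

open Crest.Agent.R288.Alg45 Crest.Agent.R288.XB715 Crest.Agent.R288.AdmR944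
  Crest.Agent.R288.LawS944 Crest.Agent.R288.LawU944 Crest.Agent.R288.Dom20
  Crest.Agent.R295.Rnd627 Crest.Agent.R295.Rnd627.RT

variable {P : Par} {W : ℕ} {leaf : St → Option ℕ} {F : St → ℕ} {X : ℕ → ℕ → St → ℕ} {k I Λ : ℕ}

theorem rd_div (κ : ℕ) (u : ℤ) : rd P κ u / 2 ^ κ = u / 2 ^ κ := by
  have hd : (gst P κ : ℤ) ∣ 2 ^ κ := Cell488.gst_dvd P κ
  have hp : (0 : ℤ) < 2 ^ κ := by positivity
  apply le_antisymm
  · exact Int.ediv_le_ediv hp (Cell488.rd_le P κ u)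
  · have h1 : u / 2 ^ κ * 2 ^ κ ≤ u := Int.ediv_mul_le u hp.ne'
    have h2 : (gst P κ : ℤ) ∣ u / 2 ^ κ * 2 ^ κ := hd.mul_left _
    exact (Int.le_ediv_iff_mul_le hp).2 (Dom20.le_rd P h2 h1)

theorem endOk_npiece (hr : 1 ≤ P.r) {κ : ℕ} {x : St} (hx : Dom P I x) {q : ℕ} (hq : q < P.N)
    (a b : ℕ) : EndOk P F (celOf κ x) q (npiece P F κ x q a b) where
  hi := rfl
  hj := rfl
  mem := by
    intro _ _
    set y := npiece P F κ x q a b with hy
    show rd P (cls F y) y.u / 2 ^ cls F y ∈ cellsIn P.r κ (x.u / 2 ^ κ) (cls F y)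
    rw [rd_div]
    have hp : (0 : ℤ) < 2 ^ κ := by positivity
    have hx1 : x.u / 2 ^ κ * 2 ^ κ ≤ x.u := Int.ediv_mul_le x.u hp.ne'
    have hx2 : x.u < (x.u / 2 ^ κ + 1) * 2 ^ κ := Int.lt_ediv_add_one_mul_self x.u hp
    have hr0 : (0 : ℤ) ≤ P.r * 2 ^ κ := by positivity
    have hu : y.u = cut P κ x q (near P F κ x q a) := rfl
    have hD := hx.inD
    have hxu : -(P.Dm : ℤ) ≤ x.u ∧ x.u ≤ P.Dm := by
      have := hD.1; omega
    have hb : (x.u / 2 ^ κ - P.r) * 2 ^ κ ≤ y.u ∧ y.u ≤ (x.u / 2 ^ κ + 1 + P.r) * 2 ^ κ := by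
      rw [hu]
      unfold cut
      split_ifs with h0 h1
      · constructor <;> nlinarith
      · omega
      · obtain ⟨h2, h3⟩ := pos_radius hr hxu κ (near P F κ x q a)
        have h4 : x.u / 2 ^ κ * 2 ^ κ ≤ rd P κ x.u :=
          Dom20.le_rd P ((Cell488.gst_dvd P κ).mul_left _) hx1
        have h5 := Cell488.rd_le P κ x.u
        constructor <;> nlinarith
    exact Cell488.mem_cellsIn_of hb.1 hb.2

theorem inC_of_adm {κ : ℕ} {x : St} (hx : Dom P I x) (ha : adm P F κ x = true) :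
    Cell488.InC P (celOf κ x) x := by
  have h := adm_iff.1 ha
  refine Cell488.inC_celOf P hx.inD ?_ h.2.1
  rw [← h.1]
  exact Cell488.gr_rdn P κ x

/-- **(L5)** -/
theorem body_step (hg : 0 < P.g) (hum : 0 < P.um) (hpm : 0 < P.pm) (hr : 1 ≤ P.r)
    (hW : 0 < W) (hd : 2 ^ P.dl ∣ W) (hF : FOk leaf F (Dom P I) Λ) (hΛ : 8 * P.N ≤ Λ)
    (hC : 1 ≤ P.Creg) (hpb : 10 ≤ P.pb) (hK : ∀ y, Dom P I y → gst P (cls F y) ∣ P.Dm)
    {m v : ℝ} (hm : 0 ≤ m) (hv : 0 ≤ v) :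
    BodyStep P W leaf F X k (Dom P I) m v (16 * ((m + 2) * P.Creg + 2))
      ((16 * ((m + 2) * P.Creg + 2)) ^ 2 + 16 * P.Creg * v / 2 ^ P.c0) := by
  intro sub κ x hx hi ha hsub
  refine BodyM79.body_law (c := celOf κ x) hg hum hpm hW hd hF hΛ hC hpb hx ha
    (fun f => Cell488.rdt_tabC P (inC_of_adm hx ha) f) ?_ hm hv ?_
  · intro q hq a _ b _
    have hy : Dom P I (npiece P F κ x q a b) := hx.npiece hr hi hq F κ a b
    exact ⟨endOk_npiece hr hx hq a b, hy, hy.rdn (hK _ hy)⟩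
  · intro κ' z hz _ _ haz hDz
    refine hsub κ' z ?_ hDz haz
    have : (celOf κ x).i = x.i := rfl
    omega

end Crest.Agent.R288.LawV944
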