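/-
# Row 288, RT.LANE2 (helper944) on ALG v2.2: the jump step law

For a family `body = bodyT .. sub` of body tables (`sub` arbitrary) and an admissible pair `(κ, y)` of
the domain `Dom P I`:
* `bodyOk` : `BodyOk` of `ArrW_984` from means and second moments at admissible pairs;
* **`arrOk_big`**, **`arrOk_tiny`** : `ArrOk` (low, stay, retire, pair) at the entry of `y`;
* **`arr_step`** : mean `≤ 7 * 2^κ`, second moment `≤ ((32 + b 2^a2)² + w 4^a2) 4^κ`.
-/
import Crest.Agent.R288.LawV_944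
import Crest.Agent.R288.ArrW_984
import Crest.Agent.R288.ArrG_147

set_option autoImplicit false

namespace Crest.Agent.R288.LawX944

open Crest.Agent.R288.Alg45 Crest.Agent.R288.XB715 Crest.Agent.R288.AdmR944
  Crest.Agent.R288.LawS944 Crest.Agent.R288.LawU944 Crest.Agent.R288.LawV944
  Crest.Agent.R288.Dom20 Crest.Agent.R288.ArrB147 Crest.Agent.R288.ArrG147
  Crest.Agent.R288.ArrV984 Crest.Agent.R288.ArrW984
  Crest.Agent.R295.Rnd627 Crest.Agent.R295.Rnd627.RT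

variable {P : Par} {W : ℕ} {leaf : St → Option ℕ} {F : St → ℕ} {X : ℕ → ℕ → St → ℕ}
  {k I Λ : ℕ} {sub : Cel → RT (List ℕ)}

/-- the body family -/
abbrev bf (P : Par) (leaf : St → Option ℕ) (F : St → ℕ) (X : ℕ → ℕ → St → ℕ) (k : ℕ)
    (sub : Cel → RT (List ℕ)) : Cel → RT (List ℕ) := fun c => bodyT P leaf F X k sub c

theorem zof_dom {κ : ℕ} {y : St} (hy : Dom P I y) (x : JK) (hx : x ∈ jks P (celOf κ y)) :
    Dom P I (zof P (celOf κ y) x) ∧ (zof P (celOf κ y) x).i = y.i ∧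
      (zof P (celOf κ y) x).j = y.j := by
  have hp := (mem_jks P).1 hx
  have h1 := (acell_spec P hp.1).2
  have h2 := hy.celOf κ
  have hi : (acell P (celOf κ y) x.1).i = y.i := h1.1
  have hj : (acell P (celOf κ y) x.1).j = y.j := h1.2
  refine ⟨Dom.cst ?_ ?_ x.2, hi, hj⟩
  · rw [hi]; exact h2.1
  · rw [hi, hj]; exact h2.2

theorem entry_eq {κ : ℕ} {y : St} {x : JK} (hx : x ∈ jks P (celOf κ y))
    (hD : ∀ κ' ≤ κ + P.a2, (gst P κ' : ℤ) ∣ (P.Dm : ℤ)) (φ : ℕ → ℝ) :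
    (bf P leaf F X k sub (acell P (celOf κ y) x.1)).Ev W (fun T => φ (T.getD x.2 0)) =
      (bf P leaf F X k sub (celOf (kof P (celOf κ y) x) (zof P (celOf κ y) x))).Ev W
        fun T => φ (rdt P (celOf (kof P (celOf κ y) x) (zof P (celOf κ y) x)) T
          (zof P (celOf κ y) x)) := by
  have hp := (mem_jks P).1 hx
  rw [celOf_zof P hx hD]
  exact Ev_body_entry W hp.2 (zof_inC P hx hD) φ

/-- what the jump needs from the body tables -/
theorem bodyOk {κ : ℕ} {y : St} (hy : Dom P I y)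
    (hD : ∀ κ' ≤ κ + P.a2, (gst P κ' : ℤ) ∣ (P.Dm : ℤ)) {b w : ℝ}
    (hb : ∀ κ' z, z.i = y.i → Dom P I z → adm P F κ' z = true →
      MS b w κ' (ms P W (bf P leaf F X k sub) κ' z)) :
    BodyOk P W F (bf P leaf F X k sub) (celOf κ y) b w where
  mean := by
    intro x hx ha
    obtain ⟨h1, h2, _⟩ := zof_dom hy x hx
    have h3 := (hb _ _ h2 h1 ha).1
    unfold jmn emn
    rw [entry_eq hx hD fun a => (a : ℝ)]
    exact h3
  sq := by
    intro x hx ha
    obtain ⟨h1, h2, _⟩ := zof_dom hy x hx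
    have h3 := (hb _ _ h2 h1 ha).2
    rw [entry_eq hx hD fun a => (a : ℝ) ^ 2]
    exact h3
  nadm := by
    intro x hx ha
    have hp := (mem_jks P).1 hx
    exact ((bodyConst_bodyT (W := W) (leaf := leaf) (F := F) (X := X) (k := k) sub)
      (acell P (celOf κ y) x.1) x.2 hp.2).1 ha

theorem kLe {c : Cel} : KLe P c := fun _ hx => ((mem_jCl P).1 (kof_mem P hx)).2

theorem cst_own {κ : ℕ} {y : St} (hy : Dom P I y) (ha : adm P F κ y = true) :
    cst P (celOf κ y) (cidx P (celOf κ y) y) = y :=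
  Cell488.cst_cidx P (inC_of_adm hy ha)

theorem fLip (hF : FOk leaf F (Dom P I) Λ) {κ : ℕ} {y : St} (hy : Dom P I y)
    (ha : adm P F κ y = true) : FLip P F (celOf κ y) (cidx P (celOf κ y) y) := by
  intro x hx
  rw [cst_own hy ha] at hx
  have hx' := ((mem_mnu P).1 hx).1
  obtain ⟨h1, h2, h3⟩ := zof_dom hy x hx'
  have h4 := hF.lip _ _ h1 hy h2.symm h3.symm
  have h5 : jdst P (celOf κ y) (cidx P (celOf κ y) y) x =
      Alg45.dist y (zof P (celOf κ y) x) := by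
    unfold jdst
    rw [cst_own hy ha]
    rfl
  rw [h5, cst_own hy ha]
  rw [AdmR944.dist_comm'] at h4
  omega

theorem own_mem {κ : ℕ} {y : St} (hy : Dom P I y) (ha : adm P F κ y = true) :
    ((celOf κ y).κ, (celOf κ y).m) ∈ acells P (celOf κ y).κ (celOf κ y).m :=
  own_mem_acells P (meets_of_inC P (inC_of_adm hy ha))

section step

variable (hF : FOk leaf F (Dom P I) Λ) {κ : ℕ} {y : St} (hy : Dom P I y)
  (ha : adm P F κ y = true) (hD : ∀ κ' ≤ κ + P.a2, (gst P κ' : ℤ) ∣ (P.Dm : ℤ)) (hW : 0 < W)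

include hF hy ha hD hW

/-- the jump at a class `≥ bb + 2` -/
theorem arrOk_big {b w : ℝ} (hb0 : 0 ≤ b) (hw : 0 ≤ w)
    (hb : ∀ κ' z, z.i = y.i → Dom P I z → adm P F κ' z = true →
      MS b w κ' (ms P W (bf P leaf F X k sub) κ' z))
    {s : ℕ} (hG : P.gJ = 2 * (6 * s) + 1) (hM : 0 < P.mJ) (hκ : P.bb + 2 ≤ κ)
    (hm : 3 * w * 4 ^ (P.a2 + P.bb + 2) ≤ P.mJ) {η : ℝ}
    (hq : ((jks P (celOf κ y)).length + 1) * (1 / 2) ^ s * (32 + b * 2 ^ P.a2) ≤ η) :
    ArrOk P W F (bf P leaf F X k sub) (celOf κ y) (cidx P (celOf κ y) y) (η * 2 ^ κ) :=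
  arr_big (c := celOf κ y) (own_mem hy ha) (Cell488.cidx_lt P (inC_of_adm hy ha))
    (by rw [cst_own hy ha]; exact ha) hW (bodyOk hy hD hb) hb0 hw kLe (fLip hF hy ha) hG hM hκ
    hm hq

omit hD in
/-- the jump at a class all of whose menu classes consist of leaves -/
theorem arrOk_tiny (hG : 0 < P.gJ) (hM : 0 < P.mJ) (hκ : 4 * 2 ^ (κ + P.a2) ≤ Λ) :
    ArrOk P W F (bf P leaf F X k sub) (celOf κ y) (cidx P (celOf κ y) y) 0 := by
  refine arr_tiny (c := celOf κ y) (own_mem hy ha) (Cell488.cidx_lt P (inC_of_adm hy ha))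
    (by rw [cst_own hy ha]; exact ha) hW hG hM
    (g := fun x => if adm P F (kof P (celOf κ y) x) (zof P (celOf κ y) x) = true then
      (leaf (zof P (celOf κ y) x)).getD 0 else F (zof P (celOf κ y) x)) ?_
  intro x hx
  rw [cst_own hy ha] at hx
  have hx' := ((mem_mnu P).1 hx).1
  obtain ⟨h1, _, _⟩ := zof_dom hy x hx'
  have hp := (mem_jks P).1 hx'
  have hB := (bodyConst_bodyT (W := W) (leaf := leaf) (F := F) (X := X) (k := k) sub)
    (acell P (celOf κ y) x.1) x.2 hp.2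
  by_cases hz : adm P F (kof P (celOf κ y) x) (zof P (celOf κ y) x) = true
  · simp only [hz, if_true]
    have hk : kof P (celOf κ y) x ≤ κ + P.a2 := kLe x hx'
    have h2 : 4 * 2 ^ kof P (celOf κ y) x ≤ Λ :=
      (Nat.mul_le_mul_left 4 (Nat.pow_le_pow_right (by norm_num) hk)).trans hκ
    obtain ⟨a, h3, _⟩ := leaf_of_tiny hF h2 h1 hz
    have h4 := hB.2 hz a h3
    rw [h3]
    exact h4
  · have h5 : adm P F (kof P (celOf κ y) x) (zof P (celOf κ y) x) = false := by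
      simpa using hz
    simp only [h5, Bool.false_eq_true, if_false]
    exact hB.1 h5

/-- **(L6)** mean and second moment of an arrival entry -/
theorem arr_step {b w : ℝ} (hb0 : 0 ≤ b) (hw : 0 ≤ w)
    (hb : ∀ κ' z, z.i = y.i → Dom P I z → adm P F κ' z = true →
      MS b w κ' (ms P W (bf P leaf F X k sub) κ' z))
    {s : ℕ} (hG : P.gJ = 2 * (6 * s) + 1) (hM : 0 < P.mJ)
    (hΛ : 4 * 2 ^ (P.bb + 1 + P.a2) ≤ Λ)
    (hm : 3 * w * 4 ^ (P.a2 + P.bb + 2) ≤ P.mJ)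
    (hq : ((jks P (celOf κ y)).length + 1) * (1 / 2) ^ s * (32 + b * 2 ^ P.a2) ≤ 1) :
    MS 7 ((32 + b * 2 ^ P.a2) ^ 2 + w * 4 ^ P.a2) κ
      (ms P W (fun c => arrOf P F (bf P leaf F X k sub) c) κ y) := by
  have hc := own_mem hy ha
  have ht := Cell488.cidx_lt P (inC_of_adm hy ha)
  have ha' : adm P F (celOf κ y).κ (cst P (celOf κ y) (cidx P (celOf κ y) y)) = true := by
    rw [cst_own hy ha]; exact ha
  have hp : (0 : ℝ) < 2 ^ κ := by positivity
  constructor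
  · have h1 : ∃ e : ℝ, e ≤ 2 ^ κ ∧
        ArrOk P W F (bf P leaf F X k sub) (celOf κ y) (cidx P (celOf κ y) y) e := by
      rcases Nat.lt_or_ge κ (P.bb + 2) with hκ | hκ
      · refine ⟨0, hp.le, arrOk_tiny hF hy ha hW (by omega) hM ?_⟩
        exact (Nat.mul_le_mul_left 4 (Nat.pow_le_pow_right (by norm_num) (by omega))).trans hΛ
      · exact ⟨_, le_of_eq (one_mul _), arrOk_big hF hy ha hD hW hb0 hw hb hG hM hκ hm hq⟩
    obtain ⟨e, he, h2⟩ := h1
    exact h2.mean_le ha' he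
  · exact arr_sq hc ht ha' hW (bodyOk hy hD hb) hb0 hw kLe (fLip hF hy ha)

end step

end Crest.Agent.R288.LawX944
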