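import Mathlib

/-!
# Layer lemma of the estimator EST of INIT (row 288, #4084 (3)) — pure, deterministic part (helper804)

* `phi k l a = min a (k/2^l) - min a (k/2^(l+1))` : the part of `a` lying in `[k/2^(l+1), k/2^l]`;
* `Sand e d k E X` : `min ((1-e)E - d k) k ≤ X ≤ min ((1+e)E + d k) k` (cap AFTER the noise);
* `sand_grid` : from a sandwich for `E(w)` on a grid to a sandwich for `min_w (E(w) + |w-u|)`;
* `phi_le`, `phi_ge` : per layer, an estimate with cap `k/2^l` is as good as a relative error;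
* `level` : one macro level of the recursion.
-/

set_option autoImplicit false

namespace Crest.Agent.R288.Lay804

open Finset

/-- the part of `a` in `[k/2^(l+1), k/2^l]`. -/
noncomputable def phi (k : ℝ) (l : ℕ) (a : ℝ) : ℝ := min a (k / 2 ^ l) - min a (k / 2 ^ (l + 1))

theorem half (k : ℝ) (l : ℕ) : k / 2 ^ (l + 1) = k / 2 ^ l / 2 := by
  rw [pow_succ]; field_simp

theorem phi_eq {k : ℝ} (hk : 0 ≤ k) (l : ℕ) (a : ℝ) :
    phi k l a = min (max (a - k / 2 ^ (l + 1)) 0) (k / 2 ^ (l + 1)) := by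
  unfold phi
  rw [half]
  have h : 0 ≤ k / 2 ^ l := by positivity
  rcases le_total a (k / 2 ^ l / 2) with h1 | h1
  · rw [min_eq_left h1, min_eq_left (by linarith), max_eq_right (by linarith), min_eq_left (by linarith)]
    ring
  · rw [min_eq_right h1, max_eq_left (by linarith)]
    rcases le_total a (k / 2 ^ l) with h2 | h2
    · rw [min_eq_left h2, min_eq_left (by linarith)]
    · rw [min_eq_right h2, min_eq_right (by linarith)]; ring

theorem phi_nonneg {k : ℝ} (hk : 0 ≤ k) (l : ℕ) (a : ℝ) : 0 ≤ phi k l a := by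
  rw [phi_eq hk]; exact le_min (le_max_right _ _) (by positivity)

theorem phi_le_cap {k : ℝ} (hk : 0 ≤ k) (l : ℕ) (a : ℝ) : phi k l a ≤ k / 2 ^ (l + 1) := by
  rw [phi_eq hk]; exact min_le_right _ _

theorem phi_mono {k : ℝ} (hk : 0 ≤ k) (l : ℕ) {a b : ℝ} (h : a ≤ b) : phi k l a ≤ phi k l b := by
  rw [phi_eq hk, phi_eq hk]
  exact min_le_min (max_le_max (by linarith) le_rfl) le_rfl

theorem phi_min {k : ℝ} (l : ℕ) (a : ℝ) (hk : 0 ≤ k) : phi k l (min a (k / 2 ^ l)) = phi k l a := by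
  unfold phi
  have h : 0 ≤ k / 2 ^ l := by positivity
  rw [half]
  rcases le_total a (k / 2 ^ l) with h2 | h2
  · rw [min_eq_left h2]
    rw [min_eq_left h2]
  · rw [min_eq_right h2, min_self, min_eq_right (by linarith : k / 2 ^ l / 2 ≤ k / 2 ^ l),
      min_eq_right (by linarith : k / 2 ^ l / 2 ≤ a)]

theorem phi_zero {k : ℝ} (l : ℕ) {a : ℝ} (hk : 0 ≤ k) (h : a ≤ k / 2 ^ (l + 1)) : phi k l a = 0 := by
  rw [phi_eq hk, max_eq_right (by linarith), min_eq_left (by positivity)]

theorem phi_sat {k : ℝ} (l : ℕ) {a : ℝ} (hk : 0 ≤ k) (h : k / 2 ^ l ≤ a) :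
    phi k l a = k / 2 ^ (l + 1) := by
  rw [← phi_min l a hk, min_eq_right h, phi_eq hk, half]
  have h : 0 ≤ k / 2 ^ l := by positivity
  rw [max_eq_left (by linarith), min_eq_left (by linarith)]; ring

/-- telescoping of the layers. -/
theorem sum_phi (k a : ℝ) (J : ℕ) :
    ∑ l ∈ range J, phi k l a = min a k - min a (k / 2 ^ J) := by
  induction J with
  | zero => simp
  | succ J ih => rw [sum_range_succ, ih]; unfold phi; ring

theorem sum_phi_le (k a : ℝ) (J : ℕ) (hk : 0 ≤ k) (ha : 0 ≤ a) :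
    ∑ l ∈ range J, phi k l a ≤ min a k := by
  rw [sum_phi]
  have : 0 ≤ min a (k / 2 ^ J) := le_min ha (by positivity)
  linarith

theorem sum_phi_ge (k a : ℝ) (J : ℕ) :
    min a k - k / 2 ^ J ≤ ∑ l ∈ range J, phi k l a := by
  rw [sum_phi]
  have : min a (k / 2 ^ J) ≤ k / 2 ^ J := min_le_right _ _
  linarith

/-- two-sided estimate with relative error `e`, absolute error `d k`, cap `k` applied after the noise. -/
def Sand (e d k E X : ℝ) : Prop := min ((1 - e) * E - d * k) k ≤ X ∧ X ≤ min ((1 + e) * E + d * k) k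

theorem Sand.mono {e e' d d' k E X : ℝ} (h : Sand e d k E X) (he : e ≤ e') (hd : d ≤ d')
    (hk : 0 ≤ k) (hE : 0 ≤ E) : Sand e' d' k E X := by
  refine ⟨le_trans (min_le_min ?_ le_rfl) h.1, le_trans h.2 (min_le_min ?_ le_rfl)⟩
  · have := mul_le_mul_of_nonneg_right he hE
    have := mul_le_mul_of_nonneg_right hd hk
    linarith
  · have := mul_le_mul_of_nonneg_right he hE
    have := mul_le_mul_of_nonneg_right hd hk
    linarith

theorem Sand.exact {k E : ℝ} {e d : ℝ} (he : 0 ≤ e) (hd : 0 ≤ d) (hk : 0 ≤ k) (hE : 0 ≤ E) :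
    Sand e d k E (min E k) := by
  refine ⟨min_le_min ?_ le_rfl, min_le_min ?_ le_rfl⟩
  · have := mul_nonneg he hE
    have := mul_nonneg hd hk
    linarith
  · have := mul_nonneg he hE
    have := mul_nonneg hd hk
    linarith

/-- the convolution step: `f = min_w (E w + D w)` over all `w`, seen through a finite grid `W` which contains a
point that is `s`-good, whenever `f ≤ k`.  `D w = |w - u|`. -/
theorem sand_grid {ι : Type*} (W : Finset ι) (E Eh D : ι → ℝ) (f e d s k X : ℝ)
    (he : 0 ≤ e) (he1 : e ≤ 1) (hk : 0 < k) (hs : 0 ≤ s) (hd : 0 ≤ d)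
    (hD : ∀ w ∈ W, 0 ≤ D w)
    (hf : ∀ w ∈ W, f ≤ E w + D w)
    (hgood : f ≤ k → ∃ w ∈ W, E w + D w ≤ f + s)
    (hE : ∀ w ∈ W, 0 ≤ E w)
    (hS : ∀ w ∈ W, Sand e d k (E w) (Eh w))
    (hX1 : ∀ w ∈ W, X ≤ Eh w + D w) (hX2 : X ≤ k)
    (hX3 : X = k ∨ ∃ w ∈ W, Eh w + D w ≤ X) :
    Sand e (d + 2 * s / k) k f X := by
  constructor
  · rcases hX3 with h | ⟨w, hw, h⟩
    · rw [h]; exact min_le_right _ _
    · have h1 := (hS w hw).1
      have h2 := hf w hw
      have h3 := hD w hw
      have hsk : 0 ≤ 2 * s := by linarith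
      have h4 : (d + 2 * s / k) * k = d * k + 2 * s := by field_simp
      rw [h4]
      rcases le_total ((1 - e) * E w - d * k) k with h5 | h5
      · rw [min_eq_left h5] at h1
        refine le_trans (min_le_left _ _) ?_
        have h6 : (1 - e) * f ≤ (1 - e) * (E w + D w) := mul_le_mul_of_nonneg_left h2 (by linarith)
        have h7 : (1 - e) * D w ≤ D w := by nlinarith
        nlinarith
      · rw [min_eq_right h5] at h1
        refine le_trans (min_le_right _ _) ?_
        linarith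
  · refine le_min ?_ hX2
    have h4 : (d + 2 * s / k) * k = d * k + 2 * s := by field_simp
    rw [h4]
    by_cases hfk : f ≤ k
    · obtain ⟨w, hw, h⟩ := hgood hfk
      have h1 := (hS w hw).2
      have h2 := hX1 w hw
      have h3 := hD w hw
      have h5 : Eh w ≤ (1 + e) * E w + d * k := le_trans h1 (min_le_left _ _)
      have h6 : (1 + e) * (E w + D w) ≤ (1 + e) * (f + s) := mul_le_mul_of_nonneg_left h (by linarith)
      have h7 : e * s ≤ s := by nlinarith
      have h8 : 0 ≤ e * D w := mul_nonneg he h3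
      nlinarith
    · push Not at hfk
      have : 0 ≤ e * f := mul_nonneg he (by linarith)
      have : 0 ≤ d * k := mul_nonneg hd hk.le
      linarith

/-- per layer, upper bound. -/
theorem phi_le {k : ℝ} (hk : 0 ≤ k) (l : ℕ) {e d f X : ℝ} (he : 0 ≤ e) (he1 : e ≤ 1 / 2)
    (hd : 0 ≤ d) (hd1 : d ≤ 1 / 8) (hf : 0 ≤ f) (h : Sand e d (k / 2 ^ l) f X) :
    phi k l X ≤ phi k l ((1 + e + 4 * d) * f) := by
  have h0 : 0 ≤ k / 2 ^ l := by positivity
  have hX : X ≤ (1 + e) * f + d * (k / 2 ^ l) := le_trans h.2 (min_le_left _ _)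
  by_cases h1 : X ≤ k / 2 ^ (l + 1)
  · rw [phi_zero l hk h1]; exact phi_nonneg hk l _
  · push Not at h1
    rw [half] at h1
    apply phi_mono hk
    have h2 : k / 2 ^ l * (3 / 8) ≤ (3 / 2) * f := by nlinarith
    have h3 : k / 2 ^ l ≤ 4 * f := by linarith
    nlinarith

/-- per layer, lower bound. -/
theorem phi_ge {k : ℝ} (hk : 0 ≤ k) (l : ℕ) {e d f X : ℝ} (he : 0 ≤ e)
    (hd : 0 ≤ d) (hf : 0 ≤ f) (h : Sand e d (k / 2 ^ l) f X) :
    phi k l ((1 - e - 2 * d) * f) ≤ phi k l X := by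
  have h0 : 0 ≤ k / 2 ^ l := by positivity
  by_cases h1 : (1 - e - 2 * d) * f ≤ k / 2 ^ (l + 1)
  · rw [phi_zero l hk h1]; exact phi_nonneg hk l _
  · push Not at h1
    rw [half] at h1
    have hef : 0 ≤ e * f := mul_nonneg he hf
    have hdf : 0 ≤ d * f := mul_nonneg hd hf
    have h2 : k / 2 ^ l ≤ 2 * f := by nlinarith
    have h3 : d * (k / 2 ^ l) ≤ 2 * (d * f) := by nlinarith
    rw [← phi_min l ((1 - e - 2 * d) * f) hk]
    apply phi_mono hk
    refine le_trans (min_le_min ?_ le_rfl) h.1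
    nlinarith

/-- **One macro level.**  `f i` = true values of the children (convolved), `b` children, `E = Σ f i`, `X l` = the
(sampled) sum of the layer `l`, `D` = sampling error, `η` = inflation. -/
theorem level {ι : Type*} (I : Finset ι) (f : ι → ℝ) (hf : ∀ i ∈ I, 0 ≤ f i) (k : ℝ) (hk : 0 < k)
    (J : ℕ) (X : ℕ → ℝ) (e1 e2 D η : ℝ) (he1 : 0 ≤ e1) (he1' : e1 ≤ 1) (he2 : 0 ≤ e2) (hD : 0 ≤ D) (hη : 0 ≤ η)
    (hX0 : ∀ l < J, 0 ≤ X l)
    (hU : ∑ i ∈ I, f i ≤ 2 * k → ∀ l < J, X l ≤ ∑ i ∈ I, phi k l ((1 + e2) * f i) + D)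
    (hL : ∀ l < J, min (∑ i ∈ I, phi k l ((1 - e1) * f i)) (2 * k) - D ≤ X l)
    (hβ : (#I : ℝ) * (k / 2 ^ J) + J * D ≤ k / 2)
    (hηβ : 2 * ((#I : ℝ) * (k / 2 ^ J) + J * D) ≤ η * k) (hη1 : η ≤ 1)
    (hDk : D ≤ k) :
    Sand (max e1 (e2 + η * (1 + e2))) (2 * (((#I : ℝ) * (k / 2 ^ J) + J * D) / k)) k (∑ i ∈ I, f i)
      (min ((1 + η) * ∑ l ∈ range J, X l) k) := by
  set E := ∑ i ∈ I, f i with hE
  have hE0 : 0 ≤ E := sum_nonneg hf
  set β := (#I : ℝ) * (k / 2 ^ J) + J * D with hβd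
  have hβ0 : 0 ≤ β := by positivity
  have hS0 : 0 ≤ ∑ l ∈ range J, X l := sum_nonneg (fun l hl => hX0 l (mem_range.mp hl))
  have hβk : 2 * (β / k) * k = 2 * β := by field_simp
  constructor
  · -- lower bound
    refine le_min ?_ (min_le_right _ _)
    rw [hβk]
    by_cases hbig : ∃ l < J, 2 * k < ∑ i ∈ I, phi k l ((1 - e1) * f i)
    · obtain ⟨l, hl, hlk⟩ := hbig
      have h1 := hL l hl
      rw [min_eq_right hlk.le] at h1
      have h2 : X l ≤ ∑ l ∈ range J, X l :=
        single_le_sum (f := X) (fun l hl => hX0 l (mem_range.mp hl)) (mem_range.mpr hl)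
      refine le_trans (min_le_right _ _) ?_
      nlinarith
    · push Not at hbig
      have h1 : ∑ l ∈ range J, (∑ i ∈ I, phi k l ((1 - e1) * f i) - D) ≤ ∑ l ∈ range J, X l := by
        apply sum_le_sum
        intro l hl
        have := hL l (mem_range.mp hl)
        rwa [min_eq_left (hbig l (mem_range.mp hl))] at this
      rw [sum_sub_distrib, sum_comm] at h1
      simp only [sum_const, card_range, nsmul_eq_mul] at h1
      have h2 : ∑ i ∈ I, (min ((1 - e1) * f i) k - k / 2 ^ J) ≤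
          ∑ i ∈ I, ∑ l ∈ range J, phi k l ((1 - e1) * f i) :=
        sum_le_sum (fun i _ => sum_phi_ge k _ J)
      rw [sum_sub_distrib] at h2
      simp only [sum_const, nsmul_eq_mul] at h2
      -- A = Σ min(.., k)
      by_cases hA : ∃ i ∈ I, k ≤ (1 - e1) * f i
      · obtain ⟨i, hi, hik⟩ := hA
        have h3 : k ≤ ∑ i ∈ I, min ((1 - e1) * f i) k := by
          have : min ((1 - e1) * f i) k ≤ ∑ i ∈ I, min ((1 - e1) * f i) k :=
            single_le_sum (f := fun i => min ((1 - e1) * f i) k)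
              (fun j hj => le_min (mul_nonneg (by linarith) (hf j hj)) hk.le) hi
          rwa [min_eq_right hik] at this
        refine le_trans (min_le_right _ _) ?_
        have h4 : k - β ≤ ∑ l ∈ range J, X l := by linarith
        nlinarith
      · push Not at hA
        have h3 : ∑ i ∈ I, min ((1 - e1) * f i) k = (1 - e1) * E := by
          rw [hE, mul_sum]
          exact sum_congr rfl (fun i hi => min_eq_left (hA i hi).le)
        have h4 : (1 - e1) * E - β ≤ ∑ l ∈ range J, X l := by rw [h3] at h2; linarith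
        refine le_trans (min_le_left _ _) ?_
        have h5 : (1 - max e1 (e2 + η * (1 + e2))) * E ≤ (1 - e1) * E :=
          mul_le_mul_of_nonneg_right (by linarith [le_max_left e1 (e2 + η * (1 + e2))]) hE0
        have h6 : ∑ l ∈ range J, X l ≤ (1 + η) * ∑ l ∈ range J, X l := by nlinarith
        linarith
  · -- upper bound
    refine le_min ?_ (min_le_right _ _)
    rw [hβk]
    by_cases h2k : E ≤ 2 * k
    · have h1 : ∑ l ∈ range J, X l ≤ ∑ l ∈ range J, (∑ i ∈ I, phi k l ((1 + e2) * f i) + D) :=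
        sum_le_sum (fun l hl => hU h2k l (mem_range.mp hl))
      rw [sum_add_distrib, sum_comm] at h1
      simp only [sum_const, card_range, nsmul_eq_mul] at h1
      have h2 : ∑ i ∈ I, ∑ l ∈ range J, phi k l ((1 + e2) * f i) ≤ ∑ i ∈ I, (1 + e2) * f i :=
        sum_le_sum (fun i hi => le_trans (sum_phi_le k _ J hk.le (mul_nonneg (by linarith) (hf i hi)))
          (min_le_left _ _))
      rw [← mul_sum, ← hE] at h2
      have hJD : (J : ℝ) * D ≤ β := by rw [hβd]; have : 0 ≤ (#I : ℝ) * (k / 2 ^ J) := by positivity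
                                       linarith
      refine le_trans (min_le_left _ _) ?_
      have h3 : (1 + η) * ∑ l ∈ range J, X l ≤ (1 + η) * ((1 + e2) * E + J * D) :=
        mul_le_mul_of_nonneg_left (by linarith) (by linarith)
      have h4 : (1 + (e2 + η * (1 + e2))) * E ≤ (1 + max e1 (e2 + η * (1 + e2))) * E :=
        mul_le_mul_of_nonneg_right (by linarith [le_max_right e1 (e2 + η * (1 + e2))]) hE0
      have h5 : (1 + η) * (J * D) ≤ 2 * β := by nlinarith [mul_nonneg (Nat.cast_nonneg (α := ℝ) J) hD]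
      nlinarith
    · push Not at h2k
      refine le_trans (min_le_right _ _) ?_
      have : 0 ≤ max e1 (e2 + η * (1 + e2)) := le_trans he1 (le_max_left _ _)
      nlinarith

end Crest.Agent.R288.Lay804
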