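import Mathlib

/-!
# R288: longest common extensions, pure part

* `Sub s l i j`: the length-`l` blocks of `s` at `i` and `j` are equal.
* `lce s p q cap`: the longest common extension of the positions `p` and `q`, at most `cap`.
* `IsTab s m T`: `T` is a names table of `s[0, m)`: cell `k * (m + 1) + i` is the name of the block
  of length `2 ^ k` at `i`.
* `Sub` from two overlapping names; the greedy computation of `lce` from names.
-/

set_option autoImplicit false

namespace Crest.Agent.R288.LceA508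

/-- the blocks of length `l` at the positions `i` and `j` are equal -/
def Sub (s : ℕ → ℕ) (l i j : ℕ) : Prop := ∀ t < l, s (i + t) = s (j + t)

instance (s : ℕ → ℕ) (l i j : ℕ) : Decidable (Sub s l i j) :=
  inferInstanceAs (Decidable (∀ t < l, s (i + t) = s (j + t)))

variable {s : ℕ → ℕ} {l l' i j k : ℕ}

theorem Sub.zero : Sub s 0 i j := fun _ h => absurd h (Nat.not_lt_zero _)

theorem Sub.refl : Sub s l i i := fun _ _ => rfl

theorem Sub.symm (h : Sub s l i j) : Sub s l j i := fun t ht => (h t ht).symm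

theorem Sub.trans (h : Sub s l i j) (h' : Sub s l j k) : Sub s l i k :=
  fun t ht => (h t ht).trans (h' t ht)

theorem Sub.mono (h : Sub s l i j) (hl : l' ≤ l) : Sub s l' i j :=
  fun t ht => h t (lt_of_lt_of_le ht hl)

theorem Sub.add_iff {a b : ℕ} :
    Sub s (a + b) i j ↔ Sub s a i j ∧ Sub s b (i + a) (j + a) := by
  constructor
  · intro h
    refine ⟨h.mono (by omega), fun t ht => ?_⟩
    have := h (a + t) (by omega)
    rwa [← add_assoc, ← add_assoc] at this
  · rintro ⟨h1, h2⟩ t ht
    by_cases hta : t < a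
    · exact h1 t hta
    · obtain ⟨u, rfl⟩ := Nat.exists_eq_add_of_le (not_lt.1 hta)
      have := h2 u (by omega)
      rwa [add_assoc, add_assoc] at this

theorem Sub.succ_iff : Sub s (l + 1) i j ↔ Sub s l i j ∧ s (i + l) = s (j + l) := by
  rw [Sub.add_iff]
  refine and_congr_right fun _ => ⟨fun h => by simpa using h 0 (by omega), ?_⟩
  intro h t ht
  obtain rfl : t = 0 := by omega
  simpa using h

theorem Sub.one_iff : Sub s 1 i j ↔ s i = s j := by
  constructor
  · intro h; simpa using h 0 (by omega)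
  · intro h t ht
    obtain rfl : t = 0 := by omega
    simpa using h

/-- two overlapping blocks of length `a` cover a block of length `l` -/
theorem Sub.iff_overlap {a : ℕ} (h1 : a ≤ l) (h2 : l ≤ 2 * a) :
    Sub s l i j ↔ Sub s a i j ∧ Sub s a (i + (l - a)) (j + (l - a)) := by
  constructor
  · intro h
    refine ⟨h.mono h1, ?_⟩
    obtain ⟨b, rfl⟩ := Nat.exists_eq_add_of_le h1
    rw [Nat.add_sub_cancel_left]
    rw [add_comm] at h
    exact (Sub.add_iff.1 h).2
  · rintro ⟨g1, g2⟩ t ht
    by_cases hta : t < a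
    · exact g1 t hta
    · have := g2 (t - (l - a)) (by omega)
      rwa [show i + (l - a) + (t - (l - a)) = i + t by omega,
        show j + (l - a) + (t - (l - a)) = j + t by omega] at this

/-- equality of two functions on the blocks -/
theorem Sub.congr {s' : ℕ → ℕ} (hi : ∀ t < l, s (i + t) = s' (i + t))
    (hj : ∀ t < l, s (j + t) = s' (j + t)) : Sub s l i j ↔ Sub s' l i j := by
  refine forall₂_congr fun t ht => ?_
  rw [hi t ht, hj t ht]

/-! ### longest common extension -/

/-- the longest common extension of `p` and `q` in `s`, at most `cap` -/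
def lce (s : ℕ → ℕ) (p q cap : ℕ) : ℕ := Nat.findGreatest (fun l => Sub s l p q) cap

variable {p q cap : ℕ}

theorem lce_le : lce s p q cap ≤ cap := Nat.findGreatest_le _

theorem sub_lce : Sub s (lce s p q cap) p q :=
  Nat.findGreatest_spec (P := fun l => Sub s l p q) (Nat.zero_le cap) Sub.zero

/-- the characterisation of `lce` -/
theorem le_lce_iff : l ≤ lce s p q cap ↔ l ≤ cap ∧ Sub s l p q := by
  constructor
  · intro h
    exact ⟨h.trans lce_le, sub_lce.mono h⟩
  · rintro ⟨h1, h2⟩
    exact Nat.le_findGreatest h1 h2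

theorem lce_eq_iff : lce s p q cap = l ↔ l ≤ cap ∧ Sub s l p q ∧ (l = cap ∨ s (p + l) ≠ s (q + l)) := by
  constructor
  · rintro rfl
    refine ⟨lce_le, sub_lce, ?_⟩
    by_contra hc
    push Not at hc
    obtain ⟨h1, h2⟩ := hc
    have h3 : lce s p q cap + 1 ≤ lce s p q cap :=
      le_lce_iff.2 ⟨by have := lce_le (s := s) (p := p) (q := q) (cap := cap); omega,
        Sub.succ_iff.2 ⟨sub_lce, h2⟩⟩
    omega
  · rintro ⟨h1, h2, h3⟩
    refine le_antisymm ?_ (le_lce_iff.2 ⟨h1, h2⟩)
    rcases h3 with h3 | h3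
    · rw [h3]; exact lce_le
    · by_contra hc
      exact h3 ((sub_lce (s := s) (p := p) (q := q) (cap := cap)) l (by omega))

theorem lce_symm : lce s p q cap = lce s q p cap := by
  rw [lce_eq_iff]
  obtain ⟨h1, h2, h3⟩ := (lce_eq_iff (s := s) (p := q) (q := p) (cap := cap)).1 rfl
  exact ⟨h1, h2.symm, h3.imp id fun h => h.symm⟩

theorem lce_congr {s' : ℕ → ℕ} (hi : ∀ t < cap, s (p + t) = s' (p + t))
    (hj : ∀ t < cap, s (q + t) = s' (q + t)) : lce s p q cap = lce s' p q cap := by
  apply eq_of_forall_le_iff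
  intro l
  rw [le_lce_iff, le_lce_iff]
  refine and_congr_right fun h => Sub.congr (fun t ht => hi t (by omega)) fun t ht => hj t (by omega)

@[simp] theorem lce_zero : lce s p q 0 = 0 := Nat.le_zero.1 lce_le

theorem lce_succ : lce s p q (cap + 1) =
    if s p = s q then lce s (p + 1) (q + 1) cap + 1 else 0 := by
  split
  · next h =>
    rw [lce_eq_iff]
    refine ⟨Nat.succ_le_succ lce_le, ?_, ?_⟩
    · rw [add_comm, Sub.add_iff]
      exact ⟨Sub.one_iff.2 h, sub_lce⟩
    · obtain ⟨-, -, h3⟩ := (lce_eq_iff (s := s) (p := p + 1) (q := q + 1) (cap := cap)).1 rfl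
      rcases h3 with h3 | h3
      · left; omega
      · right
        rw [show p + (lce s (p + 1) (q + 1) cap + 1) = p + 1 + lce s (p + 1) (q + 1) cap by omega,
          show q + (lce s (p + 1) (q + 1) cap + 1) = q + 1 + lce s (p + 1) (q + 1) cap by omega]
        exact h3
  · next h =>
    rw [lce_eq_iff]
    exact ⟨by omega, Sub.zero, Or.inr (by simpa using h)⟩

theorem lce_mono {cap' : ℕ} (h : cap ≤ cap') : lce s p q cap ≤ lce s p q cap' :=
  le_lce_iff.2 ⟨lce_le.trans h, sub_lce⟩

theorem lce_min {cap' : ℕ} : lce s p q (min cap cap') = min (lce s p q cap) cap' := by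
  apply eq_of_forall_le_iff
  intro l
  rw [le_lce_iff, le_min_iff, le_min_iff, le_lce_iff]
  tauto

/-! ### names tables -/

/-- `T` is a names table of `s` on `[0, m)`: cell `k * (m + 1) + i` holds the name of the block of
length `2 ^ k` at `i` -/
def IsTab (s : ℕ → ℕ) (m : ℕ) (T : ℕ → ℕ) : Prop :=
  ∀ k i j, i + 2 ^ k ≤ m → j + 2 ^ k ≤ m →
    (T (k * (m + 1) + i) = T (k * (m + 1) + j) ↔ Sub s (2 ^ k) i j)

variable {m : ℕ} {T : ℕ → ℕ}

theorem IsTab.sub_iff (hT : IsTab s m T) {k l i j : ℕ} (h1 : 2 ^ k ≤ l) (h2 : l ≤ 2 * 2 ^ k)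
    (hi : i + l ≤ m) (hj : j + l ≤ m) :
    Sub s l i j ↔ T (k * (m + 1) + i) = T (k * (m + 1) + j) ∧
      T (k * (m + 1) + (i + (l - 2 ^ k))) = T (k * (m + 1) + (j + (l - 2 ^ k))) := by
  rw [Sub.iff_overlap h1 h2, hT k i j (by omega) (by omega), hT k _ _ (by omega) (by omega)]

/-- one round of the greedy computation: `r ≤ lce < r + 2 ^ (k + 1)` -/
def step (T : ℕ → ℕ) (m p q cap k r : ℕ) : ℕ :=
  if r + 2 ^ k ≤ cap ∧ T (k * (m + 1) + (p + r)) = T (k * (m + 1) + (q + r)) then r + 2 ^ k else r

theorem IsTab.step_spec (hT : IsTab s m T) {p q cap k r : ℕ} (hp : p + cap ≤ m) (hq : q + cap ≤ m)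
    (h1 : r ≤ lce s p q cap) (h2 : lce s p q cap < r + 2 ^ (k + 1)) :
    step T m p q cap k r ≤ lce s p q cap ∧ lce s p q cap < step T m p q cap k r + 2 ^ k := by
  have hpow : 2 ^ (k + 1) = 2 ^ k + 2 ^ k := by rw [pow_succ]; omega
  unfold step
  obtain ⟨h3, h4⟩ := le_lce_iff.1 h1
  by_cases hc : r + 2 ^ k ≤ cap
  · have hk := hT k (p + r) (q + r) (by omega) (by omega)
    by_cases hs : T (k * (m + 1) + (p + r)) = T (k * (m + 1) + (q + r))
    · rw [if_pos ⟨hc, hs⟩]
      exact ⟨le_lce_iff.2 ⟨hc, Sub.add_iff.2 ⟨h4, hk.1 hs⟩⟩, by omega⟩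
    · rw [if_neg (fun h => hs h.2)]
      refine ⟨h1, ?_⟩
      by_contra hlt
      exact hs (hk.2 (Sub.add_iff.1 (le_lce_iff.1 (not_lt.1 hlt)).2).2)
  · rw [if_neg (fun h => hc h.1)]
    refine ⟨h1, ?_⟩
    have := lce_le (s := s) (p := p) (q := q) (cap := cap)
    omega

/-- the string `l₁ ++ l₂` as a function -/
def cat (l₁ l₂ : List ℕ) : ℕ → ℕ := fun i => (l₁ ++ l₂).getD i 0

/-- `lce` of a position of `x` and a position of `y` inside `x ++ y`, in terms of lists -/
theorem le_lce_cat {x y : List ℕ} {i j l : ℕ} (hi : i ≤ x.length) (hj : j ≤ y.length) :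
    l ≤ lce (cat x y) i (x.length + j) (min (x.length - i) (y.length - j)) ↔
      i + l ≤ x.length ∧ j + l ≤ y.length ∧ ∀ t < l, x[i + t]? = y[j + t]? := by
  rw [le_lce_iff]
  have key : i + l ≤ x.length → j + l ≤ y.length →
      (Sub (cat x y) l i (x.length + j) ↔ ∀ t < l, x[i + t]? = y[j + t]?) := by
    intro h1 h2
    refine forall₂_congr fun t ht => ?_
    have e1 : cat x y (i + t) = x[i + t]'(by omega) := by
      unfold cat
      rw [List.getD_eq_getElem?_getD, List.getElem?_append_left (by omega),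
        List.getElem?_eq_getElem (by omega)]
      rfl
    have e2 : cat x y (x.length + j + t) = y[j + t]'(by omega) := by
      unfold cat
      rw [List.getD_eq_getElem?_getD, List.getElem?_append_right (by omega),
        show x.length + j + t - x.length = j + t by omega, List.getElem?_eq_getElem (by omega)]
      rfl
    rw [e1, e2, List.getElem?_eq_getElem (by omega), List.getElem?_eq_getElem (by omega),
      Option.some_inj]
  constructor
  · rintro ⟨h1, h2⟩
    have h3 : i + l ≤ x.length := by omega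
    have h4 : j + l ≤ y.length := by omega
    exact ⟨h3, h4, (key h3 h4).1 h2⟩
  · rintro ⟨h1, h2, h3⟩
    exact ⟨by omega, (key h1 h2).2 h3⟩

end Crest.Agent.R288.LceA508
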