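import Crest.Agent.R288.Plx_365

/-!
# R288, PL layer with external commands, part 2 (PlS_726 of helper726, adapted by helper365)
-/

set_option autoImplicit false

namespace Crest.Agent.R288.Plx365

open Crest.Agent.R295 HL Pt949 Crest.Agent.R288.Rec690
open Crest.Agent.Lib.PT (PTF)

/-- the state `s` represents the environment `v` at base `b` -/
structure Rp (e : Env) (pe : PEnv) (b : ℕ) (v : List ℕ) (i : ℕ) (s : State) : Prop where
  wf : s.Wf e
  base : s.reg 100 = b
  len : s.reg 101 = v.length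
  seg : s.Seg 50 b v
  drawn : s.drawn = i
  ora : ∀ k, k < 50 → s.arr k = pe.O k
  glo : ∀ x, x < 100 → s.reg x = pe.G x

/-- what a program at base `b` keeps -/
structure Keep (b : ℕ) (s s' : State) : Prop where
  reg : ∀ x, x < 100 → s'.reg x = s.reg x
  arr : ∀ k, k < 50 → s'.arr k = s.arr k
  mem : ∀ j, j < b → s'.arr 50 j = s.arr 50 j

theorem Keep.refl (b : ℕ) (s : State) : Keep b s s := ⟨fun _ _ => rfl, fun _ _ => rfl, fun _ _ => rfl⟩

theorem Keep.trans {b : ℕ} {s s' s'' : State} (h : Keep b s s') (h' : Keep b s' s'') :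
    Keep b s s'' :=
  ⟨fun x hx => (h'.reg x hx).trans (h.reg x hx), fun k hk => (h'.arr k hk).trans (h.arr k hk),
    fun j hj => (h'.mem j hj).trans (h.mem j hj)⟩

theorem Keep.mono {b b' : ℕ} {s s' : State} (h : Keep b' s s') (hb : b ≤ b') : Keep b s s' :=
  ⟨h.reg, h.arr, fun j hj => h.mem j (by omega)⟩

/-- the pure environment and the HL environment -/
structure Mat (e : Env) (pe : PEnv) (w : ℕ) : Prop where
  hw : e.B = 2 ^ w
  h2w : 2 ≤ w
  hLB : e.L ≤ e.B
  B : pe.B = e.B
  L : pe.L = e.L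
  ρ : ∀ i, pe.ρ i = e.ρ i % e.B
  hS : 1 ≤ pe.S
  h107 : 110 < e.B

theorem map_range_seg {s : State} {k o : ℕ} {v : List ℕ} (h : s.Seg k o v) :
    (List.range v.length).map (fun i => s.arr k (o + i)) = v := by
  apply List.ext_getElem
  · simp
  · intro n h1 h2
    rw [List.getElem_map, List.getElem_range]
    exact h n h2

theorem words_ar {s : State} {k b n : ℕ} {o m : Exp} {v : List ℕ} (ho : o.val s = b)
    (hm : m.val s = n) (hn : n = v.length) (h : s.Seg k b v) :
    (In.ar k o m).words s = tow v := by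
  rw [In.words_ar, ho, hm, hn, map_range_seg h, tow_list]

section

variable {e : Env} {pe : PEnv} {w b : ℕ} {v : List ℕ} {i : ℕ} {s : State}

theorem Rp.args (h : Rp e pe b v i s) : args s [inE] = tow v := by
  rw [args_cons, args_nil, List.append_nil]
  exact words_ar (by rw [Exp.val_var, h.base]) (by rw [Exp.val_var, h.len]) rfl h.seg

theorem Rp.inE_ok (h : Rp e pe b v i s) (hb : b + v.length ≤ e.L) : inE.ok e 110 60 s := by
  refine ⟨by norm_num, ?_, ?_, trivial, trivial, ?_⟩
  · exact (show (100 : ℕ) < 110 by norm_num)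
  · exact (show (101 : ℕ) < 110 by norm_num)
  · rw [Exp.val_var, Exp.val_var, h.base, h.len]
    exact hb

/-- writing the environment -/
theorem Rp.out {u : List ℕ} (M : Mat e pe w) (h : Rp e pe b v i s) (hu : pe.Fits u)
    {s' : State} (hl : LowEq 110 60 (putOuts [outE] (tow u) s) s') (hs' : s'.Wf e) :
    Rp e pe b u i s' ∧ Keep b s s' := by
  have e1 : putOuts [outE] (tow u) s = fill (s.setReg 101 u.length) 50 b u := by
    rw [tow_list, outE, putOuts_ar, putOuts_nil, Exp.val_var, h.base, List.take_length]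
  rw [e1] at hl
  refine ⟨⟨hs', ?_, ?_, ?_, ?_, ?_, ?_⟩, ⟨?_, ?_, ?_⟩⟩
  · rw [hl.reg 100 (by norm_num), fill_reg, State.setReg_reg, if_neg (by norm_num), h.base]
  · rw [hl.reg 101 (by norm_num), fill_reg, State.setReg_reg, if_pos rfl]
  · intro j hj
    rw [hl.arr 50 (by norm_num)]
    exact fill_seg _ _ _ _ j hj
  · rw [hl.drawn, fill_drawn, State.setReg_drawn, h.drawn]
  · intro k hk
    rw [hl.arr k (by omega), fill_arr_ne _ _ _ (by omega), State.setReg_arr, h.ora k hk]
  · intro x hx
    rw [hl.reg x (by omega), fill_reg, State.setReg_reg, if_neg (by omega), h.glo x hx]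
  · intro x hx
    rw [hl.reg x (by omega), fill_reg, State.setReg_reg, if_neg (by omega)]
  · intro k hk
    rw [hl.arr k (by omega), fill_arr_ne _ _ _ (by omega), State.setReg_arr]
  · intro j hj
    rw [hl.arr 50 (by norm_num), fill_arr, if_neg (by omega), State.setReg_arr]

theorem fit_out {o x b : ℕ} {u : List ℕ} (hu : pe.Fits u) (hb : b + pe.S ≤ e.L) (hx : x < 110)
    (ho : o < 110) (hob : s.reg o = b) : Fit e 110 60 [.ar 50 (.var o) x] (tow u) s := by
  rw [tow_list, fit_ar]
  refine ⟨by norm_num, hx, ho, trivial, le_rfl, ?_, ?_⟩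
  · rw [Exp.val_var, hob]
    have := hu.1
    omega
  · rw [List.drop_length]
    exact (fit_nil _ _ _ _ _).2 trivial

theorem tow_lt (M : Mat e pe w) {u : List ℕ} (hu : pe.Fits u) (hS : pe.S < e.B) :
    ∀ x ∈ tow u, x < e.B := by
  intro x hx
  rw [tow_list, List.mem_cons] at hx
  rcases hx with rfl | hx
  · have := hu.1
    omega
  · rw [← M.B]
    exact hu.2 x hx

/-- a typed call from the environment to the environment -/
theorem asg_runs (M : Mat e pe w) {α : Type} [Crest.Agent.Lib.PT.PTCode α] [Flat α]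
    (hR : Rp e pe b v i s) (hb : b + pe.S ≤ e.L) (hSB : pe.S < e.B) {ins : List In}
    (hins : ∀ j ∈ ins, j.ok e 110 60 s) {f : α → List ℕ} (hf : PTF f) {a : α}
    (ha : args s ins = tow a) (hu : pe.Fits (f a)) {N K : ℕ} (hN : w + (tow a).length ≤ N)
    (hK : (tcallT hf).eval N ≤ K) (hKL : K ≤ e.L) :
    Runs e (tcall 110 60 ins hf [outE]) s K (fun s' => Rp e pe b (f a) i s' ∧ Keep b s s') := by
  have hc : (tcallT hf).eval (w + (tow a).length) ≤ K := (tcallT_mono hf hN).trans hK
  have h := tcall_runs (V := 110) (A := 60) M.hw M.h2w M.hLB hR.wf hins hf ha (outs := [outE])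
    (fit_out hu hb (by norm_num) (by norm_num) hR.base) (tow_lt M hu hSB) (hc.trans hKL)
  obtain ⟨s', t, h1, h2, h3⟩ := h
  have h4 := Rp.out M hR hu h3 (h1.wf M.hw hR.wf)
  exact ⟨s', t, h1, h2.trans hc, h4⟩

/-- a typed call with a scalar result in variable `106` -/
theorem sc_runs (M : Mat e pe w) {β : Type} [Crest.Agent.Lib.PT.PTCode β] [Flat β]
    (hR : Rp e pe b v i s) (hb : b + v.length ≤ e.L) {f : List ℕ → β} (hf : PTF f) {n : ℕ}
    (hn : tow (f v) = [n]) (hnB : n < e.B) {N K : ℕ} (hN : w + (v.length + 1) ≤ N)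
    (hK : (tcallT hf).eval N ≤ K) (hKL : K ≤ e.L) :
    Runs e (tcall 110 60 [inE] hf [.sc 106]) s K
      (fun s' => Rp e pe b v i s' ∧ Keep b s s' ∧ s'.reg 106 = n) := by
  have hlen : (tow v).length = v.length + 1 := by rw [tow_list]; rfl
  have hc : (tcallT hf).eval (w + (tow v).length) ≤ K := by
    rw [hlen]
    exact (tcallT_mono hf hN).trans hK
  have h := tcall_runs (V := 110) (A := 60) M.hw M.h2w M.hLB hR.wf (ins := [inE])
    (by
      intro j hj
      rw [List.mem_singleton] at hj
      rw [hj]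
      exact hR.inE_ok hb) hf hR.args (outs := [.sc 106])
    (by rw [hn]; exact (fit_sc _ _ _ _ _ _ _ _).2 ⟨by norm_num, (fit_nil _ _ _ _ _).2 trivial⟩)
    (by rw [hn]; intro x hx; rw [List.mem_singleton] at hx; rw [hx]; exact hnB)
    (hc.trans hKL)
  obtain ⟨s', t, h1, h2, h3⟩ := h
  rw [hn, putOuts_sc, putOuts_nil] at h3
  refine ⟨s', t, h1, h2.trans hc, ⟨h1.wf M.hw hR.wf, ?_, ?_, ?_, ?_, ?_, ?_⟩, ⟨?_, ?_, ?_⟩, ?_⟩
  · rw [h3.reg 100 (by norm_num), State.setReg_reg, if_neg (by norm_num), hR.base]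
  · rw [h3.reg 101 (by norm_num), State.setReg_reg, if_neg (by norm_num), hR.len]
  · intro j hj
    rw [h3.arr 50 (by norm_num), State.setReg_arr]
    exact hR.seg j hj
  · rw [h3.drawn, State.setReg_drawn, hR.drawn]
  · intro k hk
    rw [h3.arr k (by omega), State.setReg_arr, hR.ora k hk]
  · intro x hx
    rw [h3.reg x (by omega), State.setReg_reg, if_neg (by omega), hR.glo x hx]
  · intro x hx
    rw [h3.reg x (by omega), State.setReg_reg, if_neg (by omega)]
  · intro k hk
    rw [h3.arr k (by omega), State.setReg_arr]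
  · intro j hj
    rw [h3.arr 50 (by norm_num), State.setReg_arr]
  · rw [h3.reg 106 (by norm_num), State.setReg_reg, if_pos rfl]

/-- `v := reg 107 :: v` -/
theorem cons_runs (M : Mat e pe w) (hR : Rp e pe b v i s) (hv : v.length ≤ pe.S)
    (hb : b + pe.S ≤ e.L) (hSB : pe.S < e.B) {r : ℕ} (hr : s.reg 107 = r)
    (hu : pe.Fits (r :: v)) {N K : ℕ} (hN : w + (2 * pe.S + 2) ≤ N)
    (hK : (tcallT ptf_consF).eval N ≤ K) (hKL : K ≤ e.L) :
    Runs e consC s K (fun s' => Rp e pe b (r :: v) i s' ∧ Keep b s s') := by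
  have ha : args s [.sc (.var 107), inE] = tow ((r, v) : ℕ × List ℕ) := by
    rw [args_cons, In.words_sc, hR.args, tow_prod, tow_nat, Exp.val_var, hr]
  have hlen : (tow ((r, v) : ℕ × List ℕ)).length = v.length + 2 := by
    rw [tow_prod, tow_nat, tow_list]
    simp
  have hS := M.hS
  exact asg_runs M hR hb hSB (f := consF) (a := (r, v)) (by
      intro j hj
      rw [List.mem_cons, List.mem_singleton] at hj
      rcases hj with rfl | rfl
      · exact ⟨(show (107 : ℕ) < 110 by norm_num), trivial⟩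
      · exact hR.inE_ok (by omega)) ptf_consF ha hu (by rw [hlen]; omega) hK hKL

/-- the state after the argument of a call has been computed -/
structure Ar (e : Env) (pe : PEnv) (b : ℕ) (v u : List ℕ) (i : ℕ) (s : State) : Prop where
  rp : Rp e pe b v i s
  nb : s.reg 102 = b + v.length
  nl : s.reg 103 = u.length
  seg : s.Seg 50 (b + v.length) u

theorem arg_runs (M : Mat e pe w) (hR : Rp e pe b v i s) (hv : v.length ≤ pe.S)
    (hb : b + 2 * pe.S ≤ e.L) {g : List ℕ → List ℕ} (hg : PTF g) (hu : pe.Fits (g v)) {N K : ℕ}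
    (hN : w + (2 * pe.S + 2) ≤ N) (hK : (tcallT hg).eval N ≤ K) (hKL : K ≤ e.L) :
    Runs e (argC hg) s (K + 1) (fun s' => Ar e pe b v (g v) i s' ∧ Keep b s s') := by
  have hS := M.hS
  have hLB := M.hLB
  have e1 : Ex e (.set 102 (.var 100 + .var 101)) s (s.setReg 102 (b + v.length)) 1 := by
    have := Ex.set (e := e) (x := 102) (a := .var 100 + .var 101) (s := s) (by
      simp only [Exp.ok_add, Exp.ok_var, Exp.val_var, true_and, hR.base, hR.len]
      omega)
    simpa only [Exp.val_add, Exp.val_var, hR.base, hR.len] using this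
  set s1 := s.setReg 102 (b + v.length) with hs1
  have hR1 : Rp e pe b v i s1 := ⟨e1.wf M.hw hR.wf, by simp [hs1, hR.base], by simp [hs1, hR.len],
    hR.seg, hR.drawn, hR.ora, fun x hx => by
      rw [hs1, State.setReg_reg, if_neg (by omega), hR.glo x hx]⟩
  have hlen : (tow v).length = v.length + 1 := by rw [tow_list]; rfl
  have hc : (tcallT hg).eval (w + (tow v).length) ≤ K := by
    rw [hlen]
    exact (tcallT_mono hg (by omega)).trans hK
  have h := tcall_runs (V := 110) (A := 60) M.hw M.h2w M.hLB hR1.wf (ins := [inE])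
    (by
      intro j hj
      rw [List.mem_singleton] at hj
      rw [hj]
      exact hR1.inE_ok (by omega)) hg hR1.args (outs := [.ar 50 (.var 102) 103])
    (fit_out hu (b := b + v.length) (by omega) (by norm_num) (by norm_num) (by simp [hs1]))
    (tow_lt M hu (by omega)) (hc.trans hKL)
  obtain ⟨s', t, h1, h2, h3⟩ := h
  have e2 : putOuts [.ar 50 (.var 102) 103] (tow (g v)) s1 =
      fill (s1.setReg 103 (g v).length) 50 (b + v.length) (g v) := by
    rw [tow_list, putOuts_ar, putOuts_nil, Exp.val_var, List.take_length]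
    simp [hs1]
  rw [e2] at h3
  refine ⟨s', 1 + t, Ex.seq e1 h1, by omega, ⟨⟨h1.wf M.hw hR1.wf, ?_, ?_, ?_, ?_, ?_, ?_⟩, ?_, ?_, ?_⟩,
    ⟨?_, ?_, ?_⟩⟩
  · rw [h3.reg 100 (by norm_num), fill_reg, State.setReg_reg, if_neg (by norm_num), hR1.base]
  · rw [h3.reg 101 (by norm_num), fill_reg, State.setReg_reg, if_neg (by norm_num), hR1.len]
  · intro j hj
    rw [h3.arr 50 (by norm_num), fill_arr, if_neg (by omega), State.setReg_arr]
    exact hR1.seg j hj
  · rw [h3.drawn, fill_drawn, State.setReg_drawn, hR1.drawn]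
  · intro k hk
    rw [h3.arr k (by omega), fill_arr_ne _ _ _ (by omega), State.setReg_arr, hR1.ora k hk]
  · intro x hx
    rw [h3.reg x (by omega), fill_reg, State.setReg_reg, if_neg (by omega), hR1.glo x hx]
  · rw [h3.reg 102 (by norm_num), fill_reg, State.setReg_reg, if_neg (by norm_num)]
    simp [hs1]
  · rw [h3.reg 103 (by norm_num), fill_reg, State.setReg_reg, if_pos rfl]
  · intro j hj
    rw [h3.arr 50 (by norm_num)]
    exact fill_seg _ _ _ _ j hj
  · intro x hx
    rw [h3.reg x (by omega), fill_reg, State.setReg_reg, if_neg (by omega), hs1,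
      State.setReg_reg, if_neg (by omega)]
  · intro k hk
    rw [h3.arr k (by omega), fill_arr_ne _ _ _ (by omega)]
    rfl
  · intro j hj
    rw [h3.arr 50 (by norm_num), fill_arr, if_neg (by omega)]
    rfl

/-- entering a procedure -/
theorem ent_runs {u : List ℕ} (hM : Mat e pe w) (h : Ar e pe b v u i s) :
    Runs e entC s 2 (fun s' => Rp e pe (b + v.length) u i s' ∧
      s' = (s.setReg 100 (b + v.length)).setReg 101 u.length) := by
  have e1 : Ex e (.set 100 (.var 102)) s (s.setReg 100 (b + v.length)) 1 := by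
    have := Ex.set (e := e) (x := 100) (a := .var 102) (s := s) trivial
    simpa only [Exp.val_var, h.nb] using this
  have e2 : Ex e (.set 101 (.var 103)) (s.setReg 100 (b + v.length))
      ((s.setReg 100 (b + v.length)).setReg 101 u.length) 1 := by
    have := Ex.set (e := e) (x := 101) (a := .var 103) (s := s.setReg 100 (b + v.length)) trivial
    simpa only [Exp.val_var, State.setReg_reg, h.nl, if_neg (show ¬ (103 : ℕ) = 100 by norm_num)]
      using this
  exact ⟨_, _, Ex.seq e1 e2, le_rfl, ⟨e2.wf hM.hw (e1.wf hM.hw h.rp.wf), by simp, by simp,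
    h.seg, h.rp.drawn, h.rp.ora, fun x hx => by
      rw [State.setReg_reg, if_neg (by omega), State.setReg_reg, if_neg (by omega),
        h.rp.glo x hx]⟩, rfl⟩

/-- joining the result -/
theorem join_runs (M : Mat e pe w) {u : List ℕ} {c : ℕ} (hR : Rp e pe b v i s)
    (hv : v.length ≤ pe.S) (hul : u.length ≤ pe.S)
    (hb : b + pe.S ≤ e.L) (hSB : pe.S < e.B) (h4 : s.reg 104 = c) (h5 : s.reg 105 = u.length)
    (hseg : s.Seg 50 c u) (hc : c + pe.S ≤ e.L)
    (hu : pe.Fits (u.length :: (u ++ v))) {N K : ℕ} (hN : w + (2 * pe.S + 2) ≤ N)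
    (hK : (tcallT ptf_joinF).eval N ≤ K) (hKL : K ≤ e.L) :
    Runs e joinC s K (fun s' => Rp e pe b (u.length :: (u ++ v)) i s' ∧ Keep b s s') := by
  have ha : args s [.ar 50 (.var 104) (.var 105), inE] = tow ((u, v) : List ℕ × List ℕ) := by
    rw [args_cons, hR.args, tow_prod, words_ar (o := .var 104) (m := .var 105)
      (by rw [Exp.val_var, h4]) (by rw [Exp.val_var, h5]) rfl hseg]
  have hlen : (tow ((u, v) : List ℕ × List ℕ)).length = u.length + v.length + 2 := by
    rw [tow_prod, tow_list, tow_list]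
    simp only [List.length_append, List.length_cons]
    omega
  have hS := M.hS
  exact asg_runs M hR hb hSB (f := joinF) (a := (u, v)) (by
      intro j hj
      rw [List.mem_cons, List.mem_singleton] at hj
      rcases hj with rfl | rfl
      · refine ⟨by norm_num, (show (104 : ℕ) < 110 by norm_num),
          (show (105 : ℕ) < 110 by norm_num), trivial, trivial, ?_⟩
        rw [Exp.val_var, Exp.val_var, h4, h5]
        omega
      · exact hR.inE_ok (by omega)) ptf_joinF ha hu (by rw [hlen]; omega) hK hKL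

/-- the external command: argument in array `51`, result in variable `107`, private variables from
`110` on and arrays from `52` on -/
structure ExtOk (e : Env) (pe : PEnv) (lf : Cmd) (Cx : ℕ) : Prop where
  run : ∀ (s : State) (a : List ℕ), s.Wf e → (∀ k, k < 50 → s.arr k = pe.O k) →
    (∀ x, x < 100 → s.reg x = pe.G x) → pe.DX a → s.Seg 51 0 a →
    Runs e lf s Cx (fun s' => s'.reg 107 = pe.X a)
  wr : ∀ x, lf.wr x → x = 107 ∨ 110 ≤ x
  wa : ∀ k, lf.wa k → 51 ≤ k
  det : lf.det

/-- the call of the external command, without the last step -/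
theorem ext_runs (M : Mat e pe w) (hR : Rp e pe b v i s) (hv : v.length ≤ pe.S)
    (hb : b + pe.S ≤ e.L) (hSB : pe.S < e.B) {g : List ℕ → List ℕ} (hg : PTF g)
    (hu : pe.Fits (g v)) (hD : pe.DX (g v)) {lf : Cmd} {Cx : ℕ} (hX : ExtOk e pe lf Cx) {N K : ℕ}
    (hN : w + (2 * pe.S + 2) ≤ N) (hK : (tcallT hg).eval N ≤ K) (hKL : K ≤ e.L) :
    Runs e (earC hg ;; lf) s (K + Cx) (fun s' => Rp e pe b v i s' ∧ Keep b s s' ∧
      s'.reg 107 = pe.X (g v)) := by
  have hS := M.hS
  have hlen : (tow v).length = v.length + 1 := by rw [tow_list]; rfl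
  have hc : (tcallT hg).eval (w + (tow v).length) ≤ K := by
    rw [hlen]
    exact (tcallT_mono hg (by omega)).trans hK
  have h := tcall_runs (V := 110) (A := 60) M.hw M.h2w M.hLB hR.wf (ins := [inE])
    (by
      intro j hj
      rw [List.mem_singleton] at hj
      rw [hj]
      exact hR.inE_ok (by omega)) hg hR.args (outs := [.ar 51 0 106])
    (by
      rw [tow_list, fit_ar]
      refine ⟨by norm_num, by norm_num, trivial, ?_, le_rfl, ?_, ?_⟩
      · simp only [Exp.ok_zero]
        omega
      · rw [Exp.val_zero]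
        have := hu.1
        omega
      · rw [List.drop_length]
        exact (fit_nil _ _ _ _ _).2 trivial)
    (tow_lt M hu hSB) (hc.trans hKL)
  obtain ⟨s1, t, h1, h2, h3⟩ := h
  have e2 : putOuts [.ar 51 0 106] (tow (g v)) s =
      fill (s.setReg 106 (g v).length) 51 0 (g v) := by
    rw [tow_list, putOuts_ar, putOuts_nil, Exp.val_zero, List.take_length]
  rw [e2] at h3
  have hW1 : s1.Wf e := h1.wf M.hw hR.wf
  have hreg : ∀ x, x < 106 → s1.reg x = s.reg x := by
    intro x hx
    rw [h3.reg x (by omega), fill_reg, State.setReg_reg, if_neg (by omega)]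
  have harr : ∀ k, k < 51 → s1.arr k = s.arr k := by
    intro k hk
    rw [h3.arr k (by omega), fill_arr_ne _ _ _ (by omega), State.setReg_arr]
  have hseg : s1.Seg 51 0 (g v) := by
    intro j hj
    rw [h3.arr 51 (by norm_num)]
    exact fill_seg _ _ _ _ j hj
  have hd1 : s1.drawn = i := by rw [h3.drawn, fill_drawn, State.setReg_drawn, hR.drawn]
  refine Runs.seq ⟨s1, t, h1, h2.trans hc, rfl⟩ ?_ le_rfl
  rintro s1' rfl
  have hx := (hX.run s1 (g v) hW1 (fun k hk => by rw [harr k (by omega), hR.ora k hk])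
    (fun x hx => by rw [hreg x (by omega), hR.glo x hx]) hD hseg)
  refine ((hx.wf M.hw hW1).frame).post ?_
  rintro s2 ⟨⟨g1, g2⟩, f⟩
  have freg : ∀ x, x < 106 → s2.reg x = s.reg x := fun x hx => by
    rw [f.reg x (fun h => by have := hX.wr x h; omega), hreg x hx]
  have farr : ∀ k, k < 51 → s2.arr k = s.arr k := fun k hk => by
    rw [f.arr k (fun h => by have := hX.wa k h; omega), harr k hk]
  refine ⟨⟨g2, ?_, ?_, ?_, ?_, ?_, ?_⟩, ⟨?_, ?_, ?_⟩, g1⟩
  · rw [freg 100 (by norm_num), hR.base]
  · rw [freg 101 (by norm_num), hR.len]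
  · intro j hj
    rw [farr 50 (by norm_num)]
    exact hR.seg j hj
  · rw [f.drawn hX.det, hd1]
  · intro k hk
    rw [farr k (by omega), hR.ora k hk]
  · intro x hx
    rw [freg x (by omega), hR.glo x hx]
  · intro x hx
    rw [freg x (by omega)]
  · intro k hk
    rw [farr k (by omega)]
  · intro j hj
    rw [farr 50 (by norm_num)]

end

end Crest.Agent.R288.Plx365
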