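import Crest.Agent.R288.NodePT_222
import Crest.Agent.R288.PlxS_365

/-!
# R288, [LEAF] part 3 (helper222): the leaf command is a correct external function of PL

`extOk_leaf`: `ExtOk e pe leafX (leafCost Dm (size (|x|+|y|)))` for every `pe` whose external
function is `leafF x y` with domain `DL Dm` (argument lists `[a, b, P, Q, D]` with `D ≤ Dm`), whose
array 14 is the names table and whose registers 60..64 are those of `Shell12.AfterSt`.
-/

set_option autoImplicit false

namespace Crest.Agent.R288.LeafE222

open Crest.GraphRAM Crest.Agent.R295.HL Crest.Agent.R288.Plx365 Crest.Agent.R288.LeafX222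
open Crest.Agent.R288.Kmr725 Crest.Agent.R288.NodePT222 Crest.Agent.R288.Shell12

/-- the domain: five words, the last one (the cap) at most `Dm` -/
def DL (Dm : ℕ) (a : List ℕ) : Prop := a.length = 5 ∧ a.getD 4 0 ≤ Dm

/-- the context of the external function in terms of `PEnv` -/
structure PCtx (x y : List ℕ) (pe : PEnv) : Prop where
  n : pe.G 60 = x.length
  m : pe.G 61 = y.length
  M : pe.G 62 = x.length + y.length
  d0 : pe.G 63 = D0 (x.length + y.length)
  lv : pe.G 64 = Nat.size (x.length + y.length)
  names : Names (LceA508.cat x y) (x.length + y.length) (pe.O 14)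

theorem PCtx.of_after {x y z : List ℕ} {s : State} (h : AfterSt x y z s) {pe : PEnv}
    (hG : ∀ i, i < 100 → pe.G i = s.reg i) (hO : ∀ k, k < 50 → pe.O k = s.arr k) :
    PCtx x y pe :=
  ⟨by rw [hG _ (by omega), h.n], by rw [hG _ (by omega), h.m], by rw [hG _ (by omega), h.M],
    by rw [hG _ (by omega), h.d0], by rw [hG _ (by omega), h.lv],
    by rw [hO _ (by omega)]; exact h.names⟩

theorem PCtx.ctx {x y : List ℕ} {pe : PEnv} (h : PCtx x y pe) {s : State}
    (hO : ∀ k, k < 50 → s.arr k = pe.O k) (hG : ∀ x, x < 100 → s.reg x = pe.G x) : Ctx x y s :=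
  ⟨by rw [hG _ (by omega), h.n], by rw [hG _ (by omega), h.m], by rw [hG _ (by omega), h.M],
    by rw [hG _ (by omega), h.d0], by rw [hG _ (by omega), h.lv],
    by rw [hO _ (by omega)]; exact h.names⟩

/-- **the leaf command is a correct external function** -/
theorem extOk_leaf {e : Env} {pe : PEnv} {x y : List ℕ} {Dm : ℕ} (M : MchX e x y)
    (h : PCtx x y pe) (hX : pe.X = leafF x y) (hDX : ∀ a, pe.DX a → DL Dm a) :
    ExtOk e pe leafX (leafCost Dm (Nat.size (x.length + y.length))) where
  run := by
    intro s a hs hO hG hd ha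
    obtain ⟨h5, hD⟩ := hDX a hd
    match a, h5, hD, ha with
    | [a, b, P, Q, D], _, hD, ha =>
      refine (leafX_runs M hs (h.ctx hO hG) ha).mono (leafCost_mono hD) ?_
      intro s' hs'
      rw [hs', hX]
      rfl
  wr := fun z h => leafX_wr h
  wa := fun k h => by have := leafX_wa h; omega
  det := leafX_det

/-- the argument lists of blocks are in the domain -/
theorem DL_leafA {Dm D : ℕ} (hD : D ≤ Dm) (n m h j : ℕ) (u v : ℤ) :
    DL Dm (leafA n m h j u v D) := ⟨rfl, hD⟩

end Crest.Agent.R288.LeafE222
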