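import Crest.Agent.R288.Hull_131

/-!
# R288, leaf LEAFLIP (helper195): the base function `F_1 = hull of U` and the border of the leaf set

* `hull_alip` : the hull of ANY start function `U` (no Lipschitz property of `U`) on truncated menus is
  `(1+τ+ζ)`-Lipschitz, as soon as every state `z` with `D x z ≤ U x` has a substitute `z'` in the menu of `x`
  with `D z z' + U z' ≤ (1+τ) U z + ζ G x`;
* `subst_of_acc` : the substitute for a start function which is `τ`-accurate for a `C`-Lipschitz function;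
* `le_hull_G`, `hull_le_B0` : `G ≤ F_1 ≤ U ≤ B0 G`.
-/

set_option autoImplicit false

namespace Crest.Agent.R288.LeafLip195

open Crest.Agent.R288.Hull131

variable {σ : Type*} {Dom : σ → Prop} {D : σ → σ → ℕ} {U G : σ → ℕ} {menu : σ → List σ}

/-- `G ≤ hull` -/
theorem le_hull_G (hG : ∀ x z, Dom x → Dom z → G x ≤ D x z + G z) (hGU : ∀ x, Dom x → G x ≤ U x)
    (hmem : ∀ x, Dom x → ∀ z ∈ menu x, Dom z) {x : σ} (hx : Dom x) :
    G x ≤ hull (U x) (menu x) (D x) U :=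
  le_hull (hGU x hx) fun z hz =>
    (hG x z hx (hmem x hx z hz)).trans (Nat.add_le_add_left (hGU z (hmem x hx z hz)) _)

/-- the hull is at most `(1+τ+ζ)` times the price of every state, menu or not -/
theorem hull_le_any {τ ζ : ℝ} (hτ : 0 ≤ τ) (hζ : 0 ≤ ζ)
    (hG : ∀ x z, Dom x → Dom z → G x ≤ D x z + G z) (hGU : ∀ x, Dom x → G x ≤ U x)
    (tri : ∀ x y z, D x z ≤ D x y + D y z) {x z : σ} (hx : Dom x) (hz : Dom z)
    (sub : D x z ≤ U x → ∃ z' ∈ menu x, ((D z z' + U z' : ℕ) : ℝ) ≤ (1 + τ) * U z + ζ * G x) :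
    (hull (U x) (menu x) (D x) U : ℝ) ≤ (1 + τ + ζ) * (D x z + U z) := by
  have hDnn : (0 : ℝ) ≤ D x z := Nat.cast_nonneg _
  have hUnn : (0 : ℝ) ≤ U z := Nat.cast_nonneg _
  by_cases h : D x z ≤ U x
  · obtain ⟨z', hz', h1⟩ := sub h
    have h2 : (hull (U x) (menu x) (D x) U : ℝ) ≤ ((D x z + (D z z' + U z') : ℕ) : ℝ) := by
      have := hull_le (own := U x) (d := D x) (f := U) hz'
      have h3 := tri x z z'
      exact_mod_cast (by omega : hull (U x) (menu x) (D x) U ≤ D x z + (D z z' + U z'))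
    have h4 : (G x : ℝ) ≤ D x z + U z := by
      have h5 := hG x z hx hz
      have h6 := hGU z hz
      exact_mod_cast h5.trans (Nat.add_le_add_left h6 _)
    push_cast at h1 h2
    nlinarith [mul_le_mul_of_nonneg_left h4 hζ, mul_nonneg hτ hDnn]
  · have h1 : (hull (U x) (menu x) (D x) U : ℝ) ≤ D x z := by
      exact_mod_cast (hull_le_own (own := U x) (m := menu x) (d := D x) (f := U)).trans (by omega)
    nlinarith [mul_nonneg (add_nonneg hτ hζ) (add_nonneg hDnn hUnn)]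

/-- **the computed hull of an arbitrary start function is almost Lipschitz** -/
theorem hull_alip {τ ζ : ℝ} (hτ : 0 ≤ τ) (hζ : 0 ≤ ζ)
    (hG : ∀ x z, Dom x → Dom z → G x ≤ D x z + G z) (hGU : ∀ x, Dom x → G x ≤ U x)
    (D0 : ∀ x, D x x = 0) (tri : ∀ x y z, D x z ≤ D x y + D y z)
    (hmem : ∀ x, Dom x → ∀ z ∈ menu x, Dom z)
    (sub : ∀ x z, Dom x → Dom z → D x z ≤ U x →
      ∃ z' ∈ menu x, ((D z z' + U z' : ℕ) : ℝ) ≤ (1 + τ) * U z + ζ * G x)
    {x x' : σ} (hx : Dom x) (hx' : Dom x') :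
    (hull (U x) (menu x) (D x) U : ℝ) ≤
      (1 + τ + ζ) * ((hull (U x') (menu x') (D x') U : ℕ) + D x x') := by
  obtain ⟨z, hz, e⟩ : ∃ z, Dom z ∧ D x' z + U z = hull (U x') (menu x') (D x') U := by
    rcases hull_attained (own := U x') (m := menu x') (d := D x') (f := U) with e | ⟨z, hz, e⟩
    · exact ⟨x', hx', by rw [e, D0, zero_add]⟩
    · exact ⟨z, hmem x' hx' z hz, e.symm⟩
  refine (hull_le_any hτ hζ hG hGU tri hx hz (sub x z hx hz)).trans ?_
  refine mul_le_mul_of_nonneg_left ?_ (by linarith)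
  have h1 := tri x x' z
  rw [← e]
  exact_mod_cast (by omega : D x z + U z ≤ D x' z + U z + D x x')

/-- `hull ≤ own ≤ B0 G` -/
theorem hull_le_B0 {B0 : ℕ} (hB : ∀ x, Dom x → U x ≤ B0 * G x) {x : σ} (hx : Dom x) :
    hull (U x) (menu x) (D x) U ≤ B0 * G x := hull_le_own.trans (hB x hx)

/-- **the substitute**: `U` is `τ`-accurate for a `C`-Lipschitz function `U0`; `z'` = `z` or at distance `≤ s`
with `s` small against `G x` -/
theorem subst_of_acc {U0 : σ → ℕ} {τ ζ : ℝ} {C c s : ℕ} (hτ : 0 ≤ τ) (hζ : 0 ≤ ζ)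
    {x z z' : σ} (low : (U0 z : ℝ) ≤ U z) (upp : (U z' : ℝ) ≤ (1 + τ) * U0 z' + c)
    (lip : U0 z' ≤ U0 z + C * D z z') (D0 : D z z = 0)
    (h : z' = z ∨ (D z z' ≤ s ∧ (s : ℝ) + (1 + τ) * C * s + c ≤ ζ * G x)) :
    ((D z z' + U z' : ℕ) : ℝ) ≤ (1 + τ) * U z + ζ * G x := by
  have hG : (0 : ℝ) ≤ ζ * G x := mul_nonneg hζ (Nat.cast_nonneg _)
  have hU : (0 : ℝ) ≤ τ * U z := mul_nonneg hτ (Nat.cast_nonneg _)
  rcases h with rfl | ⟨h1, h2⟩
  · rw [D0]
    push_cast
    linarith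
  · have h3 : (U0 z' : ℝ) ≤ U0 z + C * D z z' := by exact_mod_cast lip
    have h4 : (D z z' : ℝ) ≤ s := by exact_mod_cast h1
    have h5 : (0 : ℝ) ≤ C := Nat.cast_nonneg _
    have h6 : (1 + τ) * (U0 z' : ℝ) ≤ (1 + τ) * (U z + C * s) := by
      refine mul_le_mul_of_nonneg_left ?_ (by linarith)
      have := mul_le_mul_of_nonneg_left h4 h5
      linarith
    push_cast
    nlinarith

end Crest.Agent.R288.LeafLip195
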