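import Crest.Agent.R288.LeafO_690
import Crest.Agent.R288.StPT_569

/-!
# R288 (helper444): poly-time certificates of the leaf function (program form, `LeafO_690`)

* `ptf_clip`, `ptf_off`, `ptf_offs`, `ptf_T1`
* `ptf_leafArg` : the five words of the leaf request; `ptf_la`: as a function of the state
* `ptf_leafP` : the leaf value from the result of the leaf command; `ptf_lf`: as a function of the
  result and the state

The macro height `s.i` and the levels `k` may be given in binary (the product `k * s.i` too).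
-/

set_option autoImplicit false

namespace Crest.Agent.R288.LeafP444

open Crest.Agent.Lib.PT Crest.Agent.R288.NodeA785 Crest.Agent.R288.GameA347
open Crest.Agent.R288.Gt373 Crest.Agent.R288.NodePT222 Crest.Agent.R288.LeafO690
open Crest.Agent.R288.StPT569
open Crest.Agent.R288.Alg45 (St)

variable {α : Type} [PTCode α]

@[fun_prop]
theorem ptf_clip {m r : α → ℕ} {u : α → ℤ} (hm : PTF m) (hr : PTF r) (hu : PTF u) :
    PTF (fun a => clip (m a) (r a) (u a)) := by
  unfold clip
  fun_prop

@[fun_prop]
theorem ptf_off {m r : α → ℕ} {u : α → ℤ} (hm : PTF m) (hr : PTF r) (hu : PTF u) :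
    PTF (fun a => off (m a) (r a) (u a)) := by
  unfold off
  fun_prop

@[fun_prop]
theorem ptf_offs {n m k : α → ℕ} {s : α → St} (hn : PTF n) (hm : PTF m) (hk : PTF k)
    (hs : PTF s) : PTF (fun a => offs (n a) (m a) (k a) (s a)) := by
  unfold offs
  fun_prop

@[fun_prop]
theorem ptf_T1 {n m k : α → ℕ} {s : α → St} (hn : PTF n) (hm : PTF m) (hk : PTF k)
    (hs : PTF s) : PTF (fun a => T1 (n a) (m a) (k a) (s a)) := by
  unfold T1
  fun_prop

@[fun_prop]
theorem ptf_leafArg {n m k Lam : α → ℕ} {s : α → St} (hn : PTF n) (hm : PTF m) (hk : PTF k)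
    (hL : PTF Lam) (hs : PTF s) : PTF (fun a => leafArg (n a) (m a) (k a) (Lam a) (s a)) := by
  unfold leafArg
  fun_prop

@[fun_prop]
theorem ptf_leafP {n m k Lam g : α → ℕ} {s : α → St} (hn : PTF n) (hm : PTF m) (hk : PTF k)
    (hL : PTF Lam) (hg : PTF g) (hs : PTF s) :
    PTF (fun a => leafP (n a) (m a) (k a) (Lam a) (g a) (s a)) := by
  unfold leafP
  refine PTF.ite (PTPred.natLe (by fun_prop) hL) (PTF.optSome (by fun_prop)) ?_
  exact PTF.ite (PTPred.natEq (by fun_prop) (PTF.const 0)) (PTF.optSome (by fun_prop)) (PTF.const none)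

/-- the leaf request as a function of the state -/
theorem ptf_la {n m k Lam : α → ℕ} (hn : PTF n) (hm : PTF m) (hk : PTF k) (hL : PTF Lam) :
    PTF (fun p : α × St => leafArg (n p.1) (m p.1) (k p.1) (Lam p.1) p.2) := by
  fun_prop

/-- the leaf value as a function of the answer and the state -/
theorem ptf_lf {n m k Lam : α → ℕ} (hn : PTF n) (hm : PTF m) (hk : PTF k) (hL : PTF Lam) :
    PTF (fun p : α × ℕ × St => leafP (n p.1) (m p.1) (k p.1) (Lam p.1) p.2.1 p.2.2) := by
  fun_prop

end Crest.Agent.R288.LeafP444
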