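import Crest.Agent.R288.LvC_12
import Crest.Agent.R288.KmrB_725
import Crest.Agent.R288.Quad_235

/-!
# R288, leaf [Sh]: the shell of the main program, part A (helper12)

`shA` : from the initial state: names table of `x ++ y`, logarithms, exact Landau-Vishkin with the
threshold `D0 = 2 ^ (size M / 2)`, `M = |x| + |y|`.

Final registers: `48 = min (editDist x y) (D0 + 1)`, `60 = |x|`, `61 = |y|`, `62 = M`, `63 = D0`,
`64 = Nat.size M`, `65` = number of input words.
Final arrays: `0` = the input words, `13` on `[0, M)` = `x ++ y`, `14` = names table.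
Registers `≥ 70` and arrays `≥ 41` are untouched.
-/

set_option autoImplicit false

namespace Crest.Agent.R288.Shell12

open Crest.GraphRAM Crest.Agent.R288.Ed Crest.Agent.R295.HL Exp Cnd Cmd
open Crest.Agent.R288.Lv Crest.Agent.R288.LceA508 Crest.Agent.R288.Kmr725

/-- read the lengths -/
def shA1 : Cmd := set 65 (var 0) ;; set 60 (get 0 0) ;; set 61 (get 0 1) ;; set 62 (var 60 + var 61)

/-- copy the string -/
def shA2 : Cmd := forUp 9 0 (var 62) (put 13 (var 9) (get 0 (var 9 + 2)))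

/-- the table of names -/
def shA3 : Cmd := set 8 (var 62) ;; kmr.ren (fun x => x) (· + 10)

/-- parameters -/
def shA4 : Cmd :=
  bitsC 62 64 ;; set 63 (shl 1 (var 64 / 2)) ;; set 3 (var 62) ;; set 4 (var 64) ;;
  set 40 (var 60) ;; set 41 (var 61) ;; set 42 (var 63)

/-- the deterministic part of the shell -/
def shA : Cmd := shA1 ;; shA2 ;; shA3 ;; shA4 ;; lvC lcI

/-- the threshold -/
def D0 (M : ℕ) : ℕ := 2 ^ (Nat.size M / 2)

theorem D0_sq_le {M : ℕ} (hM : 1 ≤ M) : D0 M * D0 M ≤ 2 * M := by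
  unfold D0
  rw [← pow_add]
  have h1 : 2 ^ (Nat.size M / 2 + Nat.size M / 2) ≤ 2 ^ Nat.size M :=
    Nat.pow_le_pow_right (by norm_num) (by omega)
  refine h1.trans ?_
  have h2 : 0 < Nat.size M := Nat.size_pos.2 (by omega)
  obtain ⟨k, hk⟩ : ∃ k, Nat.size M = k + 1 := ⟨Nat.size M - 1, by omega⟩
  have h3 : 2 ^ k ≤ M := Nat.lt_size.1 (by omega)
  rw [hk, pow_succ]
  omega

theorem D0_le {M : ℕ} (hM : 1 ≤ M) : D0 M ≤ 2 * M := by
  have h1 := D0_sq_le hM
  have h2 : 1 ≤ D0 M := Nat.one_le_two_pow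
  nlinarith

theorem lt_D0_sq {M : ℕ} : M < 2 * (D0 M * D0 M) := by
  unfold D0
  rw [← pow_add]
  have h1 := Nat.lt_size_self M
  have h2 : 2 ^ Nat.size M ≤ 2 ^ (Nat.size M / 2 + Nat.size M / 2 + 1) :=
    Nat.pow_le_pow_right (by norm_num) (by omega)
  rw [pow_succ] at h2
  omega

theorem two_pow_size_le {M : ℕ} (hM : 1 ≤ M) : 2 ^ Nat.size M ≤ 2 * M := by
  have h2 : 0 < Nat.size M := Nat.size_pos.2 (by omega)
  obtain ⟨k, hk⟩ : ∃ k, Nat.size M = k + 1 := ⟨Nat.size M - 1, by omega⟩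
  have h3 : 2 ^ k ≤ M := Nat.lt_size.1 (by omega)
  rw [hk, pow_succ]
  omega

/-- cost bound of `shA` (word length `W`) -/
def shCost (M W : ℕ) : ℕ :=
  13 * (M + 1) * (W + 3) * (Nat.log 2 M + 2) + lvCost (D0 M) (5 * Nat.size M + 3) + 3 * M + 2 * W + 20

section

variable {e : Env} {x y z : List ℕ}

theorem shA1_runs (hL : 2 ≤ e.L) (hB : x.length + y.length + 2 < e.B) :
    Runs e shA1 (initState (stringsInput x y ++ z)) 4 (fun s' =>
      s'.reg 65 = (stringsInput x y ++ z).length ∧ s'.reg 60 = x.length ∧ s'.reg 61 = y.length ∧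
      s'.reg 62 = x.length + y.length ∧ s'.arr = (initState (stringsInput x y ++ z)).arr) := by
  have h := Quad235.seg_init (stringsInput x y) z
  have h1 := Quad235.in_len1 h
  have h2 := Quad235.in_len2 h
  rw [runs_iff_wp]
  simp [shA1, h1, h2]
  and_intros
  all_goals first | omega | rfl | simp [initState]

theorem shA2_runs {s : State} {a0 : ℕ → ℕ} (h0 : s.arr 0 = a0)
    (hS : ∀ i < x.length + y.length, a0 (2 + i) = cat x y i)
    (h62 : s.reg 62 = x.length + y.length) (hL : x.length + y.length + 2 ≤ e.L)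
    (hB : x.length + y.length + 2 < e.B) :
    Runs e shA2 s (3 * (x.length + y.length) + 2) (fun s' =>
      ∀ i < x.length + y.length, s'.arr 13 i = cat x y i) := by
  refine Runs.forUp (A := 0) (N := x.length + y.length) (m := 1)
    (I := fun j s' => s'.reg 62 = x.length + y.length ∧ s'.arr 0 = a0 ∧
      ∀ i < j, s'.arr 13 i = cat x y i) ?_ ?_ (by omega) (by omega) ?_ ?_ ?_ ?_ (by omega)
  · simp; omega
  · simp
  · refine ⟨by simp [h62], by simpa using h0, fun i hi => by omega⟩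
  · rintro j s' hj1 hj2 ⟨b1, -⟩ -
    simp [b1]
  · rintro j s' hj1 hj2 ⟨b1, b2, b3⟩ k1
    refine Runs.put (by simp) (by simp [k1]; omega) (by simp [k1]; omega) ?_
    refine ⟨by simp [k1], by simp [b1], ?_, ?_⟩
    · simp only [State.setReg_arr]
      rw [State.setArr_arr_ne _ _ _ (by omega), b2]
    · intro i hi
      simp only [State.setReg_arr, State.setArr_arr, val_var, k1, val_get, val_add, b2]
      split
      · rename_i h
        rw [h.2, ← hS j (by omega)]
        congr 1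
        simp
        omega
      · rename_i h
        refine b3 i ?_
        have : i ≠ j := fun hh => h ⟨trivial, hh⟩
        omega
  · rintro s' ⟨b1, b2, b3⟩ -
    exact b3

/-- names depend only on the string -/
theorem Names.congr {S S' T : ℕ → ℕ} {M : ℕ} (h : Names S M T) (hS : ∀ i < M, S' i = S i) :
    Names S' M T := fun k => (h k).congr hS (fun _ _ => rfl)

theorem shA3_runs {W : ℕ} (hW : e.B = 2 ^ W) {s : State} {S : ℕ → ℕ} {M : ℕ}
    (h62 : s.reg 62 = M) (hS : ∀ i < M, s.arr 13 i = S i) (hSB : ∀ i < M, S i < e.B)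
    (hB0 : (M + 2) * (M + 2) ≤ e.B) (hL : (Nat.log 2 M + 1) * (M + 1) ≤ e.L) :
    Runs e shA3 s (13 * (M + 1) * (W + 3) * (Nat.log 2 M + 2) + 1) (fun s' =>
      Names S M (s'.arr 14)) := by
  unfold shA3
  refine Runs.seq (n := 1) (m := 13 * (M + 1) * (W + 3) * (Nat.log 2 M + 2))
    (R := fun s' => s' = s.setReg 8 M) (Runs.set (by simp) (by simp [h62])) ?_ (by omega)
  rintro s1 rfl
  have A := kmr_runs (e := e) (s := (s.setReg 8 M).view (fun x => x) (· + 10)) (M := M) hW
    (by simp) (by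
      intro i hi
      simp only [State.view_arr, State.setReg_arr]
      rw [hS i hi]
      exact hSB i hi) hB0 hL
  refine (Runs.ren (s := s.setReg 8 M) (f := fun x => x) (g := (· + 10)) (fun a b h => h)
      (add_left_injective 10) A).post ?_
  rintro s' ⟨h1, -⟩
  simp only [State.view_arr, State.setReg_arr] at h1
  exact Names.congr h1 (fun i hi => (hS i hi).symm)

theorem shA4_runs {W : ℕ} (hW : e.B = 2 ^ W) {s : State} {n m : ℕ} (h60 : s.reg 60 = n)
    (h61 : s.reg 61 = m) (h62 : s.reg 62 = n + m) (hM : 1 ≤ n + m) (hB : 2 * (n + m) + 2 < e.B) :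
    Runs e shA4 s (2 * W + 8) (fun s' => s'.reg 64 = Nat.size (n + m) ∧ s'.reg 63 = D0 (n + m) ∧
      s'.reg 3 = n + m ∧ s'.reg 4 = Nat.size (n + m) ∧ s'.reg 40 = n ∧ s'.reg 41 = m ∧
      s'.reg 42 = D0 (n + m)) := by
  have hD := D0_le hM
  unfold shA4
  refine Runs.seq (n := 2 * W + 2) (m := 6) (R := fun s' => s' = s.setReg 64 (Nat.size (n + m)))
    ?_ ?_ (by omega)
  · have := bitsC_runs (s := s) (x := 62) (y := 64) hW (by rw [h62]; omega) (by omega)
    rw [h62] at this
    exact this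
  rintro s1 rfl
  rw [runs_iff_wp]
  simp [h60, h61, h62]
  unfold D0 at *
  and_intros
  all_goals omega

/-- the facts on the state after `shA` -/
structure AfterSt (x y z : List ℕ) (s : State) : Prop where
  res : s.reg 48 = min (editDist x y) (D0 (x.length + y.length) + 1)
  n : s.reg 60 = x.length
  m : s.reg 61 = y.length
  M : s.reg 62 = x.length + y.length
  d0 : s.reg 63 = D0 (x.length + y.length)
  lv : s.reg 64 = Nat.size (x.length + y.length)
  li : s.reg 65 = (stringsInput x y ++ z).length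
  inp : ∀ i, s.arr 0 i = (stringsInput x y ++ z)[i]?.getD 0
  str : ∀ i < x.length + y.length, s.arr 13 i = cat x y i
  names : Names (cat x y) (x.length + y.length) (s.arr 14)
  reg0 : ∀ i, 70 ≤ i → s.reg i = 0
  arr0 : ∀ k, 41 ≤ k → ∀ i, s.arr k i = 0
  dr : s.drawn = 0

/-- the last step -/
theorem lvS_runs {M D : ℕ} (hM : M = x.length + y.length) (hD : D ≤ 2 * M)
    (h2M : 2 ^ Nat.size M ≤ 2 * M) (hsL : Nat.size M * (M + 1) ≤ e.L)
    (hsB : Nat.size M * (M + 1) ≤ e.B) (hB : 12 * M + 16 < e.B) (hL : 4 * M + 3 ≤ e.L)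
    {s : State} (h3 : s.reg 3 = M) (h4 : s.reg 4 = Nat.size M) (h40 : s.reg 40 = x.length)
    (h41 : s.reg 41 = y.length) (h42 : s.reg 42 = D) (h14 : Names (cat x y) M (s.arr 14)) :
    Runs e (lvC lcI) s (lvCost D (5 * Nat.size M + 3)) (fun s' =>
      s'.reg 48 = min (editDist x y) (D + 1)) := by
  subst hM
  have H := lcI_spec (e := e) (x := x) (y := y) (Lv := Nat.size (x.length + y.length))
    (Nat.lt_size_self _) hsL hsB (by omega)
  exact (lvC_runs H (D := D) (s := s) (by omega) (by omega)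
      ⟨h3, h4, isTab_of_names h14⟩ h40 h41 h42).post fun s' h => h.1

theorem shA_det : shA.det := by
  have h1 : (kmr.ren (fun x => x) (· + 10)).det := Cmd.det_ren.2 kmr_det
  have h2 : (lvC lcI).det := lvC_det lcI_det
  refine ⟨?_, ?_, ?_, ?_, h2⟩
  · simp [shA1]
  · simp [shA2]
  · simp [shA3, h1]
  · simp [shA4, bitsC]

theorem lvI_wr {i : ℕ} (h : (lvC lcI).wr i) : i < 40 ∨ (43 ≤ i ∧ i ≤ 51) :=
  lvC_wr (e := ⟨2 ^ (3 * (0 + 0 + 2)), 3 * (0 + 0 + 1), fun _ => 0⟩) (x := []) (y := [])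
      (lcI_spec (Lv := 3) (by simp) (by simp) (by simp) (by simp)) i h

theorem shA_wr {i : ℕ} (h : shA.wr i) : i < 70 := by
  by_contra hc
  have h1 : ¬ (kmr.ren (fun x => x) (· + 10)).wr i := by
    intro h'
    obtain ⟨y, hy, rfl⟩ := Cmd.wr_ren h'
    have := (kmr_wr y).1 hy
    omega
  have h2 : ¬ (lvC lcI).wr i := by
    intro h'
    have := lvI_wr h'
    omega
  simp only [shA, shA1, shA2, shA3, shA4, bitsC, wr_seq, wr_set, wr_forUp, wr_put, wr_whl, h1, h2,
    or_false] at h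
  omega

theorem shA_wa {i : ℕ} (h : shA.wa i) : 10 ≤ i ∧ i ≤ 40 := by
  by_contra hc
  have h1 : ¬ (kmr.ren (fun x => x) (· + 10)).wa i := by
    intro h'
    obtain ⟨y, hy, rfl⟩ := Cmd.wa_ren h'
    have := (kmr_wa y).1 hy
    omega
  have h2 : ¬ (lvC lcI).wa i := by
    intro h'
    rcases lvC_wa i h' with h3 | h3
    · exact lcI_wa i h3
    · omega
  simp only [shA, shA1, shA2, shA3, shA4, bitsC, wa_seq, wa_set, wa_forUp, wa_put, wa_whl, h1, h2,
    or_false, false_or] at h
  omega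

/-- the main fact on `shA`, with `M` as a variable -/
theorem shA_key {W M : ℕ} (hMd : M = x.length + y.length) (hW : e.B = 2 ^ W) (hM : 10 ≤ M)
    (hB : (M + 2) * (M + 2) ≤ e.B) (hL : (M + 2) * (M + 2) ≤ e.L)
    (hsym : ∀ a ∈ x ++ y, a < e.B) :
    Runs e shA (initState (stringsInput x y ++ z)) (shCost M W) (fun s' =>
      s'.reg 48 = min (editDist x y) (D0 M + 1) ∧ s'.reg 60 = x.length ∧ s'.reg 61 = y.length ∧
      s'.reg 62 = M ∧ s'.reg 63 = D0 M ∧ s'.reg 64 = Nat.size M ∧
      s'.reg 65 = (stringsInput x y ++ z).length ∧ (∀ i < M, s'.arr 13 i = cat x y i) ∧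
      Names (cat x y) M (s'.arr 14)) := by
  have hD := D0_le (M := M) (by omega)
  have h2M := two_pow_size_le (M := M) (by omega)
  have hsM : Nat.size M ≤ M := Nat.size_le.2 Nat.lt_two_pow_self
  have hlM : Nat.log 2 M ≤ M := Nat.log_le_self 2 M
  have hexp : (M + 2) * (M + 2) = M * M + 4 * M + 4 := by ring
  have hMM : 10 * M ≤ M * M := Nat.mul_le_mul_right _ hM
  have hsL : Nat.size M * (M + 1) ≤ (M + 2) * (M + 2) := Nat.mul_le_mul (by omega) (by omega)
  have hlL : (Nat.log 2 M + 1) * (M + 1) ≤ (M + 2) * (M + 2) := Nat.mul_le_mul (by omega) (by omega)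
  have n1 : 12 * M + 16 < e.B := by omega
  have n2 : 4 * M + 3 ≤ e.L := by omega
  have n3 : Nat.size M * (M + 1) ≤ e.L := hsL.trans hL
  have n4 : Nat.size M * (M + 1) ≤ e.B := hsL.trans hB
  have n5 : (Nat.log 2 M + 1) * (M + 1) ≤ e.L := hlL.trans hL
  clear hexp hMM hsL hlL
  have hcat : ∀ i < M, cat x y i < e.B := by
    intro i hi
    have hi' : i < (x ++ y).length := by rw [List.length_append]; omega
    unfold cat
    rw [List.getD_eq_getElem _ _ hi']
    exact hsym _ (List.getElem_mem hi')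
  unfold shA
  refine Runs.seqF (n := 4) (m := 13 * (M + 1) * (W + 3) * (Nat.log 2 M + 2) +
    lvCost (D0 M) (5 * Nat.size M + 3) + 3 * M + 2 * W + 16)
    (shA1_runs (z := z) (by omega) (by omega)) ?_ (by unfold shCost; omega)
  rintro s1 ⟨a1, a2, a3, a4, a5⟩ -
  have hseg := Quad235.in_xy (Quad235.seg_init (stringsInput x y) z)
  rw [← hMd] at a4
  refine Runs.seqF (n := 3 * M + 2) (m := 13 * (M + 1) * (W + 3) * (Nat.log 2 M + 2) +
    lvCost (D0 M) (5 * Nat.size M + 3) + 2 * W + 14)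
    (R := fun s' => ∀ i < M, s'.arr 13 i = cat x y i) ?_ ?_ (by omega)
  · subst hMd
    refine shA2_runs (x := x) (y := y) (a0 := (initState (stringsInput x y ++ z)).arr 0)
      (by rw [a5]) ?_ a4 (by omega) (by omega)
    intro i hi
    have hi' : i < (x ++ y).length := by rw [List.length_append]; exact hi
    rw [hseg i hi']
    unfold cat
    rw [List.getD_eq_getElem _ _ hi']
  intro s2 b13 f2
  have b60 := (f2.reg 60 (by simp [shA2])).trans a2
  have b61 := (f2.reg 61 (by simp [shA2])).trans a3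
  have b62 := (f2.reg 62 (by simp [shA2])).trans a4
  have b65 := (f2.reg 65 (by simp [shA2])).trans a1
  have hk : ∀ i, 10 ≤ i → ¬ shA3.wr i := by
    intro i hi h'
    simp only [shA3, wr_seq, wr_set] at h'
    rcases h' with h' | h'
    · omega
    · obtain ⟨y, hy, rfl⟩ := Cmd.wr_ren h'
      have := (kmr_wr y).1 hy
      omega
  have hk13 : ¬ shA3.wa 13 := by
    intro h'
    simp only [shA3, wa_seq, wa_set, false_or] at h'
    obtain ⟨y, hy, hy'⟩ := Cmd.wa_ren h'
    have := (kmr_wa y).1 hy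
    omega
  refine Runs.seqF (n := 13 * (M + 1) * (W + 3) * (Nat.log 2 M + 2) + 1)
    (m := lvCost (D0 M) (5 * Nat.size M + 3) + 2 * W + 13)
    (shA3_runs (S := cat x y) (M := M) hW b62 b13 hcat hB n5) ?_ (by omega)
  intro s3 c14 f3
  have c60 := (f3.reg 60 (hk _ (by omega))).trans b60
  have c61 := (f3.reg 61 (hk _ (by omega))).trans b61
  have c62 := (f3.reg 62 (hk _ (by omega))).trans b62
  have c65 := (f3.reg 65 (hk _ (by omega))).trans b65
  have c13 : ∀ i < M, s3.arr 13 i = cat x y i := by rw [f3.arr 13 hk13]; exact b13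
  refine Runs.seqF (n := 2 * W + 8) (m := lvCost (D0 M) (5 * Nat.size M + 3))
    (shA4_runs (n := x.length) (m := y.length) hW c60 c61 (by rw [c62, hMd]) (by omega)
      (by omega)) ?_ (by omega)
  rintro s4 ⟨d64, d63, d3, d4, d40, d41, d42⟩ f4
  rw [← hMd] at d64 d63 d3 d4 d42
  have d60 := (f4.reg 60 (by simp [shA4, bitsC])).trans c60
  have d61 := (f4.reg 61 (by simp [shA4, bitsC])).trans c61
  have d62 := (f4.reg 62 (by simp [shA4, bitsC])).trans c62
  have d65 := (f4.reg 65 (by simp [shA4, bitsC])).trans c65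
  have d13 : ∀ i < M, s4.arr 13 i = cat x y i := by
    rw [f4.arr 13 (by simp [shA4, bitsC])]; exact c13
  have d14 : Names (cat x y) M (s4.arr 14) := by
    rw [f4.arr 14 (by simp [shA4, bitsC])]; exact c14
  refine (lvS_runs (e := e) (x := x) (y := y) hMd hD h2M n3 n4 n1 n2 d3 d4 d40 d41 d42
    d14).frame.post ?_
  rintro s5 ⟨g1, f5⟩
  have hwr : ∀ i, 60 ≤ i → ¬ (lvC lcI).wr i := fun i hi h' => by
    have := lvI_wr h'
    omega
  have hwa : ∀ i, i < 40 → ¬ (lvC lcI).wa i := fun i hi h' => by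
    rcases lvC_wa i h' with h3 | h3
    · exact lcI_wa i h3
    · omega
  refine ⟨g1, ?_, ?_, ?_, ?_, ?_, ?_, ?_, ?_⟩
  · rw [f5.reg 60 (hwr _ (by omega)), d60]
  · rw [f5.reg 61 (hwr _ (by omega)), d61]
  · rw [f5.reg 62 (hwr _ (by omega)), d62]
  · rw [f5.reg 63 (hwr _ (by omega)), d63]
  · rw [f5.reg 64 (hwr _ (by omega)), d64]
  · rw [f5.reg 65 (hwr _ (by omega)), d65]
  · rw [f5.arr 13 (hwa _ (by omega))]; exact d13
  · rw [f5.arr 14 (hwa _ (by omega))]; exact d14

/-- **the deterministic part of the shell** -/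
theorem shA_runs {W : ℕ} (hW : e.B = 2 ^ W) (hM : 10 ≤ x.length + y.length)
    (hB : (x.length + y.length + 2) * (x.length + y.length + 2) ≤ e.B)
    (hL : (x.length + y.length + 2) * (x.length + y.length + 2) ≤ e.L)
    (hsym : ∀ a ∈ x ++ y, a < e.B) :
    Runs e shA (initState (stringsInput x y ++ z)) (shCost (x.length + y.length) W)
      (AfterSt x y z) := by
  refine (shA_key (z := z) rfl hW hM hB hL hsym).frame.post ?_
  rintro s' ⟨⟨g48, g60, g61, g62, g63, g64, g65, g13, g14⟩, f⟩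
  refine ⟨g48, g60, g61, g62, g63, g64, g65, ?_, g13, g14, ?_, ?_, ?_⟩
  · intro i
    rw [f.arr 0 (fun h => by have := shA_wa h; omega)]
    simp [initState]
  · intro i hi
    rw [f.reg i (fun h => by have := shA_wr h; omega)]
    simp [initState]
    omega
  · intro k hk i
    rw [f.arr k (fun h => by have := shA_wa h; omega)]
    simp [initState]
    omega
  · rw [f.drawn shA_det]
    rfl

end

end Crest.Agent.R288.Shell12
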