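import Crest.Agent.R288.LvBlk_222
import Crest.Agent.R288.ShellA_12

/-!
# R288, [LEAF] (helper222): the exact cost of a cheap block as an external function

`leafX` is a total HL command with the calling convention of an external function of the PL layer:
arguments `[a, b, P, Q, D]` in cells 0..4 of array 51, result in variable 107; private variables
`≥ 110`, private arrays `≥ 52`. It reads the constants of `Shell12.AfterSt` (variables 60..64) and
the names table (array 14).

Result: `leafV x y a b P Q D = min (G x y a' b' P' Q') (min D (D0 M) + 1)` where the primes clip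
the arguments to the strings, i.e. the exact cost of the block if it is at most `D`.
Time: `500 (D + 1)^2 (Lv + 1) + 30`, whatever the length of the block.
-/

set_option autoImplicit false

namespace Crest.Agent.R288.LeafX222

open Crest.GraphRAM Crest.Agent.R288.Ed Crest.Agent.R295.HL Exp Cnd Cmd
open Crest.Agent.R288.LceA508 Crest.Agent.R288.Lce508 Crest.Agent.R288.Lv
open Crest.Agent.R288.GameA347 Crest.Agent.R288.Shell12 Crest.Agent.R288.LvBlk222
open Crest.Agent.R288.Kmr725

/-! ### the function -/

/-- the exact cost of a block, if it is at most `D` (arguments clipped to the strings) -/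
def leafV (x y : List ℕ) (a b P Q D : ℕ) : ℕ :=
  min (G x y (min a (min b x.length)) (min b x.length) (min P y.length) (min Q y.length))
    (min D (D0 (x.length + y.length)) + 1)

/-- the same, arguments as a list -/
def leafF (x y : List ℕ) (l : List ℕ) : ℕ :=
  leafV x y (l.getD 0 0) (l.getD 1 0) (l.getD 2 0) (l.getD 3 0) (l.getD 4 0)

theorem leafV_eq (x y : List ℕ) {a b P Q D : ℕ} (hb : b ≤ x.length) (hab : a ≤ b)
    (hP : P ≤ y.length) (hQ : Q ≤ y.length) (hD : D ≤ D0 (x.length + y.length)) :
    leafV x y a b P Q D = min (G x y a b P Q) (D + 1) := by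
  unfold leafV
  rw [min_eq_left hb, min_eq_left hab, min_eq_left hP, min_eq_left hQ, min_eq_left hD]

theorem leafV_le (x y : List ℕ) (a b P Q D : ℕ) : leafV x y a b P Q D ≤ D + 1 := by
  unfold leafV
  omega

/-- blocks and diagonals of `NodeA_785` -/
theorem leafV_gn (x y : List ℕ) (h j : ℕ) (u v : ℤ) {D : ℕ}
    (hD : D ≤ D0 (x.length + y.length)) :
    leafV x y (NodeA785.lo x.length h j) (NodeA785.hi x.length h j)
      (pos y.length (NodeA785.lo x.length h j) u) (pos y.length (NodeA785.hi x.length h j) v) D =
      min (NodeA785.gn x y h j u v) (D + 1) := by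
  rw [leafV_eq x y (NodeA785.hi_le _ _ _) (NodeA785.lo_le_hi _ _ _) ?_ ?_ hD]
  · rfl
  · unfold pos; omega
  · unfold pos; omega

/-- cheap blocks: the value is exact; all others: the value is `D + 1` -/
theorem leafV_gn_eq_iff (x y : List ℕ) (h j : ℕ) (u v : ℤ) {D : ℕ}
    (hD : D ≤ D0 (x.length + y.length)) :
    leafV x y (NodeA785.lo x.length h j) (NodeA785.hi x.length h j)
      (pos y.length (NodeA785.lo x.length h j) u) (pos y.length (NodeA785.hi x.length h j) v) D
        ≤ D ↔ NodeA785.gn x y h j u v ≤ D := by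
  rw [leafV_gn x y h j u v hD]
  omega

/-! ### the command -/

/-- arrays of the window -/
def ga (k : ℕ) : ℕ := if k = 14 then 14 else k + 60

theorem ga_inj : Function.Injective ga := by
  intro a b h
  unfold ga at h
  split_ifs at h <;> omega

/-- read and clip the arguments -/
def argX : Cmd :=
  set 253 (get 51 1) ;; set 253 (var 253 - (var 253 - var 60)) ;;
  set 252 (get 51 0) ;; set 252 (var 252 - (var 252 - var 253)) ;;
  set 254 (get 51 2) ;; set 254 (var 254 - (var 254 - var 61)) ;;
  set 255 (get 51 3) ;; set 255 (var 255 - (var 255 - var 61)) ;;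
  set 242 (get 51 4) ;; set 242 (var 242 - (var 242 - var 63)) ;;
  set 256 (var 60) ;; set 257 (var 62) ;; set 258 (var 64)

/-- **the leaf command** -/
def leafX : Cmd := argX ;; gB.ren (· + 200) ga ;; set 107 (var 248)

/-- what the leaf command needs; it depends only on variables `< 100` and arrays `< 50` -/
structure Ctx (x y : List ℕ) (s : State) : Prop where
  n : s.reg 60 = x.length
  m : s.reg 61 = y.length
  M : s.reg 62 = x.length + y.length
  d0 : s.reg 63 = D0 (x.length + y.length)
  lv : s.reg 64 = Nat.size (x.length + y.length)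
  names : Names (LceA508.cat x y) (x.length + y.length) (s.arr 14)

theorem Ctx.of_after {x y z : List ℕ} {s : State} (h : AfterSt x y z s) : Ctx x y s :=
  ⟨h.n, h.m, h.M, h.d0, h.lv, h.names⟩

theorem Ctx.congr {x y : List ℕ} {s s' : State} (h : Ctx x y s)
    (hr : ∀ i, i < 100 → s'.reg i = s.reg i) (ha : ∀ k, k < 50 → s'.arr k = s.arr k) :
    Ctx x y s' :=
  ⟨by rw [hr _ (by omega), h.n], by rw [hr _ (by omega), h.m], by rw [hr _ (by omega), h.M],
    by rw [hr _ (by omega), h.d0], by rw [hr _ (by omega), h.lv],
    by rw [ha _ (by omega)]; exact h.names⟩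

/-- the machine -/
structure MchX (e : Env) (x y : List ℕ) : Prop where
  hM : 10 ≤ x.length + y.length
  hB : (x.length + y.length + 2) * (x.length + y.length + 2) ≤ e.B
  hL : (x.length + y.length + 2) * (x.length + y.length + 2) ≤ e.L

theorem MchX.mch {e : Env} {x y : List ℕ} (h : MchX e x y) {D : ℕ}
    (hD : D ≤ D0 (x.length + y.length)) :
    Mch e x y (Nat.size (x.length + y.length)) D := by
  have hM := h.hM
  have hB := h.hB
  have hL := h.hL
  have h1 := D0_le (M := x.length + y.length) (by omega)
  have h2 := two_pow_size_le (M := x.length + y.length) (by omega)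
  have h3 : Nat.size (x.length + y.length) ≤ x.length + y.length :=
    Nat.size_le.2 Nat.lt_two_pow_self
  have h4 : x.length + y.length < 2 ^ Nat.size (x.length + y.length) := Nat.lt_size_self _
  obtain ⟨M, hMd⟩ : ∃ M, M = x.length + y.length := ⟨_, rfl⟩
  rw [← hMd] at hM hB hL hD h1 h2 h3 h4
  have hexp : (M + 2) * (M + 2) = M * M + 4 * M + 4 := by ring
  have hMM : 10 * M ≤ M * M := Nat.mul_le_mul_right _ hM
  have hsL : Nat.size M * (M + 1) ≤ (M + 2) * (M + 2) := Nat.mul_le_mul (by omega) (by omega)
  constructor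
  · rw [← hMd]; exact h4
  · rw [← hMd]; exact hsL.trans hL
  · rw [← hMd]; exact hsL.trans hB
  · rw [← hMd]; omega
  · omega
  · omega

/-- the cost of the leaf command -/
def leafCost (D Lv : ℕ) : ℕ := 500 * ((D + 1) ^ 2 * (Lv + 1)) + 30

theorem leafCost_mono {D D' Lv : ℕ} (h : D ≤ D') : leafCost D Lv ≤ leafCost D' Lv := by
  unfold leafCost
  gcongr

theorem gren_wr {z : ℕ} (h : (gB.ren (· + 200) ga).wr z) : 200 ≤ z ∧ z < 252 := by
  obtain ⟨y, hy, rfl⟩ := Cmd.wr_ren h
  have := gB_wr hy
  omega

theorem gren_wa {k : ℕ} (h : (gB.ren (· + 200) ga).wa k) : k = 100 := by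
  obtain ⟨y, hy, rfl⟩ := Cmd.wa_ren h
  have := gB_wa hy
  subst this
  simp [ga]

theorem leafX_wr {z : ℕ} (h : leafX.wr z) : z = 107 ∨ 110 ≤ z := by
  simp only [leafX, argX, Cmd.wr] at h
  by_cases hc : (gB.ren (· + 200) ga).wr z
  · have := gren_wr hc; omega
  · simp [hc] at h
    omega

theorem leafX_wa {k : ℕ} (h : leafX.wa k) : 52 ≤ k := by
  simp only [leafX, argX, Cmd.wa, false_or, or_false] at h
  have := gren_wa h
  omega

theorem leafX_det : leafX.det := by
  have : (gB.ren (· + 200) ga).det := Cmd.det_ren.2 gB_det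
  simp [leafX, argX, Cmd.det, this]

/-- **Specification of the leaf command.** -/
theorem leafX_runs {e : Env} {x y : List ℕ} (M : MchX e x y) {s : State} (hs : s.Wf e)
    (h : Ctx x y s) {a b P Q D : ℕ} (ha : s.Seg 51 0 [a, b, P, Q, D]) :
    Runs e leafX s (leafCost D (Nat.size (x.length + y.length)))
      (fun s' => s'.reg 107 = leafV x y a b P Q D) := by
  set D' := min D (D0 (x.length + y.length)) with hD'
  have hM := M.mch (D := D') (min_le_right _ _)
  have a0 : s.arr 51 0 = a := ha 0 (by simp)
  have a1 : s.arr 51 1 = b := ha 1 (by simp)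
  have a2 : s.arr 51 2 = P := ha 2 (by simp)
  have a3 : s.arr 51 3 = Q := ha 3 (by simp)
  have a4 : s.arr 51 4 = D := ha 4 (by simp)
  have ba : a < e.B := a0 ▸ hs.2 51 0
  have bb : b < e.B := a1 ▸ hs.2 51 1
  have bP : P < e.B := a2 ▸ hs.2 51 2
  have bQ : Q < e.B := a3 ▸ hs.2 51 3
  have bD : D < e.B := a4 ▸ hs.2 51 4
  have hB3 := hM.hB3
  have hL5 : 5 ≤ e.L := by
    have := M.hL
    have h2 : 2 * 2 ≤ (x.length + y.length + 2) * (x.length + y.length + 2) :=
      Nat.mul_le_mul (by omega) (by omega)
    have h3 := M.hM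
    nlinarith
  have hsz : Nat.size (x.length + y.length) < e.B := by
    have := hM.hm
    have h1 : Nat.size (x.length + y.length) ≤ x.length + y.length :=
      Nat.size_le.2 Nat.lt_two_pow_self
    omega
  have hd0 : D0 (x.length + y.length) < e.B := by
    rw [← h.d0]; exact hs.1 63
  unfold leafX
  refine Runs.seq (n := 13) (m := gCost D' (Nat.size (x.length + y.length)) + 1)
    (R := fun s' => (s'.reg 252 = min a (min b x.length) ∧ s'.reg 253 = min b x.length ∧
      s'.reg 254 = min P y.length ∧ s'.reg 255 = min Q y.length ∧ s'.reg 242 = D' ∧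
      s'.reg 256 = x.length ∧ s'.reg 257 = x.length + y.length ∧
      s'.reg 258 = Nat.size (x.length + y.length)) ∧ s'.arr 14 = s.arr 14) ?_ ?_
    (by
      have := gCost_le D' (Nat.size (x.length + y.length))
      have h2 : 500 * ((D' + 1) ^ 2 * (Nat.size (x.length + y.length) + 1)) ≤
          500 * ((D + 1) ^ 2 * (Nat.size (x.length + y.length) + 1)) := by
        have : D' ≤ D := min_le_left _ _
        gcongr
      unfold leafCost
      omega)
  · unfold argX
    rw [runs_iff_wp]
    simp [h.n, h.m, h.M, h.d0, h.lv, a0, a1, a2, a3, a4]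
    omega
  · rintro s1 ⟨⟨b1, b2, b3, b4, b5, b6, b7, b8⟩, b9⟩
    have i1 : InB x y (Nat.size (x.length + y.length)) D' (min a (min b x.length))
      (min b x.length) (min P y.length) (min Q y.length) (s1.view (· + 200) ga) := by
      refine ⟨b5, b1, b2, b3, b4, b6, b7, b8, ?_⟩
      have : (s1.view (· + 200) ga).arr 14 = s.arr 14 := by rw [← b9]; rfl
      rw [this]
      exact isTab_of_names h.names
    refine Runs.seq (n := gCost D' (Nat.size (x.length + y.length))) (m := 1)
      (R := fun s' => s'.reg 248 = leafV x y a b P Q D) ?_ ?_ (by omega)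
    · have A := gB_runs hM (min_le_right b x.length) (min_le_right a (min b x.length))
        (min_le_right P y.length) (min_le_right Q y.length) i1
      refine (Runs.ren (s := s1) (f := (· + 200)) (g := ga) (add_left_injective 200) ga_inj A).post
        ?_
      rintro s' ⟨⟨f1, -, -⟩, -⟩
      simp only [State.view_reg] at f1
      rw [f1]
      rfl
    · intro s2 h2
      refine Runs.set ?_ ?_
      · simp
      · simp [h2]

end Crest.Agent.R288.LeafX222
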