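import Crest.Agent.R288.CpU_776
import Crest.Agent.R288.PgA_172

/-!
# R288, program side (helper68): lengths of the read lists of PgA_172

* `Ncs`, `NWA`, `Hm` : number of states of a cell, of letters of a window, of pairs of a menu;
  `csz_le`, `WA_le`, `pcs_len`, `wst_len`, `cells_len`, `bst_len`, `hmenu_len`, `wpr_len`, `bpr_len`,
  `rpr_len`;
* heights `pcs_i`, `menu_i`, `hmenu_i`, `wpr_i`, `bpr_i`, `cells_i`;
* `sum_bst`, `sum_rpr` : sums of costs over the lists;
* **`ZP P`**: one bound for the lengths of all lists of states and pairs and for the numbers of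
  requests (`.. ≤ ZP P`, `rpr k L ≤ K * ZP P`), `ZQ P = (K + 1) * ZP P`;
* **`zq_table`** : `ZQ P ≤ 2 ^ (c * W h * Lg h)` for the table of ParB_806.
-/

set_option autoImplicit false

namespace Crest.Agent.R288.Len68

open Filter Finset Crest.Agent.R288.Par806 Crest.Agent.R288.PgG8155
open Crest.Agent.R288.Cnt308 Crest.Agent.R288.Alg45 Crest.Agent.R288.PgA172
open Crest.Agent.R288.CpU776

/-! ## Lengths of the read lists -/

section lengths

variable (P : Alg45.Par)

/-- states of a cell -/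
def Ncs : ℕ := 2 ^ P.pb * (17 * 2 ^ P.pb + 1)

/-- letters of a window -/
def NWA : ℕ := 2 * P.r * 2 ^ P.pb + 1

/-- pairs of a menu -/
def Hm : ℕ := (P.al + P.a2 + 1) * (2 ^ (P.pb + P.al + 3) + 3) ^ 2

theorem gpt_le (κ : ℕ) : gpt P κ ≤ 2 ^ P.pb :=
  Nat.pow_le_pow_right (by norm_num) (min_le_right _ _)

theorem csz_le (κ : ℕ) : csz P κ ≤ Ncs P := by
  unfold csz cu cv Ncs
  have h := gpt_le P κ
  gcongr

theorem WA_le (κ : ℕ) : WA P κ ≤ NWA P := by
  unfold WA NWA
  have h := gpt_le P κ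
  gcongr

theorem pcs_len (κ : ℕ) (x : St) : (pcs P κ x).length ≤ P.N * NWA P ^ 2 := by
  unfold pcs
  refine (flatMap_len _ _ (NWA P ^ 2) fun q _ => ?_).trans (by rw [List.length_range])
  refine (flatMap_len _ _ (WA P κ) fun a _ => ?_).trans ?_
  · rw [List.length_map, List.length_range]
  · rw [List.length_range, sq]
    exact Nat.mul_le_mul (WA_le P κ) (WA_le P κ)

theorem wst_len (κ : ℕ) (x : St) : (wst P κ x).length ≤ 1 + P.N * NWA P ^ 2 := by
  unfold wst
  rw [List.length_cons]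
  have := pcs_len P κ x
  omega

theorem cells_len (c : Cel) : (cells P c).length ≤ Ncs P := by
  unfold cells
  rw [List.length_map, List.length_range]
  exact csz_le P c.κ

theorem bst_len (c : Cel) : (bst P c).length ≤ Ncs P * (1 + P.N * NWA P ^ 2) := by
  unfold bst
  refine (flatMap_len _ _ (1 + P.N * NWA P ^ 2) fun t _ => wst_len P _ _).trans ?_
  rw [List.length_range]
  exact Nat.mul_le_mul_right _ (csz_le P c.κ)

theorem castL_len (l : List ℕ) : (do let a ← l; pure (a : ℤ) : List ℤ).length = l.length := by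
  induction l with
  | nil => rfl
  | cons a l ih => simp_all [List.flatMap_cons]

theorem menu_len {κ' κ f : ℕ} (hf : f < 2 ^ (κ + 1)) (h : κ ≤ κ' + P.al) (y : St) :
    (menu P κ' (2 * f) y).length ≤ (2 ^ (P.pb + P.al + 3) + 3) ^ 2 := by
  have h1 : 2 * f / gst P κ' ≤ 2 ^ (P.pb + P.al + 2) := by
    have h2 : 2 * f ≤ 2 ^ (κ' + P.al + 2) := by
      have h3 : f ≤ 2 ^ (κ' + P.al + 1) :=
        hf.le.trans (Nat.pow_le_pow_right (by norm_num) (by omega))
      calc 2 * f ≤ 2 * 2 ^ (κ' + P.al + 1) := Nat.mul_le_mul_left _ h3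
        _ = 2 ^ (κ' + P.al + 2) := by rw [pow_succ 2 (κ' + P.al + 1)]; ring
    unfold gst
    refine Nat.div_le_of_le_mul (h2.trans ?_)
    rw [← pow_add]
    exact Nat.pow_le_pow_right (by norm_num) (by omega)
  have h4 : 2 * (2 * f / gst P κ') + 3 ≤ 2 ^ (P.pb + P.al + 3) + 3 := by
    have : 2 ^ (P.pb + P.al + 3) = 2 * 2 ^ (P.pb + P.al + 2) := by
      rw [pow_succ 2 (P.pb + P.al + 2)]; ring
    omega
  unfold menu
  refine (flatMap_len _ _ (2 * (2 * f / gst P κ') + 3) fun a _ => ?_).trans ?_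
  · rw [List.length_map, castL_len, List.length_range]
  · rw [castL_len, List.length_range, sq]
    exact Nat.mul_le_mul h4 h4

theorem hmenu_len (F : St → ℕ) (y : St) : (hmenu P F y).length ≤ Hm P := by
  unfold hmenu Hm
  refine (flatMap_len _ _ ((2 ^ (P.pb + P.al + 3) + 3) ^ 2) fun κ' hκ => ?_).trans
    (Nat.mul_le_mul_right _ (by rw [rngC_len]; omega))
  rw [List.length_map]
  have h1 := (mem_rngC.1 hκ).1
  refine menu_len P (κ := cls F y) ?_ (by omega) y
  unfold cls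
  exact Nat.lt_pow_succ_log_self (by norm_num) _

theorem wpr_len (F : St → ℕ) (κ : ℕ) (x : St) :
    (wpr P F κ x).length ≤ P.N * NWA P ^ 2 * (1 + Hm P) := by
  unfold wpr
  refine (flatMap_len _ _ (1 + Hm P) fun y _ => ?_).trans
    (Nat.mul_le_mul_right _ (pcs_len P κ x))
  rw [List.length_cons]
  have := hmenu_len P F y
  omega

theorem bpr_len (F : St → ℕ) (c : Cel) :
    (bpr P F c).length ≤ Ncs P * (P.N * NWA P ^ 2) * (1 + Hm P) := by
  unfold bpr
  refine (flatMap_len _ _ (P.N * NWA P ^ 2 * (1 + Hm P)) fun t _ => wpr_len P F _ _).trans ?_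
  rw [List.length_range]
  calc csz P c.κ * (P.N * NWA P ^ 2 * (1 + Hm P)) ≤ Ncs P * (P.N * NWA P ^ 2 * (1 + Hm P)) :=
        Nat.mul_le_mul_right _ (csz_le P c.κ)
    _ = _ := by ring

end lengths

/-! ## Heights of the read states, sums -/

section heights

variable {P : Alg45.Par}

theorem pcs_i {κ : ℕ} {x y : St} (h : y ∈ pcs P κ x) : y.i = x.i - 1 := by
  obtain ⟨q, -, a, -, b, -, rfl⟩ := (mem_pcs P).1 h
  rfl

theorem menu_i {κ' ρ : ℕ} {y z : St} (h : z ∈ menu P κ' ρ y) : z.i = y.i := by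
  unfold menu at h
  obtain ⟨a, -, h⟩ := List.mem_flatMap.1 h
  obtain ⟨b, -, rfl⟩ := List.mem_map.1 h
  rfl

theorem hmenu_i {F : St → ℕ} {y : St} {p : ℕ × St} (h : p ∈ hmenu P F y) : p.2.i = y.i := by
  unfold hmenu at h
  obtain ⟨κ', -, h⟩ := List.mem_flatMap.1 h
  obtain ⟨z, hz, rfl⟩ := List.mem_map.1 h
  exact menu_i hz

theorem own_i (F : St → ℕ) (y : St) : (own P F y).2.i = y.i := rfl

theorem wpr_i {F : St → ℕ} {κ : ℕ} {x : St} {p : ℕ × St} (h : p ∈ wpr P F κ x) :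
    p.2.i = x.i - 1 := by
  unfold wpr at h
  obtain ⟨y, hy, h⟩ := List.mem_flatMap.1 h
  rw [← pcs_i hy]
  rcases List.mem_cons.1 h with rfl | h
  · rfl
  · exact hmenu_i h

theorem cst_i (c : Cel) (t : ℕ) : (cst P c t).i = c.i := rfl

theorem bpr_i {F : St → ℕ} {c : Cel} {p : ℕ × St} (h : p ∈ bpr P F c) : p.2.i = c.i - 1 := by
  unfold bpr at h
  obtain ⟨t, -, h⟩ := List.mem_flatMap.1 h
  exact wpr_i h

theorem cells_i {c : Cel} {y : St} (h : y ∈ cells P c) : y.i = c.i := by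
  unfold cells at h
  obtain ⟨t, -, rfl⟩ := List.mem_map.1 h
  rfl

theorem mem_rpr_iff {k : ℕ} {L : List (ℕ × St)} {s : ℕ × ℕ × St} :
    s ∈ rpr k L ↔ s.1 < k ∧ s.2 ∈ L := by
  unfold rpr
  rw [List.mem_flatMap]
  constructor
  · rintro ⟨i, hi, h⟩
    obtain ⟨p, hp, rfl⟩ := List.mem_map.1 h
    exact ⟨List.mem_range.1 hi, hp⟩
  · rintro ⟨h1, h2⟩
    exact ⟨s.1, List.mem_range.2 h1, List.mem_map.2 ⟨s.2, h2, rfl⟩⟩

theorem sum_flatMap {α β : Type} (l : List α) (f : α → List β) (g : β → ℕ) :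
    ((l.flatMap f).map g).sum = (l.map fun a => ((f a).map g).sum).sum := by
  induction l with
  | nil => rfl
  | cons a l ih => simp only [List.flatMap_cons, List.map_append, List.sum_append, List.map_cons,
      List.sum_cons, ih]

theorem sum_le_len {α : Type} (l : List α) (g : α → ℕ) (C : ℕ) (h : ∀ a ∈ l, g a ≤ C) :
    (l.map g).sum ≤ l.length * C := by
  induction l with
  | nil => simp
  | cons a l ih =>
    rw [List.map_cons, List.sum_cons, List.length_cons, Nat.succ_mul]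
    have h1 := h a List.mem_cons_self
    have h2 := ih fun b hb => h b (List.mem_cons_of_mem _ hb)
    omega

/-- sum over the states of a body table: own states and pieces -/
theorem sum_bst (f : ℕ → ℕ) (c : Cel) :
    ((bst P c).map fun y => f y.i).sum ≤
      Ncs P * f c.i + Ncs P * (P.N * NWA P ^ 2) * f (c.i - 1) := by
  unfold bst
  rw [sum_flatMap]
  refine (sum_le_len _ _ (f c.i + P.N * NWA P ^ 2 * f (c.i - 1)) fun t _ => ?_).trans ?_
  · unfold wst
    rw [List.map_cons, List.sum_cons]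
    refine Nat.add_le_add le_rfl ?_
    refine (sum_le_len _ _ (f (c.i - 1)) fun y hy => ?_).trans
      (Nat.mul_le_mul_right _ (pcs_len P _ _))
    rw [pcs_i hy, cst_i]
  · rw [List.length_range]
    calc csz P c.κ * (f c.i + P.N * NWA P ^ 2 * f (c.i - 1))
        ≤ Ncs P * (f c.i + P.N * NWA P ^ 2 * f (c.i - 1)) :=
          Nat.mul_le_mul_right _ (csz_le P c.κ)
      _ = _ := by ring

/-- sum over the numbers of all ranks `< k` at the pairs of `L` -/
theorem sum_rpr (k : ℕ) (L : List (ℕ × St)) (f : ℕ × ℕ × St → ℕ) (g : ℕ → ℕ)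
    (h : ∀ s ∈ rpr k L, f s ≤ g s.1) :
    ((rpr k L).map f).sum ≤ L.length * ∑ j ∈ Finset.range k, g j := by
  have h1 : ∀ n ≤ k, (((List.range n).flatMap fun i => L.map fun p => (i, p)).map f).sum ≤
      L.length * ∑ j ∈ Finset.range n, g j := by
    intro n
    induction n with
    | zero => intro _; simp
    | succ n ih =>
      intro hn
      rw [List.range_succ, List.flatMap_append, List.map_append, List.sum_append,
        Finset.sum_range_succ, Nat.mul_add]
      refine Nat.add_le_add (ih (by omega)) ?_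
      simp only [List.flatMap_cons, List.flatMap_nil, List.append_nil, List.map_map]
      refine sum_le_len _ _ (g n) fun p hp => ?_
      exact h (n, p) (mem_rpr_iff.2 ⟨by omega, hp⟩)
  exact h1 k le_rfl

theorem rpr_len (k : ℕ) (L : List (ℕ × St)) : (rpr k L).length = k * L.length := by
  have h1 : ∀ n, ((List.range n).flatMap fun i => L.map fun p => (i, p)).length = n * L.length := by
    intro n
    induction n with
    | zero => simp
    | succ n ih =>
      rw [List.range_succ, List.flatMap_append, List.length_append, ih]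
      simp only [List.flatMap_cons, List.flatMap_nil, List.append_nil, List.length_map]
      ring
  exact h1 k

end heights

/-! ## One bound for everything -/

section bound

variable (P : Alg45.Par)

/-- bound of all lists of states and pairs, and of all numbers of same-index requests -/
def ZP : ℕ :=
  Ncs P * (1 + P.N * NWA P ^ 2) * (1 + Hm P) + nA P + nB P + nD P + P.gX * P.mX + 16

/-- bound of all lists of requests -/
def ZQ : ℕ := (P.K + 1) * ZP P

theorem ncs_pos : 1 ≤ Ncs P := Nat.mul_pos (Nat.two_pow_pos _) (Nat.succ_pos _)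

theorem ncs_le_zp : Ncs P ≤ ZP P := by
  unfold ZP
  have : Ncs P ≤ Ncs P * (1 + P.N * NWA P ^ 2) * (1 + Hm P) := by
    rw [Nat.mul_assoc]
    exact Nat.le_mul_of_pos_right _ (Nat.mul_pos (by omega) (by omega))
  omega

theorem csz_le_zp (κ : ℕ) : csz P κ ≤ ZP P := (csz_le P κ).trans (ncs_le_zp P)

theorem cells_le_zp (c : Cel) : (cells P c).length ≤ ZP P := (cells_len P c).trans (ncs_le_zp P)

theorem bst_le_zp (c : Cel) : (bst P c).length ≤ ZP P := by
  refine (bst_len P c).trans ?_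
  unfold ZP
  have : Ncs P * (1 + P.N * NWA P ^ 2) ≤ Ncs P * (1 + P.N * NWA P ^ 2) * (1 + Hm P) :=
    Nat.le_mul_of_pos_right _ (by omega)
  omega

theorem hmenu_le_zp (F : St → ℕ) (y : St) : (hmenu P F y).length ≤ ZP P := by
  refine (hmenu_len P F y).trans ?_
  unfold ZP
  have : Hm P ≤ Ncs P * (1 + P.N * NWA P ^ 2) * (1 + Hm P) := by
    calc Hm P ≤ 1 * (1 + Hm P) := by omega
      _ ≤ _ := Nat.mul_le_mul_right _ (Nat.mul_pos (ncs_pos P) (by omega))
  omega

theorem bpr_le_zp (F : St → ℕ) (c : Cel) : (bpr P F c).length ≤ ZP P := by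
  refine (bpr_len P F c).trans ?_
  unfold ZP
  have : Ncs P * (P.N * NWA P ^ 2) * (1 + Hm P) ≤
      Ncs P * (1 + P.N * NWA P ^ 2) * (1 + Hm P) :=
    Nat.mul_le_mul_right _ (Nat.mul_le_mul_left _ (by omega))
  omega

theorem nA_le_zp : nA P ≤ ZP P := by unfold ZP; omega
theorem nB_le_zp : nB P ≤ ZP P := by unfold ZP; omega
theorem nD_le_zp : nD P ≤ ZP P := by unfold ZP; omega
theorem nX_le_zp : P.gX * P.mX ≤ ZP P := by unfold ZP; omega
theorem sixteen_le_zp : 16 ≤ ZP P := by unfold ZP; omega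

theorem bkeys_le_zp (κ : ℕ) (m : ℤ) (ρ : ℕ → ℕ → ℕ) : (bkeys P κ m ρ).length ≤ ZP P :=
  (bkeys_len P κ m ρ).trans (nB_le_zp P)

/-- all body tables of a jump -/
theorem acells_le_zp (κ : ℕ) (m : ℤ) :
    (P.gJ * P.mJ + 1) * (acells P κ m).length ≤ ZP P := by
  refine le_trans ?_ (nA_le_zp P)
  unfold nA
  rw [Nat.mul_comm]
  exact Nat.mul_le_mul_right _ (acells_len P κ m)

theorem zp_le_zq : ZP P ≤ ZQ P := Nat.le_mul_of_pos_left _ (Nat.succ_pos _)

theorem rpr_bpr_le {k : ℕ} (hk : k ≤ P.K) (F : St → ℕ) (c : Cel) :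
    (rpr k (bpr P F c)).length ≤ P.K * ZP P := by
  rw [rpr_len]
  exact Nat.mul_le_mul hk (bpr_le_zp P F c)

theorem rpr_hmenu_le {k : ℕ} (hk : k ≤ P.K) (F : St → ℕ) (y : St) :
    (rpr k (hmenu P F y)).length ≤ P.K * ZP P := by
  rw [rpr_len]
  exact Nat.mul_le_mul hk (hmenu_le_zp P F y)

theorem kzp_le_zq : P.K * ZP P ≤ ZQ P := Nat.mul_le_mul_right _ (Nat.le_succ _)

end bound

/-! ## The table -/

/-- `x ≤ 2 ^ (k z)` -/
def Q (z k x : ℕ) : Prop := x ≤ 2 ^ (k * z)

theorem Q.mono {z k k' x y : ℕ} (h : Q z k y) (hx : x ≤ y) (hk : k ≤ k') : Q z k' x :=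
  hx.trans (le_trans h (Nat.pow_le_pow_right (by norm_num) (Nat.mul_le_mul_right _ hk)))

theorem Q.mul {z k l x y : ℕ} (hx : Q z k x) (hy : Q z l y) : Q z (k + l) (x * y) := by
  unfold Q at *
  rw [Nat.add_mul, pow_add]
  exact Nat.mul_le_mul hx hy

theorem Q.add {z k l x y : ℕ} (hz : 1 ≤ z) (hx : Q z k x) (hy : Q z l y) :
    Q z (k + l + 1) (x + y) := by
  unfold Q at *
  have h1 : 1 ≤ 2 ^ (k * z) := Nat.one_le_two_pow
  have h2 : 1 ≤ 2 ^ (l * z) := Nat.one_le_two_pow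
  have h3 : (2 : ℕ) ≤ 2 ^ (1 * z) := by
    calc (2 : ℕ) = 2 ^ 1 := rfl
      _ ≤ _ := Nat.pow_le_pow_right (by norm_num) (by omega)
  calc x + y ≤ 2 ^ (k * z) + 2 ^ (l * z) := Nat.add_le_add hx hy
    _ ≤ 2 ^ (k * z) * 2 ^ (l * z) * 2 := by nlinarith
    _ ≤ 2 ^ (k * z) * 2 ^ (l * z) * 2 ^ (1 * z) := Nat.mul_le_mul_left _ h3
    _ = _ := by rw [← pow_add, ← pow_add]; congr 1; ring

theorem Q.const {z : ℕ} (hz : 1 ≤ z) (c : ℕ) : Q z c c := by
  unfold Q
  calc c ≤ 2 ^ c := (Nat.lt_two_pow_self (n := c)).le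
    _ ≤ _ := Nat.pow_le_pow_right (by norm_num) (Nat.le_mul_of_pos_right _ hz)

theorem Q.pow {z k x : ℕ} (hx : Q z k x) (n : ℕ) : Q z (n * k) (x ^ n) := by
  unfold Q at *
  calc x ^ n ≤ (2 ^ (k * z)) ^ n := Nat.pow_le_pow_left hx n
    _ = _ := by rw [← pow_mul]; congr 1; ring

/-- a number `≤ k z` -/
theorem Q.lin {z k x : ℕ} (hx : x ≤ k * z) : Q z k x :=
  hx.trans (Nat.lt_two_pow_self (n := k * z)).le

/-- a power of two with exponent `≤ k z` -/
theorem Q.two {z k x : ℕ} (hx : x ≤ k * z) : Q z k (2 ^ x) :=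
  Nat.pow_le_pow_right (by norm_num) hx

/-- constants -/
def kNcs (C : ℕ) : ℕ := C + (17 + C + 1 + 1)
def kNWA (C : ℕ) : ℕ := 2 + C + C + 1 + 1
def kHm (C : ℕ) : ℕ := C + C + 1 + 1 + 1 + 2 * (C + C + 3 + 3 + 1)
def kZP (C : ℕ) : ℕ :=
  kNcs C + (1 + (1 + 2 * kNWA C) + 1) + (1 + kHm C + 1) + 1 + 1 + 1 + 1 + 1 + 1 + (C + C) + 1 + 16 + 1
def kZQ (C : ℕ) : ℕ := 1 + 1 + 1 + kZP C

/-- **the bound with the table** -/
theorem zq_ev (C : ℕ) : ∀ᶠ h : ℕ in atTop, ∀ P : Alg45.Par, Tb C P h →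
    P.pb ≤ C * (W h * Lg h) → P.al ≤ C * (W h * Lg h) → ZQ P ≤ 2 ^ (kZQ C * W h * Lg h) := by
  filter_upwards [pol_ev (cY C), ev_exp_le_Lg 0 1 (2 * cY C + 1)] with h hp he P t hpb hal
  have hW := W_pos h
  have hL := Lg_pos h
  have hz : 1 ≤ W h * Lg h := Nat.mul_pos hW hL
  set z := W h * Lg h with hzd
  have hLz : Lg h ≤ z := Nat.le_mul_of_pos_left _ hW
  have hY : Q z 1 (nA P * nB P) := by
    have hY := Y_le t
    refine hY.trans ?_
    calc 2 ^ nn h * pol (cY C) h ≤ 2 ^ nn h * 2 ^ ((2 * cY C + 1) * Mg h) :=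
          Nat.mul_le_mul_left _ hp
      _ = 2 ^ (nn h + (2 * cY C + 1) * Mg h) := by rw [pow_add]
      _ ≤ 2 ^ (1 * z) := Nat.pow_le_pow_right (by norm_num) (by omega)
  have hA : Q z 1 (nA P) := hY.mono (Nat.le_mul_of_pos_right _ nB_pos) le_rfl
  have hB : Q z 1 (nB P) := hY.mono (Nat.le_mul_of_pos_left _ nA_pos) le_rfl
  have hD : Q z 1 (nD P) := by
    refine hB.mono ?_ le_rfl
    unfold nD nB
    exact Nat.mul_le_mul_left _ (Nat.le_mul_of_pos_right _ (by positivity))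
  have hN : Q z 1 P.N := by
    refine hB.mono ?_ le_rfl
    unfold nB
    exact Nat.le_mul_of_pos_right _ (by positivity)
  have hpb2 : Q z C (2 ^ P.pb) := Q.two hpb
  have hNcs : Q z (kNcs C) (Ncs P) := hpb2.mul (((Q.const hz 17).mul hpb2).add hz (Q.const hz 1))
  have hr : Q z C P.r := (Q.const hz C).mono t.r le_rfl
  have hNWA : Q z (kNWA C) (NWA P) :=
    (((Q.const hz 2).mul hr).mul hpb2).add hz (Q.const hz 1)
  have ha2 : Q z C P.a2 := (Q.const hz C).mono t.a2 le_rfl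
  have hal2 : Q z (C + C + 3) (2 ^ (P.pb + P.al + 3)) := by
    refine Q.two ?_
    calc P.pb + P.al + 3 ≤ C * z + C * z + 3 * z := by omega
      _ = (C + C + 3) * z := by ring
  have hHm : Q z (kHm C) (Hm P) :=
    (((Q.lin hal).add hz ha2).add hz (Q.const hz 1)).mul ((hal2.add hz (Q.const hz 3)).pow 2)
  have hX : Q z (C + C) (P.gX * P.mX) := by
    have e1 : C * W h * Lg h = C * z := by rw [hzd]; ring
    have h1 : Q z C P.gX := by have := t.gX; rw [e1] at this; exact this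
    have h2 : Q z C P.mX := by have := t.mX; rw [e1] at this; exact this
    exact h1.mul h2
  have hK : Q z 1 P.K := by
    have h1 : KK h ≤ h := Nat.div_le_self _ _
    have h2 := (lt_two_pow_Lg h).le
    refine (t.K.trans (h1.trans h2)).trans (Nat.pow_le_pow_right (by norm_num) (by omega))
  have hb : Q z _ (Ncs P * (1 + P.N * NWA P ^ 2) * (1 + Hm P)) :=
    (hNcs.mul ((Q.const hz 1).add hz (hN.mul (hNWA.pow 2)))).mul ((Q.const hz 1).add hz hHm)
  have hc : Q z _ (Ncs P * (1 + P.N * NWA P ^ 2) * (1 + Hm P) + nA P + nB P + nD P +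
      P.gX * P.mX + 16) :=
    ((((hb.add hz hA).add hz hB).add hz hD).add hz hX).add hz (Q.const hz 16)
  have hZP : Q z (kZP C) (ZP P) := by
    refine hc.mono le_rfl ?_
    unfold kZP
    omega
  have hZQ : Q z (kZQ C) (ZQ P) := by
    refine ((hK.add hz (Q.const hz 1)).mul hZP).mono le_rfl ?_
    unfold kZQ
    omega
  have := hZQ
  unfold Q at this
  rw [hzd, ← mul_assoc] at this
  exact this

/-- the literal table of ParB_806 -/
theorem zq_table : ∃ c : ℕ, ∀ᶠ h : ℕ in atTop, ∀ P : Alg45.Par, P.n ≤ nn h → P.r ≤ rr →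
    P.a1 ≤ Par806.a1 h → P.a2 ≤ Par806.a2 → P.dl ≤ Par806.dl h → P.du ≤ Par806.du →
    P.c0 ≤ Par806.c0 h → P.gJ ≤ Par806.gJ h → P.mJ ≤ Par806.mJ h → P.gX ≤ Par806.gX h →
    P.mX ≤ Par806.mX h → P.K = KK h → P.E ≤ EE h → P.pb ≤ Par806.pb h → P.al ≤ Par806.al h →
    ZQ P ≤ 2 ^ (c * W h * Lg h) := by
  refine ⟨kZQ 40, ?_⟩
  filter_upwards [zq_ev 40, tb_table] with h h1 h2 P a b d e f g i j k l m n o p q
  refine h1 P (h2 P a b d e f g i j k l m n o) (p.trans ?_) (q.trans ?_)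
  · unfold Par806.pb
    rw [mul_assoc]
    exact Nat.mul_le_mul_right _ (by norm_num)
  · unfold Par806.al
    rw [mul_assoc]
    exact Nat.mul_le_mul_right _ (by norm_num)

end Crest.Agent.R288.Len68
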