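import Crest.Agent.R288.NumA_866
import Crest.Agent.R288.AsmD_331
import Crest.Agent.R288.StmF_616

/-!
# R288 (helper866): `AnaLip364.LipOk` for the concrete configuration `Asm331.cfgO`
-/

set_option autoImplicit false
set_option maxHeartbeats 200000

open Filter

namespace Crest.Agent.R288.NumA866

open Crest.Agent.R288.Asm331 Crest.Agent.R288.Asm12 Crest.Agent.R288.Par806
open Crest.Agent.R288.Par895 Crest.Agent.R288.AnaLip364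
open Crest.Agent.R288.ParO331 (HH DmO K0O pI)

/-- the numbers of `LipOk` -/
structure LipNum (h : ℕ) (z : ℝ) : Prop where
  hL : nn h * II h + 1 ≤ 2 * h
  K : 0 < KK h
  big : 2 * B1 (gI h) h ≤ 2 ^ (al h + pb h)
  z0 : 0 < z
  z1 : z ≤ 1
  al' : (EE h : ℝ) * (2 / 2 ^ al h) ≤ z / 4
  start : 4 / (pI h : ℝ) + (2 + (1 + 4 / (pI h : ℝ)) * (2 + 2 * 2 ^ gI h)) *
      (8 / 2 ^ (al h + pb h) * (2 * B1 (gI h) h)) ≤ z / 4

theorem ev_LipNum {ζ : ℕ → ℝ} {b : ℝ} (hζ0 : ∀ h, 0 < ζ h) (hζ1 : ∀ h, ζ h ≤ 1)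
    (hζ : Ord 0 b fun h => (ζ h)⁻¹) (hb : b < 8) : ∀ᶠ h : ℕ in atTop, LipNum h (ζ h) := by
  filter_upwards [ev_height, ev_KK_pos, ev_big 1, ev_al hζ0 hζ, ev_start hζ0 hζ hb] with
    h h1 h2 h3 h4 h5
  exact ⟨h1, h2, by simpa using h3, hζ0 h, hζ1 h, h4, h5⟩

section
variable {x y : List ℕ} {ε : ℚ} {z : ℝ}

theorem cfg_n (x y : List ℕ) (ε : ℚ) : (cfgO x y ε).P.n = nn (hh x y ε) := rfl
theorem cfg_I (x y : List ℕ) (ε : ℚ) : (cfgO x y ε).I = II (hh x y ε) := rfl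
theorem cfg_K (x y : List ℕ) (ε : ℚ) : (cfgO x y ε).P.K = KK (hh x y ε) := rfl
theorem cfg_E (x y : List ℕ) (ε : ℚ) : (cfgO x y ε).P.E = EE (hh x y ε) := rfl
theorem cfg_a2 (x y : List ℕ) (ε : ℚ) : (cfgO x y ε).P.a2 = a2 := rfl
theorem cfg_al (x y : List ℕ) (ε : ℚ) : (cfgO x y ε).P.al = al (hh x y ε) := rfl
theorem cfg_pb (x y : List ℕ) (ε : ℚ) : (cfgO x y ε).P.pb = pb (hh x y ε) := rfl
theorem cfg_Dm (x y : List ℕ) (ε : ℚ) : (cfgO x y ε).P.Dm = DmO (hh x y ε) := rfl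
theorem cfg_K0 (x y : List ℕ) (ε : ℚ) : (cfgO x y ε).K0 = K0O (hh x y ε) := rfl

theorem GU_cfg (x y : List ℕ) (ε : ℚ) (s : Alg45.St) (w : ℕ) (h : (cfgO x y ε).GU s w) :
    Init772.GdI x y (gI (hh x y ε)) (pI (hh x y ε)) (cfgO x y ε).P.n s w := h

theorem f_hL (h : LipNum (hh x y ε) z) : (cfgO x y ε).P.n * (cfgO x y ε).I + 1 ≤ 2 * hh x y ε := by
  rw [cfg_n, cfg_I]; exact h.hL

theorem f_a2 (x y : List ℕ) (ε : ℚ) : 3 ≤ (cfgO x y ε).P.a2 := by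
  rw [cfg_a2]; unfold a2; norm_num

theorem f_K (h : LipNum (hh x y ε) z) : 0 < (cfgO x y ε).P.K := by
  rw [cfg_K]; exact h.K

theorem f_top (x y : List ℕ) (ε : ℚ) :
    2 * (2 ^ ((cfgO x y ε).P.n * (cfgO x y ε).I + 1) + 6 * (cfgO x y ε).P.Dm) + 8
      < 2 ^ ((cfgO x y ε).K0 + 1 - (cfgO x y ε).P.a2) := by
  rw [cfg_n, cfg_I, cfg_Dm, cfg_K0, cfg_a2]; exact top_parOf' (hh x y ε)

theorem f_big (h : LipNum (hh x y ε) z) :
    2 * B1 (gI (hh x y ε)) (hh x y ε) ≤ 2 ^ ((cfgO x y ε).P.al + (cfgO x y ε).P.pb) := by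
  rw [cfg_al, cfg_pb]; exact h.big

theorem f_al (h : LipNum (hh x y ε) z) :
    ((cfgO x y ε).P.E : ℝ) * (2 / 2 ^ (cfgO x y ε).P.al) ≤ z / 4 := by
  rw [cfg_E, cfg_al]; exact h.al'

theorem f_start (h : LipNum (hh x y ε) z) : 4 / (pI (hh x y ε) : ℝ) +
    (2 + (1 + 4 / (pI (hh x y ε) : ℝ)) * (2 + 2 * 2 ^ gI (hh x y ε))) *
      (8 / 2 ^ ((cfgO x y ε).P.al + (cfgO x y ε).P.pb) *
        (2 * B1 (gI (hh x y ε)) (hh x y ε))) ≤ z / 4 := by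
  rw [cfg_al, cfg_pb]; exact h.start

/-- **`LipOk` at an input** -/
theorem lipOk_of (hN : Num x y ε) (h : LipNum (hh x y ε) z) :
    LipOk (cfgO x y ε) x y (gI (hh x y ε)) (pI (hh x y ε)) (hh x y ε) z :=
  LipOk.mk (C := cfgO x y ε) (GU_cfg x y ε) (x_le_Dm hN) (y_le_Dm hN) (four_le_pI (hh x y ε))
    (gI_pos (hh x y ε)) (f_hL h) (f_a2 x y ε) (f_K h) (f_top x y ε) (f_big h) h.z0.le h.z1
    (f_al h) (f_start h)

end

/-- **`LipOk` for all inputs of large height**, any precision `ζ` -/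
theorem ev_lipOk {ζ : ℕ → ℝ} {b : ℝ} (hζ0 : ∀ h, 0 < ζ h) (hζ1 : ∀ h, ζ h ≤ 1)
    (hζ : Ord 0 b fun h => (ζ h)⁻¹) (hb : b < 8) :
    Ev fun x y ε => LipOk (cfgO x y ε) x y (gI (hh x y ε)) (pI (hh x y ε)) (hh x y ε)
      (ζ (hh x y ε)) :=
  Ev.of (ev_LipNum hζ0 hζ1 hζ hb) fun _ _ _ hN h => lipOk_of hN h

/-- **`LipOk` with `ζ = zet h = 2 ^ (-7 Lg h)`** -/
theorem lipOkO : Ev fun x y ε => LipOk (cfgO x y ε) x y (gI (hh x y ε)) (pI (hh x y ε)) (hh x y ε)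
    (zet (hh x y ε)) :=
  ev_lipOk zet_pos zet_le_one ord_zet_inv (by norm_num)

theorem ev_zet_le : ∀ᶠ h : ℕ in atTop, zet h ≤ 1 / 7 := by
  have h1 : Ord 0 (-7) fun h => zet h * 7 := ord_zet.mul_const 7
  filter_upwards [h1.le_one (Or.inr ⟨rfl, by norm_num⟩)] with h h2
  have := (abs_le.1 h2).2
  linarith

/-- **the literal statement of StmF_616** -/
theorem lipStm : StmF616.LipStm zet :=
  (lipOkO.and (Ev.of ev_zet_le fun _ _ _ _ h => h)).mono fun _ _ _ _ h => ⟨⟨_, h.1⟩, h.2⟩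

end Crest.Agent.R288.NumA866
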