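/-
# Row 288: the LOCAL functions of FROZEN PROGRAM v1 (#4533), Lean form (helper45)

Everything is a total function on `ℕ`, `ℤ` and (nested) lists, polynomial in the size of its input; no
function-valued data.  A WINDOW is seen in index form: pieces `q < N = 2^n`, cuts `0 .. N`, at every cut the
same number `A` of letters; a TABLE of a window is `T : List (List (List ℕ))`, entry `g3 T q a b` = value of
piece `q` with left cut letter `a < A` and right cut letter `b < A`.

* `tab, g1, g2, g3, minR, argR, sumR`            : tabulation, lookup, min / first argmin / sum over `a < n`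
* `gstep, gpos, gsize, gidx`                     : the grid of a class / cell
* `ends`                                         : fix the two outer cuts of a table
* `stp, D, minSt, trace, sumSt`                  : left to right staircase DP, optimal staircase
* `tgt, tgts, unitW, regular`                    : prefix plan (#4304), targets, units, regularity test
* `hedge`                                        : all ranks at ONE decision, linear weights (#4259)
* `menuT, upL, inner`                            : in-window hedge DP of ALL ranks at once (level by level)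
* `mode0, mode1, bodyVal`                        : P8
* `arrVal`                                       : P7 (same-rank jump)
* `med, medMean`                                 : median of means
* `chVal, laVal, efVal`                          : P3, P4, P5
-/
import Mathlib

set_option autoImplicit false

namespace Crest.Agent.R288.Loc45

/-! ## Lists -/

/-- `[f 0, …, f (n-1)]` -/
def tab {α : Type} (n : ℕ) (f : ℕ → α) : List α := (List.range n).map f

def g1 (l : List ℕ) (i : ℕ) : ℕ := l.getD i 0
def g2 (M : List (List ℕ)) (a b : ℕ) : ℕ := (M.getD a []).getD b 0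
def g3 (T : List (List (List ℕ))) (q a b : ℕ) : ℕ := ((T.getD q []).getD a []).getD b 0

/-- minimum of `f a`, `a < n` (for `n = 0`: `f 0`) -/
def minR (n : ℕ) (f : ℕ → ℕ) : ℕ := (List.range n).foldl (fun m a => min m (f a)) (f 0)
/-- first `a < n` where `f` is minimal -/
def argR (n : ℕ) (f : ℕ → ℕ) : ℕ := (List.range n).foldl (fun m a => if f a < f m then a else m) 0
/-- sum of `f a`, `a < n` -/
def sumR (n : ℕ) (f : ℕ → ℕ) : ℕ := ((List.range n).map f).sum

/-! ## Grid of a class `κ` (scale `2^κ`), step `2^(κ-pb)` -/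

/-- grid step of class `κ` (`P = 2^pb` points per `2^κ`) -/
def gstep (pb κ : ℕ) : ℕ := 2 ^ (κ - pb)
/-- number of grid points of `[c - R 2^κ, c + R 2^κ]` -/
def gsize (pb R κ : ℕ) : ℕ := 2 * R * 2 ^ (min κ pb) + 1
/-- `a`-th grid point -/
def gpos (pb R κ : ℕ) (c : ℤ) (a : ℕ) : ℤ := c - R * 2 ^ κ + a * (gstep pb κ : ℤ)
/-- index of the grid point just below `u` -/
def gidx (pb R κ : ℕ) (c u : ℤ) : ℕ := ((u - (c - R * 2 ^ κ)) / (gstep pb κ : ℤ)).toNat
/-- centre of the standard cell of class `κ` which contains `u` -/
def gcell (κ : ℕ) (u : ℤ) : ℤ := u / 2 ^ κ * 2 ^ κ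
/-- distance of two states -/
def dist (u v u' v' : ℤ) : ℕ := (u - u').natAbs + (v - v').natAbs

/-! ## Staircase DP in index form -/

/-- fix the outer cuts `0`, `N` of a table at the indices `a₀`, `b₀` (then the letters at the cuts `0` and `N`
are irrelevant) -/
def ends (N A a₀ b₀ : ℕ) (T : List (List (List ℕ))) : List (List (List ℕ)) :=
  tab N fun q => tab A fun a => tab A fun b =>
    g3 T q (if q = 0 then a₀ else a) (if q + 1 = N then b₀ else b)

/-- one piece: `v` = values at the left cut, result = values at the right cut -/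
def stp (A : ℕ) (M : List (List ℕ)) (v : List ℕ) : List ℕ :=
  tab A fun b => minR A fun a => g1 v a + g2 M a b

/-- prefix values `D_j(b)` of a table with fixed outer cuts: minimum over all staircases up to cut `j` with
letter `b` there -/
def D (A : ℕ) (T : List (List (List ℕ))) (j : ℕ) : List ℕ :=
  (T.take j).foldl (fun v M => stp A M v) (tab A fun _ => 0)

/-- value of the best staircase (`T` with fixed outer cuts, `N` pieces) -/
def minSt (N A : ℕ) (T : List (List (List ℕ))) : ℕ := g1 (D A T N) 0

/-- the best staircase, list of the letters at the cuts `0 .. N` -/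
def trace (N A : ℕ) (T : List (List (List ℕ))) : List ℕ :=
  (List.range N).reverse.foldl
    (fun cs j => argR A (fun a => g1 (D A T j) a + g3 T j a (cs.headD 0)) :: cs) [0]

/-- value of the staircase `cs` in the table `T` -/
def sumSt (N : ℕ) (T : List (List (List ℕ))) (cs : List ℕ) : ℕ :=
  sumR N fun q => g3 T q (g1 cs q) (g1 cs (q + 1))

/-! ## The prefix plan -/

/-- target letter of cut `j`: root of `m = u + θ D_j(m)`, `θ = (v-u)/F`, in index form
(`a₀`, `b₀` indices of `u`, `v`; `TF` = table of the plan function with fixed outer cuts) -/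
def tgt (N A a₀ b₀ F : ℕ) (TF : List (List (List ℕ))) (j : ℕ) : ℕ :=
  if j = 0 then a₀ else if j = N then b₀ else
    argR A fun b => (((b : ℤ) - a₀) * F - ((b₀ : ℤ) - a₀) * (g1 (D A TF j) b : ℤ)).natAbs

def tgts (N A a₀ b₀ F : ℕ) (TF : List (List (List ℕ))) : List ℕ :=
  tab (N + 1) (tgt N A a₀ b₀ F TF)

/-- unit of the inner node `(t,p)` (pieces `p 2^t ≤ q < (p+1) 2^t`): plan values of its target pieces, plus
`F/N`, plus one -/
def unitW (N F : ℕ) (T : List (List (List ℕ))) (ts : List ℕ) (t p : ℕ) : ℕ :=
  sumR (2 ^ t) (fun i => g3 T (p * 2 ^ t + i) (g1 ts (p * 2 ^ t + i)) (g1 ts (p * 2 ^ t + i + 1)))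
    + F / N + 1

/-- the plan is regular -/
def regular (N F Creg : ℕ) (T : List (List (List ℕ))) (ts : List ℕ) : Bool :=
  decide (sumSt N T ts ≤ Creg * F)

/-! ## One decision, all ranks (linear weights) -/

/-- parameters of the multiplicative weights: `Q` = denominator, clip `Q/g`, rate `γ` -/
structure HP where
  Q : ℕ
  g : ℕ
  γ : ℕ

/-- factor of a letter with excess `x` over the minimum, unit `U` -/
def fac (p : HP) (U x : ℕ) : ℕ := p.Q - min (p.Q / p.g) (p.γ * p.Q * x / U)

/-- value of a rank under the weights `w` -/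
def wav (B : ℕ) (w u : List ℕ) : ℕ := sumR B (fun z => g1 w z * g1 u z) / sumR B (g1 w)

/-- new weights after the loss vector `u` -/
def wupd (p : HP) (B U : ℕ) (w u : List ℕ) : List ℕ :=
  tab B fun z => g1 w z * fac p U (g1 u z - minR B (g1 u)) / p.Q

/-- `us` = loss vectors of the ranks `1, 2, ..`; result: the values of these ranks, rank `i` using the weights
made of the loss vectors of the ranks `< i` (initial weights `w₀`) -/
def hedge (p : HP) (B U : ℕ) (w₀ : List ℕ) (us : List (List ℕ)) : List ℕ :=
  (us.foldl (fun s u => (wupd p B U s.1 u, wav B s.1 u :: s.2)) (w₀, ([] : List ℕ))).2.reverse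

/-! ## In-window hedge DP -/

/-- position (index) of letter `z` of the near menu of cut `p` (`2ρ+1` letters around the target) -/
def mpos (N A ρ : ℕ) (ts : List ℕ) (p z : ℕ) : ℕ :=
  if p = 0 ∨ p = N then g1 ts p else min (A - 1) (g1 ts p + z - ρ)

/-- restriction of a table to the near menus -/
def menuT (N A ρ : ℕ) (ts : List ℕ) (T : List (List (List ℕ))) : List (List (List ℕ)) :=
  tab N fun q => tab (2 * ρ + 1) fun a => tab (2 * ρ + 1) fun b =>
    g3 T q (mpos N A ρ ts q a) (mpos N A ρ ts (q + 1) b)

/-- one level up: `Vs` = for every rank the table of the nodes at height `t` (`2 m` nodes, `B × B` each);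
result: the same for the `m` nodes at height `t+1` -/
def upL (p : HP) (B w₀ : ℕ) (U : ℕ → ℕ) (m : ℕ) (Vs : List (List (List (List ℕ)))) :
    List (List (List (List ℕ))) :=
  let H : List (List (List (List ℕ))) := tab m fun j => tab B fun a => tab B fun b =>
    hedge p B (U j) (tab B fun _ => w₀)
      (Vs.map fun V => tab B fun z => g3 V (2 * j) a z + g3 V (2 * j + 1) z b)
  tab Vs.length fun i => tab m fun j => tab B fun a => tab B fun b => g1 ((H.getD j []).getD a [] |>.getD b []) i

/-- root values of all ranks: `n` levels, `N = 2^n`; `Ts` = end tables of the ranks (already restricted to the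
menus) -/
def inner (p : HP) (n B w₀ : ℕ) (U : ℕ → ℕ → ℕ) (Ts : List (List (List (List ℕ)))) : List ℕ :=
  ((List.range n).foldl (fun Vs t => upL p B w₀ (U (t + 1)) (2 ^ (n - t - 1)) Vs) Ts).map
    fun V => g3 V 0 0 0

/-! ## P8 -/

/-- all numerical parameters of the local functions -/
structure LP where
  /-- levels of a window -/
  n : ℕ
  /-- near letters: weights -/
  h0 : HP
  /-- mode choice: weights -/
  h1 : HP
  /-- initial weight -/
  w₀ : ℕ
  /-- prior weight of mode 0 against 1 for mode 1 -/
  pm : ℕ
  /-- near radius: `ρ = F 2^pb / 2^(κ+sb)` -/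
  sb : ℕ
  pb : ℕ
  Creg : ℕ

/-- near radius in grid steps -/
def LP.rad (P : LP) (κ F : ℕ) : ℕ := F / 2 ^ P.sb / gstep P.pb κ

/-- everything `bodyVal` sees (state `y` with indices `a₀`, `b₀` in the grid of the window, `A` grid points) -/
structure BIn where
  κ : ℕ
  A : ℕ
  a₀ : ℕ
  b₀ : ℕ
  /-- `F^ = EF(e,y)` -/
  F : ℕ
  /-- the window is flagged -/
  fl : Bool
  /-- plan function at the ends -/
  Fz : List (List (List ℕ))
  /-- mean tables `c_0, c_1, .., c_{k-1}` and, if flagged, `c_k` -/
  cs : List (List (List (List ℕ)))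
  /-- rank `k` (`≥ 1`) -/
  k : ℕ
  /-- fresh samples of rank `k-1` -/
  x1 : List (List (List ℕ))
  /-- fresh spawned table of rank `k` -/
  X : List (List (List ℕ))

/-- mean table of rank `i` with fixed outer cuts -/
def BIn.c (P : LP) (I : BIn) (i : ℕ) : List (List (List ℕ)) :=
  ends (2 ^ P.n) I.A I.a₀ I.b₀ (I.cs.getD i [])

/-- targets -/
def BIn.ts (P : LP) (I : BIn) : List ℕ :=
  tgts (2 ^ P.n) I.A I.a₀ I.b₀ I.F (ends (2 ^ P.n) I.A I.a₀ I.b₀ I.Fz)

/-- (estimated) value of mode 1 for rank `i ≥ 1`: `min(F, min_staircase Σ c_{i-1})` -/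
def BIn.m1 (P : LP) (I : BIn) (i : ℕ) : ℕ := min I.F (minSt (2 ^ P.n) I.A (I.c P (i - 1)))

/-- paid value of mode 1 of rank `k`: `F`, or the fresh samples on the optimal staircase of `c_{k-1}` -/
def BIn.pay1 (P : LP) (I : BIn) : ℕ :=
  if I.F ≤ minSt (2 ^ P.n) I.A (I.c P (I.k - 1)) then I.F
  else sumSt (2 ^ P.n) (ends (2 ^ P.n) I.A I.a₀ I.b₀ I.x1) (trace (2 ^ P.n) I.A (I.c P (I.k - 1)))

/-- root values `V_1, .., V_{k-1}` (means) and, last, `DP(ρ_k; X)` -/
def BIn.vals (P : LP) (I : BIn) : List ℕ :=
  let N := 2 ^ P.n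
  let ts := I.ts P
  let ρ := P.rad I.κ I.F
  let Fe := ends N I.A I.a₀ I.b₀ I.Fz
  inner P.h0 P.n (2 * ρ + 1) P.w₀ (fun t p => unitW N I.F Fe ts t p)
    ((tab (I.k - 1) fun i => menuT N I.A ρ ts (I.cs.getD (i + 1) [])) ++ [menuT N I.A ρ ts I.X])

/-- P8: the value of a non-retired state -/
def bodyVal (P : LP) (I : BIn) : ℕ :=
  let N := 2 ^ P.n
  let a1 := I.pay1 P
  if I.fl then
    -- flagged window: the better of the optimal staircase of the same-rank means and mode 1
    if minSt N I.A (I.c P I.k) ≤ I.m1 P I.k then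
      sumSt N (ends N I.A I.a₀ I.b₀ I.X) (trace N I.A (I.c P I.k))
    else a1
  else if regular N I.F P.Creg (ends N I.A I.a₀ I.b₀ I.Fz) (I.ts P) then
    -- mixture of the two modes
    let vs := I.vals P
    (hedge P.h1 2 (I.F + 1) [P.pm * P.w₀, P.w₀]
      ((tab (I.k - 1) fun i => [g1 vs i, I.m1 P (i + 1)]) ++ [[g1 vs (I.k - 1), a1]])).getLastD 0
  else a1

/-! ## P7: the same-rank jump -/

/-- a candidate `z` of the menu: position, estimate `A^(z,κ')`, value of the fresh table `B_0[κ',c'](z)` -/
structure Cand where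
  u : ℤ
  v : ℤ
  est : ℕ
  val : ℕ

/-- estimated price of going to `z` -/
def Cand.pr (u v : ℤ) (F : ℕ) (z : Cand) : ℕ :=
  if dist u v z.u z.v ≤ 2 * F then dist u v z.u z.v + z.est else 2 * F + z.est + 1

/-- value of `y = (u,v)`: `sE` / `sV` estimate / fresh value of staying, `F` estimate of the retire price,
`rV` its fresh value, `thr = b 2^κ / 2` -/
def arrVal (u v : ℤ) (sE sV F rV thr : ℕ) (cands : List Cand) : ℕ :=
  let i := argR cands.length fun i => (cands.getD i ⟨u, v, F, F⟩).pr u v F
  let z := cands.getD i ⟨u, v, F, F⟩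
  if z.pr u v F < F then
    if z.pr u v F + thr ≤ sE then dist u v z.u z.v + z.val else sV
  else if F + thr ≤ sE then rV else sV

/-! ## Medians of means -/

/-- insertion into a sorted list -/
def ins (a : ℕ) : List ℕ → List ℕ
  | [] => [a]
  | b :: l => if a ≤ b then a :: b :: l else b :: ins a l
def isort (l : List ℕ) : List ℕ := l.foldr ins []
/-- median (upper) -/
def med (l : List ℕ) : ℕ := (isort l).getD (l.length / 2) 0
def mean (l : List ℕ) : ℕ := l.sum / l.length
/-- median of the means of groups -/
def medMean (gs : List (List ℕ)) : ℕ := med (gs.map mean)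

/-! ## P3, P4, P5 -/

/-- P3: `min` of `own` and `dist + value` over a list of candidates `((u',v'), value)` -/
def chVal (u v : ℤ) (own : ℕ) (cands : List ((ℤ × ℤ) × ℕ)) : ℕ :=
  cands.foldl (fun m z => min m (dist u v z.1.1 z.1.2 + z.2)) own

/-- P4: `min(f, min_staircase)`; `T` = table over the menus (outer cuts already fixed) -/
def laVal (N A f : ℕ) (T : List (List (List ℕ))) : ℕ := min f (minSt N A T)

/-- P5 -/
def efVal (l : List ℕ) : ℕ := mean l

end Crest.Agent.R288.Loc45
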