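import Mathlib

/-!
# R288: averages over horizons of exact lookahead (post 4224, helper134)

Abstract macro tree: `S h` = states with `h` macro levels below them (`S 0` = leaves), `M h x` = the
moves (staircases) at `x : S (h+1)`, `pc h x m` = the list of the pieces (children states).

* `Sub g`: `g` is a hard subsolution, `g x ≤ ∑ g(pieces)` for every move.
* `fi leaf f i`: value of the game with at most `i` moves and then the stop price `f`
  (leaves always pay `leaf`).
* `LA leaf f J`: the average of `fi leaf f i`, `i < J`.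
* `le_LA`, `LA_le`: `g ≤ LA ≤ f`.
* `LA_defect`: **`LA x ≤ ∑ LA(pieces) + (f x - g x)/J` for EVERY move**.
* `LA_lip`: `LA` is 1-Lipschitz if `f` and `leaf` are.
* `next_sub`, ...: the exact hard subsolution `T2 = q^h * LA/(1+e)` of the next round.
-/

set_option autoImplicit false

namespace Crest.Agent.R288.Look134

open Finset

universe u v

variable {S : ℕ → Type u} {M : ∀ h, S (h + 1) → Type v}

/-- sum of `F` over the pieces of a move -/
def psum (pc : ∀ h (x : S (h + 1)), M h x → List (S h)) (F : ∀ h, S h → ℝ) (h : ℕ)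
    (x : S (h + 1)) (m : M h x) : ℝ :=
  ((pc h x m).map (F h)).sum

/-- hard subsolution -/
def Sub (pc : ∀ h (x : S (h + 1)), M h x → List (S h)) (g : ∀ h, S h → ℝ) : Prop :=
  ∀ h (x : S (h + 1)) (m : M h x), g (h + 1) x ≤ psum pc g h x m

/-- at most `i` moves, then the stop price `f`; leaves pay `leaf` -/
noncomputable def fi (pc : ∀ h (x : S (h + 1)), M h x → List (S h)) (leaf : S 0 → ℝ)
    (f : ∀ h, S h → ℝ) : ℕ → ∀ h, S h → ℝ
  | _, 0, x => leaf x
  | 0, h + 1, x => f (h + 1) x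
  | i + 1, h + 1, x => min (f (h + 1) x) (⨅ m : M h x, ((pc h x m).map (fi pc leaf f i h)).sum)

/-- average over the horizons -/
noncomputable def LA (pc : ∀ h (x : S (h + 1)), M h x → List (S h)) (leaf : S 0 → ℝ)
    (f : ∀ h, S h → ℝ) (J : ℕ) (h : ℕ) (x : S h) : ℝ :=
  (∑ i ∈ range J, fi pc leaf f i h x) / J

variable (pc : ∀ h (x : S (h + 1)), M h x → List (S h)) (leaf : S 0 → ℝ)
  (f g : ∀ h, S h → ℝ)

theorem list_sum_le {α : Type*} (l : List α) (F G : α → ℝ) (h : ∀ a ∈ l, F a ≤ G a) :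
    (l.map F).sum ≤ (l.map G).sum := by
  induction l with
  | nil => simp
  | cons a l ih =>
    simp only [List.map_cons, List.sum_cons]
    exact add_le_add (h a (by simp)) (ih fun b hb => h b (by simp [hb]))

theorem list_sum_add {α : Type*} (l : List α) (F G : α → ℝ) :
    (l.map fun a => F a + G a).sum = (l.map F).sum + (l.map G).sum := by
  induction l with
  | nil => simp
  | cons a l ih =>
    simp only [List.map_cons, List.sum_cons, ih]
    ring

theorem list_sum_mul {α : Type*} (l : List α) (c : ℝ) (F : α → ℝ) :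
    (l.map fun a => c * F a).sum = c * (l.map F).sum := by
  induction l with
  | nil => simp
  | cons a l ih =>
    simp only [List.map_cons, List.sum_cons, ih]
    ring

theorem list_sum_finset {α ι : Type*} (l : List α) (t : Finset ι) (F : ι → α → ℝ) :
    (l.map fun a => ∑ i ∈ t, F i a).sum = ∑ i ∈ t, (l.map (F i)).sum := by
  induction l with
  | nil => simp
  | cons a l ih =>
    simp only [List.map_cons, List.sum_cons, ih, sum_add_distrib]

theorem psum_mono {F G : ∀ h, S h → ℝ} (h : ℕ) (hFG : ∀ y, F h y ≤ G h y) (x : S (h + 1))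
    (m : M h x) : psum pc F h x m ≤ psum pc G h x m :=
  list_sum_le _ _ _ fun a _ => hFG a

@[simp] theorem fi_leaf (i : ℕ) (x : S 0) : fi pc leaf f i 0 x = leaf x := by
  cases i <;> rfl

@[simp] theorem fi_zero (h : ℕ) (x : S (h + 1)) : fi pc leaf f 0 (h + 1) x = f (h + 1) x := rfl

theorem fi_succ (i h : ℕ) (x : S (h + 1)) :
    fi pc leaf f (i + 1) (h + 1) x
      = min (f (h + 1) x) (⨅ m : M h x, psum pc (fi pc leaf f i) h x m) := rfl

theorem fi_le (i h : ℕ) (x : S (h + 1)) : fi pc leaf f i (h + 1) x ≤ f (h + 1) x := by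
  cases i with
  | zero => exact le_rfl
  | succ i => rw [fi_succ]; exact min_le_left _ _

variable {pc leaf f g}

/-- `g ≤ fi` -/
theorem le_fi [∀ h x, Nonempty (M h x)] (hS : Sub pc g) (h0 : ∀ x, g 0 x ≤ leaf x)
    (hf : ∀ h x, g (h + 1) x ≤ f (h + 1) x) (i h : ℕ) (x : S h) :
    g h x ≤ fi pc leaf f i h x := by
  induction i generalizing h x with
  | zero =>
    cases h with
    | zero => simpa using h0 x
    | succ h => exact hf h x
  | succ i ih =>
    cases h with
    | zero => simpa using h0 x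
    | succ h =>
      rw [fi_succ]
      refine le_min (hf h x) (le_ciInf fun m => ?_)
      exact (hS h x m).trans (psum_mono pc h (fun y => ih h y) x m)

/-- one more move is allowed -/
theorem fi_step [∀ h x, Nonempty (M h x)] (hS : Sub pc g) (h0 : ∀ x, g 0 x ≤ leaf x)
    (hf : ∀ h x, g (h + 1) x ≤ f (h + 1) x) (i h : ℕ) (x : S (h + 1)) (m : M h x) :
    fi pc leaf f (i + 1) (h + 1) x ≤ psum pc (fi pc leaf f i) h x m := by
  rw [fi_succ]
  refine (min_le_right _ _).trans (ciInf_le ⟨g (h + 1) x, ?_⟩ m)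
  rintro _ ⟨m', rfl⟩
  exact (hS h x m').trans (psum_mono pc h (fun y => le_fi hS h0 hf i h y) x m')

/-- more moves are better -/
theorem fi_anti [∀ h x, Nonempty (M h x)] (hS : Sub pc g) (h0 : ∀ x, g 0 x ≤ leaf x)
    (hf : ∀ h x, g (h + 1) x ≤ f (h + 1) x) (i h : ℕ) (x : S h) :
    fi pc leaf f (i + 1) h x ≤ fi pc leaf f i h x := by
  induction i generalizing h x with
  | zero =>
    cases h with
    | zero => simp
    | succ h => exact fi_le pc leaf f 1 h x
  | succ i ih =>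
    cases h with
    | zero => simp
    | succ h =>
      rw [fi_succ, fi_succ]
      refine min_le_min le_rfl (le_ciInf fun m => ?_)
      refine (ciInf_le ⟨g (h + 1) x, ?_⟩ m).trans (psum_mono pc h (fun y => ih h y) x m)
      rintro _ ⟨m', rfl⟩
      exact (hS h x m').trans (psum_mono pc h (fun y => le_fi hS h0 hf _ h y) x m')

theorem LA_leaf {J : ℕ} (hJ : 0 < J) (x : S 0) : LA pc leaf f J 0 x = leaf x := by
  have hJ' : (J : ℝ) ≠ 0 := by positivity
  simp [LA]
  field_simp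

theorem LA_le {J : ℕ} (hJ : 0 < J) (h : ℕ) (x : S (h + 1)) :
    LA pc leaf f J (h + 1) x ≤ f (h + 1) x := by
  have hJ' : (0 : ℝ) < J := by exact_mod_cast hJ
  rw [LA, div_le_iff₀ hJ']
  calc ∑ i ∈ range J, fi pc leaf f i (h + 1) x ≤ ∑ _i ∈ range J, f (h + 1) x :=
        sum_le_sum fun i _ => fi_le pc leaf f i h x
    _ = f (h + 1) x * J := by simp; ring

theorem le_LA [∀ h x, Nonempty (M h x)] (hS : Sub pc g) (h0 : ∀ x, g 0 x ≤ leaf x)
    (hf : ∀ h x, g (h + 1) x ≤ f (h + 1) x) {J : ℕ} (hJ : 0 < J) (h : ℕ) (x : S h) :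
    g h x ≤ LA pc leaf f J h x := by
  have hJ' : (0 : ℝ) < J := by exact_mod_cast hJ
  rw [LA, le_div_iff₀ hJ']
  calc g h x * J = ∑ _i ∈ range J, g h x := by simp; ring
    _ ≤ _ := sum_le_sum fun i _ => le_fi hS h0 hf i h x

theorem psum_LA (J h : ℕ) (x : S (h + 1)) (m : M h x) :
    psum pc (LA pc leaf f J) h x m
      = (∑ i ∈ range J, psum pc (fi pc leaf f i) h x m) / J := by
  unfold psum LA
  have : ∀ y : S h, (∑ i ∈ range J, fi pc leaf f i h y) / (J : ℝ)
      = ((J : ℝ)⁻¹) * ∑ i ∈ range J, fi pc leaf f i h y := fun y => by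
    rw [div_eq_inv_mul]
  rw [show (fun y : S h => (∑ i ∈ range J, fi pc leaf f i h y) / (J : ℝ))
      = fun y => ((J : ℝ)⁻¹) * ∑ i ∈ range J, fi pc leaf f i h y from funext this,
    list_sum_mul, list_sum_finset, div_eq_inv_mul]

/-- **the defect telescopes** -/
theorem LA_defect [∀ h x, Nonempty (M h x)] (hS : Sub pc g) (h0 : ∀ x, g 0 x ≤ leaf x)
    (hf : ∀ h x, g (h + 1) x ≤ f (h + 1) x) {J : ℕ} (hJ : 0 < J) (h : ℕ) (x : S (h + 1))
    (m : M h x) :
    LA pc leaf f J (h + 1) x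
      ≤ psum pc (LA pc leaf f J) h x m + (f (h + 1) x - g (h + 1) x) / J := by
  have hJ' : (0 : ℝ) < J := by exact_mod_cast hJ
  rw [psum_LA, ← add_div, LA]
  refine div_le_div_of_nonneg_right ?_ hJ'.le
  obtain ⟨J, rfl⟩ : ∃ k, J = k + 1 := ⟨J - 1, by omega⟩
  rw [sum_range_succ' (fun i => fi pc leaf f i (h + 1) x),
    sum_range_succ (fun i => psum pc (fi pc leaf f i) h x m)]
  have h1 : ∑ i ∈ range J, fi pc leaf f (i + 1) (h + 1) x
      ≤ ∑ i ∈ range J, psum pc (fi pc leaf f i) h x m :=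
    sum_le_sum fun i _ => fi_step hS h0 hf i h x m
  have h2 : g (h + 1) x ≤ psum pc (fi pc leaf f J) h x m :=
    (hS h x m).trans (psum_mono pc h (fun y => le_fi hS h0 hf J h y) x m)
  rw [fi_zero]
  linarith

/-! ### Lipschitz -/

/-- moves can be transported: for every move `m'` of `x'` there is a move `m` of `x` whose pieces are
matched with those of `m'` at total distance at most `d x x'` -/
def Cov (pc : ∀ h (x : S (h + 1)), M h x → List (S h)) (d : ∀ h, S h → S h → ℝ) : Prop :=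
  ∀ h (x x' : S (h + 1)) (m' : M h x'), ∃ m : M h x, ∃ l : List (S h × S h),
    l.map Prod.fst = pc h x m ∧ l.map Prod.snd = pc h x' m' ∧
      (l.map fun p => d h p.1 p.2).sum ≤ d (h + 1) x x'

/-- 1-Lipschitz for the "distance" `d` (no property of `d` is needed) -/
def Lip (d : ∀ h, S h → S h → ℝ) (f : ∀ h, S h → ℝ) : Prop :=
  ∀ h (x x' : S h), f h x ≤ f h x' + d h x x'

theorem fi_lip [∀ h x, Nonempty (M h x)] (hS : Sub pc g) (h0 : ∀ x, g 0 x ≤ leaf x)
    (hf : ∀ h x, g (h + 1) x ≤ f (h + 1) x) {d : ∀ h, S h → S h → ℝ} (hc : Cov pc d)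
    (hleaf : ∀ x x', leaf x ≤ leaf x' + d 0 x x')
    (hlip : ∀ h (x x' : S (h + 1)), f (h + 1) x ≤ f (h + 1) x' + d (h + 1) x x') (i : ℕ) :
    Lip d (fi pc leaf f i) := by
  induction i with
  | zero =>
    intro h x x'
    cases h with
    | zero => simpa using hleaf x x'
    | succ h => exact hlip h x x'
  | succ i ih =>
    intro h x x'
    cases h with
    | zero => simpa using hleaf x x'
    | succ h =>
      rw [fi_succ pc leaf f i h x', ← min_add_add_right]
      refine le_min ((fi_le pc leaf f _ h x).trans (hlip h x x')) ?_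
      rw [← sub_le_iff_le_add]
      refine le_ciInf fun m' => ?_
      obtain ⟨m, l, h1, h2, h3⟩ := hc h x x' m'
      have h4 := fi_step hS h0 hf i h x m
      have h5 : psum pc (fi pc leaf f i) h x m
          ≤ psum pc (fi pc leaf f i) h x' m' + d (h + 1) x x' := by
        unfold psum
        rw [← h1, ← h2, List.map_map, List.map_map]
        refine le_trans ?_ (add_le_add_right h3 _)
        rw [← list_sum_add]
        exact list_sum_le _ _ _ fun p _ => ih h p.1 p.2
      linarith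

theorem LA_lip [∀ h x, Nonempty (M h x)] (hS : Sub pc g) (h0 : ∀ x, g 0 x ≤ leaf x)
    (hf : ∀ h x, g (h + 1) x ≤ f (h + 1) x) {d : ∀ h, S h → S h → ℝ} (hc : Cov pc d)
    (hleaf : ∀ x x', leaf x ≤ leaf x' + d 0 x x')
    (hlip : ∀ h (x x' : S (h + 1)), f (h + 1) x ≤ f (h + 1) x' + d (h + 1) x x')
    {J : ℕ} (hJ : 0 < J) : Lip d (LA pc leaf f J) := by
  intro h x x'
  have hJ' : (0 : ℝ) < J := by exact_mod_cast hJ
  rw [LA, LA, ← sub_le_iff_le_add', ← sub_div, div_le_iff₀ hJ', ← sum_sub_distrib]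
  calc ∑ i ∈ range J, (fi pc leaf f i h x - fi pc leaf f i h x')
      ≤ ∑ _i ∈ range J, d h x x' := sum_le_sum fun i _ => by
        have := fi_lip hS h0 hf hc hleaf hlip i h x x'
        linarith
    _ = d h x x' * J := by simp; ring

/-! ### The next promise -/

/-- `T2 = q^h * LA/(1+e)` -/
noncomputable def T2 (pc : ∀ h (x : S (h + 1)), M h x → List (S h)) (leaf : S 0 → ℝ)
    (f : ∀ h, S h → ℝ) (J : ℕ) (e q : ℝ) (h : ℕ) (x : S h) : ℝ :=
  q ^ h * (LA pc leaf f J h x / (1 + e))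

/-- **exact hard subsolution**: if `g ≤ f ≤ (1+e) g`, `g` a nonnegative hard subsolution and
`q ≤ 1 - e/J` -/
theorem T2_sub [∀ h x, Nonempty (M h x)] (hS : Sub pc g) (h0 : ∀ x, g 0 x ≤ leaf x)
    (hf : ∀ h x, g (h + 1) x ≤ f (h + 1) x) (hg : ∀ h x, 0 ≤ g h x) {e : ℝ} (he : 0 ≤ e)
    (hfe : ∀ h x, f (h + 1) x ≤ (1 + e) * g (h + 1) x) {J : ℕ} (hJ : 0 < J) {q : ℝ}
    (hq0 : 0 ≤ q) (hq : q ≤ 1 - e / J) : Sub pc (T2 pc leaf f J e q) := by
  intro h x m
  have hJ' : (0 : ℝ) < J := by exact_mod_cast hJ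
  have he' : (0 : ℝ) < 1 + e := by linarith
  have h1 := LA_defect (g := g) hS h0 hf hJ h x m
  have h2 := le_LA (g := g) hS h0 hf hJ (h + 1) x
  have h3 : (f (h + 1) x - g (h + 1) x) / J ≤ e / J * LA pc leaf f J (h + 1) x := by
    rw [div_mul_eq_mul_div]
    refine div_le_div_of_nonneg_right ?_ hJ'.le
    have := hfe h x
    nlinarith [mul_le_mul_of_nonneg_left h2 he]
  have h4 : 0 ≤ LA pc leaf f J (h + 1) x := (hg _ _).trans h2
  have h5 : q * LA pc leaf f J (h + 1) x ≤ psum pc (LA pc leaf f J) h x m := by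
    have := mul_le_mul_of_nonneg_right hq h4
    nlinarith
  have h6 : psum pc (T2 pc leaf f J e q) h x m
      = q ^ h / (1 + e) * psum pc (LA pc leaf f J) h x m := by
    unfold psum T2
    rw [← list_sum_mul]
    congr 1
    refine List.map_congr_left fun y _ => ?_
    ring
  rw [h6, T2, pow_succ]
  have h7 : 0 ≤ q ^ h / (1 + e) := div_nonneg (pow_nonneg hq0 _) he'.le
  calc q ^ h * q * (LA pc leaf f J (h + 1) x / (1 + e))
      = q ^ h / (1 + e) * (q * LA pc leaf f J (h + 1) x) := by ring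
    _ ≤ _ := mul_le_mul_of_nonneg_left h5 h7

/-- `T2 ≤ g` at inner states -/
theorem T2_le (hg : ∀ h x, 0 ≤ g h x) {e : ℝ} (he : 0 ≤ e)
    (hfe : ∀ h x, f (h + 1) x ≤ (1 + e) * g (h + 1) x) {J : ℕ} (hJ : 0 < J) {q : ℝ}
    (hq0 : 0 ≤ q) (hq1 : q ≤ 1) (h : ℕ) (x : S (h + 1)) :
    T2 pc leaf f J e q (h + 1) x ≤ g (h + 1) x := by
  have he' : (0 : ℝ) < 1 + e := by linarith
  have h1 : LA pc leaf f J (h + 1) x / (1 + e) ≤ g (h + 1) x := by
    rw [div_le_iff₀ he']
    have := LA_le (pc := pc) (leaf := leaf) (f := f) hJ h x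
    have := hfe h x
    linarith
  have h2 : q ^ (h + 1) ≤ 1 := pow_le_one₀ hq0 hq1
  calc q ^ (h + 1) * (LA pc leaf f J (h + 1) x / (1 + e)) ≤ q ^ (h + 1) * g (h + 1) x :=
        mul_le_mul_of_nonneg_left h1 (pow_nonneg hq0 _)
    _ ≤ 1 * g (h + 1) x := mul_le_mul_of_nonneg_right h2 (hg _ _)
    _ = _ := one_mul _

/-- `q^h g/(1+e) ≤ T2` -/
theorem le_T2 [∀ h x, Nonempty (M h x)] (hS : Sub pc g) (h0 : ∀ x, g 0 x ≤ leaf x)
    (hf : ∀ h x, g (h + 1) x ≤ f (h + 1) x) {e : ℝ} (he : 0 ≤ e) {J : ℕ} (hJ : 0 < J) {q : ℝ}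
    (hq0 : 0 ≤ q) (h : ℕ) (x : S h) :
    q ^ h * (g h x / (1 + e)) ≤ T2 pc leaf f J e q h x := by
  have he' : (0 : ℝ) < 1 + e := by linarith
  refine mul_le_mul_of_nonneg_left ?_ (pow_nonneg hq0 _)
  exact div_le_div_of_nonneg_right (le_LA hS h0 hf hJ h x) he'.le

/-- `T2` is 1-Lipschitz -/
theorem T2_lip [∀ h x, Nonempty (M h x)] (hS : Sub pc g) (h0 : ∀ x, g 0 x ≤ leaf x)
    (hf : ∀ h x, g (h + 1) x ≤ f (h + 1) x) {d : ∀ h, S h → S h → ℝ} (hc : Cov pc d)
    (hd : ∀ h x x', 0 ≤ d h x x')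
    (hleaf : ∀ x x', leaf x ≤ leaf x' + d 0 x x')
    (hlip : ∀ h (x x' : S (h + 1)), f (h + 1) x ≤ f (h + 1) x' + d (h + 1) x x')
    {J : ℕ} (hJ : 0 < J) {e q : ℝ} (he : 0 ≤ e) (hq0 : 0 ≤ q) (hq1 : q ≤ 1) :
    Lip d (T2 pc leaf f J e q) := by
  intro h x x'
  have he' : (0 : ℝ) < 1 + e := by linarith
  have h1 := LA_lip hS h0 hf hc hleaf hlip hJ h x x'
  have h2 : q ^ h ≤ 1 := pow_le_one₀ hq0 hq1
  have h3 : 0 ≤ q ^ h := pow_nonneg hq0 _
  unfold T2
  have h4 : LA pc leaf f J h x / (1 + e) ≤ LA pc leaf f J h x' / (1 + e) + d h x x' := by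
    rw [div_le_iff₀ he', add_mul, div_mul_cancel₀ _ he'.ne']
    nlinarith [mul_nonneg he (hd h x x')]
  calc q ^ h * (LA pc leaf f J h x / (1 + e))
      ≤ q ^ h * (LA pc leaf f J h x' / (1 + e) + d h x x') := mul_le_mul_of_nonneg_left h4 h3
    _ = q ^ h * (LA pc leaf f J h x' / (1 + e)) + q ^ h * d h x x' := by ring
    _ ≤ q ^ h * (LA pc leaf f J h x' / (1 + e)) + 1 * d h x x' := by
        have := mul_le_mul_of_nonneg_right h2 (hd h x x')
        linarith
    _ = _ := by ring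

/-- the maximum of two hard subsolutions is one -/
theorem Sub.max {g g' : ∀ h, S h → ℝ} (h1 : Sub pc g) (h2 : Sub pc g') :
    Sub pc fun h x => max (g h x) (g' h x) := by
  intro h x m
  refine max_le ?_ ?_
  · exact (h1 h x m).trans (list_sum_le _ _ _ fun a _ => le_max_left _ _)
  · exact (h2 h x m).trans (list_sum_le _ _ _ fun a _ => le_max_right _ _)

/-- raising the leaves keeps a hard subsolution -/
theorem Sub.raise_leaf {g : ∀ h, S h → ℝ} (h1 : Sub pc g) (h0 : ∀ x, g 0 x ≤ leaf x) :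
    Sub pc fun h x => match h, x with
      | 0, x => leaf x
      | h + 1, x => g (h + 1) x := by
  intro h x m
  refine (h1 h x m).trans (list_sum_le _ _ _ fun a _ => ?_)
  cases h with
  | zero => exact h0 a
  | succ h => exact le_rfl

end Crest.Agent.R288.Look134
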