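import Crest.Agent.R288.Ed1_864

/-!
# R288 (S0433), leaf [V], pure part: the furthest reaching table (Ukkonen, Landau-Vishkin)

`x`, `y` lists, `n = |x|`, `m = |y|`, `T = Ed.tab x y`.  The diagonal number `κ` (with the shift
`Δ`) holds the cells `(i, i + κ - Δ)`.

* `lce x y i j` : length of the longest common prefix of `x.drop i` and `y.drop j`;
* `Rch x y Δ e κ i` : the cell `i` of the diagonal `κ` has distance `≤ e`;
* `F x y Δ e κ` : `0` if no cell of the diagonal has distance `≤ e`, otherwise `1 +` the last row;
* `F_zero`, `F_succ` : the recursion (`step`);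
* `F_far` : far diagonals are `0`;
* `ed_le_iff_F` : `editDist x y ≤ e ↔ F x y Δ e (m + Δ - n) = n + 1`.
-/

set_option autoImplicit false

namespace Crest.Agent.R288.Lv

open Crest.GraphRAM Crest.Agent.R288.Ed

variable {α : Type*} [DecidableEq α]

/-! ### longest common prefixes -/

/-- length of the longest common prefix -/
def lcp : List α → List α → ℕ
  | a :: x, b :: y => if a = b then lcp x y + 1 else 0
  | _, _ => 0

/-- length of the longest common extension at the positions `i` and `j` -/
def lce (x y : List α) (i j : ℕ) : ℕ := lcp (x.drop i) (y.drop j)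

@[simp] theorem lcp_nil_left (y : List α) : lcp [] y = 0 := by cases y <;> rfl
@[simp] theorem lcp_nil_right (x : List α) : lcp x [] = 0 := by cases x <;> rfl
theorem lcp_cons (a b : α) (x y : List α) :
    lcp (a :: x) (b :: y) = if a = b then lcp x y + 1 else 0 := rfl

theorem lce_eq_zero_left {x y : List α} {i j : ℕ} (h : x.length ≤ i) : lce x y i j = 0 := by
  simp [lce, List.drop_eq_nil_of_le h]

theorem lce_eq_zero_right {x y : List α} {i j : ℕ} (h : y.length ≤ j) : lce x y i j = 0 := by
  simp [lce, List.drop_eq_nil_of_le h]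

theorem lce_rec {x y : List α} {i j : ℕ} (hi : i < x.length) (hj : j < y.length) :
    lce x y i j = if x[i] = y[j] then lce x y (i + 1) (j + 1) + 1 else 0 := by
  unfold lce
  rw [List.drop_eq_getElem_cons hi, List.drop_eq_getElem_cons hj, lcp_cons]

theorem lce_le {x y : List α} (i j : ℕ) : lce x y i j ≤ x.length - i ∧ lce x y i j ≤ y.length - j := by
  have h : ∀ u v : List α, lcp u v ≤ u.length ∧ lcp u v ≤ v.length := by
    intro u
    induction u with
    | nil => intro v; simp
    | cons a u ih =>
      intro v
      cases v with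
      | nil => simp
      | cons b v =>
        rw [lcp_cons]
        have := ih v
        split <;> simp only [List.length_cons] <;> omega
  have := h (x.drop i) (y.drop j)
  simpa [lce] using this

/-- inside the common extension the symbols agree -/
theorem lce_get {x y : List α} : ∀ (t i j : ℕ), t < lce x y i j →
    ∃ (hi : i + t < x.length) (hj : j + t < y.length), x[i + t] = y[j + t] := by
  intro t
  induction t with
  | zero =>
    intro i j h
    have h1 := lce_le (x := x) (y := y) i j
    have hi : i < x.length := by omega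
    have hj : j < y.length := by omega
    rw [lce_rec hi hj] at h
    split at h
    · rename_i hx
      exact ⟨hi, hj, hx⟩
    · omega
  | succ t ih =>
    intro i j h
    have h1 := lce_le (x := x) (y := y) i j
    have hi : i < x.length := by omega
    have hj : j < y.length := by omega
    rw [lce_rec hi hj] at h
    split at h
    · obtain ⟨h2, h3, h4⟩ := ih (i + 1) (j + 1) (by omega)
      have e1 : i + 1 + t = i + (t + 1) := by omega
      have e2 : j + 1 + t = j + (t + 1) := by omega
      refine ⟨by omega, by omega, ?_⟩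
      simpa only [e1, e2] using h4
    · omega

/-- if all the symbols agree on a segment then the segment is inside the common extension -/
theorem le_lce {x y : List α} : ∀ (l i j : ℕ), i + l ≤ x.length → j + l ≤ y.length →
    (∀ t, t < l → x[i + t]? = y[j + t]?) → l ≤ lce x y i j := by
  intro l
  induction l with
  | zero => intro i j _ _ _; omega
  | succ l ih =>
    intro i j hi hj h
    have hi' : i < x.length := by omega
    have hj' : j < y.length := by omega
    rw [lce_rec hi' hj']
    have h0 := h 0 (by omega)
    simp only [add_zero, List.getElem?_eq_getElem hi', List.getElem?_eq_getElem hj',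
      Option.some.injEq] at h0
    rw [if_pos h0]
    have := ih (i + 1) (j + 1) (by omega) (by omega) ?_
    · omega
    · intro t ht
      have := h (t + 1) (by omega)
      have e1 : i + 1 + t = i + (t + 1) := by omega
      have e2 : j + 1 + t = j + (t + 1) := by omega
      rw [e1, e2]
      exact this

/-- characterisation with a cap: the largest `l ≤ c` with equal segments -/
theorem min_lce_eq {x y : List α} {i j c l : ℕ} (hc1 : i + c ≤ x.length) (hc2 : j + c ≤ y.length)
    (hl : l ≤ c) (h : ∀ t, t < l → x[i + t]? = y[j + t]?)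
    (h' : l < c → x[i + l]? ≠ y[j + l]?) : min c (lce x y i j) = l := by
  have h1 := le_lce l i j (by omega) (by omega) h
  rcases Nat.lt_or_ge l c with h2 | h2
  · have h3 : ¬ l < lce x y i j := by
      intro h4
      obtain ⟨g1, g2, g3⟩ := lce_get l i j h4
      refine h' h2 ?_
      rw [List.getElem?_eq_getElem g1, List.getElem?_eq_getElem g2, g3]
    omega
  · omega

/-- the order characterisation (same right-hand side as `LceA508.le_lce_cat`) -/
theorem le_lce_iff {x y : List α} {i j l : ℕ} (hi : i ≤ x.length) (hj : j ≤ y.length) :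
    l ≤ lce x y i j ↔ i + l ≤ x.length ∧ j + l ≤ y.length ∧ ∀ t, t < l → x[i + t]? = y[j + t]? := by
  constructor
  · intro h
    have h1 := lce_le (x := x) (y := y) i j
    refine ⟨by omega, by omega, fun t ht => ?_⟩
    obtain ⟨g1, g2, g3⟩ := lce_get (x := x) (y := y) t i j (by omega)
    rw [List.getElem?_eq_getElem g1, List.getElem?_eq_getElem g2, g3]
  · rintro ⟨h1, h2, h3⟩
    exact le_lce l i j h1 h2 h3

/-! ### facts on the table -/

section

variable (x y : List α)

theorem tab_le_left (i j : ℕ) : tab x y i j ≤ tab x y (i + 1) j + 1 := by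
  have h1 := ed_triangle (x.take i) (x.take (i + 1)) (y.take j)
  have h2 := ed_take_take_le x i (i + 1)
  unfold tab
  omega

theorem tab_succ_le_left (i j : ℕ) : tab x y (i + 1) j ≤ tab x y i j + 1 := by
  have h1 := ed_triangle (x.take (i + 1)) (x.take i) (y.take j)
  have h2 := ed_take_take_le x (i + 1) i
  unfold tab
  omega

theorem tab_le_right (i j : ℕ) : tab x y i j ≤ tab x y i (j + 1) + 1 := by
  have h1 := ed_triangle (x.take i) (y.take (j + 1)) (y.take j)
  have h2 := ed_take_take_le y (j + 1) j
  unfold tab
  omega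

theorem tab_succ_le_right (i j : ℕ) : tab x y i (j + 1) ≤ tab x y i j + 1 := by
  have h1 := ed_triangle (x.take i) (y.take j) (y.take (j + 1))
  have h2 := ed_take_take_le y j (j + 1)
  unfold tab
  omega

variable {x y}

theorem tab_diag_le {i j : ℕ} (hi : i < x.length) (hj : j < y.length) :
    tab x y i j ≤ tab x y (i + 1) (j + 1) := by
  rw [tab_succ_succ x y hi hj]
  have h1 := tab_le_left x y i j
  have h2 := tab_le_right x y i j
  refine le_min ?_ (le_min h1 h2)
  omega

theorem tab_diag_succ_le {i j : ℕ} (hi : i < x.length) (hj : j < y.length) :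
    tab x y (i + 1) (j + 1) ≤ tab x y i j + 1 := by
  rw [tab_succ_succ x y hi hj]
  refine (min_le_left _ _).trans ?_
  split <;> omega

theorem tab_diag_eq {i j : ℕ} (hi : i < x.length) (hj : j < y.length) (h : x[i] = y[j]) :
    tab x y (i + 1) (j + 1) = tab x y i j := by
  refine le_antisymm ?_ (tab_diag_le hi hj)
  rw [tab_succ_succ x y hi hj, if_pos h]
  exact (min_le_left _ _)

end

/-! ### reachable cells -/

section

variable (x y : List α) (Δ : ℕ)

/-- the cell `i` of the diagonal `κ` is a cell of the table and has distance `≤ e` -/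
def Rch (e κ i : ℕ) : Prop :=
  i ≤ x.length ∧ Δ ≤ i + κ ∧ i + κ ≤ y.length + Δ ∧ tab x y i (i + κ - Δ) ≤ e

instance (e κ i : ℕ) : Decidable (Rch x y Δ e κ i) := by unfold Rch; infer_instance

/-- `0`, or `1 +` the last row with distance `≤ e` on the diagonal `κ` -/
def F (e κ : ℕ) : ℕ := ((Finset.range (x.length + 1)).filter (Rch x y Δ e κ)).sup (· + 1)

variable {x y Δ}

theorem Rch.lt_F {e κ i : ℕ} (h : Rch x y Δ e κ i) : i < F x y Δ e κ := by
  have : i + 1 ≤ F x y Δ e κ := by
    unfold F
    refine Finset.le_sup (f := (· + 1)) ?_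
    simp only [Finset.mem_filter, Finset.mem_range]
    exact ⟨by have := h.1; omega, h⟩
  omega

theorem rch_F {e κ : ℕ} (h : 0 < F x y Δ e κ) : Rch x y Δ e κ (F x y Δ e κ - 1) := by
  have hne : ((Finset.range (x.length + 1)).filter (Rch x y Δ e κ)).Nonempty := by
    by_contra hn
    rw [Finset.not_nonempty_iff_eq_empty] at hn
    unfold F at h
    rw [hn] at h
    simp at h
  obtain ⟨i, hi, he⟩ := Finset.exists_mem_eq_sup _ hne (fun i : ℕ => i + 1)
  simp only [Finset.mem_filter] at hi
  have : F x y Δ e κ = i + 1 := he
  rw [this]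
  exact hi.2

theorem Rch.mono {e e' κ i : ℕ} (h : Rch x y Δ e κ i) (he : e ≤ e') : Rch x y Δ e' κ i :=
  ⟨h.1, h.2.1, h.2.2.1, h.2.2.2.trans he⟩

/-- the reachable cells of a diagonal are closed downwards -/
theorem Rch.pred {e κ i : ℕ} (h : Rch x y Δ e κ (i + 1)) (hi : Δ ≤ i + κ) : Rch x y Δ e κ i := by
  obtain ⟨h1, h2, h3, h4⟩ := h
  refine ⟨by omega, hi, by omega, ?_⟩
  have e1 : i + 1 + κ - Δ = i + κ - Δ + 1 := by omega
  rw [e1] at h4
  exact (tab_diag_le (by omega) (by omega)).trans h4

theorem F_le (e κ : ℕ) : F x y Δ e κ ≤ x.length + 1 := by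
  rcases Nat.eq_zero_or_pos (F x y Δ e κ) with h | h
  · omega
  · have := (rch_F h).1
    omega

/-- `F` is determined by the last reachable cell -/
theorem F_eq {e κ f : ℕ} (h : Rch x y Δ e κ f) (h' : ∀ i, Rch x y Δ e κ i → i ≤ f) :
    F x y Δ e κ = f + 1 := by
  have h1 := h.lt_F
  have h2 := h' _ (rch_F (by omega : 0 < F x y Δ e κ))
  omega

theorem F_eq_zero {e κ : ℕ} (h : ∀ i, ¬ Rch x y Δ e κ i) : F x y Δ e κ = 0 := by
  by_contra h'
  exact h _ (rch_F (Nat.pos_of_ne_zero h'))

/-- far diagonals -/
theorem F_far {e κ : ℕ} (h : e + κ < Δ ∨ e + Δ < κ) : F x y Δ e κ = 0 := by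
  refine F_eq_zero ?_
  rintro i ⟨h1, h2, h3, h4⟩
  have h5 := length_le_ed (x.take i) (y.take (i + κ - Δ))
  have h6 := length_le_ed' (x.take i) (y.take (i + κ - Δ))
  simp only [List.length_take] at h5 h6
  unfold tab at h4
  omega

/-- matching symbols do not cost anything -/
theorem Rch.slide {e κ : ℕ} : ∀ (l g : ℕ), Rch x y Δ e κ g → l ≤ lce x y g (g + κ - Δ) →
    Rch x y Δ e κ (g + l) := by
  intro l
  induction l with
  | zero => intro g h _; exact h
  | succ l ih =>
    intro g h hl
    have h0 := h.2.1
    obtain ⟨h1, h2, h3, h4⟩ := ih g h (by omega)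
    obtain ⟨g1, g2, g3⟩ := lce_get (x := x) (y := y) l g (g + κ - Δ) (by omega)
    refine ⟨by omega, by omega, by omega, ?_⟩
    have e1 : g + l + κ - Δ = g + κ - Δ + l := by omega
    have e2 : g + (l + 1) + κ - Δ = g + κ - Δ + l + 1 := by omega
    rw [e1] at h4
    rw [e2, show g + (l + 1) = g + l + 1 by omega, tab_diag_eq g1 g2 g3]
    exact h4

/-- if the cell `g` is reachable and every reachable cell after `g` is reached by matches -/
theorem F_slide {e κ g : ℕ} (hg : Rch x y Δ e κ g)
    (h : ∀ i, Rch x y Δ e κ i → g < i → ∀ t, g ≤ t → t < i → x[t]? = y[t + κ - Δ]?) :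
    F x y Δ e κ = g + lce x y g (g + κ - Δ) + 1 := by
  refine F_eq (Rch.slide _ _ hg le_rfl) ?_
  intro i hi
  rcases Nat.lt_or_ge g i with h1 | h1
  · have h2 := le_lce (x := x) (y := y) (i - g) g (g + κ - Δ) ?_ ?_ ?_
    · omega
    · have := hi.1; omega
    · have h3 := hi.2.1
      have h4 := hi.2.2.1
      have h5 := hg.2.1
      omega
    · intro t ht
      have h3 := h i hi h1 (g + t) (by omega) (by omega)
      have h5 := hg.2.1
      rw [h3]
      congr 1
      omega
  · omega

/-- level `0` -/
theorem F_zero : F x y Δ 0 Δ = lce x y 0 0 + 1 := by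
  have h0 : Rch x y Δ 0 Δ 0 := ⟨by omega, by omega, by omega, by simp⟩
  have h1 := F_slide (x := x) (y := y) (g := 0) h0 ?_
  · rw [h1]
    simp
  · intro i hi _
    induction i with
    | zero => intro t _ ht; omega
    | succ i ih =>
      intro t _ ht
      have hi' : Rch x y Δ 0 Δ i := hi.pred (by omega)
      rcases Nat.lt_or_ge t i with h2 | h2
      · exact ih hi' (by omega) t (by omega) h2
      · have ht' : t = i := by omega
        subst ht'
        obtain ⟨g1, g2, g3, g4⟩ := hi
        have e1 : t + 1 + Δ - Δ = t + 1 := by omega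
        have e2 : t + Δ - Δ = t := by omega
        rw [e1] at g4
        rw [e2]
        have g5 : editDist (x.take (t + 1)) (y.take (t + 1)) = 0 := by
          unfold tab at g4; omega
        rw [ed_eq_zero_iff] at g5
        have g6 : (x.take (t + 1))[t]? = (y.take (t + 1))[t]? := by rw [g5]
        simpa [List.getElem?_take] using g6

theorem F_zero_ne {κ : ℕ} (h : κ ≠ Δ) : F x y Δ 0 κ = 0 := F_far (by omega)

/-- the start row of the level `e + 1`: the best of substitution, deletion, insertion -/
def cand (n m Δ κ a b c : ℕ) : ℕ := min (min n (m + Δ - κ)) (max (max a b) (c - 1))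

/-- one step of the recursion; `a`, `b`, `c` are the values of the diagonals `κ`, `κ + 1`, `κ - 1` -/
def step (x y : List α) (Δ κ a b c : ℕ) : ℕ :=
  if Δ ≤ x.length + κ ∧ κ ≤ y.length + Δ ∧ 0 < a + b + c then
    cand x.length y.length Δ κ a b c +
      lce x y (cand x.length y.length Δ κ a b c) (cand x.length y.length Δ κ a b c + κ - Δ) + 1
  else 0

/-- cells of the level `e + 1` -/
theorem rch_succ_aux {e κ : ℕ} : ∀ i, Rch x y Δ (e + 1) (κ + 1) i →
    0 < F x y Δ e (κ + 1) + F x y Δ e (κ + 2) + F x y Δ e κ ∧
    ∀ t, cand x.length y.length Δ (κ + 1) (F x y Δ e (κ + 1)) (F x y Δ e (κ + 2)) (F x y Δ e κ) ≤ t →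
      t < i → x[t]? = y[t + (κ + 1) - Δ]? := by
  intro i
  induction i with
  | zero =>
    intro h
    obtain ⟨h1, h2, h3, h4⟩ := h
    refine ⟨?_, fun t _ ht => by omega⟩
    rcases Nat.lt_or_ge e (κ + 1 - Δ) with h5 | h5
    · -- one insertion
      have : Rch x y Δ e κ 0 := by
        refine ⟨by omega, by omega, by omega, ?_⟩
        rw [tab_zero_left] at h4 ⊢
        omega
      have := this.lt_F
      omega
    · have : Rch x y Δ e (κ + 1) 0 := by
        refine ⟨by omega, by omega, by omega, ?_⟩
        rw [tab_zero_left] at h4 ⊢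
        omega
      have := this.lt_F
      omega
  | succ i ih =>
    intro h
    by_cases hle : tab x y (i + 1) (i + 1 + (κ + 1) - Δ) ≤ e
    · have h' : Rch x y Δ e (κ + 1) (i + 1) := ⟨h.1, h.2.1, h.2.2.1, hle⟩
      have h1 := h'.lt_F
      refine ⟨by omega, fun t ht1 ht2 => ?_⟩
      exfalso
      have h2 := h.1
      have h3 := h.2.2.1
      unfold cand at ht1
      omega
    · obtain ⟨h1, h2, h3, h4⟩ := h
      have h5 : tab x y (i + 1) (i + 1 + (κ + 1) - Δ) = e + 1 := by omega
      rcases Nat.eq_zero_or_pos (i + 1 + (κ + 1) - Δ) with h6 | h6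
      · -- the column is empty: one deletion
        rw [h6, tab_zero_right] at h5
        have h7 : Rch x y Δ e (κ + 2) i := by
          refine ⟨by omega, by omega, by omega, ?_⟩
          have : i + (κ + 2) - Δ = 0 := by omega
          rw [this, tab_zero_right]
          omega
        have h8 := h7.lt_F
        refine ⟨by omega, fun t ht1 ht2 => ?_⟩
        exfalso
        unfold cand at ht1
        omega
      · have e1 : i + 1 + (κ + 1) - Δ = (i + (κ + 1) - Δ) + 1 := by omega
        rw [e1] at h5
        have hi : i < x.length := by omega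
        have hj : i + (κ + 1) - Δ < y.length := by omega
        rw [tab_succ_succ x y hi hj] at h5
        rcases min_choice (tab x y i (i + (κ + 1) - Δ) + if x[i] = y[i + (κ + 1) - Δ] then 0 else 1)
          (min (tab x y (i + 1) (i + (κ + 1) - Δ) + 1) (tab x y i (i + (κ + 1) - Δ + 1) + 1))
          with h7 | h7
        · rw [h7] at h5
          by_cases hx : x[i] = y[i + (κ + 1) - Δ]
          · rw [if_pos hx] at h5
            have h8 : Rch x y Δ (e + 1) (κ + 1) i := ⟨by omega, by omega, by omega, by omega⟩
            obtain ⟨g1, g2⟩ := ih h8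
            refine ⟨g1, fun t ht1 ht2 => ?_⟩
            rcases Nat.lt_or_ge t i with h9 | h9
            · exact g2 t ht1 h9
            · have : t = i := by omega
              subst this
              rw [List.getElem?_eq_getElem hi, List.getElem?_eq_getElem hj, hx]
          · rw [if_neg hx] at h5
            have h8 : Rch x y Δ e (κ + 1) i := ⟨by omega, by omega, by omega, by omega⟩
            have h9 := h8.lt_F
            refine ⟨by omega, fun t ht1 ht2 => ?_⟩
            exfalso
            unfold cand at ht1
            omega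
        · rw [h7] at h5
          rcases min_choice (tab x y (i + 1) (i + (κ + 1) - Δ) + 1)
            (tab x y i (i + (κ + 1) - Δ + 1) + 1) with h8 | h8
          · rw [h8] at h5
            have h9 : Rch x y Δ e κ (i + 1) := by
              refine ⟨by omega, by omega, by omega, ?_⟩
              have : i + 1 + κ - Δ = i + (κ + 1) - Δ := by omega
              rw [this]
              omega
            have h10 := h9.lt_F
            refine ⟨by omega, fun t ht1 ht2 => ?_⟩
            exfalso
            unfold cand at ht1
            omega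
          · rw [h8] at h5
            have h9 : Rch x y Δ e (κ + 2) i := by
              refine ⟨by omega, by omega, by omega, ?_⟩
              have : i + (κ + 2) - Δ = i + (κ + 1) - Δ + 1 := by omega
              rw [this]
              omega
            have h10 := h9.lt_F
            refine ⟨by omega, fun t ht1 ht2 => ?_⟩
            exfalso
            unfold cand at ht1
            omega

/-- the start row of the level `e + 1` is reachable -/
theorem rch_cand {e κ : ℕ} (hd1 : Δ ≤ x.length + (κ + 1)) (hd2 : κ + 1 ≤ y.length + Δ)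
    (hpos : 0 < F x y Δ e (κ + 1) + F x y Δ e (κ + 2) + F x y Δ e κ) :
    Rch x y Δ (e + 1) (κ + 1)
      (cand x.length y.length Δ (κ + 1) (F x y Δ e (κ + 1)) (F x y Δ e (κ + 2)) (F x y Δ e κ)) := by
  have ha := rch_F (x := x) (y := y) (Δ := Δ) (e := e) (κ := κ + 1)
  have hb := rch_F (x := x) (y := y) (Δ := Δ) (e := e) (κ := κ + 2)
  have hc := rch_F (x := x) (y := y) (Δ := Δ) (e := e) (κ := κ)
  have hca : ∀ v, v = cand x.length y.length Δ (κ + 1) (F x y Δ e (κ + 1)) (F x y Δ e (κ + 2))
      (F x y Δ e κ) → Rch x y Δ (e + 1) (κ + 1) v := by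
    intro v hv
    revert ha hb hc hpos hv
    generalize F x y Δ e (κ + 1) = a
    generalize F x y Δ e (κ + 2) = b
    generalize F x y Δ e κ = c
    intro hpos ha hb hc hv
    unfold cand at hv
    have h3 : (a ≤ b ∧ c - 1 ≤ b ∧ 0 < b) ∨ (b ≤ a ∧ c - 1 ≤ a ∧ 0 < a) ∨
        (a ≤ c - 1 ∧ b ≤ c - 1 ∧ 0 < c) := by omega
    rcases h3 with ⟨h4, h5, h6⟩ | ⟨h4, h5, h6⟩ | ⟨h4, h5, h6⟩
    · obtain ⟨g1, g2, g3, g4⟩ := hb h6
      have hv' : v = min (min x.length (y.length + Δ - (κ + 1))) b := by omega
      rcases Nat.lt_or_ge x.length b with h7 | h7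
      · -- b = n + 1
        have hv2 : v = x.length := by omega
        subst hv2
        have hb2 : b - 1 = x.length := by omega
        rw [hb2] at g2 g3 g4
        refine ⟨le_rfl, by omega, by omega, ?_⟩
        have h8 := tab_le_right x y x.length (x.length + (κ + 1) - Δ)
        have e1 : x.length + (κ + 1) - Δ + 1 = x.length + (κ + 2) - Δ := by omega
        rw [e1] at h8
        omega
      · have hv2 : v = b := by omega
        subst hv2
        refine ⟨h7, by omega, by omega, ?_⟩
        have h8 := tab_succ_le_left x y (v - 1) (v - 1 + (κ + 2) - Δ)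
        have e1 : v - 1 + 1 = v := by omega
        have e2 : v - 1 + (κ + 2) - Δ = v + (κ + 1) - Δ := by omega
        rw [e1] at h8
        rw [e2] at h8 g4
        omega
    · obtain ⟨g1, g2, g3, g4⟩ := ha h6
      have hv' : v = min (min x.length (y.length + Δ - (κ + 1))) a := by omega
      rcases Nat.lt_or_ge (min x.length (y.length + Δ - (κ + 1))) a with h7 | h7
      · have hv2 : v = a - 1 := by omega
        rw [hv2]
        exact (ha h6).mono (by omega)
      · have hv2 : v = a := by omega
        subst hv2
        refine ⟨by omega, by omega, by omega, ?_⟩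
        have h8 := tab_diag_succ_le (x := x) (y := y) (i := v - 1) (j := v - 1 + (κ + 1) - Δ)
          (by omega) (by omega)
        have e1 : v - 1 + 1 = v := by omega
        have e2 : v - 1 + (κ + 1) - Δ + 1 = v + (κ + 1) - Δ := by omega
        rw [e1, e2] at h8
        omega
    · obtain ⟨g1, g2, g3, g4⟩ := hc h6
      have hv' : v = min (min x.length (y.length + Δ - (κ + 1))) (c - 1) := by omega
      rcases Nat.lt_or_ge (min x.length (y.length + Δ - (κ + 1))) (c - 1) with h7 | h7
      · have hv2 : v + 1 = c - 1 := by omega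
        refine ⟨by omega, by omega, by omega, ?_⟩
        have h8 := tab_le_left x y v (v + (κ + 1) - Δ)
        have e2 : v + (κ + 1) - Δ = c - 1 + κ - Δ := by omega
        rw [hv2] at h8
        rw [e2] at h8 ⊢
        omega
      · have hv2 : v = c - 1 := by omega
        rw [← hv2] at g1 g2 g3 g4
        refine ⟨by omega, by omega, by omega, ?_⟩
        have h8 := tab_succ_le_right x y v (v + κ - Δ)
        have e2 : v + κ - Δ + 1 = v + (κ + 1) - Δ := by omega
        rw [e2] at h8
        omega
  exact hca _ rfl

/-- **the recursion** -/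
theorem F_succ (e κ : ℕ) : F x y Δ (e + 1) (κ + 1) =
    step x y Δ (κ + 1) (F x y Δ e (κ + 1)) (F x y Δ e (κ + 2)) (F x y Δ e κ) := by
  unfold step
  split
  · rename_i h
    exact F_slide (rch_cand h.1 h.2.1 h.2.2) fun i hi _ t ht1 ht2 =>
      (rch_succ_aux i hi).2 t ht1 ht2
  · rename_i h
    refine F_eq_zero fun i hi => h ⟨?_, ?_, (rch_succ_aux i hi).1⟩
    · have := hi.1; have := hi.2.1; omega
    · have := hi.2.2.1; omega

/-- **the result**: the distance is `≤ e` iff the last diagonal is reached -/
theorem ed_le_iff_F {e : ℕ} (h : x.length ≤ y.length + Δ) :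
    editDist x y ≤ e ↔ F x y Δ e (y.length + Δ - x.length) = x.length + 1 := by
  have hT : tab x y x.length (x.length + (y.length + Δ - x.length) - Δ) = editDist x y := by
    rw [show x.length + (y.length + Δ - x.length) - Δ = y.length by omega]
    simp [tab]
  constructor
  · intro h1
    have h2 : Rch x y Δ e (y.length + Δ - x.length) x.length :=
      ⟨le_rfl, by omega, by omega, by omega⟩
    have h3 := h2.lt_F
    have h4 := F_le (x := x) (y := y) (Δ := Δ) e (y.length + Δ - x.length)
    omega
  · intro h1
    have h2 := rch_F (x := x) (y := y) (Δ := Δ) (e := e) (κ := y.length + Δ - x.length) (by omega)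
    rw [h1] at h2
    have h3 := h2.2.2.2
    rw [show x.length + 1 - 1 = x.length by omega] at h3
    omega

/-- the distance is at least the difference of the lengths -/
theorem lt_ed_of_length {D : ℕ} (h : x.length + D < y.length ∨ y.length + D < x.length) :
    D < editDist x y := by
  have h1 := length_le_ed x y
  have h2 := length_le_ed' x y
  omega

/-- the values of the row: `F e κ ≤ n + 1` and the row index is a row of `y` too -/
theorem F_bound {e κ : ℕ} (h : 0 < F x y Δ e κ) :
    F x y Δ e κ ≤ x.length + 1 ∧ Δ < F x y Δ e κ + κ ∧ F x y Δ e κ + κ ≤ y.length + Δ + 1 := by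
  have := rch_F h
  have h1 := this.1
  have h2 := this.2.1
  have h3 := this.2.2.1
  omega

end

end Crest.Agent.R288.Lv
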