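import Mathlib
import Crest.Agent.R288.Ed1_864

/-!
# R288 (S0433): the furthest reaching form of the edit distance (Ukkonen, Landau-Vishkin), pure part

`K = D0 + 1`; the diagonal `δ ∈ [0, 2K]` holds the cells `(i, j)` with `i + δ = j + K`.
`fr x y K e δ` is `0` if no cell of the diagonal has table value `≤ e`, else `1 + ` the largest row.
-/

set_option autoImplicit false

namespace Crest.Agent.R288.LvA679

open Crest.GraphRAM Crest.Agent.R288.Ed

variable {α : Type*} [DecidableEq α]

/-! ### longest common prefix -/

/-- the length of the longest common prefix -/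
def lcp : List α → List α → ℕ
  | a :: x, b :: y => if a = b then lcp x y + 1 else 0
  | _, _ => 0

@[simp] theorem lcp_nil_left (y : List α) : lcp [] y = 0 := by
  cases y <;> rfl

@[simp] theorem lcp_nil_right (x : List α) : lcp x [] = 0 := by
  cases x <;> rfl

theorem lcp_cons (a b : α) (x y : List α) :
    lcp (a :: x) (b :: y) = if a = b then lcp x y + 1 else 0 := rfl

theorem lcp_le_left : ∀ x y : List α, lcp x y ≤ x.length
  | [], y => by simp
  | a :: x, [] => by simp
  | a :: x, b :: y => by
    rw [lcp_cons]
    have := lcp_le_left x y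
    split <;> simp <;> omega

theorem lcp_comm : ∀ x y : List α, lcp x y = lcp y x
  | [], y => by simp
  | a :: x, [] => by simp
  | a :: x, b :: y => by
    rw [lcp_cons, lcp_cons, lcp_comm x y]
    by_cases h : a = b
    · rw [if_pos h, if_pos h.symm]
    · rw [if_neg h, if_neg (fun h' => h h'.symm)]

theorem lcp_le_right (x y : List α) : lcp x y ≤ y.length := by
  rw [lcp_comm]; exact lcp_le_left y x

/-- the lcp of suffixes -/
theorem getElem_of_lt_lcp : ∀ (x y : List α) (k : ℕ) (h : k < lcp x y),
    x[k]'(h.trans_le (lcp_le_left x y)) = y[k]'(h.trans_le (lcp_le_right x y))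
  | [], y, k, h => by simp at h
  | a :: x, [], k, h => by simp at h
  | a :: x, b :: y, k, h => by
    by_cases hab : a = b
    · cases k with
      | zero => simpa using hab
      | succ k =>
        have h' : k < lcp x y := by
          rw [lcp_cons, if_pos hab] at h; omega
        simpa using getElem_of_lt_lcp x y k h'
    · rw [lcp_cons, if_neg hab] at h; omega

theorem getElem_lcp_ne : ∀ (x y : List α) (h1 : lcp x y < x.length) (h2 : lcp x y < y.length),
    x[lcp x y] ≠ y[lcp x y]
  | [], y, h1, _ => by simp at h1
  | a :: x, [], _, h2 => by simp at h2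
  | a :: x, b :: y, h1, h2 => by
    by_cases hab : a = b
    · have e : lcp (a :: x) (b :: y) = lcp x y + 1 := by rw [lcp_cons, if_pos hab]
      have h1' : lcp x y < x.length := by rw [e] at h1; simpa using h1
      have h2' : lcp x y < y.length := by rw [e] at h2; simpa using h2
      have := getElem_lcp_ne x y h1' h2'
      simpa only [e, List.getElem_cons_succ] using this
    · have e : lcp (a :: x) (b :: y) = 0 := by rw [lcp_cons, if_neg hab]
      simpa only [e, List.getElem_cons_zero] using hab

/-- the row reached from `(i, j)` by matches only -/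
def sld (x y : List α) (i j : ℕ) : ℕ := lcp (x.drop i) (y.drop j)

theorem sld_le_left (x y : List α) (i j : ℕ) : sld x y i j ≤ x.length - i := by
  have := lcp_le_left (x.drop i) (y.drop j)
  simpa [sld] using this

theorem sld_le_right (x y : List α) (i j : ℕ) : sld x y i j ≤ y.length - j := by
  have := lcp_le_right (x.drop i) (y.drop j)
  simpa [sld] using this

theorem sld_eq {x y : List α} {i j k : ℕ} (h : k < sld x y i j) :
    ∃ (h1 : i + k < x.length) (h2 : j + k < y.length), x[i + k] = y[j + k] := by
  have a1 := sld_le_left x y i j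
  have a2 := sld_le_right x y i j
  have := getElem_of_lt_lcp (x.drop i) (y.drop j) k h
  refine ⟨by omega, by omega, ?_⟩
  simpa using this

theorem sld_ne {x y : List α} {i j : ℕ} (h1 : i + sld x y i j < x.length)
    (h2 : j + sld x y i j < y.length) : x[i + sld x y i j] ≠ y[j + sld x y i j] := by
  have g1 : lcp (x.drop i) (y.drop j) < (x.drop i).length := by
    have : sld x y i j < x.length - i := by omega
    simpa [sld] using this
  have g2 : lcp (x.drop i) (y.drop j) < (y.drop j).length := by
    have : sld x y i j < y.length - j := by omega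
    simpa [sld] using this
  have := getElem_lcp_ne (x.drop i) (y.drop j) g1 g2
  simpa [sld] using this

/-! ### the table: neighbours and diagonals -/

theorem tab_succ_right_le (x y : List α) (i j : ℕ) : tab x y i (j + 1) ≤ tab x y i j + 1 := by
  have h1 := ed_triangle (x.take i) (y.take j) (y.take (j + 1))
  have h2 := ed_take_take_le y j (j + 1)
  unfold tab; omega

theorem tab_le_succ_right (x y : List α) (i j : ℕ) : tab x y i j ≤ tab x y i (j + 1) + 1 := by
  have h1 := ed_triangle (x.take i) (y.take (j + 1)) (y.take j)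
  have h2 := ed_take_take_le y (j + 1) j
  unfold tab; omega

theorem tab_succ_left_le (x y : List α) (i j : ℕ) : tab x y (i + 1) j ≤ tab x y i j + 1 := by
  have h1 := ed_triangle (x.take (i + 1)) (x.take i) (y.take j)
  have h2 := ed_take_take_le x (i + 1) i
  unfold tab; omega

theorem tab_le_succ_left (x y : List α) (i j : ℕ) : tab x y i j ≤ tab x y (i + 1) j + 1 := by
  have h1 := ed_triangle (x.take i) (x.take (i + 1)) (y.take j)
  have h2 := ed_take_take_le x i (i + 1)
  unfold tab; omega

theorem tab_diag_le (x y : List α) {i j : ℕ} (hi : i < x.length) (hj : j < y.length) :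
    tab x y i j ≤ tab x y (i + 1) (j + 1) := by
  rw [tab_succ_succ x y hi hj]
  have h1 := tab_le_succ_left x y i j
  have h2 := tab_le_succ_right x y i j
  refine le_min (by omega) (le_min h1 h2)

theorem tab_diag_match (x y : List α) {i j : ℕ} (hi : i < x.length) (hj : j < y.length)
    (h : x[i] = y[j]) : tab x y (i + 1) (j + 1) = tab x y i j := by
  refine le_antisymm ?_ (tab_diag_le x y hi hj)
  rw [tab_succ_succ x y hi hj, if_pos h]
  exact min_le_left _ _

theorem tab_diag_succ_le (x y : List α) {i j : ℕ} (hi : i < x.length) (hj : j < y.length) :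
    tab x y (i + 1) (j + 1) ≤ tab x y i j + 1 := by
  rw [tab_succ_succ x y hi hj]
  refine (min_le_left _ _).trans ?_
  split <;> omega

theorem tab_diag_mono (x y : List α) {i j : ℕ} (k : ℕ) (hi : i + k ≤ x.length)
    (hj : j + k ≤ y.length) : tab x y i j ≤ tab x y (i + k) (j + k) := by
  induction k with
  | zero => simp
  | succ k ih =>
    refine (ih (by omega) (by omega)).trans ?_
    exact tab_diag_le x y (i := i + k) (j := j + k) (by omega) (by omega)

/-- sliding keeps the value -/
theorem tab_slide (x y : List α) {i j : ℕ} (k : ℕ) (hk : k ≤ sld x y i j) :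
    tab x y (i + k) (j + k) = tab x y i j := by
  induction k with
  | zero => simp
  | succ k ih =>
    obtain ⟨h1, h2, h3⟩ := sld_eq (x := x) (y := y) (i := i) (j := j) (k := k) (by omega)
    rw [← ih (by omega)]
    exact tab_diag_match x y (i := i + k) (j := j + k) h1 h2 h3

theorem sub_le_tab (x y : List α) {i j : ℕ} (hi : i ≤ x.length) (hj : j ≤ y.length) :
    j ≤ i + tab x y i j ∧ i ≤ j + tab x y i j := by
  have h1 := length_le_ed (x.take i) (y.take j)
  have h2 := length_le_ed' (x.take i) (y.take j)
  simp only [List.length_take, min_eq_left hi, min_eq_left hj] at h1 h2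
  exact ⟨h1, h2⟩

/-! ### the furthest row -/

/-- cell `(i, j)` is on the diagonal `δ` and has value at most `e` -/
def Rch (x y : List α) (K e δ i : ℕ) : Prop :=
  i ≤ x.length ∧ K ≤ i + δ ∧ i + δ - K ≤ y.length ∧ tab x y i (i + δ - K) ≤ e

instance (x y : List α) (K e δ i : ℕ) : Decidable (Rch x y K e δ i) := by
  unfold Rch; infer_instance

/-- `0`, or one more than the largest row -/
def fr (x y : List α) (K e δ : ℕ) : ℕ :=
  ((Finset.range (x.length + 1)).filter (fun i => Rch x y K e δ i)).sup (fun i => i + 1)

theorem le_fr {x y : List α} {K e δ i : ℕ} (h : Rch x y K e δ i) : i + 1 ≤ fr x y K e δ := by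
  unfold fr
  have hm : i ∈ (Finset.range (x.length + 1)).filter (fun i => Rch x y K e δ i) := by
    simp only [Finset.mem_filter, Finset.mem_range]
    exact ⟨by have := h.1; omega, h⟩
  exact Finset.le_sup (f := fun i => i + 1) hm

theorem fr_spec {x y : List α} {K e δ : ℕ} (h : 0 < fr x y K e δ) :
    Rch x y K e δ (fr x y K e δ - 1) := by
  unfold fr at *
  set S := (Finset.range (x.length + 1)).filter (fun i => Rch x y K e δ i) with hS
  have hne : S.Nonempty := by
    by_contra hn
    rw [Finset.not_nonempty_iff_eq_empty] at hn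
    rw [hn] at h; simp at h
  obtain ⟨i, hi, he⟩ := Finset.exists_mem_eq_sup S hne (fun i => i + 1)
  rw [he]
  have := (Finset.mem_filter.1 hi).2
  simpa using this

theorem fr_le_iff {x y : List α} {K e δ m : ℕ} :
    fr x y K e δ ≤ m ↔ ∀ i, Rch x y K e δ i → i < m := by
  constructor
  · intro h i hi
    have := le_fr hi
    omega
  · intro h
    by_contra hn
    have h1 := fr_spec (x := x) (y := y) (K := K) (e := e) (δ := δ) (by omega)
    have := h _ h1
    omega

theorem fr_le (x y : List α) (K e δ : ℕ) : fr x y K e δ ≤ x.length + 1 := by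
  rw [fr_le_iff]
  intro i hi
  have := hi.1
  omega

/-- the last encoded row of the diagonal -/
def capr (lx ly K δ : ℕ) : ℕ := min (lx + 1) (ly + 1 + K - δ)

/-- the diagonal set is downward closed -/
theorem Rch.down {x y : List α} {K e δ i k : ℕ} (h : Rch x y K e δ i) (hk : k ≤ i)
    (hK : K ≤ k + δ) : Rch x y K e δ k := by
  obtain ⟨h1, h2, h3, h4⟩ := h
  refine ⟨by omega, hK, by omega, ?_⟩
  have := tab_diag_mono x y (i := k) (j := k + δ - K) (i - k) (by omega) (by omega)
  rw [show k + (i - k) = i by omega, show k + δ - K + (i - k) = i + δ - K by omega] at this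
  omega

/-- one step of the recursion before sliding: `a = old (δ-1)`, `b = old δ`, `c = old (δ+1)` -/
def pre (lx ly K δ a b c : ℕ) : ℕ :=
  if δ + lx < K then 0 else
    min (max a (max (if b = 0 then 0 else b + 1) (if c = 0 then 0 else c + 1))) (capr lx ly K δ)

/-- sliding of an encoded row -/
def post (x y : List α) (K δ t : ℕ) : ℕ :=
  if t = 0 then 0 else t + sld x y (t - 1) (t - 1 + δ - K)

/-- sliding from a reachable cell -/
theorem Rch.slide {x y : List α} {K e δ i : ℕ} (h : Rch x y K e δ i) :
    Rch x y K e δ (i + sld x y i (i + δ - K)) := by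
  obtain ⟨h1, h2, h3, h4⟩ := h
  have a1 := sld_le_left x y i (i + δ - K)
  have a2 := sld_le_right x y i (i + δ - K)
  refine ⟨by omega, by omega, by omega, ?_⟩
  have := tab_slide x y (i := i) (j := i + δ - K) _ le_rfl
  rw [show i + sld x y i (i + δ - K) + δ - K = i + δ - K + sld x y i (i + δ - K) by omega, this]
  exact h4

theorem fr_lt_left {x y : List α} {K e δ : ℕ} (h : δ + x.length < K) : fr x y K e δ = 0 := by
  refine Nat.le_zero.1 (fr_le_iff.2 ?_)
  intro i hi
  have h1 := hi.1
  have h2 := hi.2.1
  omega

/-- **the base of the recursion** -/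
theorem fr_zero (x y : List α) (K δ : ℕ) :
    fr x y K 0 δ = if δ = K then post x y K K 1 else 0 := by
  split
  · rename_i h
    subst h
    have h0 : Rch x y δ 0 δ 0 := ⟨by omega, by omega, by omega, by simp⟩
    refine le_antisymm ?_ ?_
    · rw [fr_le_iff]
      intro i hi
      by_contra hn
      simp only [post, one_ne_zero, if_false, Nat.sub_self, zero_add] at hn
      have hs : sld x y 0 0 < i := by omega
      have hr := hi.down (k := sld x y 0 0 + 1) (by omega) (by omega)
      have h1 := hr.1
      have h3 := hr.2.2.1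
      have h4 := hr.2.2.2
      rw [show sld x y 0 0 + 1 + δ - δ = sld x y 0 0 + 1 by omega] at h3 h4
      have hne := sld_ne (x := x) (y := y) (i := 0) (j := 0) (by omega) (by omega)
      rw [tab_succ_succ x y (i := sld x y 0 0) (j := sld x y 0 0) (by omega) (by omega)] at h4
      simp only [zero_add] at hne
      rw [if_neg hne] at h4
      omega
    · have := le_fr h0.slide
      simp only [zero_add, Nat.sub_self] at this
      simp only [post, one_ne_zero, if_false, Nat.sub_self, zero_add]
      omega
  · rename_i h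
    refine Nat.le_zero.1 (fr_le_iff.2 ?_)
    intro i hi
    obtain ⟨h1, h2, h3, h4⟩ := hi
    have := sub_le_tab x y h1 h3
    omega

/-- what `pre` picks -/
theorem pre_cases {lx ly K δ a b c : ℕ} (hlx : ¬ δ + lx < K) (h0 : 0 < pre lx ly K δ a b c) :
    pre lx ly K δ a b c ≤ capr lx ly K δ ∧
    (pre lx ly K δ a b c = capr lx ly K δ ∨ pre lx ly K δ a b c = a ∨
      (0 < b ∧ pre lx ly K δ a b c = b + 1) ∨ (0 < c ∧ pre lx ly K δ a b c = c + 1)) ∧
    (pre lx ly K δ a b c ≤ a ∨ (0 < b ∧ pre lx ly K δ a b c ≤ b + 1) ∨
      (0 < c ∧ pre lx ly K δ a b c ≤ c + 1)) := by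
  unfold pre at *
  simp only [hlx, if_false] at *
  generalize capr lx ly K δ = r at *
  refine ⟨min_le_right _ _, ?_, ?_⟩ <;> split_ifs at * <;> omega

theorem le_pre {lx ly K δ a b c m : ℕ} (hlx : ¬ δ + lx < K) (hm : m ≤ capr lx ly K δ)
    (h : m ≤ a ∨ (0 < b ∧ m ≤ b + 1) ∨ (0 < c ∧ m ≤ c + 1)) : m ≤ pre lx ly K δ a b c := by
  unfold pre
  simp only [hlx, if_false]
  generalize capr lx ly K δ = r at *
  split_ifs <;> omega

/-- a positive value of `pre` is a reachable row -/
theorem pre_reach (x y : List α) (K e δ : ℕ) (hδ : 0 < δ) (hlx : ¬ δ + x.length < K)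
    (f0 f1 f2 : ℕ)
    (s0 : 0 < f0 → Rch x y K e (δ - 1) (f0 - 1))
    (s1 : 0 < f1 → Rch x y K e δ (f1 - 1))
    (s2 : 0 < f2 → Rch x y K e (δ + 1) (f2 - 1)) (t : ℕ) (h0 : 0 < t)
    (hcap : t ≤ capr x.length y.length K δ)
    (heq : t = capr x.length y.length K δ ∨ t = f0 ∨ (0 < f1 ∧ t = f1 + 1) ∨
      (0 < f2 ∧ t = f2 + 1))
    (hor : t ≤ f0 ∨ (0 < f1 ∧ t ≤ f1 + 1) ∨ (0 < f2 ∧ t ≤ f2 + 1)) :
    Rch x y K (e + 1) δ (t - 1) := by
  simp only [capr] at hcap heq
  have hKt : K ≤ t - 1 + δ := by
    rcases heq with h | h | ⟨h1, h⟩ | ⟨h1, h⟩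
    · omega
    · have := (s0 (by omega)).2.1
      omega
    · have := (s1 h1).2.1
      omega
    · have := (s2 h1).2.1
      omega
  clear heq
  refine ⟨by omega, hKt, by omega, ?_⟩
  rcases hor with h | ⟨h1, h⟩ | ⟨h1, h⟩
  · obtain hr := s0 (by omega)
    clear s0 s1 s2
    by_cases hK : K ≤ t - 1 + (δ - 1)
    · have h4 := (hr.down (k := t - 1) (by omega) hK).2.2.2
      have h5 := tab_succ_right_le x y (t - 1) (t - 1 + (δ - 1) - K)
      rw [show t - 1 + (δ - 1) - K + 1 = t - 1 + δ - K by omega] at h5
      omega
    · have e1 : t - 1 + δ - K = 0 := by omega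
      rw [e1, tab_zero_right]
      have h6 := sub_le_tab x y hr.1 hr.2.2.1
      have h7 := hr.2.2.2
      have h8 := hr.2.1
      omega
  · obtain hr := s1 h1
    clear s0 s1 s2
    rcases Nat.lt_or_ge f1 t with h2 | h2
    · have e1 : t - 1 = f1 - 1 + 1 := by omega
      have e2 : t - 1 + δ - K = f1 - 1 + δ - K + 1 := by
        have := hr.2.1
        omega
      rw [e2, e1]
      have h5 := tab_diag_succ_le x y (i := f1 - 1) (j := f1 - 1 + δ - K) (by omega) (by omega)
      have h7 := hr.2.2.2
      omega
    · have h4 := (hr.down (k := t - 1) (by omega) hKt).2.2.2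
      omega
  · obtain hr := s2 h1
    clear s0 s1 s2
    rcases Nat.lt_or_ge f2 t with h2 | h2
    · have e1 : t - 1 = f2 - 1 + 1 := by omega
      have e2 : t - 1 + δ - K = f2 - 1 + (δ + 1) - K := by omega
      rw [e2, e1]
      have h5 := tab_succ_left_le x y (f2 - 1) (f2 - 1 + (δ + 1) - K)
      have h7 := hr.2.2.2
      omega
    · have h4 := (hr.down (k := t - 1) (by omega) (by omega)).2.2.2
      have h5 := tab_le_succ_right x y (t - 1) (t - 1 + δ - K)
      rw [show t - 1 + δ - K + 1 = t - 1 + (δ + 1) - K by omega] at h5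
      omega

/-- a reachable cell of step `e+1` gives a reachable cell of step `e` on a neighbouring diagonal,
if the diagonal has no reachable cell at the candidate -/
theorem low_cell (x y : List α) (K e δ i : ℕ) (hi : Rch x y K (e + 1) δ i) :
    0 < fr x y K e (δ - 1) ∧ 0 < δ ∨ 0 < fr x y K e δ ∨ 0 < fr x y K e (δ + 1) := by
  rcases Nat.lt_trichotomy δ K with h | h | h
  · have hd := hi.down (k := K - δ) (by have := hi.2.1; omega) (by omega)
    have h4 := hd.2.2.2
    have h1 := hd.1
    rw [show K - δ + δ - K = 0 by omega, tab_zero_right] at h4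
    have : Rch x y K e (δ + 1) (K - δ - 1) := by
      refine ⟨by omega, by omega, by omega, ?_⟩
      rw [show K - δ - 1 + (δ + 1) - K = 0 by omega, tab_zero_right]
      omega
    have := le_fr this
    omega
  · have : Rch x y K e δ 0 := ⟨by omega, by omega, by omega, by subst h; simp⟩
    have := le_fr this
    omega
  · have hd := hi.down (k := 0) (by omega) (by omega)
    have h4 := hd.2.2.2
    have h3 := hd.2.2.1
    rw [zero_add, tab_zero_left] at h4
    have : Rch x y K e (δ - 1) 0 := by
      refine ⟨by omega, by omega, by omega, ?_⟩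
      rw [zero_add, tab_zero_left]
      omega
    have := le_fr this
    omega

/-- the cell after the slide is reached only from a neighbour -/
theorem next_cell (x y : List α) (K e δ t : ℕ) (hδ : 0 < δ) (h0 : 0 < t) (hK1 : K ≤ t - 1 + δ)
    (hd : Rch x y K (e + 1) δ (t + sld x y (t - 1) (t - 1 + δ - K))) :
    t + sld x y (t - 1) (t - 1 + δ - K) + 1 ≤ fr x y K e (δ - 1) ∨
    t + sld x y (t - 1) (t - 1 + δ - K) ≤ fr x y K e δ ∧ 0 < fr x y K e δ ∨
    t + sld x y (t - 1) (t - 1 + δ - K) ≤ fr x y K e (δ + 1) ∧ 0 < fr x y K e (δ + 1) := by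
  have hne := @sld_ne α _ x y (t - 1) (t - 1 + δ - K)
  generalize sld x y (t - 1) (t - 1 + δ - K) = l at *
  obtain ⟨d1, d2, d3, d4⟩ := hd
  have hne := hne (by omega) (by omega)
  have hts := tab_succ_succ x y (i := t - 1 + l) (j := t - 1 + δ - K + l)
    (by omega) (by omega)
  rw [if_neg hne] at hts
  rw [show t - 1 + l + 1 = t + l by omega,
    show t - 1 + δ - K + l + 1 = t + l + δ - K by omega] at hts
  rw [hts] at d4
  rcases (show tab x y (t - 1 + l) (t - 1 + δ - K + l) ≤ e ∨
      tab x y (t + l) (t - 1 + δ - K + l) ≤ e ∨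
      tab x y (t - 1 + l) (t + l + δ - K) ≤ e by omega) with h | h | h
  · have : Rch x y K e δ (t - 1 + l) := by
      refine ⟨by omega, by omega, by omega, ?_⟩
      rwa [show t - 1 + l + δ - K = t - 1 + δ - K + l by omega]
    have := le_fr this
    omega
  · have : Rch x y K e (δ - 1) (t + l) := by
      refine ⟨by omega, by omega, by omega, ?_⟩
      rwa [show t + l + (δ - 1) - K = t - 1 + δ - K + l by omega]
    have := le_fr this
    omega
  · have : Rch x y K e (δ + 1) (t - 1 + l) := by
      refine ⟨by omega, by omega, by omega, ?_⟩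
      rwa [show t - 1 + l + (δ + 1) - K = t + l + δ - K by omega]
    have := le_fr this
    omega

/-- **the recursion** -/
theorem fr_succ (x y : List α) (K e δ : ℕ) (hδ : 0 < δ) :
    fr x y K (e + 1) δ = post x y K δ
      (pre x.length y.length K δ (fr x y K e (δ - 1)) (fr x y K e δ) (fr x y K e (δ + 1))) := by
  by_cases hlx : δ + x.length < K
  · rw [fr_lt_left hlx]
    simp [pre, post, hlx]
  have hle : ∀ m, m ≤ capr x.length y.length K δ →
      (m ≤ fr x y K e (δ - 1) ∨ (0 < fr x y K e δ ∧ m ≤ fr x y K e δ + 1) ∨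
        (0 < fr x y K e (δ + 1) ∧ m ≤ fr x y K e (δ + 1) + 1)) →
      m ≤ pre x.length y.length K δ (fr x y K e (δ - 1)) (fr x y K e δ) (fr x y K e (δ + 1)) :=
    fun m h1 h2 => le_pre hlx h1 h2
  have hcs := pre_cases (lx := x.length) (ly := y.length) (K := K) (δ := δ)
    (a := fr x y K e (δ - 1)) (b := fr x y K e δ) (c := fr x y K e (δ + 1)) hlx
  generalize pre x.length y.length K δ (fr x y K e (δ - 1)) (fr x y K e δ)
    (fr x y K e (δ + 1)) = t at *
  have hreach : 0 < t → Rch x y K (e + 1) δ (t - 1) := fun h0 =>
    pre_reach x y K e δ hδ hlx _ _ _ fr_spec fr_spec fr_spec t h0 (hcs h0).1 (hcs h0).2.1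
      (hcs h0).2.2
  clear hcs
  refine le_antisymm ?_ ?_
  · rw [fr_le_iff]
    intro i hi
    by_contra hn
    have hcapi : i + 1 ≤ capr x.length y.length K δ := by
      have h1 := hi.1
      have h2 := hi.2.1
      have h3 := hi.2.2.1
      simp only [capr]
      omega
    rcases Nat.eq_zero_or_pos t with h0 | h0
    · -- the boundary cell of the diagonal
      have h1 := hle 1 (by omega)
      have h2 := low_cell x y K e δ i hi
      have h3 := h1 (by omega)
      omega
    · have hr := (hreach h0).slide
      have hK1 : K ≤ t - 1 + δ := (hreach h0).2.1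
      simp only [post, h0.ne', if_false] at hn
      have hd := hi.down (k := t + sld x y (t - 1) (t - 1 + δ - K)) (by omega)
        (by have := hr.2.1; omega)
      have hnx := next_cell x y K e δ t hδ h0 hK1 hd
      have hle' := hle (t + sld x y (t - 1) (t - 1 + δ - K) + 1) (by
        have h1 := hd.1
        have h2 := hd.2.1
        have h3 := hd.2.2.1
        simp only [capr]
        omega) (by omega)
      omega
  · unfold post
    split
    · omega
    · have h := le_fr (hreach (by omega)).slide
      omega

/-- cells far from the main diagonal are never reached -/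
theorem fr_far (x y : List α) {K e δ : ℕ} (h : δ + e < K ∨ K + e < δ) : fr x y K e δ = 0 := by
  refine Nat.le_zero.1 (fr_le_iff.2 ?_)
  intro i hi
  obtain ⟨h1, h2, h3, h4⟩ := hi
  have := sub_le_tab x y h1 h3
  omega

/-- **the answer**: the distance is at most `e` iff the last cell is reached -/
theorem ed_le_iff_fr (x y : List α) (K e : ℕ) (hK : x.length ≤ K + y.length) :
    editDist x y ≤ e ↔ fr x y K e (K + y.length - x.length) = x.length + 1 := by
  have hj : x.length + (K + y.length - x.length) - K = y.length := by omega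
  constructor
  · intro h
    refine le_antisymm (fr_le _ _ _ _ _) (le_fr ⟨le_rfl, by omega, by omega, ?_⟩)
    rw [hj, tab_full]; exact h
  · intro h
    have hr := fr_spec (x := x) (y := y) (K := K) (e := e) (δ := K + y.length - x.length)
      (by omega)
    have h4 := hr.2.2.2
    rw [h, show x.length + 1 - 1 = x.length by omega, hj, tab_full] at h4
    exact h4

/-- if the lengths differ by more than `e`, the distance is more than `e` -/
theorem lt_ed_of_length {x y : List α} {e : ℕ} (h : x.length + e < y.length ∨ y.length + e < x.length) :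
    e < editDist x y := by
  have h1 := length_le_ed x y
  have h2 := length_le_ed' x y
  omega

/-! ### the whole computation with arrays as functions -/

/-- the first array -/
def fr0 (x y : List α) (K : ℕ) : ℕ → ℕ := fun δ => if δ = K then post x y K K 1 else 0

/-- one sweep -/
def frS (x y : List α) (K : ℕ) (f : ℕ → ℕ) : ℕ → ℕ := fun δ =>
  if 0 < δ ∧ δ < 2 * K then
    post x y K δ (pre x.length y.length K δ (f (δ - 1)) (f δ) (f (δ + 1))) else 0

/-- the arrays computed by the sweeps are the furthest rows, as long as `e < K` -/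
theorem frS_iter (x y : List α) (K e : ℕ) (he : e < K) :
    (frS x y K)^[e] (fr0 x y K) = fr x y K e := by
  induction e with
  | zero =>
    funext δ
    rw [Function.iterate_zero, id, fr_zero]
    rfl
  | succ e ih =>
    rw [Function.iterate_succ_apply', ih (by omega)]
    funext δ
    unfold frS
    split
    · rename_i h
      rw [fr_succ x y K e δ h.1]
    · rename_i h
      rw [fr_far x y]
      omega

/-- the first step `e` in which the last cell is reached is the distance -/
theorem ed_eq_of_first (x y : List α) (K e : ℕ) (hK : x.length ≤ K + y.length)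
    (h1 : fr x y K e (K + y.length - x.length) = x.length + 1)
    (h2 : ∀ e' < e, fr x y K e' (K + y.length - x.length) ≠ x.length + 1) :
    editDist x y = e := by
  refine le_antisymm ((ed_le_iff_fr x y K e hK).2 h1) ?_
  by_contra hn
  exact h2 (editDist x y) (by omega) ((ed_le_iff_fr x y K _ hK).1 le_rfl)

theorem fr_mono (x y : List α) (K δ : ℕ) {e e' : ℕ} (h : e ≤ e') : fr x y K e δ ≤ fr x y K e' δ := by
  rw [fr_le_iff]
  intro i hi
  have : Rch x y K e' δ i := ⟨hi.1, hi.2.1, hi.2.2.1, hi.2.2.2.trans h⟩
  have := le_fr this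
  omega

end Crest.Agent.R288.LvA679
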