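import Crest.Agent.R288.LvC_12
import Crest.Agent.R288.NodeA_785

/-!
# R288: the exact cost of one block, if it is small (helper222)

`gB` computes `min (G x y a b P Q) (D + 1)` (the cost of the block `[a, b)` of `x` against the
positions `P`, `Q` of `y`) in time `O((D + 1)^2 (log + 1))`, independent of the length of the block,
with the names table of `x ++ y` (array 14).

Numbers. Input: 52 = `a`, 53 = `b`, 54 = `P`, 55 = `Q`, 42 = `D`, 56 = `|x|`, 57 = `|x| + |y|`,
58 = `Lv` with `|x| + |y| < 2 ^ Lv`; result 48; writes variables `< 52` only, and array 40 only.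

`gK` : the same for diagonals, 54 = `U`, 55 = `V`, 59 = `K`, 58 and so on as above, 51 not used:
`min (g x y a b (U - K) (V - K)) (D + 1)`; it writes also 54 and 55.

`eqB` : 48 = 0 if `x[a, b) = y[P, P + (b - a))` and 48 = 1 if not (one query).
-/

set_option autoImplicit false

namespace Crest.Agent.R288.LvBlk222

open Crest.GraphRAM Crest.Agent.R288.Ed Crest.Agent.R295.HL Exp Cnd Cmd
open Crest.Agent.R288.LceA508 Crest.Agent.R288.Lce508 Crest.Agent.R288.Lv
open Crest.Agent.R288.GameA347

/-! ### substrings -/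

theorem lce_seg_eq {x y : List ℕ} {a b P Q i j : ℕ} (hb : b ≤ x.length) (hab : a ≤ b)
    (hQ : Q ≤ y.length) (hPQ : P ≤ Q) (hi : i ≤ b - a) (hj : j ≤ Q - P) :
    LceA508.lce (LceA508.cat x y) (a + i) (x.length + (P + j)) (min (b - a - i) (Q - P - j)) =
      Lv.lce (seg x a b) (seg y P Q) i j := by
  have l1 : (seg x a b).length = b - a := by rw [seg_length]; omega
  have l2 : (seg y P Q).length = Q - P := by rw [seg_length]; omega
  apply eq_of_forall_le_iff
  intro l
  rw [Lv.le_lce_iff (by omega) (by omega), l1, l2, LceA508.le_lce_iff]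
  have h0 := LceA508.le_lce_cat (x := x) (y := y) (i := a + i) (j := P + j) (l := l)
    (by omega) (by omega)
  rw [LceA508.le_lce_iff] at h0
  constructor
  · rintro ⟨h1, h2⟩
    have h3 := (h0.1 ⟨by omega, h2⟩).2.2
    refine ⟨by omega, by omega, fun t ht => ?_⟩
    rw [getElem?_seg _ _ _ _ (by omega), getElem?_seg _ _ _ _ (by omega), ← add_assoc, ← add_assoc]
    exact h3 t ht
  · rintro ⟨h1, h2, h3⟩
    refine ⟨by omega, (h0.2 ⟨by omega, by omega, fun t ht => ?_⟩).2⟩
    have := h3 t ht
    rw [getElem?_seg _ _ _ _ (by omega), getElem?_seg _ _ _ _ (by omega), ← add_assoc,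
      ← add_assoc] at this
    exact this

/-- one query of the global table answers a query of the substrings -/
def lcB : Cmd := set 0 (var 0 + var 8) ;; set 1 (var 1 + var 9 - var 10) ;; lcI

/-- the tables are in place, and the constants of the substrings -/
structure InvB (x y : List ℕ) (Lv a b P : ℕ) (s : State) : Prop where
  h3 : s.reg 3 = x.length + y.length
  h4 : s.reg 4 = Lv
  h8 : s.reg 8 = a
  h9 : s.reg 9 = x.length + P
  h10 : s.reg 10 = b - a
  tab : IsTab (LceA508.cat x y) (x.length + y.length) (s.arr 14)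

theorem lcB_wr {z : ℕ} (h : lcB.wr z) : z = 0 ∨ z = 1 ∨ z = 5 ∨ z = 6 ∨ z = 7 := by
  simp only [lcB, Cmd.wr] at h
  rcases h with h | h | h
  · left; exact h.symm
  · right; left; exact h.symm
  · have := lcI_wr h; omega

theorem lcB_wa (k : ℕ) : ¬ lcB.wa k := by
  intro h
  simp only [lcB, Cmd.wa] at h
  rcases h with h | h | h
  · exact h
  · exact h
  · exact lcI_wa k h

theorem lcB_det : lcB.det := by
  simp [lcB, Cmd.det, lcI_det]

theorem lcB_spec {e : Env} {x y : List ℕ} {Lv a b P Q : ℕ} (hm : x.length + y.length < 2 ^ Lv)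
    (hL : Lv * (x.length + y.length + 1) ≤ e.L) (hB : Lv * (x.length + y.length + 1) ≤ e.B)
    (hB2 : x.length + y.length + 2 ^ Lv < e.B) (_hB3 : 3 * (x.length + y.length) < e.B)
    (hb : b ≤ x.length) (hab : a ≤ b) (hQ : Q ≤ y.length) (hPQ : P ≤ Q) :
    LceSpec e (seg x a b) (seg y P Q) lcB (5 * Lv + 5) (InvB x y Lv a b P) where
  wr := fun z h => by have := lcB_wr h; omega
  wa := lcB_wa 40
  stable := by
    intro s s' h hr ha
    exact ⟨(hr 3 (by omega) (by omega)).trans h.h3, (hr 4 (by omega) (by omega)).trans h.h4,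
      (hr 8 (by omega) (by omega)).trans h.h8, (hr 9 (by omega) (by omega)).trans h.h9,
      (hr 10 (by omega) (by omega)).trans h.h10, by rw [ha 14 (by omega)]; exact h.tab⟩
  run := by
    intro s h i j hi hj h0 h1 h2
    have l1 : (seg x a b).length = b - a := by rw [seg_length]; omega
    have l2 : (seg y P Q).length = Q - P := by rw [seg_length]; omega
    rw [l1] at hi h1 h2
    rw [l2] at hj h2
    unfold lcB
    refine Runs.seq (n := 1) (m := 5 * Lv + 4) (R := fun s' => s' = s.setReg 0 (a + i))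
      (Runs.set (by simp [h0, h.h8]; omega) (by simp [h0, h.h8, add_comm])) ?_ (by omega)
    rintro s1 rfl
    refine Runs.seq (n := 1) (m := 5 * Lv + 3)
      (R := fun s' => s' = (s.setReg 0 (a + i)).setReg 1 (x.length + (P + j)))
      (Runs.set (by simp [h1, h.h9]; omega) (by
        have e1 : b - a + j + (x.length + P) - (b - a) = x.length + (P + j) := by omega
        simp [h1, h.h9, h.h10, e1])) ?_ (by omega)
    rintro s2 rfl
    set s2 := (s.setReg 0 (a + i)).setReg 1 (x.length + (P + j)) with hs2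
    have k0 : s2.reg 0 = a + i := by simp [hs2]
    have k1 : s2.reg 1 = x.length + (P + j) := by simp [hs2]
    have k2 : s2.reg 2 = min (b - a - i) (Q - P - j) := by simp [hs2, h2]
    have k3 : s2.reg 3 = x.length + y.length := by simp [hs2, h.h3]
    have k4 : s2.reg 4 = Lv := by simp [hs2, h.h4]
    have k8 : s2.reg 8 = a := by simp [hs2, h.h8]
    have k9 : s2.reg 9 = x.length + P := by simp [hs2, h.h9]
    have k10 : s2.reg 10 = b - a := by simp [hs2, h.h10]
    have kt : IsTab (LceA508.cat x y) (x.length + y.length) (s2.arr 14) := by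
      simpa [hs2] using h.tab
    have A := lceC_runs e (LceA508.cat x y) (s2.view (fun x => x) (· + 14)) (by
        simpa [k3] using kt) (by simp [k3, k0, k2]; omega) (by simp [k3, k1, k2]; omega)
      (by simp [k3, k4]; omega) (by simpa [k3, k4] using hL)
      (by simpa [k3, k4] using hB) (by simpa [k3, k4] using hB2)
    have B := Runs.ren (s := s2) (f := fun x => x) (g := (· + 14)) (fun a b h => h)
      (add_left_injective 14) A
    refine B.mono (by simp [k4]) ?_
    rintro s' ⟨⟨⟨f1, f2, f3⟩, f4⟩, f5, f6, -⟩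
    have w : ∀ z, z ≠ 5 → z ≠ 6 → z ≠ 7 → s'.reg z = s2.reg z := fun z z5 z6 z7 =>
      f5 z (by intro y hy; rw [lceC_wr] at hy; omega)
    refine ⟨?_, ?_, ?_, ?_, ?_, ?_, ?_⟩
    · simp only [State.view_reg, k0, k1, k2] at f4
      rw [f4, lce_seg_eq hb hab hQ hPQ hi hj]
    · rw [w 3 (by omega) (by omega) (by omega), k3]
    · rw [w 4 (by omega) (by omega) (by omega), k4]
    · rw [w 8 (by omega) (by omega) (by omega), k8]
    · rw [w 9 (by omega) (by omega) (by omega), k9]
    · rw [w 10 (by omega) (by omega) (by omega), k10]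
    · rw [f6 14 (fun j hj => absurd hj (lceC_wa j))]; exact kt


/-! ### the cost of a block -/

/-- the hypotheses on the machine -/
structure Mch (e : Env) (x y : List ℕ) (Lv D : ℕ) : Prop where
  hm : x.length + y.length < 2 ^ Lv
  hL : Lv * (x.length + y.length + 1) ≤ e.L
  hB : Lv * (x.length + y.length + 1) ≤ e.B
  hB2 : x.length + y.length + 2 ^ Lv < e.B
  hB3 : 4 * (x.length + y.length + D + 4) < e.B
  hL2 : 2 * D + 3 ≤ e.L

/-- the input of `gB` -/
structure InB (x y : List ℕ) (Lv D a b P Q : ℕ) (s : State) : Prop where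
  h42 : s.reg 42 = D
  h52 : s.reg 52 = a
  h53 : s.reg 53 = b
  h54 : s.reg 54 = P
  h55 : s.reg 55 = Q
  h56 : s.reg 56 = x.length
  h57 : s.reg 57 = x.length + y.length
  h58 : s.reg 58 = Lv
  tab : IsTab (LceA508.cat x y) (x.length + y.length) (s.arr 14)

/-- set the constants of the substrings -/
def preB : Cmd :=
  set 3 (var 57) ;; set 4 (var 58) ;; set 8 (var 52) ;; set 9 (var 56 + var 54) ;;
  set 10 (var 53 - var 52) ;; set 40 (var 53 - var 52) ;; set 41 (var 55 - var 54)

/-- **the cost of a block, if it is at most `D`** -/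
def gB : Cmd :=
  ite (le (var 54) (var 55)) (preB ;; lvC lcB)
    (set 48 (var 53 - var 52 + (var 54 - var 55)) ;;
      set 48 (var 48 - (var 48 - (var 42 + 1))))

/-- the cost of `gB` -/
def gCost (D Lv : ℕ) : ℕ := lvCost D (5 * Lv + 5) + 10

theorem gCost_le (D Lv : ℕ) : gCost D Lv ≤ 500 * ((D + 1) ^ 2 * (Lv + 1)) := by
  have h := lvCost_le D (5 * Lv + 5)
  have h1 : 1 ≤ (D + 1) ^ 2 * (Lv + 1) := Nat.one_le_iff_ne_zero.2 (by positivity)
  unfold gCost
  nlinarith [Nat.zero_le ((D + 1) ^ 2), Nat.zero_le ((D + 1) ^ 2 * Lv)]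

theorem gB_wr {z : ℕ} (h : gB.wr z) : z < 52 := by
  simp only [gB, preB, Cmd.wr] at h
  have h1 : (lvC lcB).wr z → z < 52 := by
    intro h
    have := lvC_wr (e := ⟨0, 0, fun _ => 0⟩) (x := seg ([] : List ℕ) 0 0) (y := seg ([] : List ℕ) 0 0)
      (Inv := fun _ => False) (cl := 0)
      ⟨fun z h => by have := lcB_wr h; omega, lcB_wa 40, fun _ _ h => absurd h id,
        fun _ h => absurd h id⟩ z h
    omega
  by_cases hc : (lvC lcB).wr z
  · exact h1 hc
  · simp [hc] at h
    omega

theorem gB_wa {k : ℕ} (h : gB.wa k) : k = 40 := by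
  simp only [gB, preB, Cmd.wa, false_or, or_false] at h
  rcases lvC_wa k h with h | h
  · exact absurd h (lcB_wa k)
  · exact h

theorem gB_det : gB.det := by
  simp [gB, preB, Cmd.det, lvC_det lcB_det]

theorem gB_runs {e : Env} {x y : List ℕ} {Lv D a b P Q : ℕ} (M : Mch e x y Lv D)
    (hb : b ≤ x.length) (hab : a ≤ b) (hP : P ≤ y.length) (hQ : Q ≤ y.length) {s : State}
    (h : InB x y Lv D a b P Q s) :
    Runs e gB s (gCost D Lv) (fun s' => s'.reg 48 = min (G x y a b P Q) (D + 1) ∧
      (∀ z, 52 ≤ z → s'.reg z = s.reg z) ∧ (∀ k, k ≠ 40 → s'.arr k = s.arr k)) := by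
  have l1 : (seg x a b).length = b - a := by rw [seg_length]; omega
  have hB3 := M.hB3
  have key : Runs e gB s (gCost D Lv) (fun s' => s'.reg 48 = min (G x y a b P Q) (D + 1)) := by
    unfold gB
    refine Runs.ite (n := lvCost D (5 * Lv + 5) + 8) ?_ ?_ ?_ (by unfold gCost; omega)
    · simp
    · intro hc
      simp [h.h54, h.h55] at hc
      have l2 : (seg y P Q).length = Q - P := by rw [seg_length]; omega
      refine Runs.seq (n := 7) (m := lvCost D (5 * Lv + 5)) (R := fun s' =>
        InvB x y Lv a b P s' ∧ s'.reg 40 = b - a ∧ s'.reg 41 = Q - P ∧ s'.reg 42 = D) ?_ ?_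
        (by omega)
      · rw [runs_iff_wp]
        simp [preB, h.h52, h.h53, h.h54, h.h55, h.h56, h.h57, h.h58, h.h42]
        refine ⟨by omega, ⟨by simp, by simp, by simp, by simp, by simp, ?_⟩⟩
        simpa using h.tab
      · rintro s1 ⟨i1, g40, g41, g42⟩
        refine (lvC_runs (lcB_spec M.hm M.hL M.hB M.hB2 (by omega) hb hab hQ hc)
          (D := D) (by rw [l1, l2]; omega) M.hL2 i1 (by rw [g40, l1]) (by rw [g41, l2]) g42).mono
          le_rfl ?_
        rintro s' ⟨f1, -⟩
        rw [f1, G_of_le _ _ _ _ hc]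
    · intro hc
      simp [h.h54, h.h55] at hc
      have e1 : G x y a b P Q = b - a + (P - Q) := by
        rw [G_of_ge _ _ _ _ (by omega), l1]
      rw [e1]
      refine Runs.time (n := 2) ?_ (by omega)
      rw [runs_iff_wp]
      simp [h.h52, h.h53, h.h54, h.h55, h.h42]
      omega
  refine key.frame.mono le_rfl ?_
  rintro s' ⟨g1, g2⟩
  exact ⟨g1, fun z hz => g2.reg z (fun hw => by have := gB_wr hw; omega),
    fun k hk => g2.arr k (fun hw => hk (gB_wa hw))⟩

/-! ### diagonals -/

/-- from diagonals to positions -/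
def preK : Cmd :=
  set 54 (var 52 + var 54 - var 59) ;; set 54 (var 54 - (var 54 - (var 57 - var 56))) ;;
  set 55 (var 53 + var 55 - var 59) ;; set 55 (var 55 - (var 55 - (var 57 - var 56)))

/-- **the cost of a block, diagonals `U - K`, `V - K`** -/
def gK : Cmd := preK ;; gB

theorem pos_shift (n a U K : ℕ) : pos n a ((U : ℤ) - K) = min (a + U - K) n := by
  unfold pos
  have : ((a : ℤ) + ((U : ℤ) - K)).toNat = a + U - K := by omega
  rw [this]

/-- the input of `gK` -/
structure InK (x y : List ℕ) (Lv D a b U V K : ℕ) (s : State) : Prop where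
  h42 : s.reg 42 = D
  h52 : s.reg 52 = a
  h53 : s.reg 53 = b
  h54 : s.reg 54 = U
  h55 : s.reg 55 = V
  h56 : s.reg 56 = x.length
  h57 : s.reg 57 = x.length + y.length
  h58 : s.reg 58 = Lv
  h59 : s.reg 59 = K
  tab : IsTab (LceA508.cat x y) (x.length + y.length) (s.arr 14)

theorem gK_wr {z : ℕ} (h : gK.wr z) : z < 56 := by
  simp only [gK, preK, Cmd.wr] at h
  by_cases hc : gB.wr z
  · have := gB_wr hc; omega
  · simp [hc] at h
    omega

theorem gK_wa {k : ℕ} (h : gK.wa k) : k = 40 := by
  simp only [gK, preK, Cmd.wa, false_or] at h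
  exact gB_wa h

theorem gK_det : gK.det := by simp [gK, preK, Cmd.det, gB_det]

theorem gK_runs {e : Env} {x y : List ℕ} {Lv D a b U V K : ℕ} (M : Mch e x y Lv D)
    (hb : b ≤ x.length) (hab : a ≤ b) (hU : a + U < e.B) (hV : b + V < e.B) {s : State}
    (h : InK x y Lv D a b U V K s) :
    Runs e gK s (gCost D Lv + 4) (fun s' =>
      s'.reg 48 = min (g x y a b ((U : ℤ) - K) ((V : ℤ) - K)) (D + 1) ∧
      (∀ z, 56 ≤ z → s'.reg z = s.reg z) ∧ (∀ k, k ≠ 40 → s'.arr k = s.arr k)) := by
  have hB3 := M.hB3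
  have key : Runs e gK s (gCost D Lv + 4) (fun s' =>
      s'.reg 48 = min (g x y a b ((U : ℤ) - K) ((V : ℤ) - K)) (D + 1)) := by
    unfold gK
    refine Runs.seq (n := 4) (m := gCost D Lv)
      (R := InB x y Lv D a b (min (a + U - K) y.length) (min (b + V - K) y.length)) ?_ ?_
      (by omega)
    · unfold preK
      rw [runs_iff_wp]
      simp [h.h52, h.h53, h.h54, h.h55, h.h56, h.h57, h.h59]
      refine ⟨by omega, by omega, ⟨?_, ?_, ?_, ?_, ?_, ?_, ?_, ?_, ?_⟩⟩
      · simp [h.h42]
      · simp [h.h52]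
      · simp [h.h53]
      · simp; omega
      · simp; omega
      · simp [h.h56]
      · simp [h.h57]
      · simp [h.h58]
      · simpa using h.tab
    · intro s1 i1
      refine (gB_runs M hb hab (min_le_right _ _) (min_le_right _ _) i1).mono le_rfl ?_
      rintro s' ⟨g1, -⟩
      rw [g1]
      unfold g
      rw [pos_shift, pos_shift]
  refine key.frame.mono le_rfl ?_
  rintro s' ⟨g1, g2⟩
  exact ⟨g1, fun z hz => g2.reg z (fun hw => by have := gK_wr hw; omega),
    fun k hk => g2.arr k (fun hw => hk (gK_wa hw))⟩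

/-- the blocks of `NodeA_785` -/
theorem gK_gn (x y : List ℕ) (h j : ℕ) (u v : ℤ) :
    NodeA785.gn x y h j u v = g x y (NodeA785.lo x.length h j) (NodeA785.hi x.length h j) u v :=
  rfl

/-! ### equality of a block with a stretch of `y` -/

/-- 48 := 0 if `x[a, b) = y[P, P + (b - a))`, else 1 -/
def eqB : Cmd :=
  set 3 (var 57) ;; set 4 (var 58) ;; set 0 (var 52) ;; set 1 (var 56 + var 54) ;;
  set 2 (var 53 - var 52) ;; lcI ;; ite (.eq (var 5) (var 53 - var 52)) (set 48 0) (set 48 1)

theorem eqB_wr {z : ℕ} (h : eqB.wr z) : z < 8 ∨ z = 48 := by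
  simp only [eqB, Cmd.wr] at h
  by_cases hc : lcI.wr z
  · have := lcI_wr hc; omega
  · simp [hc] at h
    omega

theorem eqB_wa (k : ℕ) : ¬ eqB.wa k := by
  simp [eqB, Cmd.wa, lcI_wa]

theorem eqB_det : eqB.det := by simp [eqB, Cmd.det, lcI_det]

theorem seg_eq_iff {x y : List ℕ} {a b P : ℕ} (hb : b ≤ x.length) (hab : a ≤ b)
    (hP : P + (b - a) ≤ y.length) :
    LceA508.lce (LceA508.cat x y) a (x.length + P) (b - a) = b - a ↔
      seg x a b = seg y P (P + (b - a)) := by
  have l1 : (seg x a b).length = b - a := by rw [seg_length]; omega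
  have l2 : (seg y P (P + (b - a))).length = b - a := by rw [seg_length]; omega
  have h0 := LceA508.le_lce_cat (x := x) (y := y) (i := a) (j := P) (l := b - a)
    (by omega) (by omega)
  rw [LceA508.le_lce_iff] at h0
  constructor
  · intro h
    have h1 : b - a ≤ LceA508.lce (LceA508.cat x y) a (x.length + P) (b - a) := h.ge
    rw [LceA508.le_lce_iff] at h1
    have h3 := (h0.1 ⟨by omega, h1.2⟩).2.2
    apply List.ext_getElem? 
    intro t
    by_cases ht : t < b - a
    · rw [getElem?_seg _ _ _ _ (by omega), getElem?_seg _ _ _ _ (by omega)]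
      exact h3 t ht
    · rw [List.getElem?_eq_none (by omega), List.getElem?_eq_none (by omega)]
  · intro h
    refine le_antisymm LceA508.lce_le ?_
    rw [LceA508.le_lce_iff]
    refine ⟨le_rfl, (h0.2 ⟨by omega, by omega, fun t ht => ?_⟩).2⟩
    rw [← getElem?_seg x a b t (by omega), ← getElem?_seg y P (P + (b - a)) t (by omega), h]

theorem eqB_runs {e : Env} {x y : List ℕ} {Lv D a b P Q : ℕ} (M : Mch e x y Lv D)
    (hb : b ≤ x.length) (hab : a ≤ b) (hP : P + (b - a) ≤ y.length) {s : State}
    (h : InB x y Lv D a b P Q s) :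
    Runs e eqB s (5 * Lv + 10) (fun s' =>
      s'.reg 48 = (if seg x a b = seg y P (P + (b - a)) then 0 else 1) ∧
      (∀ z, 8 ≤ z → z ≠ 48 → s'.reg z = s.reg z) ∧ (∀ k, s'.arr k = s.arr k)) := by
  have hB3 := M.hB3
  have key : Runs e eqB s (5 * Lv + 10) (fun s' =>
      s'.reg 48 = (if seg x a b = seg y P (P + (b - a)) then 0 else 1)) := by
    unfold eqB
    refine Runs.seq (n := 1) (m := 5 * Lv + 9) (R := fun s' => s' = s.setReg 3 (x.length + y.length))
      (Runs.set (by simp) (by simp [h.h57])) ?_ (by omega)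
    rintro s1 rfl
    refine Runs.seq (n := 1) (m := 5 * Lv + 8) (R := fun s' => s' =
      (s.setReg 3 (x.length + y.length)).setReg 4 Lv)
      (Runs.set (by simp) (by simp [h.h58])) ?_ (by omega)
    rintro s1 rfl
    refine Runs.seq (n := 1) (m := 5 * Lv + 7) (R := fun s' => s' =
      ((s.setReg 3 (x.length + y.length)).setReg 4 Lv).setReg 0 a)
      (Runs.set (by simp) (by simp [h.h52])) ?_ (by omega)
    rintro s1 rfl
    refine Runs.seq (n := 1) (m := 5 * Lv + 6) (R := fun s' => s' =
      (((s.setReg 3 (x.length + y.length)).setReg 4 Lv).setReg 0 a).setReg 1 (x.length + P))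
      (Runs.set (by simp [h.h56, h.h54]; omega) (by simp [h.h56, h.h54])) ?_ (by omega)
    rintro s1 rfl
    refine Runs.seq (n := 1) (m := 5 * Lv + 5) (R := fun s' => s' =
      ((((s.setReg 3 (x.length + y.length)).setReg 4 Lv).setReg 0 a).setReg 1
        (x.length + P)).setReg 2 (b - a))
      (Runs.set (by simp) (by simp [h.h52, h.h53])) ?_ (by omega)
    rintro s2 rfl
    set s2 := ((((s.setReg 3 (x.length + y.length)).setReg 4 Lv).setReg 0 a).setReg 1
        (x.length + P)).setReg 2 (b - a) with hs2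
    have k0 : s2.reg 0 = a := by simp [hs2]
    have k1 : s2.reg 1 = x.length + P := by simp [hs2]
    have k2 : s2.reg 2 = b - a := by simp [hs2]
    have k3 : s2.reg 3 = x.length + y.length := by simp [hs2]
    have k4 : s2.reg 4 = Lv := by simp [hs2]
    have kt : IsTab (LceA508.cat x y) (x.length + y.length) (s2.arr 14) := by
      simpa [hs2] using h.tab
    have A := lceC_runs e (LceA508.cat x y) (s2.view (fun x => x) (· + 14)) (by
        simpa [k3] using kt) (by simp [k3, k0, k2]; omega) (by simp [k3, k1, k2]; omega)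
      (by simp [k3, k4]; exact M.hm) (by simpa [k3, k4] using M.hL)
      (by simpa [k3, k4] using M.hB) (by simpa [k3, k4] using M.hB2)
    have B := Runs.ren (s := s2) (f := fun x => x) (g := (· + 14)) (fun a b h => h)
      (add_left_injective 14) A
    refine Runs.seq (n := 5 * Lv + 3) (m := 2) (R := fun s' =>
      s'.reg 5 = LceA508.lce (LceA508.cat x y) a (x.length + P) (b - a) ∧ s'.reg 52 = a ∧
        s'.reg 53 = b) (B.mono (by simp [k4]) ?_) ?_ (by omega)
    · rintro s' ⟨⟨⟨f1, f2, f3⟩, f4⟩, f5, f6, -⟩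
      refine ⟨?_, ?_, ?_⟩
      · simpa only [State.view_reg, k0, k1, k2] using f4
      · rw [f5 52 (by intro y hy; rw [lceC_wr] at hy; omega)]; simp [hs2, h.h52]
      · rw [f5 53 (by intro y hy; rw [lceC_wr] at hy; omega)]; simp [hs2, h.h53]
    · rintro s3 ⟨g5, g52, g53⟩
      have he := seg_eq_iff (x := x) (y := y) (a := a) (b := b) (P := P) hb hab hP
      rw [runs_iff_wp]
      simp [g5, g52, g53]
      by_cases hc : seg x a b = seg y P (P + (b - a))
      · simp [hc, he.2 hc]
        omega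
      · simp [hc, he]
        omega
  refine key.frame.mono le_rfl ?_
  rintro s' ⟨g1, g2⟩
  exact ⟨g1, fun z hz hz' => g2.reg z (fun hw => by have := eqB_wr hw; omega),
    fun k => g2.arr k (eqB_wa k)⟩

end Crest.Agent.R288.LvBlk222
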