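import Crest.Agent.R288.LvB_12
import Crest.Agent.R288.Lce_508
import Crest.Agent.R288.KmrA_725

/-!
# R288, leaf [V]: the instance of `LceSpec` by the names table (helper12)

`lcI` = `Lce508.lceC` with its array `0` at `14`: variables `3 = M = |x| + |y|`, `4 = Lv` with
`M < 2 ^ Lv`, names table of `x ++ y` in array `14`.
-/

set_option autoImplicit false

namespace Crest.Agent.R288.Lv

open Crest.GraphRAM Crest.Agent.R288.Ed Crest.Agent.R295.HL Exp Cnd Cmd
open Crest.Agent.R288.LceA508 Crest.Agent.R288.Lce508 Crest.Agent.R288.Kmr725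

theorem isTab_of_names {S T : ℕ → ℕ} {M : ℕ} (h : Names S M T) : IsTab S M T :=
  fun k i j hi hj => (h k i hi).2 j hj

theorem IsTab.congr {S S' T : ℕ → ℕ} {M : ℕ} (h : IsTab S M T) (hS : ∀ i < M, S' i = S i) :
    IsTab S' M T := by
  intro k i j hi hj
  rw [h k i j hi hj]
  exact Sub.congr (fun t ht => (hS _ (by omega)).symm) fun t ht => (hS _ (by omega)).symm

/-- the two definitions of longest common extensions agree -/
theorem lce_cat_eq {x y : List ℕ} {i j : ℕ} (hi : i ≤ x.length) (hj : j ≤ y.length) :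
    LceA508.lce (cat x y) i (x.length + j) (min (x.length - i) (y.length - j)) = lce x y i j := by
  apply eq_of_forall_le_iff
  intro l
  rw [le_lce_cat hi hj, le_lce_iff hi hj]

/-- the command for longest common extensions -/
def lcI : Cmd := lceC.ren (fun x => x) (· + 14)

theorem lcI_det : lcI.det := Cmd.det_ren.2 lceC_det

theorem lcI_wr {z : ℕ} (h : lcI.wr z) : z = 5 ∨ z = 6 ∨ z = 7 := by
  obtain ⟨y, hy, rfl⟩ := Cmd.wr_ren h
  exact (lceC_wr y).1 hy

theorem lcI_wa (k : ℕ) : ¬ lcI.wa k := by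
  intro h
  obtain ⟨j, hj, _⟩ := Cmd.wa_ren h
  exact lceC_wa j hj

/-- the tables are in place -/
structure LcInv (x y : List ℕ) (Lv : ℕ) (s : State) : Prop where
  h3 : s.reg 3 = x.length + y.length
  h4 : s.reg 4 = Lv
  tab : IsTab (cat x y) (x.length + y.length) (s.arr 14)

theorem lcI_spec {e : Env} {x y : List ℕ} {Lv : ℕ} (hm : x.length + y.length < 2 ^ Lv)
    (hL : Lv * (x.length + y.length + 1) ≤ e.L) (hB : Lv * (x.length + y.length + 1) ≤ e.B)
    (hB2 : x.length + y.length + 2 ^ Lv < e.B) :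
    LceSpec e x y lcI (5 * Lv + 3) (LcInv x y Lv) where
  wr := fun z h => by have := lcI_wr h; omega
  wa := lcI_wa 40
  stable := by
    intro s s' h hr ha
    exact ⟨(hr 3 (by omega) (by omega)).trans h.h3, (hr 4 (by omega) (by omega)).trans h.h4,
      by rw [ha 14 (by omega)]; exact h.tab⟩
  run := by
    intro s h i j hi hj h0 h1 h2
    have A := lceC_runs e (cat x y) (s.view (fun x => x) (· + 14)) (by
        simpa [h.h3] using h.tab) (by simp [h.h3, h0, h2]; omega) (by simp [h.h3, h1, h2]; omega)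
      (by simp [h.h3, h.h4]; omega) (by simpa [h.h3, h.h4] using hL)
      (by simpa [h.h3, h.h4] using hB) (by simpa [h.h3, h.h4] using hB2)
    have B := Runs.ren (s := s) (f := fun x => x) (g := (· + 14)) (fun a b h => h)
      (add_left_injective 14) A
    refine B.mono (by simp [h.h4]) ?_
    rintro s' ⟨⟨⟨f1, f2, f3⟩, f4⟩, f5, f6, -⟩
    refine ⟨?_, ?_, ?_, ?_⟩
    · simp only [State.view_reg, h0, h1, h2] at f4
      rw [f4, lce_cat_eq hi hj]
    · rw [f5 3 (by intro y hy; rw [lceC_wr] at hy; omega)]; exact h.h3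
    · rw [f5 4 (by intro y hy; rw [lceC_wr] at hy; omega)]; exact h.h4
    · rw [f6 14 (fun j hj => absurd hj (lceC_wa j))]; exact h.tab

end Crest.Agent.R288.Lv
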