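import Crest.Agent.R288.LvC_12

/-!
# R288: bounded edit distance of two substrings from the names table (helper488)

`lvSeg` computes `min (editDist (sg S p lx) (sg S q ly)) (D + 1)`, where `S` is any string with a
names table in array `14` (in the main program `S = cat x y`) and `sg S p l` is the block of length
`l` at `p`, at cost `lvSegCost D Lv = O((D + 1)^2 (Lv + 1))`, independent of the lengths.

Numbers.  Input: `3 = M`, `4 = Lv` (`M < 2 ^ Lv`), `8 = p`, `9 = q`, `40 = lx`, `41 = ly`,
`42 = D`, names table in array `14`.  Result `48`.  Scratch: variables `0 1 2 5 6 7 10`,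
`43 .. 51`, array `40`.
-/

set_option autoImplicit false

namespace Crest.Agent.R288.LvS488

open Crest.GraphRAM Crest.Agent.R288.Ed Crest.Agent.R295.HL Exp Cnd Cmd
open Crest.Agent.R288.Lv Crest.Agent.R288.LceA508 Crest.Agent.R288.Lce508

/-! ### blocks -/

/-- the block of length `l` at `p` -/
def sg (S : ℕ → ℕ) (p l : ℕ) : List ℕ := (List.range l).map fun t => S (p + t)

variable {S : ℕ → ℕ} {p q l lx ly M Lv D : ℕ}

@[simp] theorem sg_length : (sg S p l).length = l := by simp [sg]

theorem sg_get? {t : ℕ} (h : t < l) : (sg S p l)[t]? = some (S (p + t)) := by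
  simp [sg, h]

theorem sg_zero : sg S p 0 = [] := by simp [sg]

theorem sg_congr {S' : ℕ → ℕ} (h : ∀ t < l, S (p + t) = S' (p + t)) : sg S p l = sg S' p l := by
  unfold sg
  refine List.map_congr_left fun t ht => h t (List.mem_range.1 ht)

theorem sg_add (a b : ℕ) : sg S p (a + b) = sg S p a ++ sg S (p + a) b := by
  apply List.ext_getElem?
  intro t
  rcases Nat.lt_or_ge t a with h1 | h1
  · rw [sg_get? (by omega), List.getElem?_append_left (by simpa using h1), sg_get? h1]
  · rcases Nat.lt_or_ge t (a + b) with h2 | h2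
    · rw [sg_get? h2, List.getElem?_append_right (by simpa using h1), sg_get? (by simp; omega)]
      simp only [sg_length]
      congr 2
      omega
    · rw [List.getElem?_eq_none (by simpa using h2), List.getElem?_eq_none (by simpa using h2)]

/-- a block of `x` -/
theorem sg_cat_left {x y : List ℕ} (h : p + l ≤ x.length) :
    sg (cat x y) p l = (x.drop p).take l := by
  apply List.ext_getElem?
  intro t
  rcases Nat.lt_or_ge t l with h1 | h1
  · rw [sg_get? h1, List.getElem?_take_of_lt h1, List.getElem?_drop]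
    have h2 : p + t < x.length := by omega
    rw [List.getElem?_eq_getElem h2]
    simp [cat, List.getElem?_append_left h2, List.getElem?_eq_getElem h2]
  · rw [List.getElem?_eq_none (by simpa using h1), List.getElem?_eq_none (by simp; omega)]

/-- a block of `y` -/
theorem sg_cat_right {x y : List ℕ} (h : q + l ≤ y.length) :
    sg (cat x y) (x.length + q) l = (y.drop q).take l := by
  apply List.ext_getElem?
  intro t
  rcases Nat.lt_or_ge t l with h1 | h1
  · rw [sg_get? h1, List.getElem?_take_of_lt h1, List.getElem?_drop]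
    rw [List.getElem?_eq_getElem (by omega : q + t < y.length)]
    simp [cat, List.getElem?_append_right (by omega : x.length ≤ x.length + q + t),
      show x.length + q + t - x.length = q + t by omega,
      List.getElem?_eq_getElem (by omega : q + t < y.length)]
  · rw [List.getElem?_eq_none (by simpa using h1), List.getElem?_eq_none (by simp; omega)]

/-- longest common extensions in blocks -/
theorem lce_sg {i j : ℕ} (hi : i ≤ lx) (hj : j ≤ ly) :
    LceA508.lce S (p + i) (q + j) (min (lx - i) (ly - j)) =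
      Crest.Agent.R288.Lv.lce (sg S p lx) (sg S q ly) i j := by
  apply eq_of_forall_le_iff
  intro l
  rw [LceA508.le_lce_iff, Crest.Agent.R288.Lv.le_lce_iff (by simpa using hi) (by simpa using hj)]
  simp only [sg_length]
  constructor
  · rintro ⟨h1, h2⟩
    refine ⟨by omega, by omega, fun t ht => ?_⟩
    rw [sg_get? (by omega), sg_get? (by omega), ← add_assoc, ← add_assoc, h2 t ht]
  · rintro ⟨h1, h2, h3⟩
    refine ⟨by omega, fun t ht => ?_⟩
    have := h3 t ht
    rw [sg_get? (by omega), sg_get? (by omega), Option.some.injEq] at this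
    rw [add_assoc, add_assoc]
    exact this

/-! ### the command -/

/-- longest common extensions of the block of length `var 10` at `var 8` and the block at
`var 9` -/
def lcS : Cmd := set 0 (var 0 + var 8) ;; set 1 (var 1 + var 9 - var 10) ;; lcI

theorem lcS_det : lcS.det := ⟨trivial, trivial, lcI_det⟩

theorem lcS_wr {z : ℕ} (h : lcS.wr z) : z = 0 ∨ z = 1 ∨ z = 5 ∨ z = 6 ∨ z = 7 := by
  simp only [lcS, Cmd.wr_seq, Cmd.wr_set] at h
  rcases h with h | h | h
  · omega
  · omega
  · have := lcI_wr h; omega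

theorem lcS_wa (k : ℕ) : ¬ lcS.wa k := by
  simp [lcS, lcI_wa]

/-- the tables are in place -/
structure SgInv (S : ℕ → ℕ) (M Lv p q lx : ℕ) (s : State) : Prop where
  h3 : s.reg 3 = M
  h4 : s.reg 4 = Lv
  h8 : s.reg 8 = p
  h9 : s.reg 9 = q
  h10 : s.reg 10 = lx
  tab : IsTab S M (s.arr 14)

theorem lcI_run {e : Env} {s : State} (hm : M < 2 ^ Lv) (hL : Lv * (M + 1) ≤ e.L)
    (hB : Lv * (M + 1) ≤ e.B) (hB2 : M + 2 ^ Lv < e.B) (h3 : s.reg 3 = M) (h4 : s.reg 4 = Lv)
    (tab : IsTab S M (s.arr 14)) {a b c : ℕ} (h0 : s.reg 0 = a) (h1 : s.reg 1 = b)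
    (h2 : s.reg 2 = c) (ha : a + c ≤ M) (hb : b + c ≤ M) :
    Runs e lcI s (5 * Lv + 3) (fun s' => s'.reg 5 = LceA508.lce S a b c) := by
  have A := lceC_runs e S (s.view (fun x => x) (· + 14)) (by
      simpa [h3] using tab) (by simp [h3, h0, h2]; omega) (by simp [h3, h1, h2]; omega)
    (by simp [h3, h4]; omega) (by simpa [h3, h4] using hL)
    (by simpa [h3, h4] using hB) (by simpa [h3, h4] using hB2)
  have B := Runs.ren (s := s) (f := fun x => x) (g := (· + 14)) (fun a b h => h)
    (add_left_injective 14) A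
  refine B.mono (by simp [h4]) ?_
  rintro s' ⟨⟨⟨f1, f2, f3⟩, f4⟩, f5, f6, -⟩
  simp only [State.view_reg, h0, h1, h2] at f4
  exact f4

theorem lcS_spec {e : Env} (hp : p + lx ≤ M) (hq : q + ly ≤ M) (hm : M < 2 ^ Lv)
    (hL : Lv * (M + 1) ≤ e.L) (hB : Lv * (M + 1) ≤ e.B) (hB2 : 2 * M + 2 ^ Lv < e.B) :
    LceSpec e (sg S p lx) (sg S q ly) lcS (5 * Lv + 5) (SgInv S M Lv p q lx) where
  wr := fun z h => by have := lcS_wr h; omega
  wa := lcS_wa 40
  stable := by
    intro s s' h hr ha
    exact ⟨(hr 3 (by omega) (by omega)).trans h.h3, (hr 4 (by omega) (by omega)).trans h.h4,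
      (hr 8 (by omega) (by omega)).trans h.h8, (hr 9 (by omega) (by omega)).trans h.h9,
      (hr 10 (by omega) (by omega)).trans h.h10, by rw [ha 14 (by omega)]; exact h.tab⟩
  run := by
    intro s h i j hi hj h0 h1 h2
    simp only [sg_length] at hi hj h1 h2
    obtain ⟨k3, k4, k8, k9, k10, tab⟩ := id h
    unfold lcS
    refine Runs.seq (n := 1) (m := 5 * Lv + 4) (R := fun s' => s' = s.setReg 0 (p + i))
      (Runs.set (by simp [h0, k8]; omega) (by simp [h0, k8]; congr 1; omega)) ?_ (by omega)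
    rintro s1 rfl
    refine Runs.seq (n := 1) (m := 5 * Lv + 3)
      (R := fun s' => s' = (s.setReg 0 (p + i)).setReg 1 (q + j))
      (Runs.set (by simp [h1, k9]; omega)
        (by simp [h1, k9, k10]; congr 1; omega)) ?_ (by omega)
    rintro s2 rfl
    have A := (lcI_run (S := S) (e := e) (M := M) (Lv := Lv)
      (s := (s.setReg 0 (p + i)).setReg 1 (q + j)) hm hL hB (by omega) (by simp [k3])
      (by simp [k4]) (by simpa using tab) (a := p + i) (b := q + j)
      (c := min (lx - i) (ly - j)) (by simp) (by simp) (by simp [h2]) (by omega)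
      (by omega)).frame
    refine A.post ?_
    rintro s' ⟨f1, f2⟩
    have g : ∀ z, z ≠ 0 → z ≠ 1 → z ≠ 5 → z ≠ 6 → z ≠ 7 → s'.reg z = s.reg z := by
      intro z a0 a1 a5 a6 a7
      rw [f2.reg z (fun hh => by have := lcI_wr hh; omega)]
      simp [a0, a1]
    refine ⟨by rw [f1, lce_sg hi hj], ?_, ?_, ?_, ?_, ?_, ?_⟩
    · rw [g 3 (by omega) (by omega) (by omega) (by omega) (by omega)]; exact k3
    · rw [g 4 (by omega) (by omega) (by omega) (by omega) (by omega)]; exact k4
    · rw [g 8 (by omega) (by omega) (by omega) (by omega) (by omega)]; exact k8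
    · rw [g 9 (by omega) (by omega) (by omega) (by omega) (by omega)]; exact k9
    · rw [g 10 (by omega) (by omega) (by omega) (by omega) (by omega)]; exact k10
    · rw [f2.arr 14 (lcI_wa 14)]; exact tab

/-- bounded edit distance of two blocks -/
def lvSeg : Cmd := set 10 (var 40) ;; lvC lcS

/-- its cost -/
def lvSegCost (D Lv : ℕ) : ℕ := lvCost D (5 * Lv + 5) + 1

theorem lvSegCost_le (D Lv : ℕ) : lvSegCost D Lv ≤ 370 * ((D + 1) ^ 2 * (Lv + 1)) := by
  unfold lvSegCost
  have h := lvCost_le D (5 * Lv + 5)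
  have h1 : 1 ≤ (D + 1) ^ 2 := Nat.one_le_pow _ _ (by omega)
  nlinarith [Nat.mul_le_mul h1 (Nat.le_refl (Lv + 1))]

theorem lvSeg_det : lvSeg.det := ⟨trivial, lvC_det lcS_det⟩

/-- the specification with its frame -/
theorem lvSeg_runs {e : Env} (hp : p + lx ≤ M) (hq : q + ly ≤ M) (hm : M < 2 ^ Lv)
    (hL : Lv * (M + 1) ≤ e.L) (hB : Lv * (M + 1) ≤ e.B) (hB2 : 2 * M + 2 ^ Lv < e.B)
    (hB3 : 4 * (lx + ly + D + 4) < e.B) (hL3 : 2 * D + 3 ≤ e.L) {s : State}
    (h3 : s.reg 3 = M) (h4 : s.reg 4 = Lv) (h8 : s.reg 8 = p) (h9 : s.reg 9 = q)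
    (h40 : s.reg 40 = lx) (h41 : s.reg 41 = ly) (h42 : s.reg 42 = D)
    (tab : IsTab S M (s.arr 14)) :
    Runs e lvSeg s (lvSegCost D Lv) (fun s' =>
      s'.reg 48 = min (editDist (sg S p lx) (sg S q ly)) (D + 1) ∧
      (∀ z, z ≠ 0 → z ≠ 1 → z ≠ 2 → z ≠ 5 → z ≠ 6 → z ≠ 7 → z ≠ 10 → ¬ (43 ≤ z ∧ z ≤ 51) →
        s'.reg z = s.reg z) ∧
      (∀ k, k ≠ 40 → s'.arr k = s.arr k) ∧ s'.drawn = s.drawn) := by
  have H := lcS_spec (S := S) (e := e) (ly := ly) hp hq hm hL hB hB2
  have A : Runs e lvSeg s (lvSegCost D Lv) (fun s' =>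
      s'.reg 48 = min (editDist (sg S p lx) (sg S q ly)) (D + 1)) := by
    unfold lvSeg lvSegCost
    refine Runs.seq (n := 1) (m := lvCost D (5 * Lv + 5)) (R := fun s' => s' = s.setReg 10 lx)
      (Runs.set (by simp) (by simp [h40])) ?_ (by omega)
    rintro s1 rfl
    refine (lvC_runs H (D := D) (by simpa using hB3) hL3 (s := s.setReg 10 lx)
      ⟨by simp [h3], by simp [h4], by simp [h8], by simp [h9], by simp, by simpa using tab⟩
      (by simp [h40]) (by simp [h41]) (by simp [h42])).post fun s' h => h.1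
  refine A.frame.post ?_
  rintro s' ⟨f1, f2⟩
  refine ⟨f1, fun z a0 a1 a2 a5 a6 a7 a10 a4 => f2.reg z ?_, fun k hk => f2.arr k ?_,
    f2.drawn lvSeg_det⟩
  · intro h
    simp only [lvSeg, Cmd.wr_seq, Cmd.wr_set] at h
    rcases h with h | h
    · exact a10 h.symm
    · simp [lvC, initC, loopC, levC, bodyC, rdC, candC, argC] at h
      have h7 : ¬ lcS.wr z := fun hh => by have := lcS_wr hh; omega
      simp only [h7, or_false] at h
      omega
  · intro h
    simp only [lvSeg, Cmd.wa_seq, Cmd.wa_set, false_or] at h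
    rcases lvC_wa k h with h | h
    · exact lcS_wa k h
    · exact hk h

end Crest.Agent.R288.LvS488
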