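import Crest.Agent.R288.WinNear_482
import Crest.Agent.R288.PlanK_693
import Crest.Agent.R288.ParO_331

/-!
# R288: the numbers of the near windows for the parameter table (helper283)

`P = ParO331.parOf h`, `ParOK C h`, `100 ≤ C`; `b ≤ 8/2^bb`, `ν ≤ 1/2^bb`, `ζ ≤ 2^(-4 Lg)`,
`c1 + 2 c2 + 1 ≤ 2^(4 Lg)`, `2^lam ≤ F x`, `2^κ ≤ 2 F x`.

* `clip_le`, `oscc_le`, `root_le`, `beta_le` : the numeric lines of the oscillation;
* **`nearNum`** : `WinNear482.NearNum (parOf h) F κ x b ν ζ c1 c2 0 (sP (parOf h))`.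
-/

set_option autoImplicit false

namespace Crest.Agent.R288.NearN283

open Crest.Agent.R288.Alg45 Crest.Agent.R288.ParO331
open Crest.Agent.R288.Par806 (ParOK nn δi sb Lg Mg W bb gam gg um dl lam KK pm Lg_pos Mg_pos W_pos)
open Crest.Agent.R288.PlanK693 (sP PlanNum planNum)
open Crest.Agent.R288.WinNear482 (NearNum)

attribute [local irreducible] Par806.nn Par806.sb Par806.bb Par806.gam Par806.gg Par806.um
  Par806.dl Par806.lam Par806.KK Par806.pm Par806.δi Par806.Lg Par806.Mg Par806.W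

variable {C h : ℕ}

theorem bb_ge (h : ℕ) : 12 ≤ bb h := by
  have := Mg_pos h
  unfold bb
  omega

theorem two_pow_bb (h : ℕ) : (4096 : ℝ) ≤ 2 ^ bb h := by
  calc (4096 : ℝ) = 2 ^ 12 := by norm_num
    _ ≤ 2 ^ bb h := pow_le_pow_right₀ (by norm_num) (bb_ge h)

/-- the clip against the table -/
theorem clipNat (hp : ParOK C h) :
    C * (gam h * (gg h * (nn h + 1))) ≤ 2 ^ bb h ∧
      C * (gam h * (gg h * (nn h + 1))) * 4 ^ nn h ≤ 2 ^ sb h := by
  have h1 : 0 < W h ^ 10 * Lg h ^ 2 := by have := W_pos h; have := Lg_pos h; positivity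
  constructor
  · refine le_trans ?_ hp.osc
    calc C * (gam h * (gg h * (nn h + 1))) ≤ C * (gam h * (gg h * (nn h + 1))) * (W h ^ 10 * Lg h ^ 2) :=
          Nat.le_mul_of_pos_right _ h1
      _ = C * W h ^ 10 * Lg h ^ 2 * (gam h * gg h * (nn h + 1)) := by ring
  · refine le_trans ?_ hp.osc'
    calc C * (gam h * (gg h * (nn h + 1))) * 4 ^ nn h
        ≤ C * (gam h * (gg h * (nn h + 1))) * 4 ^ nn h * (W h ^ 10 * Lg h ^ 2) :=
          Nat.le_mul_of_pos_right _ h1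
      _ = C * W h ^ 10 * Lg h ^ 2 * (gam h * gg h * (nn h + 1)) * 4 ^ nn h := by ring

/-! ### algebra -/

theorem bnu_alg {b ν ζ B : ℝ} (hb0 : 0 ≤ b) (hb : b * B ≤ 8) (hν0 : 0 ≤ ν)
    (hν : ν * B ≤ 1) (hζ : ζ ≤ 1) (hB : 0 ≤ B) : (b + ν) * (1 + ζ) * B ≤ 18 := by
  have h1 : (b + ν) * (1 + ζ) ≤ (b + ν) * 2 := mul_le_mul_of_nonneg_left (by linarith) (by linarith)
  have h2 := mul_le_mul_of_nonneg_right h1 hB
  have h3 : (b + ν) * 2 * B = 2 * (b * B) + 2 * (ν * B) := by ring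
  linarith

theorem beta_alg {β B : ℝ} (h : β * B ≤ 18) (hB : 18 ≤ B) : β ≤ 1 := by
  by_contra hc
  push Not at hc
  have h1 : 1 * B < β * B := mul_lt_mul_of_pos_right hc (by linarith)
  linarith

theorem le_one_alg {ν B : ℝ} (h0 : 0 ≤ ν) (h : ν * B ≤ 1) (hB : 1 ≤ B) : ν ≤ 1 := by
  have h1 := mul_le_mul_of_nonneg_left hB h0
  linarith

theorem clip_alg {C M B S Q β : ℝ} (hC : 100 ≤ C) (hM : 0 ≤ M) (hS : 0 < S) (hQ : 0 ≤ Q)
    (h1 : C * M ≤ B) (h2 : C * M * Q ≤ S) (hβ : 0 ≤ β) (h3 : β * B ≤ 18) :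
    (24 * Q / S + 2 * β) * M ≤ 1 := by
  have hCM : 100 * M ≤ C * M := mul_le_mul_of_nonneg_right hC hM
  have e1 : 24 * Q / S * M ≤ 24 / 100 := by
    rw [div_mul_eq_mul_div, div_le_div_iff₀ hS (by norm_num)]
    have h4 := mul_le_mul_of_nonneg_right hCM hQ
    have e : 24 * Q * M * 100 = 24 * (100 * M * Q) := by ring
    rw [e]
    linarith
  have e2 : 2 * β * M ≤ 36 / 100 := by
    have h4 := mul_le_mul_of_nonneg_left (hCM.trans h1) hβ
    have e : β * (100 * M) = 50 * (2 * β * M) := by ring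
    rw [e] at h4
    linarith
  rw [add_mul]
  linarith

/-- `(b + ν) (1 + ζ) ≤ 18 / 2^bb` -/
theorem bnu_le {b ν ζ : ℝ} (hb0 : 0 ≤ b) (hb : b * 2 ^ bb h ≤ 8) (hν0 : 0 ≤ ν)
    (hν : ν * 2 ^ bb h ≤ 1) (hζ : ζ ≤ 1) : (b + ν) * (1 + ζ) * 2 ^ bb h ≤ 18 :=
  bnu_alg hb0 hb hν0 hν hζ (by positivity)

theorem beta_le {b ν ζ : ℝ} (hb0 : 0 ≤ b) (hb : b * 2 ^ bb h ≤ 8) (hν0 : 0 ≤ ν)
    (hν : ν * 2 ^ bb h ≤ 1) (hζ : ζ ≤ 1) : (b + ν) * (1 + ζ) ≤ 1 :=
  beta_alg (bnu_le hb0 hb hν0 hν hζ)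
    (le_trans (by norm_num) (two_pow_bb h))

/-- **no clip at the inner nodes** -/
theorem clip_le (hp : ParOK C h) (hC : 100 ≤ C) {b ν ζ : ℝ} (hb0 : 0 ≤ b)
    (hb : b * 2 ^ bb h ≤ 8) (hν0 : 0 ≤ ν) (hν : ν * 2 ^ bb h ≤ 1) (hζ0 : 0 ≤ ζ) (hζ : ζ ≤ 1) :
    (24 * 4 ^ nn h / 2 ^ sb h + 2 * ((b + ν) * (1 + ζ)))
      * (gam h * ((gg h * (nn h + 1) : ℕ) : ℝ)) ≤ 1 := by
  obtain ⟨h1, h2⟩ := clipNat hp
  have h1' : ((C : ℝ) * (gam h * ((gg h * (nn h + 1) : ℕ) : ℝ))) ≤ 2 ^ bb h := by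
    exact_mod_cast h1
  have h2' : ((C : ℝ) * (gam h * ((gg h * (nn h + 1) : ℕ) : ℝ))) * 4 ^ nn h ≤ 2 ^ sb h := by
    exact_mod_cast h2
  exact clip_alg (by exact_mod_cast hC) (mul_nonneg (Nat.cast_nonneg _) (Nat.cast_nonneg _))
    (by positivity) (by positivity) h1' h2' (mul_nonneg (by linarith) (by linarith))
    (bnu_le hb0 hb hν0 hν hζ)

/-- the near radius of an active state is large -/
theorem radius_ge (hp : ParOK C h) (hC : 100 ≤ C) {f : ℝ} (hf : 2 ^ lam h ≤ f) :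
    (2 : ℝ) ^ (4 * Lg h) ≤ 1 / 2 ^ sb h * f ∧ (2 : ℝ) ^ nn h * 2 ^ (4 * Lg h) ≤ f := by
  have hl := hp.lam_ge
  have a1 : 100 * Lg h ≤ C * Lg h := Nat.mul_le_mul_right _ hC
  have a2 : 100 * nn h ≤ C * nn h := Nat.mul_le_mul_right _ hC
  constructor
  · rw [one_div, ← div_eq_inv_mul, le_div_iff₀ (by positivity), ← pow_add]
    exact (pow_le_pow_right₀ (by norm_num) (by omega)).trans hf
  · rw [← pow_add]
    exact (pow_le_pow_right₀ (by norm_num) (by omega)).trans hf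

/-- **additive constants against the near radius** -/
theorem oscc_le (hp : ParOK C h) (hC : 100 ≤ C) {f k c1 c2 : ℝ} (hf : 2 ^ lam h ≤ f)
    (hk : k ≤ 2 * f) (hc : c1 + 2 * c2 ≤ 2 ^ (4 * Lg h)) :
    c1 + 2 * c2 + 4 * (k / 2 ^ dl h) ≤ 2 * (1 / 2 ^ sb h * f) := by
  have h1 := (radius_ge hp hC hf).1
  have hd := hp.dl_ge
  have hf0 : 0 ≤ f := le_trans (by positivity) hf
  have hL := Lg_pos h
  have a1 : 100 * Lg h ≤ C * Lg h := Nat.mul_le_mul_right _ hC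
  have h2 : 4 * (k / 2 ^ dl h) ≤ 1 / 2 ^ sb h * f := by
    have h3 : 4 * (k / 2 ^ dl h) ≤ 4 * (2 * f / 2 ^ dl h) := by
      have := div_le_div_of_nonneg_right hk (show (0 : ℝ) ≤ 2 ^ dl h by positivity)
      linarith
    have h4 : 4 * (2 * f / 2 ^ dl h) = f * (2 ^ 3 / 2 ^ dl h) := by ring
    have h5 : (2 : ℝ) ^ 3 / 2 ^ dl h ≤ 1 / 2 ^ sb h := by
      rw [div_le_div_iff₀ (by positivity) (by positivity), one_mul, ← pow_add]
      exact pow_le_pow_right₀ (by norm_num) (by omega)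
    have h6 := mul_le_mul_of_nonneg_left h5 hf0
    linarith
  linarith

/-- **no clip at the root** -/
theorem root_le (hp : ParOK C h) (hC : 100 ≤ C) {f ν c1 c2 : ℝ} (hf : 2 ^ lam h ≤ f)
    (hν : ν ≤ 1) (hc : c1 + c2 + 1 ≤ 2 ^ (4 * Lg h)) :
    ((gg h * (nn h + 1) : ℕ) : ℝ) * ((2 + ν) * (8 * f) + 2 ^ nn h * (c1 + c2 + 1))
      ≤ um h * (f + 1) := by
  have h1 := (radius_ge hp hC hf).2
  have hf0 : 0 ≤ f := le_trans (by positivity) hf
  have e : (um h : ℝ) = ((gg h * (nn h + 1) : ℕ) : ℝ) * 40 := by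
    unfold um Par806.Creg
    push_cast
    ring
  rw [e, mul_assoc]
  refine mul_le_mul_of_nonneg_left ?_ (Nat.cast_nonneg _)
  have h2 : (2 : ℝ) ^ nn h * (c1 + c2 + 1) ≤ 2 ^ nn h * 2 ^ (4 * Lg h) :=
    mul_le_mul_of_nonneg_left hc (by positivity)
  have h3 : (2 + ν) * (8 * f) ≤ 3 * (8 * f) := mul_le_mul_of_nonneg_right (by linarith) (by linarith)
  linarith

/-- **all numbers of one near window for the table** -/
theorem nearNum (hp : ParOK C h) (hC : 100 ≤ C) {F : St → ℕ} {κ : ℕ} {x : St}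
    {b ν ζ c1 c2 : ℝ} (hb0 : 0 ≤ b) (hb : b * 2 ^ bb h ≤ 8) (hν0 : 0 ≤ ν)
    (hν : ν * 2 ^ bb h ≤ 1) (hζ0 : 0 ≤ ζ) (hζ : ζ * 2 ^ (4 * Lg h) ≤ 1) (_hc1 : 0 ≤ c1)
    (hc2 : 0 ≤ c2) (hc : c1 + 2 * c2 + 1 ≤ 2 ^ (4 * Lg h)) (hκ : 2 ^ κ ≤ 2 * F x)
    (hF : 2 ^ lam h ≤ F x) :
    NearNum (parOf h) F κ x b ν ζ c1 c2 0 (sP (parOf h)) := by
  have hn : PlanNum (parOf h) ζ := planNum hp (by omega) rfl rfl rfl (by simp) (by simp) (by simp)
    hζ0 hζ
  have hF' : (2 : ℝ) ^ lam h ≤ F x := by exact_mod_cast hF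
  have hκ' : (2 : ℝ) ^ κ ≤ 2 * F x := by exact_mod_cast hκ
  have hF0 : (0 : ℝ) ≤ F x := Nat.cast_nonneg _
  have hν1 : ν ≤ 1 := le_one_alg hν0 hν (le_trans (by norm_num) (two_pow_bb h))
  have hζ1 : ζ ≤ 1 := hn.ζ1
  have hW := W_pos h
  have hL := Lg_pos h
  have hM := Mg_pos h
  have hgg : 0 < gg h := by unfold gg; positivity
  have hnn : 0 < nn h := by unfold nn; positivity
  have hG : 2 ≤ gg h * (nn h + 1) := by
    calc 2 = 1 * 2 := rfl
      _ ≤ gg h * (nn h + 1) := Nat.mul_le_mul hgg (by omega)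
  exact
    { r1 := hn.r1
      g0 := hgg
      G2 := hG
      γ0 := by show 0 < gam h; unfold gam; positivity
      um0 := by
        show 0 < um h
        unfold um
        exact Nat.mul_pos (Nat.mul_pos hgg (Nat.succ_pos _)) (by unfold Par806.Creg; omega)
      pm0 := by show 0 < pm h; unfold pm; omega
      K0 := hp.KK_pos
      δ4 := hn.δ4
      Creg1 := by simp
      Creg_du := by simp
      s0 := (PlanK693.sP_pos hn.δ4).le
      s1 := PlanK693.sP_le_one hn.δ4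
      ζ1 := hζ1
      small := by
        have h1 := mul_le_mul_of_nonneg_right hn.small hF0
        have h2 : ζ * (4 * F x + 3 * (2 * ((parOf h).r : ℝ) * 2 ^ κ))
            ≤ ζ * (4 * F x + 3 * (2 * ((parOf h).r : ℝ) * (2 * F x))) := by
          refine mul_le_mul_of_nonneg_left ?_ hζ0
          have := mul_le_mul_of_nonneg_left hκ'
            (mul_nonneg (by norm_num) (Nat.cast_nonneg _) : (0 : ℝ) ≤ 2 * ((parOf h).r : ℝ))
          linarith
        have e : 7 * sP (parOf h) * F x + (ζ * (4 * F x + 3 * (2 * ((parOf h).r : ℝ) * (2 * F x)))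
            + 2 * 0) = (7 * sP (parOf h) + ζ * (4 + 12 * (parOf h).r)) * F x := by ring
        linarith
      reg := by
        have h1 := mul_le_mul_of_nonneg_right hn.reg hF0
        have e : (1 + ζ) * ((1 + sP (parOf h)) * F x + 4 * (parOf h).N
            * (1 / 2 ^ (parOf h).sb * F x)) + (parOf h).N * 0
            = (1 + ζ) * ((1 + sP (parOf h)) + 4 * (parOf h).N * (1 / 2 ^ (parOf h).sb)) * F x := by
          ring
        linarith
      β1 := beta_le hb0 hb hν0 hν hζ1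
      oscc := by
        have h1 := oscc_le hp hC hF' hκ' (c1 := c1) (c2 := c2) (by linarith)
        simp only [mul_zero, add_zero, parOf_dl, parOf_sb]
        exact h1
      clip := by
        have h1 := clip_le hp hC hb0 hb hν0 hν hζ0 hζ1
        simpa using h1
      root := by
        have h1 := root_le hp hC hF' hν1 (c1 := c1) (c2 := c2) (by linarith)
        simpa using h1 }

end Crest.Agent.R288.NearN283
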