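import Mathlib

/-!
# R288: cost of nested ranks, greedy levels, windows and rounds (helper68)

Pure counting recursion behind #3987 (rows), #4082 and #4114/#4132: `C q h` = (normalised) expected
cost of one lane/table with index `q` (round, epoch, rank: one lexicographic natural number) at height
`h`. Calls of a lower index cost a factor `M` (poly L) each and may sit at any height `≤ h`; calls of
the same index go down and pay the growth function `E` (good profile: windows, greedy levels).

`rec_bound`: `C q h ≤ a (h+1) (1 + M (h+1)^2)^q E h`: the lower index calls do not multiply with the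
levels, so rounds nest directly.
-/

set_option autoImplicit false

namespace Crest.Agent.R288.Nest68

open Finset

/-- geometric sum -/
theorem geom_le {X c : ℝ} (hX : X = 1 + c) (q : ℕ) :
    c * ∑ i ∈ range q, X ^ i = X ^ q - 1 := by
  have h := mul_geom_sum X q
  have h1 : X - 1 = c := by linarith
  rw [h1] at h
  exact h

/-- **the nested recursion.** `C q h`: cost at index `q` and height `h`; `a`: fixed cost;
`M`: number of calls of a lower index per height; own index: if `C q t ≤ B E t` for all `t < h` then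
the own calls of `(q, h)` cost at most `B E h`. -/
theorem rec_bound (C : ℕ → ℕ → ℝ) (E : ℕ → ℝ) (a M : ℝ) (ha : 0 ≤ a) (hM : 0 ≤ M)
    (hE1 : ∀ h, 1 ≤ E h) (hEm : Monotone E)
    (own : ℕ → ℕ → ℝ)
    (hown : ∀ q h (B : ℝ), 0 ≤ B → (∀ t < h, C q t ≤ B * E t) → own q h ≤ B * E h)
    (hC : ∀ q h, C q h ≤ a + M * ∑ i ∈ range q, ∑ t ∈ range (h + 1), C i t + own q h)
    (H : ℕ) : ∀ q h, h ≤ H → C q h ≤ a * (h + 1) * (1 + M * (H + 1) ^ 2) ^ q * E h := by
  set X : ℝ := 1 + M * ((H : ℝ) + 1) ^ 2 with hX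
  have hX1 : 1 ≤ X := by
    have : 0 ≤ M * ((H : ℝ) + 1) ^ 2 := by positivity
    linarith
  have hX0 : 0 ≤ X := by linarith
  intro q
  induction q using Nat.strong_induction_on with
  | _ q ihq =>
    intro h
    induction h using Nat.strong_induction_on with
    | _ h ihh =>
      intro hH
      have hEh : 0 ≤ E h := le_trans zero_le_one (hE1 h)
      have hXq : 1 ≤ X ^ q := one_le_pow₀ hX1
      -- own calls
      have h1 : own q h ≤ a * h * X ^ q * E h := by
        refine hown q h (a * h * X ^ q) (by positivity) fun t ht => ?_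
        refine (ihh t ht (by omega)).trans ?_
        have h2 : ((t : ℝ) + 1) ≤ (h : ℝ) := by exact_mod_cast ht
        have hEt : 0 ≤ E t := le_trans zero_le_one (hE1 t)
        gcongr
      -- lower calls
      have h3 : M * ∑ i ∈ range q, ∑ t ∈ range (h + 1), C i t ≤ a * E h * (X ^ q - 1) := by
        have h4 : ∀ i ∈ range q, ∑ t ∈ range (h + 1), C i t
            ≤ (a * E h * ((H : ℝ) + 1) ^ 2) * X ^ i := by
          intro i hi
          have hi' : i < q := mem_range.1 hi
          calc ∑ t ∈ range (h + 1), C i t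
              ≤ ∑ t ∈ range (h + 1), a * ((H : ℝ) + 1) * X ^ i * E h := by
                refine sum_le_sum fun t ht => ?_
                have ht' : t < h + 1 := mem_range.1 ht
                refine (ihq i hi' t (by omega)).trans ?_
                have h5 : (t : ℝ) ≤ (H : ℝ) := by exact_mod_cast (show t ≤ H by omega)
                have h6 : E t ≤ E h := hEm (by omega)
                have hEt : 0 ≤ E t := le_trans zero_le_one (hE1 t)
                have h7 : 0 ≤ X ^ i := pow_nonneg hX0 i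
                gcongr
            _ = ((h : ℝ) + 1) * (a * ((H : ℝ) + 1) * X ^ i * E h) := by
                rw [sum_const, card_range, nsmul_eq_mul]
                push_cast
                ring
            _ ≤ ((H : ℝ) + 1) * (a * ((H : ℝ) + 1) * X ^ i * E h) := by
                have h5 : (h : ℝ) ≤ (H : ℝ) := by exact_mod_cast hH
                have h7 : 0 ≤ X ^ i := pow_nonneg hX0 i
                gcongr
            _ = (a * E h * ((H : ℝ) + 1) ^ 2) * X ^ i := by ring
        calc M * ∑ i ∈ range q, ∑ t ∈ range (h + 1), C i t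
            ≤ M * ∑ i ∈ range q, (a * E h * ((H : ℝ) + 1) ^ 2) * X ^ i :=
              mul_le_mul_of_nonneg_left (sum_le_sum h4) hM
          _ = a * E h * ((M * ((H : ℝ) + 1) ^ 2) * ∑ i ∈ range q, X ^ i) := by
              rw [← mul_sum]; ring
          _ = a * E h * (X ^ q - 1) := by
              rw [geom_le hX]
      calc C q h ≤ a + M * ∑ i ∈ range q, ∑ t ∈ range (h + 1), C i t + own q h := hC q h
        _ ≤ a + a * E h * (X ^ q - 1) + a * h * X ^ q * E h := by linarith
        _ ≤ a * E h + a * E h * (X ^ q - 1) + a * h * X ^ q * E h := by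
            have : a * 1 ≤ a * E h := mul_le_mul_of_nonneg_left (hE1 h) ha
            linarith
        _ = a * (h + 1) * X ^ q * E h := by ring

/-- own calls: any finite family of own calls at lower heights `t i` with multiplicities `m i ≥ 0`
such that `∑ m i E (t i) ≤ E h` -/
theorem own_of_family {ι : Type*} (s : Finset ι) (m : ι → ℝ) (t : ι → ℕ) (C E : ℕ → ℝ) (h : ℕ)
    (hm : ∀ i ∈ s, 0 ≤ m i) (ht : ∀ i ∈ s, t i < h) (hsum : ∑ i ∈ s, m i * E (t i) ≤ E h)
    (B : ℝ) (hB : 0 ≤ B) (hC : ∀ t < h, C t ≤ B * E t) : ∑ i ∈ s, m i * C (t i) ≤ B * E h := by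
  calc ∑ i ∈ s, m i * C (t i) ≤ ∑ i ∈ s, B * (m i * E (t i)) := by
        refine sum_le_sum fun i hi => ?_
        have := mul_le_mul_of_nonneg_left (hC (t i) (ht i hi)) (hm i hi)
        calc m i * C (t i) ≤ m i * (B * E (t i)) := this
          _ = B * (m i * E (t i)) := by ring
    _ = B * ∑ i ∈ s, m i * E (t i) := by rw [mul_sum]
    _ ≤ B * E h := mul_le_mul_of_nonneg_left hsum hB

/-- the standard growth function: `P1` per window of `n` levels, factor `g t` at level `t` -/
noncomputable def grow (P1 : ℝ) (n : ℕ) (g : ℕ → ℝ) (h : ℕ) : ℝ :=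
  P1 ^ (h / n) * ∏ t ∈ range h, g t

theorem grow_mono {P1 : ℝ} (hP1 : 1 ≤ P1) (n : ℕ) {g : ℕ → ℝ} (hg : ∀ t, 1 ≤ g t) :
    Monotone (grow P1 n g) := by
  have hp : ∀ h, 0 ≤ ∏ t ∈ range h, g t := fun h =>
    prod_nonneg fun t _ => le_trans zero_le_one (hg t)
  refine monotone_nat_of_le_succ fun h => ?_
  unfold grow
  have h1 : P1 ^ (h / n) ≤ P1 ^ ((h + 1) / n) :=
    pow_le_pow_right₀ hP1 (Nat.div_le_div_right (Nat.le_succ h))
  have h2 : ∏ t ∈ range h, g t ≤ ∏ t ∈ range (h + 1), g t := by
    rw [prod_range_succ]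
    exact le_mul_of_one_le_right (hp h) (hg h)
  exact mul_le_mul h1 h2 (hp h) (pow_nonneg (le_trans zero_le_one hP1) _)

theorem one_le_grow {P1 : ℝ} (hP1 : 1 ≤ P1) (n : ℕ) {g : ℕ → ℝ} (hg : ∀ t, 1 ≤ g t) (h : ℕ) :
    1 ≤ grow P1 n g h := by
  have h1 : grow P1 n g 0 = 1 := by simp [grow]
  rw [← h1]
  exact grow_mono hP1 n hg (Nat.zero_le h)

/-- one window step: `P1` times the growth `n` levels lower (with the level factors in between) -/
theorem grow_window {P1 : ℝ} (hP1 : 1 ≤ P1) {n : ℕ} (hn : 0 < n) {g : ℕ → ℝ} (hg : ∀ t, 1 ≤ g t)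
    {h : ℕ} (hh : n ≤ h) {D : ℝ} (hD : D ≤ ∏ t ∈ Ico (h - n) h, g t) :
    P1 * (D * grow P1 n g (h - n)) ≤ grow P1 n g h := by
  unfold grow
  have h1 : h / n = (h - n) / n + 1 := by
    rw [Nat.div_eq_sub_div hn hh]
  have h2 : ∏ t ∈ range h, g t = (∏ t ∈ range (h - n), g t) * ∏ t ∈ Ico (h - n) h, g t := by
    rw [prod_range_mul_prod_Ico _ (by omega)]
  have h3 : 0 ≤ ∏ t ∈ range (h - n), g t := prod_nonneg fun t _ => le_trans zero_le_one (hg t)
  have h4 : 0 ≤ P1 ^ ((h - n) / n) := pow_nonneg (le_trans zero_le_one hP1) _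
  rw [h1, h2, pow_succ]
  calc P1 * (D * (P1 ^ ((h - n) / n) * ∏ t ∈ range (h - n), g t))
      = (P1 ^ ((h - n) / n) * P1 * ∏ t ∈ range (h - n), g t) * D := by ring
    _ ≤ (P1 ^ ((h - n) / n) * P1 * ∏ t ∈ range (h - n), g t) * ∏ t ∈ Ico (h - n) h, g t :=
        mul_le_mul_of_nonneg_left hD (mul_nonneg (mul_nonneg h4 (le_trans zero_le_one hP1)) h3)
    _ = P1 ^ ((h - n) / n) * P1 * ((∏ t ∈ range (h - n), g t) * ∏ t ∈ Ico (h - n) h, g t) := by
        ring

/-- exponents: a factor `2^a` paid at most once per `σ a` levels is `2^(ℓ/σ)` in all -/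
theorem two_pow_pow_div (a σ l : ℕ) : (2 ^ a) ^ (l / (σ * a)) ≤ 2 ^ (l / σ) := by
  rw [← pow_mul]
  refine Nat.pow_le_pow_right (by norm_num) ?_
  rcases Nat.eq_zero_or_pos a with h | h
  · subst h; simp
  · rw [← Nat.div_div_eq_div_mul]
    calc a * (l / σ / a) ≤ l / σ := Nat.mul_div_le _ _

/-- `c` factors of this kind -/
theorem two_pow_pow_div_mul (a c σ l : ℕ) : (2 ^ (c * a)) ^ (l / (σ * a)) ≤ 2 ^ (c * (l / σ)) := by
  have h1 : (2 ^ (c * a)) ^ (l / (σ * a)) = ((2 ^ a) ^ (l / (σ * a))) ^ c := by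
    rw [← pow_mul, ← pow_mul, ← pow_mul]
    congr 1
    ring
  rw [h1, mul_comm c, pow_mul]
  exact Nat.pow_le_pow_left (two_pow_pow_div a σ l) c

end Crest.Agent.R288.Nest68
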