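import Crest.Agent.R288.PgM_726
import Crest.Agent.R288.RootNum_589
import Crest.Agent.R288.HypA_275
import Crest.Agent.R288.HypN_200

/-!
# R288, [PROG] `Nm` at `cfgO` (helper200)

* **`nmO`** : 726's `Nm` at the official configuration, every `x y ε τ`, every `N`
  (conjunct (2) of `ProgZ578.Run`, v3 of `PgM_726`: no world, no `vN`).
-/

set_option autoImplicit false

namespace Crest.Agent.R288.NmO200

open Crest.Agent.R295.Rnd627
open Crest.Agent.R288.Alg45 Crest.Agent.R288.Dom20 Crest.Agent.R288.Asm331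
open Crest.Agent.R288.Par806 Crest.Agent.R288.ParO331 Crest.Agent.R288.Asm12
open Crest.Agent.R288.Front327
open Crest.Agent.R288.HypA275 (cxOf)
open Crest.Agent.R288.PgK726 (Nm)
open Crest.Agent.R288.RootNum589 (Zc ZP_le_Zc pN six_le_pN)

/-- **`Nm` at the official configuration** -/
theorem nmO (N : ℕ) (x y : List ℕ) (ε : ℚ) (la : St → List ℕ) (lf : ℕ → St → Option ℕ)
    (lg : St → ℕ) (τ : ℕ → ℕ) :
    Nm (cxOf (cfgO x y ε) la lf lg τ) (Zc (hh x y ε)) 16 (II (hh x y ε)) (pN N (hh x y ε)) where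
  ZP := ZP_le_Zc _
  t0 := by norm_num
  p := six_le_pN _ _
  H := fun _ hy => hy.1

end Crest.Agent.R288.NmO200
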