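import Mathlib

/-!
# R288 (S0433): NO FLAGS (post 4583, LEMMA 288-326)

WINDOW-(B) bounds `∑ k ((1 - q) H_k + q m_k)` where `m_k = min (V_k) (W_k)` is the *same-rank*
optimum of the window (`V_k` = optimum over all staircases with end values of rank `k`, `W_k` =
value of the option "wild").  Here the same-rank optimum is replaced by the LAGGED RUNNING MINIMUM
`W_0 = F`, `W_(k+1) = min W_k V_k`, which only uses the ranks `< k`: since `W_(k+1) = m_k`, the
whole replacement costs one `F`, once for all ranks.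

* `runMin F V k` = `min F (min_{i < k} V_i)`; `runMin_le`, `le_runMin`, `runMin_attained`;
* `sum_lag` : `∑_{k<K} W_k ≤ F + ∑_{k<K} m_k` (arbitrary `W` with `W_0 ≤ F + e`,
  `W_(k+1) ≤ m_k + e`);
* `noflag` : the bound with the mixture `(1 - q) H_k + q W_k`;
* `far` : the comparator "wild": `∑_{k<K} W_k ≤ F + ∑_{k<K} S_k`, `S_k ≥ V_k` the cost of any fixed
  staircase at rank `k`;
* `mix_near`, `mix_far` : the two final forms for `A_k = (1 - q) H_k + q W_k`.
-/

set_option autoImplicit false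

namespace Crest.Agent.R288.NoFlag326

open Finset

/-- the running minimum over the lower ranks, started at `F` -/
def runMin (F : ℝ) (V : ℕ → ℝ) : ℕ → ℝ
  | 0 => F
  | k + 1 => min (runMin F V k) (V k)

@[simp] theorem runMin_zero (F : ℝ) (V : ℕ → ℝ) : runMin F V 0 = F := rfl

@[simp] theorem runMin_succ (F : ℝ) (V : ℕ → ℝ) (k : ℕ) :
    runMin F V (k + 1) = min (runMin F V k) (V k) := rfl

theorem runMin_le_left (F : ℝ) (V : ℕ → ℝ) (k : ℕ) : runMin F V k ≤ F := by
  induction k with
  | zero => exact le_rfl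
  | succ k ih => exact (min_le_left _ _).trans ih

theorem runMin_anti (F : ℝ) (V : ℕ → ℝ) {i k : ℕ} (h : i ≤ k) : runMin F V k ≤ runMin F V i := by
  induction k, h using Nat.le_induction with
  | base => exact le_rfl
  | succ k _ ih => exact (min_le_left _ _).trans ih

theorem runMin_le (F : ℝ) (V : ℕ → ℝ) {i k : ℕ} (h : i < k) : runMin F V k ≤ V i :=
  (runMin_anti F V (Nat.succ_le_of_lt h)).trans (min_le_right _ _)

theorem le_runMin {F : ℝ} {V : ℕ → ℝ} {k : ℕ} {a : ℝ} (hF : a ≤ F) (hV : ∀ i < k, a ≤ V i) :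
    a ≤ runMin F V k := by
  induction k with
  | zero => exact hF
  | succ k ih => exact le_min (ih fun i hi => hV i (by omega)) (hV k (by omega))

theorem runMin_attained (F : ℝ) (V : ℕ → ℝ) (k : ℕ) :
    runMin F V k = F ∨ ∃ i < k, runMin F V k = V i := by
  induction k with
  | zero => exact Or.inl rfl
  | succ k ih =>
    rw [runMin_succ]
    rcases min_choice (runMin F V k) (V k) with h | h
    · rw [h]
      rcases ih with h' | ⟨i, hi, h'⟩
      · exact Or.inl h'
      · exact Or.inr ⟨i, by omega, h'⟩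
    · exact Or.inr ⟨k, by omega, h⟩

theorem runMin_congr {F : ℝ} {V V' : ℕ → ℝ} {k : ℕ} (h : ∀ i < k, V i = V' i) :
    runMin F V k = runMin F V' k := by
  induction k with
  | zero => rfl
  | succ k ih => rw [runMin_succ, runMin_succ, ih fun i hi => h i (by omega), h k (by omega)]

theorem runMin_mono {F F' : ℝ} {V V' : ℕ → ℝ} {k : ℕ} (hF : F ≤ F') (h : ∀ i < k, V i ≤ V' i) :
    runMin F V k ≤ runMin F' V' k := by
  induction k with
  | zero => exact hF
  | succ k ih =>
    rw [runMin_succ, runMin_succ]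
    exact min_le_min (ih fun i hi => h i (by omega)) (h k (by omega))

/-- shift by one rank -/
theorem sum_lag {W m : ℕ → ℝ} {F e : ℝ} {K : ℕ} (h0 : W 0 ≤ F + e) (_he : 0 ≤ e)
    (hs : ∀ k < K, W (k + 1) ≤ m k + e) (hlast : 0 < K → 0 ≤ m (K - 1)) (hF : 0 ≤ F) :
    ∑ k ∈ range K, W k ≤ F + ∑ k ∈ range K, m k + K * e := by
  cases K with
  | zero => simpa using hF
  | succ K =>
    have h1 : ∑ k ∈ range (K + 1), W k = W 0 + ∑ k ∈ range K, W (k + 1) := by
      rw [sum_range_succ']; ring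
    have h2 : ∑ k ∈ range K, W (k + 1) ≤ ∑ k ∈ range K, (m k + e) :=
      sum_le_sum fun k hk => hs k (by have := mem_range.1 hk; omega)
    rw [sum_add_distrib, sum_const, card_range, nsmul_eq_mul] at h2
    have h3 : ∑ k ∈ range (K + 1), m k = ∑ k ∈ range K, m k + m K := sum_range_succ _ _
    have h4 : 0 ≤ m K := by simpa using hlast (by omega)
    rw [h1, h3]
    push_cast
    linarith

/-- **the replacement of the same-rank optimum by the lagged running minimum costs `q F`** -/
theorem noflag {H W m : ℕ → ℝ} {F e q Z : ℝ} {K : ℕ} (hq : 0 ≤ q)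
    (h0 : W 0 ≤ F + e) (he : 0 ≤ e) (hs : ∀ k < K, W (k + 1) ≤ m k + e)
    (hlast : 0 < K → 0 ≤ m (K - 1)) (hF : 0 ≤ F)
    (hB : ∑ k ∈ range K, ((1 - q) * H k + q * m k) ≤ Z) :
    ∑ k ∈ range K, ((1 - q) * H k + q * W k) ≤ Z + q * (F + K * e) := by
  have h1 := mul_le_mul_of_nonneg_left (sum_lag h0 he hs hlast hF) hq
  rw [sum_add_distrib, ← mul_sum, ← mul_sum] at hB ⊢
  nlinarith

/-- `noflag` for the literal running minimum, `m_k = min (W_k) (V_k)` -/
theorem noflag_runMin {H V : ℕ → ℝ} {F q Z : ℝ} {K : ℕ} (hq : 0 ≤ q) (hF : 0 ≤ F)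
    (hV : ∀ k < K, 0 ≤ V k)
    (hB : ∑ k ∈ range K, ((1 - q) * H k + q * min (runMin F V k) (V k)) ≤ Z) :
    ∑ k ∈ range K, ((1 - q) * H k + q * runMin F V k) ≤ Z + q * F := by
  have := noflag (H := H) (W := runMin F V) (m := fun k => min (runMin F V k) (V k))
    (F := F) (e := 0) (q := q) (Z := Z) (K := K) hq (by simp) le_rfl
    (fun k _ => by simp) (fun h => le_min
      (le_runMin hF fun i hi => hV i (by omega)) (hV _ (by omega))) hF hB
  simpa using this

/-- the comparator "wild" against any fixed staircase: one shift of the ranks -/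
theorem far {V S : ℕ → ℝ} {F : ℝ} {K : ℕ} (hF : 0 ≤ F) (hVS : ∀ k < K, V k ≤ S k)
    (hS : ∀ k < K, 0 ≤ S k) :
    ∑ k ∈ range K, runMin F V k ≤ F + ∑ k ∈ range K, S k := by
  have := sum_lag (W := runMin F V) (m := S) (F := F) (e := 0) (K := K) (by simp) le_rfl
    (fun k hk => by
      rw [runMin_succ]
      have := min_le_right (runMin F V k) (V k)
      linarith [hVS k hk])
    (fun h => hS _ (by omega)) hF
  simpa using this

/-- comparator "calm": mixture with the running minimum, `cmpc` = comparator's costs -/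
theorem mix_near {H V C : ℕ → ℝ} {F q reg : ℝ} {K : ℕ} (hq : 0 ≤ q) (hF : 0 ≤ F)
    (hV : ∀ k < K, 0 ≤ V k)
    (hB : ∑ k ∈ range K, ((1 - q) * H k + q * min (runMin F V k) (V k))
      ≤ ∑ k ∈ range K, C k + reg) :
    ∑ k ∈ range K, ((1 - q) * H k + q * runMin F V k) ≤ ∑ k ∈ range K, C k + (reg + q * F) := by
  have := noflag_runMin (H := H) hq hF hV hB
  linarith

/-- comparator "wild" -/
theorem mix_far {H V S : ℕ → ℝ} {F q reg : ℝ} {K : ℕ} (hq : 0 ≤ q) (hF : 0 ≤ F)
    (hV : ∀ k < K, 0 ≤ V k) (hVS : ∀ k < K, V k ≤ S k)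
    (hB : ∑ k ∈ range K, ((1 - q) * H k + q * min (runMin F V k) (V k))
      ≤ ∑ k ∈ range K, runMin F V k + reg) :
    ∑ k ∈ range K, ((1 - q) * H k + q * runMin F V k)
      ≤ ∑ k ∈ range K, S k + (F + reg + q * F) := by
  have h1 := noflag_runMin (H := H) hq hF hV hB
  have h2 := far (V := V) (S := S) hF hVS (fun k hk => (hV k hk).trans (hVS k hk))
  linarith

end Crest.Agent.R288.NoFlag326
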