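import Crest.Agent.R288.Ptw_641

/-!
# R288: NO LOOKAHEAD (helper131, #4628)

The lag-1 wild option (exact window minimum over the numbers of the previous rank, with jumps) makes
the mean arrival cost of an epoch a near-subsolution for EVERY staircase.  So the next unit
`F' = inf-convolution of the mean` satisfies `F' x ≤ ∑ F' y_j + η F x`; no value iteration is needed.

* `mean_far`  : one state, numbers of the ranks;
* `f3_next`   : (F3') for the inf-convolution;
* `f3_floor`  : the same for the floored form `(1 - ζ) F' + ζ F`;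
* `defect_step`, `lag_le` : constants of the defect along the epochs;
* `Chain2.bound` : the two-step contraction of the ratios.
-/

set_option autoImplicit false

namespace Crest.Agent.R288.NoLook131

open Finset Crest.Agent.R288.Ptw641

universe u v

/-- Mean over the ranks `0..K-1` at one state.  `A 0 ≤ F` (retire), `A (k+1) ≤ P k` where `P k` is
the cost of a fixed staircase with jumps, ends paid at rank `k`. -/
theorem mean_far {K : ℕ} {R A P : ℕ → ℝ} {F reg : ℝ} (hF : 0 ≤ F)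
    (h1 : ∑ k ∈ range K, R k ≤ ∑ k ∈ range K, A k + reg) (h2 : A 0 ≤ F)
    (h3 : ∀ k, k + 1 < K → A (k + 1) ≤ P k) (h4 : ∀ k, k < K → 0 ≤ P k) :
    (∑ k ∈ range K, R k) / K ≤ (∑ k ∈ range K, P k) / K + (F + reg) / K := by
  have hA : ∑ k ∈ range K, A k ≤ ∑ k ∈ range K, P k + F := by
    cases K with
    | zero => simpa using hF
    | succ K =>
      rw [sum_range_succ' (fun k => A k), sum_range_succ (fun k => P k)]
      have h5 : ∑ k ∈ range K, A (k + 1) ≤ ∑ k ∈ range K, P k :=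
        sum_le_sum fun k hk => h3 k (by have := mem_range.1 hk; omega)
      have h6 := h4 K (by omega)
      linarith
  rw [← add_div]
  exact div_le_div_of_nonneg_right (by linarith) (Nat.cast_nonneg K)

/-- sums over lists: linear combination -/
theorem list_sum_comb {α : Type u} (l : List α) (f g : α → ℝ) (a b : ℝ) :
    (l.map fun y => a * f y + b * g y).sum = a * (l.map f).sum + b * (l.map g).sum := by
  rw [list_sum_add, list_sum_mul, list_sum_mul]

section

variable {S : ℕ → Type u} {M : ∀ h, S (h + 1) → Type v}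

/-- (F3') for the inf-convolution `F'` of the mean `Rb`. -/
theorem f3_next {pc : ∀ h (x : S (h + 1)), M h x → List (S h)} {Ok : ∀ h, S h → Prop}
    {ds : ∀ h, S h → S h → ℝ} {Rb F F' : ∀ h, S h → ℝ} {η : ℝ}
    (ok : ∀ h x m, Ok (h + 1) x → ∀ y ∈ pc h x m, Ok h y)
    (hle : ∀ h x, Ok h x → F' h x ≤ Rb h x)
    (hatt : ∀ h x, Ok h x → ∃ z, Ok h z ∧ ds h x z + Rb h z ≤ F' h x)
    (hfar : ∀ h x m (z : S h → S h), Ok (h + 1) x → (∀ y ∈ pc h x m, Ok h (z y)) →
      Rb (h + 1) x ≤ ((pc h x m).map fun y => ds h y (z y) + Rb h (z y)).sum + η * F (h + 1) x) :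
    ∀ h x m, Ok (h + 1) x →
      F' (h + 1) x ≤ ((pc h x m).map (F' h)).sum + η * F (h + 1) x := by
  classical
  intro h x m hx
  let z : S h → S h := fun y => if hy : Ok h y then (hatt h y hy).choose else y
  have hz : ∀ y, Ok h y → Ok h (z y) ∧ ds h y (z y) + Rb h (z y) ≤ F' h y := by
    intro y hy
    have : z y = (hatt h y hy).choose := by simp only [z, dif_pos hy]
    rw [this]
    exact (hatt h y hy).choose_spec
  have h1 := hfar h x m z hx fun y hy => (hz y (ok h x m hx y hy)).1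
  have h2 := list_sum_le (pc h x m) (fun y => ds h y (z y) + Rb h (z y)) (F' h)
    fun y hy => (hz y (ok h x m hx y hy)).2
  have h3 := hle (h + 1) x hx
  linarith

/-- (F3') up to an error `err` per state of the attainment (grids, estimates), `err ≤ ε₀ F'` -/
theorem f3_next_err {pc : ∀ h (x : S (h + 1)), M h x → List (S h)} {Ok : ∀ h, S h → Prop}
    {ds : ∀ h, S h → S h → ℝ} {Rb F F' : ∀ h, S h → ℝ} {η ε₀ : ℝ} (hε : 0 ≤ ε₀)
    (ok : ∀ h x m, Ok (h + 1) x → ∀ y ∈ pc h x m, Ok h y)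
    (hle : ∀ h x, Ok h x → F' h x ≤ (1 + ε₀) * Rb h x)
    (hatt : ∀ h x, Ok h x → ∃ z, Ok h z ∧ ds h x z + Rb h z ≤ (1 + ε₀) * F' h x)
    (hfar : ∀ h x m (z : S h → S h), Ok (h + 1) x → (∀ y ∈ pc h x m, Ok h (z y)) →
      Rb (h + 1) x ≤ ((pc h x m).map fun y => ds h y (z y) + Rb h (z y)).sum + η * F (h + 1) x) :
    ∀ h x m, Ok (h + 1) x →
      F' (h + 1) x ≤ (1 + ε₀) ^ 2 * ((pc h x m).map (F' h)).sum
        + (1 + ε₀) * (η * F (h + 1) x) := by
  classical
  intro h x m hx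
  let z : S h → S h := fun y => if hy : Ok h y then (hatt h y hy).choose else y
  have hz : ∀ y, Ok h y → Ok h (z y) ∧ ds h y (z y) + Rb h (z y) ≤ (1 + ε₀) * F' h y := by
    intro y hy
    have : z y = (hatt h y hy).choose := by simp only [z, dif_pos hy]
    rw [this]
    exact (hatt h y hy).choose_spec
  have h1 := hfar h x m z hx fun y hy => (hz y (ok h x m hx y hy)).1
  have h2 := list_sum_le (pc h x m) (fun y => ds h y (z y) + Rb h (z y))
    (fun y => (1 + ε₀) * F' h y) fun y hy => (hz y (ok h x m hx y hy)).2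
  rw [list_sum_mul] at h2
  have h3 := hle (h + 1) x hx
  have h4 : (1 + ε₀) * Rb (h + 1) x ≤ (1 + ε₀) * ((1 + ε₀) * ((pc h x m).map (F' h)).sum
      + η * F (h + 1) x) := mul_le_mul_of_nonneg_left (by linarith) (by linarith)
  calc F' (h + 1) x ≤ _ := h3
    _ ≤ _ := h4
    _ = _ := by ring

/-- the floored form `Fn = (1 - ζ) F' + ζ F` keeps (F3') -/
theorem f3_floor {pc : ∀ h (x : S (h + 1)), M h x → List (S h)} {Ok : ∀ h, S h → Prop}
    {F F' Fn D : ∀ h, S h → ℝ} {η ζ : ℝ} (hζ : 0 ≤ ζ) (hζ1 : ζ ≤ 1)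
    (hFn : ∀ h x, Fn h x = (1 - ζ) * F' h x + ζ * F h x)
    (h1 : ∀ h x m, Ok (h + 1) x → F' (h + 1) x ≤ ((pc h x m).map (F' h)).sum + η * F (h + 1) x)
    (h2 : ∀ h x m, Ok (h + 1) x → F (h + 1) x ≤ ((pc h x m).map (F h)).sum + D (h + 1) x) :
    ∀ h x m, Ok (h + 1) x →
      Fn (h + 1) x ≤ ((pc h x m).map (Fn h)).sum
        + ((1 - ζ) * (η * F (h + 1) x) + ζ * D (h + 1) x) := by
  intro h x m hx
  have e1 : ((pc h x m).map (Fn h)).sum
      = (1 - ζ) * ((pc h x m).map (F' h)).sum + ζ * ((pc h x m).map (F h)).sum := by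
    rw [← list_sum_comb]
    exact congrArg List.sum (List.map_congr_left fun y _ => hFn h y)
  rw [e1, hFn]
  have h3 := mul_le_mul_of_nonneg_left (h1 h x m hx) (sub_nonneg.2 hζ1)
  have h4 := mul_le_mul_of_nonneg_left (h2 h x m hx) hζ
  linarith

end

/-- constants of the defect: `D ≤ a Fp`, `ζ Fp ≤ F` give the new defect `≤ (η + a) F` -/
theorem defect_step {η ζ a D F Fp : ℝ} (hη : 0 ≤ η) (hζ : 0 ≤ ζ)
    (ha : 0 ≤ a) (hF : 0 ≤ F) (hD : D ≤ a * Fp) (hfl : ζ * Fp ≤ F) :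
    (1 - ζ) * (η * F) + ζ * D ≤ (η + a) * F := by
  have h1 : (1 - ζ) * (η * F) ≤ η * F := by
    have : 0 ≤ η * F := mul_nonneg hη hF
    nlinarith
  have h2 : ζ * D ≤ a * (ζ * Fp) := by nlinarith
  have h3 : a * (ζ * Fp) ≤ a * F := mul_le_mul_of_nonneg_left hfl ha
  linarith

/-- `Fn ≤ (1 + b) F` -/
theorem lag_le {ζ b F F' R : ℝ} (hζ : 0 ≤ ζ) (hζ1 : ζ ≤ 1) (hb : 0 ≤ b) (hF : 0 ≤ F)
    (h1 : F' ≤ R) (h2 : R ≤ (1 + b) * F) : (1 - ζ) * F' + ζ * F ≤ (1 + b) * F := by
  have h3 : (1 - ζ) * F' ≤ (1 - ζ) * ((1 + b) * F) :=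
    mul_le_mul_of_nonneg_left (h1.trans h2) (by linarith)
  nlinarith [mul_nonneg hζ (mul_nonneg hb hF)]

/-- Two-step contraction of the ratios `B e` (`F_e ≤ B e G`): `B (e+2) ≤ a + κ B e`. -/
theorem chain2 {B : ℕ → ℝ} {a κ : ℝ} (hκ : 0 ≤ κ) (hκ1 : κ < 1)
    (h : ∀ i, B (i + 2) ≤ a + κ * B i) (i : ℕ) :
    B (2 * i) ≤ a / (1 - κ) + κ ^ i * (B 0 - a / (1 - κ)) ∧
      B (2 * i + 1) ≤ a / (1 - κ) + κ ^ i * (B 1 - a / (1 - κ)) := by
  constructor
  · exact Ptw641.chain (B := fun i => B (2 * i)) hκ hκ1 (fun i => h (2 * i)) i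
  · exact Ptw641.chain (B := fun i => B (2 * i + 1)) hκ hκ1 (fun i => h (2 * i + 1)) i

end Crest.Agent.R288.NoLook131
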