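import Mathlib
import Crest.Agent.R288.NodeA_785

/-!
# R288 (S0433), leaf [Node], third part: windows proportional to the length of the block

* `lip_path`: every path of diagonals can be made `C`-Lipschitz in the rows, with the same ends,
  inside the same band, at the price of a factor `1 + 2 / C`;
* `val_ge`, `val_le`: the game on the dyadic tree with grids of steps `s_t` and windows
  `|v - u| ≤ 2 C |I|` at every node has the value of the edit distance up to the factor
  `1 + 2 / C` and the additive error `6 ∑ 2 ^ (T - 1 - t) s_t`.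
-/

set_option autoImplicit false

namespace Crest.Agent.R288.NodeC785

open Crest.GraphRAM Crest.Agent.R288.Ed Crest.Agent.R288.GameA347 Crest.Agent.R288.NodeA785

/-! ### making a path Lipschitz -/

/-- cost of `k` rows from the row `a` -/
def pc (f : ℕ → ℤ → ℤ → ℕ) (a : ℕ) (w : ℕ → ℤ) (k : ℕ) : ℕ :=
  ∑ t ∈ Finset.range k, f (a + t) (w t) (w (t + 1))

@[simp] theorem pc_zero (f : ℕ → ℤ → ℤ → ℕ) (a : ℕ) (w : ℕ → ℤ) : pc f a w 0 = 0 := by
  simp [pc]

theorem pc_succ (f : ℕ → ℤ → ℤ → ℕ) (a : ℕ) (w : ℕ → ℤ) (k : ℕ) :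
    pc f a w (k + 1) = f a (w 0) (w 1) + pc f (a + 1) (fun t => w (t + 1)) k := by
  unfold pc
  rw [Finset.sum_range_succ', add_comm]
  congr 1
  apply Finset.sum_congr rfl
  intro t _
  rw [show a + (t + 1) = a + 1 + t by ring]

theorem tv_le (f : ℕ → ℤ → ℤ → ℕ) (k : ℕ) : ∀ (a : ℕ) (w : ℕ → ℤ),
    (∀ t < k, |w t - w (t + 1)| ≤ f (a + t) (w t) (w (t + 1))) →
    |w 0 - w k| ≤ (pc f a w k : ℤ) := by
  induction k with
  | zero => intro a w _; simp
  | succ k ih =>
    intro a w h
    have h1 := h 0 (Nat.succ_pos k)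
    have h2 := ih (a + 1) (fun t => w (t + 1)) (fun t ht => by
      have := h (t + 1) (by omega)
      rwa [show a + (t + 1) = a + 1 + t by ring] at this)
    rw [pc_succ]
    push_cast
    have h3 := abs_sub_le (w 0) (w 1) (w (k + 1))
    simp only [Nat.add_zero, Nat.zero_add] at h1 h2
    linarith

theorem crude (f : ℕ → ℤ → ℤ → ℕ) (hU : ∀ a u v, (f a u v : ℤ) ≤ 1 + |u - v|) (C : ℤ) (k : ℕ) :
    ∀ (a : ℕ) (z : ℕ → ℤ), (∀ t < k, |z (t + 1) - z t| ≤ C) → (pc f a z k : ℤ) ≤ k * (1 + C) := by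
  induction k with
  | zero => intro a z _; simp
  | succ k ih =>
    intro a z h
    have h1 := h 0 (Nat.succ_pos k)
    have h2 := ih (a + 1) (fun t => z (t + 1)) (fun t ht => h (t + 1) (by omega))
    have h3 := hU a (z 0) (z 1)
    rw [pc_succ]
    push_cast
    rw [abs_sub_comm] at h3
    simp only [Nat.zero_add] at h1
    linarith

/-- prepend a value to a path -/
def cons (z0 : ℤ) (z : ℕ → ℤ) : ℕ → ℤ
  | 0 => z0
  | t + 1 => z t

theorem lip_path (f : ℕ → ℤ → ℤ → ℕ) (hU : ∀ a u v, (f a u v : ℤ) ≤ 1 + |u - v|) (C : ℤ)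
    (hC : 1 ≤ C) (l r : ℤ) (k : ℕ) : ∀ (a : ℕ) (w : ℕ → ℤ) (z0 : ℤ),
    (∀ t < k, |w t - w (t + 1)| ≤ f (a + t) (w t) (w (t + 1))) →
    |z0 - w k| ≤ C * k → (l ≤ z0 ∧ z0 ≤ r) → (∀ t ≤ k, l ≤ w t ∧ w t ≤ r) →
    ∃ z : ℕ → ℤ, z 0 = z0 ∧ z k = w k ∧ (∀ t < k, |z (t + 1) - z t| ≤ C) ∧
      (∀ t ≤ k, l ≤ z t ∧ z t ≤ r) ∧
      C * (pc f a z k : ℤ) ≤ (C + 2) * (pc f a w k : ℤ) + (C + 2) * |z0 - w 0| +
        (if z0 = w 0 then 0 else C) := by
  induction k with
  | zero =>
    intro a w z0 _ h _ hw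
    have h0 : z0 = w 0 := by
      have : |z0 - w 0| ≤ 0 := by simpa using h
      have := abs_nonpos_iff.1 this
      omega
    refine ⟨w, h0.symm, rfl, fun t ht => absurd ht (Nat.not_lt_zero t), hw, ?_⟩
    simp [h0]
  | succ k ih =>
    intro a w z0 hL hz hz0 hw
    set v := w (k + 1) with hv
    set w1 := w 1 with hw1
    have hc := hL 0 (Nat.succ_pos k)
    simp only [Nat.add_zero, Nat.zero_add, ← hw1] at hc
    have hL' : ∀ t < k, |w (t + 1) - w (t + 1 + 1)| ≤ f (a + 1 + t) (w (t + 1)) (w (t + 1 + 1)) := by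
      intro t ht
      have := hL (t + 1) (by omega)
      rwa [show a + (t + 1) = a + 1 + t by ring] at this
    have htv : |w1 - v| ≤ (pc f (a + 1) (fun t => w (t + 1)) k : ℤ) :=
      tv_le f k (a + 1) (fun t => w (t + 1)) hL'
    have hwb : ∀ t ≤ k, l ≤ w (t + 1) ∧ w (t + 1) ≤ r := fun t ht => hw (t + 1) (by omega)
    have hpw := pc_succ f a w k
    rw [← hw1] at hpw
    set P := pc f (a + 1) (fun t => w (t + 1)) k with hP
    set c := f a (w 0) w1 with hcdef
    have hCk : C * ((k + 1 : ℕ) : ℤ) = C * k + C := by push_cast; ring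
    rw [hCk] at hz
    have hb1 := hw 1 (by omega)
    have hb2 := hw (k + 1) le_rfl
    rw [← hw1] at hb1
    rw [← hv] at hb2
    have hk0 : (0 : ℤ) ≤ C * k := mul_nonneg (by omega) (Int.natCast_nonneg _)
    have htri : |z0 - w1| ≤ |z0 - w 0| + c := (abs_sub_le z0 (w 0) w1).trans (by linarith)
    -- the general step: choose `z1`
    have step : ∀ z1 : ℤ, |z1 - z0| ≤ C → |z1 - v| ≤ C * k → (l ≤ z1 ∧ z1 ≤ r) →
        (∀ z' : ℕ → ℤ, z' 0 = z1 → (∀ t < k, |z' (t + 1) - z' t| ≤ C) →
          C * (pc f (a + 1) z' k : ℤ) ≤ (C + 2) * (P : ℤ) + (C + 2) * |z1 - w1| +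
            (if z1 = w1 then 0 else C) →
          C * ((f a z0 z1 : ℤ) + pc f (a + 1) z' k) ≤ (C + 2) * ((c : ℤ) + P) +
            (C + 2) * |z0 - w 0| + (if z0 = w 0 then 0 else C)) →
        ∃ z : ℕ → ℤ, z 0 = z0 ∧ z (k + 1) = v ∧ (∀ t < k + 1, |z (t + 1) - z t| ≤ C) ∧
          (∀ t ≤ k + 1, l ≤ z t ∧ z t ≤ r) ∧
          C * (pc f a z (k + 1) : ℤ) ≤ (C + 2) * (pc f a w (k + 1) : ℤ) +
            (C + 2) * |z0 - w 0| + (if z0 = w 0 then 0 else C) := by
      intro z1 h1 h2 h3 h4
      obtain ⟨z', g1, g2, g3, g4, g5⟩ := ih (a + 1) (fun t => w (t + 1)) z1 hL' h2 h3 hwb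
      refine ⟨cons z0 z', rfl, g2, ?_, ?_, ?_⟩
      · intro t ht
        cases t with
        | zero => show |z' 0 - z0| ≤ C; rw [g1]; exact h1
        | succ t => exact g3 t (by omega)
      · intro t ht
        cases t with
        | zero => exact hz0
        | succ t => exact g4 t (by omega)
      · have e : pc f a (cons z0 z') (k + 1) = f a z0 z1 + pc f (a + 1) z' k := by
          rw [pc_succ]
          show f a z0 (z' 0) + pc f (a + 1) z' k = _
          rw [g1]
        rw [e, hpw]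
        push_cast
        exact h4 z' g1 g3 g5
    by_cases hA : (z0 - C ≤ w1 ∧ v - C * k ≤ w1) ∧ (w1 ≤ z0 + C ∧ w1 ≤ v + C * k)
    · -- `z1 = w1`
      obtain ⟨⟨a1, a2⟩, a3, a4⟩ := hA
      apply step w1 (abs_le.2 ⟨by omega, by omega⟩) (abs_le.2 ⟨by omega, by omega⟩) hb1
      intro z' g1 g3 g5
      rw [sub_self, abs_zero, mul_zero, add_zero, if_pos rfl, add_zero] at g5
      by_cases he : z0 = w 0
      · rw [if_pos he, he, sub_self, abs_zero, mul_zero, add_zero, add_zero]
        have : (0 : ℤ) ≤ c := Int.natCast_nonneg _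
        rw [← hcdef]
        nlinarith
      · rw [if_neg he]
        have h5 := hU a z0 w1
        have h6 : C * (f a z0 w1 : ℤ) ≤ C * (1 + (|z0 - w 0| + c)) :=
          mul_le_mul_of_nonneg_left (h5.trans (by linarith)) (by omega)
        have h7 : (0 : ℤ) ≤ c := Int.natCast_nonneg _
        have h8 : (0 : ℤ) ≤ |z0 - w 0| := abs_nonneg _
        nlinarith
    · -- lag
      have lag : ∀ z1 : ℤ, |z1 - z0| ≤ C → |z1 - w1| + C ≤ |z0 - w1| →
          ∀ z' : ℕ → ℤ, z' 0 = z1 → (∀ t < k, |z' (t + 1) - z' t| ≤ C) →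
          C * (pc f (a + 1) z' k : ℤ) ≤ (C + 2) * (P : ℤ) + (C + 2) * |z1 - w1| +
            (if z1 = w1 then 0 else C) →
          C * ((f a z0 z1 : ℤ) + pc f (a + 1) z' k) ≤ (C + 2) * ((c : ℤ) + P) +
            (C + 2) * |z0 - w 0| + (if z0 = w 0 then 0 else C) := by
        intro z1 h1 h2 z' _ _ g5
        have h3 : (if z1 = w1 then (0 : ℤ) else C) ≤ C := by split_ifs <;> omega
        have h4 : (0 : ℤ) ≤ (if z0 = w 0 then (0 : ℤ) else C) := by split_ifs <;> omega
        have h5 := hU a z0 z1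
        rw [abs_sub_comm] at h5
        have h6 : C * (f a z0 z1 : ℤ) ≤ C * (1 + C) :=
          mul_le_mul_of_nonneg_left (h5.trans (by linarith)) (by omega)
        have h7 : (C + 2) * (|z1 - w1| + C) ≤ (C + 2) * (|z0 - w 0| + c) :=
          mul_le_mul_of_nonneg_left (h2.trans htri) (by omega)
        nlinarith
      -- forced to run along the cone of the end
      have cone : ∀ z1 : ℤ, |z1 - z0| ≤ C → 0 < k → |z1 - w1| + C * k = |w1 - v| →
          ∀ z' : ℕ → ℤ, z' 0 = z1 → (∀ t < k, |z' (t + 1) - z' t| ≤ C) →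
          C * (pc f (a + 1) z' k : ℤ) ≤ (C + 2) * (P : ℤ) + (C + 2) * |z1 - w1| +
            (if z1 = w1 then 0 else C) →
          C * ((f a z0 z1 : ℤ) + pc f (a + 1) z' k) ≤ (C + 2) * ((c : ℤ) + P) +
            (C + 2) * |z0 - w 0| + (if z0 = w 0 then 0 else C) := by
        intro z1 h1 hk h2 z' _ g3 _
        have h4 : (0 : ℤ) ≤ (if z0 = w 0 then (0 : ℤ) else C) := by split_ifs <;> omega
        have h5 := hU a z0 z1
        have h8 := crude f hU C k (a + 1) z' g3
        have h9 : |z0 - z1| ≤ |z1 - w1| + (|z0 - w 0| + c) := by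
          have e1 := abs_sub_le z0 w1 z1
          rw [abs_sub_comm w1 z1] at e1
          linarith
        have h10 : C * (f a z0 z1 : ℤ) ≤ C * (1 + (|z1 - w1| + (|z0 - w 0| + c))) :=
          mul_le_mul_of_nonneg_left (h5.trans (by linarith)) (by omega)
        have h11 : C * (pc f (a + 1) z' k : ℤ) ≤ C * (k * (1 + C)) :=
          mul_le_mul_of_nonneg_left h8 (by omega)
        have h12 : (1 : ℤ) ≤ k := by exact_mod_cast hk
        have h13 : C ≤ C * k := le_mul_of_one_le_right (by omega) h12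
        have h14 : |z1 - w1| + C * k ≤ P := by rw [h2]; exact htv
        have h15 : (C + 2) * (|z1 - w1| + C * k) ≤ (C + 2) * (P : ℤ) :=
          mul_le_mul_of_nonneg_left h14 (by omega)
        have h16 : (0 : ℤ) ≤ |z0 - w 0| := abs_nonneg _
        have h17 : (0 : ℤ) ≤ |z1 - w1| := abs_nonneg _
        have h18 : (0 : ℤ) ≤ c := Int.natCast_nonneg _
        have h19 : C * (k * (1 + C)) = C * k + C * (C * k) := by ring
        have h20 : (C + 2) * (|z1 - w1| + C * k) =
          C * |z1 - w1| + 2 * |z1 - w1| + C * (C * k) + 2 * (C * k) := by ring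
        nlinarith
      have hkpos : ∀ {p : Prop}, (w1 ≠ v) → 0 < k := by
        intro _ hne
        rcases Nat.eq_zero_or_pos k with h0 | h0
        · exfalso
          apply hne
          rw [hw1, hv, h0]
        · exact h0
      rw [abs_le] at hz
      by_cases c1 : w1 < z0 - C ∧ v - C * k ≤ z0 - C
      · refine step (z0 - C) ?_ ?_ ⟨by omega, by omega⟩ (lag _ ?_ ?_)
        · rw [abs_le]; constructor <;> omega
        · rw [abs_le]; constructor <;> omega
        · rw [abs_le]; constructor <;> omega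
        · rw [abs_of_nonneg (show (0 : ℤ) ≤ z0 - C - w1 by omega),
            abs_of_nonneg (show (0 : ℤ) ≤ z0 - w1 by omega)]
          omega
      by_cases c2 : z0 + C < w1 ∧ z0 + C ≤ v + C * k
      · refine step (z0 + C) ?_ ?_ ⟨by omega, by omega⟩ (lag _ ?_ ?_)
        · rw [abs_le]; constructor <;> omega
        · rw [abs_le]; constructor <;> omega
        · rw [abs_le]; constructor <;> omega
        · rw [abs_of_nonpos (show z0 + C - w1 ≤ (0 : ℤ) by omega),
            abs_of_nonpos (show z0 - w1 ≤ (0 : ℤ) by omega)]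
          omega
      by_cases c3 : w1 < v - C * k
      · refine step (v - C * k) ?_ ?_ ⟨by omega, by omega⟩ (cone _ ?_ ?_ ?_)
        · rw [abs_le]; constructor <;> omega
        · rw [abs_le]; constructor <;> omega
        · rw [abs_le]; constructor <;> omega
        · exact hkpos (p := True) (by omega)
        · rw [abs_of_nonneg (show (0 : ℤ) ≤ v - C * k - w1 by omega),
            abs_of_nonpos (show w1 - v ≤ (0 : ℤ) by omega)]
          omega
      · have c4 : v + C * k < w1 := by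
          by_contra hcon
          apply hA
          refine ⟨⟨?_, ?_⟩, ?_, ?_⟩ <;> omega
        refine step (v + C * k) ?_ ?_ ⟨by omega, by omega⟩ (cone _ ?_ ?_ ?_)
        · rw [abs_le]; constructor <;> omega
        · rw [abs_le]; constructor <;> omega
        · rw [abs_le]; constructor <;> omega
        · exact hkpos (p := True) (by omega)
        · rw [abs_of_nonpos (show v + C * k - w1 ≤ (0 : ℤ) by omega),
            abs_of_nonneg (show (0 : ℤ) ≤ w1 - v by omega)]
          omega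

/-! ### the optimal alignment as a Lipschitz path -/

/-- upper bound for all diagonals, admissible or not -/
theorem g_le' (x y : List ℕ) {a b : ℕ} (hab : a ≤ b) (u v : ℤ) :
    (g x y a b u v : ℤ) ≤ ((b - a : ℕ) : ℤ) + |u - v| := by
  have h1 := G_le_max x y a b (pos y.length a u) (pos y.length b v)
  have h2 : (((u - v).natAbs : ℕ) : ℤ) = |u - v| := Int.natCast_natAbs _
  rw [← h2]
  unfold g
  unfold pos at *
  omega

theorem exists_lip_path (x y : List ℕ) {C : ℕ} (hC : 1 ≤ C)
    (hxy : |(y.length : ℤ) - x.length| ≤ C * x.length) :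
    ∃ w : ℕ → ℤ, w 0 = 0 ∧ w x.length = (y.length : ℤ) - x.length ∧
      (∀ a < x.length, |w (a + 1) - w a| ≤ C) ∧ (∀ a ≤ x.length, |w a| ≤ editDist x y) ∧
      C * pathCost x y id w x.length ≤ (C + 2) * editDist x y := by
  rcases Nat.eq_zero_or_pos x.length with h0 | h0
  · have hy : y.length = 0 := by
      rw [h0] at hxy
      have h1 : |(y.length : ℤ)| ≤ 0 := by simpa using hxy
      have h2 := abs_nonpos_iff.1 h1
      exact_mod_cast h2
    refine ⟨fun _ => 0, rfl, by simp [h0, hy], fun a ha => by omega, fun a _ => by simp, ?_⟩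
    rw [h0]
    simp [pathCost]
  · obtain ⟨w, w0, wn, wadm, wc⟩ := exists_pathCost x y id monotone_id x.length h0 0
      ((y.length : ℤ) - x.length)
    have hroot : pathCost x y id w x.length = editDist x y := by
      rw [wc]; exact g_root x y
    have hadm : ∀ a ≤ x.length, Adm y.length a (w a) := by
      intro a ha
      rcases Nat.eq_zero_or_pos a with h1 | h1
      · subst h1; rw [w0]; constructor <;> simp
      · rcases Nat.lt_or_ge a x.length with h2 | h2
        · exact wadm a h1 h2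
        · obtain rfl : a = x.length := by omega
          rw [wn]; constructor <;> omega
    set f : ℕ → ℤ → ℤ → ℕ := fun a u v => g x y a (a + 1) u v with hf
    have hpc : ∀ (z : ℕ → ℤ) (k : ℕ), pc f 0 z k = pathCost x y id z k := by
      intro z k
      unfold pc pathCost
      apply Finset.sum_congr rfl
      intro t _
      simp [hf]
    have hU : ∀ a u v, (f a u v : ℤ) ≤ 1 + |u - v| := by
      intro a u v
      have := g_le' x y (Nat.le_succ a) u v
      simpa using this
    have hL : ∀ t < x.length, |w t - w (t + 1)| ≤ (f (0 + t) (w t) (w (t + 1)) : ℤ) := by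
      intro t ht
      rw [Nat.zero_add]
      have h1 := g_ge x y (Nat.le_succ t) ht (hadm t ht.le) (hadm (t + 1) ht)
      rw [← Int.natCast_natAbs]
      exact_mod_cast h1
    have hmono : ∀ a ≤ x.length, pathCost x y id w a ≤ pathCost x y id w x.length := by
      intro a ha
      unfold pathCost
      exact Finset.sum_le_sum_of_subset (Finset.range_mono ha)
    have hw : ∀ a ≤ x.length, |w a| ≤ (editDist x y : ℤ) := by
      intro a ha
      have h1 := tv_le f a 0 w (fun t ht => hL t (by omega))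
      rw [w0, hpc, zero_sub, abs_neg] at h1
      have h2 : (pathCost x y id w a : ℤ) ≤ editDist x y := by
        rw [← hroot]; exact_mod_cast hmono a ha
      exact h1.trans h2
    obtain ⟨z, z1, z2, z3, z4, z5⟩ := lip_path f hU C (by exact_mod_cast hC)
      (-(editDist x y : ℤ)) (editDist x y) x.length 0 w 0 hL (by
        rw [wn, zero_sub, abs_neg]; exact hxy) (by constructor <;> simp)
      (fun t ht => abs_le.1 (hw t ht))
    refine ⟨z, z1, by rw [z2, wn], z3, fun a ha => abs_le.2 (z4 a ha), ?_⟩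
    rw [w0, sub_self, abs_zero, mul_zero, add_zero, if_pos rfl, add_zero, hpc, hpc, hroot] at z5
    exact_mod_cast z5

/-! ### choosing a letter near a target -/

/-- among the allowed letters there is one next to the target `z`, or one at the end of the window
on the side of `z` -/
theorem clampT {q : ℕ} {G G' : Grid} {i k : ℕ} (F : Fine q G G')
    (hw : G.s * G.R ≤ 2 * (G'.s * G'.R)) (hi : i < G.cu) (hk : k < G.cd)
    (hV : |G.V i k| ≤ G'.s * G'.K) (z : ℤ) (hz : |z| ≤ G'.s * G'.K) :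
    ∃ T, OkT q G G' i k T ∧ |G'.U (rI q G G' i T)| ≤ G'.s * G'.K ∧
      (2 * |G'.U (rI q G G' i T) - z| ≤ G'.s ∨
        (z < G'.U (rI q G G' i T) ∧
          G'.U (rI q G G' i T) = max (G.U i) (G.V i k) - G'.s * G'.R) ∨
        (G'.U (rI q G G' i T) < z ∧
          G'.U (rI q G G' i T) = min (G.U i) (G.V i k) + G'.s * G'.R)) := by
  have hp : (0 : ℤ) < G'.s := by exact_mod_cast F.pos
  -- everything in units of `s'`
  set s' : ℤ := ((G'.s : ℕ) : ℤ) with hs'
  set R' : ℤ := ((G'.R : ℕ) : ℤ) with hR'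
  set K' : ℤ := ((G'.K : ℕ) : ℤ) with hK'
  obtain ⟨u, hu⟩ : ∃ u : ℤ, G.U i = s' * u :=
    ⟨(lI q G G' i : ℤ) - G'.K, by rw [← U_lI F i]; rfl⟩
  obtain ⟨v, hv⟩ : ∃ v : ℤ, G.V i k = s' * v := by
    refine ⟨u + q * ((k : ℤ) - G.R), ?_⟩
    rw [Grid.V, hu, Grid.dU, F.hs]
    push_cast
    ring
  have hKu : |u| ≤ K' := by
    have h1 := G.U_abs hi
    have h2 : (G.s : ℤ) * G.K ≤ s' * K' := by
      rw [F.hs]
      have : ((q * G.K : ℕ) : ℤ) ≤ G'.K := by exact_mod_cast F.hK
      push_cast at this ⊢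
      calc (q : ℤ) * G'.s * G.K = G'.s * (q * G.K) := by ring
        _ ≤ G'.s * G'.K := mul_le_mul_of_nonneg_left this hp.le
    rw [hu, abs_mul, abs_of_pos hp] at h1
    exact le_of_mul_le_mul_left (h1.trans h2) hp
  have hKv : |v| ≤ K' := by
    rw [hv, abs_mul, abs_of_pos hp] at hV
    exact le_of_mul_le_mul_left hV hp
  have hdiff : |v - u| ≤ 2 * R' := by
    have h1 := G.dU_abs hk
    have h2 : (G.s : ℤ) * G.R ≤ s' * (2 * R') := by
      have : ((G.s * G.R : ℕ) : ℤ) ≤ ((2 * (G'.s * G'.R) : ℕ) : ℤ) := by exact_mod_cast hw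
      push_cast at this
      linarith
    have h3 : G.dU k = s' * (v - u) := by
      have : G.V i k = G.U i + G.dU k := rfl
      rw [hv, hu] at this
      linarith
    rw [h3, abs_mul, abs_of_pos hp] at h1
    exact le_of_mul_le_mul_left (h1.trans h2) hp
  -- nearest lattice point
  obtain ⟨Z, hZ⟩ : ∃ Z : ℤ, 2 * |s' * Z - z| ≤ s' := by
    refine ⟨(z + (G'.s / 2 : ℕ)) / s', ?_⟩
    set a : ℤ := z + (G'.s / 2 : ℕ) with ha
    have hdm : s' * (a / s') + a % s' = a := Int.mul_ediv_add_emod a s'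
    have hm0 : 0 ≤ a % s' := Int.emod_nonneg _ hp.ne'
    have hm1 : a % s' < s' := Int.emod_lt_of_pos _ hp
    have e : s' * (a / s') - z = (G'.s / 2 : ℕ) - a % s' := by omega
    rw [e]
    rcases abs_cases (((G'.s / 2 : ℕ) : ℤ) - a % s') with ⟨e, _⟩ | ⟨e, _⟩ <;> rw [e] <;> omega
  have hZK : |Z| ≤ K' := by
    by_contra hcon
    have h4 : K' + 1 ≤ |Z| := by omega
    have h5 : s' * (K' + 1) ≤ s' * |Z| := mul_le_mul_of_nonneg_left h4 hp.le
    have h6 : s' * |Z| = |s' * Z| := by rw [abs_mul, abs_of_pos hp]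
    have h7 : |s' * Z| ≤ |z| + |s' * Z - z| := by
      have := abs_add_le z (s' * Z - z)
      rwa [show z + (s' * Z - z) = s' * Z by ring] at this
    rw [mul_add, mul_one, h6] at h5
    omega
  rw [abs_le] at hKu hKv hdiff hZK
  have hR0 : 0 ≤ R' := Int.natCast_nonneg _
  -- the clamp
  obtain ⟨Y, hY1, hY2, hY3, hY⟩ : ∃ Y : ℤ, |Y - u| ≤ R' ∧ |v - Y| ≤ R' ∧ |Y| ≤ K' ∧
      (Y = Z ∨ (Z < Y ∧ Y = max u v - R') ∨ (Y < Z ∧ Y = min u v + R')) := by
    refine ⟨max (max u v - R') (min (min u v + R') Z), ?_, ?_, ?_, ?_⟩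
    · rw [abs_le]; omega
    · rw [abs_le]; omega
    · rw [abs_le]; omega
    · omega
  obtain ⟨h4, h5, _⟩ := exists_T (i := i) (k := k) F (s' * Y) (Y - u) (by rw [hu]; ring) hY1
    (by rw [hv, ← mul_sub, abs_mul, abs_of_pos hp]; exact mul_le_mul_of_nonneg_left hY2 hp.le)
    (by rw [abs_mul, abs_of_pos hp]; exact mul_le_mul_of_nonneg_left hY3 hp.le)
  refine ⟨_, h4, ?_, ?_⟩
  · rw [h5, abs_mul, abs_of_pos hp]; exact mul_le_mul_of_nonneg_left hY3 hp.le
  · rw [h5, hu, hv]
    rcases hY with hY | ⟨hY, hY'⟩ | ⟨hY, hY'⟩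
    · left; rw [hY]; exact hZ
    · right; left
      constructor
      · have h6 : s' * (Z + 1) ≤ s' * Y := mul_le_mul_of_nonneg_left (by omega) hp.le
        have h7 := neg_abs_le (s' * Z - z)
        rw [mul_add, mul_one] at h6
        omega
      · rw [hY', mul_sub, mul_max_of_nonneg _ _ hp.le]
    · right; right
      constructor
      · have h6 : s' * (Y + 1) ≤ s' * Z := mul_le_mul_of_nonneg_left (by omega) hp.le
        have h7 := le_abs_self (s' * Z - z)
        rw [mul_add, mul_one] at h6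
        omega
      · rw [hY', mul_add, mul_min_of_nonneg _ _ hp.le]

end Crest.Agent.R288.NodeC785
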