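import Mathlib
import Crest.Agent.R288.NodeC_785

/-!
# R288 (S0433), leaf [Node], fourth part: the value of the grid game with windows

Heights `h0, …, h0 + Tm`; `Gr t` = grid of the nodes of height `h0 + t`, window
`s_t R_t = 2 C 2 ^ (h0 + t)`. `val_le`, `root_le`: every function on the states which is at most
the leaf cost on the leaves and at most the sum of the children for every allowed letter is at
most `(1 + 2 / C) ed + Er` at the root; `val_ge`, `root_ge`: the converse without any loss.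
-/

set_option autoImplicit false

namespace Crest.Agent.R288.NodeD785

open Crest.GraphRAM Crest.Agent.R288.Ed Crest.Agent.R288.GameA347 Crest.Agent.R288.NodeA785
open Crest.Agent.R288.NodeC785

/-- the grids of the heights `h0, …, h0 + Tm` with windows `2 C 2 ^ (h0 + t)` -/
structure Setup (h0 C Tm : ℕ) (Gr : ℕ → Grid) (q : ℕ → ℕ) : Prop where
  hC : 1 ≤ C
  fine : ∀ t < Tm, Fine (q t) (Gr (t + 1)) (Gr t)
  win : ∀ t ≤ Tm, (Gr t).s * (Gr t).R = 2 * C * 2 ^ (h0 + t)

/-- accumulated rounding error -/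
def Er (Gr : ℕ → Grid) : ℕ → ℝ
  | 0 => 0
  | t + 1 => 2 * Er Gr t + 6 * (Gr t).s

theorem Er_nonneg (Gr : ℕ → Grid) (t : ℕ) : 0 ≤ Er Gr t := by
  induction t with
  | zero => exact le_refl _
  | succ t ih => unfold Er; positivity

theorem Er_eq (Gr : ℕ → Grid) (t : ℕ) :
    Er Gr t = 6 * ∑ r ∈ Finset.range t, 2 ^ (t - 1 - r) * ((Gr r).s : ℝ) := by
  induction t with
  | zero => simp [Er]
  | succ t ih =>
    rw [Er, ih, Finset.sum_range_succ, mul_add, ← mul_assoc, mul_comm (2 : ℝ) 6, mul_assoc,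
      Finset.mul_sum]
    congr 1
    · congr 1
      apply Finset.sum_congr rfl
      intro r hr
      have hr' := Finset.mem_range.1 hr
      rw [← mul_assoc, ← pow_succ', show t - 1 - r + 1 = t + 1 - 1 - r by omega]
    · simp

/-- if every level costs at most `δ` -/
theorem Er_le (Gr : ℕ → Grid) (t : ℕ) {δ : ℝ} (h : ∀ r < t, 2 ^ (t - r) * ((Gr r).s : ℝ) ≤ δ) :
    Er Gr t ≤ 3 * t * δ := by
  rw [Er_eq]
  have h1 : ∀ r ∈ Finset.range t, 2 ^ (t - 1 - r) * ((Gr r).s : ℝ) ≤ δ / 2 := by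
    intro r hr
    have hr' := Finset.mem_range.1 hr
    have h2 := h r hr'
    rw [show t - r = (t - 1 - r) + 1 by omega, pow_succ] at h2
    linarith
  have h2 := Finset.sum_le_card_nsmul _ _ _ h1
  rw [Finset.card_range, nsmul_eq_mul] at h2
  linarith

theorem sK_le {q : ℕ} {G G' : Grid} (F : Fine q G G') :
    ((G.s * G.K : ℕ) : ℤ) ≤ ((G'.s * G'.K : ℕ) : ℤ) := by
  rw [F.hs]
  have h : q * G.K * G'.s ≤ G'.K * G'.s := Nat.mul_le_mul_right _ F.hK
  have e1 : q * G'.s * G.K = q * G.K * G'.s := by ring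
  have e2 : G'.s * G'.K = G'.K * G'.s := by ring
  rw [e1, e2]
  exact_mod_cast h

/-- cost of the rows `l, …, r - 1` of a path -/
def cw (x y : List ℕ) (w : ℕ → ℤ) (l r : ℕ) : ℕ :=
  ∑ a ∈ Finset.Ico l r, g x y a (a + 1) (w a) (w (a + 1))

theorem cw_split (x y : List ℕ) (w : ℕ → ℤ) {l m r : ℕ} (h1 : l ≤ m) (h2 : m ≤ r) :
    cw x y w l r = cw x y w l m + cw x y w m r :=
  (Finset.sum_Ico_consecutive _ h1 h2).symm

theorem cw_zero (x y : List ℕ) (w : ℕ → ℤ) (n : ℕ) : cw x y w 0 n = pathCost x y id w n := by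
  unfold cw pathCost
  rw [Finset.range_eq_Ico]
  rfl

theorem g_self (x y : List ℕ) (a : ℕ) (u : ℤ) : g x y a a u u = 0 := by
  unfold g
  rw [G_empty x y le_rfl (pos_le _ _ _)]
  omega

theorem g_le_cw (x y : List ℕ) (w : ℕ → ℤ) {l r : ℕ} (h : l ≤ r) :
    g x y l r (w l) (w r) ≤ cw x y w l r := by
  induction r, h using Nat.le_induction with
  | base => rw [g_self]; exact Nat.zero_le _
  | succ r hr ih =>
    rw [cw_split x y w hr (Nat.le_succ r)]
    refine (g_split_le x y hr (Nat.le_succ r) _ (w r) _).trans (Nat.add_le_add ih ?_)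
    simp [cw]

theorem lip_far {w : ℕ → ℤ} {C n : ℕ} (hlip : ∀ a < n, |w (a + 1) - w a| ≤ C) {a b : ℕ}
    (hab : a ≤ b) (hb : b ≤ n) : |w b - w a| ≤ C * ((b - a : ℕ) : ℤ) := by
  induction b, hab using Nat.le_induction with
  | base => simp
  | succ b hab ih =>
    have h1 := ih (by omega)
    have h2 := hlip b (by omega)
    have h3 := abs_sub_le (w (b + 1)) (w b) (w a)
    have h4 : ((b + 1 - a : ℕ) : ℤ) = ((b - a : ℕ) : ℤ) + 1 := by omega
    rw [h4, mul_add, mul_one]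
    linarith

section main

variable {x y : List ℕ} {h0 C Tm : ℕ} {Gr : ℕ → Grid} {q : ℕ → ℕ}
  {Val : ℕ → ℕ → ℕ → ℕ → ℝ}

/-- `Val` is at most the leaf cost on the leaves and at most the sum of the children's values for
every allowed letter -/
structure Sub (x y : List ℕ) (h0 Tm : ℕ) (Gr : ℕ → Grid) (q : ℕ → ℕ)
    (Val : ℕ → ℕ → ℕ → ℕ → ℝ) : Prop where
  leaf : ∀ j i k, i < (Gr 0).cu → k < (Gr 0).cd →
    Val 0 j i k ≤ gn x y h0 j ((Gr 0).U i) ((Gr 0).V i k)
  step : ∀ t < Tm, ∀ j i k T, i < (Gr (t + 1)).cu → k < (Gr (t + 1)).cd →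
    OkT (q t) (Gr (t + 1)) (Gr t) i k T →
    Val (t + 1) j i k ≤ Val t (2 * j) (lI (q t) (Gr (t + 1)) (Gr t) i) T +
      Val t (2 * j + 1) (rI (q t) (Gr (t + 1)) (Gr t) i T) (rK (q t) (Gr (t + 1)) (Gr t) k T)

/-- `Val` is at least the leaf cost on the leaves and at least the sum of the children's values
for some allowed letter (or at least the cost of the state) -/
structure Super (x y : List ℕ) (h0 Tm : ℕ) (Gr : ℕ → Grid) (q : ℕ → ℕ)
    (Val : ℕ → ℕ → ℕ → ℕ → ℝ) : Prop where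
  leaf : ∀ j i k, i < (Gr 0).cu → k < (Gr 0).cd →
    (gn x y h0 j ((Gr 0).U i) ((Gr 0).V i k) : ℝ) ≤ Val 0 j i k
  step : ∀ t < Tm, ∀ j i k, i < (Gr (t + 1)).cu → k < (Gr (t + 1)).cd →
    (gn x y (h0 + (t + 1)) j ((Gr (t + 1)).U i) ((Gr (t + 1)).V i k) : ℝ) ≤ Val (t + 1) j i k ∨
    ∃ T, OkT (q t) (Gr (t + 1)) (Gr t) i k T ∧
      Val t (2 * j) (lI (q t) (Gr (t + 1)) (Gr t) i) T +
        Val t (2 * j + 1) (rI (q t) (Gr (t + 1)) (Gr t) i T) (rK (q t) (Gr (t + 1)) (Gr t) k T)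
        ≤ Val (t + 1) j i k

theorem val_ge (hf : ∀ t < Tm, Fine (q t) (Gr (t + 1)) (Gr t)) (S : Super x y h0 Tm Gr q Val) :
    ∀ t ≤ Tm, ∀ j i k, i < (Gr t).cu → k < (Gr t).cd →
      (gn x y (h0 + t) j ((Gr t).U i) ((Gr t).V i k) : ℝ) ≤ Val t j i k := by
  intro t
  induction t with
  | zero => intro _ j i k hi hk; exact S.leaf j i k hi hk
  | succ t ih =>
    intro ht j i k hi hk
    have ht' : t < Tm := ht
    rcases S.step t ht' j i k hi hk with h | ⟨T, hT, h⟩
    · exact h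
    · have F := hf t ht'
      have h1 := ih ht'.le (2 * j) (lI (q t) (Gr (t + 1)) (Gr t) i) T (lI_lt F hi) hT.1
      have h2 := ih ht'.le (2 * j + 1) (rI (q t) (Gr (t + 1)) (Gr t) i T)
        (rK (q t) (Gr (t + 1)) (Gr t) k T) hT.2.2.1 hT.2.2.2.2
      rw [U_lI F, V_left F hT] at h1
      rw [V_right F hT] at h2
      have h3 := gn_split_le x y (h0 + t) j ((Gr (t + 1)).U i) ((Gr (t + 1)).V i k)
        ((Gr t).U (rI (q t) (Gr (t + 1)) (Gr t) i T))
      have h4 : ((gn x y (h0 + t + 1) j ((Gr (t + 1)).U i) ((Gr (t + 1)).V i k) : ℕ) : ℝ) ≤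
        gn x y (h0 + t) (2 * j) ((Gr (t + 1)).U i) ((Gr t).U (rI (q t) (Gr (t + 1)) (Gr t) i T)) +
        gn x y (h0 + t) (2 * j + 1) ((Gr t).U (rI (q t) (Gr (t + 1)) (Gr t) i T))
          ((Gr (t + 1)).V i k) := by exact_mod_cast h3
      rw [show h0 + (t + 1) = h0 + t + 1 by ring]
      linarith

/-- crude bound -/
theorem val_crude (S : Setup h0 C Tm Gr q) (B : Sub x y h0 Tm Gr q Val) :
    ∀ t ≤ Tm, ∀ j i k, i < (Gr t).cu → k < (Gr t).cd →
      |(Gr t).V i k| ≤ (((Gr t).s * (Gr t).K : ℕ) : ℤ) →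
      Val t j i k ≤ (1 + 2 * C) * 2 ^ (h0 + t) := by
  intro t
  induction t with
  | zero =>
    intro _ j i k hi' hk _
    refine (B.leaf j i k hi' hk).trans ?_
    have h1 := g_le' x y (lo_le_hi x.length h0 j) ((Gr 0).U i) ((Gr 0).V i k)
    have h2 := hi_sub_lo_le x.length h0 j
    have h3 : |(Gr 0).U i - (Gr 0).V i k| ≤ (((Gr 0).s * (Gr 0).R : ℕ) : ℤ) := by
      have := (Gr 0).dU_abs hk
      rw [abs_sub_comm, show (Gr 0).V i k - (Gr 0).U i = (Gr 0).dU k by unfold Grid.V; ring]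
      exact_mod_cast this
    rw [S.win 0 (Nat.zero_le _)] at h3
    have h4 : (gn x y h0 j ((Gr 0).U i) ((Gr 0).V i k) : ℤ) ≤
        ((2 ^ h0 + 2 * C * 2 ^ (h0 + 0) : ℕ) : ℤ) := by
      unfold gn
      have h5 : ((hi x.length h0 j - lo x.length h0 j : ℕ) : ℤ) ≤ ((2 ^ h0 : ℕ) : ℤ) := by
        exact_mod_cast h2
      push_cast at h1 h3 h5 ⊢
      linarith
    have h5 : ((gn x y h0 j ((Gr 0).U i) ((Gr 0).V i k) : ℕ) : ℝ) ≤
        ((2 ^ h0 + 2 * C * 2 ^ (h0 + 0) : ℕ) : ℝ) := by exact_mod_cast h4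
    refine h5.trans (le_of_eq ?_)
    push_cast
    rw [Nat.add_zero]
    ring
  | succ t ih =>
    intro ht j i k hi hk hV
    have ht' : t < Tm := ht
    have F := S.fine t ht'
    have hw1 := S.win t ht'.le
    have hw2 := S.win (t + 1) ht
    have hV' := hV.trans (sK_le F)
    obtain ⟨T, hT, hT1, _⟩ := clampT (z := 0) F (by
      rw [hw1, hw2, show h0 + (t + 1) = h0 + t + 1 by ring, pow_succ]
      exact le_of_eq (by ring)) hi hk (by push_cast at hV'; exact hV')
      (by simp; positivity)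
    have h1 := ih ht'.le (2 * j) (lI (q t) (Gr (t + 1)) (Gr t) i) T (lI_lt F hi) hT.1
      (by rw [V_left F hT]; push_cast; exact hT1)
    have h2 := ih ht'.le (2 * j + 1) (rI (q t) (Gr (t + 1)) (Gr t) i T)
      (rK (q t) (Gr (t + 1)) (Gr t) k T) hT.2.2.1 hT.2.2.2.2
      (by rw [V_right F hT]; exact hV')
    have h3 := B.step t ht' j i k T hi hk hT
    rw [show h0 + (t + 1) = h0 + t + 1 by ring, pow_succ]
    linarith

/-- the main induction -/
theorem val_le (S : Setup h0 C Tm Gr q) (B : Sub x y h0 Tm Gr q Val) {w : ℕ → ℤ}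
    (hlip : ∀ a < x.length, |w (a + 1) - w a| ≤ C)
    (hband : ∀ a ≤ x.length, |w a| ≤ (((Gr Tm).s * (Gr Tm).K : ℕ) : ℤ)) :
    ∀ t ≤ Tm, ∀ j i k, i < (Gr t).cu → k < (Gr t).cd →
      |(Gr t).V i k| ≤ (((Gr t).s * (Gr t).K : ℕ) : ℤ) →
      Val t j i k ≤ cw x y w (lo x.length (h0 + t) j) (hi x.length (h0 + t) j) + Er Gr t +
        6 * ((|(Gr t).U i - w (lo x.length (h0 + t) j)| +
          |(Gr t).V i k - w (hi x.length (h0 + t) j)| : ℤ) : ℝ) := by
  -- the band contains the path at every height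
  have hband' : ∀ t ≤ Tm, ∀ a ≤ x.length, |w a| ≤ (((Gr t).s * (Gr t).K : ℕ) : ℤ) := by
    intro t ht
    obtain ⟨d, hd⟩ := Nat.exists_eq_add_of_le ht
    induction d generalizing t with
    | zero => intro a ha; rw [show t = Tm by omega]; exact hband a ha
    | succ d ihd =>
      intro a ha
      exact (ihd (t + 1) (by omega) (by omega) a ha).trans (sK_le (S.fine t (by omega)))
  intro t
  induction t with
  | zero =>
    intro _ j i k hi' hk _
    refine (B.leaf j i k hi' hk).trans ?_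
    have h1 := gn_lip x y h0 j ((Gr 0).U i) (w (lo x.length h0 j)) ((Gr 0).V i k)
      (w (hi x.length h0 j))
    have h2 := g_le_cw x y w (lo_le_hi x.length h0 j)
    have h3 : ((gn x y h0 j ((Gr 0).U i) ((Gr 0).V i k) : ℕ) : ℤ) ≤
        cw x y w (lo x.length h0 j) (hi x.length h0 j) +
        (|(Gr 0).U i - w (lo x.length h0 j)| + |(Gr 0).V i k - w (hi x.length h0 j)|) := by
      unfold gn at h1 ⊢
      have e1 := Int.natCast_natAbs ((Gr 0).U i - w (lo x.length h0 j))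
      have e2 := Int.natCast_natAbs ((Gr 0).V i k - w (hi x.length h0 j))
      rw [← e1, ← e2]
      exact_mod_cast (by omega : _ ≤ _)
    have h4 : ((gn x y h0 j ((Gr 0).U i) ((Gr 0).V i k) : ℕ) : ℝ) ≤
        (cw x y w (lo x.length h0 j) (hi x.length h0 j) : ℝ) +
        ((|(Gr 0).U i - w (lo x.length h0 j)| + |(Gr 0).V i k - w (hi x.length h0 j)| : ℤ) : ℝ) := by
      exact_mod_cast h3
    have h5 : (0 : ℝ) ≤ ((|(Gr 0).U i - w (lo x.length h0 j)| +
        |(Gr 0).V i k - w (hi x.length h0 j)| : ℤ) : ℝ) := by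
      exact_mod_cast add_nonneg (abs_nonneg _) (abs_nonneg _)
    rw [Nat.add_zero, Er]
    linarith
  | succ t ih =>
    intro ht j i k hi' hk hV
    have ht' : t < Tm := ht
    have F := S.fine t ht'
    have hw1 := S.win t ht'.le
    have hw2 := S.win (t + 1) ht
    have hV' := hV.trans (sK_le F)
    have hC := S.hC
    rw [show h0 + (t + 1) = h0 + t + 1 by ring] at *
    set a := lo x.length (h0 + t + 1) j with ha
    set b := hi x.length (h0 + t + 1) j with hb
    set m := lo x.length (h0 + t) (2 * j + 1) with hm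
    have ham : a ≤ m := lo_le_mid _ _ _
    have hmb : m ≤ b := mid_le_hi _ _ _
    have hbn : b ≤ x.length := hi_le _ _ _
    set P : ℕ := 2 ^ (h0 + t) with hP
    have hPpos : 0 < P := Nat.two_pow_pos _
    have la : lo x.length (h0 + t) (2 * j) = a := lo_succ _ _ _
    have lb : hi x.length (h0 + t) (2 * j + 1) = b := hi_succ _ _ _
    have lm : hi x.length (h0 + t) (2 * j) = m := rfl
    have d1 : m - a ≤ P := by rw [← la, ← lm]; exact hi_sub_lo_le _ _ _
    have d2 : b - m ≤ P := by rw [← lb, hm]; exact hi_sub_lo_le _ _ _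
    have l1 : |w m - w a| ≤ C * (P : ℤ) :=
      (lip_far hlip ham (hmb.trans hbn)).trans
        (mul_le_mul_of_nonneg_left (by exact_mod_cast d1) (Int.natCast_nonneg _))
    have l2 : |w b - w m| ≤ C * (P : ℤ) :=
      (lip_far hlip hmb hbn).trans
        (mul_le_mul_of_nonneg_left (by exact_mod_cast d2) (Int.natCast_nonneg _))
    have hcwn : (0 : ℝ) ≤ (cw x y w a b : ℝ) := Nat.cast_nonneg _
    have hEr := Er_nonneg Gr (t + 1)
    set u := (Gr (t + 1)).U i with hu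
    set v := (Gr (t + 1)).V i k with hv
    have hea : (0 : ℤ) ≤ |u - w a| := abs_nonneg _
    have heb : (0 : ℤ) ≤ |v - w b| := abs_nonneg _
    by_cases hbig : (C : ℤ) * P < |u - w a| ∨ (C : ℤ) * P < |v - w b|
    · -- far from the path: the crude bound
      have h1 := val_crude S B (t + 1) ht j i k hi' hk hV
      have h2 : (C : ℤ) * P ≤ |u - w a| + |v - w b| := by rcases hbig with h | h <;> omega
      have h3 : ((C : ℝ)) * P ≤ ((|u - w a| + |v - w b| : ℤ) : ℝ) := by exact_mod_cast h2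
      have h4 : (1 + 2 * (C : ℝ)) * 2 ^ (h0 + (t + 1)) ≤ 6 * ((C : ℝ) * P) := by
        rw [show h0 + (t + 1) = h0 + t + 1 by ring, pow_succ]
        have h5 : (P : ℝ) = 2 ^ (h0 + t) := by rw [hP]; push_cast; ring
        rw [← h5]
        have h6 : (1 : ℝ) ≤ C := by exact_mod_cast hC
        have h7 : (0 : ℝ) < P := by exact_mod_cast hPpos
        nlinarith
      linarith
    · push Not at hbig
      obtain ⟨b1, b2⟩ := hbig
      obtain ⟨T, hT, hT1, hT2⟩ := clampT (z := w m) F (by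
        rw [hw1, hw2, pow_succ]
        exact le_of_eq (by ring)) hi' hk (by push_cast at hV'; exact hV')
        (by have := hband' t ht'.le m (hmb.trans hbn); push_cast at this; exact this)
      set z := (Gr t).U (rI (q t) (Gr (t + 1)) (Gr t) i T) with hz
      have hW : ((Gr t).s : ℤ) * (Gr t).R = 2 * (C * P) := by
        have : (((Gr t).s * (Gr t).R : ℕ) : ℤ) = ((2 * C * 2 ^ (h0 + t) : ℕ) : ℤ) := by rw [hw1]
        rw [← hP] at this
        push_cast at this
        linarith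
      have hnear : 2 * |z - w m| ≤ (Gr t).s := by
        rw [← hu, ← hv, hW] at hT2
        rw [abs_le] at b1 b2 l1 l2
        rcases hT2 with h | ⟨h, h'⟩ | ⟨h, h'⟩
        · exact h
        · exfalso; omega
        · exfalso; omega
      have h1 := ih ht'.le (2 * j) (lI (q t) (Gr (t + 1)) (Gr t) i) T (lI_lt F hi') hT.1
        (by rw [V_left F hT]; push_cast; exact hT1)
      have h2 := ih ht'.le (2 * j + 1) (rI (q t) (Gr (t + 1)) (Gr t) i T)
        (rK (q t) (Gr (t + 1)) (Gr t) k T) hT.2.2.1 hT.2.2.2.2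
        (by rw [V_right F hT]; exact hV')
      rw [U_lI F, V_left F hT, la, lm] at h1
      rw [V_right F hT, lb, ← hm] at h2
      rw [← hu, ← hz] at h1
      rw [← hv, ← hz] at h2
      have h3 := B.step t ht' j i k T hi' hk hT
      have h4 : (cw x y w a b : ℝ) = cw x y w a m + cw x y w m b := by
        exact_mod_cast cw_split x y w ham hmb
      have h5 : (2 : ℝ) * ((|z - w m| : ℤ) : ℝ) ≤ (Gr t).s := by exact_mod_cast hnear
      rw [Er, h4]
      push_cast at h1 h2 h5 ⊢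
      linarith

/-- **upper bound at the root** -/
theorem root_le (S : Setup h0 C Tm Gr q) (B : Sub x y h0 Tm Gr q Val)
    (hn : x.length ≤ 2 ^ (h0 + Tm)) (hxy : |(y.length : ℤ) - x.length| ≤ C * x.length)
    (hD : editDist x y ≤ (Gr Tm).s * (Gr Tm).K) {i k : ℕ} (hi' : i < (Gr Tm).cu)
    (hk : k < (Gr Tm).cd) (hV : |(Gr Tm).V i k| ≤ (((Gr Tm).s * (Gr Tm).K : ℕ) : ℤ)) :
    Val Tm 0 i k ≤ (1 + 2 / (C : ℝ)) * editDist x y + Er Gr Tm +
      6 * ((|(Gr Tm).U i| + |(Gr Tm).V i k - ((y.length : ℤ) - x.length)| : ℤ) : ℝ) := by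
  obtain ⟨w, w0, wn, w1, w2, w3⟩ := exists_lip_path x y S.hC hxy
  have h1 := val_le S B w1 (fun a ha => (w2 a ha).trans (by exact_mod_cast hD)) Tm le_rfl 0 i k
    hi' hk hV
  rw [lo_zero, hi_root hn, w0, wn, sub_zero, cw_zero] at h1
  have hC : (1 : ℝ) ≤ C := by exact_mod_cast S.hC
  have h2 : (C : ℝ) * pathCost x y id w x.length ≤ (C + 2) * editDist x y := by exact_mod_cast w3
  have h3 : (pathCost x y id w x.length : ℝ) ≤ (1 + 2 / (C : ℝ)) * editDist x y := by
    have h4 : (1 + 2 / (C : ℝ)) * editDist x y = ((C + 2) * editDist x y) / C := by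
      field_simp
    rw [h4, le_div_iff₀ (by linarith), mul_comm]
    exact h2
  linarith

/-- **lower bound at the root** -/
theorem root_ge (hf : ∀ t < Tm, Fine (q t) (Gr (t + 1)) (Gr t)) (S : Super x y h0 Tm Gr q Val)
    (hn : x.length ≤ 2 ^ (h0 + Tm)) {i k : ℕ} (hi' : i < (Gr Tm).cu) (hk : k < (Gr Tm).cd) :
    (editDist x y : ℝ) ≤ Val Tm 0 i k +
      ((|(Gr Tm).U i| + |(Gr Tm).V i k - ((y.length : ℤ) - x.length)| : ℤ) : ℝ) := by
  have h1 := val_ge hf S Tm le_rfl 0 i k hi' hk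
  have h2 := gn_lip x y (h0 + Tm) 0 0 ((Gr Tm).U i) ((y.length : ℤ) - x.length) ((Gr Tm).V i k)
  rw [gn_root x y hn] at h2
  have h3 : (editDist x y : ℤ) ≤ gn x y (h0 + Tm) 0 ((Gr Tm).U i) ((Gr Tm).V i k) +
      (|(Gr Tm).U i| + |(Gr Tm).V i k - ((y.length : ℤ) - x.length)|) := by
    have e1 : (((0 - (Gr Tm).U i).natAbs : ℕ) : ℤ) = |(Gr Tm).U i| := by
      rw [Int.natCast_natAbs, zero_sub, abs_neg]
    have e2 : ((((y.length : ℤ) - x.length - (Gr Tm).V i k).natAbs : ℕ) : ℤ) =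
        |(Gr Tm).V i k - ((y.length : ℤ) - x.length)| := by
      rw [Int.natCast_natAbs, abs_sub_comm]
    rw [← e1, ← e2]
    have h5 := Int.ofNat_le.2 h2
    simp only [Nat.cast_add] at h5
    linarith
  have h4 : (editDist x y : ℝ) ≤ (gn x y (h0 + Tm) 0 ((Gr Tm).U i) ((Gr Tm).V i k) : ℝ) +
      ((|(Gr Tm).U i| + |(Gr Tm).V i k - ((y.length : ℤ) - x.length)| : ℤ) : ℝ) := by
    exact_mod_cast h3
  linarith

end main

/-! ### standard grids: powers of two -/

/-- the standard grid at the height `h0 + t`: step `2 ^ e t`, band `2 ^ b` -/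
def stdG (h0 c : ℕ) (e : ℕ → ℕ) (b t : ℕ) : Grid where
  s := 2 ^ e t
  K := 2 ^ (b - e t)
  R := 2 ^ (c + h0 + t + 1 - e t)

/-- the ratio of the standard grids -/
def stdq (e : ℕ → ℕ) (t : ℕ) : ℕ := 2 ^ (e (t + 1) - e t)

/-- the standard grids with `C = 2 ^ c` -/
theorem std_setup {h0 c Tm b : ℕ} {e : ℕ → ℕ} (he : ∀ t < Tm, e t ≤ e (t + 1))
    (hb : ∀ t ≤ Tm, e t ≤ b) (hh : ∀ t ≤ Tm, e t ≤ c + h0 + t + 1) :
    Setup h0 (2 ^ c) Tm (stdG h0 c e b) (stdq e) where
  hC := Nat.one_le_two_pow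
  fine := by
    intro t ht
    have h1 := he t ht
    have h2 := hb (t + 1) ht
    refine ⟨?_, Nat.two_pow_pos _, ?_⟩
    · show 2 ^ e (t + 1) = 2 ^ (e (t + 1) - e t) * 2 ^ e t
      rw [← pow_add]; congr 1; omega
    · show 2 ^ (e (t + 1) - e t) * 2 ^ (b - e (t + 1)) ≤ 2 ^ (b - e t)
      rw [← pow_add]
      apply Nat.pow_le_pow_right (by norm_num)
      omega
  win := by
    intro t ht
    have h1 := hh t ht
    show 2 ^ e t * 2 ^ (c + h0 + t + 1 - e t) = 2 * 2 ^ c * 2 ^ (h0 + t)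
    rw [← pow_add, ← pow_succ', ← pow_add]
    congr 1
    omega

theorem stdG_band {h0 c b : ℕ} {e : ℕ → ℕ} {t : ℕ} (hb : e t ≤ b) :
    (stdG h0 c e b t).s * (stdG h0 c e b t).K = 2 ^ b := by
  show 2 ^ e t * 2 ^ (b - e t) = 2 ^ b
  rw [← pow_add]; congr 1; omega

end Crest.Agent.R288.NodeD785
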