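import Crest.Agent.R288.ParC_895
import Crest.Agent.R288.ParC_806
import Crest.Agent.R288.ParO_331
import Crest.Agent.R288.AnaLip_364

/-!
# R288 leaf W7 (numbers), helper866: the parameter lines of `AnaLip364.LipOk` for `ParO331.parOf`

`L := h`, `g := gI h`, `p := pI h`; `ζ` is ANY positive function with `Ord 0 b (1/ζ)`, `b < 8`
(`zet h = 2 ^ (-7 Lg h)` is one).
-/

set_option autoImplicit false

open Filter

namespace Crest.Agent.R288.NumA866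

open Crest.Agent.R288.Asy720 Crest.Agent.R288.Par806 Crest.Agent.R288.Par895
open Crest.Agent.R288.ParO331 (HH DmO K0O pI)
open Crest.Agent.R288.AnaLip364 (B1)

theorem four_le_pI (h : ℕ) : 4 ≤ pI h := by
  unfold pI
  calc 4 = 2 ^ 2 := by norm_num
    _ ≤ 2 ^ (8 * Lg h) := Nat.pow_le_pow_right (by norm_num) (by have := Lg_pos h; omega)

theorem gI_pos (h : ℕ) : 1 ≤ gI h := Nat.mul_pos (W_pos h) (Lg_pos h)

/-- line `hL` of `LipOk` with `L = h` -/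
theorem ev_height : ∀ᶠ h : ℕ in atTop, nn h * II h + 1 ≤ 2 * h := by
  filter_upwards [ev_exp_le_Lg 1 1 0, ev_pow_le_self 1 0 1 0 0 0 1] with h h1 h2
  simp only [pow_zero, mul_one, pow_one, zero_mul, add_zero, one_mul] at h1 h2
  have h3 : h / nn h * nn h ≤ h := Nat.div_mul_le_self _ _
  have e : nn h * II h = h / nn h * nn h + nn h := by unfold II; ring
  omega

theorem B1_le {g l L : ℕ} (hL : L ≤ 2 ^ l) : B1 g L ≤ 2 ^ (g + l + 5) := by
  have h1 : 1 ≤ 2 ^ (g + l) := Nat.one_le_two_pow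
  have e2 : (2 : ℕ) ^ (g + l + 5) = 32 * 2 ^ (g + l) := by rw [pow_add]; ring
  unfold B1
  calc 16 * 2 ^ g * L + 8 ≤ 16 * 2 ^ g * 2 ^ l + 8 := by gcongr
    _ = 16 * 2 ^ (g + l) + 8 := by rw [pow_add]; ring
    _ ≤ 2 ^ (g + l + 5) := by rw [e2]; omega

theorem B1_le' (h : ℕ) : B1 (gI h) h ≤ 2 ^ (gI h + Lg h + 5) := B1_le (lt_two_pow_Lg h).le

/-- line `top` of `LipOk`, any macro size `a = n I`, `Dm ≤ 2 ^ (a+1)` -/
theorem top_of {g l L a D K : ℕ} (hL : L ≤ 2 ^ l) (hD : D ≤ 2 ^ (a + 1))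
    (hK : a + g + l + 9 ≤ K) : B1 g L * (2 ^ a + 6 * D + 1) < 2 ^ K := by
  have h1 := B1_le (g := g) hL
  have h2 : 1 ≤ 2 ^ a := Nat.one_le_two_pow
  have h3 : 2 ^ a + 6 * D + 1 < 2 ^ (a + 4) := by
    rw [pow_succ] at hD
    have e : (2 : ℕ) ^ (a + 4) = 16 * 2 ^ a := by rw [pow_add]; ring
    rw [e]
    omega
  calc B1 g L * (2 ^ a + 6 * D + 1) ≤ 2 ^ (g + l + 5) * (2 ^ a + 6 * D + 1) :=
        Nat.mul_le_mul_right _ h1
    _ < 2 ^ (g + l + 5) * 2 ^ (a + 4) := Nat.mul_lt_mul_of_pos_left h3 (by positivity)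
    _ = 2 ^ (a + g + l + 9) := by rw [← pow_add]; congr 1; ring
    _ ≤ 2 ^ K := Nat.pow_le_pow_right (by norm_num) hK

/-- line `top` for the table -/
theorem top_parOf (h : ℕ) :
    B1 (gI h) h * (2 ^ (nn h * II h) + 6 * DmO h + 1) < 2 ^ (K0O h + 1 - a2) := by
  refine top_of (lt_two_pow_Lg h).le (D := DmO h) le_rfl ?_
  unfold K0O HH a2
  omega

/-- line `top` of `LipOk` (final form of 364) for the table -/
theorem top_parOf' (h : ℕ) :
    2 * (2 ^ (nn h * II h + 1) + 6 * DmO h) + 8 < 2 ^ (K0O h + 1 - a2) := by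
  have e1 : DmO h = 2 ^ (nn h * II h + 1) := rfl
  have h0 : 1 ≤ 2 ^ (nn h * II h + 1) := Nat.one_le_two_pow
  have h2 : 2 ^ (nn h * II h + 1 + 5) ≤ 2 ^ (K0O h + 1 - a2) := by
    refine Nat.pow_le_pow_right (by norm_num) ?_
    unfold K0O HH a2
    omega
  have e2 : (2 : ℕ) ^ (nn h * II h + 1 + 5) = 32 * 2 ^ (nn h * II h + 1) := by rw [pow_add]; ring
  rw [e1]
  rw [e2] at h2
  omega

/-- line `big` of `LipOk`, with a factor `2 ^ C` to spare -/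
theorem ev_big (C : ℕ) : ∀ᶠ h : ℕ in atTop, 2 ^ C * B1 (gI h) h ≤ 2 ^ (al h + pb h) := by
  filter_upwards [ev_exp_le_Lg (C + 6) 1 0] with h h2
  have hW := W_pos h
  have h4 : Lg h ≤ W h * Lg h := Nat.le_mul_of_pos_left _ hW
  calc 2 ^ C * B1 (gI h) h ≤ 2 ^ C * 2 ^ (gI h + Lg h + 5) := Nat.mul_le_mul_left _ (B1_le' h)
    _ = 2 ^ (C + (gI h + Lg h + 5)) := by rw [← pow_add]
    _ ≤ 2 ^ (al h + pb h) := by
        refine Nat.pow_le_pow_right (by norm_num) ?_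
        have e1 : gI h = W h * Lg h := rfl
        have e2 : al h = 8 * (W h * Lg h) := by unfold al; ring
        have e3 : pb h = 16 * (W h * Lg h) := by unfold pb; ring
        rw [e1, e2, e3]
        omega

theorem ord_pI_inv : Ord 0 (-8) fun h => ((pI h : ℕ) : ℝ)⁻¹ := by
  have := ord_two_pow_inv (e := fun h => 8 * Lg h) 0 8 fun h => by push_cast; ring
  simp only [neg_zero] at this
  exact this.congr fun h => by unfold pI; push_cast; ring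

theorem ord_B1 : Ord 1 1 fun h => (B1 (gI h) h : ℝ) := by
  have h2 : Ord 1 1 fun h => (2 : ℝ) ^ gI h * (h : ℝ) := by
    have := ord_gI.mul ord_h
    simpa using this
  have h3 : Ord 1 1 fun _ : ℕ => (8 : ℝ) := (Ord.const 8).lt (by norm_num) 1
  exact ((h2.const_mul 16).add h3).congr fun h => by unfold B1; push_cast; ring

variable {ζ : ℕ → ℝ} {b : ℝ}

/-- from the order of `f / ζ` to `c f ≤ ζ` -/
theorem ev_le_of_ord {f : ℕ → ℝ} {a' b' : ℝ} (hf : Ord a' b' f) (hζ0 : ∀ h, 0 < ζ h)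
    (hζ : Ord 0 b fun h => (ζ h)⁻¹) (c : ℝ) (h : a' < 0 ∨ (a' = 0 ∧ b' + b < 0)) :
    ∀ᶠ m : ℕ in atTop, c * f m ≤ ζ m := by
  have h1 : Ord a' (b' + b) fun h => c * f h * (ζ h)⁻¹ := by
    have := (hf.const_mul c).mul hζ
    simpa using this
  filter_upwards [h1.le_one h] with m h2
  have h3 := (abs_le.1 h2).2
  have h4 := hζ0 m
  rw [← div_eq_mul_inv, div_le_one h4] at h3
  exact h3

/-- line `al` of `LipOk` -/
theorem ev_al (hζ0 : ∀ h, 0 < ζ h) (hζ : Ord 0 b fun h => (ζ h)⁻¹) :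
    ∀ᶠ h : ℕ in atTop, (EE h : ℝ) * (2 / 2 ^ al h) ≤ ζ h / 4 := by
  have h1 : Ord (-8) 0 fun h => (EE h : ℝ) * (2 * ((2 : ℝ) ^ al h)⁻¹) :=
    ord_EE.zmul (ord_al.const_mul 2)
  filter_upwards [ev_le_of_ord h1 hζ0 hζ 4 (Or.inl (by norm_num))] with h h2
  rw [div_eq_mul_inv 2 ((2 : ℝ) ^ al h)]
  linarith

/-- line `start` of `LipOk` -/
theorem ev_start (hζ0 : ∀ h, 0 < ζ h) (hζ : Ord 0 b fun h => (ζ h)⁻¹) (hb : b < 8) :
    ∀ᶠ h : ℕ in atTop, 4 / (pI h : ℝ) + (2 + (1 + 4 / (pI h : ℝ)) * (2 + 2 * 2 ^ gI h)) *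
      (8 / 2 ^ (al h + pb h) * (2 * B1 (gI h) h)) ≤ ζ h / 4 := by
  have hp : Ord 0 (-8) fun h => 4 * ((pI h : ℕ) : ℝ)⁻¹ := ord_pI_inv.const_mul 4
  have h1 : Ord 0 0 fun h => 1 + 4 * ((pI h : ℕ) : ℝ)⁻¹ :=
    (Ord.const 1).add (hp.weak (by norm_num))
  have h2 : Ord 1 0 fun h => 2 + 2 * (2 : ℝ) ^ gI h :=
    ((Ord.const 2).lt (by norm_num) 0).add (ord_gI.const_mul 2)
  have h3 : Ord 1 0 fun h => 2 + (1 + 4 * ((pI h : ℕ) : ℝ)⁻¹) * (2 + 2 * (2 : ℝ) ^ gI h) :=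
    ((Ord.const 2).lt (by norm_num) 0).add (h1.zmul h2)
  have h4 : Ord (-24) 0 fun h => 8 * (((2 : ℝ) ^ al h)⁻¹ * ((2 : ℝ) ^ pb h)⁻¹) := by
    have := (ord_al.mul ord_P).const_mul 8
    norm_num at this
    simpa using this
  have h5 : Ord (-23) 1 fun h => 8 * (((2 : ℝ) ^ al h)⁻¹ * ((2 : ℝ) ^ pb h)⁻¹) *
      (2 * (B1 (gI h) h : ℝ)) := by
    have := h4.mul (ord_B1.const_mul 2)
    norm_num at this
    exact this
  have h6 : Ord (-22) 1 fun h => (2 + (1 + 4 * ((pI h : ℕ) : ℝ)⁻¹) * (2 + 2 * (2 : ℝ) ^ gI h)) *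
      (8 * (((2 : ℝ) ^ al h)⁻¹ * ((2 : ℝ) ^ pb h)⁻¹) * (2 * (B1 (gI h) h : ℝ))) := by
    have := h3.mul h5
    norm_num at this
    exact this
  filter_upwards [ev_le_of_ord hp hζ0 hζ 8 (Or.inr ⟨rfl, by linarith⟩),
    ev_le_of_ord h6 hζ0 hζ 8 (Or.inl (by norm_num))] with h h7 h8
  rw [div_eq_mul_inv 4 ((pI h : ℕ) : ℝ), pow_add, div_eq_mul_inv 8 ((2 : ℝ) ^ al h * 2 ^ pb h),
    mul_inv]
  linarith

/-- a concrete precision -/
noncomputable def zet (h : ℕ) : ℝ := ((2 : ℝ) ^ (7 * Lg h))⁻¹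

theorem zet_pos (h : ℕ) : 0 < zet h := by unfold zet; positivity

theorem zet_le_one (h : ℕ) : zet h ≤ 1 := by
  unfold zet
  exact inv_le_one_of_one_le₀ (one_le_pow₀ (by norm_num))

theorem ord_zet : Ord 0 (-7) zet := by
  have := ord_two_pow_inv (e := fun h => 7 * Lg h) 0 7 fun h => by push_cast; ring
  simp only [neg_zero] at this
  exact this

theorem ord_zet_inv : Ord 0 7 fun h => (zet h)⁻¹ := by
  have := ord_two_pow (e := fun h => 7 * Lg h) 0 7 fun h => by push_cast; ring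
  exact this.congr fun h => by unfold zet; rw [inv_inv]

end Crest.Agent.R288.NumA866
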