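import Crest.Agent.R288.WinF3C_131
import Crest.Agent.R288.WinH_330

/-!
# R288, (F3') fields of `WinH330.win_of` (helper131)

Epoch `e + 1`; the laws are those of epoch `e`.
* `df C X e ζ τ c8 x` = defect of (F3') of `F_(e+1)` at the rounded state of `x`;
* **`f3F`** : `WinH330.F3F C X (e+1) (df C X e ζ τ c8)`;
* **`df0`**, **`dfV`** with `kd ≥ (ζ + kA τ) (b (1 + p b)) + kB τ (c8+2) / Lam`.
-/

set_option autoImplicit false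

namespace Crest.Agent.R288.WinF3D131

open Finset Crest.Agent.R288.Alg45 Crest.Agent.R288.WinF3131 Crest.Agent.R288.WinF3C131
  Crest.Agent.R288.WinFar974 Crest.Agent.R288.Asm331 Crest.Agent.R288.Dom20
  Crest.Agent.R288.GSt442 Crest.Agent.R288.WinH330

variable {C : Cfg} {X : ℕ → ℕ × St → ℕ} {e : ℕ}

/-- defect of (F3') of `F_(e+1)` at the rounded state of `x` -/
noncomputable def df (C : Cfg) (X : ℕ → ℕ × St → ℕ) (e : ℕ) (ζ τ c8 : ℝ) (x : St) : ℝ :=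
  dfC C X e ζ τ (c8 + 2) (StmA616.hat C X (e + 1) x)

theorem hat_Ok {ζ : ℝ}
    (hFL' : ∀ i j, i ≤ C.I → j < C.P.N ^ (C.I - i) → ArrLip195.FL C.P (FE C.P X (e + 1)) ζ i j)
    {x : St} (hx : Ok C x) : Ok C (StmA616.hat C X (e + 1) x) :=
  own_InD (F := FE C.P X (e + 1))
    ((hFL' _ _ hx.1 hx.2.1).dvd _ ⟨rfl, rfl, inD_of_InD hx⟩) hx

/-- **(F3')** -/
theorem f3F (hX : C.Good X) (he : e < C.P.E) {G : St → ℕ} (E : Exact C.P.N C.P.Dm G)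
    {ζ τ τF c8 : ℝ} {Gc : ℕ} {A : ℕ → ℕ → St → ℝ} (L : Law C X e A τ τF c8)
    (hFL : ∀ i j, i ≤ C.I → j < C.P.N ^ (C.I - i) → ArrLip195.FL C.P (FE C.P X e) ζ i j)
    (hFL' : ∀ i j, i ≤ C.I → j < C.P.N ^ (C.I - i) → ArrLip195.FL C.P (FE C.P X (e + 1)) ζ i j)
    (hK2 : ∀ y, Ok C y → cls (FE C.P X e) y + C.P.a2 ≤ C.K0)
    (hSF : ∀ y, Ok C y → G y ≤ FE C.P X e y)
    (hSX : ∀ k < C.P.K, ∀ κ z, (κ, z) ∈ OmP C.P.N C.I C.P.Dm C.K0 → G z ≤ Xe C.P X e k κ z)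
    (hlf : ∀ z, Ok C z → ∀ v, C.leaf z = some v → v ≤ G z + 1)
    (hF4 : ∀ z, Ok C z → C.leaf z = none → C.P.N * 4 ≤ FE C.P X e z)
    (hK : 0 < C.P.K) (hg : 1 ≤ C.P.g) (hpm : 0 < C.P.pm) (hr : 3 ≤ C.P.r) (hnb : 1 ≤ C.P.nb)
    (hG2 : 2 ≤ Gc) (hGg : (C.P.n + 1) * C.P.g ≤ Gc) (hGum : Gc * (4 * C.P.Creg + 1) ≤ C.P.um)
    (hτ0 : 0 ≤ τ) (hτF : τF ≤ 1) (hc8 : 0 ≤ c8) : F3F C X (e + 1) (df C X e ζ τ c8) := by
  intro x hx hl _ m hm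
  have hi : 1 ≤ x.i := by
    by_contra h0
    exact hl (Or.inl (by omega))
  exact f3_cfg hX he E hFL hFL' hK2 hSF hSX L.J L.upF L.body hlf hF4 hK hg hpm hr hnb hG2 hGg hGum
    hτ0 hτF hc8 (hat_Ok hFL' hx) hi hm

theorem df0 {ζ τ c8 : ℝ} (hζ : 0 ≤ ζ) (hτ : 0 ≤ τ) (hc8 : 0 ≤ c8) (x : St) :
    0 ≤ df C X e ζ τ c8 x := df0_cfg hζ hτ (by linarith) _

/-- size of the defect; `b` bounds the factors of `F_e` and `F_(e+1)`, `p` = `2 / 2^pb` (`dist_own`) -/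
theorem dfV {G : St → ℕ} {C₀ : ℕ} (E : Exact C.P.N C.P.Dm G) {ζ τ c8 b p kd Lam : ℝ}
    (hFL : ∀ i j, i ≤ C.I → j < C.P.N ^ (C.I - i) → ArrLip195.FL C.P (FE C.P X e) ζ i j)
    (hFL' : ∀ i j, i ≤ C.I → j < C.P.N ^ (C.I - i) → ArrLip195.FL C.P (FE C.P X (e + 1)) ζ i j)
    (hK : 0 < C.P.K) (hg : 1 ≤ C.P.g) (hτ : 0 ≤ τ) (hc8 : 0 ≤ c8) (hb : 0 ≤ b)
    (hp : 2 / 2 ^ C.P.pb ≤ p)
    (hFB : ∀ y, Ok C y → (FE C.P X e y : ℝ) ≤ b * (G y + C₀))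
    (hFB' : ∀ y, Ok C y → (FE C.P X (e + 1) y : ℝ) ≤ b * (G y + C₀))
    (hLam : 0 < Lam) (hact : ∀ x, Ok C x → ¬ lf C x → Lam < G x)
    (hkd : (ζ + kA C.P τ) * (b * (1 + p * b)) + kB C.P τ (c8 + 2) / Lam ≤ kd)
    {x : St} (hx : Ok C x) (hl : ¬ lf C x) : df C X e ζ τ c8 x ≤ kd * (G x + C₀) := by
  have hp0 : 0 ≤ p := le_trans (by positivity) hp
  refine dfV_cfg E hFL hK hg hτ (by linarith) hb hp0 hFB hFB' hx (hat_Ok hFL' hx) rfl rfl ?_ hLam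
    (hact x hx hl) hkd
  have h1 := ArrLip195.dist_own (P := C.P) (F := FE C.P X (e + 1)) x
  exact h1.trans (mul_le_mul_of_nonneg_right hp (Nat.cast_nonneg _))

end Crest.Agent.R288.WinF3D131
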