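import Crest.Agent.R288.WinFar_974
import Crest.Agent.R288.WinH_330

/-!
# R288, [A13.FAR] (helper974): `WinH330.FarF` from the law

`Lam < G x` at the active states, `4 N ≤ Lam`; the additive terms are booked against `e4 * Lam`.
`hUF` is a separate hypothesis (own constant `τu ≤ 1`).
-/

set_option autoImplicit false

namespace Crest.Agent.R288.WinFar974

open Finset
open Crest.Agent.R288.Alg45 Crest.Agent.R288.Asm331 Crest.Agent.R288.Dom20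

variable {C : Cfg} {X : ℕ → ℕ × St → ℕ} {e : ℕ}

/-- **FAR at the letters of `WinH330`** -/
theorem farF (hX : C.Good X) (he : e < C.P.E) {G : St → ℕ} {C0 : ℕ} {A : ℕ → ℕ → St → ℝ}
    {ζ τ τu c8 k1 e4 Lam : ℝ} {Gc : ℕ}
    (hFL : ∀ i j, i ≤ C.I → j < C.P.N ^ (C.I - i) → ArrLip195.FL C.P (FE C.P X e) ζ i j)
    (hK0 : ∀ y, InD C.P.N C.I C.P.Dm y → cls (FE C.P X e) y ≤ C.K0)
    (hJ : ∀ k < C.P.K, ∀ κ z, (κ, z) ∈ OmP C.P.N C.I C.P.Dm C.K0 →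
      adm C.P (FE C.P X e) κ z = true → C.R X e k κ z ≤ A k κ z + τ * 2 ^ κ)
    (hUF : ∀ k < C.P.K, ∀ κ z, (κ, z) ∈ OmP C.P.N C.I C.P.Dm C.K0 →
      adm C.P (FE C.P X e) κ z = true → C.R X e k κ z ≤ FE C.P X e z + τu * 2 ^ κ)
    (hB : ∀ k < C.P.K, ∀ κ z, (κ, z) ∈ OmP C.P.N C.I C.P.Dm C.K0 → 1 ≤ z.i →
      adm C.P (FE C.P X e) κ z = true →
      A k κ z ≤ bodyNum C.P C.leaf (FE C.P X e) (Xe C.P X e) k (fun _ => Xe C.P X e k) κ z + c8)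
    (hGF : ∀ x, WinH330.Ok C x → G x ≤ FE C.P X e x)
    (hact : ∀ x, WinH330.Ok C x → ¬ WinH330.lf C x → Lam < G x)
    (hK : 0 < C.P.K) (hg : 1 ≤ C.P.g) (hpm : 0 < C.P.pm) (hr : 1 ≤ C.P.r) (hnb : 1 ≤ C.P.nb)
    (hG2 : 2 ≤ Gc) (hGg : (C.P.n + 1) * C.P.g ≤ Gc) (hGum : Gc * (4 * C.P.Creg + 1) ≤ C.P.um)
    (hτ0 : 0 ≤ τ) (hτu : τu ≤ 1)
    (hk1 : ((C.P.um : ℝ) * Real.log (C.P.pm + 1) + 1 + 1 / C.P.g) / C.P.K + 2 * τ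
      + 2 / 2 ^ C.P.nb ≤ k1)
    (hN4 : (C.P.N : ℝ) * 4 ≤ Lam) (he40 : 0 ≤ e4)
    (he4 : (C.P.um : ℝ) * Real.log (C.P.pm + 1) / C.P.K + (2 + c8)
      + C.P.N * (2 / 2 ^ C.P.nb + 2) ≤ e4 * Lam) :
    WinH330.FarF C X e G C0 k1 e4 := by
  intro x hx hn hnh m hm
  have hi : 1 ≤ x.i := by
    by_contra h
    exact hn (Or.inl (by omega))
  have hl : C.leaf (StmA616.hat C X e x) = none := by
    cases h : C.leaf (StmA616.hat C X e x) with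
    | none => rfl
    | some c => exact absurd (Or.inr (by rw [h]; rfl)) hnh
  have hin : WinH330.Ok C (StmA616.hat C X e x) :=
    own_InD (F := FE C.P X e) ((hFL _ _ hx.1 hx.2.1).dvd _ ⟨rfl, rfl, inD_of_InD hx⟩) hx
  have h1 := hact _ hin hnh
  have h2 : (G (StmA616.hat C X e x) : ℝ) ≤ FE C.P X e (StmA616.hat C X e x) := by
    exact_mod_cast hGF _ hin
  have hF4 : C.P.N * 4 ≤ FE C.P X e (StmA616.hat C X e x) := by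
    have : ((C.P.N * 4 : ℕ) : ℝ) ≤ (FE C.P X e (StmA616.hat C X e x) : ℝ) := by
      push_cast
      linarith
    exact_mod_cast this
  have h3 := hact _ hx hn
  have h4 : e4 * Lam ≤ e4 * (G x + C0) :=
    mul_le_mul_of_nonneg_left (by
      have : (0 : ℝ) ≤ C0 := Nat.cast_nonneg _
      linarith) he40
  exact far_cfg hX he hFL hK0 hJ hUF hB hK hg hpm hr hnb hG2 hGg hGum hτ0 hτu hk1
    (he4.trans h4) hx hi hl hF4 hm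

/-- **FAR from `WinH330.Law`** -/
theorem farF_of_law (hX : C.Good X) (he : e < C.P.E) {G : St → ℕ} {C0 : ℕ} {A : ℕ → ℕ → St → ℝ}
    {ζ τ τF c8 k1 e4 Lam : ℝ} {Gc : ℕ} (hL : WinH330.Law C X e A τ τF c8)
    (hFL : ∀ i j, i ≤ C.I → j < C.P.N ^ (C.I - i) → ArrLip195.FL C.P (FE C.P X e) ζ i j)
    (hK0 : ∀ y, InD C.P.N C.I C.P.Dm y → cls (FE C.P X e) y ≤ C.K0)
    (hGF : ∀ x, WinH330.Ok C x → G x ≤ FE C.P X e x)
    (hact : ∀ x, WinH330.Ok C x → ¬ WinH330.lf C x → Lam < G x)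
    (hK : 0 < C.P.K) (hg : 1 ≤ C.P.g) (hpm : 0 < C.P.pm) (hr : 1 ≤ C.P.r) (hnb : 1 ≤ C.P.nb)
    (hG2 : 2 ≤ Gc) (hGg : (C.P.n + 1) * C.P.g ≤ Gc) (hGum : Gc * (4 * C.P.Creg + 1) ≤ C.P.um)
    (hτ0 : 0 ≤ τ) (hτF : τF ≤ 1)
    (hk1 : ((C.P.um : ℝ) * Real.log (C.P.pm + 1) + 1 + 1 / C.P.g) / C.P.K + 2 * τ
      + 2 / 2 ^ C.P.nb ≤ k1)
    (hN4 : (C.P.N : ℝ) * 4 ≤ Lam) (he40 : 0 ≤ e4)
    (he4 : (C.P.um : ℝ) * Real.log (C.P.pm + 1) / C.P.K + (2 + c8)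
      + C.P.N * (2 / 2 ^ C.P.nb + 2) ≤ e4 * Lam) :
    WinH330.FarF C X e G C0 k1 e4 :=
  farF hX he hFL hK0 hL.J hL.upF hL.body hGF hact hK hg hpm hr hnb hG2 hGg hGum hτ0 hτF hk1 hN4
    he40 he4

end Crest.Agent.R288.WinFar974
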