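import Crest.Agent.R288.WinNear_482
import Crest.Agent.R288.WinH_330
import Crest.Agent.R288.ArrLipA_195

/-!
# R288 [WINSTM.NEAR] (helper482), part C: the field `near` of `WinStm330.WinIn` over `C : Asm331.Cfg`

`F = FE C.P X e`, names `hat`, `Rp`, `Rm` of `StmA_616`, fields of `WinH_330`.

* `inD_of_chd`, `not_R1`, `sum_numR` : glue;
* `near_cfg` : one state, `Rp s ≤ sm N Rm ŝ m + kn P ν σ τ * F ŝ + e4 * V`;
* **`nearF`** : `WinH330.NearF C X e G df C0 (4/δi) (kn C.P ν σ τ) σ e4`.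
-/

set_option autoImplicit false

namespace Crest.Agent.R288.WinNearC482

open Finset Crest.Agent.R288.Alg45 Crest.Agent.R288.WinStm330 Crest.Agent.R288.Asm331
open Crest.Agent.R288.Dom20 (InD OmP mem_OmP)
open Crest.Agent.R288.OscI283 (OscR)
open Crest.Agent.R288.PlanI693 (Chd)
open Crest.Agent.R288.AlgS125 (IsSt)
open Crest.Agent.R288.ArrLip195 (numR)
open Crest.Agent.R288.WinNear482

/-- states of the blocks of the pieces are in the domain -/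
theorem inD_of_chd {P : Par} {I : ℕ} {x y : St} (hx : InD P.N I P.Dm x) (hi : 1 ≤ x.i)
    (h : Chd P x y) : InD P.N I P.Dm y := by
  obtain ⟨h1, h2, h3, h4, h5⟩ := h
  have h6 := hx.child hi (q := y.j - P.N * x.j) (by omega) (a := y.u) (b := y.v)
    (by constructor <;> omega) (by constructor <;> omega)
  have e : (⟨x.i - 1, P.N * x.j + (y.j - P.N * x.j), y.u, y.v⟩ : St) = y := by
    cases y with
    | mk i j u v =>
      simp only at h1 h2 ⊢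
      rw [h1]
      congr 1
      omega
  rwa [e] at h6

theorem inD_of {P : Par} {I : ℕ} {s : St} (h : InD P.N I P.Dm s) : inD P s := by
  obtain ⟨-, -, h3, h4⟩ := h
  unfold inD
  omega

/-- steep states are the R1 states -/
theorem not_R1 {P : Par} {F : St → ℕ} {x : St} (hδ : 4 < P.δi)
    (h : |av x| < (1 - 4 / (P.δi : ℝ)) * F x) : ¬ R1 P F x := by
  intro hR
  unfold R1 at hR
  have h0 : (0 : ℝ) < P.δi := by exact_mod_cast (by omega : 0 < P.δi)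
  rw [abs_av] at h
  have h1 : (((P.δi - 4) * F x : ℕ) : ℝ) ≤ ((P.δi * (x.v - x.u).natAbs : ℕ) : ℝ) := by
    exact_mod_cast hR
  rw [Nat.cast_mul, Nat.cast_mul, Nat.cast_sub hδ.le] at h1
  have h2 : (P.δi : ℝ) * ((x.v - x.u).natAbs : ℝ) < P.δi * ((1 - 4 / (P.δi : ℝ)) * F x) :=
    mul_lt_mul_of_pos_left h h0
  have h3 : (P.δi : ℝ) * ((1 - 4 / (P.δi : ℝ)) * F x) = (P.δi - 4) * F x := by
    field_simp
  rw [h3] at h2
  push_cast at h1
  linarith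

variable {C : Cfg} {X : ℕ → ℕ × St → ℕ} {e : ℕ}

/-- the mean of the own-label means is `Rm` -/
theorem sum_numR (hK : 0 < C.P.K) (y : St) :
    (∑ k ∈ range C.P.K, numR C.P (FE C.P X e) (C.R X e k) y) / C.P.K = StmA616.Rm C X e y := by
  have hK' : (C.P.K : ℝ) ≠ 0 := by exact_mod_cast hK.ne'
  unfold StmA616.Rm StmA616.Rp numR
  rw [sum_add_distrib, sum_const, card_range, nsmul_eq_mul, add_div, mul_comm,
    mul_div_cancel_right₀ _ hK']
  rfl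

/-- **the field `near` for `C : Cfg`** -/
theorem near_cfg {b ν ζ c1 c2 c3 σ : ℝ}
    (hO : ∀ k < C.P.K, OscR C.P (FE C.P X e) (InD C.P.N C.I C.P.Dm) (Xe C.P X e k)
      (numR C.P (FE C.P X e) (C.R X e k)) b ν ζ c1 c2 c3)
    (hDm : ∀ κ ≤ C.K0, gst C.P κ ∣ C.P.Dm)
    (hcls : ∀ y, InD C.P.N C.I C.P.Dm y → cls (FE C.P X e) y ≤ C.K0)
    (hcoer : ∀ y, InD C.P.N C.I C.P.Dm y → (y.v - y.u).natAbs ≤ FE C.P X e y)
    {s z : St} {κ : ℕ} (hκ : κ ≤ C.K0) (hz : InD C.P.N C.I C.P.Dm z) (hi : 1 ≤ z.i)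
    (hκs : κ = cls (FE C.P X e) s) (hzs : z = rdn C.P κ s)
    (hadm : adm C.P (FE C.P X e) κ z = true) (hleaf : C.leaf z = none) (hF : 0 < FE C.P X e z)
    (hN : NearNum C.P (FE C.P X e) κ z b ν ζ c1 c2 c3 σ)
    (hav : |av z| < (1 - 4 / (C.P.δi : ℝ)) * FE C.P X e z)
    {d : ℝ} (h3 : ∀ m' : ℕ → ℤ, IsSt C.P κ z m' →
      (FE C.P X e z : ℝ) ≤ sm C.P.N (fun y => FE C.P X e y) z m' + d)
    {m : ℕ → ℤ} (hm : IsSt C.P κ z m)
    (hE : enS C.P.N (FE C.P X e) (av z / FE C.P X e z) z m ≤ σ ^ 2 * FE C.P X e z)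
    (hdr : sm C.P.N (fun y => (FE C.P X e y : ℝ)) z m - FE C.P X e z ≤ σ * FE C.P X e z)
    (hds : d ≤ σ * FE C.P X e z)
    {A : ℕ → ℝ} {c8 τ : ℝ} (hτ : 0 ≤ τ)
    (hJ : ∀ k < C.P.K, C.R X e k κ z ≤ A k + τ * 2 ^ κ)
    (hA : ∀ k < C.P.K, A k ≤ bodyNum C.P C.leaf (FE C.P X e) (Xe C.P X e) k
      (fun _ => Xe C.P X e k) κ z + c8)
    {e4 V : ℝ} (hV : an C.P c1 c2 c8 ≤ e4 * V) :
    StmA616.Rp C X e s ≤ sm C.P.N (StmA616.Rm C X e) z m
      + kn C.P ν σ τ * FE C.P X e z + e4 * V := by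
  have h1 := near_field (P := C.P) (F := FE C.P X e) (X := Xe C.P X e)
    (Rs := fun k => numR C.P (FE C.P X e) (C.R X e k)) (Dom := InD C.P.N C.I C.P.Dm)
    (leaf := C.leaf) hO hN (fun y hy => inD_of_chd hz hi hy)
    (fun y hy => hDm _ (hcls y (inD_of_chd hz hi hy))) hF (inD_of hz) (hDm κ hκ) hadm hleaf
    (not_R1 hN.δ4 hav)
    (fun y hy => by
      have h2 := hcoer y (inD_of_chd hz hi hy)
      have h3 : (((y.v - y.u).natAbs : ℕ) : ℝ) ≤ FE C.P X e y := by exact_mod_cast h2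
      rw [Nat.cast_natAbs] at h3
      push_cast at h3
      exact h3)
    h3 hm hE hdr hds hτ hJ hA hV
  have e1 : StmA616.Rp C X e s = (∑ k ∈ range C.P.K, C.R X e k κ z) / C.P.K := by
    subst hκs
    subst hzs
    rfl
  have e2 : (fun y => (∑ k ∈ range C.P.K, numR C.P (FE C.P X e) (C.R X e k) y) / C.P.K)
      = StmA616.Rm C X e := funext fun y => sum_numR hN.K0 y
  rw [e2] at h1
  rw [e1]
  exact h1

/-- **the field `near`** of the window instance; `hJ`, `hB` = fields `J`, `body` of `WinH330.Law` -/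
theorem nearF {b ν ζ c1 c2 c3 σ : ℝ} {G : St → ℕ} {df : St → ℝ} {C0 : ℕ} {A : ℕ → ℕ → St → ℝ}
    {τ c8 e4 : ℝ} (hO : ∀ k < C.P.K, OscR C.P (FE C.P X e) (InD C.P.N C.I C.P.Dm) (Xe C.P X e k)
      (numR C.P (FE C.P X e) (C.R X e k)) b ν ζ c1 c2 c3)
    (hDm : ∀ κ ≤ C.K0, gst C.P κ ∣ C.P.Dm)
    (hcls : ∀ y, InD C.P.N C.I C.P.Dm y → cls (FE C.P X e) y ≤ C.K0)
    (hcoer : ∀ y, InD C.P.N C.I C.P.Dm y → (y.v - y.u).natAbs ≤ FE C.P X e y)
    (hadm : ∀ y, InD C.P.N C.I C.P.Dm y →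
      adm C.P (FE C.P X e) (cls (FE C.P X e) y) (StmA616.hat C X e y) = true)
    (hpos : ∀ x, WinH330.Ok C x → ¬ WinH330.lf C x → ¬ WinH330.lf C (StmA616.hat C X e x) →
      0 < FE C.P X e (StmA616.hat C X e x))
    (hN : ∀ x, WinH330.Ok C x → ¬ WinH330.lf C x → ¬ WinH330.lf C (StmA616.hat C X e x) →
      NearNum C.P (FE C.P X e) (cls (FE C.P X e) x) (StmA616.hat C X e x) b ν ζ c1 c2 c3 σ)
    (hτ : 0 ≤ τ)
    (hJ : ∀ k < C.P.K, ∀ κ z, (κ, z) ∈ OmP C.P.N C.I C.P.Dm C.K0 →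
      adm C.P (FE C.P X e) κ z = true → C.R X e k κ z ≤ A k κ z + τ * 2 ^ κ)
    (hB : ∀ k < C.P.K, ∀ κ z, (κ, z) ∈ OmP C.P.N C.I C.P.Dm C.K0 → 1 ≤ z.i →
      adm C.P (FE C.P X e) κ z = true →
      A k κ z ≤ bodyNum C.P C.leaf (FE C.P X e) (Xe C.P X e) k (fun _ => Xe C.P X e k) κ z + c8)
    (f3 : WinH330.F3F C X e df)
    (han : ∀ x, WinH330.Ok C x → ¬ WinH330.lf C x → an C.P c1 c2 c8 ≤ e4 * (G x + C0)) :
    WinH330.NearF C X e G df C0 (4 / (C.P.δi : ℝ)) (kn C.P ν σ τ) σ e4 := by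
  intro x hx hl hlh hav m hm hE hdr hds
  have hκ := hcls x hx
  have hz : InD C.P.N C.I C.P.Dm (StmA616.hat C X e x) := StmA616.hat_dom (hDm _ hκ) hx
  have hi : 1 ≤ (StmA616.hat C X e x).i := by
    by_contra h
    exact hlh (Or.inl (by omega))
  have hleaf : C.leaf (StmA616.hat C X e x) = none := by
    cases h : C.leaf (StmA616.hat C X e x) with
    | none => rfl
    | some c => exact absurd (Or.inr (by rw [h]; rfl)) hlh
  have hmem : (cls (FE C.P X e) x, StmA616.hat C X e x) ∈ OmP C.P.N C.I C.P.Dm C.K0 :=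
    StmA616.mem_pair hκ hz
  exact near_cfg hO hDm hcls hcoer hκ hz hi rfl rfl (hadm x hx) hleaf (hpos x hx hl hlh)
    (hN x hx hl hlh) hav (f3 x hx hl hlh) hm hE hdr hds (A := fun k => A k _ _) hτ
    (fun k hk => hJ k hk _ _ hmem (hadm x hx))
    (fun k hk => hB k hk _ _ hmem hi (hadm x hx)) (han x hx hl)

end Crest.Agent.R288.WinNearC482
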