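import Crest.Agent.R288.WinSm_453
import Crest.Agent.R288.AnaStart_364
import Crest.Agent.R288.LeafO_690

/-!
# R288 [ANA.W4b] (helper588): `WinSm453.SmIn` from a good history

* `own_mem` : the own pair `(cls (FE e) s, rdn .. s)` is in `OmP` and admissible;
* `structure LawP C X e A G τ c8` : the three lines of the law (all admissible pairs of `OmP`);
* **`smIn`** : `SmIn` at the epoch `e` of an arbitrary `C : Asm331.Cfg` from `C.Good X`, `LipOk` (364),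
  soundness `gst ≤ FE e`, the bound `FE e ≤ β (gst + C0)`, `leaf = leafO` (690) and the law.
-/

set_option autoImplicit false

namespace Crest.Agent.R288.WinSmB588

open Crest.Agent.R288.Alg45 Crest.Agent.R288.Dom20 Crest.Agent.R288.Asm331
open Crest.Agent.R288.WinSm453 Crest.Agent.R288.AnaLip364 Crest.Agent.R288.AnaStart364

variable {C : Cfg} {X : ℕ → ℕ × St → ℕ} {x y : List ℕ} {g p L : ℕ} {ζ : ℝ}

/-- **the own pair of a state** of the domain is a pair of the tapes, and admissible -/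
theorem own_mem (h : C.Good X) (hO : LipOk C x y g p L ζ) (hζ : ζ ≤ 1 / 7) (hpb : 10 ≤ C.P.pb)
    (hDm : ∀ κ ≤ C.K0, Alg45.gst C.P κ ∣ C.P.Dm) {e : ℕ} (he : e ≤ C.P.E)
    (hGF : ∀ s, InD C.P.N C.I C.P.Dm s → GSt442.gst x y C.P.n s ≤ FE C.P X e s) {s : St}
    (hs : InD C.P.N C.I C.P.Dm s) :
    (cls (FE C.P X e) s, hat C.P (FE C.P X e) s) ∈ OmP C.P.N C.I C.P.Dm C.K0 ∧
      adm C.P (FE C.P X e) (cls (FE C.P X e) s) (hat C.P (FE C.P X e) s) = true :=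
  ⟨(mem_OmP (N_pos C.P)).2 ⟨(Nat.le_add_right _ _).trans (cls_le h hO e hs),
    AnaStart364.hat_in h hO hDm hs⟩, own_adm h hO hζ hpb hDm he hGF hs⟩

/-- **the law** at the admissible pairs of the epoch `e`: `A k κ z` = mean of the body entry -/
structure LawP (C : Cfg) (X : ℕ → ℕ × St → ℕ) (e : ℕ) (A : ℕ → ℕ → St → ℝ) (G : St → ℕ)
    (τ c8 : ℝ) : Prop where
  J : ∀ k < C.P.K, ∀ κ z, (κ, z) ∈ OmP C.P.N C.I C.P.Dm C.K0 →
    adm C.P (FE C.P X e) κ z = true → C.R X e k κ z ≤ A k κ z + τ * 2 ^ κ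
  body : ∀ k < C.P.K, ∀ κ z, (κ, z) ∈ OmP C.P.N C.I C.P.Dm C.K0 →
    adm C.P (FE C.P X e) κ z = true → 1 ≤ z.i →
    A k κ z ≤ bodyNum C.P C.leaf (FE C.P X e) (Xe C.P X e) k (fun _ => Xe C.P X e k) κ z + c8
  bot : ∀ k < C.P.K, ∀ κ z, (κ, z) ∈ OmP C.P.N C.I C.P.Dm C.K0 →
    adm C.P (FE C.P X e) κ z = true → z.i = 0 → C.R X e k κ z ≤ G z + 1 + τ * 2 ^ κ

/-- **`SmIn` from a good history** -/
theorem smIn (h : C.Good X) (hO : LipOk C x y g p L ζ) (hζ : ζ ≤ 1 / 7) (hpb : 10 ≤ C.P.pb)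
    (hDm : ∀ κ ≤ C.K0, Alg45.gst C.P κ ∣ C.P.Dm) {Lam : ℕ}
    (hleaf : C.leaf = LeafO690.leafO x y C.P.n Lam) {e : ℕ} (he : e ≤ C.P.E)
    (hGF : ∀ s, InD C.P.N C.I C.P.Dm s → GSt442.gst x y C.P.n s ≤ FE C.P X e s)
    {C0 : ℕ} {β τ c8 : ℝ} (hFB : ∀ s, InD C.P.N C.I C.P.Dm s →
      (FE C.P X e s : ℝ) ≤ β * ((GSt442.gst x y C.P.n s : ℝ) + C0))
    {A : ℕ → ℕ → St → ℝ} (hL : LawP C X e A (GSt442.gst x y C.P.n) τ c8) :
    SmIn C.P C.I C.leaf (GSt442.gst x y C.P.n) (FE C.P X e) (Xe C.P X e) A (C.R X e) C0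
      (Lam : ℝ) β ζ τ c8 where
  K := hO.K
  ex := GSt442.exact_gst x y C.P.n hO.x_le hO.y_le
  GF := hGF
  FB := hFB
  lip := fun s s' hs hs' hi hj => lip' h hO he hs hs' hi.symm hj.symm
  grid := fun s hs => hDm _ ((Nat.le_add_right _ _).trans (cls_le h hO e hs))
  own := fun s hs => (own_mem h hO hζ hpb hDm he hGF hs).2
  leaf_le := fun s c hc => (LeafO690.leafO_le (hleaf ▸ hc)).2
  leaf_lt := by
    intro s c hc hi
    rcases LeafO690.leafO_spec (hleaf ▸ hc) with h1 | h1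
    · exact_mod_cast h1.2
    · omega
  nolf := by
    intro s hs
    rw [hleaf] at hs
    have h1 := LeafO690.leafO_none hs
    exact ⟨h1.2, by exact_mod_cast h1.1⟩
  J := fun k hk s hs =>
    hL.J k hk _ _ (own_mem h hO hζ hpb hDm he hGF hs).1 (own_mem h hO hζ hpb hDm he hGF hs).2
  body := fun k hk s hs hi =>
    hL.body k hk _ _ (own_mem h hO hζ hpb hDm he hGF hs).1
      (own_mem h hO hζ hpb hDm he hGF hs).2 hi
  bot := fun k hk s hs hi =>
    hL.bot k hk _ _ (own_mem h hO hζ hpb hDm he hGF hs).1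
      (own_mem h hO hζ hpb hDm he hGF hs).2 hi

end Crest.Agent.R288.WinSmB588
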