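import Crest.Agent.R288.WinH_330
import Crest.Agent.R288.WinSmB_588

/-!
# R288 [ANA.W4] (helper588): the small fields of `WinH_330` from a good history

* `botNum_le` : `botNum ≤ gst + 1` at admissible pairs of macro height `0`;
* `lawP_of` : `WinH330.Law` gives `WinSmB588.LawP`;
* **`smallF_of`** : `WinH330.SmallF` from `WinSm453.SmIn` and the numeric lines `SmNum`;
* **`small_cfg`** : `SmallF` from `C.Good X`, `LipOk`, soundness, `FE e ≤ β (gst + C0)`, `WinH330.Law`;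
  `act_cfg`, `ge_cfg`.
-/

set_option autoImplicit false

namespace Crest.Agent.R288.WinSmC588

open Crest.Agent.R288.Alg45 Crest.Agent.R288.Dom20 Crest.Agent.R288.Asm331
open Crest.Agent.R288.AnaLip364 Crest.Agent.R288.WinSmB588
open Crest.Agent.R288.WinSm453 (SmIn)

variable {C : Cfg} {X : ℕ → ℕ × St → ℕ} {x y : List ℕ} {g p L : ℕ} {ζ τF : ℝ} {Lam e : ℕ}

/-- macro height `0` -/
theorem botNum_le (hleaf : C.leaf = LeafO690.leafO x y C.P.n Lam) {F : St → ℕ} {κ : ℕ} {z : St}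
    (ha : adm C.P F κ z = true) (hi : z.i = 0) :
    botNum C.P C.leaf F κ z ≤ GSt442.gst x y C.P.n z + 1 := by
  unfold botNum
  rw [if_neg (by rw [ha]; simp)]
  have h1 : (C.leaf z).isSome := by rw [hleaf]; exact LeafO690.leafO_isSome hi
  obtain ⟨c, hc⟩ := Option.isSome_iff_exists.1 h1
  rw [hc, Option.getD_some]
  exact (LeafO690.leafO_le (hleaf ▸ hc)).2

/-- the law in the form of WinSmB_588 -/
theorem lawP_of (hleaf : C.leaf = LeafO690.leafO x y C.P.n Lam) {A : ℕ → ℕ → St → ℝ} {τ c8 : ℝ}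
    (hτ : 0 ≤ τ) (hL : WinH330.Law C X e A τ τF c8) :
    LawP C X e A (GSt442.gst x y C.P.n) τ c8 where
  J := hL.J
  body := fun k hk κ z hm ha hi => hL.body k hk κ z hm hi ha
  bot := by
    intro k hk κ z hm ha hi
    have h1 := hL.bot k hk κ z hm ha hi
    have h2 : (botNum C.P C.leaf (FE C.P X e) κ z : ℝ) ≤ GSt442.gst x y C.P.n z + 1 := by
      exact_mod_cast botNum_le hleaf ha hi
    have h3 : 0 ≤ τ * (2 : ℝ) ^ κ := by positivity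
    linarith

/-- the numeric lines -/
structure SmNum (P : Par) (C0 : ℕ) (Lam β ζ τ c8 b1 e5 r1 : ℝ) : Prop where
  τ0 : 0 ≤ τ
  c80 : 0 ≤ c8
  C00 : 0 < C0
  Lam0 : 0 < Lam
  β0 : 0 ≤ β
  ζ0 : 0 ≤ ζ
  ζp : 2 * (ζ + 2 / 2 ^ P.pb) ≤ 1 / 2
  r4 : 4 ≤ P.r
  δ4 : 4 ≤ P.δi
  /-- leaves are their own grid state -/
  sm : β * (Lam + C0) < 2 ^ (P.pb + 1)
  e5 : 2 * (2 / 2 ^ P.pb * β) + τ * β + (1 + c8 + τ) / C0 ≤ e5
  b1 : c8 / Lam + 2 * τ ≤ b1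
  r1 : P.N * (2 / 2 ^ P.pb * β) + 2 * P.N / Lam ≤ r1

/-- **the small fields from `SmIn`** -/
theorem smallF_of {G : St → ℕ} {Xr : ℕ → ℕ → St → ℕ} {A : ℕ → ℕ → St → ℝ} {C0 : ℕ}
    {Lam β τ c8 b1 e5 r1 : ℝ}
    (W : SmIn C.P C.I C.leaf G (FE C.P X e) Xr A (C.R X e) C0 Lam β ζ τ c8)
    (S : SmNum C.P C0 Lam β ζ τ c8 b1 e5 r1) :
    WinH330.SmallF C X e G C0 (2 / 2 ^ C.P.pb) (2 * (ζ + 2 / 2 ^ C.P.pb)) (4 / (C.P.δi : ℝ)) b1
      e5 r1 where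
  hat_in := fun s hs _ => W.hat_in hs
  hat_dist := fun s _ _ => WinSm453.hat_dist s
  hat_G := fun s _ _ => W.hat_G s
  hat_F := fun s hs _ => W.hat_F S.ζ0 (by have := S.ζp; linarith) hs
  leaf := fun s hs hl => W.leaf_fld S.τ0 S.c80 S.C00 S.β0 S.sm S.e5 hs hl
  hat_leaf := fun s hs hn hl => W.hat_leaf S.τ0 S.c80 S.C00
    (mul_nonneg (by positivity) S.β0) S.e5 hs hn hl
  ret := fun s hs hn hl hr => W.ret S.τ0 S.c80 S.Lam0 S.ζ0 S.ζp S.δ4 S.b1 hs hn hl hr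
  cmp := fun s hs hn _ => W.cmp S.ζ0 (by have := S.ζp; linarith) S.r4 S.Lam0 S.r1 hs hn

/-- **the small fields from a good history** -/
theorem small_cfg (h : C.Good X) (hO : LipOk C x y g p L ζ) (hζ : ζ ≤ 1 / 7) (hpb : 10 ≤ C.P.pb)
    (hDm : ∀ κ ≤ C.K0, Alg45.gst C.P κ ∣ C.P.Dm)
    (hleaf : C.leaf = LeafO690.leafO x y C.P.n Lam) (he : e ≤ C.P.E)
    (hGF : ∀ s, InD C.P.N C.I C.P.Dm s → GSt442.gst x y C.P.n s ≤ FE C.P X e s)
    {C0 : ℕ} {β τ c8 b1 e5 r1 : ℝ} (hFB : ∀ s, InD C.P.N C.I C.P.Dm s →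
      (FE C.P X e s : ℝ) ≤ β * ((GSt442.gst x y C.P.n s : ℝ) + C0))
    {A : ℕ → ℕ → St → ℝ} (hL : WinH330.Law C X e A τ τF c8)
    (S : SmNum C.P C0 Lam β ζ τ c8 b1 e5 r1) :
    WinH330.SmallF C X e (GSt442.gst x y C.P.n) C0 (2 / 2 ^ C.P.pb)
      (2 * (ζ + 2 / 2 ^ C.P.pb)) (4 / (C.P.δi : ℝ)) b1 e5 r1 :=
  smallF_of (smIn h hO hζ hpb hDm hleaf he hGF hFB (lawP_of hleaf S.τ0 hL)) S

/-- active states -/
theorem act_cfg (hleaf : C.leaf = LeafO690.leafO x y C.P.n Lam) {s : St}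
    (hs : ¬ WinH330.lf C s) : (Lam : ℝ) < GSt442.gst x y C.P.n s := by
  have h1 : C.leaf s = none := by
    cases h : C.leaf s with
    | none => rfl
    | some c => exact absurd (Or.inr (by rw [h]; rfl)) hs
  rw [hleaf] at h1
  exact_mod_cast (LeafO690.leafO_none h1).1

/-- coercivity -/
theorem ge_cfg (hO : LipOk C x y g p L ζ) (s : St) :
    (s.v - s.u).natAbs ≤ GSt442.gst x y C.P.n s :=
  (GSt442.exact_gst x y C.P.n hO.x_le hO.y_le).ge s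

end Crest.Agent.R288.WinSmC588
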