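import Crest.Agent.R288.LawN_147
import Crest.Agent.R288.WinFarB_974
import Crest.Agent.R288.WinNearC_482
import Crest.Agent.R288.WinSmC_588
import Crest.Agent.R288.WinF3D_131

/-!
# R288 [ANA.W6] (helper974): the window instance of an epoch from `LawN147.Hyp` and numbers

* `NumW` : ALL numeric hypotheses, inequalities in the parameters `P`, `Λ`, `C0`, `B₀` only
  (and the letters of `WinStm330.WinIn`), plus `hnear` (484's `nearNum`);
* **`win_hyp`** : `WinH330.Win C X (e+1) gst (df ..) C0 Λ B (letters)` for every good history, `e + 2 ≤ E`,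
  `1 ≤ B ≤ B₀`, `F_e, F_(e+1) ≤ B (gst + C0)`.
-/

set_option autoImplicit false

namespace Crest.Agent.R288.WinHy974

open Finset Crest.Agent.R288.Alg45 Crest.Agent.R288.Asm331 Crest.Agent.R288.Dom20
open Crest.Agent.R288.GSt442 Crest.Agent.R288.LawN147
open Crest.Agent.R288.WinF3131 (kA kB)

/-- constant of `OscR` (283) for the jump error `η` -/
noncomputable def bOsc (P : Par) (η ζ : ℝ) : ℝ :=
  2 / 2 ^ P.bb + η + 4 / 2 ^ P.a1 + 6 / 2 ^ P.pb + 5 * ζ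

/-- **all numeric hypotheses of the window instance** (`η` = error of a jump, `τ`, `c8`, `ζ`, `σ` = 693's `s`,
`Gc` = clip constant; the rest = letters of `WinIn`, `kd = kd0 + kd1 B`, `e5 = e50 + e51 B`) -/
structure NumW (P : Par) (C0 Λ : ℕ) (B₀ ζ η τ c8 σ k1 kd0 kd1 e4 e50 e51 b1 r1 : ℝ) (Gc : ℕ) :
    Prop where
  hK : 0 < P.K
  hg : 1 ≤ P.g
  hpm : 0 < P.pm
  hnb : 1 ≤ P.nb
  ha2 : 5 ≤ P.a2
  hδ4 : 4 ≤ P.δi
  hG2 : 2 ≤ Gc
  hGg : (P.n + 1) * P.g ≤ Gc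
  hGum : Gc * (4 * P.Creg + 1) ≤ P.um
  hζ8 : ζ ≤ 1 / 8
  hζp : 2 * (ζ + 2 / 2 ^ P.pb) ≤ 1 / 2
  hC0 : 0 < C0
  hN4 : P.N * 4 ≤ Λ
  hη0 : 0 ≤ η
  hτη : η ≤ τ
  hbb : 2 / 2 ^ P.bb + η ≤ 1
  hc8 : 2 * 2 ^ P.n + 1 ≤ c8
  hbO : bOsc P η ζ ≤ 1
  hnear : ∀ (F : St → ℕ) (κ : ℕ) (z : St), Λ ≤ 2 * F z → 2 ^ κ ≤ 2 * F z →
    WinNear482.NearNum P F κ z (bOsc P η ζ) (2 / 2 ^ P.nb) ζ 4 (1 + 2 * 1) 0 σ
  /-- small fields -/
  hsm : B₀ * (Λ + C0) < 2 ^ (P.pb + 1)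
  he50 : (1 + c8 + τ) / C0 ≤ e50
  he51 : 2 * (2 / 2 ^ P.pb) + τ ≤ e51
  hb1 : c8 / Λ + 2 * τ ≤ b1
  hr1 : P.N * (2 / 2 ^ P.pb * B₀) + 2 * P.N / Λ ≤ r1
  /-- far -/
  hk1 : ((P.um : ℝ) * Real.log (P.pm + 1) + 1 + 1 / P.g) / P.K + 2 * τ + 2 / 2 ^ P.nb ≤ k1
  he40 : 0 ≤ e4
  he4f : (P.um : ℝ) * Real.log (P.pm + 1) / P.K + (2 + c8) + P.N * (2 / 2 ^ P.nb + 2) ≤ e4 * Λ
  /-- near -/
  he4n : WinNear482.an P 4 (1 + 2 * 1) c8 ≤ e4 * Λ
  /-- (F3') -/
  hkd0 : kB P τ (c8 + 2) / Λ ≤ kd0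
  hkd1 : (ζ + kA P τ) * (1 + 2 / 2 ^ P.pb * B₀) ≤ kd1

variable {C : Cfg} {X : ℕ → ℕ × St → ℕ} {x y : List ℕ} {g p L Λ s e C0 Gc : ℕ}
  {ζ B B₀ τ c8 σ k1 kd0 kd1 e4 e50 e51 b1 r1 : ℝ}

/-- **the window instance of the epoch `e + 1`** -/
theorem win_hyp (H : Hyp C X x y g p L Λ s ζ) (hleaf : C.leaf = LeafO690.leafO x y C.P.n Λ)
    (N : NumW C.P C0 Λ B₀ ζ (eta C.P s) τ c8 σ k1 kd0 kd1 e4 e50 e51 b1 r1 Gc)
    (he : e + 2 ≤ C.P.E) (hB1 : 1 ≤ B) (hBB : B ≤ B₀)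
    (hF : ∀ z, WinH330.Ok C z → (FE C.P X e z : ℝ) ≤ B * (gst x y C.P.n z + C0))
    (hF' : ∀ z, WinH330.Ok C z → (FE C.P X (e + 1) z : ℝ) ≤ B * (gst x y C.P.n z + C0)) :
    WinH330.Win C X (e + 1) (gst x y C.P.n) (WinF3D131.df C X e ζ τ c8) C0 Λ B (2 / 2 ^ C.P.pb)
      (2 * (ζ + 2 / 2 ^ C.P.pb)) (4 / (C.P.δi : ℝ)) b1 k1
      (WinNear482.kn C.P (2 / 2 ^ C.P.nb) σ τ) σ (kd0 + kd1 * B) e4 (e50 + e51 * B) r1 := by
  have hB0 : 0 ≤ B := by linarith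
  have hη := N.hη0
  have hτ : 0 ≤ τ := hη.trans N.hτη
  have hN1 : (1 : ℝ) ≤ C.P.N := by exact_mod_cast Nat.one_le_two_pow
  have hc8 : 0 ≤ c8 := le_trans (by positivity) N.hc8
  have hΛ0 : (0 : ℝ) < Λ := by
    have h1 : 1 ≤ C.P.N := Nat.one_le_two_pow
    have h2 := N.hN4
    exact_mod_cast (by omega : 0 < Λ)
  have hζ0 := H.lip.z0
  have hpb5 : 5 ≤ C.P.pb := (show 5 ≤ 10 by norm_num).trans H.snd.pb
  have hp0 : (0 : ℝ) ≤ 2 / 2 ^ C.P.pb := by positivity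
  have ha0 : eta C.P s ≤ τ := N.hτη
  -- laws of the two epochs
  have L0 : WinH330.Law C X e (An C X e) τ 1 c8 := law H (by omega) ha0 N.hbb N.hc8
  have L1 : WinH330.Law C X (e + 1) (An C X (e + 1)) τ 1 c8 := law H (by omega) ha0 N.hbb N.hc8
  have hFL : ∀ e' ≤ C.P.E, ∀ i j, i ≤ C.I → j < C.P.N ^ (C.I - i) →
      ArrLip195.FL C.P (FE C.P X e') ζ i j := by
    intro e' he' i j hi hj
    have hD : ∀ z, ArrLip195.Blk C.P i j z → Dom C.P C.I z :=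
      fun z hz => AnaLip364.InD_of_Blk hi hj hz
    exact
      { pb := hpb5
        ζ0 := hζ0
        ζ1 := N.hζ8
        lip := fun a b ha hb => (AnaLip364.lip H.good H.lip hi hj he').2 a b ha hb
        coer := fun a ha => (H.fok he').coer a (hD a ha)
        dvd := fun a ha => H.grd _ (H.clsK e' a (hD a ha)) }
  have hGF : ∀ e' ≤ C.P.E, ∀ z, WinH330.Ok C z → gst x y C.P.n z ≤ FE C.P X e' z :=
    fun e' he' z hz => H.gF he' z hz
  have hact : ∀ z, WinH330.Ok C z → ¬ WinH330.lf C z → (Λ : ℝ) < gst x y C.P.n z :=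
    fun z _ hz => WinSmC588.act_cfg hleaf hz
  have hex : Exact C.P.N C.P.Dm (gst x y C.P.n) := exact_gst x y C.P.n H.lip.x_le H.lip.y_le
  have hN4 : (C.P.N : ℝ) * 4 ≤ Λ := by exact_mod_cast N.hN4
  -- (F3')
  have hf3 : WinH330.F3F C X (e + 1) (WinF3D131.df C X e ζ τ c8) :=
    WinF3D131.f3F H.good (by omega) hex L0 (hFL e (by omega)) (hFL (e + 1) (by omega))
      (fun z hz => H.clsE e z hz) (hGF e (by omega))
      (fun k hk κ z hz => by
        obtain ⟨h1, h2⟩ := (mem_OmP (Dom20.N_pos C.P)).1 hz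
        exact Sound512.sound_X H.good H.lip H.ζ7 H.snd H.leaf (by omega) hk h1 h2)
      (fun z hz v hv => by
        rw [hleaf] at hv
        exact (LeafO690.leafO_le hv).2)
      (fun z hz hn => by
        rw [hleaf] at hn
        have h1 := (LeafO690.leafO_none hn).1
        have h2 := hGF e (by omega) z hz
        have h3 := N.hN4
        omega)
      N.hK N.hg N.hpm (le_trans (by norm_num) H.r) N.hnb N.hG2 N.hGg N.hGum hτ le_rfl hc8
  refine WinH330.win_of C X (e + 1) (fun z _ => WinSmC588.ge_cfg H.lip z) (hGF _ (by omega)) hF'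
    hact ?_ hf3 (fun z _ _ => WinF3D131.df0 hζ0 hτ hc8 z) ?_ ?_ ?_
  · -- the small fields
    refine WinSmC588.small_cfg H.good H.lip H.ζ7 H.snd.pb H.grd hleaf (by omega)
      (hGF _ (by omega)) hF' L1 ?_
    have hN0 : (0 : ℝ) ≤ C.P.N := by linarith
    have hpB : 2 / 2 ^ C.P.pb * B ≤ 2 / 2 ^ C.P.pb * B₀ := mul_le_mul_of_nonneg_left hBB hp0
    exact
      { τ0 := hτ
        c80 := hc8
        C00 := by exact_mod_cast N.hC0
        Lam0 := hΛ0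
        β0 := hB0
        ζ0 := hζ0
        ζp := N.hζp
        r4 := (show 4 ≤ 8 by norm_num).trans H.r
        δ4 := N.hδ4
        sm := by
          refine lt_of_le_of_lt ?_ N.hsm
          exact mul_le_mul_of_nonneg_right hBB (by positivity)
        e5 := by
          have h1 := mul_le_mul_of_nonneg_right N.he51 hB0
          have h2 := N.he50
          have h3 : (2 * (2 / 2 ^ C.P.pb) + τ) * B = 2 * (2 / 2 ^ C.P.pb * B) + τ * B := by ring
          linarith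
        b1 := N.hb1
        r1 := by
          have h1 := mul_le_mul_of_nonneg_left hpB hN0
          have h2 := N.hr1
          linarith }
  · -- size of the defect
    intro z hz hl
    refine WinF3D131.dfV (b := B) (p := 2 / 2 ^ C.P.pb) (Lam := (Λ : ℝ)) hex (hFL e (by omega))
      (hFL (e + 1) (by omega)) N.hK N.hg hτ hc8 hB0 le_rfl hF hF' hΛ0 hact ?_ hz hl
    have h1 : (1 : ℝ) + 2 / 2 ^ C.P.pb * B ≤ 1 + 2 / 2 ^ C.P.pb * B₀ := by
      have := mul_le_mul_of_nonneg_left hBB hp0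
      linarith
    have h2 : 0 ≤ ζ + kA C.P τ := add_nonneg hζ0 (WinF3131.kA_nonneg hτ)
    have h3 := mul_le_mul_of_nonneg_right
      ((mul_le_mul_of_nonneg_left h1 h2).trans N.hkd1) hB0
    have h4 : (ζ + kA C.P τ) * (B * (1 + 2 / 2 ^ C.P.pb * B))
        = (ζ + kA C.P τ) * (1 + 2 / 2 ^ C.P.pb * B) * B := by ring
    have h5 := N.hkd0
    linarith
  · -- far
    exact WinFar974.farF_of_law H.good (by omega) L1 (hFL _ (by omega))
      (fun z hz => H.clsK _ z hz) (hGF _ (by omega)) hact N.hK N.hg N.hpm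
      (le_trans (by norm_num) H.r) N.hnb N.hG2 N.hGg N.hGum hτ le_rfl N.hk1 hN4 N.he40 N.he4f
  · -- near
    have hpos : ∀ z, WinH330.Ok C z → ¬ WinH330.lf C z →
        ¬ WinH330.lf C (StmA616.hat C X (e + 1) z) →
        Λ < FE C.P X (e + 1) (StmA616.hat C X (e + 1) z) := by
      intro z hz _ hnh
      have hin : WinH330.Ok C (StmA616.hat C X (e + 1) z) :=
        StmA616.hat_dom (H.grd _ (H.clsK (e + 1) z hz)) hz
      have h1 := hact _ hin hnh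
      have h2 := hGF (e + 1) (by omega) _ hin
      have h3 : Λ < gst x y C.P.n (StmA616.hat C X (e + 1) z) := by exact_mod_cast h1
      omega
    refine WinNearC482.nearF (c1 := 4) (c2 := 1 + 2 * 1) (c3 := 0) (b := bOsc C.P (eta C.P s) ζ)
      (ζ := ζ) (A := An C X (e + 1)) (c8 := c8)
      (oscR H (by omega) N.hζ8 N.ha2 N.hbO) H.grd (fun z hz => H.clsK _ z hz)
      (fun z hz => (H.fok (by omega)).coer z hz)
      (fun z hz => ((hFL (e + 1) (by omega) z.i z.j hz.1 hz.2.1).own_adm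
        ⟨rfl, rfl, WinFar974.inD_of_InD hz⟩).2)
      (fun z hz hl hnh => (Nat.zero_le _).trans_lt (hpos z hz hl hnh)) ?_ hτ L1.J L1.body hf3 ?_
    · intro z hz hl hnh
      have h1 := hpos z hz hl hnh
      refine N.hnear _ _ _ (by omega) ?_
      -- `2 ^ cls z ≤ F z ≤ 2 F (hat z)`
      have hFLz := hFL (e + 1) (by omega) z.i z.j hz.1 hz.2.1
      have hadm := (hFLz.own_adm ⟨rfl, rfl, WinFar974.inD_of_InD hz⟩).2
      have hF0 : 0 < FE C.P X (e + 1) (StmA616.hat C X (e + 1) z) := by omega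
      exact_mod_cast AdmR944.ge_of_adm hadm hF0.ne'
    · intro z hz hl
      refine N.he4n.trans (mul_le_mul_of_nonneg_left ?_ N.he40)
      have h1 := hact z hz hl
      have h2 : (0 : ℝ) ≤ C0 := Nat.cast_nonneg _
      linarith

end Crest.Agent.R288.WinHy974
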