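import Crest.Agent.R288.WinNumI_895
import Crest.Agent.R288.WinHy_974
import Crest.Agent.R288.LawO_147
import Crest.Agent.R288.NearP_484

/-!
# R288, ANA.W7: 974's `NumW` at the table (helper895)

`LW : WinNumG895.Lt` = the letters of `WinHy974.NumW` as equalities, `P = ParO331.parOf h`, `τ = (1/2)^(4 W Lg)`,
`c8 = 2 * 2^nn + 1`, `ζ = LipO364.ζO`, `σ = PlanK693.sP P`, `C0 = h^2`, `Λ = 2^lam`, `B₀ = StmF616.B0O h`.

* `LW_ok : LW.Ok`, **`numR : StmF616.NumR LW.aR LW.qR`**, `ev_ep`;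
* **`ev_numW`** : `NumW` eventually.
-/

set_option autoImplicit false

open Filter

namespace Crest.Agent.R288.NumW895

open Crest.Agent.R288.Asy720 Crest.Agent.R288.Par806 Crest.Agent.R288.Par895 Crest.Agent.R288.ParO331
  Crest.Agent.R288.WinNumL895 Crest.Agent.R288.WinNumE895 Crest.Agent.R288.WinNumG895
open Crest.Agent.R288.WinF3131 (kA kB)
open Crest.Agent.R288.LipO364 (ζO)
open Crest.Agent.R288.LawN147 (eta)

attribute [local irreducible] Par806.nn Par806.sb Par806.bb Par806.gam Par806.gg Par806.um Par806.dl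
  Par806.lam Par806.KK Par806.pm Par806.pb Par806.nb Par806.δi Par806.Lg Par806.Mg Par806.W Par806.gI
  Par806.II Par806.a1

/-- jump error -/
noncomputable def tW (h : ℕ) : ℝ := (1 / 2) ^ (4 * (W h * Lg h))

noncomputable def eFarW (h : ℕ) : ℝ :=
  ((parOf h).um : ℝ) * Real.log ((parOf h).pm + 1) / (parOf h).K + (2 + c8O h)
    + (parOf h).N * (2 / 2 ^ (parOf h).nb + 2)
noncomputable def eNearW (h : ℕ) : ℝ := WinNear482.an (parOf h) 4 (1 + 2 * 1) (c8O h)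

/-- **the letters** -/
noncomputable def LW : Lt where
  k1 h := (((parOf h).um : ℝ) * Real.log ((parOf h).pm + 1) + 1 + 1 / (parOf h).g) / (parOf h).K
    + 2 * tW h + 2 / 2 ^ (parOf h).nb
  kn h := WinNear482.kn (parOf h) (2 / 2 ^ (parOf h).nb) (sO h) (tW h)
  e4 h := (eFarW h + eNearW h) / ((2 ^ lam h : ℕ) : ℝ)
  kd0 h := kB (parOf h) (tW h) (c8O h + 2) / ((2 ^ lam h : ℕ) : ℝ)
  kd1 h := 2 * (ζO h + kA (parOf h) (tW h))
  b1 h := c8O h / ((2 ^ lam h : ℕ) : ℝ) + 2 * tW h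
  e50 h := (1 + c8O h + tW h) / (C0O h : ℝ)
  e51 h := 2 * (2 / 2 ^ (parOf h).pb) + tW h
  r1 h := (parOf h).N * (2 / 2 ^ (parOf h).pb * Lt.B0 h) + 2 * (parOf h).N / ((2 ^ lam h : ℕ) : ℝ)
  z1 h := 2 * (ζO h + 2 / 2 ^ (parOf h).pb)

/-! ### signs -/

theorem tW0 (h : ℕ) : 0 ≤ tW h := pow_nonneg (by norm_num) _
theorem ζ0 (h : ℕ) : 0 ≤ ζO h := LipO364.ζO_nonneg h
theorem Λ0 (h : ℕ) : (0 : ℝ) < ((2 ^ lam h : ℕ) : ℝ) := by
  have : 0 < 2 ^ lam h := Nat.two_pow_pos _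
  exact_mod_cast this
theorem two_div0 (n : ℕ) : (0 : ℝ) ≤ 2 / 2 ^ n := div_nonneg (by norm_num) (pow_nonneg (by norm_num) _)

theorem kA0 {P : Alg45.Par} {τ : ℝ} (hτ : 0 ≤ τ) : 0 ≤ kA P τ := by
  have h1 := WinF3131.logpm P
  unfold kA
  positivity

theorem kB0 {P : Alg45.Par} {τ η : ℝ} (hτ : 0 ≤ τ) (hη : 0 ≤ η) : 0 ≤ kB P τ η := by
  have h1 := WinF3131.logpm P
  unfold kB
  positivity

theorem kn0 {P : Alg45.Par} {ν s c : ℝ} (hν : 0 ≤ ν) (hs : 0 ≤ s) (hc : 0 ≤ c) :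
    0 ≤ WinNear482.kn P ν s c := by
  unfold WinNear482.kn
  positivity

theorem an0 {P : Alg45.Par} {c1 c2 c : ℝ} (h1 : 0 ≤ c1) (h2 : 0 ≤ c2) (hc : 0 ≤ c) :
    0 ≤ WinNear482.an P c1 c2 c := by
  unfold WinNear482.an
  positivity

theorem eFarW0 (h : ℕ) : 0 ≤ eFarW h := by
  have h1 := WinF3131.logpm (parOf h)
  have h2 := c8O0 h
  unfold eFarW
  positivity

theorem eNearW0 (h : ℕ) : 0 ≤ eNearW h := an0 (by norm_num) (by norm_num) (c8O0 h)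

/-! ### orders -/

theorem ord_tW : Ord (-4) 0 tW := by
  have h1 : Ord (-4) (-0) fun h => ((2 : ℝ) ^ (4 * (W h * Lg h)))⁻¹ :=
    ord_two_pow_inv 4 0 fun h => by push_cast; ring
  rw [neg_zero] at h1
  exact h1.congr fun h => by
    unfold tW
    rw [one_div, inv_pow]

theorem ord_tW' (b : ℝ) : Ord 0 b tW := ord_tW.lt (by norm_num) b

theorem ord_ζ : Ord 0 (-8) ζO := ord_z.congr fun h => by
  unfold ζO zO
  norm_num

theorem ord_Λi : Ord (-1) 0 fun h => (((2 ^ lam h : ℕ) : ℝ))⁻¹ := ord_LamO_inv.congr fun h => by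
  unfold LamO
  push_cast
  rfl

theorem ord_PN : Ord 0 0 fun h => ((parOf h).N : ℝ) := ord_N.congr fun h => by
  rw [parOf_N]
  push_cast
  rfl

theorem zero_lt_neg {b : ℝ} (hb : b < 0) : (0 : ℝ) < 0 ∨ ((0 : ℝ) = 0 ∧ b < 0) := Or.inr ⟨rfl, hb⟩

theorem ev_tW_tau : ∀ᶠ h : ℕ in atTop, tW h ≤ tauO h := by
  have o : Ord (-4) 9 fun h => tW h * (h : ℝ) ^ 9 :=
    (ord_tW.mul (ord_h.pow 9)).lex (Or.inr ⟨by norm_num, by norm_num⟩)
  filter_upwards [o.le_one (Or.inl (by norm_num)), eventually_ge_atTop 1] with h h1 h2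
  have h3 : (1 : ℝ) ≤ h := by exact_mod_cast h2
  have h4 : (0 : ℝ) < (h : ℝ) ^ 9 := pow_pos (by linarith) _
  unfold tauO
  rw [le_div_iff₀ h4]
  exact (le_abs_self _).trans h1

theorem k1_eq (h : ℕ) : LW.k1 h = k1O h - 2 * tauO h + 2 * tW h := by
  show (((um h : ℕ) : ℝ) * Real.log ((pm h : ℕ) + 1) + 1 + 1 / ((gg h : ℕ) : ℝ)) / ((KK h : ℕ) : ℝ)
    + 2 * tW h + 2 / 2 ^ nb h = _
  unfold k1O nuO
  ring

theorem kn_eq (h : ℕ) : LW.kn h = knO h - 2 * tauO h + 2 * tW h := by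
  show ((((um h : ℕ) : ℝ) / ((pm h : ℕ) : ℝ) + ((pb h : ℕ) + 4) / ((gam h : ℕ) : ℝ)
      * (((nn h : ℕ) : ℝ) * ((Creg : ℕ) : ℝ) + 1) + 1 / ((gg h : ℕ) : ℝ)) / ((KK h : ℕ) : ℝ)
      + 2 / 2 ^ nb h * (1 + sO h) + 8 * ((2 ^ nn h : ℕ) : ℝ) / 2 ^ dl h + 2 * tW h) = _
  unfold knO nuO
  push_cast
  ring

theorem kA_eq (h : ℕ) : kA (parOf h) (tW h) = kAO h - tauO h + tW h := by
  show (4 * ((2 ^ nn h : ℕ) : ℝ) + 2) / 2 ^ pb h
    + 3 * (((um h : ℕ) : ℝ) * Real.log ((pm h : ℕ) + 1) + 2) / ((KK h : ℕ) : ℝ) + 2 / 2 ^ nb h + tW h = _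
  unfold kAO
  push_cast
  ring

theorem kB_eq (h : ℕ) : kB (parOf h) (tW h) (c8O h + 2)
    = kBO h - tauO h - etaO h + tW h + (c8O h + 2) := by
  show (4 * ((2 ^ nn h : ℕ) : ℝ) + 2) * (1 / 2 ^ pb h + 1)
    + 6 * (((um h : ℕ) : ℝ) * Real.log ((pm h : ℕ) + 1) + 2) / ((KK h : ℕ) : ℝ) + 2 / 2 ^ nb h
    + tW h + (c8O h + 2) + 4 = _
  unfold kBO
  push_cast
  ring

theorem eFar_eq (h : ℕ) : eFarW h = eFar h := by
  show ((um h : ℕ) : ℝ) * Real.log ((pm h : ℕ) + 1) / ((KK h : ℕ) : ℝ) + (2 + c8O h)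
    + ((2 ^ nn h : ℕ) : ℝ) * (2 / 2 ^ nb h + 2) = _
  unfold eFar
  push_cast
  ring

theorem eNear_eq (h : ℕ) : eNearW h = eNear h - (2 : ℝ) ^ nn h * 32 + (2 : ℝ) ^ nn h * 7 := by
  show (((um h : ℕ) : ℝ) / ((pm h : ℕ) : ℝ) + ((pb h : ℕ) + 4) / ((gam h : ℕ) : ℝ) * 2 ^ nn h)
    / ((KK h : ℕ) : ℝ) + (2 * 2 ^ nn h + 2) + ((2 ^ nn h : ℕ) : ℝ) * (4 + (1 + 2 * 1)) + c8O h = _
  unfold eNear
  push_cast
  ring

theorem ord_tau' (b : ℝ) (hb : -9 ≤ b) : Ord 0 b tauO := ord_tau.weak hb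

theorem ord_k1W : Ord 0 (-1) LW.k1 :=
  ((ord_k1O.sub ((ord_tau' (-1) (by norm_num)).const_mul 2)).add ((ord_tW' (-1)).const_mul 2)).congr k1_eq

theorem ord_kAW : Ord 0 (-1) fun h => kA (parOf h) (tW h) :=
  ((ord_kAO.sub (ord_tau' (-1) (by norm_num))).add (ord_tW' (-1))).congr kA_eq

theorem ord_kBW : Ord 0 0 fun h => kB (parOf h) (tW h) (c8O h + 2) :=
  ((((ord_kBO.sub (ord_tau' 0 (by norm_num))).sub ord_etaO).add (ord_tW' 0)).add
    (ord_c8.add (Ord.const 2))).congr kB_eq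

theorem ord_e4W : Ord (-1) 0 LW.e4 := by
  have h1 : Ord 0 0 eFarW := ord_eFar.congr eFar_eq
  have h2 : Ord 0 0 eNearW :=
    ((ord_eNear.sub (ord_N.mul_const 32)).add (ord_N.mul_const 7)).congr eNear_eq
  exact ((h1.add h2).zmul ord_Λi).congr fun h => div_eq_mul_inv _ _

theorem ord_r1W : Ord 0 (-2) LW.r1 := by
  have h1 : Ord 0 (-2) fun h => ((parOf h).N : ℝ) * (2 / 2 ^ (parOf h).pb * Lt.B0 h) :=
    (ord_PN.zmul (ord_p.mul Lt.ord_B0)).lex (Or.inl (by norm_num))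
  have h2 : Ord 0 (-2) fun h => (2 * ((parOf h).N : ℝ)) * (((2 ^ lam h : ℕ) : ℝ))⁻¹ :=
    ((ord_PN.const_mul 2).zmul ord_Λi).lt (by norm_num) _
  exact (h1.add h2).congr fun h => congrArg (((parOf h).N : ℝ) * (2 / 2 ^ (parOf h).pb * Lt.B0 h) + ·)
    (div_eq_mul_inv _ _)

theorem LW_ok : LW.Ok where
  k1_0 h := add_nonneg (add_nonneg (div_nonneg (add_nonneg (add_nonneg (mul_nonneg (Nat.cast_nonneg _)
    (WinF3131.logpm _)) zero_le_one) (div_nonneg zero_le_one (Nat.cast_nonneg _))) (Nat.cast_nonneg _))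
    (mul_nonneg (by norm_num) (tW0 h))) (two_div0 _)
  kn_0 h := kn0 (two_div0 _) (sO0 h).le (tW0 h)
  e4_0 h := div_nonneg (add_nonneg (eFarW0 h) (eNearW0 h)) (Λ0 h).le
  kd0_0 h := div_nonneg (kB0 (tW0 h) (add_nonneg (c8O0 h) (by norm_num))) (Λ0 h).le
  kd1_0 h := mul_nonneg (by norm_num) (add_nonneg (ζ0 h) (kA0 (tW0 h)))
  b1_0 h := add_nonneg (div_nonneg (c8O0 h) (Λ0 h).le) (mul_nonneg (by norm_num) (tW0 h))
  e50_0 h := div_nonneg (add_nonneg (add_nonneg zero_le_one (c8O0 h)) (tW0 h)) (Nat.cast_nonneg _)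
  e51_0 h := add_nonneg (mul_nonneg (by norm_num) (two_div0 _)) (tW0 h)
  r1_0 h := add_nonneg (mul_nonneg (Nat.cast_nonneg _) (mul_nonneg (two_div0 _) (Lt.B0_0 h)))
    (div_nonneg (mul_nonneg (by norm_num) (Nat.cast_nonneg _)) (Λ0 h).le)
  z1_0 h := mul_nonneg (by norm_num) (add_nonneg (ζ0 h) (two_div0 _))
  k1 := ord_k1W
  kn := by
    filter_upwards [WinNumI895.ev_kn, ev_tW_tau] with h h1 h2
    refine (mul_le_mul_of_nonneg_right ?_ (Nat.cast_nonneg _)).trans h1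
    rw [kn_eq]
    linarith
  e4 := ord_e4W.lt (by norm_num) _
  kd0 := ((ord_kBW.zmul ord_Λi).lt (by norm_num) (-1)).congr fun h => div_eq_mul_inv _ _
  kd1 := ((ord_ζ.weak (by norm_num)).add ord_kAW).const_mul 2
  b1 := (((ord_c8.zmul ord_Λi).lt (by norm_num) (-1)).congr fun h => div_eq_mul_inv _ _).add
    ((ord_tW' (-1)).const_mul 2)
  e50 := (((((Ord.const 1).add ord_c8).add (ord_tW' 0)).zmul ord_C0_inv).weak (by norm_num)).congr
    fun h => div_eq_mul_inv _ _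
  e51 := ((ord_p.lt (by norm_num) (-1)).const_mul 2).add (ord_tW' (-1))
  r1 := ord_r1W
  z1 := ((ord_ζ.weak (by norm_num)).add (ord_p.lt (by norm_num) (-1))).const_mul 2

/-- **the numbers of the chain at the letters of `NumW`** -/
theorem numR : StmF616.NumR LW.aR LW.qR := LW_ok.numR

theorem ev_ep : ∀ᶠ h : ℕ in atTop, LW.Ep h := LW_ok.ev_ep

/-! ### `NumW` -/

/-- clip constant -/
def GcW (h : ℕ) : ℕ := (nn h + 1) * gg h

theorem pB_le : ∀ᶠ h : ℕ in atTop, 2 / 2 ^ (parOf h).pb * Lt.B0 h ≤ 1 := by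
  filter_upwards [(ord_p.mul Lt.ord_B0).le_one (Or.inl (by norm_num))] with h h1
  exact (le_abs_self _).trans h1

theorem ev_sm : ∀ᶠ h : ℕ in atTop, StmF616.B0O h * (((2 ^ lam h : ℕ) : ℝ) + (C0O h : ℝ))
    < 2 ^ ((parOf h).pb + 1) := by
  have h1 : Ord 1 2 fun h => ((2 ^ lam h : ℕ) : ℝ) + (C0O h : ℝ) :=
    ((ord_LamO.congr fun h => by unfold LamO; push_cast; rfl).weak (by norm_num)).add
      (ord_C0.lt (by norm_num) 2)
  filter_upwards [((Lt.ord_B0.mul h1).mul ord_P).le_one (Or.inl (by norm_num))] with h h2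
  have h3 : (0 : ℝ) < 2 ^ pb h := pow_pos (by norm_num) _
  have h4 : Lt.B0 h * (((2 ^ lam h : ℕ) : ℝ) + (C0O h : ℝ)) * (2 ^ pb h)⁻¹ ≤ 1 :=
    (le_abs_self _).trans h2
  rw [← div_eq_mul_inv, div_le_one h3] at h4
  refine lt_of_le_of_lt h4 ?_
  show (2 : ℝ) ^ pb h < 2 ^ (pb h + 1)
  rw [pow_succ]
  linarith

theorem ev_z : ∀ᶠ h : ℕ in atTop, 2 * (ζO h + 2 / 2 ^ (parOf h).pb) ≤ 1 / 2 := by
  filter_upwards [(LW_ok.z1.const_mul 2).le_one (Or.inr ⟨rfl, by norm_num⟩)] with h h1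
  have h2 : 2 * (2 * (ζO h + 2 / 2 ^ (parOf h).pb)) ≤ 1 := (le_abs_self _).trans h1
  linarith

theorem ev_ζ4 : ∀ᶠ h : ℕ in atTop, ζO h * 2 ^ (4 * Lg h) ≤ 1 := by
  filter_upwards [ev_const_Lg 8] with h h1
  have h2 : (5 : ℕ) ≤ 4 * Lg h := by omega
  unfold ζO
  rw [div_mul_eq_mul_div, div_le_one (pow_pos (by norm_num) _), ← pow_add]
  exact pow_le_pow_right₀ (by norm_num) (by omega)

/-- **974's `NumW` at the table** -/
theorem ev_numW : ∀ᶠ h : ℕ in atTop, WinHy974.NumW (parOf h) (StmF616.C0O h) (2 ^ lam h)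
    (StmF616.B0O h) (ζO h) (eta (parOf h) (sJ h)) (tW h) (c8O h) (sO h) (LW.k1 h) (LW.kd0 h)
    (LW.kd1 h) (LW.e4 h) (LW.e50 h) (LW.e51 h) (LW.b1 h) (LW.r1 h) (GcW h) := by
  filter_upwards [LawO147.ev_bO, LawO147.ev_eta_bb, LawO147.ev_eta 4, ev_z, ev_sm, pB_le, ev_ζ4,
    ev_ParOK 1024, LanePar806.ev_LaneN, eventually_ge_atTop 1]
    with h h1 h2 h3 h4 h5 h6 h7 h8 h9 h10
  have hΛ := Λ0 h
  have hζ := ζ0 h
  have hE : eFarW h + eNearW h = LW.e4 h * ((2 ^ lam h : ℕ) : ℝ) := (div_mul_cancel₀ _ hΛ.ne').symm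
  refine
    { hK := h8.KK_pos
      hg := gg_pos h
      hpm := h9.pm
      hnb := ?_
      ha2 := by show 5 ≤ 8; norm_num
      hδ4 := ?_
      hG2 := ?_
      hGg := le_rfl
      hGum := ?_
      hζ8 := h1.1
      hζp := h4
      hC0 := ?_
      hN4 := ?_
      hη0 := LawN147.eta_nonneg _ _
      hτη := h3
      hbb := h2.2
      hc8 := le_rfl
      hbO := h1.2.2.1
      hnear := fun F κ z hF hκ => NearP484.nearNum h8 le_rfl hζ h7 h1.2.1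
        (h1.2.2.2.trans (by norm_num)) (by norm_num) hF hκ
      hsm := h5
      he50 := le_rfl
      he51 := le_rfl
      hb1 := le_rfl
      hr1 := le_rfl
      hk1 := le_rfl
      he40 := LW_ok.e4_0 h
      he4f := ?_
      he4n := ?_
      hkd0 := le_rfl
      hkd1 := ?_ }
  · have := W_pos h
    have := Lg_pos h
    show 1 ≤ nb h
    unfold nb
    have h11 : 0 < 8 * W h * Lg h := by positivity
    omega
  · exact h9.δi.le
  · have h11 := nn_pos h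
    have h12 := gg_pos h
    show 2 ≤ (nn h + 1) * gg h
    calc 2 = 2 * 1 := rfl
      _ ≤ (nn h + 1) * gg h := Nat.mul_le_mul (by omega) h12
  · show (nn h + 1) * gg h * (4 * 8 + 1) ≤ um h
    have e : um h = (nn h + 1) * gg h * 40 := by
      unfold um Creg
      ring
    rw [e]
    exact Nat.mul_le_mul_left _ (by norm_num)
  · show 0 < h ^ 2
    exact pow_pos (by omega) _
  · have h11 : 8 * 2 ^ nn h ≤ 2 ^ lam h := h9.Λ_N
    show 2 ^ nn h * 4 ≤ 2 ^ lam h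
    omega
  · have := eNearW0 h
    show eFarW h ≤ _
    rw [← hE]
    linarith
  · have := eFarW0 h
    show eNearW h ≤ _
    rw [← hE]
    linarith
  · have h11 : 0 ≤ ζO h + kA (parOf h) (tW h) := add_nonneg hζ (kA0 (tW0 h))
    show (ζO h + kA (parOf h) (tW h)) * (1 + 2 / 2 ^ (parOf h).pb * Lt.B0 h) ≤
      2 * (ζO h + kA (parOf h) (tW h))
    rw [mul_comm (2 : ℝ)]
    exact mul_le_mul_of_nonneg_left (by linarith) h11

end Crest.Agent.R288.NumW895
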