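import Mathlib
import Crest.Prelude.Def_WordRAMProb
import Crest.Prelude.Def_GraphRAM
import Crest.Prelude.Def_RatWords

/-!
# R288 leaf [N]: almost linear fuels (helper414)

* `SP g` : `g` is subpolynomial, `g N ≤ N ^ δ` eventually for every `δ > 0`; closed under sums, products,
  powers, constants, `Nat.log`, `Nat.clog`, shifts, `2 ^ t` with `t = o(log)`.
* `AL f` : `f` is almost linear, `f N ≤ N ^ (1 + δ)` eventually for every `δ > 0`; closed under sums,
  products with `SP`, shifts.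
* `slow N = log2 log2 log2 N` tends to infinity, `al_fuel`: the standard fuel
  `c (N+1) 2^(r·clog N / slow N) (clog N + 1)^k` is almost linear.
* `expectedTime_le_of_halted`: a program that halts within `T` steps on every stream has expected time `≤ T`.
* `time_of_al`: the time clause of S0433 from an almost linear fuel.
-/

set_option autoImplicit false

open Filter

namespace Crest.Agent.R288.Num414

/-- subpolynomial functions -/
def SP (g : ℕ → ℕ) : Prop := ∀ δ : ℝ, 0 < δ → ∀ᶠ N : ℕ in atTop, (g N : ℝ) ≤ (N : ℝ) ^ δ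

/-- almost linear functions -/
def AL (f : ℕ → ℕ) : Prop := ∀ δ : ℝ, 0 < δ → ∀ᶠ N : ℕ in atTop, (f N : ℝ) ≤ (N : ℝ) ^ (1 + δ)

theorem tendsto_rpow_nat {δ : ℝ} (hδ : 0 < δ) : Tendsto (fun N : ℕ => (N : ℝ) ^ δ) atTop atTop :=
  (tendsto_rpow_atTop hδ).comp tendsto_natCast_atTop_atTop

section calculus

variable {f g h : ℕ → ℕ}

theorem SP.mono (hg : SP g) (hle : ∀ᶠ N in atTop, f N ≤ g N) : SP f := by
  intro δ hδ
  filter_upwards [hg δ hδ, hle] with N h1 h2
  exact le_trans (by exact_mod_cast h2) h1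

theorem AL.mono (hg : AL g) (hle : ∀ᶠ N in atTop, f N ≤ g N) : AL f := by
  intro δ hδ
  filter_upwards [hg δ hδ, hle] with N h1 h2
  exact le_trans (by exact_mod_cast h2) h1

theorem SP.const (c : ℕ) : SP (fun _ => c) := by
  intro δ hδ
  exact (tendsto_rpow_nat hδ).eventually_ge_atTop (c : ℝ)

theorem SP.mul (hf : SP f) (hg : SP g) : SP (fun N => f N * g N) := by
  intro δ hδ
  filter_upwards [hf (δ / 2) (by positivity), hg (δ / 2) (by positivity), eventually_ge_atTop 1]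
    with N h1 h2 h3
  have hN : (0 : ℝ) < (N : ℝ) := by exact_mod_cast h3
  calc ((f N * g N : ℕ) : ℝ) = (f N : ℝ) * g N := by push_cast; ring
    _ ≤ (N : ℝ) ^ (δ / 2) * (N : ℝ) ^ (δ / 2) := by gcongr
    _ = (N : ℝ) ^ δ := by rw [← Real.rpow_add hN]; congr 1; ring

theorem AL.mul_sp (hf : AL f) (hg : SP g) : AL (fun N => f N * g N) := by
  intro δ hδ
  filter_upwards [hf (δ / 2) (by positivity), hg (δ / 2) (by positivity), eventually_ge_atTop 1]
    with N h1 h2 h3
  have hN : (0 : ℝ) < (N : ℝ) := by exact_mod_cast h3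
  calc ((f N * g N : ℕ) : ℝ) = (f N : ℝ) * g N := by push_cast; ring
    _ ≤ (N : ℝ) ^ (1 + δ / 2) * (N : ℝ) ^ (δ / 2) := by gcongr
    _ = (N : ℝ) ^ (1 + δ) := by rw [← Real.rpow_add hN]; congr 1; ring

theorem SP.add (hf : SP f) (hg : SP g) : SP (fun N => f N + g N) := by
  intro δ hδ
  filter_upwards [hf (δ / 2) (by positivity), hg (δ / 2) (by positivity), eventually_ge_atTop 1,
    (tendsto_rpow_nat (show 0 < δ / 2 by positivity)).eventually_ge_atTop (2 : ℝ)] with N h1 h2 h3 h4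
  have hN : (0 : ℝ) < (N : ℝ) := by exact_mod_cast h3
  calc ((f N + g N : ℕ) : ℝ) = (f N : ℝ) + g N := by push_cast; ring
    _ ≤ (N : ℝ) ^ (δ / 2) + (N : ℝ) ^ (δ / 2) := by gcongr
    _ = 2 * (N : ℝ) ^ (δ / 2) := by ring
    _ ≤ (N : ℝ) ^ (δ / 2) * (N : ℝ) ^ (δ / 2) := by gcongr
    _ = (N : ℝ) ^ δ := by rw [← Real.rpow_add hN]; congr 1; ring

theorem AL.add (hf : AL f) (hg : AL g) : AL (fun N => f N + g N) := by
  intro δ hδ
  filter_upwards [hf (δ / 2) (by positivity), hg (δ / 2) (by positivity), eventually_ge_atTop 1,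
    (tendsto_rpow_nat (show 0 < δ / 2 by positivity)).eventually_ge_atTop (2 : ℝ)] with N h1 h2 h3 h4
  have hN : (0 : ℝ) < (N : ℝ) := by exact_mod_cast h3
  calc ((f N + g N : ℕ) : ℝ) = (f N : ℝ) + g N := by push_cast; ring
    _ ≤ (N : ℝ) ^ (1 + δ / 2) + (N : ℝ) ^ (1 + δ / 2) := by gcongr
    _ = 2 * (N : ℝ) ^ (1 + δ / 2) := by ring
    _ ≤ (N : ℝ) ^ (δ / 2) * (N : ℝ) ^ (1 + δ / 2) := by gcongr
    _ = (N : ℝ) ^ (1 + δ) := by rw [← Real.rpow_add hN]; congr 1; ring

theorem SP.pow (hf : SP f) (k : ℕ) : SP (fun N => f N ^ k) := by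
  induction k with
  | zero => simpa using SP.const 1
  | succ k ih =>
    have := ih.mul hf
    simpa [pow_succ] using this

theorem SP.max (hf : SP f) (hg : SP g) : SP (fun N => max (f N) (g N)) :=
  (hf.add hg).mono (Eventually.of_forall fun _ => max_le (Nat.le_add_right _ _) (Nat.le_add_left _ _))

theorem AL.max (hf : AL f) (hg : AL g) : AL (fun N => max (f N) (g N)) :=
  (hf.add hg).mono (Eventually.of_forall fun _ => max_le (Nat.le_add_right _ _) (Nat.le_add_left _ _))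

theorem SP.al (hf : SP f) : AL f := by
  intro δ hδ
  exact hf (1 + δ) (by positivity)

theorem AL.id : AL (fun N => N) := by
  intro δ hδ
  filter_upwards [eventually_ge_atTop 1] with N hN
  have h1 : (1 : ℝ) ≤ (N : ℝ) := by exact_mod_cast hN
  calc ((N : ℕ) : ℝ) = (N : ℝ) ^ (1 : ℝ) := (Real.rpow_one _).symm
    _ ≤ (N : ℝ) ^ (1 + δ) := Real.rpow_le_rpow_of_exponent_le h1 (by linarith)

/-- shifting the argument by a constant -/
theorem rpow_shift_le (b : ℕ) {δ : ℝ} (hδ : 0 < δ) :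
    ∀ᶠ N : ℕ in atTop, (((N + b : ℕ) : ℝ)) ^ δ ≤ 2 ^ δ * (N : ℝ) ^ δ := by
  filter_upwards [eventually_ge_atTop b] with N hN
  have h1 : ((N + b : ℕ) : ℝ) ≤ 2 * (N : ℝ) := by
    have : (b : ℝ) ≤ N := by exact_mod_cast hN
    push_cast; linarith
  calc (((N + b : ℕ) : ℝ)) ^ δ ≤ (2 * (N : ℝ)) ^ δ := by gcongr
    _ = 2 ^ δ * (N : ℝ) ^ δ := Real.mul_rpow (by norm_num) (by positivity)

theorem AL.shift (hf : AL f) (b : ℕ) : AL (fun N => f (N + b)) := by
  intro δ hδ
  have h0 : Tendsto (fun N : ℕ => N + b) atTop atTop := tendsto_add_atTop_nat b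
  filter_upwards [h0.eventually (hf (δ / 2) (by positivity)),
    rpow_shift_le b (show 0 < 1 + δ / 2 by positivity), eventually_ge_atTop 1,
    (tendsto_rpow_nat (show 0 < δ / 2 by positivity)).eventually_ge_atTop ((2 : ℝ) ^ (1 + δ / 2))]
    with N h1 h2 h3 h4
  have hN : (0 : ℝ) < (N : ℝ) := by exact_mod_cast h3
  calc ((f (N + b) : ℕ) : ℝ) ≤ ((N + b : ℕ) : ℝ) ^ (1 + δ / 2) := h1
    _ ≤ 2 ^ (1 + δ / 2) * (N : ℝ) ^ (1 + δ / 2) := h2
    _ ≤ (N : ℝ) ^ (δ / 2) * (N : ℝ) ^ (1 + δ / 2) := by gcongr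
    _ = (N : ℝ) ^ (1 + δ) := by rw [← Real.rpow_add hN]; congr 1; ring

theorem SP.shift (hf : SP f) (b : ℕ) : SP (fun N => f (N + b)) := by
  intro δ hδ
  have h0 : Tendsto (fun N : ℕ => N + b) atTop atTop := tendsto_add_atTop_nat b
  filter_upwards [h0.eventually (hf (δ / 2) (by positivity)),
    rpow_shift_le b (show 0 < δ / 2 by positivity), eventually_ge_atTop 1,
    (tendsto_rpow_nat (show 0 < δ / 2 by positivity)).eventually_ge_atTop ((2 : ℝ) ^ (δ / 2))]
    with N h1 h2 h3 h4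
  have hN : (0 : ℝ) < (N : ℝ) := by exact_mod_cast h3
  calc ((f (N + b) : ℕ) : ℝ) ≤ ((N + b : ℕ) : ℝ) ^ (δ / 2) := h1
    _ ≤ 2 ^ (δ / 2) * (N : ℝ) ^ (δ / 2) := h2
    _ ≤ (N : ℝ) ^ (δ / 2) * (N : ℝ) ^ (δ / 2) := by gcongr
    _ = (N : ℝ) ^ δ := by rw [← Real.rpow_add hN]; congr 1; ring

end calculus

section logs

/-- `2 ^ t` is subpolynomial as soon as `t ≤ η log2 N` eventually, for every `η > 0` -/
theorem SP.two_pow {t : ℕ → ℕ}
    (ht : ∀ η : ℝ, 0 < η → ∀ᶠ N : ℕ in atTop, (t N : ℝ) ≤ η * Real.logb 2 N) :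
    SP (fun N => 2 ^ t N) := by
  intro δ hδ
  filter_upwards [ht δ hδ, eventually_ge_atTop 1] with N h1 h3
  have hN : (0 : ℝ) < (N : ℝ) := by exact_mod_cast h3
  calc ((2 ^ t N : ℕ) : ℝ) = (2 : ℝ) ^ ((t N : ℕ) : ℝ) := by push_cast; rw [Real.rpow_natCast]
    _ ≤ (2 : ℝ) ^ (δ * Real.logb 2 N) := Real.rpow_le_rpow_of_exponent_le (by norm_num) h1
    _ = ((2 : ℝ) ^ (Real.logb 2 N)) ^ δ := by rw [mul_comm, Real.rpow_mul (by norm_num)]
    _ = (N : ℝ) ^ δ := by rw [Real.rpow_logb (by norm_num) (by norm_num) hN]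

theorem clog_le_logb (N : ℕ) (hN : 1 ≤ N) : (Nat.clog 2 N : ℝ) ≤ Real.logb 2 N + 1 := by
  have hN' : (0 : ℝ) < (N : ℝ) := by exact_mod_cast hN
  rcases Nat.eq_or_lt_of_le hN with h | h
  · rw [← h]; simp
  · have h1 : 2 ^ (Nat.clog 2 N - 1) < N := Nat.pow_pred_clog_lt_self (by norm_num) h
    have h0 : 0 < Nat.clog 2 N := Nat.clog_pos (by norm_num) (by omega)
    have h2 : ((Nat.clog 2 N - 1 : ℕ) : ℝ) ≤ Real.logb 2 N := by
      rw [Real.le_logb_iff_rpow_le (by norm_num) hN', Real.rpow_natCast]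
      exact_mod_cast h1.le
    have h3 : ((Nat.clog 2 N - 1 : ℕ) : ℝ) = (Nat.clog 2 N : ℝ) - 1 := by
      rw [Nat.cast_sub h0]; simp
    linarith

theorem logb_le_clog (N : ℕ) (hN : 1 ≤ N) : Real.logb 2 N ≤ (Nat.clog 2 N : ℝ) := by
  have hN' : (0 : ℝ) < (N : ℝ) := by exact_mod_cast hN
  rw [Real.logb_le_iff_le_rpow (by norm_num) hN', Real.rpow_natCast]
  exact_mod_cast Nat.le_pow_clog (by norm_num) N

theorem tendsto_logb : Tendsto (fun N : ℕ => Real.logb 2 (N : ℝ)) atTop atTop :=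
  (Real.tendsto_logb_atTop (by norm_num)).comp tendsto_natCast_atTop_atTop

theorem SP.clog : SP (fun N => Nat.clog 2 N) := by
  intro δ hδ
  have h1 : (fun N : ℕ => Real.log (N : ℝ)) =o[atTop] fun N : ℕ => (N : ℝ) ^ (δ / 2) :=
    (isLittleO_log_rpow_atTop (show 0 < δ / 2 by positivity)).comp_tendsto
      tendsto_natCast_atTop_atTop
  have h2 := h1.bound (show (0 : ℝ) < 1 by norm_num)
  filter_upwards [h2, eventually_ge_atTop 1,
    (tendsto_rpow_nat (show 0 < δ / 2 by positivity)).eventually_ge_atTop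
      (1 / Real.log 2 + 1)] with N h3 h4 h5
  have hN : (0 : ℝ) < (N : ℝ) := by exact_mod_cast h4
  have hN1 : (1 : ℝ) ≤ (N : ℝ) := by exact_mod_cast h4
  have hlog : 0 ≤ Real.log (N : ℝ) := Real.log_nonneg hN1
  have hp : 0 ≤ (N : ℝ) ^ (δ / 2) := by positivity
  have hp1 : 1 ≤ (N : ℝ) ^ (δ / 2) := Real.one_le_rpow hN1 (by positivity)
  rw [Real.norm_of_nonneg hlog, Real.norm_of_nonneg hp, one_mul] at h3
  have hl2 : 0 < Real.log 2 := Real.log_pos (by norm_num)
  calc (Nat.clog 2 N : ℝ) ≤ Real.logb 2 N + 1 := clog_le_logb N h4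
    _ = Real.log N * (1 / Real.log 2) + 1 := by unfold Real.logb; ring
    _ ≤ (N : ℝ) ^ (δ / 2) * (1 / Real.log 2) + (N : ℝ) ^ (δ / 2) * 1 := by
        gcongr
        linarith
    _ = (N : ℝ) ^ (δ / 2) * (1 / Real.log 2 + 1) := by ring
    _ ≤ (N : ℝ) ^ (δ / 2) * (N : ℝ) ^ (δ / 2) := by gcongr
    _ = (N : ℝ) ^ δ := by rw [← Real.rpow_add hN]; congr 1; ring

theorem SP.log : SP (fun N => Nat.log 2 N) :=
  SP.clog.mono (Eventually.of_forall fun N => Nat.log_le_clog 2 N)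

/-- `r · clog N / s N` with `s → ∞` is `o(log N)` -/
theorem div_small {s : ℕ → ℕ} (hs : Tendsto s atTop atTop) (r : ℕ) (η : ℝ) (hη : 0 < η) :
    ∀ᶠ N : ℕ in atTop, ((r * Nat.clog 2 N / s N : ℕ) : ℝ) ≤ η * Real.logb 2 N := by
  have h1 : ∀ᶠ N in atTop, (2 * r / η + 1 : ℝ) ≤ (s N : ℝ) :=
    (tendsto_natCast_atTop_atTop.comp hs).eventually_ge_atTop _
  filter_upwards [h1, tendsto_logb.eventually_ge_atTop (1 : ℝ), eventually_ge_atTop 1]
    with N h2 h3 h4
  have hs0 : (0 : ℝ) < (s N : ℝ) := lt_of_lt_of_le (by positivity) h2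
  have h5 : (Nat.clog 2 N : ℝ) ≤ 2 * Real.logb 2 N := by
    have := clog_le_logb N h4
    linarith
  have h6 : (r : ℝ) * 2 ≤ η * (s N : ℝ) := by
    have : (2 * r / η : ℝ) ≤ s N := by linarith
    rw [div_le_iff₀ hη] at this
    linarith
  have hl0 : 0 ≤ Real.logb 2 (N : ℝ) := by linarith
  calc ((r * Nat.clog 2 N / s N : ℕ) : ℝ) ≤ ((r * Nat.clog 2 N : ℕ) : ℝ) / (s N : ℝ) :=
        Nat.cast_div_le
    _ = (r : ℝ) * (Nat.clog 2 N : ℝ) / (s N : ℝ) := by push_cast; ring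
    _ ≤ (r : ℝ) * (2 * Real.logb 2 N) / (s N : ℝ) := by gcongr
    _ = ((r : ℝ) * 2) * Real.logb 2 N / (s N : ℝ) := by ring
    _ ≤ (η * (s N : ℝ)) * Real.logb 2 N / (s N : ℝ) := by gcongr
    _ = η * Real.logb 2 N := by field_simp

theorem SP.two_pow_div {s : ℕ → ℕ} (hs : Tendsto s atTop atTop) (r : ℕ) :
    SP (fun N => 2 ^ (r * Nat.clog 2 N / s N)) :=
  SP.two_pow fun η hη => div_small hs r η hη

theorem tendsto_log2 : Tendsto (fun N : ℕ => Nat.log 2 N) atTop atTop := by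
  refine tendsto_atTop.2 fun b => ?_
  filter_upwards [eventually_ge_atTop (2 ^ b)] with N hN
  exact (Nat.le_log_iff_pow_le (by norm_num) (by
    have := Nat.two_pow_pos b
    omega)).2 hN

theorem tendsto_clog2 : Tendsto (fun N : ℕ => Nat.clog 2 N) atTop atTop :=
  tendsto_atTop_mono (fun N => Nat.log_le_clog 2 N) tendsto_log2

/-- the standard slow function -/
def slow (N : ℕ) : ℕ := Nat.log 2 (Nat.log 2 (Nat.clog 2 N))

theorem tendsto_slow : Tendsto slow atTop atTop :=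
  tendsto_log2.comp (tendsto_log2.comp tendsto_clog2)

/-- **the standard almost linear fuel** -/
theorem al_fuel {s : ℕ → ℕ} (hs : Tendsto s atTop atTop) (c k r : ℕ) :
    AL (fun N => c * (N + 1) * 2 ^ (r * Nat.clog 2 N / s N) * (Nat.clog 2 N + 1) ^ k) := by
  have h1 : AL (fun N => c * (N + 1)) := by
    have h2 : AL (fun N => (N + 1) * c) := (AL.id.add (SP.const 1).al).mul_sp (SP.const c)
    simpa [mul_comm] using h2
  exact (h1.mul_sp (SP.two_pow_div hs r)).mul_sp ((SP.clog.add (SP.const 1)).pow k)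

theorem al_fuel_slow (c k r : ℕ) :
    AL (fun N => c * (N + 1) * 2 ^ (r * Nat.clog 2 N / slow N) * (Nat.clog 2 N + 1) ^ k) :=
  al_fuel tendsto_slow c k r


/-- polylogarithms are eventually below the identity -/
theorem ev_polylog (C k : ℕ) : ∀ᶠ m : ℕ in atTop, C * (Nat.clog 2 m + 1) ^ k ≤ m := by
  have h : SP (fun N => C * (Nat.clog 2 N + 1) ^ k) :=
    (SP.const C).mul ((SP.clog.add (SP.const 1)).pow k)
  filter_upwards [h 1 one_pos] with m hm
  rw [Real.rpow_one] at hm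
  exact_mod_cast hm

theorem clog_succ_le (m : ℕ) : Nat.clog 2 (m + 1) ≤ Nat.clog 2 m + 1 := by
  rw [Nat.clog_le_iff_le_pow (by norm_num)]
  rcases Nat.eq_zero_or_pos m with h | h
  · subst h; simp
  · have h1 := Nat.le_pow_clog (b := 2) (by norm_num) m
    rw [pow_succ]
    omega

theorem le_two_pow_self (m : ℕ) : m ≤ 2 ^ m := (Nat.lt_two_pow_self).le

/-- `C (ℓ+1)^k ≤ 2^((C+k)(clog ℓ + 1))` -/
theorem poly_le_two_pow (C k l : ℕ) : C * (l + 1) ^ k ≤ 2 ^ ((C + k) * (Nat.clog 2 l + 1)) := by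
  have h1 : l + 1 ≤ 2 ^ (Nat.clog 2 l + 1) :=
    (Nat.le_pow_clog (b := 2) (by norm_num) (l + 1)).trans
      (Nat.pow_le_pow_right (by norm_num) (clog_succ_le l))
  calc C * (l + 1) ^ k ≤ 2 ^ C * (2 ^ (Nat.clog 2 l + 1)) ^ k :=
        Nat.mul_le_mul (le_two_pow_self C) (Nat.pow_le_pow_left h1 k)
    _ = 2 ^ (C + (Nat.clog 2 l + 1) * k) := by rw [← pow_mul, ← pow_add]
    _ ≤ 2 ^ ((C + k) * (Nat.clog 2 l + 1)) := by
        refine Nat.pow_le_pow_right (by norm_num) ?_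
        nlinarith [Nat.zero_le (Nat.clog 2 l), Nat.zero_le (C * Nat.clog 2 l)]

/-- polylogs of `N` are eventually below `2^(clog N / slow N)` -/
theorem ev_polylog_slow (C k : ℕ) :
    ∀ᶠ N : ℕ in atTop, C * (Nat.clog 2 N + 1) ^ k ≤ 2 ^ (Nat.clog 2 N / slow N) := by
  filter_upwards [tendsto_clog2.eventually (ev_polylog (C + k) 2),
    tendsto_slow.eventually_ge_atTop 1] with N h1 h2
  refine (poly_le_two_pow C k _).trans (Nat.pow_le_pow_right (by norm_num) ?_)
  rw [Nat.le_div_iff_mul_le h2]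
  have h3 : slow N ≤ Nat.clog 2 (Nat.clog 2 N) + 1 := by
    unfold slow
    exact ((Nat.log_le_self 2 _).trans (Nat.log_le_clog 2 _)).trans (Nat.le_succ _)
  calc (C + k) * (Nat.clog 2 (Nat.clog 2 N) + 1) * slow N
      ≤ (C + k) * (Nat.clog 2 (Nat.clog 2 N) + 1) * (Nat.clog 2 (Nat.clog 2 N) + 1) :=
        Nat.mul_le_mul_left _ h3
    _ = (C + k) * (Nat.clog 2 (Nat.clog 2 N) + 1) ^ 2 := by ring
    _ ≤ Nat.clog 2 N := h1

/-- the tier exponent `C ℓ (log log ℓ)^k / log ℓ`, `ℓ = clog N`, is below `ℓ / slow N` eventually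
(`slow N = log log ℓ`) -/
theorem ev_tier_slow (C k : ℕ) :
    ∀ᶠ N : ℕ in atTop,
      C * Nat.clog 2 N * (slow N + 1) ^ k / Nat.log 2 (Nat.clog 2 N) ≤ Nat.clog 2 N / slow N := by
  have h0 : Tendsto (fun N : ℕ => Nat.log 2 (Nat.clog 2 N)) atTop atTop :=
    tendsto_log2.comp tendsto_clog2
  filter_upwards [h0.eventually (ev_polylog C (k + 1)), tendsto_slow.eventually_ge_atTop 1,
    h0.eventually_ge_atTop 1] with N h1 h2 h3
  rw [Nat.le_div_iff_mul_le h2]
  have h4 : slow N + 1 ≤ Nat.clog 2 (Nat.log 2 (Nat.clog 2 N)) + 1 :=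
    Nat.succ_le_succ (Nat.log_le_clog 2 _)
  have h5 : C * (slow N + 1) ^ k * slow N ≤ Nat.log 2 (Nat.clog 2 N) := by
    refine le_trans ?_ h1
    calc C * (slow N + 1) ^ k * slow N ≤ C * (slow N + 1) ^ k * (slow N + 1) :=
          Nat.mul_le_mul_left _ (Nat.le_succ _)
      _ = C * (slow N + 1) ^ (k + 1) := by ring
      _ ≤ _ := Nat.mul_le_mul_left _ (Nat.pow_le_pow_left h4 _)
  refine Nat.le_of_mul_le_mul_right ?_ (lt_of_lt_of_le Nat.zero_lt_one h3)
  calc C * Nat.clog 2 N * (slow N + 1) ^ k / Nat.log 2 (Nat.clog 2 N) * slow N *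
        Nat.log 2 (Nat.clog 2 N)
      = (C * Nat.clog 2 N * (slow N + 1) ^ k / Nat.log 2 (Nat.clog 2 N) *
        Nat.log 2 (Nat.clog 2 N)) * slow N := by ring
    _ ≤ (C * Nat.clog 2 N * (slow N + 1) ^ k) * slow N :=
        Nat.mul_le_mul_right _ (Nat.div_mul_le_self _ _)
    _ = Nat.clog 2 N * (C * (slow N + 1) ^ k * slow N) := by ring
    _ ≤ Nat.clog 2 N * Nat.log 2 (Nat.clog 2 N) := Nat.mul_le_mul_left _ h5

/-- word lengths are subpolynomial -/
theorem SP.wordLen (a : ℕ) : SP (fun L => (a + 3) * Nat.clog 2 (L + 2)) :=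
  (SP.const (a + 3)).mul (SP.clog.shift 2)

/-- fuel with powers of the word length -/
theorem al_fuel_word {s : ℕ → ℕ} (hs : Tendsto s atTop atTop) (a c k r : ℕ) :
    AL (fun L => c * (L + 1) * 2 ^ (r * Nat.clog 2 L / s L) *
      ((a + 3) * Nat.clog 2 (L + 2)) ^ k) := by
  have h1 : AL (fun N => c * (N + 1)) := by
    have h2 : AL (fun N => (N + 1) * c) := (AL.id.add (SP.const 1).al).mul_sp (SP.const c)
    simpa [mul_comm] using h2
  exact (h1.mul_sp (SP.two_pow_div hs r)).mul_sp ((SP.wordLen a).pow k)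

/-- `∃ N₀` form -/
theorem AL.exists_nat {f : ℕ → ℕ} (hf : AL f) (b : ℕ) {δ : ℝ} (hδ : 0 < δ) :
    ∃ N₀ : ℕ, ∀ N : ℕ, N₀ ≤ N → (f (N + b) : ℝ) ≤ (N : ℝ) ^ (1 + δ) :=
  eventually_atTop.1 (hf.shift b δ hδ)

end logs

section time

open Crest.WordRAM Crest.GraphRAM

theorem uniformProb_le_one {Ω : Type*} [Fintype Ω] (E : Set Ω) :
    Crest.FinProb.uniformProb E ≤ 1 := by
  classical
  unfold Crest.FinProb.uniformProb
  refine div_le_one_of_le₀ ?_ (by positivity)
  exact_mod_cast Finset.card_le_univ _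

theorem step_halted {P : Program} {w : ℕ} {ρ : ℕ → ℕ} {c : Cfg P.numRegs} (h : c.halted = true) :
    step P w ρ c = c := by
  unfold step
  simp [h]

theorem run_halted_mono {P : Program} {w : ℕ} {ρ : ℕ → ℕ} {input : List ℕ} {T T' : ℕ}
    (hT : T ≤ T') (h : (run P w ρ input T).halted = true) : (run P w ρ input T').halted = true := by
  obtain ⟨k, rfl⟩ := Nat.exists_eq_add_of_le hT
  induction k with
  | zero => simpa using h
  | succ k ih =>
    have h1 := ih (Nat.le_add_right _ _)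
    have h2 : run P w ρ input (T + (k + 1)) = step P w ρ (run P w ρ input (T + k)) := by
      unfold run
      rw [← Nat.add_assoc, Function.iterate_succ_apply']
    rw [h2, step_halted h1]
    exact h1

/-- if the run is halted after `T` steps on every stream, the expected time is at most `T` -/
theorem expectedTime_le_of_halted {P : Program} {w : ℕ} {input : List ℕ} {T : ℕ}
    (h : ∀ ρ : ℕ → ℕ, (run P w ρ input T).halted = true) :
    expectedTime P w input ≤ (T : ENNReal) := by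
  unfold expectedTime
  have h0 : ∀ T', T' ∉ Finset.range T →
      ENNReal.ofReal (probAfter P w input T' fun c => c.halted = false) = 0 := by
    intro T' hT'
    have hle : T ≤ T' := by simpa using hT'
    have he : {tab : Fin T' → Fin (2 ^ w) | (run P w (streamOf tab) input T').halted = false} = ∅ := by
      ext tab
      simp [run_halted_mono hle (h (streamOf tab))]
    unfold probAfter
    rw [he]
    simp [Crest.FinProb.uniformProb]
  rw [tsum_eq_sum h0]
  calc ∑ T' ∈ Finset.range T, ENNReal.ofReal (probAfter P w input T' fun c => c.halted = false)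
      ≤ ∑ _T' ∈ Finset.range T, (1 : ENNReal) := by
        refine Finset.sum_le_sum fun T' _ => ?_
        rw [← ENNReal.ofReal_one]
        refine ENNReal.ofReal_le_ofReal ?_
        unfold probAfter
        exact uniformProb_le_one _
    _ = (T : ENNReal) := by simp

theorem length_inp (x y : List ℕ) (ε : ℚ) :
    (stringsInput x y ++ ratWords ε).length = x.length + y.length + (2 + (ratWords ε).length) := by
  simp [stringsInput]
  ring

/-- **the time clause of S0433** from an almost linear fuel `fuel L`, `L` = number of input words: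
it is enough that every run with `N₁ ≤ |x| + |y|` is halted after `fuel L` steps. -/
theorem time_clause (P : Program) (a : ℕ) (ε : ℚ) (fuel : ℕ → ℕ) (hf : AL fuel) (N₁ : ℕ)
    (H : ∀ x y : List ℕ, N₁ ≤ x.length + y.length →
      (∀ s ∈ x ++ y, s < (x.length + y.length + 2) ^ a) → ∀ ρ : ℕ → ℕ,
      (run P ((a + 3) * Nat.clog 2 ((stringsInput x y ++ ratWords ε).length + 2)) ρ
        (stringsInput x y ++ ratWords ε)
        (fuel (stringsInput x y ++ ratWords ε).length)).halted = true) :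
    ∀ δ : ℝ, 0 < δ → ∃ N₀ : ℕ, ∀ x y : List ℕ, N₀ ≤ x.length + y.length →
        (∀ s ∈ x ++ y, s < (x.length + y.length + 2) ^ a) →
        expectedTime P ((a + 3) * Nat.clog 2 ((stringsInput x y ++ ratWords ε).length + 2))
            (stringsInput x y ++ ratWords ε)
          ≤ ENNReal.ofReal (((x.length + y.length : ℕ) : ℝ) ^ (1 + δ)) := by
  intro δ hδ
  obtain ⟨N₀, hN₀⟩ := hf.exists_nat (2 + (ratWords ε).length) hδ
  refine ⟨max N₀ N₁, fun x y hN hs => ?_⟩
  refine (expectedTime_le_of_halted (H x y (le_of_max_le_right hN) hs)).trans ?_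
  rw [← ENNReal.ofReal_natCast]
  refine ENNReal.ofReal_le_ofReal ?_
  rw [length_inp]
  exact hN₀ _ (le_of_max_le_left hN)

end time

end Crest.Agent.R288.Num414
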