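import Crest.Agent.R288.OscW_283
import Crest.Agent.R288.AlgA_45

/-!
# R288: oscillation of the letter losses for the functions of `AlgA_45` (helper283)

* `favg`, `cavg`: floor / ceiling of a weighted average of naturals lies between two of the numbers.
* `Btw.of_ex`: `Btw` from that.
* `dist_npiece`: near pieces are within `2 F(x)/2^sb` of the target pieces.
* `sum_tpiece_le_unt`, `le_unt`: the unit.
-/

set_option autoImplicit false

namespace Crest.Agent.R288.OscA283

open Finset Crest.Agent.R288.Osc68 Crest.Agent.R288.OscW283 Crest.Agent.R288.Alg45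

/-! ### averages of naturals -/

section avg

variable {B : ℕ} {w u : ℕ → ℕ}

theorem exists_ge_of_avg (h : 0 < ∑ z ∈ range B, w z) {q : ℕ}
    (hq : q * ∑ z ∈ range B, w z ≤ ∑ z ∈ range B, w z * u z) : ∃ z < B, q ≤ u z := by
  by_contra hc
  push Not at hc
  have h0 : ∃ z ∈ range B, 0 < w z := by
    by_contra h1
    push Not at h1
    have : ∑ z ∈ range B, w z = 0 := sum_eq_zero fun z hz => by have := h1 z hz; omega
    omega
  have h1 : ∑ z ∈ range B, w z * u z < ∑ z ∈ range B, w z * q := by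
    obtain ⟨z0, hz0, hw0⟩ := h0
    refine sum_lt_sum (fun z hz => Nat.mul_le_mul_left _ (hc z (mem_range.1 hz)).le) ⟨z0, hz0, ?_⟩
    exact Nat.mul_lt_mul_of_pos_left (hc z0 (mem_range.1 hz0)) hw0
  rw [← sum_mul] at h1
  rw [mul_comm] at hq
  omega

theorem exists_le_of_avg (h : 0 < ∑ z ∈ range B, w z) {q : ℕ}
    (hq : ∑ z ∈ range B, w z * u z ≤ q * ∑ z ∈ range B, w z) : ∃ z < B, u z ≤ q := by
  by_contra hc
  push Not at hc
  have h0 : ∃ z ∈ range B, 0 < w z := by
    by_contra h1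
    push Not at h1
    have : ∑ z ∈ range B, w z = 0 := sum_eq_zero fun z hz => by have := h1 z hz; omega
    omega
  have h1 : ∑ z ∈ range B, w z * q < ∑ z ∈ range B, w z * u z := by
    obtain ⟨z0, hz0, hw0⟩ := h0
    refine sum_lt_sum (fun z hz => Nat.mul_le_mul_left _ (hc z (mem_range.1 hz)).le) ⟨z0, hz0, ?_⟩
    exact Nat.mul_lt_mul_of_pos_left (hc z0 (mem_range.1 hz0)) hw0
  rw [← sum_mul] at h1
  rw [mul_comm] at hq
  omega

/-- floor of a weighted average -/
theorem favg (h : 0 < ∑ z ∈ range B, w z) :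
    (∃ z < B, (∑ z ∈ range B, w z * u z) / ∑ z ∈ range B, w z ≤ u z) ∧
      ∃ z < B, u z ≤ (∑ z ∈ range B, w z * u z) / ∑ z ∈ range B, w z := by
  refine ⟨exists_ge_of_avg h (Nat.div_mul_le_self _ _), ?_⟩
  -- the smallest `u z` is a lower bound of the average
  by_contra hc
  push Not at hc
  set q := (∑ z ∈ range B, w z * u z) / ∑ z ∈ range B, w z with hq
  have h1 : (q + 1) * ∑ z ∈ range B, w z ≤ ∑ z ∈ range B, w z * u z := by
    rw [mul_sum]
    refine sum_le_sum fun z hz => ?_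
    rw [mul_comm]
    exact Nat.mul_le_mul_left _ (hc z (mem_range.1 hz))
  have h2 : q + 1 ≤ q := by
    rw [hq]
    exact (Nat.le_div_iff_mul_le h).2 (by rw [← hq]; exact h1)
  omega

/-- ceiling of a weighted average -/
theorem cavg (h : 0 < ∑ z ∈ range B, w z) :
    (∃ z < B, (∑ z ∈ range B, w z * u z + (∑ z ∈ range B, w z) - 1) / ∑ z ∈ range B, w z ≤ u z) ∧
      ∃ z < B, u z ≤ (∑ z ∈ range B, w z * u z + (∑ z ∈ range B, w z) - 1) / ∑ z ∈ range B, w z := by
  have hB : 0 < B := by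
    rcases Nat.eq_zero_or_pos B with h0 | h0
    · subst h0; simp at h
    · exact h0
  set W := ∑ z ∈ range B, w z with hW
  set T := ∑ z ∈ range B, w z * u z with hT
  constructor
  · -- upper bound
    obtain ⟨z1, hz1, hmax⟩ := exists_max_image (range B) u ⟨0, mem_range.2 hB⟩
    refine ⟨z1, mem_range.1 hz1, ?_⟩
    have h1 : T ≤ u z1 * W := by
      rw [hT, hW, mul_sum]
      refine sum_le_sum fun z hz => ?_
      rw [mul_comm]
      exact Nat.mul_le_mul_right _ (hmax z hz)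
    have h2 : T + W - 1 < (u z1 + 1) * W := by
      have : (u z1 + 1) * W = u z1 * W + W := by ring
      omega
    have := (Nat.div_lt_iff_lt_mul h).2 h2
    omega
  · obtain ⟨z1, hz1, h1⟩ := (favg (u := u) h).2
    refine ⟨z1, hz1, h1.trans (Nat.div_le_div_right ?_)⟩
    omega

end avg

/-- `Btw` for natural values -/
theorem btw_of_ex {n B : ℕ} {V : ℕ → ℕ → ℕ → ℕ → ℕ}
    (h1 : ∀ t < n, ∀ p, ∀ a < B, ∀ b < B,
      ∃ z < B, V (t + 1) p a b ≤ V t (2 * p) a z + V t (2 * p + 1) z b)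
    (h2 : ∀ t < n, ∀ p, ∀ a < B, ∀ b < B,
      ∃ z < B, V t (2 * p) a z + V t (2 * p + 1) z b ≤ V (t + 1) p a b) :
    Btw n (fun _ z => z < B) 0 (fun t p a b => (V t p a b : ℝ)) where
  up := by
    intro t ht p _ a b ha hb c hc
    obtain ⟨z, hz, h⟩ := h1 t ht p a ha b hb
    have h' : (V (t + 1) p a b : ℝ) ≤ V t (2 * p) a z + V t (2 * p + 1) z b := by exact_mod_cast h
    have := hc z hz
    linarith
  low := by
    intro t ht p _ a b ha hb c hc
    obtain ⟨z, hz, h⟩ := h2 t ht p a ha b hb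
    have h' : (V t (2 * p) a z : ℝ) + V t (2 * p + 1) z b ≤ V (t + 1) p a b := by exact_mod_cast h
    have := hc z hz
    linarith

/-! ### elementary functions of `AlgA_45` -/

theorem sumR_eq (n : ℕ) (f : ℕ → ℕ) : sumR n f = ∑ z ∈ range n, f z := by
  unfold sumR
  induction n with
  | zero => simp
  | succ n ih => rw [List.range_succ, List.map_append, List.sum_append, ih, sum_range_succ]; simp

theorem argR_lt {n : ℕ} (hn : 0 < n) (f : ℕ → ℕ) : argR n f < n := by
  unfold argR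
  have : ∀ (l : List ℕ) (m : ℕ), (∀ a ∈ l, a < n) → m < n →
      l.foldl (fun m a => if f a < f m then a else m) m < n := by
    intro l
    induction l with
    | nil => intro m _ hm; simpa using hm
    | cons a l ih =>
      intro m hl hm
      rw [List.foldl_cons]
      refine ih _ (fun b hb => hl b (List.mem_cons_of_mem _ hb)) ?_
      split
      · exact hl a List.mem_cons_self
      · exact hm
  exact this _ 0 (fun a ha => List.mem_range.1 ha) hn

theorem minR_mem {B : ℕ} (hB : 0 < B) (u : ℕ → ℕ) : ∃ z < B, minR B u = u z := by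
  unfold minR
  have : ∀ (l : List ℕ) (m : ℕ), (∀ a ∈ l, a < B) → (∃ z < B, m = u z) →
      ∃ z < B, l.foldl (fun m a => min m (u a)) m = u z := by
    intro l
    induction l with
    | nil => intro m _ hm; simpa using hm
    | cons a l ih =>
      intro m hl hm
      rw [List.foldl_cons]
      refine ih _ (fun b hb => hl b (List.mem_cons_of_mem _ hb)) ?_
      rcases le_total m (u a) with h | h
      · rw [min_eq_left h]; exact hm
      · rw [min_eq_right h]; exact ⟨a, hl a List.mem_cons_self, rfl⟩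
  exact this _ _ (fun a ha => List.mem_range.1 ha) ⟨0, hB, rfl⟩

/-- oscillation = bound of the excess over the minimum -/
theorem excess_le {B : ℕ} (hB : 0 < B) {u : ℕ → ℕ} {C : ℝ}
    (h : ∀ z < B, ∀ z' < B, (u z : ℝ) ≤ u z' + C) {z : ℕ} (hz : z < B) :
    ((u z - minR B u : ℕ) : ℝ) ≤ C := by
  obtain ⟨z', hz', e⟩ := minR_mem hB u
  rw [e]
  have h1 := h z hz z' hz'
  have h2 := h z hz z hz
  rcases le_total (u z') (u z) with h3 | h3
  · rw [Nat.cast_sub h3]; linarith
  · rw [Nat.sub_eq_zero_of_le h3]; push_cast; linarith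

/-- the same in natural numbers, `C = c U`, `c * gn * g ≤ gd` -/
theorem excess_nat {B gn gd g U : ℕ} (hB : 0 < B) {u : ℕ → ℕ} {c : ℝ}
    (hc : c * (gn * g) ≤ gd)
    (h : ∀ z < B, ∀ z' < B, (u z : ℝ) ≤ u z' + c * U) {z : ℕ} (hz : z < B) :
    gn * (u z - minR B u) * g ≤ gd * U := by
  have h1 := excess_le hB h hz
  have h2 : ((gn * (u z - minR B u) * g : ℕ) : ℝ) ≤ ((gd * U : ℕ) : ℝ) := by
    push_cast
    calc (gn : ℝ) * ((u z - minR B u : ℕ) : ℝ) * g = ((u z - minR B u : ℕ) : ℝ) * (gn * g) := by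
          ring
      _ ≤ c * U * (gn * g) := mul_le_mul_of_nonneg_right h1 (by positivity)
      _ = c * (gn * g) * U := by ring
      _ ≤ gd * U := mul_le_mul_of_nonneg_right hc (Nat.cast_nonneg _)
  exact_mod_cast h2

variable (P : Par) (F : St → ℕ) (κ : ℕ) (x : St)

theorem WA_pos : 0 < WA P κ := Nat.succ_pos _

theorem tgt_lt (q : ℕ) : tgt P F κ x q < WA P κ := argR_lt (WA_pos P κ) _

theorem rad_mul_le : rad P F κ x * gst P κ ≤ F x / 2 ^ P.sb := Nat.div_mul_le_self _ _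

/-- letters of the near menus are within `rad` of the target -/
theorem near_tgt {q z : ℕ} (hz : z < 2 * rad P F κ x + 1) :
    |(near P F κ x q z : ℤ) - tgt P F κ x q| ≤ rad P F κ x := by
  have h1 := tgt_lt P F κ x q
  unfold Alg45.near
  rw [abs_le]
  constructor <;> omega

/-- `pos` is 1-Lipschitz in steps of the grid -/
theorem pos_sub (a c : ℕ) : (pos P κ x a - pos P κ x c).natAbs
    ≤ ((a : ℤ) - c).natAbs * gst P κ := by
  unfold pos
  have e : ((a : ℤ) - c).natAbs * gst P κ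
      = (wlo P κ x + a * (gst P κ : ℤ) - (wlo P κ x + c * (gst P κ : ℤ))).natAbs := by
    have : wlo P κ x + a * (gst P κ : ℤ) - (wlo P κ x + c * (gst P κ : ℤ))
        = ((a : ℤ) - c) * (gst P κ : ℤ) := by ring
    rw [this, Int.natAbs_mul, Int.natAbs_natCast]
  rw [e]
  generalize wlo P κ x + a * (gst P κ : ℤ) = u
  generalize wlo P κ x + c * (gst P κ : ℤ) = v
  omega

theorem cut_near (q z : ℕ) (hz : z < 2 * rad P F κ x + 1) :
    (cut P κ x q (near P F κ x q z) - cut P κ x q (tgt P F κ x q)).natAbs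
      ≤ rad P F κ x * gst P κ := by
  unfold cut
  split
  · simp
  · split
    · simp
    · have h1 := near_tgt P F κ x (q := q) hz
      refine (pos_sub P κ x _ _).trans (Nat.mul_le_mul_right _ ?_)
      have h2 : |(near P F κ x q z : ℤ) - tgt P F κ x q| =
          (((near P F κ x q z : ℤ) - tgt P F κ x q).natAbs : ℤ) := (Int.natCast_natAbs _).symm
      rw [h2] at h1
      exact_mod_cast h1

/-- **near pieces are close to the target pieces** -/
theorem dist_npiece (q : ℕ) {a b : ℕ} (ha : a < 2 * rad P F κ x + 1)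
    (hb : b < 2 * rad P F κ x + 1) :
    dist (npiece P F κ x q a b) (tpiece P F κ x q) ≤ 2 * (F x / 2 ^ P.sb) := by
  have h1 := cut_near P F κ x q a ha
  have h2 := cut_near P F κ x (q + 1) b hb
  have h3 := rad_mul_le P F κ x
  unfold Alg45.dist npiece tpiece Alg45.piece
  dsimp only
  omega

theorem dist_npiece_real (q : ℕ) {a b : ℕ} (ha : a < 2 * rad P F κ x + 1)
    (hb : b < 2 * rad P F κ x + 1) :
    (dist (npiece P F κ x q a b) (tpiece P F κ x q) : ℝ) ≤ 2 * ((1 / 2 ^ P.sb) * F x) := by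
  have h1 := dist_npiece P F κ x q ha hb
  have h2 : ((F x / 2 ^ P.sb : ℕ) : ℝ) ≤ (F x : ℝ) / ((2 ^ P.sb : ℕ) : ℝ) := Nat.cast_div_le
  have h3 : (dist (npiece P F κ x q a b) (tpiece P F κ x q) : ℝ)
      ≤ 2 * ((F x / 2 ^ P.sb : ℕ) : ℝ) := by exact_mod_cast h1
  have e : (F x : ℝ) / ((2 ^ P.sb : ℕ) : ℝ) = 1 / 2 ^ P.sb * F x := by push_cast; ring
  rw [e] at h2
  linarith

/-- the unit bounds the plan values of the target pieces -/
theorem sum_tpiece_le_unt (t p : ℕ) :
    ∑ q ∈ blk t p, (F (tpiece P F κ x q) : ℝ) ≤ unt P F κ x t p := by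
  have h1 : ∑ q ∈ blk t p, F (tpiece P F κ x q) ≤ unt P F κ x t p := by
    unfold unt
    rw [sumR_eq]
    have : ∑ q ∈ blk t p, F (tpiece P F κ x q)
        = ∑ i ∈ range (2 ^ t), F (tpiece P F κ x (p * 2 ^ t + i)) := by
      unfold blk
      rw [sum_Ico_eq_sum_range]
      have : (p + 1) * 2 ^ t - p * 2 ^ t = 2 ^ t := by
        rw [add_mul, one_mul, Nat.add_sub_cancel_left]
      rw [this]
    rw [this, add_assoc]
    exact Nat.le_add_right _ _
  exact_mod_cast h1

/-- `F x ≤ N * unit` -/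
theorem le_unt (t p : ℕ) : (F x : ℝ) ≤ 2 ^ P.n * unt P F κ x t p := by
  have h1 : F x ≤ 2 ^ P.n * unt P F κ x t p := by
    have h0 : 0 < 2 ^ P.n := by positivity
    have h2 : F x / P.N + 1 ≤ unt P F κ x t p := by unfold unt; omega
    have h3 : F x < (F x / P.N + 1) * P.N := by
      have : 0 < P.N := h0
      exact Nat.lt_div_mul_add this |>.trans_eq (by ring)
    have h4 : (F x / P.N + 1) * P.N ≤ unt P F κ x t p * P.N := Nat.mul_le_mul_right _ h2
    have : P.N = 2 ^ P.n := rfl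
    rw [this] at h3 h4
    rw [mul_comm]
    omega
  exact_mod_cast h1

/-- **OSC for the near menus of `AlgA_45`**: `V` = values of one rank at the inner nodes (`V 0` = end
table `Xn` of the rank), between the losses of the letters; `Xn` close to `Rr`, `Rr` Lipschitz up to
`b F`, `F` Lipschitz up to the factor `Λ`; additive constants `c1, c2, c3` small against `F x/2^sb`. -/
theorem osc_npiece {V : ℕ → ℕ → ℕ → ℕ → ℕ}
    (hV : Btw P.n (fun _ z => z < 2 * rad P F κ x + 1) 0 (fun t p a b => (V t p a b : ℝ)))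
    {Xn : St → ℕ} {Rr : St → ℝ} {b ν Λ c1 c2 c3 : ℝ} (hb : 0 ≤ b) (hν : 0 ≤ ν) (hΛ : 1 ≤ Λ)
    (hβ1 : (b + ν) * Λ ≤ 1) (hc1 : 0 ≤ c1) (hc2 : 0 ≤ c2) (hc3 : 0 ≤ c3)
    (hc : c1 + c2 + (b + ν) * c3 ≤ 2 * ((1 / 2 ^ P.sb) * F x))
    (hE : ∀ q < 2 ^ P.n, ∀ a < 2 * rad P F κ x + 1, ∀ c < 2 * rad P F κ x + 1,
      V 0 q a c = Xn (npiece P F κ x q a c))
    (hX : ∀ q < 2 ^ P.n, ∀ a < 2 * rad P F κ x + 1, ∀ c < 2 * rad P F κ x + 1,
      |(Xn (npiece P F κ x q a c) : ℝ) - Rr (npiece P F κ x q a c)|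
        ≤ ν * F (npiece P F κ x q a c) + c1)
    (hR : ∀ q < 2 ^ P.n, ∀ a < 2 * rad P F κ x + 1, ∀ c < 2 * rad P F κ x + 1,
      |Rr (npiece P F κ x q a c) - Rr (tpiece P F κ x q)|
        ≤ dist (npiece P F κ x q a c) (tpiece P F κ x q)
          + b * max (F (npiece P F κ x q a c) : ℝ) (F (tpiece P F κ x q)) + c2)
    (hF : ∀ q < 2 ^ P.n, ∀ a < 2 * rad P F κ x + 1, ∀ c < 2 * rad P F κ x + 1,
      (F (npiece P F κ x q a c) : ℝ) ≤ Λ * (F (tpiece P F κ x q)
        + dist (npiece P F κ x q a c) (tpiece P F κ x q)) + c3)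
    {t p : ℕ} (ht : t < P.n) (hp : p < 2 ^ (P.n - (t + 1))) {a c z z' : ℕ}
    (ha : a < 2 * rad P F κ x + 1) (hc' : c < 2 * rad P F κ x + 1) (hz : z < 2 * rad P F κ x + 1)
    (hz' : z' < 2 * rad P F κ x + 1) :
    (V t (2 * p) a z : ℝ) + V t (2 * p + 1) z c ≤ V t (2 * p) a z' + V t (2 * p + 1) z' c
      + (16 * 4 ^ P.n * (1 / 2 ^ P.sb) + 2 * ((b + ν) * Λ)) * unt P F κ x (t + 1) p := by
  have h := osc_unit (Y := St) (ds := fun y z => (dist y z : ℝ)) (X := fun y => (Xn y : ℝ))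
    (R := Rr) (F := fun y => (F y : ℝ)) (y := npiece P F κ x) (zs := tpiece P F κ x)
    (d := (1 / 2 ^ P.sb) * F x) (D := 2 * (1 / 2 ^ P.sb) * F x) (σ := 2 * (1 / 2 ^ P.sb))
    (Fx := F x) (U := unt P F κ x (t + 1) p) (c1 := c1) (c2 := c2) (c3 := c3)
    hV (fun q hq a c ha hc => by exact_mod_cast hE q hq a ha c hc) hb hν hΛ hβ1 (by positivity)
    hc1 hc2 hc3 (by positivity) (by linarith) le_rfl (fun _ _ => Nat.cast_nonneg _)
    (fun q _ a c ha hc => ⟨Nat.cast_nonneg _, dist_npiece_real P F κ x q ha hc⟩)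
    (fun q hq a c ha hc => hX q hq a ha c hc) (fun q hq a c ha hc => hR q hq a ha c hc)
    (fun q hq a c ha hc => hF q hq a ha c hc) ht hp ha hc' hz hz'
    (sum_tpiece_le_unt P F κ x (t + 1) p) (le_unt P F κ x (t + 1) p) (Nat.cast_nonneg _)
  have e : 8 * 4 ^ P.n * (2 * (1 / 2 ^ P.sb : ℝ)) = 16 * 4 ^ P.n * (1 / 2 ^ P.sb) := by ring
  rw [e] at h
  simpa using h

/-! ### the hedge values of `AlgA_45` lie between the losses -/

theorem fac_pos {gn gd U x : ℕ} (hgd : 0 < gd) (hU : 0 < U) : 0 < fac gn gd U x := by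
  unfold fac
  have h : 0 < gd * U := Nat.mul_pos hgd hU
  have h1 : min (gd * U) (2 * gn * x) ≤ gd * U := min_le_left _ _
  have h2 : 2 * gd * U = gd * U + gd * U := by ring
  omega

theorem wts_pos {gn gd B U : ℕ} {w0 : ℕ → ℕ} {us : ℕ → ℕ → ℕ} (hgd : 0 < gd) (hU : 0 < U)
    {z : ℕ} (hw : 0 < w0 z) (i : ℕ) : 0 < wts gn gd B U w0 us i z := by
  induction i with
  | zero => exact hw
  | succ i ih => exact Nat.mul_pos ih (fac_pos hgd hU)

/-- the value of a rank is between two losses of the rank -/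
theorem hv_between {gn gd B U : ℕ} {w0 : ℕ → ℕ} {us : ℕ → ℕ → ℕ} (hB : 0 < B) (hgd : 0 < gd)
    (hU : 0 < U) (hw : ∀ z < B, 0 < w0 z) (i : ℕ) :
    (∃ z < B, hv gn gd B U w0 us i ≤ us i z) ∧ ∃ z < B, us i z ≤ hv gn gd B U w0 us i := by
  have h0 : 0 < ∑ z ∈ range B, wts gn gd B U w0 us i z :=
    sum_pos (fun z hz => wts_pos hgd hU (hw z (mem_range.1 hz)) i) ⟨0, mem_range.2 hB⟩
  have e : hv gn gd B U w0 us i
      = (∑ z ∈ range B, wts gn gd B U w0 us i z * us i z
          + (∑ z ∈ range B, wts gn gd B U w0 us i z) - 1)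
        / ∑ z ∈ range B, wts gn gd B U w0 us i z := by
    unfold hv cdiv
    rw [sumR_eq, sumR_eq]
    congr 1
    omega
  rw [e]
  exact cavg h0

/-- **`Btw` for the in-window DP of every rank** -/
theorem btw_VV {γ B n : ℕ} {U : ℕ → ℕ → ℕ} {E : ℕ → ℕ → ℕ → ℕ → ℕ} (hB : 0 < B)
    (hU : ∀ t p, 0 < U t p) (i : ℕ) :
    Btw n (fun _ z => z < B) 0 (fun t p a b => (VV γ B U E t i p a b : ℝ)) :=
  btw_of_ex (V := fun t p a b => VV γ B U E t i p a b)
    (fun t _ p a _ b _ => by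
      have h := (hv_between (gn := γ) (gd := 1) (B := B) (U := U (t + 1) p) (w0 := fun _ => 1)
        (us := fun i' z => VV γ B U E t i' (2 * p) a z + VV γ B U E t i' (2 * p + 1) z b)
        hB one_pos (hU _ _) (fun _ _ => one_pos) i).1
      simpa [VV] using h)
    (fun t _ p a _ b _ => by
      have h := (hv_between (gn := γ) (gd := 1) (B := B) (U := U (t + 1) p) (w0 := fun _ => 1)
        (us := fun i' z => VV γ B U E t i' (2 * p) a z + VV γ B U E t i' (2 * p + 1) z b)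
        hB one_pos (hU _ _) (fun _ _ => one_pos) i).2
      simpa [VV] using h)

theorem nlet_pos : 0 < nlet P F κ x := Nat.succ_pos _

theorem unt_pos (t p : ℕ) : 0 < unt P F κ x t p := Nat.succ_pos _

/-- `Btw` for the calm values -/
theorem btw_calm (E : ℕ → ℕ → ℕ → ℕ → ℕ) (i : ℕ) :
    Btw P.n (fun _ z => z < nlet P F κ x) 0
      (fun t p a b => (VV P.γ (nlet P F κ x) (unt P F κ x) E t i p a b : ℝ)) :=
  btw_VV (nlet_pos P F κ x) (unt_pos P F κ x) i

end Crest.Agent.R288.OscA283
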