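import Crest.Agent.R288.RegD_441
import Crest.Agent.R288.NoFlag_326
import Crest.Agent.R288.AlgA_45

/-!
# R288 [WindowReg] (helper441), part E: (A9) NEAR for `Alg45` (ALG v2)

`numE` = end table of the near menus (pair numbers of all ranks), `calmN i` = calm number of rank `i`.

* `wts_eq`, `hv_node` : `Alg45.wts / hv` = `RegA441.w2` / a `RegD441.Node`;
* `VV_congr`, `calm_eq`, `modal_eq` : with `S := X k` the calm value is `calmN`;
* `Vst_le_OP` : the exact optimum over all grid staircases is at most the optimum over the near menus;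
* `sum_unt_le` : sum of the units `≤ (n Creg + 1) F + 2^n` at regular states;
* **`near_body`** : for every near staircase `cs`
  `∑_k bodyNum (numbers of rank k) ≤ ∑_k ∑_q numSt (X k) (npiece q (cs q) (cs (q+1))) + Reg`.
-/

set_option autoImplicit false

namespace Crest.Agent.R288.RegE441

open Finset Crest.Agent.R288.RegA441 Crest.Agent.R288.RegB441 Crest.Agent.R288.RegD441
open Crest.Agent.R288.Osc68 (blk blk_zero sum_blk_succ card_blk)
open Crest.Agent.R288.Alg45 (Par St minR maxR sumR cdiv numSt hull Vst piece cut pos WA fac wts hv VV tgt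
  tpiece unt rad npiece nlet regular Wm wild calm modal bodyNum adm R1)

/-! ### elementary -/

theorem minR_eq (n : ℕ) (f : ℕ → ℕ) : minR n f = mn n f := rfl

theorem sumR_eq (n : ℕ) (f : ℕ → ℕ) : sumR n f = ∑ i ∈ range n, f i := by
  unfold sumR
  induction n with
  | zero => simp
  | succ n ih => rw [List.range_succ, List.map_append, List.sum_append, ih, sum_range_succ]; simp

theorem le_maxR {n a : ℕ} (f : ℕ → ℕ) (h : a < n) : f a ≤ maxR n f := by
  unfold maxR
  have key : ∀ (l : List ℕ) (c : ℕ), c ≤ l.foldl (fun m a => max m (f a)) c ∧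
      ∀ b ∈ l, f b ≤ l.foldl (fun m a => max m (f a)) c := by
    intro l
    induction l with
    | nil => intro c; exact ⟨le_rfl, fun b hb => by simp at hb⟩
    | cons b l ih =>
      intro c
      obtain ⟨h1, h2⟩ := ih (max c (f b))
      refine ⟨(le_max_left _ _).trans h1, fun b' hb => ?_⟩
      rcases List.mem_cons.1 hb with rfl | h
      · exact (le_max_right _ _).trans h1
      · exact h2 b' h
  exact (key _ _).2 a (List.mem_range.2 h)

theorem cdiv_le (a : ℕ) {b : ℕ} (hb : 0 < b) : ((cdiv a b : ℕ) : ℝ) ≤ (a : ℝ) / b + 1 := by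
  have h := ceil_near (x := a) hb
  have e : cdiv a b = (a + b - 1) / b := by unfold cdiv; congr 1; omega
  rw [e]
  linarith [(abs_le.1 h).2]

theorem wts_eq (gn gd B U : ℕ) (w0 : ℕ → ℕ) (us : ℕ → ℕ → ℕ) (i : ℕ) :
    wts gn gd B U w0 us i = w2 gn (gd * U) B w0 us i := by
  induction i with
  | zero => rfl
  | succ i ih =>
    funext z
    show wts gn gd B U w0 us i z * fac gn gd U (us i z - minR B (us i))
      = w2 gn (gd * U) B w0 us i z * fc2 gn (gd * U) (us i z - mn B (us i))
    rw [ih]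
    congr 1
    unfold fac fc2
    rw [mul_assoc 2 gd U]
    rfl

/-- `hv` is a node value -/
theorem hv_node {gn gd B U : ℕ} {w0 : ℕ → ℕ} {us : ℕ → ℕ → ℕ} (hD : 0 < gd * U) (hB : 0 < B)
    (hw : ∀ z < B, 0 < w0 z) (k : ℕ) :
    Node gn (gd * U) B w0 us k (hv gn gd B U w0 us k) := by
  have h := cl_node (gn := gn) (u := us) hD hB hw k
  have hp := sum_w2_pos (gn := gn) (u := us) hD hB hw k
  have e : hv gn gd B U w0 us k = (∑ z ∈ range B, w2 gn (gd * U) B w0 us k z * us k z
      + (∑ z ∈ range B, w2 gn (gd * U) B w0 us k z) - 1)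
      / ∑ z ∈ range B, w2 gn (gd * U) B w0 us k z := by
    unfold hv cdiv
    rw [sumR_eq, sumR_eq, wts_eq]
    congr 1
    omega
  rw [e]
  exact h

theorem wts_congr {gn gd B U : ℕ} {w0 : ℕ → ℕ} {us us' : ℕ → ℕ → ℕ} (i : ℕ)
    (h : ∀ i' < i, ∀ z, us i' z = us' i' z) : wts gn gd B U w0 us i = wts gn gd B U w0 us' i := by
  induction i with
  | zero => rfl
  | succ i ih =>
    have e : us i = us' i := funext fun z => h i (by omega) z
    funext z
    show wts gn gd B U w0 us i z * fac gn gd U (us i z - minR B (us i))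
      = wts gn gd B U w0 us' i z * fac gn gd U (us' i z - minR B (us' i))
    rw [ih fun i' hi' => h i' (by omega), e]

theorem hv_congr' {gn gd B U : ℕ} {w0 : ℕ → ℕ} {us us' : ℕ → ℕ → ℕ} (i : ℕ)
    (h : ∀ i' ≤ i, ∀ z, us i' z = us' i' z) : hv gn gd B U w0 us i = hv gn gd B U w0 us' i := by
  unfold hv
  rw [wts_congr i fun i' hi' => h i' hi'.le, funext fun z => h i le_rfl z]

theorem VV_congr {γ B : ℕ} {U : ℕ → ℕ → ℕ} {E E' : ℕ → ℕ → ℕ → ℕ → ℕ} (t : ℕ) :
    ∀ i, (∀ i' ≤ i, ∀ q a b, E i' q a b = E' i' q a b) → ∀ p a b,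
      VV γ B U E t i p a b = VV γ B U E' t i p a b := by
  induction t with
  | zero => intro i h p a b; exact h i le_rfl p a b
  | succ t ih =>
    intro i h p a b
    show hv γ 1 B (U (t + 1) p) (fun _ => 1) _ i = hv γ 1 B (U (t + 1) p) (fun _ => 1) _ i
    refine hv_congr' i fun i' hi' z => ?_
    rw [ih i' (fun j hj => h j (hj.trans hi')) _ _ _, ih i' (fun j hj => h j (hj.trans hi')) _ _ _]

/-! ### the window of a state -/

variable (P : Par) (F : St → ℕ) (X : ℕ → ℕ → St → ℕ) (κ : ℕ) (x : St)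

/-- end table of the near menus: pair numbers of rank `i` -/
def numE (i q a b : ℕ) : ℕ := numSt P F κ (X i) (npiece P F κ x q a b)

/-- node values of all ranks, numbers only -/
def VN (t k p a b : ℕ) : ℕ := VV P.γ (nlet P F κ x) (unt P F κ x) (numE P F X κ x) t k p a b

/-- calm number of rank `i` -/
def calmN (i : ℕ) : ℕ := VN P F X κ x P.n i 0 0 0

theorem calm_eq {k i : ℕ} (hi : i ≤ k) : calm P F X k (fun _ => X k) κ x i = calmN P F X κ x i := by
  unfold calm calmN VN
  refine VV_congr _ i (fun i' hi' q a b => ?_) 0 0 0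
  unfold numE
  by_cases h : i' < k
  · rw [if_pos h]
  · have : i' = k := by omega
    rw [if_neg h, this]

/-- losses of the root decision -/
def rootU (i z : ℕ) : ℕ := if z = 0 then calmN P F X κ x i else wild P F X κ x i

/-- the modal number of rank `k` -/
def modN (k : ℕ) : ℕ :=
  hv 1 P.um 2 (F x + 1) (fun z => if z = 0 then P.pm else 1) (rootU P F X κ x) k

theorem modal_eq (k : ℕ) : modal P F X k (fun _ => X k) κ x = modN P F X κ x k := by
  unfold modal modN
  refine hv_congr' k fun i hi z => ?_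
  unfold rootU
  rw [calm_eq P F X κ x hi]

theorem unt_pos (t p : ℕ) : 0 < unt P F κ x t p := Nat.succ_pos _

theorem nlet_pos : 0 < nlet P F κ x := by unfold nlet; omega

theorem VN_node (t k p a b : ℕ) :
    Node P.γ (1 * unt P F κ x (t + 1) p) (nlet P F κ x) (fun _ => 1)
      (loss (VN P F X κ x) t p a b) k (VN P F X κ x (t + 1) k p a b) := by
  have h := hv_node (gn := P.γ) (gd := 1) (B := nlet P F κ x) (U := unt P F κ x (t + 1) p)
    (w0 := fun _ => 1) (us := loss (VN P F X κ x) t p a b)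
    (by rw [one_mul]; exact unt_pos P F κ x _ _) (nlet_pos P F κ x) (fun _ _ => one_pos) k
  exact h

/-! ### staircases -/

theorem WA_pos : 0 < WA P κ := Nat.succ_pos _

theorem near_lt (q a : ℕ) : Alg45.near P F κ x q a < WA P κ := by
  unfold Alg45.near
  have := WA_pos P κ
  omega

theorem D_le_path {A : ℕ} {T : ℕ → ℕ → ℕ → ℕ} (p : ℕ → ℕ) (j : ℕ) (hp : ∀ q < j, p q < A) :
    Alg45.D A T j (p j) ≤ ∑ q ∈ range j, T q (p q) (p (q + 1)) := by
  induction j with
  | zero => simp [Alg45.D]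
  | succ j ih =>
    rw [sum_range_succ]
    have h1 : Alg45.D A T (j + 1) (p (j + 1)) ≤ Alg45.D A T j (p j) + T j (p j) (p (j + 1)) :=
      mn_le (fun a => Alg45.D A T j a + T j a (p (j + 1))) (hp j (by omega))
    have h2 := ih fun q hq => hp q (by omega)
    omega

/-- the optimum over all grid staircases is at most every near staircase -/
theorem Vst_le_near (f : St → ℕ) (cs : ℕ → ℕ) :
    Vst P κ x f ≤ ∑ q ∈ range (2 ^ P.n), f (npiece P F κ x q (cs q) (cs (q + 1))) := by
  set p : ℕ → ℕ := fun q => if q = P.N then 0 else Alg45.near P F κ x q (cs q) with hp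
  have hN : P.N = 2 ^ P.n := rfl
  have h1 := D_le_path (A := WA P κ) (T := fun q a b => f (piece P κ x q a b)) p P.N
    (fun q hq => by
      simp only [hp]
      rw [if_neg hq.ne]
      exact near_lt P F κ x q _)
  have h2 : p P.N = 0 := by simp [hp]
  rw [h2] at h1
  refine (show Vst P κ x f ≤ _ from h1).trans (le_of_eq ?_)
  rw [hN]
  refine sum_congr rfl fun q hq => ?_
  have hq' : q < P.N := by rw [hN]; exact mem_range.1 hq
  have e : piece P κ x q (p q) (p (q + 1)) = npiece P F κ x q (cs q) (cs (q + 1)) := by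
    unfold npiece piece
    have e1 : p q = Alg45.near P F κ x q (cs q) := by simp only [hp]; rw [if_neg hq'.ne]
    have e2 : cut P κ x (q + 1) (p (q + 1))
        = cut P κ x (q + 1) (Alg45.near P F κ x (q + 1) (cs (q + 1))) := by
      by_cases h : q + 1 = P.N
      · unfold cut
        rw [if_neg (by omega), if_pos h, if_neg (by omega), if_pos h]
      · simp only [hp]
        rw [if_neg h]
    rw [e1, e2]
  show f (piece P κ x q (p q) (p (q + 1))) = _
  rw [e]

/-- the exact optimum over all grid staircases is at most the optimum over the near menus -/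
theorem Vst_le_OP {f : St → ℕ} {k : ℕ}
    (hf : ∀ q < 2 ^ P.n, ∀ a b, f (npiece P F κ x q a b) ≤ numE P F X κ x k q a b) :
    Vst P κ x f ≤ OP (nlet P F κ x) (numE P F X κ x) P.n k 0 0 0 := by
  obtain ⟨cs, _, _, _, hc⟩ := OP_attained (E := numE P F X κ x) (nlet_pos P F κ x) k P.n 0 0 0
  rw [← hc]
  refine (Vst_le_near P F κ x f cs).trans ?_
  unfold cost
  have : blk P.n 0 = range (2 ^ P.n) := by unfold blk; simp [Nat.Ico_zero_eq_range]
  rw [this]
  exact sum_le_sum fun q hq => hf q (mem_range.1 hq) _ _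

/-- the end letters are irrelevant -/
theorem numE_zero (i a b a' : ℕ) : numE P F X κ x i 0 a b = numE P F X κ x i 0 a' b := by
  unfold numE npiece piece cut
  simp

theorem numE_last (i q a b b' : ℕ) (hq : q + 1 = 2 ^ P.n) :
    numE P F X κ x i q a b = numE P F X κ x i q a b' := by
  have hq' : q + 1 = P.N := hq
  unfold numE npiece piece cut
  simp [hq']

/-! ### the units -/

theorem tgt_lt (q : ℕ) : tgt P F κ x q < WA P κ := by
  unfold tgt Alg45.argR
  have key : ∀ (f : ℕ → ℕ) (l : List ℕ) (c n : ℕ), c < n → (∀ a ∈ l, a < n) →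
      l.foldl (fun m a => if f a < f m then a else m) c < n := by
    intro f l
    induction l with
    | nil => intro c n hc _; exact hc
    | cons b l ih =>
      intro c n hc hl
      refine ih _ n ?_ fun a ha => hl a (List.mem_cons_of_mem _ ha)
      show (if f b < f c then b else c) < n
      split_ifs
      · exact hl b (List.mem_cons_self ..)
      · exact hc
  exact key _ _ _ _ (WA_pos P κ) fun a ha => List.mem_range.1 ha

theorem tpiece_eq (q : ℕ) :
    tpiece P F κ x q = npiece P F κ x q (rad P F κ x) (rad P F κ x) := by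
  have h : ∀ q, Alg45.near P F κ x q (rad P F κ x) = tgt P F κ x q := fun q => by
    unfold Alg45.near
    have := tgt_lt P F κ x q
    omega
  unfold tpiece npiece
  rw [h, h]

theorem sum_tpiece_le (hr : regular P F κ x) :
    ∑ q ∈ range (2 ^ P.n), F (tpiece P F κ x q) ≤ P.Creg * F x := by
  unfold regular at hr
  rw [sumR_eq] at hr
  refine le_trans ?_ hr
  refine sum_le_sum fun q _ => ?_
  rw [tpiece_eq]
  have hlt : rad P F κ x < nlet P F κ x := by unfold nlet; omega
  exact (le_maxR (fun b => F (npiece P F κ x q (rad P F κ x) b)) hlt).trans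
    (le_maxR (fun a => maxR (nlet P F κ x) fun b => F (npiece P F κ x q a b)) hlt)

theorem sum_unt_le (hr : regular P F κ x) :
    ∑ t ∈ range P.n, ∑ p ∈ blk (P.n - 1 - t) 0, (unt P F κ x (t + 1) p : ℝ)
      ≤ (P.n * P.Creg + 1) * F x + 2 ^ P.n := by
  have h1 : ∀ t p, (unt P F κ x (t + 1) p : ℝ)
      = ∑ q ∈ blk (t + 1) p, (F (tpiece P F κ x q) : ℝ) + ((F x / P.N : ℕ) + 1) := by
    intro t p
    unfold unt
    rw [sumR_eq]
    push_cast
    have : ∑ i ∈ range (2 ^ (t + 1)), (F (tpiece P F κ x (p * 2 ^ (t + 1) + i)) : ℝ)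
        = ∑ q ∈ blk (t + 1) p, (F (tpiece P F κ x q) : ℝ) := by
      unfold blk
      rw [Finset.sum_Ico_eq_sum_range]
      have e : (p + 1) * 2 ^ (t + 1) - p * 2 ^ (t + 1) = 2 ^ (t + 1) := by
        rw [add_mul, one_mul, Nat.add_sub_cancel_left]
      rw [e]
    rw [this]
    ring
  rw [sum_congr rfl fun t _ => sum_congr rfl fun p _ => h1 t p, units_eq]
  have h2 : (∑ q ∈ range (2 ^ P.n), (F (tpiece P F κ x q) : ℝ)) ≤ P.Creg * F x := by
    exact_mod_cast sum_tpiece_le P F κ x hr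
  have h3 : ((F x / P.N : ℕ) : ℝ) ≤ (F x : ℝ) / 2 ^ P.n := by
    have := @Nat.cast_div_le ℝ _ _ _ (F x) P.N
    have e : ((P.N : ℕ) : ℝ) = 2 ^ P.n := by unfold Par.N; push_cast; rfl
    rw [e] at this
    exact this
  have h4 : (0 : ℝ) < 2 ^ P.n := by positivity
  have h5 : (1 : ℝ) ≤ 2 ^ P.n := one_le_pow₀ (by norm_num)
  have hF : (0 : ℝ) ≤ F x := Nat.cast_nonneg _
  have h6 : ((2 : ℝ) ^ P.n - 1) * (((F x / P.N : ℕ) : ℝ) + 1)
      ≤ 2 ^ P.n * ((F x : ℝ) / 2 ^ P.n + 1) :=
    mul_le_mul (by linarith) (by linarith) (by positivity) h4.le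
  have h7 : (2 : ℝ) ^ P.n * ((F x : ℝ) / 2 ^ P.n + 1) = F x + 2 ^ P.n := by
    field_simp
  have h8 : (P.n : ℝ) * ∑ q ∈ range (2 ^ P.n), (F (tpiece P F κ x q) : ℝ)
      ≤ P.n * (P.Creg * F x) := mul_le_mul_of_nonneg_left h2 (Nat.cast_nonneg _)
  linarith

/-! ### upper bound of the calm numbers -/

theorem cdiv_le_nat {a b c : ℕ} (h : a ≤ c * b) (hb : 0 < b) : cdiv a b ≤ c := by
  unfold cdiv
  rw [Nat.div_le_iff_le_mul_add_pred hb]
  calc a + (b - 1) ≤ c * b + (b - 1) := by omega
    _ = b * c + (b - 1) := by rw [mul_comm]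

theorem hv_le {gn gd B U : ℕ} {w0 : ℕ → ℕ} {us : ℕ → ℕ → ℕ} (hD : 0 < gd * U) (hB : 0 < B)
    (hw : ∀ z < B, 0 < w0 z) (k : ℕ) {c : ℕ} (h : ∀ z < B, us k z ≤ c) :
    hv gn gd B U w0 us k ≤ c := by
  have hp := sum_w2_pos (gn := gn) (u := us) hD hB hw k
  unfold hv
  rw [sumR_eq, sumR_eq, wts_eq]
  refine cdiv_le_nat ?_ hp
  rw [mul_sum]
  exact sum_le_sum fun z hz => by
    rw [mul_comm c]
    exact Nat.mul_le_mul_left _ (h z (mem_range.1 hz))

theorem VN_le {f : ℕ → ℕ} {k : ℕ}
    (h : ∀ q, ∀ a < nlet P F κ x, ∀ b < nlet P F κ x, numE P F X κ x k q a b ≤ f q) (t : ℕ) :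
    ∀ p, ∀ a < nlet P F κ x, ∀ b < nlet P F κ x, VN P F X κ x t k p a b ≤ ∑ q ∈ blk t p, f q := by
  induction t with
  | zero =>
    intro p a ha b hb
    rw [blk_zero, sum_singleton]
    exact h p a ha b hb
  | succ t ih =>
    intro p a ha b hb
    rw [sum_blk_succ_nat]
    show hv P.γ 1 (nlet P F κ x) (unt P F κ x (t + 1) p) (fun _ => 1) _ k ≤ _
    refine hv_le (by rw [one_mul]; exact unt_pos P F κ x _ _) (nlet_pos P F κ x)
      (fun _ _ => one_pos) k fun z hz => ?_
    exact add_le_add (ih _ a ha z hz) (ih _ z hz b hb)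

/-- **range of the calm numbers** (for the no-clip hypothesis of the root) -/
theorem calmN_le {C C' k : ℕ} (hr : regular P F κ x)
    (h : ∀ q < 2 ^ P.n, ∀ a < nlet P F κ x, ∀ b < nlet P F κ x,
      numE P F X κ x k q a b ≤ C * F (npiece P F κ x q a b) + C') :
    calmN P F X κ x k ≤ C * (P.Creg * F x) + 2 ^ P.n * C' := by
  set M : ℕ → ℕ := fun q => maxR (nlet P F κ x) fun a => maxR (nlet P F κ x) fun b =>
    F (npiece P F κ x q a b) with hM
  set f : ℕ → ℕ := fun q => if q < 2 ^ P.n then C * M q + C' else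
    maxR (nlet P F κ x) fun a => maxR (nlet P F κ x) fun b => numE P F X κ x k q a b with hf
  have h1 := VN_le P F X κ x (f := f) (k := k) (fun q a ha b hb => by
    by_cases hq : q < 2 ^ P.n
    · simp only [hf, if_pos hq]
      have h2 : F (npiece P F κ x q a b) ≤ M q :=
        (le_maxR (fun b => F (npiece P F κ x q a b)) hb).trans
          (le_maxR (fun a => maxR (nlet P F κ x) fun b => F (npiece P F κ x q a b)) ha)
      exact (h q hq a ha b hb).trans (by gcongr)
    · simp only [hf, if_neg hq]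
      exact (le_maxR (fun b => numE P F X κ x k q a b) hb).trans
        (le_maxR (fun a => maxR (nlet P F κ x) fun b => numE P F X κ x k q a b) ha))
    P.n 0 0 (nlet_pos P F κ x) 0 (nlet_pos P F κ x)
  refine (show calmN P F X κ x k ≤ _ from h1).trans ?_
  have hb : blk P.n 0 = range (2 ^ P.n) := by unfold blk; simp [Nat.Ico_zero_eq_range]
  rw [hb]
  have e : ∑ q ∈ range (2 ^ P.n), f q = ∑ q ∈ range (2 ^ P.n), (C * M q + C') :=
    sum_congr rfl fun q hq => by simp only [hf, if_pos (mem_range.1 hq)]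
  rw [e, sum_add_distrib, ← mul_sum, sum_const, card_range, smul_eq_mul]
  have h3 : ∑ q ∈ range (2 ^ P.n), M q ≤ P.Creg * F x := by
    unfold regular at hr
    rw [sumR_eq] at hr
    exact hr
  exact Nat.add_le_add_right (Nat.mul_le_mul_left _ h3) _

/-! ### the near inequality -/

/-- replace the end letters by `0` -/
def fixE (n : ℕ) (cs : ℕ → ℕ) (q : ℕ) : ℕ := if q = 0 ∨ q = 2 ^ n then 0 else cs q

theorem numE_fixE (i q : ℕ) (cs : ℕ → ℕ) (hq : q < 2 ^ P.n) :
    numE P F X κ x i q (fixE P.n cs q) (fixE P.n cs (q + 1)) = numE P F X κ x i q (cs q) (cs (q + 1)) := by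
  have e1 : numE P F X κ x i q (fixE P.n cs q) (fixE P.n cs (q + 1))
      = numE P F X κ x i q (cs q) (fixE P.n cs (q + 1)) := by
    by_cases h : q = 0
    · subst h; exact numE_zero P F X κ x i _ _ _
    · have : fixE P.n cs q = cs q := by unfold fixE; rw [if_neg (by omega)]
      rw [this]
  rw [e1]
  by_cases h : q + 1 = 2 ^ P.n
  · exact numE_last P F X κ x i q _ _ _ h
  · have : fixE P.n cs (q + 1) = cs (q + 1) := by unfold fixE; rw [if_neg (by omega)]
    rw [this]

theorem wild_le (k : ℕ) : wild P F X κ x k ≤ F x := by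
  unfold wild
  have h : ∀ k, Wm (F x) (fun i' => Vst P κ x (hull P F (X i'))) k ≤ F x := by
    intro k
    induction k with
    | zero => exact le_rfl
    | succ k ih => exact (min_le_left _ _).trans ih
  exact h k

/-- **all hypotheses of one near window** -/
structure Hyp (G : ℕ) (cs : ℕ → ℕ) : Prop where
  g0 : 0 < P.g
  gG : P.g * (P.n + 1) ≤ G
  G2 : 2 ≤ G
  γ0 : 0 < P.γ
  um0 : 0 < P.um
  pm0 : 0 < P.pm
  reg : regular P F κ x
  /-- inner letters of the comparator -/
  cs : ∀ q, 0 < q → q < 2 ^ P.n → cs q < nlet P F κ x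
  /-- no clipping at the inner nodes (`OscA283.excess_nat`) -/
  osc : ∀ t < P.n, ∀ p < 2 ^ (P.n - (t + 1)), ∀ a < nlet P F κ x, ∀ b < nlet P F κ x,
    ∀ k < P.K, ∀ z < nlet P F κ x,
    P.γ * (loss (VN P F X κ x) t p a b k z - minR (nlet P F κ x) (loss (VN P F X κ x) t p a b k)) * G
      ≤ 1 * unt P F κ x (t + 1) p
  /-- no clipping at the root -/
  rng : ∀ k < P.K, G * calmN P F X κ x k ≤ P.um * (F x + 1)
  rngF : G * F x ≤ P.um * (F x + 1)
  /-- the hull is at most the pair number -/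
  hull : ∀ k < P.K, ∀ q < 2 ^ P.n, ∀ a b,
    hull P F (X k) (npiece P F κ x q a b) ≤ numE P F X κ x k q a b

/-- regret of one near window -/
noncomputable def Reg : ℝ :=
  P.um * (F x + 1) / P.pm
    + Real.log (nlet P F κ x) / P.γ * ((P.n * P.Creg + 1) * F x + 2 ^ P.n) + F x / P.g

theorem near_mod {G : ℕ} {cs : ℕ → ℕ} (H : Hyp P F X κ x G cs) :
    ∑ k ∈ range P.K, ((1 - 1 / (P.g : ℝ)) * modN P F X κ x k + 1 / (P.g : ℝ) * wild P F X κ x k)
      ≤ ∑ k ∈ range P.K, ∑ q ∈ range (2 ^ P.n), (numE P F X κ x k q (cs q) (cs (q + 1)) : ℝ)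
        + Reg P F κ x + P.K * (2 * 2 ^ P.n + 1) := by
  classical
  have hgR : (1 : ℝ) ≤ P.g := by exact_mod_cast H.g0
  have hpm : (0 : ℝ) < P.pm := by exact_mod_cast H.pm0
  have hγR : (0 : ℝ) < P.γ := by exact_mod_cast H.γ0
  have hD : 0 < P.um * (F x + 1) := Nat.mul_pos H.um0 (Nat.succ_pos _)
  set B := nlet P F κ x with hB
  have hBp : 0 < B := nlet_pos P F κ x
  set OPk : ℕ → ℕ := fun k => OP B (numE P F X κ x) P.n k 0 0 0 with hOPk
  have hOPV := OP_le_V (n := P.n) (K := P.K) (E := numE P F X κ x) (V := VN P F X κ x) hBp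
    (fun _ _ _ _ _ => rfl) (fun t _ k _ p a b => (VN_node P F X κ x t k p a b).low)
  have hOPc : ∀ k < P.K, OPk k ≤ calmN P F X κ x k := fun k hk => hOPV P.n le_rfl k hk 0 0 0
  have hmin : ∀ k < P.K, min (OPk k) (wild P F X κ x k) ≤ mn 2 (rootU P F X κ x k) := by
    intro k hk
    refine le_mn (by norm_num) fun z hz => ?_
    unfold rootU
    split_ifs
    · exact (min_le_left _ _).trans (hOPc k hk)
    · exact min_le_right _ _
  -- the root state
  obtain ⟨crr, c0, c1, c2⟩ := state_two (a := 1) (D := P.um * (F x + 1)) (B := 2) (K := P.K)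
    (w₀ := fun z => if z = 0 then P.pm else 1) (u := rootU P F X κ x) (g := G) (ρ := 1) (z' := 0)
    H.G2 one_pos hD (by norm_num) (by simpa using H.pm0)
    (fun k hk z hz => by
      have h1 : rootU P F X κ x k z - mn 2 (rootU P F X κ x k) ≤ rootU P F X κ x k z :=
        Nat.sub_le _ _
      have h2 : G * rootU P F X κ x k z ≤ P.um * (F x + 1) := by
        unfold rootU
        split_ifs
        · exact H.rng k hk
        · exact (Nat.mul_le_mul_left _ (wild_le P F X κ x k)).trans H.rngF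
      calc 1 * (rootU P F X κ x k z - mn 2 (rootU P F X κ x k)) * G
          ≤ 1 * rootU P F X κ x k z * G := Nat.mul_le_mul_right _ (Nat.mul_le_mul_left _ h1)
        _ = G * rootU P F X κ x k z := by ring
        _ ≤ _ := h2)
    (fun k => (modN P F X κ x k : ℝ))
    (fun k _ => (hv_node (gn := 1) (gd := P.um) (B := 2) (U := F x + 1)
      (w0 := fun z => if z = 0 then P.pm else 1) (us := rootU P F X κ x) hD (by norm_num)
      (fun z _ => by split_ifs; exacts [H.pm0, one_pos]) k).near)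
  -- the regret of the root
  have hlog : Real.log ((∑ z ∈ range 2, (((if z = 0 then P.pm else 1 : ℕ)) : ℝ))
      / ((if (0 : ℕ) = 0 then P.pm else 1 : ℕ) : ℝ)) ≤ 1 / P.pm := by
    have e : (∑ z ∈ range 2, (((if z = 0 then P.pm else 1 : ℕ)) : ℝ))
        / ((if (0 : ℕ) = 0 then P.pm else 1 : ℕ) : ℝ) = 1 + 1 / (P.pm : ℝ) := by
      rw [sum_range_succ, sum_range_one]
      simp
      field_simp
    rw [e]
    have := Real.log_le_sub_one_of_pos (show (0 : ℝ) < 1 + 1 / P.pm by positivity)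
    linarith
  have hlog0 : 0 ≤ Real.log ((∑ z ∈ range 2, (((if z = 0 then P.pm else 1 : ℕ)) : ℝ))
      / ((if (0 : ℕ) = 0 then P.pm else 1 : ℕ) : ℝ)) := by
    refine Real.log_nonneg ?_
    rw [sum_range_succ, sum_range_one]
    simp only [if_true, one_ne_zero, if_false, Nat.cast_one]
    rw [one_le_div hpm]
    linarith
  have hDR : (0 : ℝ) < ((P.um * (F x + 1) : ℕ) : ℝ) := by exact_mod_cast hD
  have hcsB : ∀ q, 0 < q → q < 2 ^ P.n → fixE P.n cs q < B := by
    intro q h1 h2
    unfold fixE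
    rw [if_neg (by omega)]
    exact H.cs q h1 h2
  have hfB : ∀ q, q ≤ 2 ^ P.n → fixE P.n cs q < B := by
    intro q hq
    by_cases h : q = 0 ∨ q = 2 ^ P.n
    · unfold fixE; rw [if_pos h]; exact hBp
    · exact hcsB q (by omega) (by omega)
  have hf0 : fixE P.n cs 0 = 0 := by unfold fixE; simp
  have hfN : fixE P.n cs (2 ^ P.n) = 0 := by unfold fixE; simp
  have main := near_root (n := P.n) (K := P.K) (gs := P.g) (g := G) (gn := P.γ) (gd := 1) (B := B)
    (E := numE P F X κ x) H.g0 H.gG H.G2 H.γ0 one_pos hBp (unt P F κ x) (unt_pos P F κ x)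
    (w := 1) one_pos (VN P F X κ x) (fun _ _ _ _ _ => rfl)
    (fun t _ k _ p a b => VN_node P F X κ x t k p a b) (fixE P.n cs) hcsB
    (fun t ht p hp k hk z hz => by
      have hpow : 2 ^ (P.n - (t + 1)) * 2 ^ (t + 1) = 2 ^ P.n := by
        rw [← pow_add]; congr 1; omega
      have h1 : (p + 1) * 2 ^ (t + 1) ≤ 2 ^ P.n := by
        rw [← hpow]; exact Nat.mul_le_mul_right _ (by omega)
      have h2 : p * 2 ^ (t + 1) ≤ (p + 1) * 2 ^ (t + 1) := Nat.mul_le_mul_right _ (by omega)
      exact H.osc t ht p hp _ (hfB _ (h2.trans h1)) _ (hfB _ h1) k hk z hz)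
    (fun k => (modN P F X κ x k : ℝ)) (fun k => ((min (OPk k) (wild P F X κ x k) : ℕ) : ℝ)) crr
    (((P.um * (F x + 1) : ℕ) : ℝ) / 1 * Real.log ((∑ z ∈ range 2,
      (((if z = 0 then P.pm else 1 : ℕ)) : ℝ)) / ((if (0 : ℕ) = 0 then P.pm else 1 : ℕ) : ℝ))
      + P.K * 1)
    (by positivity) c0
    (fun k hk => by
      have h1 : ((min (OPk k) (wild P F X κ x k) : ℕ) : ℝ) ≤ mn 2 (rootU P F X κ x k) := by
        exact_mod_cast hmin k hk
      linarith [c1 k hk])
    (fun k hk => by
      rw [hf0, hfN]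
      exact_mod_cast min_le_left (OPk k) (wild P F X κ x k))
    (by
      rw [hf0, hfN]
      have e : ∀ k, (rootU P F X κ x k 0 : ℝ) = VN P F X κ x P.n k 0 0 0 := fun k => rfl
      rw [sum_congr rfl fun k _ => e k] at c2
      push_cast at c2 ⊢
      linarith)
  -- the lag
  have hVO : ∀ k < P.K, Vst P κ x (hull P F (X k)) ≤ OPk k := fun k hk =>
    Vst_le_OP P F X κ x fun q hq a b => H.hull k hk q hq a b
  have hlag := NoFlag326.noflag (H := fun k => (modN P F X κ x k : ℝ))
    (W := fun k => (wild P F X κ x k : ℝ))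
    (m := fun k => ((min (OPk k) (wild P F X κ x k) : ℕ) : ℝ)) (F := F x) (e := 0)
    (q := 1 / (P.g : ℝ)) (K := P.K) (by positivity)
    (by
      rw [add_zero]
      exact_mod_cast wild_le P F X κ x 0)
    le_rfl
    (fun k hk => by
      rw [add_zero]
      have h1 : wild P F X κ x (k + 1) ≤ min (OPk k) (wild P F X κ x k) := by
        show min (Wm (F x) (fun i' => Vst P κ x (hull P F (X i'))) k)
          (Vst P κ x (hull P F (X k))) ≤ min (OPk k) (wild P F X κ x k)
        exact le_min ((min_le_right _ _).trans (hVO k hk)) (min_le_left _ _)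
      exact_mod_cast h1)
    (fun _ => Nat.cast_nonneg _) (Nat.cast_nonneg _) main
  refine hlag.trans ?_
  -- collect
  have e0 : ∑ k ∈ range P.K, ∑ q ∈ range (2 ^ P.n),
        (numE P F X κ x k q (fixE P.n cs q) (fixE P.n cs (q + 1)) : ℝ)
      = ∑ k ∈ range P.K, ∑ q ∈ range (2 ^ P.n), (numE P F X κ x k q (cs q) (cs (q + 1)) : ℝ) :=
    sum_congr rfl fun k _ => sum_congr rfl fun q hq => by
      rw [numE_fixE P F X κ x k q cs (mem_range.1 hq)]
  rw [e0]
  have hlogB : 0 ≤ Real.log B := Real.log_nonneg (by exact_mod_cast hBp)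
  have h1 : ((1 : ℕ) : ℝ) / P.γ * Real.log B
        * ∑ t ∈ range P.n, ∑ p ∈ blk (P.n - 1 - t) 0, (unt P F κ x (t + 1) p : ℝ)
      ≤ Real.log B / P.γ * ((P.n * P.Creg + 1) * F x + 2 ^ P.n) := by
    have e : ((1 : ℕ) : ℝ) / P.γ * Real.log B = Real.log B / P.γ := by push_cast; ring
    rw [e]
    exact mul_le_mul_of_nonneg_left (sum_unt_le P F κ x H.reg) (by positivity)
  have h2 : ((P.um * (F x + 1) : ℕ) : ℝ) / 1 * Real.log ((∑ z ∈ range 2,
      (((if z = 0 then P.pm else 1 : ℕ)) : ℝ)) / ((if (0 : ℕ) = 0 then P.pm else 1 : ℕ) : ℝ))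
      ≤ P.um * (F x + 1) / P.pm := by
    rw [div_one]
    calc _ ≤ ((P.um * (F x + 1) : ℕ) : ℝ) * (1 / P.pm) := mul_le_mul_of_nonneg_left hlog hDR.le
      _ = P.um * (F x + 1) / P.pm := by push_cast; ring
  have h3 : 1 / (P.g : ℝ) * ((F x : ℝ) + P.K * 0) = F x / P.g := by ring
  rw [h3]
  unfold Reg
  linarith

/-- the value of the program at a pair, numbers of rank `k` as end values -/
theorem bodyNum_le {leaf : St → Option ℕ} (hadm : adm P F κ x = true) (hleaf : leaf x = none)
    (hR1 : ¬ R1 P F x) (hreg : regular P F κ x) (hg : 0 < P.g) (k : ℕ) :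
    (bodyNum P leaf F X k (fun _ => X k) κ x : ℝ)
      ≤ (1 - 1 / (P.g : ℝ)) * modN P F X κ x k + 1 / (P.g : ℝ) * wild P F X κ x k + 1 := by
  have hgR : (0 : ℝ) < P.g := by exact_mod_cast hg
  have e : bodyNum P leaf F X k (fun _ => X k) κ x
      = cdiv ((P.g - 1) * modN P F X κ x k + wild P F X κ x k) P.g := by
    unfold bodyNum
    rw [if_neg (by simp [hadm]), hleaf]
    simp only
    rw [if_neg (by
      rintro (h | h)
      · exact hR1 h
      · exact h hreg), modal_eq]
  rw [e]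
  refine (cdiv_le _ hg).trans (le_of_eq ?_)
  rw [Nat.cast_add, Nat.cast_mul, Nat.cast_sub hg]
  push_cast
  field_simp

/-- **(A9) NEAR.** -/
theorem near_body {G : ℕ} {cs : ℕ → ℕ} (H : Hyp P F X κ x G cs) {leaf : St → Option ℕ}
    (hadm : adm P F κ x = true) (hleaf : leaf x = none) (hR1 : ¬ R1 P F x) :
    ∑ k ∈ range P.K, (bodyNum P leaf F X k (fun _ => X k) κ x : ℝ)
      ≤ ∑ k ∈ range P.K, ∑ q ∈ range (2 ^ P.n), (numE P F X κ x k q (cs q) (cs (q + 1)) : ℝ)
        + Reg P F κ x + P.K * (2 * 2 ^ P.n + 2) := by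
  have h1 := sum_le_sum (s := range P.K) fun k _ =>
    bodyNum_le P F X κ x hadm hleaf hR1 H.reg H.g0 k
  rw [sum_add_distrib, sum_const, card_range, nsmul_eq_mul] at h1
  have h2 := near_mod P F X κ x H
  linarith

end Crest.Agent.R288.RegE441
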