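import Crest.Agent.R288.OscJ_283
import Crest.Agent.R288.RegE_441
import Crest.Agent.R288.DomB_20
import Crest.Agent.R288.HullB_407

/-!
# R288: all hypotheses of one near window (`RegE441.Hyp`) from `OscR` and numbers (helper283)

* `Num` : the numeric conditions of one near window.
* **`near_hyp`** : `RegE441.Hyp P F X κ x G cs` from `OscR` for all ranks, `Num`, regularity.
-/

set_option autoImplicit false

namespace Crest.Agent.R288.OscC283

open Crest.Agent.R288.Alg45 Crest.Agent.R288.OscI283 Crest.Agent.R288.Dom20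
open Crest.Agent.R288.RegE441 (VN numE calmN Hyp)

/-- the numeric conditions of one near window (`G` = clip, `G ≥ g (n+1)`) -/
structure Num (P : Par) (F : St → ℕ) (κ : ℕ) (x : St) (G : ℕ) (b ν ζ c1 c2 c3 : ℝ) : Prop where
  g0 : 0 < P.g
  gG : P.g * (P.n + 1) ≤ G
  G2 : 2 ≤ G
  γ0 : 0 < P.γ
  um0 : 0 < P.um
  pm0 : 0 < P.pm
  Gum : G ≤ P.um
  r1 : 1 ≤ P.r
  du : 4 * P.Creg ≤ 2 ^ P.du
  β1 : (b + ν) * (1 + ζ) ≤ 1
  /-- additive constants are small against the near radius -/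
  cc : c1 + 2 * c2 + 4 * (2 ^ κ / 2 ^ P.dl) + (b + ν) * c3 ≤ 2 * ((1 / 2 ^ P.sb) * F x)
  /-- no clipping at the inner nodes -/
  osc : (24 * 4 ^ P.n / 2 ^ P.sb + 2 * ((b + ν) * (1 + ζ))) * (P.γ * G) ≤ 1
  /-- no clipping at the root -/
  rng : (G : ℝ) * ((2 + ν) * (P.Creg * F x) + 2 ^ P.n * (c1 + c2 + 1)) ≤ P.um * (F x + 1)

variable {P : Par} {F : St → ℕ} {X : ℕ → ℕ → St → ℕ} {κ I G : ℕ} {x : St} {cs : ℕ → ℕ}
  {Rs : ℕ → St → ℝ} {b ν ζ c1 c2 c3 : ℝ}

/-- **the hypotheses of `RegE441.near_body`** -/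
theorem near_hyp (hR : ∀ k < P.K, OscR P F (Dom P I) (X k) (Rs k) b ν ζ c1 c2 c3)
    (N : Num P F κ x G b ν ζ c1 c2 c3) (hx : Dom P I x) (hi : 1 ≤ x.i)
    (hg : ∀ y, Dom P I y → gst P (cls F y) ∣ P.Dm) (hreg : regular P F κ x)
    (hcls : cls F x ≤ κ + 1) (hcs : ∀ q, 0 < q → q < 2 ^ P.n → cs q < nlet P F κ x) :
    Hyp P F X κ x G cs where
  g0 := N.g0
  gG := N.gG
  G2 := N.G2
  γ0 := N.γ0
  um0 := N.um0
  pm0 := N.pm0
  reg := hreg
  cs := hcs
  osc := fun t ht p hp a ha c hc k hk z hz =>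
    excess_calm hR (κ := κ) (x := x) (fun q hq a _ c _ => hx.npiece N.r1 hi hq F κ a c)
      (fun q hq => hx.tpiece N.r1 hi hq F κ)
      (fun q hq a ha c hc => regular_cls hreg hcls N.du hq ha hc) N.β1 N.cc N.osc
      (E := numE P F X κ x) (fun _ _ _ _ _ _ _ _ => rfl) hk ht hp ha hc hz
  rng := fun k hk => by
    have h1 := calm_le (hR k hk) hreg (fun q hq a _ c _ => hx.npiece N.r1 hi hq F κ a c)
      (E := numE P F X κ x) (i := k) (fun _ _ _ _ _ _ => le_rfl)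
    have h2 : (G : ℝ) * (calmN P F X κ x k : ℝ) ≤ P.um * (F x + 1) :=
      (mul_le_mul_of_nonneg_left h1 (Nat.cast_nonneg _)).trans N.rng
    exact_mod_cast h2
  rngF := (Nat.mul_le_mul N.Gum (Nat.le_succ _))
  hull := fun k _ q hq a c => by
    have hy : Dom P I (npiece P F κ x q a c) := hx.npiece N.r1 hi hq F κ a c
    unfold numE numSt
    split
    · exact HullB407.hull_le_F _ _ _
    · exact HullB407.hull_le_own (hg _ hy) hy.inD

end Crest.Agent.R288.OscC283
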