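import Crest.Agent.R288.OscI_283
import Crest.Agent.R288.ArrLipA_195

/-!
# R288: from the jump inequalities (J) (ArrLipA_195) and (A3) to the oscillation input `OscR` (helper283)

* `JA.lip2` : `|numR y - numR z| ≤ 2 dist + b' max F + (1 + 2c)` for ALL pairs of states of a block,
  `b' = b + 4/2^a1 + 6/2^pb + 5ζ`.
* `JA.num_nonneg`, `JA.num_le` : `0 ≤ numR y ≤ 2 F y + 1 + c`.
* `oscR_of_JA` : `OscR` for one rank from `FL` and `JA` on the blocks of the domain and (A3) at the own pairs.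
-/

set_option autoImplicit false

namespace Crest.Agent.R288.OscJ283

open Crest.Agent.R288.Alg45 Crest.Agent.R288.OscI283 Crest.Agent.R288.ArrLip195

variable {P : Par} {F : St → ℕ} {ζ b c : ℝ} {i j : ℕ} {A R : ℕ → St → ℝ} {e : ℕ → ℝ}

/-- arrival Lipschitz for all pairs of a block, weak form -/
theorem lip2 (h : JA P F A R e i j) (hF : FL P F ζ i j) (ha2 : 5 ≤ P.a2) (hb : 0 ≤ b)
    (hc : 0 ≤ c) (he : ∀ κ, e κ ≤ b * 2 ^ κ + c)
    (hb' : b + 4 / 2 ^ P.a1 + 6 / 2 ^ P.pb + 5 * ζ ≤ 1) {y y' : St} (hy : Blk P i j y)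
    (hy' : Blk P i j y') :
    |numR P F R y - numR P F R y'| ≤ 2 * Alg45.dist y y'
      + (b + 4 / 2 ^ P.a1 + 6 / 2 ^ P.pb + 5 * ζ) * max (F y : ℝ) (F y') + (1 + 2 * c) := by
  have ζ0 := hF.ζ0
  have ζ1 := hF.ζ1
  have e1 : (0 : ℝ) ≤ 4 / 2 ^ P.a1 := by positivity
  have e2 : (0 : ℝ) ≤ 6 / 2 ^ P.pb := by positivity
  have hD : (0 : ℝ) ≤ Alg45.dist y y' := Nat.cast_nonneg _
  have h0 : (0 : ℝ) ≤ max (F y : ℝ) (F y') := le_max_of_le_left (Nat.cast_nonneg _)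
  have h1 := h.abs hF ha2 hb hc he (by linarith) hy hy' (m := max (F y : ℝ) (F y') + Alg45.dist y y')
    ((le_max_left _ _).trans (by linarith)) ((le_max_right _ _).trans (by linarith)) (by linarith)
  have h2 : (b + 4 / 2 ^ P.a1 + 6 / 2 ^ P.pb + 5 * ζ) * (Alg45.dist y y' + 1 : ℝ)
      ≤ 1 * (Alg45.dist y y' + 1 : ℝ) := mul_le_mul_of_nonneg_right hb' (by linarith)
  have h3 : (1 + ζ) * c ≤ 2 * c := mul_le_mul_of_nonneg_right (by linarith) hc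
  nlinarith

/-- the own-label mean is nonnegative -/
theorem num_nonneg (h : JA P F A R e i j) (hF : FL P F ζ i j) {y : St} (hy : Blk P i j y) :
    0 ≤ numR P F R y := by
  obtain ⟨h1, h2⟩ := hF.own_adm hy
  have h3 := h.low (cls F y) (rdn P (cls F y) y) h1 h2 0 (Nat.cast_nonneg _)
    (fun z _ => by positivity)
    (fun κ' z hz pz _ _ _ => add_nonneg (Nat.cast_nonneg _) (h.A0 κ' z hz pz))
  exact add_nonneg (Nat.cast_nonneg _) h3

/-- the own-label mean is at most `2 F + 1 + c` -/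
theorem num_le (h : JA P F A R e i j) (hF : FL P F ζ i j) (ha2 : 5 ≤ P.a2) (hb : 0 ≤ b)
    (hc : 0 ≤ c) (he : ∀ κ, e κ ≤ b * 2 ^ κ + c)
    (hb' : b + 4 / 2 ^ P.a1 + 6 / 2 ^ P.pb + 5 * ζ ≤ 1) {y : St} (hy : Blk P i j y) :
    numR P F R y ≤ 2 * F y + (1 + c) := by
  have ζ0 := hF.ζ0
  have e1 : (0 : ℝ) ≤ 4 / 2 ^ P.a1 := by positivity
  have hFy : (0 : ℝ) ≤ F y := Nat.cast_nonneg _
  have h1 := (h.ok hF ha2).Rn_le (JA.ownD hF hb hc he) (y := y) hy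
  have e3 : 3 * ((2 : ℝ) / 2 ^ P.pb) = 6 / 2 ^ P.pb := by ring
  simp only [jin, JIn.Rn, zero_add, e3] at h1
  have h2 : (ζ + (b + 6 / 2 ^ P.pb)) * (F y : ℝ) ≤ 1 * F y :=
    mul_le_mul_of_nonneg_right (by linarith) hFy
  have h4 : b + 6 / 2 ^ P.pb ≤ 1 := by linarith
  show (Alg45.dist y (rdn P (cls F y) y) : ℝ) + R (cls F y) (rdn P (cls F y) y) ≤ _
  nlinarith

/-- **one rank**: `OscR` from (J) and (A3) -/
theorem oscR_of_JA {Dom : St → Prop} {X : ℕ → St → ℕ} (hb : 0 ≤ b) (hc : 0 ≤ c)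
    (he : ∀ κ, e κ ≤ b * 2 ^ κ + c) (ha2 : 5 ≤ P.a2)
    (hb' : b + 4 / 2 ^ P.a1 + 6 / 2 ^ P.pb + 5 * ζ ≤ 1) (hζ : 0 ≤ ζ)
    (hD : ∀ y, Dom y → inD P y) (hFL : ∀ y, Dom y → FL P F ζ y.i y.j)
    (hJ : ∀ y, Dom y → JA P F A R e y.i y.j)
    (hX : ∀ y, Dom y → R (cls F y) (rdn P (cls F y) y) ≤ X (cls F y) (rdn P (cls F y) y) ∧
      (X (cls F y) (rdn P (cls F y) y) : ℝ) ≤ R (cls F y) (rdn P (cls F y) y)
        + 2 ^ cls F y / 2 ^ P.nb + ((cdiv (2 ^ cls F y) (2 ^ P.nb) : ℕ) + 1)) :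
    OscR P F Dom X (numR P F R) (b + 4 / 2 ^ P.a1 + 6 / 2 ^ P.pb + 5 * ζ) (2 / 2 ^ P.nb) ζ
      4 (1 + 2 * c) 0 where
  b0 := by positivity
  ν0 := by positivity
  ζ0 := hζ
  c1_0 := by norm_num
  c2_0 := by positivity
  c3_0 := le_rfl
  lipF := by
    intro y z hy hz e1 e2
    have h1 := (hFL y hy).lip y z ⟨rfl, rfl, hD y hy⟩ ⟨e1.symm, e2.symm, hD z hz⟩
    simpa using h1
  lipR := fun y z hy hz e1 e2 =>
    lip2 (hJ y hy) (hFL y hy) ha2 hb hc he hb' ⟨rfl, rfl, hD y hy⟩ ⟨e1.symm, e2.symm, hD z hz⟩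
  R0 := fun y hy => num_nonneg (hJ y hy) (hFL y hy) ⟨rfl, rfl, hD y hy⟩
  RF := by
    intro y hy
    have h1 := num_le (hJ y hy) (hFL y hy) ha2 hb hc he hb' ⟨rfl, rfl, hD y hy⟩
    linarith
  XR := by
    intro y hy
    obtain ⟨h1, h2⟩ := hX y hy
    have h3 : (2 : ℝ) ^ cls F y ≤ F y + 1 := by exact_mod_cast two_pow_cls_le F y
    have h4 : (2 : ℝ) ^ cls F y / 2 ^ P.nb ≤ (F y + 1) / 2 ^ P.nb :=
      div_le_div_of_nonneg_right h3 (by positivity)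
    have h5 : (1 : ℝ) / 2 ^ P.nb ≤ 1 := by
      rw [div_le_one (by positivity)]
      exact one_le_pow₀ (by norm_num)
    have h6 : ((cdiv (2 ^ cls F y) (2 ^ P.nb) : ℕ) : ℝ) ≤ 2 ^ cls F y / 2 ^ P.nb + 1 := by
      unfold cdiv
      have h7 : ((2 ^ cls F y + (2 ^ P.nb - 1)) / 2 ^ P.nb : ℕ) ≤ 2 ^ cls F y / 2 ^ P.nb + 1 := by
        rw [Nat.div_le_iff_le_mul_add_pred (by positivity)]
        have := Nat.div_add_mod (2 ^ cls F y) (2 ^ P.nb)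
        have := Nat.mod_lt (2 ^ cls F y) (show 0 < 2 ^ P.nb by positivity)
        rw [mul_add, mul_one]
        omega
      have h8 : ((2 ^ cls F y / 2 ^ P.nb : ℕ) : ℝ) ≤ ((2 ^ cls F y : ℕ) : ℝ) / ((2 ^ P.nb : ℕ) : ℝ) :=
        Nat.cast_div_le
      push_cast at h8
      have h9 : (((2 ^ cls F y + (2 ^ P.nb - 1)) / 2 ^ P.nb : ℕ) : ℝ)
          ≤ ((2 ^ cls F y / 2 ^ P.nb : ℕ) : ℝ) + 1 := by exact_mod_cast h7
      linarith
    have h10 : ((F y + 1 : ℝ)) / 2 ^ P.nb = 1 / 2 ^ P.nb * F y + 1 / 2 ^ P.nb := by ring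
    have h11 : (2 : ℝ) / 2 ^ P.nb * F y = 2 * (1 / 2 ^ P.nb * F y) := by ring
    have h12 : (((Alg45.dist y (rdn P (cls F y) y) + X (cls F y) (rdn P (cls F y) y) : ℕ) : ℝ)
        - numR P F R y) = (X (cls F y) (rdn P (cls F y) y) : ℝ)
          - R (cls F y) (rdn P (cls F y) y) := by
      unfold numR
      push_cast
      ring
    have h13 : (0 : ℝ) ≤ 1 / 2 ^ P.nb * F y := by positivity
    rw [h12, abs_le, h11]
    constructor <;> linarith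

end Crest.Agent.R288.OscJ283
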