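import Crest.Agent.R288.Osc_68

/-!
# R288: oscillation of the letter losses inside a window (helper283; window layer of 330, post 4660)

Window of `N = 2^n` pieces; cuts `0..N`; letters of any type `ι`, `M c z` = the letter `z` belongs to
the menu of the cut `c`.  Node `(t,p)` = pieces `p 2^t ≤ q < (p+1) 2^t`.
* `Btw`: every value lies between the smallest and the largest loss of the letters, up to `r` (kernels
  = arbitrary weights on the menus).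
* `near`, `osc`: end tables close to arbitrary reference numbers `τ q` (`|T q a b - τ q| ≤ ρ q`)
  ⟹ all values of a node are close to `∑ τ`, two letters differ by at most `2 ∑ ρ` (+ rounding).
* `piece`: end tables `X`, `|X - R| ≤ ν F + c1`, `|R y - R z| ≤ dist + b max (F y) (F z) + c2`,
  `F y ≤ Λ (F z + dist) + c3`, states `y` of the menus within `2 d` of the target states `z`.
* `osc_unit`: `D ≥ d + (c1 + c2 + (b + ν) c3)/2`, `D ≤ σ Fx`, `∑ F(target pieces) ≤ U`,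
  `Fx ≤ 2^n U`: `loss z - loss z' ≤ (8 * 4^n * σ + 2 * (b + ν) * Λ) * U` (+ rounding).
-/

set_option autoImplicit false

namespace Crest.Agent.R288.OscW283

open Finset Crest.Agent.R288.Osc68

variable {ι : Type*}

/-- values of the inner nodes: between the losses of the letters of the menus, up to `r` -/
structure Btw (n : ℕ) (M : ℕ → ι → Prop) (r : ℝ) (V : ℕ → ℕ → ι → ι → ℝ) : Prop where
  up : ∀ t < n, ∀ p < 2 ^ (n - (t + 1)), ∀ a b, M (p * 2 ^ (t + 1)) a → M ((p + 1) * 2 ^ (t + 1)) b →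
    ∀ B : ℝ, (∀ z, M ((2 * p + 1) * 2 ^ t) z → V t (2 * p) a z + V t (2 * p + 1) z b ≤ B) →
      V (t + 1) p a b ≤ B + r
  low : ∀ t < n, ∀ p < 2 ^ (n - (t + 1)), ∀ a b, M (p * 2 ^ (t + 1)) a → M ((p + 1) * 2 ^ (t + 1)) b →
    ∀ B : ℝ, (∀ z, M ((2 * p + 1) * 2 ^ t) z → B ≤ V t (2 * p) a z + V t (2 * p + 1) z b) →
      B - r ≤ V (t + 1) p a b

section tree

variable {n : ℕ} {M : ℕ → ι → Prop} {r : ℝ} {V : ℕ → ℕ → ι → ι → ℝ} {τ ρ : ℕ → ℝ}

private theorem half {n t p : ℕ} (ht : t < n) (hp : p < 2 ^ (n - (t + 1))) :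
    2 * p + 1 < 2 ^ (n - t) := by
  have : n - t = (n - (t + 1)) + 1 := by omega
  rw [this, pow_succ]
  omega

/-- all values of a node are near the reference value of its pieces -/
theorem near (hV : Btw n M r V)
    (h0 : ∀ q < 2 ^ n, ∀ a b, M q a → M (q + 1) b → |V 0 q a b - τ q| ≤ ρ q) (t : ℕ) :
    t ≤ n → ∀ p < 2 ^ (n - t), ∀ a b, M (p * 2 ^ t) a → M ((p + 1) * 2 ^ t) b →
      |V t p a b - ∑ q ∈ blk t p, τ q| ≤ ∑ q ∈ blk t p, ρ q + (2 ^ t - 1) * r := by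
  induction t with
  | zero =>
    intro _ p hp a b ha hb
    rw [blk_zero, sum_singleton, sum_singleton]
    have := h0 p (by simpa using hp) a b (by simpa using ha) (by simpa using hb)
    simpa using this
  | succ t ih =>
    intro ht p hp a b ha hb
    have ht' : t < n := ht
    have hp' := half ht' hp
    have e1 : 2 * p * 2 ^ t = p * 2 ^ (t + 1) := by ring
    have e2 : (2 * p + 1 + 1) * 2 ^ t = (p + 1) * 2 ^ (t + 1) := by ring
    have key : ∀ z, M ((2 * p + 1) * 2 ^ t) z →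
        |V t (2 * p) a z + V t (2 * p + 1) z b - ∑ q ∈ blk (t + 1) p, τ q|
          ≤ ∑ q ∈ blk (t + 1) p, ρ q + 2 * ((2 ^ t - 1) * r) := by
      intro z hz
      have h1 := ih ht'.le (2 * p) (by omega) a z (by rw [e1]; exact ha) hz
      have h2 := ih ht'.le (2 * p + 1) hp' z b hz (by rw [e2]; exact hb)
      rw [sum_blk_succ, sum_blk_succ]
      rw [abs_le] at h1 h2 ⊢
      constructor <;> linarith [h1.1, h1.2, h2.1, h2.2]
    rw [abs_le]
    have e3 : ((2 : ℝ) ^ (t + 1) - 1) * r = 2 * ((2 ^ t - 1) * r) + r := by rw [pow_succ]; ring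
    rw [e3]
    constructor
    · have := hV.low t ht' p hp a b ha hb
        (∑ q ∈ blk (t + 1) p, τ q - (∑ q ∈ blk (t + 1) p, ρ q + 2 * ((2 ^ t - 1) * r)))
        fun z hz => by
          have := (abs_le.1 (key z hz)).1
          linarith
      linarith
    · have := hV.up t ht' p hp a b ha hb
        (∑ q ∈ blk (t + 1) p, τ q + (∑ q ∈ blk (t + 1) p, ρ q + 2 * ((2 ^ t - 1) * r)))
        fun z hz => by
          have := (abs_le.1 (key z hz)).2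
          linarith
      linarith

/-- the loss of a letter is near the reference value -/
theorem letter (hV : Btw n M r V)
    (h0 : ∀ q < 2 ^ n, ∀ a b, M q a → M (q + 1) b → |V 0 q a b - τ q| ≤ ρ q) {t p : ℕ}
    (ht : t < n) (hp : p < 2 ^ (n - (t + 1))) {a b z : ι} (ha : M (p * 2 ^ (t + 1)) a)
    (hb : M ((p + 1) * 2 ^ (t + 1)) b) (hz : M ((2 * p + 1) * 2 ^ t) z) :
    |V t (2 * p) a z + V t (2 * p + 1) z b - ∑ q ∈ blk (t + 1) p, τ q|
      ≤ ∑ q ∈ blk (t + 1) p, ρ q + 2 * ((2 ^ t - 1) * r) := by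
  have hp' := half ht hp
  have e1 : 2 * p * 2 ^ t = p * 2 ^ (t + 1) := by ring
  have e2 : (2 * p + 1 + 1) * 2 ^ t = (p + 1) * 2 ^ (t + 1) := by ring
  have h1 := near hV h0 t ht.le (2 * p) (by omega) a z (by rw [e1]; exact ha) hz
  have h2 := near hV h0 t ht.le (2 * p + 1) hp' z b hz (by rw [e2]; exact hb)
  rw [sum_blk_succ, sum_blk_succ]
  rw [abs_le] at h1 h2 ⊢
  constructor <;> linarith [h1.1, h1.2, h2.1, h2.2]

/-- **oscillation**: two letters of a node differ by at most `2 ∑ ρ` -/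
theorem osc (hV : Btw n M r V)
    (h0 : ∀ q < 2 ^ n, ∀ a b, M q a → M (q + 1) b → |V 0 q a b - τ q| ≤ ρ q) {t p : ℕ}
    (ht : t < n) (hp : p < 2 ^ (n - (t + 1))) {a b z z' : ι} (ha : M (p * 2 ^ (t + 1)) a)
    (hb : M ((p + 1) * 2 ^ (t + 1)) b) (hz : M ((2 * p + 1) * 2 ^ t) z)
    (hz' : M ((2 * p + 1) * 2 ^ t) z') :
    V t (2 * p) a z + V t (2 * p + 1) z b ≤ V t (2 * p) a z' + V t (2 * p + 1) z' b
      + 2 * (∑ q ∈ blk (t + 1) p, ρ q + 2 * ((2 ^ t - 1) * r)) := by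
  have h1 := abs_le.1 (letter hV h0 ht hp ha hb hz)
  have h2 := abs_le.1 (letter hV h0 ht hp ha hb hz')
  linarith [h1.2, h2.1]

end tree

section piece

/-- one piece: the end table near the target state `z` (`c1, c2, c3` = additive constants,
`D ≥ d + c/2`) -/
theorem piece {Y : Type*} {ds : Y → Y → ℝ} {X R F : Y → ℝ} {y z : Y} {b ν d D Λ c1 c2 c3 : ℝ}
    (hb : 0 ≤ b) (hν : 0 ≤ ν) (hΛ : 1 ≤ Λ) (hz : 0 ≤ F z) (hc1 : 0 ≤ c1) (hc2 : 0 ≤ c2)
    (hc3 : 0 ≤ c3) (hD : c1 + c2 + (b + ν) * c3 ≤ 2 * (D - d)) (hd0 : 0 ≤ ds y z)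
    (hd : ds y z ≤ 2 * d)
    (hX : |X y - R y| ≤ ν * F y + c1) (hR : |R y - R z| ≤ ds y z + b * max (F y) (F z) + c2)
    (hF : F y ≤ Λ * (F z + ds y z) + c3) :
    |X y - R z| ≤ 2 * D + (b + ν) * Λ * (F z + 2 * D) := by
  have hdD : d ≤ D := by nlinarith [mul_nonneg (add_nonneg hb hν) hc3]
  have h0 : F z + ds y z ≤ F z + 2 * D := by linarith
  have h0' : F y ≤ Λ * (F z + 2 * D) + c3 :=
    hF.trans (by linarith [mul_le_mul_of_nonneg_left h0 (show 0 ≤ Λ by linarith)])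
  have h0'' : F z ≤ Λ * (F z + 2 * D) + c3 := by nlinarith
  have h1 : max (F y) (F z) ≤ Λ * (F z + 2 * D) + c3 := max_le h0' h0''
  have h2 : b * max (F y) (F z) ≤ b * (Λ * (F z + 2 * D) + c3) := mul_le_mul_of_nonneg_left h1 hb
  have h3 : ν * F y ≤ ν * (Λ * (F z + 2 * D) + c3) := mul_le_mul_of_nonneg_left h0' hν
  have h4 : |X y - R z| ≤ |X y - R y| + |R y - R z| := abs_sub_le _ _ _
  have e : (b + ν) * Λ * (F z + 2 * D) + (b + ν) * c3
      = b * (Λ * (F z + 2 * D) + c3) + ν * (Λ * (F z + 2 * D) + c3) := by ring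
  linarith

variable {f : ℕ → ℝ} {β d σ Fx U : ℝ} {n : ℕ}

/-- sum of the piece errors in the unit (`β = (b + ν) Λ`) -/
theorem sum_piece_le {t p : ℕ} (htn : t ≤ n) (hβ : 0 ≤ β) (hβ1 : β ≤ 1)
    (hσ : 0 ≤ σ) (hd0 : 0 ≤ d) (hd : d ≤ σ * Fx) (hU1 : ∑ q ∈ blk t p, f q ≤ U)
    (hU2 : Fx ≤ 2 ^ n * U) (hU0 : 0 ≤ U) :
    ∑ q ∈ blk t p, (2 * d + β * (f q + 2 * d)) ≤ (4 * 4 ^ n * σ + β) * U := by
  have e1 : ∑ q ∈ blk t p, (2 * d + β * (f q + 2 * d))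
      = 2 ^ t * (2 * d * (1 + β)) + β * ∑ q ∈ blk t p, f q := by
    rw [mul_sum]
    have : ∀ q ∈ blk t p, 2 * d + β * (f q + 2 * d) = 2 * d * (1 + β) + β * f q :=
      fun q _ => by ring
    rw [sum_congr rfl this, sum_add_distrib, sum_const, card_blk, nsmul_eq_mul]
    push_cast
    ring
  rw [e1]
  have h1 : β * ∑ q ∈ blk t p, f q ≤ β * U := mul_le_mul_of_nonneg_left hU1 hβ
  have h2 : d ≤ σ * (2 ^ n * U) := hd.trans (mul_le_mul_of_nonneg_left hU2 hσ)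
  have h3 : (2 : ℝ) ^ t ≤ 2 ^ n := pow_le_pow_right₀ (by norm_num) htn
  have h40 : 0 ≤ σ * (2 ^ n * U) := by positivity
  have h4 : 2 * d * (1 + β) ≤ 4 * (σ * (2 ^ n * U)) := by nlinarith
  have h5 : (2 : ℝ) ^ t * (2 * d * (1 + β)) ≤ 2 ^ n * (4 * (σ * (2 ^ n * U))) :=
    (mul_le_mul_of_nonneg_left h4 (by positivity)).trans
      (mul_le_mul_of_nonneg_right h3 (by positivity))
  have h6 : (2 : ℝ) ^ n * (4 * (σ * (2 ^ n * U))) = 4 * 4 ^ n * σ * U := by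
    have : (4 : ℝ) ^ n = 2 ^ n * 2 ^ n := by rw [← mul_pow]; norm_num
    rw [this]; ring
  linarith

end piece

/-- **oscillation of the letter losses in the unit** -/
theorem osc_unit {Y : Type*} {ds : Y → Y → ℝ} {X R F : Y → ℝ} {y : ℕ → ι → ι → Y} {zs : ℕ → Y}
    {n : ℕ} {M : ℕ → ι → Prop} {r : ℝ} {V : ℕ → ℕ → ι → ι → ℝ} {b ν d D Λ σ Fx U c1 c2 c3 : ℝ}
    (hV : Btw n M r V)
    (hE : ∀ q < 2 ^ n, ∀ a c, M q a → M (q + 1) c → V 0 q a c = X (y q a c))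
    (hb : 0 ≤ b) (hν : 0 ≤ ν) (hΛ : 1 ≤ Λ) (hβ1 : (b + ν) * Λ ≤ 1) (hσ : 0 ≤ σ)
    (hc1 : 0 ≤ c1) (hc2 : 0 ≤ c2) (hc3 : 0 ≤ c3) (hd0 : 0 ≤ d)
    (hD : c1 + c2 + (b + ν) * c3 ≤ 2 * (D - d)) (hDx : D ≤ σ * Fx)
    (hz : ∀ q < 2 ^ n, 0 ≤ F (zs q))
    (hds : ∀ q < 2 ^ n, ∀ a c, M q a → M (q + 1) c →
      0 ≤ ds (y q a c) (zs q) ∧ ds (y q a c) (zs q) ≤ 2 * d)
    (hX : ∀ q < 2 ^ n, ∀ a c, M q a → M (q + 1) c →
      |X (y q a c) - R (y q a c)| ≤ ν * F (y q a c) + c1)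
    (hR : ∀ q < 2 ^ n, ∀ a c, M q a → M (q + 1) c →
      |R (y q a c) - R (zs q)| ≤ ds (y q a c) (zs q) + b * max (F (y q a c)) (F (zs q)) + c2)
    (hF : ∀ q < 2 ^ n, ∀ a c, M q a → M (q + 1) c →
      F (y q a c) ≤ Λ * (F (zs q) + ds (y q a c) (zs q)) + c3)
    {t p : ℕ} (ht : t < n) (hp : p < 2 ^ (n - (t + 1))) {a c z z' : ι}
    (ha : M (p * 2 ^ (t + 1)) a) (hc : M ((p + 1) * 2 ^ (t + 1)) c)
    (hz1 : M ((2 * p + 1) * 2 ^ t) z) (hz2 : M ((2 * p + 1) * 2 ^ t) z')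
    (hU1 : ∑ q ∈ blk (t + 1) p, F (zs q) ≤ U) (hU2 : Fx ≤ 2 ^ n * U) (hU0 : 0 ≤ U) :
    V t (2 * p) a z + V t (2 * p + 1) z c ≤ V t (2 * p) a z' + V t (2 * p + 1) z' c
      + ((8 * 4 ^ n * σ + 2 * ((b + ν) * Λ)) * U + 4 * ((2 ^ t - 1) * r)) := by
  have h0 : ∀ q < 2 ^ n, ∀ a c, M q a → M (q + 1) c →
      |V 0 q a c - R (zs q)| ≤ 2 * D + (b + ν) * Λ * (F (zs q) + 2 * D) := by
    intro q hq a c ha hc
    rw [hE q hq a c ha hc]
    exact piece hb hν hΛ (hz q hq) hc1 hc2 hc3 hD (hds q hq a c ha hc).1 (hds q hq a c ha hc).2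
      (hX q hq a c ha hc) (hR q hq a c ha hc) (hF q hq a c ha hc)
  have h1 := osc (τ := fun q => R (zs q))
    (ρ := fun q => 2 * D + (b + ν) * Λ * (F (zs q) + 2 * D)) hV h0 ht hp ha hc hz1 hz2
  have hD0 : 0 ≤ D := by nlinarith [mul_nonneg (add_nonneg hb hν) hc3]
  have h2 := sum_piece_le (f := fun q => F (zs q)) (β := (b + ν) * Λ) (t := t + 1) (p := p)
    (n := n) ht (by positivity) hβ1 hσ hD0 hDx hU1 hU2 hU0
  linarith

end Crest.Agent.R288.OscW283
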