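import Mathlib

/-!
# R288: Lipschitz property of arrival values and oscillation inside a window ([OS] of #4274)

One macro node at a time, states are pairs `(u, v) : ℤ × ℤ`, `dst u v u' v' = |u - u'| + |v - v'|`.

* `arrive_lip`: the arrival value `R` after the jump step (menu: retire with the 1-Lipschitz cost `F`,
  jump to any state `y` of the node and go on with `A y`), up to `e x`, satisfies
  `R x ≤ R x' + dst x x' + e x`.
* `arrive_lower`, `arrive_upper`: `T ≤ R ≤ F + e`.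
* window tree: block `(t, i)` covers the pieces `i 2^t ≤ j < (i+1) 2^t`, `c j` = target of the cut
  between the pieces `j-1` and `j`. `P t i u v` = value inside the window: `P 0 i = R i`,
  `P (t+1) i u v` lies between lower and upper bounds of `P t (2i) u m + P t (2i+1) m v` over the near
  letters `m` (any kernel supported on near letters). `window_near`: `P` is within `err t i` of the
  value of the target staircase, for all states with near ends; `window_osc`: two near letters differ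
  by at most `2 err`.
* `unit_bound`: regularity of the plan bounds `err` by a multiple of the unit.
-/

set_option autoImplicit false

namespace Crest.Agent.R288.Osc68

open Finset

/-- distance of two states of one node -/
def dst (u v u' v' : ℤ) : ℝ := |(u : ℝ) - u'| + |(v : ℝ) - v'|

theorem dst_nonneg (u v u' v' : ℤ) : 0 ≤ dst u v u' v' := by unfold dst; positivity

theorem dst_self (u v : ℤ) : dst u v u v = 0 := by simp [dst]

theorem dst_comm (u v u' v' : ℤ) : dst u v u' v' = dst u' v' u v := by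
  unfold dst
  rw [abs_sub_comm (u : ℝ), abs_sub_comm (v : ℝ)]

theorem dst_triangle (u v u' v' u'' v'' : ℤ) :
    dst u v u'' v'' ≤ dst u v u' v' + dst u' v' u'' v'' := by
  unfold dst
  have h1 := abs_sub_le (u : ℝ) u' u''
  have h2 := abs_sub_le (v : ℝ) v' v''
  linarith

section arrive

variable (R A F T e : ℤ → ℤ → ℝ)

/-- **same-rank Lipschitz property after the jump step.** `hret`, `hjump`: the arrival value is at
most every menu item plus `e`; `hlow`: it is at least every lower bound of the menu. -/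
theorem arrive_lip
    (hF : ∀ u v u' v', F u v ≤ F u' v' + dst u v u' v')
    (hret : ∀ u v, R u v ≤ F u v + e u v)
    (hjump : ∀ u v u' v', R u v ≤ dst u v u' v' + A u' v' + e u v)
    (hlow : ∀ u v (M : ℝ), M ≤ F u v → (∀ u' v', M ≤ dst u v u' v' + A u' v') → M ≤ R u v)
    (u v u' v' : ℤ) : R u v ≤ R u' v' + dst u v u' v' + e u v := by
  have h := hlow u' v' (R u v - dst u v u' v' - e u v) ?_ ?_
  · linarith
  · have h1 := hret u v
    have h2 := hF u v u' v'
    linarith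
  · intro u'' v''
    have h1 := hjump u v u'' v''
    have h2 := dst_triangle u v u' v' u'' v''
    linarith

theorem arrive_lower
    (hT : ∀ u v u' v', T u v ≤ T u' v' + dst u v u' v')
    (hTF : ∀ u v, T u v ≤ F u v) (hTA : ∀ u v, T u v ≤ A u v)
    (hlow : ∀ u v (M : ℝ), M ≤ F u v → (∀ u' v', M ≤ dst u v u' v' + A u' v') → M ≤ R u v)
    (u v : ℤ) : T u v ≤ R u v := by
  refine hlow u v _ (hTF u v) fun u' v' => ?_
  have h1 := hT u v u' v'
  have h2 := hTA u' v'
  linarith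

theorem arrive_upper {C b : ℝ}
    (hret : ∀ u v, R u v ≤ F u v + b * T u v) (hF : ∀ u v, F u v ≤ C * T u v) (u v : ℤ) :
    R u v ≤ (C + b) * T u v := by
  have h1 := hret u v
  have h2 := hF u v
  linarith

end arrive

section window

/-- pieces of the block `(t, i)` -/
def blk (t i : ℕ) : Finset ℕ := Ico (i * 2 ^ t) ((i + 1) * 2 ^ t)

theorem blk_zero (i : ℕ) : blk 0 i = {i} := by
  unfold blk
  simp

theorem sum_blk_succ (f : ℕ → ℝ) (t i : ℕ) :
    ∑ j ∈ blk (t + 1) i, f j = ∑ j ∈ blk t (2 * i), f j + ∑ j ∈ blk t (2 * i + 1), f j := by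
  unfold blk
  have e1 : i * 2 ^ (t + 1) = 2 * i * 2 ^ t := by ring
  have e2 : (i + 1) * 2 ^ (t + 1) = (2 * i + 1 + 1) * 2 ^ t := by ring
  rw [e1, e2]
  rw [Finset.sum_Ico_consecutive f (Nat.mul_le_mul_right _ (by omega))
    (Nat.mul_le_mul_right _ (by omega))]

theorem card_blk (t i : ℕ) : (blk t i).card = 2 ^ t := by
  unfold blk
  rw [Nat.card_Ico]
  have : (i + 1) * 2 ^ t = i * 2 ^ t + 2 ^ t := by ring
  rw [this, Nat.add_sub_cancel_left]

variable (R T : ℕ → ℤ → ℤ → ℝ) (c : ℕ → ℤ) (ρ b : ℝ)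

/-- value of the target staircase of the block -/
def ref (t i : ℕ) : ℝ := ∑ j ∈ blk t i, R j (c j) (c (j + 1))

/-- error of one piece -/
def perr (j : ℕ) : ℝ := 2 * ρ + b * (T j (c j) (c (j + 1)) + 2 * ρ)

/-- error of the block -/
def err (t i : ℕ) : ℝ := ∑ j ∈ blk t i, perr T c ρ b j

/-- `(u, v)` are within `ρ` of the target ends of the block `(t, i)` -/
def Near (t i : ℕ) (u v : ℤ) : Prop :=
  |(u : ℝ) - c (i * 2 ^ t)| ≤ ρ ∧ |(v : ℝ) - c ((i + 1) * 2 ^ t)| ≤ ρ

/-- near letters of the block `(t+1, i)` -/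
def NearL (t i : ℕ) (m : ℤ) : Prop := |(m : ℝ) - c ((2 * i + 1) * 2 ^ t)| ≤ ρ

variable {R T c ρ b}

theorem Near.left {t i : ℕ} {u v m : ℤ} (h : Near c ρ (t + 1) i u v) (hm : NearL c ρ t i m) :
    Near c ρ t (2 * i) u m := by
  refine ⟨?_, hm⟩
  have e1 : 2 * i * 2 ^ t = i * 2 ^ (t + 1) := by ring
  rw [e1]
  exact h.1

theorem Near.right {t i : ℕ} {u v m : ℤ} (h : Near c ρ (t + 1) i u v) (hm : NearL c ρ t i m) :
    Near c ρ t (2 * i + 1) m v := by
  refine ⟨hm, ?_⟩
  have e1 : (2 * i + 1 + 1) * 2 ^ t = (i + 1) * 2 ^ (t + 1) := by ring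
  rw [e1]
  exact h.2

/-- values inside the window, for any kernels supported on near letters -/
structure InWin (R : ℕ → ℤ → ℤ → ℝ) (c : ℕ → ℤ) (ρ : ℝ) (P : ℕ → ℕ → ℤ → ℤ → ℝ) : Prop where
  zero : ∀ i u v, P 0 i u v = R i u v
  up : ∀ t i u v (B : ℝ), Near c ρ (t + 1) i u v →
    (∀ m, NearL c ρ t i m → P t (2 * i) u m + P t (2 * i + 1) m v ≤ B) → P (t + 1) i u v ≤ B
  low : ∀ t i u v (B : ℝ), Near c ρ (t + 1) i u v →
    (∀ m, NearL c ρ t i m → B ≤ P t (2 * i) u m + P t (2 * i + 1) m v) → B ≤ P (t + 1) i u v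

/-- **all plays inside the window stay within `err` of the target staircase** -/
theorem window_near {P : ℕ → ℕ → ℤ → ℤ → ℝ} (hP : InWin R c ρ P) (hb : 0 ≤ b)
    (hR : ∀ j u v u' v', R j u v ≤ R j u' v' + dst u v u' v' + b * T j u v)
    (hT : ∀ j u v u' v', T j u v ≤ T j u' v' + dst u v u' v') (t : ℕ) :
    ∀ i u v, Near c ρ t i u v → |P t i u v - ref R c t i| ≤ err T c ρ b t i := by
  induction t with
  | zero =>
    intro i u v h
    have h1 : |(u : ℝ) - c i| ≤ ρ := by simpa [Near] using h.1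
    have h2 : |(v : ℝ) - c (i + 1)| ≤ ρ := by simpa [Near] using h.2
    have hd : dst u v (c i) (c (i + 1)) ≤ 2 * ρ := by unfold dst; linarith
    have hd' : dst (c i) (c (i + 1)) u v ≤ 2 * ρ := by rw [dst_comm]; exact hd
    have hd0 := dst_nonneg u v (c i) (c (i + 1))
    have a1 := hR i u v (c i) (c (i + 1))
    have a2 := hR i (c i) (c (i + 1)) u v
    have a3 := hT i u v (c i) (c (i + 1))
    have a4 : b * T i u v ≤ b * (T i (c i) (c (i + 1)) + 2 * ρ) :=
      mul_le_mul_of_nonneg_left (by linarith) hb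
    have a5 : b * T i (c i) (c (i + 1)) ≤ b * (T i (c i) (c (i + 1)) + 2 * ρ) :=
      mul_le_mul_of_nonneg_left (by linarith) hb
    rw [hP.zero, ref, err, blk_zero, sum_singleton, sum_singleton, perr, abs_le]
    constructor <;> linarith
  | succ t ih =>
    intro i u v h
    have key : ∀ m, NearL c ρ t i m →
        |P t (2 * i) u m + P t (2 * i + 1) m v - ref R c (t + 1) i| ≤ err T c ρ b (t + 1) i := by
      intro m hm
      have h1 := ih (2 * i) u m (h.left hm)
      have h2 := ih (2 * i + 1) m v (h.right hm)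
      have e1 : ref R c (t + 1) i = ref R c t (2 * i) + ref R c t (2 * i + 1) := by
        unfold ref; exact sum_blk_succ _ t i
      have e2 : err T c ρ b (t + 1) i = err T c ρ b t (2 * i) + err T c ρ b t (2 * i + 1) := by
        unfold err; exact sum_blk_succ _ t i
      rw [e1, e2]
      rw [abs_le] at h1 h2 ⊢
      constructor <;> linarith [h1.1, h1.2, h2.1, h2.2]
    rw [abs_le]
    constructor
    · have := hP.low t i u v (ref R c (t + 1) i - err T c ρ b (t + 1) i) h fun m hm => by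
        have := (abs_le.1 (key m hm)).1
        linarith
      linarith
    · have := hP.up t i u v (ref R c (t + 1) i + err T c ρ b (t + 1) i) h fun m hm => by
        have := (abs_le.1 (key m hm)).2
        linarith
      linarith

/-- the loss of a near letter is within `err` of the target staircase -/
theorem letter_near {P : ℕ → ℕ → ℤ → ℤ → ℝ} (hP : InWin R c ρ P) (hb : 0 ≤ b)
    (hR : ∀ j u v u' v', R j u v ≤ R j u' v' + dst u v u' v' + b * T j u v)
    (hT : ∀ j u v u' v', T j u v ≤ T j u' v' + dst u v u' v') (t i : ℕ) {u v m : ℤ}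
    (h : Near c ρ (t + 1) i u v) (hm : NearL c ρ t i m) :
    |P t (2 * i) u m + P t (2 * i + 1) m v - ref R c (t + 1) i| ≤ err T c ρ b (t + 1) i := by
  have h1 := window_near hP hb hR hT t (2 * i) u m (h.left hm)
  have h2 := window_near hP hb hR hT t (2 * i + 1) m v (h.right hm)
  have e1 : ref R c (t + 1) i = ref R c t (2 * i) + ref R c t (2 * i + 1) := by
    unfold ref; exact sum_blk_succ _ t i
  have e2 : err T c ρ b (t + 1) i = err T c ρ b t (2 * i) + err T c ρ b t (2 * i + 1) := by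
    unfold err; exact sum_blk_succ _ t i
  rw [e1, e2]
  rw [abs_le] at h1 h2 ⊢
  constructor <;> linarith [h1.1, h1.2, h2.1, h2.2]

/-- **oscillation of the losses over the near letters** -/
theorem window_osc {P : ℕ → ℕ → ℤ → ℤ → ℝ} (hP : InWin R c ρ P) (hb : 0 ≤ b)
    (hR : ∀ j u v u' v', R j u v ≤ R j u' v' + dst u v u' v' + b * T j u v)
    (hT : ∀ j u v u' v', T j u v ≤ T j u' v' + dst u v u' v') (t i : ℕ) {u v m m' : ℤ}
    (h : Near c ρ (t + 1) i u v) (hm : NearL c ρ t i m) (hm' : NearL c ρ t i m') :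
    P t (2 * i) u m + P t (2 * i + 1) m v
      ≤ P t (2 * i) u m' + P t (2 * i + 1) m' v + 2 * err T c ρ b (t + 1) i := by
  have h1 := abs_le.1 (letter_near hP hb hR hT t i h hm)
  have h2 := abs_le.1 (letter_near hP hb hR hT t i h hm')
  linarith [h1.2, h2.1]

theorem err_eq (t i : ℕ) : err T c ρ b t i
    = 2 ^ t * (2 * ρ * (1 + b)) + b * ∑ j ∈ blk t i, T j (c j) (c (j + 1)) := by
  unfold err perr
  have : ∀ j ∈ blk t i, 2 * ρ + b * (T j (c j) (c (j + 1)) + 2 * ρ)
      = 2 * ρ * (1 + b) + b * T j (c j) (c (j + 1)) := fun j _ => by ring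
  rw [sum_congr rfl this, sum_add_distrib, sum_const, card_blk, nsmul_eq_mul, ← mul_sum]
  push_cast
  ring

end window

section unit

/-- staircase sum of the block `(t, i)` with cuts `m` -/
def ssum (f : ℕ → ℤ → ℤ → ℝ) (t i : ℕ) (m : ℕ → ℤ) : ℝ := ∑ j ∈ blk t i, f j (m j) (m (j + 1))

/-- changing the two ends of a staircase: a lower bound for all staircases with ends `(u, v)` gives
one for all staircases with ends `(u', v')`, for a function `T` which is `1`-Lipschitz -/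
theorem ssum_ends {T : ℕ → ℤ → ℤ → ℝ} (hT : ∀ j u v u' v', T j u v ≤ T j u' v' + dst u v u' v')
    (t i : ℕ) (m : ℕ → ℤ) (u v : ℤ) :
    ∃ m' : ℕ → ℤ, m' (i * 2 ^ t) = u ∧ m' ((i + 1) * 2 ^ t) = v ∧
      ssum T t i m' ≤ ssum T t i m + dst u v (m (i * 2 ^ t)) (m ((i + 1) * 2 ^ t)) := by
  classical
  have hlt : i * 2 ^ t < (i + 1) * 2 ^ t := by
    have : 0 < 2 ^ t := by positivity
    nlinarith
  set a := i * 2 ^ t with ha
  set z := (i + 1) * 2 ^ t with hz
  -- change the right end first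
  have step : ∀ (m : ℕ → ℤ) (p : ℕ) (w : ℤ), a ≤ p → p ≤ z → (p = a ∨ p = z) →
      ssum T t i (Function.update m p w) ≤ ssum T t i m + |(w : ℝ) - m p| := by
    intro m p w hap hpz hp
    unfold ssum blk
    rw [← ha, ← hz]
    -- only one piece changes
    rcases hp with hp | hp
    · -- left end
      subst hp
      rw [Finset.sum_eq_sum_Ico_succ_bot hlt, Finset.sum_eq_sum_Ico_succ_bot hlt]
      have h1 : ∑ j ∈ Ico (a + 1) z, T j (Function.update m a w j) (Function.update m a w (j + 1))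
          = ∑ j ∈ Ico (a + 1) z, T j (m j) (m (j + 1)) := by
        refine sum_congr rfl fun j hj => ?_
        have hj' := mem_Ico.1 hj
        rw [Function.update_of_ne (by omega), Function.update_of_ne (by omega)]
      rw [h1, Function.update_self, Function.update_of_ne (by omega)]
      have h2 := hT a w (m (a + 1)) (m a) (m (a + 1))
      have h3 : dst w (m (a + 1)) (m a) (m (a + 1)) = |(w : ℝ) - m a| := by simp [dst]
      rw [h3] at h2
      linarith
    · obtain ⟨z', hz'⟩ : ∃ z', z = z' + 1 := ⟨z - 1, by omega⟩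
      rw [hp, hz']
      rw [Finset.sum_Ico_succ_top (by omega), Finset.sum_Ico_succ_top (by omega)]
      have h1 : ∑ j ∈ Ico a z', T j (Function.update m (z' + 1) w j)
            (Function.update m (z' + 1) w (j + 1))
          = ∑ j ∈ Ico a z', T j (m j) (m (j + 1)) := by
        refine sum_congr rfl fun j hj => ?_
        have hj' := mem_Ico.1 hj
        rw [Function.update_of_ne (by omega), Function.update_of_ne (by omega)]
      rw [h1, Function.update_self, Function.update_of_ne (by omega)]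
      have h2 := hT z' (m z') w (m z') (m (z' + 1))
      have h3 : dst (m z') w (m z') (m (z' + 1)) = |(w : ℝ) - m (z' + 1)| := by simp [dst]
      rw [h3] at h2
      linarith
  refine ⟨Function.update (Function.update m z v) a u, Function.update_self .., ?_, ?_⟩
  · rw [Function.update_of_ne (by omega), Function.update_self]
  · have h1 := step (Function.update m z v) a u le_rfl hlt.le (Or.inl rfl)
    have h2 := step m z v hlt.le le_rfl (Or.inr rfl)
    rw [Function.update_of_ne (show a ≠ z by omega)] at h1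
    unfold dst
    linarith

/-- **regular plan**: the target mass of the block is at most a multiple of the unit of a state with
near ends. `Tt` = known promise (`T ≤ Tt ≤ 3 T`), `tin` = minimal `Tt`-sum over the staircases with the
target ends, `τ` = the one of the state (attained by `m`), `Tx` = `Tt` of the window start. -/
theorem mass_le_unit {T Tt : ℕ → ℤ → ℤ → ℝ} {c : ℕ → ℤ} {ρ tin τ w : ℝ}
    (hT : ∀ j u v u' v', T j u v ≤ T j u' v' + dst u v u' v')
    (h1 : ∀ j u v, T j u v ≤ Tt j u v) (h3 : ∀ j u v, Tt j u v ≤ 3 * T j u v)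
    (t i : ℕ) (htin : ∀ m : ℕ → ℤ, m (i * 2 ^ t) = c (i * 2 ^ t) →
      m ((i + 1) * 2 ^ t) = c ((i + 1) * 2 ^ t) → tin ≤ ssum Tt t i m)
    (hreg : ssum Tt t i c ≤ 10 * tin + w)
    {u v : ℤ} (h : Near c ρ t i u v) (m : ℕ → ℤ) (hmu : m (i * 2 ^ t) = u)
    (hmv : m ((i + 1) * 2 ^ t) = v) (hm : ssum Tt t i m ≤ τ) :
    ssum T t i c ≤ 30 * (τ + 2 * ρ) + w := by
  obtain ⟨m', e1, e2, e3⟩ := ssum_ends hT t i m (c (i * 2 ^ t)) (c ((i + 1) * 2 ^ t))
  have a1 : ssum T t i c ≤ ssum Tt t i c := sum_le_sum fun j _ => h1 _ _ _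
  have a2 : ssum T t i m ≤ ssum Tt t i m := sum_le_sum fun j _ => h1 _ _ _
  have a3 : ssum Tt t i m' ≤ 3 * ssum T t i m' := by
    unfold ssum
    rw [mul_sum]
    exact sum_le_sum fun j _ => h3 _ _ _
  have a4 := htin m' e1 e2
  have a5 : dst (c (i * 2 ^ t)) (c ((i + 1) * 2 ^ t)) (m (i * 2 ^ t)) (m ((i + 1) * 2 ^ t))
      ≤ 2 * ρ := by
    rw [hmu, hmv, dst_comm]
    unfold dst
    have := h.1
    have := h.2
    linarith
  linarith

/-- **the error of a block in units**: `ρ = σ Tx`, unit `U ≥ τ, 2^{-n} Tx`, `8 σ 4^n ≤ b ≤ 1`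
imply `err ≤ 40 b U`. -/
theorem err_le_unit {T : ℕ → ℤ → ℤ → ℝ} {c : ℕ → ℤ} {ρ b σ Tx τ w U : ℝ} {n : ℕ}
    (t i : ℕ) (htn : t ≤ n) (hb0 : 0 ≤ b) (hb1 : b ≤ 1) (hσ0 : 0 ≤ σ) (hTx : 0 ≤ Tx)
    (hρ : ρ = σ * Tx) (hσ : 8 * σ * 4 ^ n ≤ b) (hU1 : τ ≤ U) (hU2 : Tx ≤ 2 ^ n * U)
    (hw : w ≤ U) (hmass : ssum T t i c ≤ 30 * (τ + 2 * ρ) + w) :
    err T c ρ b t i ≤ 40 * b * U := by
  have hU0 : 0 ≤ U := by
    have : 0 ≤ 2 ^ n * U := hTx.trans hU2
    have h2 : (0 : ℝ) < 2 ^ n := by positivity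
    exact nonneg_of_mul_nonneg_right this h2
  have h2n : (1 : ℝ) ≤ 2 ^ n := one_le_pow₀ (by norm_num)
  have h4 : (4 : ℝ) ^ n = 2 ^ n * 2 ^ n := by
    rw [← mul_pow]; norm_num
  -- 2^n ρ ≤ σ 4^n U ≤ b U / 8
  have hρn : 2 ^ n * ρ ≤ b / 8 * U := by
    calc 2 ^ n * ρ = σ * 2 ^ n * Tx := by rw [hρ]; ring
      _ ≤ σ * 2 ^ n * (2 ^ n * U) := mul_le_mul_of_nonneg_left hU2 (by positivity)
      _ = (σ * 4 ^ n) * U := by rw [h4]; ring
      _ ≤ b / 8 * U := mul_le_mul_of_nonneg_right (by linarith) hU0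
  have hρ0 : 0 ≤ ρ := by rw [hρ]; positivity
  have hρ1 : ρ ≤ b / 8 * U := by
    have : 1 * ρ ≤ 2 ^ n * ρ := mul_le_mul_of_nonneg_right h2n hρ0
    linarith
  have ht : (2 : ℝ) ^ t * ρ ≤ b / 8 * U := by
    have : (2 : ℝ) ^ t ≤ 2 ^ n := pow_le_pow_right₀ (by norm_num) htn
    have := mul_le_mul_of_nonneg_right this hρ0
    linarith
  rw [err_eq]
  have hmass' : ∑ j ∈ blk t i, T j (c j) (c (j + 1)) ≤ 31 * U + 60 * ρ := by
    have : ssum T t i c = ∑ j ∈ blk t i, T j (c j) (c (j + 1)) := rfl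
    linarith
  have e1 : 2 ^ t * (2 * ρ * (1 + b)) ≤ 4 * (b / 8 * U) := by
    have h0 : 0 ≤ 2 ^ t * ρ := by positivity
    nlinarith
  have hbU : 0 ≤ b * U := mul_nonneg hb0 hU0
  have e2 : b * ∑ j ∈ blk t i, T j (c j) (c (j + 1)) ≤ b * (31 * U + 60 * ρ) :=
    mul_le_mul_of_nonneg_left hmass' hb0
  have e3 : b * ρ ≤ b / 8 * U := by
    have : b * ρ ≤ 1 * ρ := mul_le_mul_of_nonneg_right hb1 hρ0
    linarith
  nlinarith

end unit

section final

variable {R T Tt : ℕ → ℤ → ℤ → ℝ} {c : ℕ → ℤ} {P : ℕ → ℕ → ℤ → ℤ → ℝ}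

/-- **[OS]**: in a mode `0` window started at a state with promise `Tx`, plan `c` regular, all letters
within `ρ = σ Tx` of the targets: at every inner state with near ends and unit `U`, the losses of all
near letters lie in one interval of length `80 b U`, whatever the kernels are. -/
theorem osc_main {ρ b σ Tx tin τ w U : ℝ} {n : ℕ} (hP : InWin R c ρ P)
    (hR : ∀ j u v u' v', R j u v ≤ R j u' v' + dst u v u' v' + b * T j u v)
    (hT : ∀ j u v u' v', T j u v ≤ T j u' v' + dst u v u' v')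
    (h1 : ∀ j u v, T j u v ≤ Tt j u v) (h3 : ∀ j u v, Tt j u v ≤ 3 * T j u v)
    (hb0 : 0 ≤ b) (hb1 : b ≤ 1) (hσ0 : 0 ≤ σ) (hTx : 0 ≤ Tx) (hρ : ρ = σ * Tx)
    (hσ : 8 * σ * 4 ^ n ≤ b)
    (t i : ℕ) (htn : t + 1 ≤ n)
    (htin : ∀ m : ℕ → ℤ, m (i * 2 ^ (t + 1)) = c (i * 2 ^ (t + 1)) →
      m ((i + 1) * 2 ^ (t + 1)) = c ((i + 1) * 2 ^ (t + 1)) → tin ≤ ssum Tt (t + 1) i m)
    (hreg : ssum Tt (t + 1) i c ≤ 10 * tin + w)
    {u v : ℤ} (h : Near c ρ (t + 1) i u v) (m₀ : ℕ → ℤ) (hmu : m₀ (i * 2 ^ (t + 1)) = u)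
    (hmv : m₀ ((i + 1) * 2 ^ (t + 1)) = v) (hm : ssum Tt (t + 1) i m₀ ≤ τ)
    (hU1 : τ ≤ U) (hU2 : Tx ≤ 2 ^ n * U) (hw : w ≤ U) :
    ∀ m, NearL c ρ t i m →
      ref R c (t + 1) i - 40 * b * U ≤ P t (2 * i) u m + P t (2 * i + 1) m v ∧
      P t (2 * i) u m + P t (2 * i + 1) m v ≤ ref R c (t + 1) i - 40 * b * U + 80 * b * U := by
  intro m hmn
  have a1 := mass_le_unit hT h1 h3 (t + 1) i htin hreg h m₀ hmu hmv hm
  have a2 := err_le_unit (T := T) (c := c) (t + 1) i htn hb0 hb1 hσ0 hTx hρ hσ hU1 hU2 hw a1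
  have a3 := abs_le.1 (letter_near hP hb0 hR hT t i h hmn)
  constructor <;> linarith [a3.1, a3.2]

/-- **[OS] with the state-independent unit of #4304**: `U ≥ ∑_{j ∈ block} Tt (target piece j)` and
`Tx ≤ 2^n U` (e.g. `U = ∑ Tt (target) + 2^{-n} Tx`). No regularity needed. -/
theorem osc_main' {ρ b σ Tx U : ℝ} {n : ℕ} (hP : InWin R c ρ P)
    (hR : ∀ j u v u' v', R j u v ≤ R j u' v' + dst u v u' v' + b * T j u v)
    (hT : ∀ j u v u' v', T j u v ≤ T j u' v' + dst u v u' v')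
    (h1 : ∀ j u v, T j u v ≤ Tt j u v)
    (hb0 : 0 ≤ b) (hb1 : b ≤ 1) (hσ0 : 0 ≤ σ) (hTx : 0 ≤ Tx) (hρ : ρ = σ * Tx)
    (t i : ℕ) (htn : t + 1 ≤ n) (hU : ssum Tt (t + 1) i c ≤ U) (hU2 : Tx ≤ 2 ^ n * U)
    {u v : ℤ} (h : Near c ρ (t + 1) i u v) :
    ∀ m, NearL c ρ t i m →
      ref R c (t + 1) i - (4 * 4 ^ n * σ + b) * U ≤ P t (2 * i) u m + P t (2 * i + 1) m v ∧
      P t (2 * i) u m + P t (2 * i + 1) m v
        ≤ ref R c (t + 1) i - (4 * 4 ^ n * σ + b) * U + 2 * (4 * 4 ^ n * σ + b) * U := by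
  intro m hmn
  have hU0 : 0 ≤ U := by
    have : 0 ≤ 2 ^ n * U := hTx.trans hU2
    have h2 : (0 : ℝ) < 2 ^ n := by positivity
    exact nonneg_of_mul_nonneg_right this h2
  have h4 : (4 : ℝ) ^ n = 2 ^ n * 2 ^ n := by
    rw [← mul_pow]; norm_num
  have a2 : err T c ρ b (t + 1) i ≤ (4 * 4 ^ n * σ + b) * U := by
    rw [err_eq]
    have e0 : ∑ j ∈ blk (t + 1) i, T j (c j) (c (j + 1)) ≤ U :=
      (sum_le_sum fun j _ => h1 _ _ _).trans hU
    have e1 : b * ∑ j ∈ blk (t + 1) i, T j (c j) (c (j + 1)) ≤ b * U :=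
      mul_le_mul_of_nonneg_left e0 hb0
    have hρ0 : 0 ≤ ρ := by rw [hρ]; positivity
    have e2 : (2 : ℝ) ^ (t + 1) * (2 * ρ * (1 + b)) ≤ 4 * 4 ^ n * σ * U := by
      calc (2 : ℝ) ^ (t + 1) * (2 * ρ * (1 + b)) ≤ 2 ^ n * (2 * ρ * 2) := by
            have : (2 : ℝ) ^ (t + 1) ≤ 2 ^ n := pow_le_pow_right₀ (by norm_num) htn
            gcongr
            linarith
        _ = 4 * 2 ^ n * σ * Tx := by rw [hρ]; ring
        _ ≤ 4 * 2 ^ n * σ * (2 ^ n * U) := mul_le_mul_of_nonneg_left hU2 (by positivity)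
        _ = 4 * 4 ^ n * σ * U := by rw [h4]; ring
    linarith
  have a3 := abs_le.1 (letter_near hP hb0 hR hT t i h hmn)
  constructor <;> linarith [a3.1, a3.2]

end final

end Crest.Agent.R288.Osc68
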