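import Crest.Agent.R288.Pad_901

/-!
# R288 (helper901): everything is in `Pad_901`
-/
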