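import Crest.Agent.R288.PotF_245

/-!
# R288: the paired macro induction (rounding of the comparator), helper908

"FROM ABOVE" (#4352) in the pointwise form (#4429, #4435, #4511), WITH the rounding of the
comparator to the menu of the play.  Only `G` (exact cost) and `f` (previous epoch, `G ≤ f ≤ β G`)
are 1-Lipschitz; the mean costs `R` of the play are not.  The claim is therefore proved for PAIRS
`(x, x⋆)` = (state of the play, integer state of the same node) at distance `D x x⋆`:

  `X(x) ≤ A G(x⋆) + c D(x,x⋆) + (κ₀ + h B)(β G(x⋆) + D(x,x⋆))`,  `(c + κ₀ + H B) η + κ ≤ B`,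

so the rounding error `η f(x)` per window (`η = 2 N / P`) is only multiplied by constants, not by
`β` (`pair_bound`).  `epoch_pair` = the same for `X = R + λ Φ` from the local regret inequalities.
-/

set_option autoImplicit false

namespace Crest.Agent.R288.PairI908

open Crest.Agent.R288.PotF245

universe u

section lists

theorem lsum_le {α : Type*} (l : List α) (F G : α → ℝ) (h : ∀ a ∈ l, F a ≤ G a) :
    (l.map F).sum ≤ (l.map G).sum := by
  induction l with
  | nil => simp
  | cons a l ih =>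
    simp only [List.map_cons, List.sum_cons]
    exact add_le_add (h a (by simp)) (ih fun b hb => h b (by simp [hb]))

theorem lsum_comb {α : Type*} (l : List α) (F G : α → ℝ) (p q : ℝ) :
    (l.map fun a => p * F a + q * G a).sum = p * (l.map F).sum + q * (l.map G).sum := by
  induction l with
  | nil => simp
  | cons a l ih =>
    simp only [List.map_cons, List.sum_cons, ih]
    ring

end lists

variable {S : ℕ → Type u} {G f X : ∀ h, S h → ℝ} {D : ∀ h, S h → S h → ℝ}

/-- **the paired induction** -/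
theorem pair_bound {P : ∀ h, S h → S h → Prop} {A c β κ₀ κ η B : ℝ} {H : ℕ}
    (hA : 0 ≤ A) (hAc : A ≤ c) (hβ : 0 ≤ β) (hκ₀ : 0 ≤ κ₀) (hκ : 0 ≤ κ) (hη : 0 ≤ η)
    (hB0 : 0 ≤ B) (hB : (c + κ₀ + H * B) * η + κ ≤ B)
    (hG : ∀ h x, 0 ≤ G h x) (hD : ∀ h x y, 0 ≤ D h x y)
    (hGl : ∀ h x y, G h x ≤ G h y + D h x y) (hfl : ∀ h x y, f h x ≤ f h y + D h x y)
    (hfG : ∀ h x, f h x ≤ β * G h x)
    (h0 : ∀ x xs : S 0, P 0 x xs → X 0 x ≤ A * G 0 x ∨ X 0 x ≤ c * D 0 x xs)
    (hs : ∀ h, h < H → ∀ x xs : S (h + 1), P (h + 1) x xs →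
      X (h + 1) x ≤ A * G (h + 1) x ∨ X (h + 1) x ≤ c * D (h + 1) x xs ∨
      ∃ ps : List (S h × S h), (∀ p ∈ ps, P h p.1 p.2) ∧
        (ps.map fun p => G h p.2).sum ≤ G (h + 1) xs ∧
        (ps.map fun p => D h p.1 p.2).sum ≤ D (h + 1) x xs + η * f (h + 1) x ∧
        (X (h + 1) x ≤ κ₀ * (ps.map fun p => f h p.1).sum ∨
          X (h + 1) x ≤ (ps.map fun p => X h p.1).sum + κ * f (h + 1) x)) :
    ∀ h, h ≤ H → ∀ x xs : S h, P h x xs →
      X h x ≤ A * G h xs + c * D h x xs + (κ₀ + h * B) * (β * G h xs + D h x xs) := by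
  intro h
  have hc : 0 ≤ c := hA.trans hAc
  induction h with
  | zero =>
    intro _ x xs hP
    have hg := hG 0 xs
    have hd := hD 0 x xs
    have h1 : 0 ≤ κ₀ * (β * G 0 xs + D 0 x xs) := by positivity
    have h2 : A * D 0 x xs ≤ c * D 0 x xs := mul_le_mul_of_nonneg_right hAc hd
    simp only [Nat.cast_zero, zero_mul, add_zero]
    rcases h0 x xs hP with h3 | h3
    · have := mul_le_mul_of_nonneg_left (hGl 0 x xs) hA
      nlinarith
    · have := mul_nonneg hA hg
      nlinarith
  | succ h ih =>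
    intro hH x xs hP
    have hg := hG (h + 1) xs
    have hd := hD (h + 1) x xs
    have hcast : ((h + 1 : ℕ) : ℝ) = h + 1 := by push_cast; ring
    have hh : (0 : ℝ) ≤ h := Nat.cast_nonneg h
    have hhB : 0 ≤ (h : ℝ) * B := mul_nonneg hh hB0
    set M : ℝ := β * G (h + 1) xs + D (h + 1) x xs with hM
    have hM0 : 0 ≤ M := by positivity
    have hfM : f (h + 1) x ≤ M := by
      have := hfl (h + 1) x xs
      have := hfG (h + 1) xs
      linarith
    have hAD : A * D (h + 1) x xs ≤ c * D (h + 1) x xs := mul_le_mul_of_nonneg_right hAc hd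
    have h1 : 0 ≤ (κ₀ + ((h : ℝ) + 1) * B) * M := by positivity
    rw [hcast]
    have hηM : η * f (h + 1) x ≤ η * M := mul_le_mul_of_nonneg_left hfM hη
    have hηM0 : 0 ≤ η * M := mul_nonneg hη hM0
    have hcη : 0 ≤ c * η := mul_nonneg hc hη
    have hHB : ((h : ℝ) + 1) * B ≤ H * B := by
      apply mul_le_mul_of_nonneg_right _ hB0
      have : ((h + 1 : ℕ) : ℝ) ≤ H := by exact_mod_cast hH
      rw [hcast] at this
      exact this
    rcases hs h (by omega) x xs hP with h3 | h3 | ⟨ps, hPs, hGs, hDs, h4⟩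
    · have := mul_le_mul_of_nonneg_left (hGl (h + 1) x xs) hA
      linarith
    · have := mul_nonneg hA hg
      linarith
    · -- the sums over the pairs
      have hDs' : (ps.map fun p => D h p.1 p.2).sum ≤ D (h + 1) x xs + η * M := by linarith
      rcases h4 with h4 | h4
      · have h5 : (ps.map fun p => f h p.1).sum
            ≤ (ps.map fun p => β * G h p.2 + 1 * D h p.1 p.2).sum := by
          refine lsum_le _ _ _ fun p _ => ?_
          have := hfl h p.1 p.2
          have := hfG h p.2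
          linarith
        rw [lsum_comb ps (fun p => G h p.2) (fun p => D h p.1 p.2)] at h5
        have h6 : (ps.map fun p => f h p.1).sum ≤ M + η * M := by
          have := mul_le_mul_of_nonneg_left hGs hβ
          rw [hM] at hDs' ⊢
          linarith
        have h7 := mul_le_mul_of_nonneg_left h6 hκ₀
        have h8 : κ₀ * (η * M) ≤ B * M := by
          have : κ₀ * η ≤ B := by nlinarith [mul_nonneg hκ₀ hη, mul_nonneg (mul_nonneg hh hB0) hη]
          calc κ₀ * (η * M) = κ₀ * η * M := by ring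
            _ ≤ B * M := mul_le_mul_of_nonneg_right this hM0
        have h9 : 0 ≤ (h : ℝ) * B * M := by positivity
        have h10 := mul_nonneg hA hg
        have h11 := mul_nonneg hc hd
        nlinarith
      · have h5 : (ps.map fun p => X h p.1).sum
            ≤ (ps.map fun p => (A + (κ₀ + h * B) * β) * G h p.2
                + (c + (κ₀ + h * B)) * D h p.1 p.2).sum := by
          refine lsum_le _ _ _ fun p hp => ?_
          have := ih (by omega) p.1 p.2 (hPs p hp)
          linarith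
        rw [lsum_comb ps (fun p => G h p.2) (fun p => D h p.1 p.2)] at h5
        have hc1 : 0 ≤ A + (κ₀ + h * B) * β := by positivity
        have hc2 : 0 ≤ c + (κ₀ + h * B) := by positivity
        have h6 := mul_le_mul_of_nonneg_left hGs hc1
        have h7 := mul_le_mul_of_nonneg_left hDs' hc2
        have h8 : κ * f (h + 1) x ≤ κ * M := mul_le_mul_of_nonneg_left hfM hκ
        -- total: A G + c D + (κ₀ + h B) M + ((c + κ₀ + h B) η + κ) M
        have h9 : ((c + (κ₀ + h * B)) * η + κ) * M ≤ B * M := by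
          apply mul_le_mul_of_nonneg_right _ hM0
          have : (c + (κ₀ + h * B)) * η ≤ (c + κ₀ + H * B) * η := by
            apply mul_le_mul_of_nonneg_right _ hη
            nlinarith
          linarith
        have e1 : (A + (κ₀ + h * B) * β) * G (h + 1) xs + (c + (κ₀ + h * B)) * (D (h + 1) x xs + η * M)
            + κ * M = A * G (h + 1) xs + c * D (h + 1) x xs + (κ₀ + h * B) * M
              + ((c + (κ₀ + h * B)) * η + κ) * M := by
          rw [hM]; ring
        nlinarith

/-- one window: `X = R + lam Φ` loses at most `(κ' + 3 lam/J) f(x)` against every legal staircase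
(`f ≥ F`, defect `f/J` of `F`) -/
theorem window {α : Type*} {F a R : α → ℝ} (hFa : ∀ y, |a y| ≤ F y)
    {A Fx fx Rx J k1 κ s lam : ℝ}
    (hA : |A| ≤ Fx) (hx : 0 < Fx) (hfx : Fx ≤ fx) (hJ : 0 < J) (hk1 : 0 ≤ k1) (hκ : 0 ≤ κ)
    (hs : 0 < s) (hs1 : s ≤ 1) (hlam : k1 ≤ lam * s ^ 2)
    (l : List α) (hsum : (l.map a).sum = A) (hd : Fx ≤ (l.map F).sum + fx / J)
    (hnear : En F a (A / Fx) l ≤ s ^ 2 * Fx → (l.map F).sum - Fx ≤ s * Fx → fx / J ≤ s * Fx →
      Rx ≤ (l.map R).sum + κ * fx)
    (hall : Rx ≤ (l.map R).sum + k1 * Fx) :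
    Rx + lam * (A ^ 2 / Fx + 2 * Fx)
      ≤ (l.map fun y => R y + lam * Phi F a y).sum + (κ + 3 * lam / J) * fx := by
  have hfx0 : 0 < fx := hx.trans_le hfx
  have hlam0 : 0 ≤ lam := by
    by_contra h
    push Not at h
    nlinarith [mul_neg_of_neg_of_pos h (pow_pos hs 2)]
  have hs2 : s ^ 2 ≤ s := by nlinarith
  have hsplit : (l.map fun y => R y + lam * Phi F a y).sum
      = (l.map R).sum + lam * (l.map (Phi F a)).sum := by
    clear hsum hd hnear hall
    induction l with
    | nil => simp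
    | cons y l ih =>
      simp only [List.map_cons, List.sum_cons, ih]
      ring
  have hk0 : 0 ≤ fx / J / Fx := by positivity
  have hkF : fx / J / Fx * Fx = fx / J := by field_simp
  have hP := Phi_step hFa hA hx hk0 l hsum (by rw [hkF]; exact hd)
  rw [hkF] at hP
  have hE := En_nonneg (F := F) (a := a) (fun y => (abs_nonneg _).trans (hFa y)) (A / Fx) l
  have hP' := mul_le_mul_of_nonneg_left hP hlam0
  rw [hsplit]
  have hm : 0 ≤ max ((l.map F).sum - Fx) 0 := le_max_right _ _
  have hlJ : 0 ≤ lam * (fx / J) := by positivity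
  have e3 : (κ + 3 * lam / J) * fx = κ * fx + 3 * (lam * (fx / J)) := by
    field_simp
  rw [e3]
  have hκf : 0 ≤ κ * fx := by positivity
  by_cases hn : (En F a (A / Fx) l ≤ s ^ 2 * Fx ∧ (l.map F).sum - Fx ≤ s * Fx) ∧ fx / J ≤ s * Fx
  · have h1 := hnear hn.1.1 hn.1.2 hn.2
    nlinarith [mul_nonneg hlam0 hE, mul_nonneg hlam0 hm]
  · rw [not_and_or] at hn
    rcases hn with hn | hn
    · have h2 : s ^ 2 * Fx ≤ En F a (A / Fx) l + max ((l.map F).sum - Fx) 0 := by
        by_contra hc
        push Not at hc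
        apply hn
        constructor
        · linarith
        · have h3 : (l.map F).sum - Fx ≤ max ((l.map F).sum - Fx) 0 := le_max_left _ _
          nlinarith
      have h4 : k1 * Fx ≤ lam * (En F a (A / Fx) l + max ((l.map F).sum - Fx) 0) := by
        calc k1 * Fx ≤ lam * s ^ 2 * Fx := mul_le_mul_of_nonneg_right hlam hx.le
          _ = lam * (s ^ 2 * Fx) := by ring
          _ ≤ _ := mul_le_mul_of_nonneg_left h2 hlam0
      nlinarith
    · push Not at hn
      have h4 : k1 * Fx ≤ lam * (fx / J) := by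
        calc k1 * Fx ≤ lam * s ^ 2 * Fx := mul_le_mul_of_nonneg_right hlam hx.le
          _ = lam * s * (s * Fx) := by ring
          _ ≤ lam * s * (fx / J) :=
            mul_le_mul_of_nonneg_left hn.le (mul_nonneg hlam0 hs.le)
          _ ≤ lam * 1 * (fx / J) := by
            apply mul_le_mul_of_nonneg_right _ (by positivity)
            exact mul_le_mul_of_nonneg_left hs1 hlam0
          _ = lam * (fx / J) := by ring
      nlinarith [mul_nonneg hlam0 hE, mul_nonneg hlam0 hm]

/-- **one epoch, pointwise, with rounding** -/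
theorem epoch_pair {F a R : ∀ h, S h → ℝ} {P : ∀ h, S h → S h → Prop}
    {A c β κ₀ κ η B J k1 s lam : ℝ} {H : ℕ}
    (hFa : ∀ h y, |a h y| ≤ F h y) (hFf : ∀ h y, F h y ≤ f h y)
    (hA : 0 ≤ A) (hAc : A ≤ c) (hβ : 0 ≤ β) (hκ₀ : 0 ≤ κ₀) (hκ : 0 ≤ κ) (hη : 0 ≤ η)
    (hJ : 0 < J) (hk1 : 0 ≤ k1) (hs0 : 0 < s) (hs1 : s ≤ 1) (hlam0 : 0 ≤ lam)
    (hlam : k1 ≤ lam * s ^ 2)
    (hB0 : 0 ≤ B) (hB : (c + κ₀ + H * B) * η + (κ + 3 * lam / J) ≤ B)
    (hG : ∀ h x, 0 ≤ G h x) (hD : ∀ h x y, 0 ≤ D h x y)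
    (hGl : ∀ h x y, G h x ≤ G h y + D h x y) (hfl : ∀ h x y, f h x ≤ f h y + D h x y)
    (hfG : ∀ h x, f h x ≤ β * G h x)
    (h0 : ∀ x xs : S 0, P 0 x xs →
      R 0 x + 3 * lam * F 0 x ≤ A * G 0 x ∨ R 0 x + 3 * lam * F 0 x ≤ c * D 0 x xs)
    (hs : ∀ h, h < H → ∀ x xs : S (h + 1), P (h + 1) x xs →
      R (h + 1) x + 3 * lam * F (h + 1) x ≤ A * G (h + 1) x ∨
      R (h + 1) x + 3 * lam * F (h + 1) x ≤ c * D (h + 1) x xs ∨
      ∃ ps : List (S h × S h), (∀ p ∈ ps, P h p.1 p.2) ∧
        (ps.map fun p => G h p.2).sum ≤ G (h + 1) xs ∧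
        (ps.map fun p => D h p.1 p.2).sum ≤ D (h + 1) x xs + η * f (h + 1) x ∧
        (R (h + 1) x + 3 * lam * F (h + 1) x ≤ κ₀ * (ps.map fun p => F h p.1).sum ∨
          (0 < F (h + 1) x ∧
           ((ps.map Prod.fst).map (a h)).sum = a (h + 1) x ∧
           F (h + 1) x ≤ ((ps.map Prod.fst).map (F h)).sum + f (h + 1) x / J ∧
           (En (F h) (a h) (a (h + 1) x / F (h + 1) x) (ps.map Prod.fst) ≤ s ^ 2 * F (h + 1) x →
            ((ps.map Prod.fst).map (F h)).sum - F (h + 1) x ≤ s * F (h + 1) x →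
            f (h + 1) x / J ≤ s * F (h + 1) x →
            R (h + 1) x ≤ ((ps.map Prod.fst).map (R h)).sum + κ * f (h + 1) x) ∧
           R (h + 1) x ≤ ((ps.map Prod.fst).map (R h)).sum + k1 * F (h + 1) x))) :
    ∀ h, h ≤ H → ∀ x xs : S h, P h x xs →
      R h x ≤ A * G h xs + c * D h x xs + (κ₀ + h * B) * (β * G h xs + D h x xs) := by
  have hPhi : ∀ h (y : S h), lam * Phi (F h) (a h) y ≤ 3 * lam * F h y := fun h y => by
    have := mul_le_mul_of_nonneg_left (Phi_le (hFa h) y) hlam0
    linarith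
  have hPhi0 : ∀ h (y : S h), 0 ≤ lam * Phi (F h) (a h) y := fun h y =>
    mul_nonneg hlam0 (Phi_nonneg (hFa h) y)
  intro h hh x xs hP
  have key := pair_bound (G := G) (f := f) (D := D) (P := P)
    (X := fun h x => R h x + lam * Phi (F h) (a h) x) (A := A) (c := c) (β := β) (κ₀ := κ₀)
    (κ := κ + 3 * lam / J) (η := η) (B := B) (H := H) hA hAc hβ hκ₀ (by positivity) hη hB0 hB
    hG hD hGl hfl hfG ?_ ?_ h hh x xs hP
  · have := hPhi0 h x
    linarith
  · intro x xs hP
    have h1 := hPhi 0 x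
    rcases h0 x xs hP with h2 | h2
    · left; linarith
    · right; linarith
  · intro h hh x xs hP
    have h1 := hPhi (h + 1) x
    rcases hs h hh x xs hP with h2 | h2 | ⟨ps, hPs, hGs, hDs, h3⟩
    · left; linarith
    · right; left; linarith
    · right; right
      refine ⟨ps, hPs, hGs, hDs, ?_⟩
      rcases h3 with h3 | ⟨hF0, hsum, hd, hnear, hall⟩
      · left
        have h4 : (ps.map fun p => F h p.1).sum ≤ (ps.map fun p => f h p.1).sum :=
          lsum_le _ _ _ fun p _ => hFf h p.1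
        have := mul_le_mul_of_nonneg_left h4 hκ₀
        linarith
      · right
        have hw := window (R := R h) (hFa h) (Rx := R (h + 1) x) (fx := f (h + 1) x) (J := J)
          (k1 := k1) (κ := κ) (s := s) (lam := lam) (hFa (h + 1) x) hF0 (hFf (h + 1) x) hJ hk1 hκ
          hs0 hs1 hlam (ps.map Prod.fst) hsum hd hnear hall
        rw [List.map_map] at hw
        exact hw

end Crest.Agent.R288.PairI908
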