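import Crest.Agent.R288.Num_414

/-!
# R288 leaf [PAR], part A (helper806): calculus of "sub-`L`" parameters

`L` = root height, `ell L ≈ log2 L`, `ww L ≈ log2 (ell L)` (the slow function `w`).
`Num414.SP f` (read in the variable `L`) says that `f` is below every power of `L`.
Consequences in the form in which parameters are compared.
-/

set_option autoImplicit false

open Filter

namespace Crest.Agent.R288.Par806

open Crest.Agent.R288.Num414

/-- `ell L ≈ log2 L`, at least `1` -/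
def ell (L : ℕ) : ℕ := Nat.clog 2 (L + 2)

/-- the slow function `w ≈ log2 log2 L`, at least `1` -/
def ww (L : ℕ) : ℕ := Nat.log 2 (ell L + 1)

theorem ell_pos (L : ℕ) : 1 ≤ ell L := by
  have h : 0 < Nat.clog 2 (L + 2) := Nat.clog_pos (by norm_num) (by omega)
  exact h

theorem ww_pos (L : ℕ) : 1 ≤ ww L := by
  unfold ww
  exact Nat.log_pos (by norm_num) (by have := ell_pos L; omega)

theorem le_two_pow_ell (L : ℕ) : L + 2 ≤ 2 ^ ell L := Nat.le_pow_clog (b := 2) (by norm_num) _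

theorem two_pow_ell_le (L : ℕ) : 2 ^ ell L ≤ 2 * (L + 1) := by
  unfold ell
  have h : 2 ^ (Nat.clog 2 (L + 2) - 1) < L + 2 :=
    Nat.pow_pred_clog_lt_self (b := 2) (x := L + 2) (by norm_num) (by omega)
  have h0 : 0 < Nat.clog 2 (L + 2) := Nat.clog_pos (by norm_num) (by omega)
  calc 2 ^ Nat.clog 2 (L + 2) = 2 * 2 ^ (Nat.clog 2 (L + 2) - 1) := by
        rw [← pow_succ']; congr 1
    _ ≤ 2 * (L + 1) := by omega

theorem two_pow_ww_le (L : ℕ) : 2 ^ ww L ≤ ell L + 1 :=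
  Nat.pow_log_le_self 2 (by omega)

theorem ell_lt_two_pow_ww (L : ℕ) : ell L + 1 < 2 ^ (ww L + 1) :=
  Nat.lt_pow_succ_log_self (by norm_num) _

theorem tendsto_ell : Tendsto ell atTop atTop :=
  tendsto_clog2.comp (tendsto_add_atTop_nat 2)

theorem tendsto_ww : Tendsto ww atTop atTop :=
  tendsto_log2.comp ((tendsto_add_atTop_nat 1).comp tendsto_ell)

/-! ### sub-`L` functions -/

theorem SP.congr' {f g : ℕ → ℕ} (hg : SP g) (h : ∀ L, f L ≤ g L) : SP f :=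
  hg.mono (Eventually.of_forall h)

theorem SP_ell : SP ell := SP.clog.shift 2

theorem SP_ww : SP ww :=
  SP.congr' SP_ell fun L => by
    have := two_pow_ww_le L
    have h2 : ww L < 2 ^ ww L := Nat.lt_two_pow_self
    omega

/-- `2 ^ (c w^k)` is sub-`L` -/
theorem SP_two_pow_ww (c k : ℕ) : SP (fun L => 2 ^ (c * ww L ^ k)) := by
  refine SP.two_pow fun η hη => ?_
  -- `c w^k ≤ η log2 L`
  have h1 : SP (fun l => c * (Nat.clog 2 (l + 2)) ^ k) :=
    (SP.const c).mul ((SP.clog.shift 2).pow k)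
  -- use `δ = 1/2` and `ell → ∞`
  have h2 := tendsto_ell.eventually (h1 (1 / 2) (by norm_num))
  have h3 : ∀ᶠ L : ℕ in atTop, (16 / η ^ 2 + 16 : ℝ) ≤ (ell L : ℝ) :=
    (tendsto_natCast_atTop_atTop.comp tendsto_ell).eventually_ge_atTop _
  filter_upwards [h2, h3, eventually_ge_atTop 2] with L h4 h5 h6
  have hell0 : (0 : ℝ) < (ell L : ℝ) := lt_of_lt_of_le (by positivity) h5
  have hw : ww L ≤ Nat.clog 2 (ell L + 2) := by
    unfold ww
    refine (Nat.log_le_clog 2 _).trans (Nat.clog_mono_right 2 (by omega))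
  have h7 : ((c * ww L ^ k : ℕ) : ℝ) ≤ ((c * (Nat.clog 2 (ell L + 2)) ^ k : ℕ) : ℝ) := by
    exact_mod_cast Nat.mul_le_mul_left _ (Nat.pow_le_pow_left hw k)
  have h8 : (ell L : ℝ) ^ (1 / 2 : ℝ) ≤ (η / 4) * (ell L : ℝ) := by
    rw [← Real.sqrt_eq_rpow]
    have hs : (4 / η : ℝ) ≤ Real.sqrt (ell L) := by
      refine Real.le_sqrt_of_sq_le ?_
      calc (4 / η : ℝ) ^ 2 = 16 / η ^ 2 := by ring
        _ ≤ _ := by linarith
    have hs0 : 0 ≤ Real.sqrt (ell L : ℝ) := Real.sqrt_nonneg _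
    have hsq : Real.sqrt (ell L : ℝ) * Real.sqrt (ell L : ℝ) = ell L :=
      Real.mul_self_sqrt hell0.le
    have h9 : (1 : ℝ) ≤ η / 4 * Real.sqrt (ell L) := by
      have := mul_le_mul_of_nonneg_left hs (show 0 ≤ η / 4 by positivity)
      have h10 : η / 4 * (4 / η) = 1 := by field_simp
      linarith
    calc Real.sqrt (ell L : ℝ) = 1 * Real.sqrt (ell L : ℝ) := (one_mul _).symm
      _ ≤ (η / 4 * Real.sqrt (ell L)) * Real.sqrt (ell L) := by gcongr
      _ = η / 4 * (ell L : ℝ) := by rw [mul_assoc, hsq]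
  have h11 : (ell L : ℝ) ≤ 4 * Real.logb 2 (L : ℝ) := by
    have hL : (2 : ℝ) ≤ (L : ℝ) := by exact_mod_cast h6
    have hl : (1 : ℝ) ≤ Real.logb 2 (L : ℝ) := by
      rw [Real.le_logb_iff_rpow_le (by norm_num) (by linarith)]
      simpa using hL
    have h12 : (ell L : ℝ) ≤ Real.logb 2 ((L + 2 : ℕ) : ℝ) + 1 := clog_le_logb (L + 2) (by omega)
    have h13 : Real.logb 2 ((L + 2 : ℕ) : ℝ) ≤ Real.logb 2 ((L : ℝ) ^ 2) := by
      refine Real.logb_le_logb_of_le (by norm_num) (by positivity) ?_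
      push_cast
      nlinarith
    rw [Real.logb_pow] at h13
    have h14 : ((2 : ℕ) : ℝ) = 2 := by norm_num
    rw [h14] at h13
    linarith
  calc ((c * ww L ^ k : ℕ) : ℝ) ≤ _ := h7
    _ ≤ (ell L : ℝ) ^ (1 / 2 : ℝ) := h4
    _ ≤ η / 4 * (ell L : ℝ) := h8
    _ ≤ η / 4 * (4 * Real.logb 2 (L : ℝ)) := by gcongr
    _ = η * Real.logb 2 (L : ℝ) := by ring

theorem SP_id_mul_two_pow_ww (a c k : ℕ) (b : ℕ) :
    SP (fun L => a * ell L ^ b * 2 ^ (c * ww L ^ k)) :=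
  ((SP.const a).mul (SP_ell.pow b)).mul (SP_two_pow_ww c k)

/-- sub-`L` functions are eventually `≤ L` -/
theorem SP.le_id {f : ℕ → ℕ} (hf : SP f) : ∀ᶠ L : ℕ in atTop, f L ≤ L := by
  filter_upwards [hf 1 one_pos] with L h
  rw [Real.rpow_one] at h
  exact_mod_cast h

theorem SP.pow_le_id {f : ℕ → ℕ} (hf : SP f) (d : ℕ) : ∀ᶠ L : ℕ in atTop, f L ^ d ≤ L :=
  SP.le_id (hf.pow d)

/-- `f ≤ L / g` for sub-`L` functions `f`, `g` -/
theorem SP.le_div {f g : ℕ → ℕ} (hf : SP f) (hg : SP g) (hg0 : ∀ L, 0 < g L) :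
    ∀ᶠ L : ℕ in atTop, f L ≤ L / g L := by
  filter_upwards [SP.le_id (hf.mul hg)] with L h
  rwa [Nat.le_div_iff_mul_le (hg0 L)]

/-- a sub-`L` function times a square root of `L` is `≤ L` -/
theorem SP.sq_mul_le {f : ℕ → ℕ} (hf : SP f) (d : ℕ) :
    ∀ᶠ L : ℕ in atTop, (f L ^ (d + 1)) ≤ L := SP.pow_le_id hf (d + 1)

theorem SP.mul' {f g h : ℕ → ℕ} (hf : SP f) (hg : SP g) (hh : ∀ L, h L ≤ f L * g L) : SP h :=
  SP.congr' (hf.mul hg) hh

/-- real form: for sub-`L` `f` and `η > 0`, `f L ≤ η L ^ δ` eventually -/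
theorem SP.le_rpow {f : ℕ → ℕ} (hf : SP f) {δ η : ℝ} (hδ : 0 < δ) (hη : 0 < η) :
    ∀ᶠ L : ℕ in atTop, (f L : ℝ) ≤ η * (L : ℝ) ^ δ := by
  filter_upwards [hf (δ / 2) (by positivity),
    (tendsto_rpow_nat (show 0 < δ / 2 by positivity)).eventually_ge_atTop (1 / η),
    eventually_ge_atTop 1] with L h1 h2 h3
  have hL : (0 : ℝ) < (L : ℝ) := by exact_mod_cast h3
  have h4 : 1 ≤ η * (L : ℝ) ^ (δ / 2) := by
    rw [div_le_iff₀ hη] at h2
    linarith
  calc (f L : ℝ) ≤ (L : ℝ) ^ (δ / 2) := h1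
    _ = 1 * (L : ℝ) ^ (δ / 2) := (one_mul _).symm
    _ ≤ (η * (L : ℝ) ^ (δ / 2)) * (L : ℝ) ^ (δ / 2) := by gcongr
    _ = η * ((L : ℝ) ^ (δ / 2) * (L : ℝ) ^ (δ / 2)) := by ring
    _ = η * (L : ℝ) ^ δ := by rw [← Real.rpow_add hL]; congr 2; ring

/-- from "eventually in `L`" to "eventually in `N`", `L = clog N + c` -/
theorem eventually_height {P : ℕ → Prop} (h : ∀ᶠ L : ℕ in atTop, P L) (c : ℕ) :
    ∀ᶠ N : ℕ in atTop, P (Nat.clog 2 N + c) :=
  (tendsto_atTop_mono (fun N => Nat.le_add_right _ c) tendsto_clog2).eventually h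

end Crest.Agent.R288.Par806
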