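import Crest.Agent.R288.ParB_806

/-!
# R288 leaf [PAR], analysis side, part C (helper895): calculus of orders

`Ord a b f` : `|f h| ≤ 2 ^ (a W Lg) * h ^ (b + o(1))` (`2 ^ Lg h ≈ h`), `a`, `b` real.  Orders are compared
lexicographically (`W → ∞`): `Ord a b f` with `a < 0`, or `a = 0` and `b < 0`, gives `C |f h| ≤ 1` for every `C`.

* `Ord.const/add/sub/mul/pow/mono/weaken/neg/abs/sum2/max`
* `Ord.le_one`, `Ord.mul_le_one`, `Ord.ev_le` (`C * |f h| * W h ^ c ≤ 1`).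
* the orders of the parameters of the table `ParB_806`.
-/

set_option autoImplicit false

open Filter

namespace Crest.Agent.R288.Par895

open Crest.Agent.R288.Asy720 Crest.Agent.R288.Par806

theorem tendsto_Lg : Tendsto Lg atTop atTop :=
  tendsto_atTop_mono (fun _ => Nat.le_succ _) (tendsto_il 1)

theorem tendsto_LgR : Tendsto (fun h => (Lg h : ℝ)) atTop atTop :=
  tendsto_natCast_atTop_atTop.comp tendsto_Lg

theorem tendsto_WR : Tendsto (fun h => (W h : ℝ)) atTop atTop :=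
  tendsto_natCast_atTop_atTop.comp tendsto_W

/-- `2 ^ (a W Lg + b Lg)` -/
noncomputable def X (a b : ℝ) (h : ℕ) : ℝ := (2 : ℝ) ^ (a * ((W h : ℝ) * Lg h) + b * Lg h)

theorem X_pos (a b : ℝ) (h : ℕ) : 0 < X a b h := Real.rpow_pos_of_pos (by norm_num) _

theorem X_mul (a b a' b' : ℝ) (h : ℕ) : X a b h * X a' b' h = X (a + a') (b + b') h := by
  unfold X
  rw [← Real.rpow_add (by norm_num)]
  congr 1
  ring

theorem X_zero (h : ℕ) : X 0 0 h = 1 := by simp [X]

theorem X_mono {a b b' : ℝ} (hb : b ≤ b') (h : ℕ) : X a b h ≤ X a b' h := by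
  unfold X
  refine Real.rpow_le_rpow_of_exponent_le (by norm_num) ?_
  have : (0 : ℝ) ≤ Lg h := Nat.cast_nonneg _
  nlinarith

theorem X_lex {a a' : ℝ} (ha : a < a') (b b' : ℝ) : ∀ᶠ h : ℕ in atTop, X a b h ≤ X a' b' h := by
  filter_upwards [tendsto_WR.eventually_ge_atTop ((b - b') / (a' - a))] with h h1
  unfold X
  refine Real.rpow_le_rpow_of_exponent_le (by norm_num) ?_
  have h2 : (0 : ℝ) ≤ Lg h := Nat.cast_nonneg _
  have h3 : b - b' ≤ (a' - a) * W h := by
    rw [div_le_iff₀ (by linarith)] at h1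
    linarith
  nlinarith

/-- every constant is below `X 0 δ` -/
theorem ev_const_le (C : ℝ) {δ : ℝ} (hδ : 0 < δ) : ∀ᶠ h : ℕ in atTop, C ≤ X 0 δ h := by
  have h0 : Tendsto (fun h : ℕ => (2 : ℝ) ^ (δ * (Lg h : ℝ))) atTop atTop := by
    have h1 : Tendsto (fun h : ℕ => δ * (Lg h : ℝ)) atTop atTop := tendsto_LgR.const_mul_atTop hδ
    exact (tendsto_rpow_atTop_of_base_gt_one (2 : ℝ) (by norm_num)).comp h1
  filter_upwards [h0.eventually_ge_atTop C] with h h1
  simpa [X] using h1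

/-- `|f h| ≤ 2 ^ (a W Lg) h ^ (b + o(1))` -/
def Ord (a b : ℝ) (f : ℕ → ℝ) : Prop := ∀ δ : ℝ, 0 < δ → ∀ᶠ h : ℕ in atTop, |f h| ≤ X a (b + δ) h

variable {a b a' b' : ℝ} {f g : ℕ → ℝ}

theorem Ord.mono (hg : Ord a b g) (hfg : ∀ᶠ h : ℕ in atTop, |f h| ≤ |g h|) : Ord a b f := fun δ hδ => by
  filter_upwards [hg δ hδ, hfg] with h h1 h2
  exact h2.trans h1

theorem Ord.mono' (hg : Ord a b g) (hfg : ∀ h, |f h| ≤ |g h|) : Ord a b f :=
  hg.mono (Eventually.of_forall hfg)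

/-- for nonnegative functions -/
theorem Ord.of_le (hg : Ord a b g) (hf : ∀ᶠ h : ℕ in atTop, 0 ≤ f h)
    (hfg : ∀ᶠ h : ℕ in atTop, f h ≤ g h) : Ord a b f :=
  hg.mono (by
    filter_upwards [hf, hfg] with h h1 h2
    rw [abs_of_nonneg h1]
    exact h2.trans (le_abs_self _))

theorem Ord.congr (hg : Ord a b g) (h : ∀ h, f h = g h) : Ord a b f := by
  have : f = g := funext h
  rwa [this]

theorem Ord.const (c : ℝ) : Ord 0 0 fun _ => c := fun δ hδ => by
  simpa using ev_const_le |c| hδ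

theorem Ord.mul (hf : Ord a b f) (hg : Ord a' b' g) : Ord (a + a') (b + b') fun h => f h * g h :=
  fun δ hδ => by
  filter_upwards [hf (δ / 2) (by positivity), hg (δ / 2) (by positivity)] with h h1 h2
  rw [abs_mul]
  calc |f h| * |g h| ≤ X a (b + δ / 2) h * X a' (b' + δ / 2) h :=
        mul_le_mul h1 h2 (abs_nonneg _) (X_pos _ _ _).le
    _ = X (a + a') (b + b' + δ) h := by rw [X_mul]; congr 1; ring

theorem Ord.lex (h : a < a' ∨ (a = a' ∧ b ≤ b')) (hf : Ord a b f) : Ord a' b' f := fun δ hδ => by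
  rcases h with h | ⟨h, hb⟩
  · filter_upwards [hf δ hδ, X_lex h (b + δ) (b' + δ)] with m h1 h2
    exact h1.trans h2
  · subst h
    filter_upwards [hf δ hδ] with m h1
    exact h1.trans (X_mono (by linarith) m)

theorem Ord.weak (hf : Ord a b f) (hb : b ≤ b') : Ord a b' f := hf.lex (Or.inr ⟨rfl, hb⟩)

theorem Ord.lt (hf : Ord a b f) (h : a < a') (b' : ℝ) : Ord a' b' f := hf.lex (Or.inl h)

theorem Ord.add (hf : Ord a b f) (hg : Ord a b g) : Ord a b fun h => f h + g h := fun δ hδ => by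
  filter_upwards [hf (δ / 2) (by positivity), hg (δ / 2) (by positivity),
    ev_const_le 2 (show 0 < δ / 2 by positivity)] with h h1 h2 h3
  calc |f h + g h| ≤ |f h| + |g h| := abs_add_le _ _
    _ ≤ 2 * X a (b + δ / 2) h := by linarith
    _ ≤ X 0 (δ / 2) h * X a (b + δ / 2) h := mul_le_mul_of_nonneg_right h3 (X_pos _ _ _).le
    _ = X a (b + δ) h := by rw [X_mul]; congr 1 <;> ring

theorem Ord.neg (hf : Ord a b f) : Ord a b fun h => -f h := hf.mono' fun _ => (abs_neg _).le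

theorem Ord.sub (hf : Ord a b f) (hg : Ord a b g) : Ord a b fun h => f h - g h :=
  (hf.add hg.neg).congr fun _ => sub_eq_add_neg _ _

theorem Ord.abs (hf : Ord a b f) : Ord a b fun h => |f h| := hf.mono' fun _ => (abs_abs _).le

theorem Ord.max (hf : Ord a b f) (hg : Ord a b g) : Ord a b fun h => Max.max (f h) (g h) :=
  (hf.abs.add hg.abs).mono' fun h => by
    rw [abs_of_nonneg (add_nonneg (abs_nonneg (f h)) (abs_nonneg (g h)))]
    have h1 := abs_nonneg (f h)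
    have h2 := abs_nonneg (g h)
    rcases max_choice (f h) (g h) with h3 | h3 <;> rw [h3] <;> linarith

theorem Ord.const_mul (c : ℝ) (hf : Ord a b f) : Ord a b fun h => c * f h := by
  have := (Ord.const c).mul hf
  simpa using this

theorem Ord.mul_const (c : ℝ) (hf : Ord a b f) : Ord a b fun h => f h * c := by
  have := hf.mul (Ord.const c)
  simpa using this

theorem Ord.div_const (c : ℝ) (hf : Ord a b f) : Ord a b fun h => f h / c := by
  simpa [div_eq_mul_inv] using hf.mul_const c⁻¹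

theorem Ord.pow (hf : Ord a b f) (k : ℕ) : Ord (k * a) (k * b) fun h => f h ^ k := by
  induction k with
  | zero => simpa using Ord.const 1
  | succ k ih =>
    have h1 := ih.mul hf
    have h2 : ((k : ℝ) * a + a) = ((k + 1 : ℕ) : ℝ) * a := by push_cast; ring
    have h3 : ((k : ℝ) * b + b) = ((k + 1 : ℕ) : ℝ) * b := by push_cast; ring
    rw [h2, h3] at h1
    exact h1.congr fun h => pow_succ _ _

/-- multiplication by a function of order `(0,0)` -/
theorem Ord.mul0 (hf : Ord a b f) (hg : Ord 0 0 g) : Ord a b fun h => f h * g h := by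
  simpa using hf.mul hg

theorem Ord.zmul (hf : Ord 0 0 f) (hg : Ord a b g) : Ord a b fun h => f h * g h := by
  simpa using hf.mul hg

theorem Ord.pow0 (hf : Ord 0 0 f) (k : ℕ) : Ord 0 0 fun h => f h ^ k := by
  simpa using hf.pow k

/-- negative order: eventually at most `1` -/
theorem Ord.le_one (hf : Ord a b f) (h : a < 0 ∨ (a = 0 ∧ b < 0)) : ∀ᶠ h : ℕ in atTop, |f h| ≤ 1 := by
  rcases h with h | ⟨h, hb⟩
  · have h1 : Ord 0 (-1) f := hf.lt h (-1)
    filter_upwards [h1 (1 / 2) (by norm_num)] with m h2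
    refine h2.trans ?_
    calc X 0 (-1 + 1 / 2) m ≤ X 0 0 m := X_mono (by norm_num) m
      _ = 1 := X_zero m
  · subst h
    filter_upwards [hf (-b / 2) (by linarith)] with m h2
    refine h2.trans ?_
    calc X 0 (b + -b / 2) m ≤ X 0 0 m := X_mono (by linarith) m
      _ = 1 := X_zero m

/-- negative order against any function of order `(0,0)` -/
theorem Ord.mul_le_one (hf : Ord a b f) (h : a < 0 ∨ (a = 0 ∧ b < 0)) (hg : Ord 0 0 g) :
    ∀ᶠ h : ℕ in atTop, |f h * g h| ≤ 1 := (hf.mul0 hg).le_one h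

/-! ### orders of natural functions -/

/-- sub-polynomial naturals have order `(0,0)` -/
theorem Ord.of_sm {f : ℕ → ℕ} (hf : Sm 0 f) : Ord 0 0 fun h => (f h : ℝ) := fun δ hδ => by
  -- `f ^ k ≤ h` with `1/k ≤ δ`
  obtain ⟨k, hk⟩ := exists_nat_gt (1 / δ)
  have hk0 : (0 : ℝ) < k := lt_trans (by positivity) hk
  have hk1 : k ≠ 0 := by rintro rfl; simp at hk0
  filter_upwards [hf.ev 1 k] with h h1
  rw [one_mul] at h1
  have h2 : (f h : ℝ) ^ k ≤ (2 : ℝ) ^ (Lg h : ℝ) := by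
    have h3 : (f h) ^ k ≤ 2 ^ Lg h := h1.trans (lt_two_pow_Lg h).le
    rw [Real.rpow_natCast]
    exact_mod_cast h3
  have h4 : (f h : ℝ) ≤ (2 : ℝ) ^ ((Lg h : ℝ) / k) := by
    have h5 : (0 : ℝ) ≤ f h := Nat.cast_nonneg _
    calc (f h : ℝ) = ((f h : ℝ) ^ k) ^ ((k : ℝ)⁻¹) := by
          rw [← Real.rpow_natCast, ← Real.rpow_mul h5, mul_inv_cancel₀ hk0.ne', Real.rpow_one]
      _ ≤ ((2 : ℝ) ^ (Lg h : ℝ)) ^ ((k : ℝ)⁻¹) :=
          Real.rpow_le_rpow (by positivity) h2 (by positivity)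
      _ = _ := by rw [← Real.rpow_mul (by norm_num)]; rfl
  rw [abs_of_nonneg (Nat.cast_nonneg _)]
  refine h4.trans ?_
  unfold X
  refine Real.rpow_le_rpow_of_exponent_le (by norm_num) ?_
  have h6 : (0 : ℝ) ≤ Lg h := Nat.cast_nonneg _
  have h7 : 1 / (k : ℝ) ≤ δ := by
    rw [div_le_iff₀ hk0]
    rw [div_lt_iff₀ hδ] at hk
    linarith
  have h8 : (Lg h : ℝ) / k = 1 / (k : ℝ) * Lg h := by ring
  rw [h8]
  nlinarith

theorem ord_h : Ord 0 1 fun h => (h : ℝ) := fun δ hδ => by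
  refine Eventually.of_forall fun h => ?_
  rw [abs_of_nonneg (Nat.cast_nonneg _)]
  have h1 : (h : ℝ) ≤ (2 : ℝ) ^ (Lg h : ℝ) := by
    rw [Real.rpow_natCast]
    exact_mod_cast (lt_two_pow_Lg h).le
  refine h1.trans ?_
  unfold X
  refine Real.rpow_le_rpow_of_exponent_le (by norm_num) ?_
  have h6 : (0 : ℝ) ≤ Lg h := Nat.cast_nonneg _
  nlinarith

theorem ord_inv_h : Ord 0 (-1) fun h => (h : ℝ)⁻¹ := fun δ hδ => by
  filter_upwards [ev_const_le 2 hδ, eventually_ge_atTop 1] with h h1 h2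
  have h3 : (0 : ℝ) < h := by exact_mod_cast h2
  rw [abs_of_nonneg (by positivity)]
  have h4 : (2 : ℝ) ^ (Lg h : ℝ) ≤ 2 * h := by
    rw [Real.rpow_natCast]
    exact_mod_cast two_pow_Lg_le h2
  have h5 : (0 : ℝ) < (2 : ℝ) ^ (Lg h : ℝ) := Real.rpow_pos_of_pos (by norm_num) _
  calc (h : ℝ)⁻¹ ≤ 2 * ((2 : ℝ) ^ (Lg h : ℝ))⁻¹ := by
        rw [← div_eq_mul_inv, inv_eq_one_div, div_le_div_iff₀ h3 h5]
        linarith
    _ ≤ X 0 δ h * ((2 : ℝ) ^ (Lg h : ℝ))⁻¹ := by gcongr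
    _ = X 0 (-1 + δ) h := by
        unfold X
        rw [← Real.rpow_neg (by norm_num), ← Real.rpow_add (by norm_num)]
        congr 1
        ring

/-- `2 ^ (c W Lg + d Lg)` -/
theorem ord_two_pow {e : ℕ → ℕ} (c d : ℝ) (he : ∀ h, (e h : ℝ) = c * ((W h : ℝ) * Lg h) + d * Lg h) :
    Ord c d fun h => (2 : ℝ) ^ e h := fun δ hδ => by
  refine Eventually.of_forall fun h => ?_
  rw [abs_of_nonneg (by positivity)]
  beta_reduce
  rw [← Real.rpow_natCast, he h]
  exact X_mono (by linarith) h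

theorem ord_two_pow_inv {e : ℕ → ℕ} (c d : ℝ)
    (he : ∀ h, (e h : ℝ) = c * ((W h : ℝ) * Lg h) + d * Lg h) :
    Ord (-c) (-d) fun h => ((2 : ℝ) ^ e h)⁻¹ := fun δ hδ => by
  refine Eventually.of_forall fun h => ?_
  rw [abs_of_nonneg (by positivity)]
  beta_reduce
  rw [← Real.rpow_natCast, he h, ← Real.rpow_neg (by norm_num)]
  have : -(c * ((W h : ℝ) * Lg h) + d * Lg h) = -c * ((W h : ℝ) * Lg h) + -d * Lg h := by ring
  rw [this]
  exact X_mono (by linarith) h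

/-! ### the table -/

theorem ord_W : Ord 0 0 fun h => (W h : ℝ) := Ord.of_sm (sm_W (by norm_num))
theorem ord_Lg : Ord 0 0 fun h => (Lg h : ℝ) := Ord.of_sm sm_Lg
theorem ord_Mg : Ord 0 0 fun h => (Mg h : ℝ) := Ord.of_sm (sm_Mg (by norm_num))
theorem ord_nn : Ord 0 0 fun h => (nn h : ℝ) := Ord.of_sm (sm1_nn.of_le (by norm_num))
theorem ord_δi : Ord 0 0 fun h => (δi h : ℝ) :=
  ((ord_W.pow0 2).const_mul 4).congr fun h => by unfold δi; push_cast; ring
theorem ord_gg : Ord 0 0 fun h => (gg h : ℝ) :=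
  ((ord_W.pow0 12).mul0 (ord_Lg.pow0 3)).congr fun h => by unfold gg; push_cast; ring
theorem ord_gam : Ord 0 0 fun h => (gam h : ℝ) :=
  ((ord_W.pow0 14).mul0 (ord_Lg.pow0 4)).congr fun h => by unfold gam; push_cast; ring
theorem ord_um : Ord 0 0 fun h => (um h : ℝ) :=
  (((ord_gg.mul0 (ord_nn.add (Ord.const 1)))).mul_const (4 * (Creg + 2))).congr fun h => by
    unfold um; push_cast; ring
theorem ord_bb : Ord 0 0 fun h => (bb h : ℝ) :=
  (ord_Mg.const_mul 12).congr fun h => by unfold bb; push_cast; ring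
theorem ord_sb : Ord 0 0 fun h => (sb h : ℝ) :=
  (((ord_bb.add (ord_nn.const_mul 2)).add (ord_Mg.const_mul 2))).congr fun h => by
    unfold sb; push_cast; ring
theorem ord_a1 : Ord 0 0 fun h => (a1 h : ℝ) :=
  (ord_bb.add ord_Mg).congr fun h => by unfold a1; push_cast; ring
theorem ord_c0 : Ord 0 0 fun h => (c0 h : ℝ) := ord_Mg
theorem ord_pb : Ord 0 0 fun h => (pb h : ℝ) :=
  ((ord_W.mul0 ord_Lg).const_mul 16).congr fun h => by unfold pb; push_cast; ring
theorem ord_nb : Ord 0 0 fun h => (nb h : ℝ) :=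
  ((ord_W.mul0 ord_Lg).const_mul 8).congr fun h => by unfold nb; push_cast; ring
theorem ord_lB : Ord 0 0 fun h => (lB h : ℝ) :=
  ((ord_W.add (Ord.const 4)).mul0 ord_Lg).congr fun h => by unfold lB; push_cast; ring
theorem ord_EE : Ord 0 0 fun h => (EE h : ℝ) :=
  (ord_lB.const_mul 4).congr fun h => by unfold EE lB; push_cast; ring
theorem ord_gJ : Ord 0 0 fun h => (gJ h : ℝ) :=
  ((ord_W.pow0 2).mul0 ord_Lg).congr fun h => by unfold gJ; push_cast; ring

/-- powers `2 ^ (d nn + e Mg)` -/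
theorem ord_two_pow_nn (d e : ℕ) : Ord 0 0 fun h => (2 : ℝ) ^ (d * nn h + e * Mg h) :=
  ((Ord.of_sm (sm_two_pow_nn d)).mul0 (Ord.of_sm (sm_two_pow_Mg e))).congr fun h => by
    push_cast; rw [pow_add]

theorem ord_two_pow_bb : Ord 0 0 fun h => (2 : ℝ) ^ bb h :=
  (ord_two_pow_nn 0 12).congr fun h => by simp [bb]
theorem ord_two_pow_sb : Ord 0 0 fun h => (2 : ℝ) ^ sb h :=
  (ord_two_pow_nn 2 14).congr fun h => by congr 1; unfold sb bb; ring
theorem ord_two_pow_a1 : Ord 0 0 fun h => (2 : ℝ) ^ a1 h :=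
  (ord_two_pow_nn 0 13).congr fun h => by congr 1; unfold a1 bb; ring
theorem ord_N : Ord 0 0 fun h => (2 : ℝ) ^ nn h :=
  (ord_two_pow_nn 1 0).congr fun h => by simp
theorem ord_two_pow_c0 : Ord 0 0 fun h => (2 : ℝ) ^ c0 h :=
  (ord_two_pow_nn 0 1).congr fun h => by simp [c0]
theorem ord_mJ : Ord 0 0 fun h => (mJ h : ℝ) :=
  (ord_two_pow_nn 0 26).congr fun h => by
    unfold mJ bb
    push_cast
    rw [show (4 : ℝ) = 2 ^ 2 by norm_num, ← pow_mul]
    congr 1
    ring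

theorem ord_two_pow_pb : Ord 16 0 fun h => (2 : ℝ) ^ pb h :=
  ord_two_pow 16 0 fun h => by unfold pb; push_cast; ring
theorem ord_P : Ord (-16) 0 fun h => ((2 : ℝ) ^ pb h)⁻¹ := by
  simpa using ord_two_pow_inv (e := pb) 16 0 fun h => by unfold pb; push_cast; ring
theorem ord_two_pow_nb : Ord 8 0 fun h => (2 : ℝ) ^ nb h :=
  ord_two_pow 8 0 fun h => by unfold nb; push_cast; ring
theorem ord_nu : Ord (-8) 0 fun h => ((2 : ℝ) ^ nb h)⁻¹ := by
  simpa using ord_two_pow_inv (e := nb) 8 0 fun h => by unfold nb; push_cast; ring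
theorem ord_B0 : Ord 1 4 fun h => (2 : ℝ) ^ lB h :=
  ord_two_pow 1 4 fun h => by unfold lB; push_cast; ring
theorem ord_Lam : Ord 1 0 fun h => (2 : ℝ) ^ lam h :=
  ord_two_pow 1 0 fun h => by unfold lam; push_cast; ring
theorem ord_Lam_inv : Ord (-1) 0 fun h => ((2 : ℝ) ^ lam h)⁻¹ := by
  simpa using ord_two_pow_inv (e := lam) 1 0 fun h => by unfold lam; push_cast; ring
theorem ord_gI : Ord 1 0 fun h => (2 : ℝ) ^ gI h :=
  ord_two_pow 1 0 fun h => by unfold gI; push_cast; ring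
theorem ord_dl : Ord (-8) 0 fun h => ((2 : ℝ) ^ dl h)⁻¹ := by
  simpa using ord_two_pow_inv (e := dl) 8 0 fun h => by unfold dl; push_cast; ring
theorem ord_al : Ord (-8) 0 fun h => ((2 : ℝ) ^ al h)⁻¹ := by
  simpa using ord_two_pow_inv (e := al) 8 0 fun h => by unfold al; push_cast; ring
/-- contraction over all the epochs: `2 ^ (-E)` -/
theorem ord_EE_inv : Ord (-4) (-16) fun h => ((2 : ℝ) ^ EE h)⁻¹ :=
  ord_two_pow_inv (e := EE) 4 16 fun h => by unfold EE; push_cast; ring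

theorem KK_le (h : ℕ) : KK h ≤ h := Nat.div_le_self _ _

theorem ord_KK : Ord 0 1 fun h => (KK h : ℝ) :=
  ord_h.of_le (Eventually.of_forall fun h => Nat.cast_nonneg _)
    (Eventually.of_forall fun h => by exact_mod_cast KK_le h)

/-- `1/K` -/
theorem ord_KK_inv : Ord 0 (-1) fun h => (KK h : ℝ)⁻¹ := by
  have h1 : Ord 0 (-1) fun h => (h : ℝ)⁻¹ * (2 * ((W h : ℝ) ^ 8 * (Lg h : ℝ) ^ 3)) :=
    ord_inv_h.mul0 (((ord_W.pow0 8).mul0 (ord_Lg.pow0 3)).const_mul 2)
  refine h1.of_le (Eventually.of_forall fun h => by positivity) ?_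
  filter_upwards [ev_le_KK, ev_KK_pos, eventually_ge_atTop 1] with h h2 h3 h4
  have h5 : (0 : ℝ) < KK h := by exact_mod_cast h3
  have h6 : (0 : ℝ) < h := by exact_mod_cast h4
  have h7 : (h : ℝ) ≤ 2 * KK h * ((W h : ℝ) ^ 8 * (Lg h : ℝ) ^ 3) := by exact_mod_cast h2
  rw [inv_eq_one_div, inv_eq_one_div, div_mul_eq_mul_div, one_mul, div_le_div_iff₀ h5 h6]
  linarith

theorem nn_pos (h : ℕ) : 0 < nn h := Nat.mul_pos (Mg_pos h) (pow_pos (W_pos h) 2)

theorem II_le (h : ℕ) : II h ≤ h + 1 := Nat.succ_le_succ (Nat.div_le_self _ _)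

theorem ord_II : Ord 0 1 fun h => (II h : ℝ) :=
  (ord_h.add ((Ord.const 1).weak (by norm_num))).of_le
    (Eventually.of_forall fun h => Nat.cast_nonneg _)
    (Eventually.of_forall fun h => by exact_mod_cast II_le h)

theorem ord_pm : Ord 0 1 fun h => (pm h : ℝ) :=
  (ord_h.add ((Ord.const 1).weak (by norm_num))).congr fun h => by unfold pm; push_cast; ring

theorem ord_pm_inv : Ord 0 (-1) fun h => (pm h : ℝ)⁻¹ :=
  ord_inv_h.of_le (Eventually.of_forall fun h => by positivity) (by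
    filter_upwards [eventually_ge_atTop 1] with h h1
    have h2 : (0 : ℝ) < h := by exact_mod_cast h1
    have h3 : (h : ℝ) ≤ pm h := by unfold pm; push_cast; linarith
    exact inv_anti₀ h2 h3)

theorem ord_gX : Ord 0 1 fun h => (gX h : ℝ) :=
  (ord_W.zmul ord_h).congr fun h => by unfold gX; push_cast; ring

end Crest.Agent.R288.Par895
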