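import Crest.Agent.R288.PadK_901
import Crest.Agent.R288.PtSt_966

/-!
# R288, [PARP] part C (helper901): the parameters of `Alg45` from the constant of the frames

For a parameter function `pO : ℕ → Par` (height ↦ parameters) with poly-time fields (`POk pO`):
* `parC pO k` = `pO (hK k)` with the exponents `n pb a1 a2 al dl du c0` cut at the logarithm of the pad
  and `mJ mX` cut at the pad; `ptf_parC : PTF (fun c => parC pO (k c))`;
* `parC_konO`: it IS `pO h` on the constant `konO v` of the program, if `Fit (pO h) (cPad h)`.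
-/

set_option autoImplicit false

namespace Crest.Agent.R288.ParK901

open Crest.Agent.Lib.PT
open Crest.Agent.R288.Alg45 Crest.Agent.R288.Pad901 Crest.Agent.R288.PadK901
open Crest.Agent.R288.ParP901

/-- the parameters read off the constant `k` of the frames -/
def parC (pO : ℕ → Par) (k : List ℕ × List ℕ) : Par :=
  { pO (hK k) with
    n := cl k (pO (hK k)).n
    pb := cl k (pO (hK k)).pb
    a1 := cl k (pO (hK k)).a1
    a2 := cl k (pO (hK k)).a2
    al := cl k (pO (hK k)).al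
    dl := cl k (pO (hK k)).dl
    du := cl k (pO (hK k)).du
    c0 := cl k (pO (hK k)).c0
    mJ := clamp (pO (hK k)).mJ k.2
    mX := clamp (pO (hK k)).mX k.2 }

/-- the parameters fit into a pad of length `2 ^ c` -/
structure Fit (p : Par) (c : ℕ) : Prop where
  n : p.n ≤ c
  pb : p.pb ≤ c
  a1 : p.a1 ≤ c
  a2 : p.a2 ≤ c
  al : p.al ≤ c
  dl : p.dl ≤ c
  du : p.du ≤ c
  c0 : p.c0 ≤ c
  mJ : p.mJ ≤ 2 ^ c
  mX : p.mX ≤ 2 ^ c

theorem parC_konO {pO : ℕ → Par} {v : List ℕ} (h : Fit (pO (hE v)) (cPad (hE v))) :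
    parC pO (konO v) = pO (hE v) := by
  unfold parC
  rw [hK_konO, cl_konO h.n, cl_konO h.pb, cl_konO h.a1, cl_konO h.a2, cl_konO h.al, cl_konO h.dl,
    cl_konO h.du, cl_konO h.c0, clamp_konO h.mJ, clamp_konO h.mX]

/-- poly-time fields (unary height) -/
structure POk (pO : ℕ → Par) : Prop where
  n : PTF (fun u : Un => (pO u.val).n)
  pb : PTF (fun u : Un => (pO u.val).pb)
  a1 : PTF (fun u : Un => (pO u.val).a1)
  a2 : PTF (fun u : Un => (pO u.val).a2)
  al : PTF (fun u : Un => (pO u.val).al)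
  dl : PTF (fun u : Un => (pO u.val).dl)
  du : PTF (fun u : Un => (pO u.val).du)
  c0 : PTF (fun u : Un => (pO u.val).c0)
  mJ : PTF (fun u : Un => (pO u.val).mJ)
  mX : PTF (fun u : Un => (pO u.val).mX)
  r : PTU (fun u : Un => (pO u.val).r)
  g : PTU (fun u : Un => (pO u.val).g)
  sb : PTU (fun u : Un => (pO u.val).sb)
  bb : PTU (fun u : Un => (pO u.val).bb)
  gJ : PTU (fun u : Un => (pO u.val).gJ)
  gX : PTU (fun u : Un => (pO u.val).gX)
  nb : PTU (fun u : Un => (pO u.val).nb)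
  K : PTU (fun u : Un => (pO u.val).K)
  E : PTU (fun u : Un => (pO u.val).E)
  Dm : PTF (fun u : Un => (pO u.val).Dm)
  γ : PTF (fun u : Un => (pO u.val).γ)
  um : PTF (fun u : Un => (pO u.val).um)
  pm : PTF (fun u : Un => (pO u.val).pm)
  Creg : PTF (fun u : Un => (pO u.val).Creg)
  δi : PTF (fun u : Un => (pO u.val).δi)

section ptf

variable {γ : Type} [PTCode γ] {k : γ → List ℕ × List ℕ} {pO : ℕ → Par}

theorem comp_h (g : ℕ → ℕ) (hg : PTF (fun u : Un => g u.val)) (hk : PTF k) :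
    PTF (fun c => g (hK (k c))) :=
  PTF.comp (g := fun u : Un => g u.val) (f := fun c => (⟨hK (k c)⟩ : Un)) hg (ptu_hK hk)

theorem compU_h (g : ℕ → ℕ) (hg : PTU (fun u : Un => g u.val)) (hk : PTF k) :
    PTU (fun c => g (hK (k c))) :=
  PTF.comp (g := fun u : Un => (⟨g u.val⟩ : Un)) (f := fun c => (⟨hK (k c)⟩ : Un)) hg (ptu_hK hk)

/-- **the certificate of the parameters** -/
theorem ptf_parC (H : POk pO) (hk : PTF k) : PTF (fun c => parC pO (k c)) := by
  have hp : PTF (fun c => (k c).2) := by fun_prop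
  refine PtSt966.ptf_Par ?_ ?_ ?_ ?_ ?_ ?_ ?_ ?_ ?_ ?_ ?_ ?_ ?_ ?_ ?_ ?_ ?_ ?_ ?_ ?_ ?_ ?_ ?_ ?_ ?_
  · exact ptu_two_cl hk (comp_h (fun h => (pO h).n) H.n hk)
  · exact ptu_two_cl hk (comp_h (fun h => (pO h).pb) H.pb hk)
  · exact compU_h (fun h => (pO h).r) H.r hk
  · exact compU_h (fun h => (pO h).g) H.g hk
  · exact compU_h (fun h => (pO h).sb) H.sb hk
  · exact ptu_two_cl hk (comp_h (fun h => (pO h).a1) H.a1 hk)
  · exact ptu_two_cl hk (comp_h (fun h => (pO h).a2) H.a2 hk)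
  · exact compU_h (fun h => (pO h).bb) H.bb hk
  · exact ptu_two_cl hk (comp_h (fun h => (pO h).dl) H.dl hk)
  · exact ptu_two_cl hk (comp_h (fun h => (pO h).du) H.du hk)
  · exact ptu_two_cl hk (comp_h (fun h => (pO h).c0) H.c0 hk)
  · exact compU_h (fun h => (pO h).gJ) H.gJ hk
  · exact ptu_clamp (comp_h (fun h => (pO h).mJ) H.mJ hk) hp
  · exact compU_h (fun h => (pO h).gX) H.gX hk
  · exact ptu_clamp (comp_h (fun h => (pO h).mX) H.mX hk) hp
  · exact compU_h (fun h => (pO h).nb) H.nb hk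
  · exact compU_h (fun h => (pO h).K) H.K hk
  · exact compU_h (fun h => (pO h).E) H.E hk
  · exact ptu_two_cl hk (comp_h (fun h => (pO h).al) H.al hk)
  · exact comp_h (fun h => (pO h).Dm) H.Dm hk
  · exact comp_h (fun h => (pO h).γ) H.γ hk
  · exact comp_h (fun h => (pO h).um) H.um hk
  · exact comp_h (fun h => (pO h).pm) H.pm hk
  · exact comp_h (fun h => (pO h).Creg) H.Creg hk
  · exact comp_h (fun h => (pO h).δi) H.δi hk

end ptf

end Crest.Agent.R288.ParK901
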