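import Crest.Agent.R288.AlgA_45
import Crest.Agent.R288.ParB_806

/-!
# R288 leaf [PAR / P8] (helper806): `parOf h : Alg45.Par`, the parameters of ALG v2.2 as functions of `h`

`h = Nat.clog 2 (inp x y ε).length`.  `gJ`, `gX` of the algorithm have the form `12 * s + 1` with `s = sJ h`
resp. `sX h` (= `Par806.gJ`, `Par806.gX`).  INIT: `Init775.par (gI h) (DI h) (mI h)`, precision `pI h`.
-/

set_option autoImplicit false

namespace Crest.Agent.R288.Par806

open Crest.Agent.R288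

/-- failure exponent of one number `X` -/
def sX (h : ℕ) : ℕ := gX h
/-- failure exponent of one median of the jump -/
def sJ (h : ℕ) : ℕ := gJ h
/-- binary height of the root plus one: `Dm = 2 ^ HD` -/
def HD (h : ℕ) : ℕ := nn h * II h + 1
/-- bound of the diagonals -/
def Dm (h : ℕ) : ℕ := 2 ^ HD h
/-- largest class -/
def K0 (h : ℕ) : ℕ := nn h * II h + gI h + Lg h + 32
/-- rate of the root decision (unit `F + 1`) -/
def umO (h : ℕ) : ℕ := 16 * um h
/-- precision of INIT: factor `1 + 4 / pI` -/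
def pI (h : ℕ) : ℕ := 2 ^ (8 * Lg h)
def DI (h : ℕ) : ℕ := 10 * Lg h
/-- failure exponent of one number of INIT -/
def mI (h : ℕ) : ℕ := W h * h + 2 * gI h + 2 * DI h + 12

/-- **the parameters of the algorithm** -/
def parOf (h : ℕ) : Alg45.Par where
  n := nn h
  pb := pb h
  r := rr
  Dm := Dm h
  g := gg h
  γ := gam h
  um := umO h
  pm := pm h
  sb := sb h
  Creg := Creg
  δi := δi h
  a1 := a1 h
  a2 := a2
  al := al h
  bb := bb h
  dl := dl h
  du := du
  c0 := c0 h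
  gJ := 12 * sJ h + 1
  mJ := mJ h
  gX := 12 * sX h + 1
  mX := mX h
  nb := nb h
  K := KK h
  E := EE h

@[simp] theorem parOf_n (h : ℕ) : (parOf h).n = nn h := rfl
@[simp] theorem parOf_N (h : ℕ) : (parOf h).N = 2 ^ nn h := rfl
@[simp] theorem parOf_pb (h : ℕ) : (parOf h).pb = pb h := rfl
@[simp] theorem parOf_r (h : ℕ) : (parOf h).r = 40 := rfl
@[simp] theorem parOf_Dm (h : ℕ) : (parOf h).Dm = Dm h := rfl
@[simp] theorem parOf_g (h : ℕ) : (parOf h).g = gg h := rfl
@[simp] theorem parOf_γ (h : ℕ) : (parOf h).γ = gam h := rfl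
@[simp] theorem parOf_um (h : ℕ) : (parOf h).um = umO h := rfl
@[simp] theorem parOf_pm (h : ℕ) : (parOf h).pm = pm h := rfl
@[simp] theorem parOf_sb (h : ℕ) : (parOf h).sb = sb h := rfl
@[simp] theorem parOf_Creg (h : ℕ) : (parOf h).Creg = 8 := rfl
@[simp] theorem parOf_δi (h : ℕ) : (parOf h).δi = δi h := rfl
@[simp] theorem parOf_a1 (h : ℕ) : (parOf h).a1 = a1 h := rfl
@[simp] theorem parOf_a2 (h : ℕ) : (parOf h).a2 = 8 := rfl
@[simp] theorem parOf_al (h : ℕ) : (parOf h).al = al h := rfl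
@[simp] theorem parOf_bb (h : ℕ) : (parOf h).bb = bb h := rfl
@[simp] theorem parOf_dl (h : ℕ) : (parOf h).dl = dl h := rfl
@[simp] theorem parOf_du (h : ℕ) : (parOf h).du = 8 := rfl
@[simp] theorem parOf_c0 (h : ℕ) : (parOf h).c0 = c0 h := rfl
@[simp] theorem parOf_gJ (h : ℕ) : (parOf h).gJ = 12 * sJ h + 1 := rfl
@[simp] theorem parOf_mJ (h : ℕ) : (parOf h).mJ = mJ h := rfl
@[simp] theorem parOf_gX (h : ℕ) : (parOf h).gX = 12 * sX h + 1 := rfl
@[simp] theorem parOf_mX (h : ℕ) : (parOf h).mX = mX h := rfl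
@[simp] theorem parOf_nb (h : ℕ) : (parOf h).nb = nb h := rfl
@[simp] theorem parOf_K (h : ℕ) : (parOf h).K = KK h := rfl
@[simp] theorem parOf_E (h : ℕ) : (parOf h).E = EE h := rfl

end Crest.Agent.R288.Par806
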