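import Crest.Agent.R288.PgG8i_654

/-!
# R288 [PAR], work half (helper951): calculus of sizes with the table of ParB_806

`h = clog 2 L`. Two size classes (both closed under `+ * ^const max / -` and `2 ^ (exponent of the class)`):

* `PM f` : `f h ≤ 2 ^ (C W Mg)` eventually = factor per macro level besides `2 ^ nn` (polylogarithms of `h`)
* `PQ f` : `f h ≤ 2 ^ (C W^4 Lg)` eventually = factor per index (everything polynomial in `h`, `2^pb`, `2^nb`, `mX`)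
* `LM`, `LQ` : the exponents `O(W Mg)`, `O(W^4 Lg)`.

`pq_tac` closes goals `PM ..`, `PQ ..`, `LM ..`, `LQ ..` built from the table.

* `PQ.ev_sub`, `PQ.ev_V`, `PM.ev_pow` : conversions to the forms of PgG8b_155
* `fuel_fin` : `G * (AS ^ T * V ^ κ) ≤ fuc c 0 r 3 L` for `AS ≤ 2^nn * PM`, `V ∈ PQ`, `G ∈ SI` (`SI` =
  `PQ` times `2 ^ O(h / W)`), `T ≤ II + C`, `κ ≤ C (EE KK + 1)`.
* `PQ.ev_og` : sizes `≤ og 1 0 r 3 L`; `PQ.ev_le_pow` : `f ≤ 2 ^ (h / 2)`.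
-/

set_option autoImplicit false

namespace Crest.Agent.R288.ParW951

open Filter Crest.Agent.R288.Asy720 Crest.Agent.R288.Par806 Crest.Agent.R288.PgG8155
open Crest.Agent.R288.Pl726 Crest.Agent.R288.Shell12 Crest.Agent.R288.Front327
open Crest.Agent.R288.PgG8i654

/-! ### scales -/

/-- exponent of a macro level -/
def sM (h : ℕ) : ℕ := W h * Mg h
/-- exponent of an index -/
def sQ (h : ℕ) : ℕ := W h ^ 4 * Lg h

theorem sM_pos (h : ℕ) : 1 ≤ sM h := Nat.mul_pos (W_pos h) (Mg_pos h)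
theorem sQ_pos (h : ℕ) : 1 ≤ sQ h := Nat.mul_pos (pow_pos (W_pos h) 4) (Lg_pos h)

theorem sM_le_sQ (h : ℕ) : sM h ≤ sQ h := by
  unfold sM sQ
  have h1 := W_pos h
  have h2 : W h ≤ W h ^ 4 := Nat.le_self_pow (by norm_num) _
  exact Nat.mul_le_mul h2 (Mg_le_Lg h)

/-- exponents -/
def LE' (s f : ℕ → ℕ) : Prop := ∃ C : ℕ, ∀ᶠ h : ℕ in atTop, f h ≤ C * s h
/-- sizes -/
def PE (s f : ℕ → ℕ) : Prop := ∃ C : ℕ, ∀ᶠ h : ℕ in atTop, f h ≤ 2 ^ (C * s h)

/-- exponents `O(W Mg)` -/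
def LM (f : ℕ → ℕ) : Prop := LE' sM f
/-- exponents `O(W^4 Lg)` -/
def LQ (f : ℕ → ℕ) : Prop := LE' sQ f
/-- sizes `2 ^ O(W Mg)` -/
def PM (f : ℕ → ℕ) : Prop := PE sM f
/-- sizes `2 ^ O(W^4 Lg)` -/
def PQ (f : ℕ → ℕ) : Prop := PE sQ f

section general

variable {s f g : ℕ → ℕ}

theorem LE'.mono (hg : LE' s g) (hfg : ∀ᶠ h : ℕ in atTop, f h ≤ g h) : LE' s f := by
  obtain ⟨C, hC⟩ := hg
  exact ⟨C, by filter_upwards [hC, hfg] with h h1 h2; exact h2.trans h1⟩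

theorem LE'.add (hf : LE' s f) (hg : LE' s g) : LE' s (fun h => f h + g h) := by
  obtain ⟨C, hC⟩ := hf
  obtain ⟨D, hD⟩ := hg
  refine ⟨C + D, ?_⟩
  filter_upwards [hC, hD] with h h1 h2
  rw [add_mul]
  exact Nat.add_le_add h1 h2

theorem LE'.const (hs : ∀ h, 1 ≤ s h) (c : ℕ) : LE' s (fun _ => c) :=
  ⟨c, Eventually.of_forall fun h => Nat.le_mul_of_pos_right _ (hs h)⟩

theorem LE'.const_mul (hf : LE' s f) (c : ℕ) : LE' s (fun h => c * f h) := by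
  obtain ⟨C, hC⟩ := hf
  refine ⟨c * C, ?_⟩
  filter_upwards [hC] with h h1
  calc c * f h ≤ c * (C * s h) := Nat.mul_le_mul_left _ h1
    _ = c * C * s h := by ring

theorem PE.mono (hg : PE s g) (hfg : ∀ᶠ h : ℕ in atTop, f h ≤ g h) : PE s f := by
  obtain ⟨C, hC⟩ := hg
  exact ⟨C, by filter_upwards [hC, hfg] with h h1 h2; exact h2.trans h1⟩

theorem PE.mul (hf : PE s f) (hg : PE s g) : PE s (fun h => f h * g h) := by
  obtain ⟨C, hC⟩ := hf
  obtain ⟨D, hD⟩ := hg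
  refine ⟨C + D, ?_⟩
  filter_upwards [hC, hD] with h h1 h2
  rw [add_mul, pow_add]
  exact Nat.mul_le_mul h1 h2

theorem PE.add (hs : ∀ h, 1 ≤ s h) (hf : PE s f) (hg : PE s g) : PE s (fun h => f h + g h) := by
  obtain ⟨C, hC⟩ := hf
  obtain ⟨D, hD⟩ := hg
  refine ⟨C + D + 1, ?_⟩
  filter_upwards [hC, hD] with h h1 h2
  have h3 : 2 ^ (C * s h) ≤ 2 ^ ((C + D) * s h) :=
    Nat.pow_le_pow_right (by norm_num) (Nat.mul_le_mul_right _ (by omega))
  have h4 : 2 ^ (D * s h) ≤ 2 ^ ((C + D) * s h) :=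
    Nat.pow_le_pow_right (by norm_num) (Nat.mul_le_mul_right _ (by omega))
  calc f h + g h ≤ 2 ^ ((C + D) * s h) + 2 ^ ((C + D) * s h) :=
        Nat.add_le_add (h1.trans h3) (h2.trans h4)
    _ = 2 ^ ((C + D) * s h + 1) := by rw [pow_succ]; ring
    _ ≤ 2 ^ ((C + D + 1) * s h) := by
        refine Nat.pow_le_pow_right (by norm_num) ?_
        calc (C + D) * s h + 1 ≤ (C + D) * s h + s h := Nat.add_le_add_left (hs h) _
          _ = (C + D + 1) * s h := by ring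

theorem PE.const (hs : ∀ h, 1 ≤ s h) (c : ℕ) : PE s (fun _ => c) :=
  ⟨c, Eventually.of_forall fun h => (Nat.lt_two_pow_self (n := c)).le.trans
    (Nat.pow_le_pow_right (by norm_num) (Nat.le_mul_of_pos_right _ (hs h)))⟩

theorem PE.pow (hf : PE s f) (k : ℕ) : PE s (fun h => f h ^ k) := by
  obtain ⟨C, hC⟩ := hf
  refine ⟨k * C, ?_⟩
  filter_upwards [hC] with h h1
  calc f h ^ k ≤ (2 ^ (C * s h)) ^ k := Nat.pow_le_pow_left h1 k
    _ = 2 ^ (k * C * s h) := by rw [← pow_mul]; congr 1; ring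

theorem PE.two_pow (hf : LE' s f) : PE s (fun h => 2 ^ f h) := by
  obtain ⟨C, hC⟩ := hf
  refine ⟨C, ?_⟩
  filter_upwards [hC] with h h1
  exact Nat.pow_le_pow_right (by norm_num) h1

theorem PE.of_LE (hf : LE' s f) : PE s f :=
  (PE.two_pow hf).mono (Eventually.of_forall fun h => (Nat.lt_two_pow_self (n := f h)).le)

theorem PE.const_pow (hf : LE' s f) (c : ℕ) : PE s (fun h => c ^ f h) := by
  refine (PE.two_pow (hf.const_mul c)).mono (Eventually.of_forall fun h => ?_)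
  calc c ^ f h ≤ (2 ^ c) ^ f h := Nat.pow_le_pow_left (Nat.lt_two_pow_self).le _
    _ = 2 ^ (c * f h) := (pow_mul 2 c (f h)).symm

end general

/-! ### the two classes -/

theorem LM.LQ {f : ℕ → ℕ} (hf : LM f) : LQ f := by
  obtain ⟨C, hC⟩ := hf
  refine ⟨C, ?_⟩
  filter_upwards [hC] with h h1
  exact h1.trans (Nat.mul_le_mul_left _ (sM_le_sQ h))

theorem PM.PQ {f : ℕ → ℕ} (hf : PM f) : PQ f := by
  obtain ⟨C, hC⟩ := hf
  refine ⟨C, ?_⟩
  filter_upwards [hC] with h h1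
  exact h1.trans (Nat.pow_le_pow_right (by norm_num) (Nat.mul_le_mul_left _ (sM_le_sQ h)))

theorem PM.mono {f g : ℕ → ℕ} (hg : PM g) (hfg : ∀ᶠ h : ℕ in atTop, f h ≤ g h) : PM f :=
  PE.mono hg hfg
theorem PQ.mono {f g : ℕ → ℕ} (hg : PQ g) (hfg : ∀ᶠ h : ℕ in atTop, f h ≤ g h) : PQ f :=
  PE.mono hg hfg
theorem LM.mono {f g : ℕ → ℕ} (hg : LM g) (hfg : ∀ᶠ h : ℕ in atTop, f h ≤ g h) : LM f :=
  LE'.mono hg hfg
theorem LQ.mono {f g : ℕ → ℕ} (hg : LQ g) (hfg : ∀ᶠ h : ℕ in atTop, f h ≤ g h) : LQ f :=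
  LE'.mono hg hfg
theorem PM.mono' {f g : ℕ → ℕ} (hg : PM g) (hfg : ∀ h, f h ≤ g h) : PM f :=
  PE.mono hg (Eventually.of_forall hfg)
theorem PQ.mono' {f g : ℕ → ℕ} (hg : PQ g) (hfg : ∀ h, f h ≤ g h) : PQ f :=
  PE.mono hg (Eventually.of_forall hfg)
theorem LM.mono' {f g : ℕ → ℕ} (hg : LM g) (hfg : ∀ h, f h ≤ g h) : LM f :=
  LE'.mono hg (Eventually.of_forall hfg)
theorem LQ.mono' {f g : ℕ → ℕ} (hg : LQ g) (hfg : ∀ h, f h ≤ g h) : LQ f :=
  LE'.mono hg (Eventually.of_forall hfg)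

theorem PM.const (c : ℕ) : PM (fun _ => c) := PE.const sM_pos c
theorem PQ.const (c : ℕ) : PQ (fun _ => c) := PE.const sQ_pos c
theorem LM.const (c : ℕ) : LM (fun _ => c) := LE'.const sM_pos c
theorem LQ.const (c : ℕ) : LQ (fun _ => c) := LE'.const sQ_pos c

theorem PM.add {f g : ℕ → ℕ} (hf : PM f) (hg : PM g) : PM (fun h => f h + g h) :=
  PE.add sM_pos hf hg
theorem PQ.add {f g : ℕ → ℕ} (hf : PQ f) (hg : PQ g) : PQ (fun h => f h + g h) :=
  PE.add sQ_pos hf hg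
theorem LM.add {f g : ℕ → ℕ} (hf : LM f) (hg : LM g) : LM (fun h => f h + g h) := LE'.add hf hg
theorem LQ.add {f g : ℕ → ℕ} (hf : LQ f) (hg : LQ g) : LQ (fun h => f h + g h) := LE'.add hf hg

theorem PM.mul {f g : ℕ → ℕ} (hf : PM f) (hg : PM g) : PM (fun h => f h * g h) := PE.mul hf hg
theorem PQ.mul {f g : ℕ → ℕ} (hf : PQ f) (hg : PQ g) : PQ (fun h => f h * g h) := PE.mul hf hg

theorem PM.pow {f : ℕ → ℕ} (hf : PM f) (k : ℕ) : PM (fun h => f h ^ k) := PE.pow hf k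
theorem PQ.pow {f : ℕ → ℕ} (hf : PQ f) (k : ℕ) : PQ (fun h => f h ^ k) := PE.pow hf k

theorem LM.const_mul {f : ℕ → ℕ} (hf : LM f) (c : ℕ) : LM (fun h => c * f h) :=
  LE'.const_mul hf c
theorem LQ.const_mul {f : ℕ → ℕ} (hf : LQ f) (c : ℕ) : LQ (fun h => c * f h) :=
  LE'.const_mul hf c
theorem LM.mul_const {f : ℕ → ℕ} (hf : LM f) (c : ℕ) : LM (fun h => f h * c) :=
  (LE'.const_mul hf c).mono (Eventually.of_forall fun _ => (mul_comm _ _).le)
theorem LQ.mul_const {f : ℕ → ℕ} (hf : LQ f) (c : ℕ) : LQ (fun h => f h * c) :=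
  (LE'.const_mul hf c).mono (Eventually.of_forall fun _ => (mul_comm _ _).le)

theorem PM.two_pow {f : ℕ → ℕ} (hf : LM f) : PM (fun h => 2 ^ f h) := PE.two_pow hf
theorem PQ.two_pow {f : ℕ → ℕ} (hf : LQ f) : PQ (fun h => 2 ^ f h) := PE.two_pow hf
theorem PM.const_pow {f : ℕ → ℕ} (hf : LM f) (c : ℕ) : PM (fun h => c ^ f h) := PE.const_pow hf c
theorem PQ.const_pow {f : ℕ → ℕ} (hf : LQ f) (c : ℕ) : PQ (fun h => c ^ f h) := PE.const_pow hf c

theorem PM.sub {f : ℕ → ℕ} (hf : PM f) (g : ℕ → ℕ) : PM (fun h => f h - g h) :=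
  hf.mono' fun _ => Nat.sub_le _ _
theorem PQ.sub {f : ℕ → ℕ} (hf : PQ f) (g : ℕ → ℕ) : PQ (fun h => f h - g h) :=
  hf.mono' fun _ => Nat.sub_le _ _
theorem LM.sub {f : ℕ → ℕ} (hf : LM f) (g : ℕ → ℕ) : LM (fun h => f h - g h) :=
  hf.mono' fun _ => Nat.sub_le _ _
theorem LQ.sub {f : ℕ → ℕ} (hf : LQ f) (g : ℕ → ℕ) : LQ (fun h => f h - g h) :=
  hf.mono' fun _ => Nat.sub_le _ _
theorem PM.div {f : ℕ → ℕ} (hf : PM f) (g : ℕ → ℕ) : PM (fun h => f h / g h) :=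
  hf.mono' fun _ => Nat.div_le_self _ _
theorem PQ.div {f : ℕ → ℕ} (hf : PQ f) (g : ℕ → ℕ) : PQ (fun h => f h / g h) :=
  hf.mono' fun _ => Nat.div_le_self _ _
theorem LM.div {f : ℕ → ℕ} (hf : LM f) (g : ℕ → ℕ) : LM (fun h => f h / g h) :=
  hf.mono' fun _ => Nat.div_le_self _ _
theorem LQ.div {f : ℕ → ℕ} (hf : LQ f) (g : ℕ → ℕ) : LQ (fun h => f h / g h) :=
  hf.mono' fun _ => Nat.div_le_self _ _

theorem PM.max {f g : ℕ → ℕ} (hf : PM f) (hg : PM g) : PM (fun h => Max.max (f h) (g h)) :=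
  (hf.add hg).mono' fun _ => by omega
theorem PQ.max {f g : ℕ → ℕ} (hf : PQ f) (hg : PQ g) : PQ (fun h => Max.max (f h) (g h)) :=
  (hf.add hg).mono' fun _ => by omega
theorem LM.max {f g : ℕ → ℕ} (hf : LM f) (hg : LM g) : LM (fun h => Max.max (f h) (g h)) :=
  (hf.add hg).mono' fun _ => by omega
theorem LQ.max {f g : ℕ → ℕ} (hf : LQ f) (hg : LQ g) : LQ (fun h => Max.max (f h) (g h)) :=
  (hf.add hg).mono' fun _ => by omega
theorem PM.min_left {f : ℕ → ℕ} (hf : PM f) (g : ℕ → ℕ) : PM (fun h => min (f h) (g h)) :=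
  hf.mono' fun _ => min_le_left _ _
theorem PQ.min_left {f : ℕ → ℕ} (hf : PQ f) (g : ℕ → ℕ) : PQ (fun h => min (f h) (g h)) :=
  hf.mono' fun _ => min_le_left _ _
theorem PM.min_right {f : ℕ → ℕ} (hf : PM f) (g : ℕ → ℕ) : PM (fun h => min (g h) (f h)) :=
  hf.mono' fun _ => min_le_right _ _
theorem PQ.min_right {f : ℕ → ℕ} (hf : PQ f) (g : ℕ → ℕ) : PQ (fun h => min (g h) (f h)) :=
  hf.mono' fun _ => min_le_right _ _

theorem LM.toPM {f : ℕ → ℕ} (hf : LM f) : PM f := PE.of_LE hf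
theorem LQ.toPQ {f : ℕ → ℕ} (hf : LQ f) : PQ f := PE.of_LE hf

/-! ### atoms -/

/-- basic: `C W^a Mg^c` -/
theorem lQ_of_le_Lg {f : ℕ → ℕ} (h1 : ∀ᶠ h : ℕ in atTop, f h ≤ Lg h) : LQ f :=
  ⟨1, by
    filter_upwards [h1] with h h2
    rw [one_mul]
    exact h2.trans (Nat.le_mul_of_pos_left _ (pow_pos (W_pos h) 4))⟩

theorem lM_W : LM W := ⟨1, Eventually.of_forall fun h => by
  rw [one_mul]; exact Nat.le_mul_of_pos_right _ (Mg_pos h)⟩
theorem lM_Mg : LM Mg := ⟨1, Eventually.of_forall fun h => by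
  rw [one_mul]; exact Nat.le_mul_of_pos_left _ (W_pos h)⟩
theorem lM_WMg : LM (fun h => W h * Mg h) := ⟨1, Eventually.of_forall fun h => by
  rw [one_mul]; exact le_rfl⟩
theorem lM_MgW : LM (fun h => Mg h * W h) := lM_WMg.mono' fun _ => (mul_comm _ _).le
/-- powers of `W` are below `Mg` -/
theorem lM_Wpow (a : ℕ) : LM (fun h => W h ^ a) := by
  refine lM_Mg.mono ?_
  filter_upwards [ev_le_Mg 1 a] with h h1
  simpa using h1

theorem pM_W : PM W := lM_W.toPM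
theorem pM_Mg : PM Mg := lM_Mg.toPM
theorem pM_Lg : PM Lg := (PM.two_pow lM_Mg).mono' Lg_le_two_pow_Mg
theorem pM_nn : PM nn := (pM_Mg.mul (pM_W.pow 2)).mono' fun h => le_of_eq (by unfold nn; ring)
theorem pM_di : PM δi := ((PM.const 4).mul (pM_W.pow 2)).mono' fun h => le_of_eq (by unfold δi; ring)
theorem pM_EE : PM EE := (((PM.const 4).mul (pM_W.add (PM.const 4))).mul pM_Lg).mono' fun h =>
  le_of_eq (by unfold EE; ring)
theorem pM_gg : PM gg := ((pM_W.pow 12).mul (pM_Lg.pow 3)).mono' fun h =>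
  le_of_eq (by unfold gg; ring)
theorem pM_gam : PM gam := ((pM_W.pow 14).mul (pM_Lg.pow 4)).mono' fun h =>
  le_of_eq (by unfold gam; ring)
theorem pM_um : PM um :=
  ((pM_gg.mul (pM_nn.add (PM.const 1))).mul (PM.const (4 * (Creg + 2)))).mono' fun h =>
    le_of_eq (by unfold um; ring)
theorem lM_bb : LM bb := (lM_Mg.const_mul 12).mono' fun h => le_of_eq (by unfold bb; ring)
theorem pM_bb : PM bb := lM_bb.toPM
theorem pM_sb : PM sb :=
  ((pM_bb.add ((PM.const 2).mul pM_nn)).add ((PM.const 2).mul pM_Mg)).mono' fun h =>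
    le_of_eq (by unfold sb; ring)
theorem pM_WLg : PM (fun h => W h * Lg h) := pM_W.mul pM_Lg
theorem pM_gI : PM gI := pM_WLg.mono' fun h => le_of_eq (by unfold gI; ring)
theorem pM_lam : PM lam := pM_WLg.mono' fun h => le_of_eq (by unfold lam; ring)
theorem pM_lB : PM lB := ((pM_W.add (PM.const 4)).mul pM_Lg).mono' fun h =>
  le_of_eq (by unfold lB; ring)
theorem pM_pb : PM pb := ((PM.const 16).mul pM_WLg).mono' fun h =>
  le_of_eq (by unfold pb; ring)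
theorem pM_nb : PM nb := ((PM.const 8).mul pM_WLg).mono' fun h =>
  le_of_eq (by unfold nb; ring)
theorem pM_dl : PM dl := ((PM.const 8).mul pM_WLg).mono' fun h =>
  le_of_eq (by unfold dl; ring)
theorem pM_al : PM al := ((PM.const 8).mul pM_WLg).mono' fun h =>
  le_of_eq (by unfold al; ring)
theorem lM_a1 : LM a1 := (lM_bb.add lM_Mg).mono' fun h => le_of_eq (by unfold a1; ring)
theorem pM_a1 : PM a1 := lM_a1.toPM
theorem lM_c0 : LM c0 := lM_Mg.mono' fun h => le_of_eq (by unfold c0; ring)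
theorem pM_c0 : PM c0 := lM_c0.toPM
theorem pM_gJ : PM gJ := ((pM_W.pow 2).mul pM_Lg).mono' fun h => le_of_eq (by unfold gJ; ring)
theorem pM_mJ : PM mJ := (PM.const_pow (lM_bb.add lM_Mg) 4).mono' fun h =>
  le_of_eq (by unfold mJ; ring)

theorem lQ_W : LQ W := lM_W.LQ
theorem lQ_Mg : LQ Mg := lM_Mg.LQ
theorem lQ_Lg : LQ Lg := lQ_of_le_Lg (Eventually.of_forall fun _ => le_rfl)
/-- `W^a Lg`, `a ≤ 4` -/
theorem lQ_WLg {a : ℕ} (ha : a ≤ 4) : LQ (fun h => W h ^ a * Lg h) :=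
  ⟨1, Eventually.of_forall fun h => by
    rw [one_mul]
    exact Nat.mul_le_mul_right _ (Nat.pow_le_pow_right (W_pos h) ha)⟩
theorem lQ_WLg1 : LQ (fun h => W h * Lg h) :=
  (lQ_WLg (a := 1) (by norm_num)).mono' fun h => by rw [pow_one]
/-- polynomials in `W` and `Mg` -/
theorem lQ_WMg (a c : ℕ) : LQ (fun h => W h ^ a * Mg h ^ c) := by
  refine lQ_of_le_Lg ?_
  filter_upwards [ev_le_Lg 1 a c] with h h1
  rw [one_mul] at h1
  exact h1
theorem lQ_nn : LQ nn := (lQ_WMg 2 1).mono' fun h => by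
  unfold nn; rw [pow_one, mul_comm]
theorem lQ_di : LQ δi := ((lQ_WMg 2 0).const_mul 4).mono' fun h => by
  unfold δi; rw [pow_zero, mul_one]
theorem lQ_bb : LQ bb := lM_bb.LQ
theorem lQ_sb : LQ sb :=
  ((lQ_bb.add (lQ_nn.const_mul 2)).add (lQ_Mg.const_mul 2)).mono' fun h =>
    le_of_eq (by unfold sb; ring)
theorem lQ_gI : LQ gI := lQ_WLg1.mono' fun h => le_of_eq (by unfold gI; ring)
theorem lQ_lam : LQ lam := lQ_WLg1.mono' fun h => le_of_eq (by unfold lam; ring)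
theorem lQ_lB : LQ lB := (lQ_WLg1.add (lQ_Lg.const_mul 4)).mono' fun h => by
  unfold lB; exact (add_mul _ _ _).le
theorem lQ_pb : LQ pb := (lQ_WLg1.const_mul 16).mono' fun h => by
  unfold pb; exact (mul_assoc _ _ _).le
theorem lQ_nb : LQ nb := (lQ_WLg1.const_mul 8).mono' fun h => by
  unfold nb; exact (mul_assoc _ _ _).le
theorem lQ_dl : LQ dl := (lQ_WLg1.const_mul 8).mono' fun h => by
  unfold dl; exact (mul_assoc _ _ _).le
theorem lQ_al : LQ al := (lQ_WLg1.const_mul 8).mono' fun h => by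
  unfold al; exact (mul_assoc _ _ _).le
theorem lQ_a1 : LQ a1 := lM_a1.LQ
theorem lQ_c0 : LQ c0 := lM_c0.LQ
theorem lQ_gJ : LQ gJ := (lQ_WLg (a := 2) (by norm_num)).mono' fun h =>
  le_of_eq (by unfold gJ; ring)
theorem lQ_EE : LQ EE := ((lQ_WLg1.const_mul 4).add (lQ_Lg.const_mul 16)).mono' fun h => by
  unfold EE; exact le_of_eq (by ring)

theorem pQ_id : PQ (fun h => h) := (PQ.two_pow lQ_Lg).mono' fun h => (lt_two_pow_Lg h).le
theorem pQ_W : PQ W := pM_W.PQ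
theorem pQ_Mg : PQ Mg := pM_Mg.PQ
theorem pQ_Lg : PQ Lg := pM_Lg.PQ
theorem pQ_nn : PQ nn := pM_nn.PQ
theorem pQ_di : PQ δi := pM_di.PQ
theorem pQ_EE : PQ EE := pM_EE.PQ
theorem pQ_KK : PQ KK := pQ_id.mono' fun h => by unfold KK; exact Nat.div_le_self _ _
theorem pQ_II : PQ II := (pQ_id.add (PQ.const 1)).mono' fun h => by
  unfold II; exact Nat.add_le_add_right (Nat.div_le_self _ _) _
theorem pQ_gg : PQ gg := pM_gg.PQ
theorem pQ_gam : PQ gam := pM_gam.PQ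
theorem pQ_um : PQ um := pM_um.PQ
theorem pQ_pm : PQ pm := (pQ_id.add (PQ.const 1)).mono' fun h => le_of_eq (by unfold pm; ring)
theorem pQ_bb : PQ bb := pM_bb.PQ
theorem pQ_sb : PQ sb := pM_sb.PQ
theorem pQ_gI : PQ gI := pM_gI.PQ
theorem pQ_lB : PQ lB := pM_lB.PQ
theorem pQ_pb : PQ pb := pM_pb.PQ
theorem pQ_nb : PQ nb := pM_nb.PQ
theorem pQ_lam : PQ lam := pM_lam.PQ
theorem pQ_dl : PQ dl := pM_dl.PQ
theorem pQ_al : PQ al := pM_al.PQ
theorem pQ_a1 : PQ a1 := pM_a1.PQ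
theorem pQ_c0 : PQ c0 := pM_c0.PQ
theorem pQ_gJ : PQ gJ := pM_gJ.PQ
theorem pQ_mJ : PQ mJ := pM_mJ.PQ
theorem pQ_gX : PQ gX := (pQ_W.mul pQ_id).mono' fun h => le_of_eq (by unfold gX; ring)
theorem pQ_mX : PQ mX := (PQ.two_pow ((lQ_nb.const_mul 2).add lQ_WLg1)).mono' fun h =>
  le_of_eq (by unfold mX; ring)
theorem pQ_nnpow : PQ (fun h => 2 ^ nn h) := PQ.two_pow lQ_nn

/-! ### tactic -/

/-- closes goals `PM (fun h => ..)`, `PQ ..`, `LM ..`, `LQ ..` built from constants, the functions of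
ParB_806 and `+ * ^const max - /`, `2 ^ (exponent)`, `c ^ (exponent)` -/
macro "pw_tac" : tactic => `(tactic| (repeat' with_reducible (first
  | exact PM.const _ | exact PQ.const _ | exact LM.const _ | exact LQ.const _
  | assumption
  | exact pM_W | exact pM_Mg | exact pM_Lg | exact pM_nn | exact pM_di | exact pM_EE | exact pM_gg
  | exact pM_gam | exact pM_um | exact pM_bb | exact pM_sb | exact pM_gI | exact pM_lam
  | exact pM_lB | exact pM_pb | exact pM_nb | exact pM_dl | exact pM_al | exact pM_a1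
  | exact pM_c0 | exact pM_gJ | exact pM_mJ
  | exact pQ_id | exact pQ_W | exact pQ_Mg | exact pQ_Lg | exact pQ_nn | exact pQ_di | exact pQ_EE
  | exact pQ_gg | exact pQ_gam | exact pQ_um | exact pQ_bb | exact pQ_sb | exact pQ_gI
  | exact pQ_lam | exact pQ_lB | exact pQ_pb | exact pQ_nb | exact pQ_dl | exact pQ_al
  | exact pQ_a1 | exact pQ_c0 | exact pQ_gJ | exact pQ_mJ | exact pQ_KK | exact pQ_II
  | exact pQ_pm | exact pQ_gX | exact pQ_mX
  | exact lM_W | exact lM_Mg | exact lM_WMg | exact lM_MgW | exact lM_Wpow _ | exact lM_bb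
  | exact lM_a1 | exact lM_c0
  | exact lQ_W | exact lQ_Mg | exact lQ_Lg | exact lQ_WLg1 | exact lQ_nn | exact lQ_di | exact lQ_bb
  | exact lQ_sb | exact lQ_gI | exact lQ_lam | exact lQ_lB | exact lQ_pb | exact lQ_nb
  | exact lQ_dl | exact lQ_al | exact lQ_a1 | exact lQ_c0 | exact lQ_gJ | exact lQ_EE
  | apply PM.two_pow | apply PQ.two_pow | apply PM.pow | apply PQ.pow
  | apply PM.add | apply PQ.add | apply LM.add | apply LQ.add
  | apply PM.mul | apply PQ.mul | apply LM.const_mul | apply LQ.const_mul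
  | apply LM.mul_const | apply LQ.mul_const
  | apply PM.const_pow | apply PQ.const_pow
  | apply PM.max | apply PQ.max | apply LM.max | apply LQ.max
  | apply PM.sub | apply PQ.sub | apply LM.sub | apply LQ.sub
  | apply PM.div | apply PQ.div | apply LM.div | apply LQ.div)))

/-! ### conversions and final forms -/

theorem PQ.ev_sub {f : ℕ → ℕ} (hf : PQ f) : ∃ C : ℕ, ∀ᶠ h : ℕ in atTop, f h ≤ PgG8155.sub C h := by
  obtain ⟨C, hC⟩ := hf
  refine ⟨C + 4, ?_⟩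
  filter_upwards [hC] with h h1
  refine h1.trans ?_
  unfold PgG8155.sub sQ
  have hW := W_pos h
  have hL := Lg_pos h
  have hM := Mg_pos h
  refine Nat.pow_le_pow_right (by norm_num) ?_
  calc C * (W h ^ 4 * Lg h) = C * W h ^ 4 * Lg h ^ 1 * 1 := by ring
    _ ≤ (C + 4) * W h ^ (C + 4) * Lg h ^ (C + 4) * Mg h ^ (C + 4) := by
        have e1 : W h ^ 4 ≤ W h ^ (C + 4) := Nat.pow_le_pow_right hW (by omega)
        have e2 : Lg h ^ 1 ≤ Lg h ^ (C + 4) := Nat.pow_le_pow_right hL (by omega)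
        have e3 : 1 ≤ Mg h ^ (C + 4) := Nat.one_le_pow _ _ hM
        exact Nat.mul_le_mul (Nat.mul_le_mul (Nat.mul_le_mul (by omega) e1) e2) e3

/-- exponent `a = 4` of `time_ev` -/
theorem PQ.ev_V {f : ℕ → ℕ} (hf : PQ f) :
    ∃ C : ℕ, ∀ᶠ h : ℕ in atTop, f h ≤ 2 ^ (C * W h ^ 4 * Lg h) := by
  obtain ⟨C, hC⟩ := hf
  refine ⟨C, ?_⟩
  filter_upwards [hC] with h h1
  refine h1.trans (le_of_eq ?_)
  unfold sQ
  rw [mul_assoc]

theorem PM.ev_pow {f : ℕ → ℕ} (hf : PM f) :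
    ∃ C : ℕ, ∀ᶠ h : ℕ in atTop, f h ≤ 2 ^ (C * (W h * Mg h)) := hf

/-- `PQ` numbers times `2 ^ O(h / W)` -/
def SI (f : ℕ → ℕ) : Prop := ∃ C : ℕ, ∀ᶠ h : ℕ in atTop, f h ≤ sui C h

theorem PQ.toSI {f : ℕ → ℕ} (hf : PQ f) : SI f := by
  obtain ⟨C, hC⟩ := hf.ev_sub
  exact ⟨C, by filter_upwards [hC] with h h1; exact h1.trans (sub_le_sui C h)⟩

theorem SI.mono {f g : ℕ → ℕ} (hg : SI g) (hfg : ∀ᶠ h : ℕ in atTop, f h ≤ g h) : SI f := by
  obtain ⟨C, hC⟩ := hg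
  exact ⟨C, by filter_upwards [hC, hfg] with h h1 h2; exact h2.trans h1⟩

theorem SI.mono' {f g : ℕ → ℕ} (hg : SI g) (hfg : ∀ h, f h ≤ g h) : SI f :=
  hg.mono (Eventually.of_forall hfg)

theorem SI.mul {f g : ℕ → ℕ} (hf : SI f) (hg : SI g) : SI (fun h => f h * g h) := by
  obtain ⟨C, hC⟩ := hf
  obtain ⟨D, hD⟩ := hg
  refine ⟨C + D, ?_⟩
  filter_upwards [hC, hD] with h h1 h2
  exact (Nat.mul_le_mul h1 h2).trans (sui_mul C D h)

theorem SI.sui (C : ℕ) : SI (sui C) := ⟨C, Eventually.of_forall fun _ => le_rfl⟩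

theorem SI.const (c : ℕ) : SI (fun _ => c) := (PQ.const c).toSI

theorem SI.add {f g : ℕ → ℕ} (hf : SI f) (hg : SI g) : SI (fun h => f h + g h) := by
  have h1 := ((hf.mul (SI.const 1)).mul (SI.const 1))
  obtain ⟨C, hC⟩ := hf
  obtain ⟨D, hD⟩ := hg
  have h2 : SI (fun h => 2 * PgG8i654.sui (C + D) h) := (SI.const 2).mul (SI.sui (C + D))
  refine h2.mono ?_
  filter_upwards [hC, hD] with h h3 h4
  have h5 := h3.trans (sui_mono (show C ≤ C + D by omega) h)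
  have h6 := h4.trans (sui_mono (show D ≤ C + D by omega) h)
  omega

/-- exponents `O(h / W)` -/
theorem SI.two_pow_div (C : ℕ) : SI (fun h => 2 ^ (C * (h / W h))) :=
  ⟨C, Eventually.of_forall fun h => by
    unfold PgG8i654.sui
    exact Nat.le_mul_of_pos_left _ (one_le_sub C h)⟩

/-- the work of all macro levels: `PM ^ (II + C)` -/
theorem PM.pow_II {f : ℕ → ℕ} (hf : PM f) (C : ℕ) : SI (fun h => f h ^ (II h + C)) := by
  obtain ⟨D, hD⟩ := hf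
  have h0 : SI (fun h => 2 ^ (D * (h / W h)) * 2 ^ (D * (C + 1) * (W h * Mg h))) := by
    refine (SI.two_pow_div D).mul (PQ.toSI ?_)
    have : LM (fun h => D * (C + 1) * (W h * Mg h)) := lM_WMg.const_mul _
    exact PQ.two_pow this.LQ
  refine h0.mono ?_
  filter_upwards [hD] with h h1
  calc f h ^ (II h + C) ≤ (2 ^ (D * sM h)) ^ (II h + C) := Nat.pow_le_pow_left h1 _
    _ = 2 ^ (D * (W h * Mg h * (h / nn h)) + D * (C + 1) * (W h * Mg h)) := by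
        rw [← pow_mul]; congr 1; unfold sM II; ring
    _ ≤ 2 ^ (D * (h / W h) + D * (C + 1) * (W h * Mg h)) := by
        refine Nat.pow_le_pow_right (by norm_num) (Nat.add_le_add_right (Nat.mul_le_mul_left _ ?_) _)
        rw [Nat.le_div_iff_mul_le (W_pos h)]
        calc W h * Mg h * (h / nn h) * W h = nn h * (h / nn h) := by unfold nn; ring
          _ ≤ h := Nat.mul_div_le _ _
    _ = _ := pow_add _ _ _

/-- all index drops: `PQ ^ (C (EE KK + 1))` -/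
theorem PQ.pow_ranks {f : ℕ → ℕ} (hf : PQ f) (C : ℕ) :
    SI (fun h => f h ^ (C * (EE h * KK h + 1))) := by
  obtain ⟨D, hD⟩ := hf
  refine (SI.two_pow_div 1).mono ?_
  filter_upwards [hD, ev_work (D * C + 1) 5 le_rfl] with h h1 h2
  calc f h ^ (C * (EE h * KK h + 1)) ≤ (2 ^ (D * sQ h)) ^ (C * (EE h * KK h + 1)) :=
        Nat.pow_le_pow_left h1 _
    _ = 2 ^ (D * C * sQ h * (EE h * KK h + 1)) := by rw [← pow_mul]; congr 1; ring
    _ ≤ 2 ^ (1 * (h / W h)) := by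
        refine Nat.pow_le_pow_right (by norm_num) ?_
        rw [one_mul, Nat.le_div_iff_mul_le (W_pos h)]
        calc D * C * sQ h * (EE h * KK h + 1) * W h
            = (EE h * KK h + 1) * (D * C * W h ^ 5 * Lg h) := by unfold sQ; ring
          _ ≤ (EE h * KK h + (D * C + 1)) * ((D * C + 1) * W h ^ 5 * Lg h) := by
              gcongr <;> omega
          _ ≤ h := h2

/-- `2 ^ (nn (II + C)) ≤ 2 ^ h * PQ` -/
theorem two_pow_nn_II (C h : ℕ) : (2 ^ nn h) ^ (II h + C) ≤ 2 ^ h * 2 ^ ((C + 1) * nn h) := by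
  rw [← pow_mul, ← pow_add]
  refine Nat.pow_le_pow_right (by norm_num) ?_
  calc nn h * (II h + C) = nn h * (h / nn h) + (C + 1) * nn h := by unfold II; ring
    _ ≤ h + (C + 1) * nn h := Nat.add_le_add_right (Nat.mul_div_le _ _) _

/-- `2 ^ h * SI ≤ fuc` -/
theorem SI.ev_fuc {g : ℕ → ℕ} (hg : SI g) : ∃ c r : ℕ, ∀ᶠ h : ℕ in atTop, ∀ L : ℕ,
    Nat.clog 2 L = h → 2 ^ h * g h ≤ fuc c 0 r 3 L := by
  obtain ⟨C, hC⟩ := hg
  obtain ⟨r, hr⟩ := sui_le_og C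
  refine ⟨2, r, ?_⟩
  filter_upwards [hC, hr, eventually_ge_atTop 1] with h h1 h2 h3 L hL
  have h4 : 1 < L := by
    by_contra h5
    have : Nat.clog 2 L = 0 := Nat.clog_of_right_le_one (by omega) 2
    omega
  have h5 := two_pow_clog_le (L := L) (by omega)
  rw [hL] at h5
  have h6 : g h ≤ og 1 0 r 3 L := h1.trans (h2 L hL)
  rw [fuc_eq]
  calc 2 ^ h * g h ≤ 2 * (L + 1) * og 1 0 r 3 L := Nat.mul_le_mul (h5.trans (by omega)) h6
    _ = (L + 1) * og 2 0 r 3 L := by unfold og; ring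

/-- `SI ≤ og` (sizes) -/
theorem SI.ev_og {g : ℕ → ℕ} (hg : SI g) : ∃ r : ℕ, ∀ᶠ h : ℕ in atTop, ∀ L : ℕ,
    Nat.clog 2 L = h → g h ≤ og 1 0 r 3 L := by
  obtain ⟨C, hC⟩ := hg
  obtain ⟨r, hr⟩ := sui_le_og C
  refine ⟨r, ?_⟩
  filter_upwards [hC, hr] with h h1 h2 L hL
  exact h1.trans (h2 L hL)

/-- **the total**: `G * (AS ^ T * V ^ κ) ≤ fuc`, `AS ≤ 2^nn * PM`, `V ∈ PQ`, `G ∈ SI` -/
theorem fuel_fin {y v g : ℕ → ℕ} (hy : PM y) (hv : PQ v) (hg : SI g) (C : ℕ) :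
    ∃ c r : ℕ, ∀ᶠ h : ℕ in atTop, ∀ L : ℕ, Nat.clog 2 L = h →
      ∀ AS V T κ G : ℕ, AS ≤ 2 ^ nn h * y h → 1 ≤ AS → V ≤ v h → 1 ≤ V → T ≤ II h + C →
        κ ≤ C * (EE h * KK h + 1) → G ≤ g h → G * (AS ^ T * V ^ κ) ≤ fuc c 0 r 3 L := by
  have h1 : SI (fun h => g h * (y h ^ (II h + C) * (2 ^ ((C + 1) * nn h) *
      v h ^ (C * (EE h * KK h + 1))))) := by
    refine hg.mul ((hy.pow_II C).mul (SI.mul (PQ.toSI ?_) (hv.pow_ranks C)))
    exact PQ.two_pow (lQ_nn.const_mul _)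
  obtain ⟨c, r, h2⟩ := h1.ev_fuc
  refine ⟨c, r, ?_⟩
  filter_upwards [h2] with h h3 L hL AS V T κ G a1 a2 a3 a4 a5 a6 a7
  refine le_trans ?_ (h3 L hL)
  have e1 : AS ^ T ≤ 2 ^ h * 2 ^ ((C + 1) * nn h) * y h ^ (II h + C) := by
    calc AS ^ T ≤ AS ^ (II h + C) := Nat.pow_le_pow_right a2 a5
      _ ≤ (2 ^ nn h * y h) ^ (II h + C) := Nat.pow_le_pow_left a1 _
      _ = (2 ^ nn h) ^ (II h + C) * y h ^ (II h + C) := mul_pow _ _ _
      _ ≤ _ := Nat.mul_le_mul_right _ (two_pow_nn_II C h)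
  have e2 : V ^ κ ≤ v h ^ (C * (EE h * KK h + 1)) :=
    (Nat.pow_le_pow_right a4 a6).trans (Nat.pow_le_pow_left a3 _)
  calc G * (AS ^ T * V ^ κ)
      ≤ g h * ((2 ^ h * 2 ^ ((C + 1) * nn h) * y h ^ (II h + C)) *
          v h ^ (C * (EE h * KK h + 1))) := Nat.mul_le_mul a7 (Nat.mul_le_mul e1 e2)
    _ = _ := by ring

/-- `PQ` numbers are below every `2 ^ (h / k)` -/
theorem PQ.ev_le_pow {f : ℕ → ℕ} (hf : PQ f) (k : ℕ) (hk : 1 ≤ k) :
    ∀ᶠ h : ℕ in atTop, f h ≤ 2 ^ (h / k) := by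
  obtain ⟨C, hC⟩ := hf
  filter_upwards [hC, ev_pow_le_self (k * C) 4 1 0 0 0 1] with h h1 h2
  simp only [pow_zero, mul_one, pow_one, zero_mul, add_zero] at h2
  refine h1.trans (Nat.pow_le_pow_right (by norm_num) ?_)
  rw [Nat.le_div_iff_mul_le hk]
  unfold sQ
  calc C * (W h ^ 4 * Lg h) * k = k * C * W h ^ 4 * Lg h := by ring
    _ ≤ h := h2

/-- `SI` numbers are below every `2 ^ (h / k)` -/
theorem SI.ev_le_pow {f : ℕ → ℕ} (hf : SI f) (k : ℕ) (hk : 1 ≤ k) :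
    ∀ᶠ h : ℕ in atTop, f h ≤ 2 ^ (h / k) := by
  obtain ⟨C, hC⟩ := hf
  filter_upwards [hC, ev_pow_le_self (2 * k * C) C C C 0 0 1, ev_le_W (2 * k * C)] with h h1 h2 h3
  simp only [pow_one, zero_mul, add_zero, pow_zero, mul_one] at h2
  refine h1.trans ?_
  rw [sui_eq]
  refine Nat.pow_le_pow_right (by norm_num) ?_
  rw [Nat.le_div_iff_mul_le hk]
  have e1 : 2 * (C * W h ^ C * Lg h ^ C * Mg h ^ C * k) ≤ h := by
    calc 2 * (C * W h ^ C * Lg h ^ C * Mg h ^ C * k)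
        = 2 * k * C * W h ^ C * Lg h ^ C * Mg h ^ C := by ring
      _ ≤ h := h2
  have e2 : 2 * (C * (h / W h) * k) ≤ h := by
    calc 2 * (C * (h / W h) * k) = (2 * k * C) * (h / W h) := by ring
      _ ≤ W h * (h / W h) := Nat.mul_le_mul_right _ h3
      _ ≤ h := Nat.mul_div_le _ _
  rw [add_mul]
  omega

example : PQ (fun h => (2 * 40 * 2 ^ pb h + 1) ^ 2 * (1 + 2 ^ nn h * (h + 3)) * 4 ^ bb h) := by pw_tac
example : PM (fun h => (dl h + 9) * (84 * 2 ^ (c0 h + 8)) * (12 * gJ h + 1) * mJ h) := by pw_tac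

end Crest.Agent.R288.ParW951
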