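import Crest.Agent.R288.FrontT_327

/-!
# R288: parameter calculus (helper951)

All parameters are functions of `l = clog 2 N` (root height) and of a slow function
`w = slk j N = sl j l`.

* `sl j l = (log 2)^[j] l`, `lc l = clog 2 l + 1`, `llc l = clog 2 (clog 2 l) + 1`, `nw j l = sl j l * llc l`.
* `SP g` (Num_414) in the variable `l`: sub-polynomial in `l`. `sp_lc`, `sp_sl`, `sp_nw`,
  `sp_two_pow_nw` (`2 ^ (C * nw j l)`), `ev_le_self`, `ev_mul_le`, `sp_div`.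
* `OL f` : `f = o(log l)`; `OL.two_pow : SP (2 ^ f)`.
* exponents: `poly_pow_le`, `plog_pow_le`, `two_pow_mul_le`.
* quotients `K = l / q` with `q` sub-polynomial: `ev_div_pos`, `ev_div_ge`.
* `inv_eps_le` : `1 / ε ≤ slk j N` in `Mode2 (j+1)`.
-/

set_option autoImplicit false

open Filter

namespace Crest.Agent.R288.Par951

open Crest.Agent.R288.Num414 Crest.Agent.R288.Front327

/-- iterated binary logarithm -/
def sl (j l : ℕ) : ℕ := (Nat.log 2)^[j] l

theorem slk_eq (j N : ℕ) : slk j N = sl j (Nat.clog 2 N) := rfl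

@[simp] theorem sl_zero (l : ℕ) : sl 0 l = l := rfl

theorem sl_succ (j l : ℕ) : sl (j + 1) l = Nat.log 2 (sl j l) := Function.iterate_succ_apply' _ _ _

theorem sl_succ' (j l : ℕ) : sl (j + 1) l = sl j (Nat.log 2 l) := Function.iterate_succ_apply _ _ _

theorem sl_succ_le (j l : ℕ) : sl (j + 1) l ≤ sl j l := by
  rw [sl_succ]
  exact Nat.log_le_self 2 _

theorem sl_anti {j k : ℕ} (h : j ≤ k) (l : ℕ) : sl k l ≤ sl j l := by
  induction h with
  | refl => exact le_rfl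
  | step _ ih => exact (sl_succ_le _ _).trans ih

theorem sl_le (j l : ℕ) : sl j l ≤ l := sl_anti (Nat.zero_le j) l

theorem tendsto_sl (j : ℕ) : Tendsto (sl j) atTop atTop := by
  induction j with
  | zero => exact tendsto_id
  | succ j ih =>
    have : sl (j + 1) = (fun N => Nat.log 2 N) ∘ sl j := by
      funext l
      exact sl_succ j l
    rw [this]
    exact tendsto_log2.comp ih

/-- `clog 2 l + 1` -/
def lc (l : ℕ) : ℕ := Nat.clog 2 l + 1

/-- `clog 2 (clog 2 l) + 1` -/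
def llc (l : ℕ) : ℕ := Nat.clog 2 (Nat.clog 2 l) + 1

/-- window height -/
def nw (j l : ℕ) : ℕ := sl j l * llc l

theorem lc_pos (l : ℕ) : 0 < lc l := Nat.succ_pos _

theorem llc_pos (l : ℕ) : 0 < llc l := Nat.succ_pos _

theorem le_two_pow_lc (l : ℕ) : l + 1 ≤ 2 ^ lc l :=
  (Nat.le_pow_clog (b := 2) (by norm_num) (l + 1)).trans
    (Nat.pow_le_pow_right (by norm_num) (clog_succ_le l))

theorem lc_le_two_pow_llc (l : ℕ) : lc l ≤ 2 ^ llc l := le_two_pow_lc _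

theorem sl_one_le_lc (l : ℕ) : sl 1 l ≤ lc l := by
  rw [sl_succ, sl_zero]
  exact (Nat.log_le_clog 2 _).trans (Nat.le_succ _)

theorem sl_two_le_llc (l : ℕ) : sl 2 l ≤ llc l := by
  have h1 : sl 1 l ≤ Nat.clog 2 l := by
    rw [sl_succ, sl_zero]
    exact Nat.log_le_clog 2 _
  have h2 : sl 2 l ≤ Nat.clog 2 (sl 1 l) := by
    rw [sl_succ]
    exact Nat.log_le_clog 2 _
  exact (h2.trans (Nat.clog_mono_right 2 h1)).trans (Nat.le_succ _)

theorem sl_le_lc {j : ℕ} (hj : 1 ≤ j) (l : ℕ) : sl j l ≤ lc l := (sl_anti hj l).trans (sl_one_le_lc l)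

theorem sl_le_llc {j : ℕ} (hj : 2 ≤ j) (l : ℕ) : sl j l ≤ llc l :=
  (sl_anti hj l).trans (sl_two_le_llc l)

theorem llc_le_lc (l : ℕ) : llc l ≤ lc l := Nat.succ_le_succ (clog_le_self' _)

theorem two_pow_sl_succ_le (j l : ℕ) (h : sl j l ≠ 0) : 2 ^ sl (j + 1) l ≤ sl j l := by
  rw [sl_succ]
  exact Nat.pow_log_le_self 2 h

/-! ### sub-polynomial functions of `l` -/

theorem sp_lc : SP lc := SP.clog.add (SP.const 1)

theorem sp_llc : SP llc := sp_lc.mono (Eventually.of_forall llc_le_lc)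

theorem sp_sl {j : ℕ} (hj : 1 ≤ j) : SP (sl j) := sp_lc.mono (Eventually.of_forall (sl_le_lc hj))

theorem sp_nw {j : ℕ} (hj : 1 ≤ j) : SP (nw j) := (sp_sl hj).mul sp_llc

/-- `f = o(log l)` -/
def OL (f : ℕ → ℕ) : Prop := ∀ D : ℕ, ∀ᶠ l : ℕ in atTop, D * f l ≤ Nat.clog 2 l

theorem OL.mono {f g : ℕ → ℕ} (hg : OL g) (h : ∀ᶠ l in atTop, f l ≤ g l) : OL f := fun D => by
  filter_upwards [hg D, h] with l h1 h2
  exact (Nat.mul_le_mul_left D h2).trans h1

theorem OL.add {f g : ℕ → ℕ} (hf : OL f) (hg : OL g) : OL (fun l => f l + g l) := fun D => by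
  filter_upwards [hf (2 * D), hg (2 * D)] with l h1 h2
  rw [mul_assoc] at h1 h2
  rw [mul_add]
  omega

theorem OL.const_mul {f : ℕ → ℕ} (hf : OL f) (c : ℕ) : OL (fun l => c * f l) := fun D => by
  filter_upwards [hf (D * c)] with l h1
  rw [← mul_assoc]
  exact h1

theorem OL.const (c : ℕ) : OL (fun _ => c) := fun D => tendsto_clog2.eventually_ge_atTop (D * c)

/-- every power of `llc` is `o(log l)` -/
theorem ol_llc_pow (k : ℕ) : OL (fun l => llc l ^ k) := fun D =>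
  tendsto_clog2.eventually (ev_polylog D k)

theorem ol_nw {j : ℕ} (hj : 2 ≤ j) : OL (nw j) :=
  (ol_llc_pow 2).mono (Eventually.of_forall fun l => by
    unfold nw
    rw [pow_two]
    exact Nat.mul_le_mul_right _ (sl_le_llc hj l))

theorem OL.two_pow {f : ℕ → ℕ} (hf : OL f) : SP (fun l => 2 ^ f l) := by
  refine SP.two_pow fun η hη => ?_
  obtain ⟨D, hD⟩ := exists_nat_ge (2 / η)
  filter_upwards [hf D, tendsto_logb.eventually_ge_atTop (1 : ℝ), eventually_ge_atTop 1]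
    with l h1 h2 h3
  have h4 := clog_le_logb l h3
  have h5 : ((D * f l : ℕ) : ℝ) ≤ (Nat.clog 2 l : ℝ) := by exact_mod_cast h1
  push_cast at h5
  have h6 : 2 / η * (f l : ℝ) ≤ 2 * Real.logb 2 l :=
    calc 2 / η * (f l : ℝ) ≤ D * (f l : ℝ) := by gcongr
      _ ≤ 2 * Real.logb 2 l := by linarith
  have h7 : (f l : ℝ) = η / 2 * (2 / η * (f l : ℝ)) := by field_simp
  rw [h7]
  calc η / 2 * (2 / η * (f l : ℝ)) ≤ η / 2 * (2 * Real.logb 2 l) := by gcongr
    _ = η * Real.logb 2 l := by ring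

theorem sp_two_pow_nw {j : ℕ} (hj : 2 ≤ j) (C : ℕ) : SP (fun l => 2 ^ (C * nw j l)) :=
  ((ol_nw hj).const_mul C).two_pow

/-- the universal smallness statement: every sub-polynomial function is eventually below `l` -/
theorem ev_le_self {g : ℕ → ℕ} (hg : SP g) : ∀ᶠ l : ℕ in atTop, g l ≤ l := by
  filter_upwards [hg 1 one_pos] with l hl
  rw [Real.rpow_one] at hl
  exact_mod_cast hl

/-- with powers: `(C g)^m ≤ l` -/
theorem ev_pow_le {g : ℕ → ℕ} (hg : SP g) (C m : ℕ) : ∀ᶠ l : ℕ in atTop, (C * g l) ^ m ≤ l :=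
  ev_le_self (((SP.const C).mul hg).pow m)

theorem ev_mul_le {g : ℕ → ℕ} (hg : SP g) (C : ℕ) : ∀ᶠ l : ℕ in atTop, C * g l ≤ l :=
  ev_le_self ((SP.const C).mul hg)

/-! ### quotients `l / q` -/

theorem ev_div_ge {q : ℕ → ℕ} (hq : SP q) (hq0 : ∀ᶠ l in atTop, 0 < q l) (m : ℕ) :
    ∀ᶠ l : ℕ in atTop, m ≤ l / q l := by
  filter_upwards [ev_mul_le hq m, hq0] with l h1 h0
  exact (Nat.le_div_iff_mul_le h0).2 h1

/-- the integer quotient is at least half of the real one -/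
theorem half_le_div {l q : ℕ} (hq : 0 < q) (h : 2 * q ≤ l) : (l : ℝ) / (2 * q) ≤ ((l / q : ℕ) : ℝ) := by
  have hq' : (0 : ℝ) < q := by exact_mod_cast hq
  have h1 : l < (l / q + 1) * q := by
    have := Nat.lt_div_mul_add (a := l) hq
    rw [add_mul, one_mul]
    exact this
  have h2 : 2 ≤ l / q := (Nat.le_div_iff_mul_le hq).2 h
  have h3 : (l : ℝ) < (((l / q : ℕ) : ℝ) + 1) * q := by exact_mod_cast h1
  have h4 : (2 : ℝ) ≤ ((l / q : ℕ) : ℝ) := by exact_mod_cast h2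
  rw [div_le_iff₀ (by positivity)]
  nlinarith

/-- the reciprocal of the integer quotient -/
theorem inv_div_le {l q : ℕ} (hq : 0 < q) (h : 2 * q ≤ l) :
    (((l / q : ℕ) : ℝ))⁻¹ ≤ 2 * q / l := by
  have hq' : (0 : ℝ) < q := by exact_mod_cast hq
  have hl : (0 : ℝ) < l := by exact_mod_cast (show 0 < l by omega)
  have h1 := half_le_div hq h
  have h2 : (0 : ℝ) < (l : ℝ) / (2 * q) := by positivity
  calc (((l / q : ℕ) : ℝ))⁻¹ ≤ ((l : ℝ) / (2 * q))⁻¹ := inv_anti₀ h2 h1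
    _ = 2 * q / l := by rw [inv_div]

theorem div_mul_le' (l q : ℕ) : l / q * q ≤ l := Nat.div_mul_le_self l q

/-! ### exponents -/

/-- `C (l+1)^a ≤ 2 ^ ((C+a) lc)` -/
theorem poly_le (C a l : ℕ) : C * (l + 1) ^ a ≤ 2 ^ ((C + a) * lc l) := poly_le_two_pow C a l

/-- `C lc^a ≤ 2 ^ ((C+a) llc)` -/
theorem plog_le (C a l : ℕ) : C * lc l ^ a ≤ 2 ^ ((C + a) * llc l) := poly_le_two_pow C a _

/-- a number below `2 ^ (c s)` to the power `e` with `e s w ≤ l` is at most `2 ^ (c (l / w))` -/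
theorem pow_le_two_pow {A c s e w l : ℕ} (hA : A ≤ 2 ^ (c * s)) (hw : 0 < w) (he : e * (s * w) ≤ l) :
    A ^ e ≤ 2 ^ (c * (l / w)) := by
  calc A ^ e ≤ (2 ^ (c * s)) ^ e := Nat.pow_le_pow_left hA e
    _ = 2 ^ (c * (e * s)) := by rw [← pow_mul]; congr 1; ring
    _ ≤ 2 ^ (c * (l / w)) := by
        refine Nat.pow_le_pow_right (by norm_num) (Nat.mul_le_mul_left c ?_)
        rw [Nat.le_div_iff_mul_le hw, mul_assoc]
        exact he

/-- `poly(l) ^ e` with `e lc w ≤ l` -/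
theorem poly_pow_le {C a e w l : ℕ} (hw : 0 < w) (he : e * (lc l * w) ≤ l) :
    (C * (l + 1) ^ a) ^ e ≤ 2 ^ ((C + a) * (l / w)) := pow_le_two_pow (poly_le C a l) hw he

/-- `polylog(l) ^ e` with `e llc w ≤ l` -/
theorem plog_pow_le {C a e w l : ℕ} (hw : 0 < w) (he : e * (llc l * w) ≤ l) :
    (C * lc l ^ a) ^ e ≤ 2 ^ ((C + a) * (l / w)) := pow_le_two_pow (plog_le C a l) hw he

/-- `polylog(l)` per window of `nw j l` levels -/
theorem plog_window_le {C a j l h : ℕ} (hw : 0 < sl j l) (hh : h ≤ l) :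
    (C * lc l ^ a) ^ (h / nw j l) ≤ 2 ^ ((C + a) * (l / sl j l)) := by
  refine plog_pow_le hw ?_
  have : h / nw j l * (llc l * sl j l) ≤ h := by
    unfold nw
    rw [mul_comm (sl j l)]
    exact Nat.div_mul_le_self h _
  omega

theorem two_pow_mul_div_le (c l w : ℕ) : 2 ^ (c * (l / w)) ≤ 2 ^ (c * l / w) :=
  Nat.pow_le_pow_right (by norm_num) (Nat.mul_div_le_mul_div_assoc c l w)

/-- products of such factors -/
theorem two_pow_add_le {A B a b l w : ℕ} (hA : A ≤ 2 ^ (a * (l / w))) (hB : B ≤ 2 ^ (b * (l / w))) :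
    A * B ≤ 2 ^ ((a + b) * (l / w)) := by
  rw [add_mul, pow_add]
  exact Nat.mul_le_mul hA hB

theorem two_pow_pow_le {A a l w : ℕ} (hA : A ≤ 2 ^ (a * (l / w))) (k : ℕ) :
    A ^ k ≤ 2 ^ ((a * k) * (l / w)) := by
  calc A ^ k ≤ (2 ^ (a * (l / w))) ^ k := Nat.pow_le_pow_left hA k
    _ = 2 ^ ((a * k) * (l / w)) := by rw [← pow_mul]; congr 1; ring

/-- `C lc^a w^b ≤ l / w` eventually -/
theorem ev_plog_le_div {j : ℕ} (hj : 1 ≤ j) (C a : ℕ) :
    ∀ᶠ l : ℕ in atTop, C * lc l ^ a ≤ l / sl j l := by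
  filter_upwards [ev_mul_le ((sp_lc.pow a).mul (sp_sl hj)) C, (tendsto_sl j).eventually_ge_atTop 1]
    with l h1 h2
  rw [Nat.le_div_iff_mul_le h2, mul_assoc]
  exact h1

/-- every polynomial in `l` is eventually below `2 ^ (l / w)` -/
theorem ev_poly_le {j : ℕ} (hj : 1 ≤ j) (C a : ℕ) :
    ∀ᶠ l : ℕ in atTop, C * (l + 1) ^ a ≤ 2 ^ (l / sl j l) := by
  filter_upwards [ev_plog_le_div hj (C + a) 1] with l h1
  rw [pow_one] at h1
  exact (poly_le C a l).trans (Nat.pow_le_pow_right (by norm_num) h1)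

/-- every sub-polynomial function of `l` is eventually below `2 ^ (l / w)` -/
theorem ev_sp_le {j : ℕ} (hj : 1 ≤ j) {g : ℕ → ℕ} (hg : SP g) :
    ∀ᶠ l : ℕ in atTop, g l ≤ 2 ^ (l / sl j l) := by
  filter_upwards [ev_le_self hg, ev_poly_le hj 1 1] with l h1 h2
  rw [pow_one, one_mul] at h2
  omega

/-! ### `ε` -/

open Crest.GraphRAM Crest.Agent.R288.Top791 in
theorem size_den_le {q : ℚ} (hq : 0 < q) : q.den.size + 2 ≤ (ratWords q).length := by
  have h1 : 0 < q.num.natAbs := Int.natAbs_pos.2 (Rat.num_pos.2 hq).ne'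
  have h2 : 0 < q.num.natAbs.size := Nat.size_pos.2 h1
  unfold ratWords
  simp only [List.length_append, List.length_cons, List.length_map, Nat.size_eq_bits_len] at *
  omega

open Crest.GraphRAM Crest.Agent.R288.Top791 in
/-- **`4 / ε ≤ slk j N` in `Mode2 (j+1)`** -/
theorem inv_eps_le {j : ℕ} {x y : List ℕ} {ε : ℚ} (hm : Mode2 (j + 1) x y ε) (h0 : 0 < ε) :
    4 * ((ε : ℝ))⁻¹ ≤ (slk j (inp x y ε).length : ℝ) := by
  have h1 := (size_den_le h0).trans hm.short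
  have h2 : ε.den < 2 ^ ε.den.size := Nat.lt_size_self _
  have h3 : slk j (inp x y ε).length ≠ 0 := by
    intro h
    have h4 := hm.one_le
    rw [Front327.slk_succ, h] at h4
    simp at h4
  have h4 : 2 ^ slk (j + 1) (inp x y ε).length ≤ slk j (inp x y ε).length := by
    rw [Front327.slk_succ]
    exact Nat.pow_log_le_self 2 h3
  have h5 : 4 * ε.den ≤ slk j (inp x y ε).length := by
    calc 4 * ε.den ≤ 4 * 2 ^ ε.den.size := by omega
      _ = 2 ^ (ε.den.size + 2) := by rw [pow_add]; ring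
      _ ≤ 2 ^ slk (j + 1) (inp x y ε).length := Nat.pow_le_pow_right (by norm_num) h1
      _ ≤ _ := h4
  have h6 : ((ε : ℝ))⁻¹ ≤ (ε.den : ℝ) := by
    have h7 : (1 : ℝ) ≤ (ε.num : ℝ) := by exact_mod_cast Rat.num_pos.2 h0
    have h8 : (0 : ℝ) < (ε.den : ℝ) := by exact_mod_cast ε.den_pos
    have h9 : (ε : ℝ) = (ε.num : ℝ) / ε.den := Rat.cast_def ε
    rw [h9, inv_div]
    exact div_le_self h8.le h7
  calc 4 * ((ε : ℝ))⁻¹ ≤ 4 * (ε.den : ℝ) := by gcongr
    _ = ((4 * ε.den : ℕ) : ℝ) := by push_cast; ring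
    _ ≤ _ := by exact_mod_cast h5

/-! ### the fuel -/

theorem two_pow_clog_le {N : ℕ} (h : 1 ≤ N) : 2 ^ Nat.clog 2 N ≤ 2 * N := by
  have := Front327.two_pow_clog_lt N h
  omega

/-- from eventual statements on `l = clog 2 N` to `N ≥ 2 ^ j₀` -/
theorem exists_pow {p : ℕ → Prop} (h : ∀ᶠ l in atTop, p l) :
    ∃ j₀ : ℕ, ∀ N : ℕ, 2 ^ j₀ ≤ N → p (Nat.clog 2 N) := by
  obtain ⟨a, ha⟩ := eventually_atTop.1 h
  refine ⟨a, fun N hN => ha _ ?_⟩
  calc a = Nat.clog 2 (2 ^ a) := (Nat.clog_pow 2 a (by norm_num)).symm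
    _ ≤ Nat.clog 2 N := Nat.clog_mono_right 2 hN

end Crest.Agent.R288.Par951
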