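import Crest.Agent.R288.ShellC_12
import Crest.Agent.R288.Inp_39

/-!
# R288, leaf [P]: reading the words of `ε` (helper367)

`pars` reads the words of `ε` (array `0`, cells `M + 2, ..., L - 1`, `M = reg 62`, `L = reg 65`)
from the right and puts `72 := num`, `73 := den`, `74 :=` number of words; `70 := 0`; nothing else
changes. Cost `<= 5 lb + 7`.

* `hor`: the pure reader, `hor_ratWords : hor (ratWords ε) = (num, den)`;
* `pars_runs`: exact final state;
* `CoreSt`: the state in which `core` starts (`AfterSt` plus `num`, `den`, `lb`);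
* `top433D`: S0433 from a core which starts in `CoreSt`.
-/

set_option autoImplicit false

namespace Crest.Agent.R288.Pars367

open Crest.GraphRAM Crest.Agent.R288.Ed Crest.Agent.R295.HL Exp Cnd Cmd
open Crest.Agent.R288.Lv Crest.Agent.R288.LceA508 Crest.Agent.R288.Top791 Crest.Agent.R288.Front327
open Crest.Agent.R288.Kmr725 Crest.Agent.R288.Shell12 Crest.Agent.R288.Inp39
open Crest.Agent.R288.EnvM12 Crest.Agent.R295.TopH791

/-- the pure reader, from the right: `2` is the separator -/
def hor : List ℕ → ℕ × ℕ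
  | [] => (0, 0)
  | b :: l => if b = 2 then (0, (hor l).1) else (2 * (hor l).1 + b, (hor l).2)

theorem hor_bits {l : List ℕ} (hl : ∀ b ∈ l, b < 2) : hor l = (Nat.ofDigits 2 l, 0) := by
  induction l with
  | nil => rfl
  | cons b l ih =>
    have hb : b < 2 := hl b (by simp)
    rw [hor, if_neg (by omega), ih (fun c hc => hl c (by simp [hc])), Nat.ofDigits_cons]
    simp only [Prod.mk.injEq, and_true]
    omega

theorem hor_sep {l r : List ℕ} (hl : ∀ b ∈ l, b < 2) :
    hor (l ++ 2 :: r) = (Nat.ofDigits 2 l, (hor r).1) := by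
  induction l with
  | nil => simp [hor]
  | cons b l ih =>
    have hb : b < 2 := hl b (by simp)
    rw [List.cons_append, hor, if_neg (by omega), ih (fun c hc => hl c (by simp [hc])),
      Nat.ofDigits_cons]
    simp only [Prod.mk.injEq, and_true]
    omega

theorem hor_two (l : List ℕ) : hor (2 :: l) = (0, (hor l).1) := by simp [hor]

theorem hor_ne {b : ℕ} (h : b ≠ 2) (l : List ℕ) :
    hor (b :: l) = (2 * (hor l).1 + b, (hor l).2) := by simp [hor, h]

theorem hor_ratWords (ε : ℚ) : hor (ratWords ε) = (ε.num.natAbs, ε.den) := by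
  rw [ratWords_eq, hor_sep (fun b hb => bw_lt_two hb), hor_bits (fun b hb => bw_lt_two hb),
    ofDigits_bw, ofDigits_bw]

theorem hor_lt {l : List ℕ} (hl : ∀ b ∈ l, b ≤ 2) :
    (hor l).1 < 2 ^ l.length ∧ (hor l).2 < 2 ^ l.length := by
  induction l with
  | nil => simp [hor]
  | cons b l ih =>
    obtain ⟨h1, h2⟩ := ih (fun c hc => hl c (by simp [hc]))
    have hb : b ≤ 2 := hl b (by simp)
    rw [List.length_cons, pow_succ]
    unfold hor
    split
    · constructor <;> simp only <;> omega
    · constructor <;> simp only <;> omega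

/-- read the words of `ε` -/
def pars : Cmd :=
  set 70 (var 65) ;; set 72 0 ;; set 73 0 ;;
  whl (lt (var 62 + 2) (var 70)) (
    set 70 (var 70 - 1) ;;
    ite (eq (get 0 (var 70)) 2) (set 73 (var 72) ;; set 72 0)
      (set 72 (var 72 + var 72 + get 0 (var 70)))) ;;
  set 70 0 ;; set 74 (var 65 - (var 62 + 2))

/-- the final state of `pars` -/
def parsed (s : State) (p : ℕ × ℕ) (lb : ℕ) : State :=
  { s with reg := fun i => if i = 70 then 0 else if i = 72 then p.1 else if i = 73 then p.2 else
      if i = 74 then lb else s.reg i }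

@[simp] theorem parsed_arr (s : State) (p : ℕ × ℕ) (lb : ℕ) : (parsed s p lb).arr = s.arr := rfl
@[simp] theorem parsed_drawn (s : State) (p : ℕ × ℕ) (lb : ℕ) :
    (parsed s p lb).drawn = s.drawn := rfl

theorem pars_det : pars.det := by simp [pars]

section

variable {e : Env} {s : State} {z : List ℕ} {M : ℕ}

/-- loop invariant -/
structure Inv (s : State) (z : List ℕ) (M : ℕ) (s' : State) : Prop where
  arr : s'.arr = s.arr
  dr : s'.drawn = s.drawn
  lo : M + 2 ≤ s'.reg 70
  hi : s'.reg 70 ≤ M + 2 + z.length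
  num : s'.reg 72 = (hor (z.drop (s'.reg 70 - (M + 2)))).1
  den : s'.reg 73 = (hor (z.drop (s'.reg 70 - (M + 2)))).2
  fr : ∀ i, i ≠ 70 → i ≠ 72 → i ≠ 73 → s'.reg i = s.reg i

theorem pars_runs (h62 : s.reg 62 = M) (h65 : s.reg 65 = M + 2 + z.length)
    (hz : ∀ j (h : j < z.length), s.arr 0 (M + 2 + j) = z[j]) (hz2 : ∀ b ∈ z, b ≤ 2)
    (hL : M + 2 + z.length ≤ e.L) (hB : M + 2 + z.length < e.B) (hP : 2 ^ z.length < e.B) :
    Runs e pars s (5 * z.length + 7) (fun s' => s' = parsed s (hor z) z.length) := by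
  have h2B : 2 < e.B := by omega
  unfold pars
  refine Runs.seq (n := 1) (m := 5 * z.length + 6)
    (R := fun s' => s' = s.setReg 70 (M + 2 + z.length)) (Runs.set (by simp) (by simp [h65])) ?_
    (by omega)
  rintro s1 rfl
  refine Runs.seq (n := 1) (m := 5 * z.length + 5)
    (R := fun s' => s' = (s.setReg 70 (M + 2 + z.length)).setReg 72 0)
    (Runs.set (by simp; omega) (by simp)) ?_ (by omega)
  rintro s1 rfl
  refine Runs.seq (n := 1) (m := 5 * z.length + 4)
    (R := fun s' => s' = ((s.setReg 70 (M + 2 + z.length)).setReg 72 0).setReg 73 0)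
    (Runs.set (by simp; omega) (by simp)) ?_ (by omega)
  rintro s1 rfl
  have hloop := Runs.whl (e := e) (c := lt (var 62 + 2) (var 70)) (p := set 70 (var 70 - 1) ;;
    ite (eq (get 0 (var 70)) 2) (set 73 (var 72) ;; set 72 0)
      (set 72 (var 72 + var 72 + get 0 (var 70)))) (Inv s z M) (fun s' => s'.reg 70 - (M + 2)) 4
    ?_ ?_ (((s.setReg 70 (M + 2 + z.length)).setReg 72 0).setReg 73 0) ?_
  · refine Runs.seq (n := 5 * z.length + 1) (m := 2) (hloop.mono ?_ (fun _ h => h)) ?_ (by omega)
    · simp
      omega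
    · rintro s2 ⟨I, hc⟩
      have h62' : s2.reg 62 = M := by rw [I.fr 62 (by omega) (by omega) (by omega), h62]
      have h65' : s2.reg 65 = M + 2 + z.length := by
        rw [I.fr 65 (by omega) (by omega) (by omega), h65]
      simp [h62'] at hc
      have hlo := I.lo
      have h70 : s2.reg 70 = M + 2 := by omega
      refine Runs.seq (n := 1) (m := 1) (R := fun s' => s' = s2.setReg 70 0)
        (Runs.set (by simp; omega) (by simp)) ?_ le_rfl
      rintro s3 rfl
      refine Runs.set (by simp [h62']; omega) ?_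
      have hn := I.num
      have hd := I.den
      rw [h70, Nat.sub_self, List.drop_zero] at hn hd
      have harr := I.arr
      have hdr := I.dr
      apply State.ext
      · funext i
        simp only [State.setReg_reg, parsed, val_sub, val_add, val_var]
        by_cases h1 : i = 70
        · subst h1; simp
        by_cases h2 : i = 72
        · subst h2; simp [hn]
        by_cases h3 : i = 73
        · subst h3; simp [hd]
        by_cases h4 : i = 74
        · subst h4
          simp [h62', h65']
        · simp [h1, h2, h3, h4, I.fr i h1 h2 h3]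
      · simp [harr]
      · simp [hdr]
  · intro s2 I
    have h62' : s2.reg 62 = M := by rw [I.fr 62 (by omega) (by omega) (by omega), h62]
    simp [h62']
    omega
  · intro s2 I hc
    have h62' : s2.reg 62 = M := by rw [I.fr 62 (by omega) (by omega) (by omega), h62]
    simp [h62'] at hc
    have hhi := I.hi
    obtain ⟨j, hj⟩ : ∃ j, s2.reg 70 = M + 2 + (j + 1) := ⟨s2.reg 70 - (M + 2) - 1, by omega⟩
    have hjl : j < z.length := by omega
    have hn := I.num
    have hd := I.den
    rw [hj, Nat.add_sub_cancel_left] at hn hd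
    have hdrop : z.drop j = z[j] :: z.drop (j + 1) := List.drop_eq_getElem_cons hjl
    have hb := hor_lt (l := z.drop (j + 1)) (fun b hb => hz2 b (List.mem_of_mem_drop hb))
    have hzj : z[j] ≤ 2 := hz2 _ (List.getElem_mem hjl)
    have hcell : s2.arr 0 (M + 2 + j) = z[j] := by rw [I.arr, hz j hjl]
    have hlen : (z.drop (j + 1)).length + 1 ≤ z.length := by
      rw [List.length_drop]; omega
    have hpow : 2 * 2 ^ (z.drop (j + 1)).length ≤ 2 ^ z.length := by
      calc 2 * 2 ^ (z.drop (j + 1)).length = 2 ^ ((z.drop (j + 1)).length + 1) := by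
            rw [pow_succ]; ring
        _ ≤ _ := Nat.pow_le_pow_right (by norm_num) hlen
    have hfr := I.fr
    refine Runs.seq (n := 1) (m := 3) (R := fun s' => s' = s2.setReg 70 (M + 2 + j))
      (Runs.set (by simp; omega) (by
        show s2.setReg 70 ((var 70 - 1).val s2) = _
        congr 1
        simp only [val_sub, val_var, val_one, hj]
        omega)) ?_ le_rfl
    rintro s3 rfl
    by_cases h2 : z[j] = 2
    · refine Runs.ite_true (n := 2) (by simp; omega) (by simp [hcell, h2]) ?_ le_rfl
      refine Runs.seq (n := 1) (m := 1)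
        (R := fun s' => s' = (s2.setReg 70 (M + 2 + j)).setReg 73 (s2.reg 72))
        (Runs.set (by simp) (by simp)) ?_ le_rfl
      rintro s4 rfl
      rw [h2] at hdrop
      have e1 : (hor (z.drop j)).1 = 0 := by rw [hdrop, hor_two]
      have e2 : (hor (z.drop j)).2 = (hor (z.drop (j + 1))).1 := by rw [hdrop, hor_two]
      refine Runs.set (by simp; omega) ⟨⟨by simp [I.arr], by simp [I.dr], by simp, ?_, ?_, ?_, ?_⟩,
        ?_⟩
      · simp; omega
      · simp [e1]
      · simp [e2, hn]
      · intro i h1 h3 h4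
        simp [h1, h3, h4, hfr i h1 h3 h4]
      · simp [hj]
    · refine Runs.ite_false (n := 1) (by simp; omega) (by simp [hcell, h2]) ?_ (by omega)
      have hval : s2.reg 72 + s2.reg 72 + z[j] < e.B := by omega
      have e1 : (hor (z.drop j)).1 = 2 * (hor (z.drop (j + 1))).1 + z[j] := by
        rw [hdrop, hor_ne h2]
      have e2 : (hor (z.drop j)).2 = (hor (z.drop (j + 1))).2 := by rw [hdrop, hor_ne h2]
      refine Runs.set (by simp [hcell]; omega) ⟨⟨by simp [I.arr], by simp [I.dr], by simp, ?_, ?_,
        ?_, ?_⟩, ?_⟩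
      · simp; omega
      · simp [e1, hn, hcell]
        omega
      · simp [e2, hd]
      · intro i h1 h3 h4
        simp [h1, h3, hfr i h1 h3 h4]
      · simp [hj]
  · refine ⟨by simp, by simp, by simp, by simp, ?_, ?_, ?_⟩
    · simp [hor]
    · simp [hor]
    · intro i h1 h2 h3
      simp [h1, h2, h3]

end

/-- the state in which `core` starts -/
structure CoreSt (x y : List ℕ) (ε : ℚ) (s : State) : Prop where
  res : s.reg 48 = min (editDist x y) (D0 (x.length + y.length) + 1)
  n : s.reg 60 = x.length
  m : s.reg 61 = y.length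
  M : s.reg 62 = x.length + y.length
  d0 : s.reg 63 = D0 (x.length + y.length)
  lv : s.reg 64 = Nat.size (x.length + y.length)
  li : s.reg 65 = (inp x y ε).length
  num : s.reg 72 = ε.num.natAbs
  den : s.reg 73 = ε.den
  lb : s.reg 74 = (ratWords ε).length
  inp : ∀ i, s.arr 0 i = (inp x y ε)[i]?.getD 0
  str : ∀ i < x.length + y.length, s.arr 13 i = cat x y i
  names : Names (cat x y) (x.length + y.length) (s.arr 14)
  reg70 : s.reg 70 = 0
  reg71 : s.reg 71 = 0
  reg0 : ∀ i, 75 ≤ i → s.reg i = 0
  arr0 : ∀ k, 41 ≤ k → ∀ i, s.arr k i = 0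
  dr : s.drawn = 0

theorem CoreSt.of {x y : List ℕ} {ε : ℚ} {s : State} (h : AfterSt x y (ratWords ε) s) :
    CoreSt x y ε (parsed s (hor (ratWords ε)) (ratWords ε).length) := by
  rw [hor_ratWords]
  refine ⟨?_, ?_, ?_, ?_, ?_, ?_, ?_, ?_, ?_, ?_, ?_, ?_, ?_, ?_, ?_, ?_, ?_, ?_⟩
  · simp [parsed, h.res]
  · simp [parsed, h.n]
  · simp [parsed, h.m]
  · simp [parsed, h.M]
  · simp [parsed, h.d0]
  · simp [parsed, h.lv]
  · simp [parsed, h.li, Top791.inp]
  · simp [parsed]
  · simp [parsed]
  · simp [parsed]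
  · exact h.inp
  · exact h.str
  · exact h.names
  · simp [parsed]
  · simp [parsed, h.reg0 71 (by omega)]
  · intro i hi
    have := h.reg0 i (by omega)
    simp only [parsed]
    rw [if_neg (by omega), if_neg (by omega), if_neg (by omega), if_neg (by omega), this]
  · exact h.arr0
  · exact h.dr

/-- `pars` started in `AfterSt` -/
theorem pars_after {e : Env} {x y : List ℕ} {ε : ℚ} {s : State}
    (h : AfterSt x y (ratWords ε) s) (hL : (inp x y ε).length ≤ e.L)
    (hB : (inp x y ε).length < e.B) (hP : 2 ^ (ratWords ε).length < e.B) :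
    Runs e pars s (5 * (ratWords ε).length + 7)
      (fun s' => s' = parsed s (hor (ratWords ε)) (ratWords ε).length) := by
  have hlen : (stringsInput x y ++ ratWords ε).length =
      x.length + y.length + 2 + (ratWords ε).length := by
    have := inp_length x y ε
    simp only [Top791.inp] at this
    omega
  have hlen' : (Top791.inp x y ε).length = x.length + y.length + 2 + (ratWords ε).length := hlen
  refine pars_runs (M := x.length + y.length) h.M (by rw [h.li, hlen]) ?_
    (fun b hb => ratWords_le_two hb) (by omega) (by omega) hP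
  intro j hj
  rw [h.inp]
  have := inp_w (ε := ε) x y j
  simp only [Top791.inp] at this
  rw [show x.length + y.length + 2 + j = 2 + x.length + y.length + j by omega, this,
    List.getElem?_eq_getElem hj, Option.getD_some]

theorem two_pow_ratWords_lt {km a : ℕ} {x y : List ℕ} {ε : ℚ} (hm : Mode2 km x y ε) :
    2 ^ (ratWords ε).length < 2 ^ wl a x y ε := by
  apply Nat.pow_lt_pow_right (by norm_num)
  have h1 := hm.short
  have h2 := slk_le km (inp x y ε).length
  have h3 := three_mul_clog_le a x y ε
  have h4 := three_le_clog x y ε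
  have h5 : Nat.clog 2 (Top791.inp x y ε).length ≤ Nat.clog 2 ((Top791.inp x y ε).length + 2) :=
    Nat.clog_mono_right _ (by omega)
  omega

/-- **S0433 from a core which starts in `CoreSt`** -/
theorem top433D (km j c k r j₀ : ℕ) (hj : 1 ≤ j) (core : Cmd)
    (Hcore : ∀ (a : ℕ) (ε : ℚ), 0 < ε → ε < 1 → ∀ x y, Symb a x y → Mode2 km x y ε →
      2 ^ j₀ ≤ (inp x y ε).length → D0 (x.length + y.length) < editDist x y →
      ∀ s, CoreSt x y ε s →
      HPR (wl a x y ε) (((inp x y ε).length + 2) ^ 2) core s
        (fuc c k r j (inp x y ε).length) (fun s' => GoodD ε x y (s'.reg 0)) (1 / 3)) :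
    ∃ P : Crest.WordRAM.Program, ∀ (a : ℕ) (ε : ℚ), 0 < ε → ε < 1 →
      (∀ x y : List ℕ, (∀ s ∈ x ++ y, s < (x.length + y.length + 2) ^ a) →
        2 / 3 ≤ Crest.WordRAM.probHaltsWith P ((a + 3) * Nat.clog 2 ((stringsInput x y ++ ratWords ε).length + 2))
            (stringsInput x y ++ ratWords ε)
            (fun out => ∃ D : ℕ, out = [D] ∧ editDist x y ≤ D ∧
              (D : ℝ) ≤ (1 + (ε : ℝ)) * editDist x y)) ∧
      (∀ x y : List ℕ, (∀ s ∈ x ++ y, s < (x.length + y.length + 2) ^ a) → x = y →
        ∀ ρ : ℕ → ℕ, ∃ T : ℕ, Crest.WordRAM.HaltsWithin P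
            ((a + 3) * Nat.clog 2 ((stringsInput x y ++ ratWords ε).length + 2)) ρ
            (stringsInput x y ++ ratWords ε) T [0]) ∧
      ∀ δ : ℝ, 0 < δ → ∃ N₀ : ℕ, ∀ x y : List ℕ, N₀ ≤ x.length + y.length →
        (∀ s ∈ x ++ y, s < (x.length + y.length + 2) ^ a) →
        Crest.WordRAM.expectedTime P ((a + 3) * Nat.clog 2 ((stringsInput x y ++ ratWords ε).length + 2))
            (stringsInput x y ++ ratWords ε)
          ≤ ENNReal.ofReal (((x.length + y.length : ℕ) : ℝ) ^ (1 + δ)) := by
  refine top433C km j (c + 12) k r j₀ hj (pars ;; core) ?_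
  intro a ε h0 h1 x y hs hm hj' hD s hA
  have hlt := length_lt a x y ε
  have hLB : (inp x y ε).length ≤ ((inp x y ε).length + 2) ^ 2 := by
    generalize (inp x y ε).length = L
    nlinarith
  have hrun : Runs ⟨2 ^ wl a x y ε, ((inp x y ε).length + 2) ^ 2, fun _ => 0⟩ pars s
      (5 * (ratWords ε).length + 7)
      (fun s' => s' = parsed s (hor (ratWords ε)) (ratWords ε).length) :=
    pars_after hA hLB hlt (two_pow_ratWords_lt hm)
  refine HPR.seq_det pars_det hrun (m := fuc c k r j (inp x y ε).length) ?_ ?_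
  · rintro s' rfl -
    exact Hcore a ε h0 h1 x y hs hm hj' hD _ (CoreSt.of hA)
  · have h2 : (ratWords ε).length ≤ (inp x y ε).length := by
      rw [inp_length]; omega
    have h3 : fuc c k r j (inp x y ε).length + 12 * ((inp x y ε).length + 1) ≤
        fuc (c + 12) k r j (inp x y ε).length := by
      unfold fuc
      have hT : 1 ≤ 2 ^ (r * Nat.clog 2 (inp x y ε).length / slk j (inp x y ε).length) :=
        Nat.one_le_two_pow
      have hK : 1 ≤ (Nat.clog 2 (inp x y ε).length + 1) ^ k := Nat.one_le_pow _ _ (by omega)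
      generalize 2 ^ (r * Nat.clog 2 (inp x y ε).length / slk j (inp x y ε).length) = T at hT ⊢
      generalize (Nat.clog 2 (inp x y ε).length + 1) ^ k = K at hK ⊢
      generalize (inp x y ε).length = L
      have h4 : 12 * (L + 1) ≤ 12 * (L + 1) * (T * K) :=
        Nat.le_mul_of_pos_right _ (Nat.mul_pos hT hK)
      calc c * (L + 1) * T * K + 12 * (L + 1) ≤ c * (L + 1) * T * K + 12 * (L + 1) * (T * K) := by
            omega
        _ = (c + 12) * (L + 1) * T * K := by ring
    omega

end Crest.Agent.R288.Pars367
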