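import Crest.Agent.R288.Samp_45

/-!
# R288 (RAM) leaf [Pth]: random descents in trees

* `desc a n ch k I`: `k` steps, at the node `I` the child `ch I i` with probability `a I i / W I`
  (`W I = pre (a I) (n I)`), one word per step.  `davg` = the ideal expectation (recursion),
  `Ev_desc_eq` (exact if `W I ∣ M` on the tree), `Ev_desc_le`, `Ev_desc_ge` (factors `(1 ± η)^k`),
  `abs_Ev_desc_sub_le`.
* importance sampling along a path: `Ev_desc_weight`: the product of the quotients
  `q I i * W I / a I i` estimates `tsum q k` (the sum over all leaves of the products of `q`).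
* `leaf ch k I`: binary trees, fair bits (`v % 2`), `lavg`, `Ev_leaf`, `Ev_leaf_rec`.
* `levN`: uniform position on level `k` by one word (`v % 2 ^ k`), `Ev_levN`,
  `lavg_dy`: the descent over dyadic positions is uniform.
-/

set_option autoImplicit false

namespace Crest.Agent.R288.Path45

open Finset Crest.Agent.R295.Rnd627 Crest.Agent.R295.Rnd627.RT Crest.Agent.R288.Samp45

universe u

variable {ν : Type u}

/-! ### general descents -/

/-- random descent: at `I` choose the child number `i < n I` with weight `a I i` -/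
def desc (a : ν → ℕ → ℕ) (n : ν → ℕ) (ch : ν → ℕ → ν) : ℕ → ν → RT ν
  | 0, I => RT.ret I
  | k + 1, I => RT.rnd fun v => desc a n ch k (ch I (pick (a I) (n I) (v % pre (a I) (n I))))

/-- the ideal expectation -/
noncomputable def davg (a : ν → ℕ → ℕ) (n : ν → ℕ) (ch : ν → ℕ → ν) : ℕ → ν → (ν → ℝ) → ℝ
  | 0, I, F => F I
  | k + 1, I, F => (∑ i ∈ range (n I), (a I i : ℝ) * davg a n ch k (ch I i) F) / pre (a I) (n I)

/-- a property of all nodes of the tree of depth `k` below `I` (children of positive weight) -/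
def Tree (a : ν → ℕ → ℕ) (n : ν → ℕ) (ch : ν → ℕ → ν) (P : ν → Prop) : ℕ → ν → Prop
  | 0, _ => True
  | k + 1, I => P I ∧ ∀ i < n I, 0 < a I i → Tree a n ch P k (ch I i)

section desc

variable {a : ν → ℕ → ℕ} {n : ν → ℕ} {ch : ν → ℕ → ν} {M k : ℕ} {I : ν} {F G : ν → ℝ}

@[simp] theorem desc_zero : desc a n ch 0 I = RT.ret I := rfl

theorem desc_succ : desc a n ch (k + 1) I =
    (samp (a I) (n I)).bind fun i => desc a n ch k (ch I i) := rfl

@[simp] theorem davg_zero : davg a n ch 0 I F = F I := rfl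

theorem davg_succ : davg a n ch (k + 1) I F =
    (∑ i ∈ range (n I), (a I i : ℝ) * davg a n ch k (ch I i) F) / pre (a I) (n I) := rfl

theorem Ev_desc_succ : (desc a n ch (k + 1) I).Ev M F =
    (samp (a I) (n I)).Ev M fun i => (desc a n ch k (ch I i)).Ev M F := by
  rw [desc_succ, Ev_bind]

theorem davg_nonneg (hF : ∀ J, 0 ≤ F J) (k : ℕ) (I : ν) : 0 ≤ davg a n ch k I F := by
  induction k generalizing I with
  | zero => exact hF I
  | succ k ih =>
    exact div_nonneg (sum_nonneg fun i _ => mul_nonneg (Nat.cast_nonneg _) (ih _))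
      (Nat.cast_nonneg _)

theorem davg_mono (h : ∀ J, F J ≤ G J) (k : ℕ) (I : ν) :
    davg a n ch k I F ≤ davg a n ch k I G := by
  induction k generalizing I with
  | zero => exact h I
  | succ k ih =>
    exact div_le_div_of_nonneg_right (sum_le_sum fun i _ =>
      mul_le_mul_of_nonneg_left (ih _) (Nat.cast_nonneg _)) (Nat.cast_nonneg _)

theorem davg_add (F G : ν → ℝ) (k : ℕ) (I : ν) :
    davg a n ch k I (fun J => F J + G J) = davg a n ch k I F + davg a n ch k I G := by
  induction k generalizing I with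
  | zero => rfl
  | succ k ih => simp only [davg_succ, ih, mul_add, sum_add_distrib, add_div]

theorem davg_mul (c : ℝ) (F : ν → ℝ) (k : ℕ) (I : ν) :
    davg a n ch k I (fun J => c * F J) = c * davg a n ch k I F := by
  induction k generalizing I with
  | zero => rfl
  | succ k ih =>
    simp only [davg_succ, ih]
    rw [← mul_div_assoc, mul_sum]
    congr 1
    refine sum_congr rfl fun i _ => ?_
    ring

theorem davg_const (c : ℝ) (k : ℕ) (I : ν)
    (hT : Tree a n ch (fun J => 0 < pre (a J) (n J)) k I) :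
    davg a n ch k I (fun _ => c) = c := by
  induction k generalizing I with
  | zero => rfl
  | succ k ih =>
    rw [davg_succ]
    conv_rhs => rw [← mean_const hT.1 c]
    congr 1
    refine sum_congr rfl fun i hi => ?_
    rcases Nat.eq_zero_or_pos (a I i) with h | h
    · rw [h]; simp
    · rw [ih _ (hT.2 i (mem_range.1 hi) h)]

/-- exact version -/
theorem Ev_desc_eq (hM : 0 < M) (k : ℕ) (I : ν)
    (hT : Tree a n ch (fun J => pre (a J) (n J) ∣ M) k I) :
    (desc a n ch k I).Ev M F = davg a n ch k I F := by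
  induction k generalizing I with
  | zero => rfl
  | succ k ih =>
    rw [Ev_desc_succ, davg_succ, Ev_samp_eq hM hT.1]
    congr 1
    refine sum_congr rfl fun i hi => ?_
    rcases Nat.eq_zero_or_pos (a I i) with h | h
    · rw [h]; simp
    · rw [ih _ (hT.2 i (mem_range.1 hi) h)]

theorem Ev_desc_le (hM : 0 < M) {η : ℝ} (hF : ∀ J, 0 ≤ F J) (k : ℕ) (I : ν)
    (hT : Tree a n ch (fun J => 0 < pre (a J) (n J) ∧ (pre (a J) (n J) : ℝ) / M ≤ η) k I) :
    (desc a n ch k I).Ev M F ≤ (1 + η) ^ k * davg a n ch k I F := by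
  induction k generalizing I with
  | zero => simp
  | succ k ih =>
    rw [Ev_desc_succ, davg_succ]
    have h1 := Ev_samp_le (a := a I) (n := n I) hM hT.1.1
      (f := fun i => (desc a n ch k (ch I i)).Ev M F) fun i _ => Ev_nonneg hF
    refine h1.trans ?_
    have hη : 0 ≤ η := le_trans (by positivity) hT.1.2
    have h2 : (∑ i ∈ range (n I), (a I i : ℝ) * (desc a n ch k (ch I i)).Ev M F) ≤
        (1 + η) ^ k * ∑ i ∈ range (n I), (a I i : ℝ) * davg a n ch k (ch I i) F := by
      rw [mul_sum]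
      refine sum_le_sum fun i hi => ?_
      rcases Nat.eq_zero_or_pos (a I i) with h | h
      · rw [h]; simp
      · have := mul_le_mul_of_nonneg_left (ih _ (hT.2 i (mem_range.1 hi) h))
          (Nat.cast_nonneg (α := ℝ) (a I i))
        linarith
    have h3 : 0 ≤ ∑ i ∈ range (n I), (a I i : ℝ) * (desc a n ch k (ch I i)).Ev M F :=
      sum_nonneg fun i _ => mul_nonneg (Nat.cast_nonneg _) (Ev_nonneg hF)
    calc (1 + (pre (a I) (n I) : ℝ) / M) *
          ((∑ i ∈ range (n I), (a I i : ℝ) * (desc a n ch k (ch I i)).Ev M F) / pre (a I) (n I))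
        ≤ (1 + η) * (((1 + η) ^ k * ∑ i ∈ range (n I), (a I i : ℝ) * davg a n ch k (ch I i) F) /
            pre (a I) (n I)) :=
          mul_le_mul (by linarith [hT.1.2]) (div_le_div_of_nonneg_right h2 (Nat.cast_nonneg _))
            (div_nonneg h3 (Nat.cast_nonneg _)) (by linarith)
      _ = _ := by rw [pow_succ]; ring

theorem Ev_desc_ge (hM : 0 < M) {η : ℝ} (hη1 : η ≤ 1) (hF : ∀ J, 0 ≤ F J) (k : ℕ) (I : ν)
    (hT : Tree a n ch (fun J => 0 < pre (a J) (n J) ∧ (pre (a J) (n J) : ℝ) / M ≤ η) k I) :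
    (1 - η) ^ k * davg a n ch k I F ≤ (desc a n ch k I).Ev M F := by
  induction k generalizing I with
  | zero => simp
  | succ k ih =>
    rw [Ev_desc_succ, davg_succ]
    have h1 := Ev_samp_ge (a := a I) (n := n I) hM hT.1.1
      (f := fun i => (desc a n ch k (ch I i)).Ev M F) fun i _ => Ev_nonneg hF
    refine le_trans ?_ h1
    have h2 : (1 - η) ^ k * ∑ i ∈ range (n I), (a I i : ℝ) * davg a n ch k (ch I i) F ≤
        ∑ i ∈ range (n I), (a I i : ℝ) * (desc a n ch k (ch I i)).Ev M F := by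
      rw [mul_sum]
      refine sum_le_sum fun i hi => ?_
      rcases Nat.eq_zero_or_pos (a I i) with h | h
      · rw [h]; simp
      · have := mul_le_mul_of_nonneg_left (ih _ (hT.2 i (mem_range.1 hi) h))
          (Nat.cast_nonneg (α := ℝ) (a I i))
        linarith
    have h3 : 0 ≤ (1 - η) ^ k * ∑ i ∈ range (n I), (a I i : ℝ) * davg a n ch k (ch I i) F :=
      mul_nonneg (pow_nonneg (by linarith) _)
        (sum_nonneg fun i _ => mul_nonneg (Nat.cast_nonneg _) (davg_nonneg hF _ _))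
    calc (1 - η) ^ (k + 1) *
          ((∑ i ∈ range (n I), (a I i : ℝ) * davg a n ch k (ch I i) F) / pre (a I) (n I))
        = (1 - η) * (((1 - η) ^ k * ∑ i ∈ range (n I), (a I i : ℝ) * davg a n ch k (ch I i) F) /
            pre (a I) (n I)) := by rw [pow_succ]; ring
      _ ≤ (1 - (pre (a I) (n I) : ℝ) / M) *
          ((∑ i ∈ range (n I), (a I i : ℝ) * (desc a n ch k (ch I i)).Ev M F) /
            pre (a I) (n I)) :=
          mul_le_mul (by linarith [hT.1.2]) (div_le_div_of_nonneg_right h2 (Nat.cast_nonneg _))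
            (div_nonneg h3 (Nat.cast_nonneg _)) (by linarith [hT.1.2])

theorem one_add_pow_le {η : ℝ} (h0 : 0 ≤ η) (k : ℕ) (hk : k * η ≤ 1) :
    (1 + η) ^ k ≤ 1 + 2 * (k * η) := by
  have h1 : (1 + η) ^ k ≤ Real.exp (k * η) := by
    have : 1 + η ≤ Real.exp η := by linarith [Real.add_one_le_exp η]
    calc (1 + η) ^ k ≤ (Real.exp η) ^ k := pow_le_pow_left₀ (by linarith) this k
      _ = Real.exp (k * η) := (Real.exp_nat_mul _ _).symm
  have h3 : 0 ≤ (k : ℝ) * η := by positivity
  have h4 := Real.abs_exp_sub_one_le (x := k * η) (by rw [abs_of_nonneg h3]; exact hk)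
  rw [abs_of_nonneg h3] at h4
  have h5 := (abs_le.1 h4).2
  linarith

theorem one_sub_mul_le_pow {η : ℝ} (h1 : η ≤ 1) (k : ℕ) :
    1 - k * η ≤ (1 - η) ^ k := by
  have := one_add_mul_le_pow (show (-2 : ℝ) ≤ -η by linarith) k
  rw [show (1 : ℝ) + -η = 1 - η by ring] at this
  linarith

/-- absolute error for functions with values in `[0, C]` -/
theorem abs_Ev_desc_sub_le (hM : 0 < M) {η C : ℝ} (h0 : 0 ≤ η) (hF : ∀ J, 0 ≤ F J)
    (hC : ∀ J, F J ≤ C) (k : ℕ) (hk : k * η ≤ 1) (I : ν)
    (hT : Tree a n ch (fun J => 0 < pre (a J) (n J) ∧ (pre (a J) (n J) : ℝ) / M ≤ η) k I) :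
    |(desc a n ch k I).Ev M F - davg a n ch k I F| ≤ 2 * (k * η) * C := by
  have hC0 : 0 ≤ C := (hF I).trans (hC I)
  rcases Nat.eq_zero_or_pos k with rfl | hkpos
  · simp
  have hη1 : η ≤ 1 := by
    have : (1 : ℝ) ≤ k := by exact_mod_cast hkpos
    nlinarith
  have h1 := Ev_desc_le hM hF k I hT
  have h2 := Ev_desc_ge hM hη1 hF k I hT
  have h3 := one_add_pow_le h0 k hk
  have h4 := one_sub_mul_le_pow hη1 k
  have hT' : Tree a n ch (fun J => 0 < pre (a J) (n J)) k I := by
    clear h1 h2 h3 h4 hk hkpos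
    induction k generalizing I with
    | zero => trivial
    | succ k ih => exact ⟨hT.1.1, fun i hi h => ih _ (hT.2 i hi h)⟩
  have h5 : davg a n ch k I F ≤ C := by
    rw [← davg_const C k I hT']
    exact davg_mono hC k I
  have h6 := davg_nonneg (a := a) (n := n) (ch := ch) hF k I
  have h7 : 0 ≤ (k : ℝ) * η := by positivity
  have h8 : (1 + η) ^ k * davg a n ch k I F ≤ (1 + 2 * (k * η)) * davg a n ch k I F :=
    mul_le_mul_of_nonneg_right h3 h6
  have h9 : (1 - k * η) * davg a n ch k I F ≤ (1 - η) ^ k * davg a n ch k I F :=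
    mul_le_mul_of_nonneg_right h4 h6
  have h10 : (k * η) * davg a n ch k I F ≤ (k * η) * C := mul_le_mul_of_nonneg_left h5 h7
  have h11 : 0 ≤ (k * η) * C := by positivity
  rw [abs_le]
  constructor <;> nlinarith

/-! #### importance sampling along a path -/

/-- the sum over all leaves of the product of the weights `q` along the path times `F` -/
noncomputable def tsum (n : ν → ℕ) (ch : ν → ℕ → ν) (q : ν → ℕ → ℝ) :
    ℕ → ν → (ν → ℝ) → ℝ
  | 0, I, F => F I
  | k + 1, I, F => ∑ i ∈ range (n I), q I i * tsum n ch q k (ch I i) F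

/-- random descent with the product of the importance quotients -/
noncomputable def wdesc (a : ν → ℕ → ℕ) (n : ν → ℕ) (ch : ν → ℕ → ν) (q : ν → ℕ → ℝ) (k : ℕ)
    (I : ν) (z : ℝ) : RT (ν × ℝ) :=
  desc (fun J : ν × ℝ => a J.1) (fun J => n J.1)
    (fun J i => (ch J.1 i, J.2 * (q J.1 i * (pre (a J.1) (n J.1) / a J.1 i)))) k (I, z)

theorem wdesc_succ (q : ν → ℕ → ℝ) (z : ℝ) : wdesc a n ch q (k + 1) I z =
    (samp (a I) (n I)).bind fun i =>
      wdesc a n ch q k (ch I i) (z * (q I i * (pre (a I) (n I) / a I i))) := rfl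

/-- the nodes of the descent with weights are the nodes of the descent -/
theorem Ev_wdesc_fst (q : ν → ℕ → ℝ) (k : ℕ) (I : ν) (z : ℝ) :
    (wdesc a n ch q k I z).Ev M (fun J => F J.1) = (desc a n ch k I).Ev M F := by
  induction k generalizing I z with
  | zero => rfl
  | succ k ih => rw [wdesc_succ, Ev_bind, Ev_desc_succ]; simp only [ih]

/-- **unbiasedness** (exact version) -/
theorem Ev_wdesc_eq (hM : 0 < M) (q : ν → ℕ → ℝ) (k : ℕ) (I : ν) (z : ℝ)
    (hT : Tree a n ch (fun J => 0 < pre (a J) (n J) ∧ pre (a J) (n J) ∣ M ∧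
      ∀ i < n J, a J i = 0 → q J i = 0) k I) :
    (wdesc a n ch q k I z).Ev M (fun J => J.2 * F J.1) = z * tsum n ch q k I F := by
  induction k generalizing I z with
  | zero => rfl
  | succ k ih =>
    obtain ⟨⟨t1, t2, t3⟩, t4⟩ := hT
    rw [wdesc_succ, Ev_bind, Ev_samp_eq hM t2]
    have h1 : ∀ i ∈ range (n I), (a I i : ℝ) *
        (wdesc a n ch q k (ch I i) (z * (q I i * (pre (a I) (n I) / a I i)))).Ev M
          (fun J => J.2 * F J.1) =
        z * (a I i * (q I i * tsum n ch q k (ch I i) F * (pre (a I) (n I) / a I i))) := by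
      intro i hi
      rcases Nat.eq_zero_or_pos (a I i) with h | h
      · rw [h]; simp
      · rw [ih _ _ (t4 i (mem_range.1 hi) h)]
        ring
    rw [sum_congr rfl h1, ← mul_sum, mul_div_assoc,
      sum_est t1 (f := fun i => q I i * tsum n ch q k (ch I i) F)
        fun i hi h => by rw [t3 i hi h, zero_mul]]
    rfl

theorem tsum_nonneg {q : ν → ℕ → ℝ} (hq : ∀ J i, 0 ≤ q J i) (hF : ∀ J, 0 ≤ F J) (k : ℕ)
    (I : ν) : 0 ≤ tsum n ch q k I F := by
  induction k generalizing I with
  | zero => exact hF I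
  | succ k ih => exact sum_nonneg fun i _ => mul_nonneg (hq _ _) (ih _)

/-- the ideal expectation of the estimator is exact -/
theorem davg_wdesc (q : ν → ℕ → ℝ) (k : ℕ) (I : ν) (z : ℝ)
    (hT : Tree a n ch (fun J => 0 < pre (a J) (n J) ∧ ∀ i < n J, a J i = 0 → q J i = 0) k I) :
    davg (fun J : ν × ℝ => a J.1) (fun J => n J.1)
      (fun J i => (ch J.1 i, J.2 * (q J.1 i * (pre (a J.1) (n J.1) / a J.1 i)))) k (I, z)
      (fun J => J.2 * F J.1) = z * tsum n ch q k I F := by
  induction k generalizing I z with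
  | zero => rfl
  | succ k ih =>
    obtain ⟨⟨t1, t3⟩, t4⟩ := hT
    rw [davg_succ]
    have h1 : ∀ i ∈ range (n I), (a I i : ℝ) *
        davg (fun J : ν × ℝ => a J.1) (fun J => n J.1)
          (fun J i => (ch J.1 i, J.2 * (q J.1 i * (pre (a J.1) (n J.1) / a J.1 i)))) k
          (ch I i, z * (q I i * (pre (a I) (n I) / a I i))) (fun J => J.2 * F J.1) =
        z * (a I i * (q I i * tsum n ch q k (ch I i) F * (pre (a I) (n I) / a I i))) := by
      intro i hi
      rcases Nat.eq_zero_or_pos (a I i) with h | h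
      · rw [h]; simp
      · rw [ih _ _ (t4 i (mem_range.1 hi) h)]
        ring
    simp only
    rw [sum_congr rfl h1, ← mul_sum, mul_div_assoc,
      sum_est t1 (f := fun i => q I i * tsum n ch q k (ch I i) F)
        fun i hi h => by rw [t3 i hi h, zero_mul]]
    rfl

theorem All_wdesc {q : ν → ℕ → ℝ} (hq : ∀ J i, 0 ≤ q J i) (k : ℕ) (I : ν) {z : ℝ}
    (hz : 0 ≤ z) : (wdesc a n ch q k I z).All M fun J => 0 ≤ J.2 := by
  induction k generalizing I z with
  | zero => exact hz
  | succ k ih =>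
    rw [wdesc_succ, All_bind]
    exact All.of_forall fun i => ih _ (mul_nonneg hz (mul_nonneg (hq _ _) (by positivity)))

theorem Ev_wdesc_nonneg {q : ν → ℕ → ℝ} (hq : ∀ J i, 0 ≤ q J i) (hF : ∀ J, 0 ≤ F J) (k : ℕ)
    (I : ν) {z : ℝ} (hz : 0 ≤ z) : 0 ≤ (wdesc a n ch q k I z).Ev M (fun J => J.2 * F J.1) :=
  Ev_nonneg_all ((All_wdesc hq k I hz).mono fun _ hJ => mul_nonneg hJ (hF _))

theorem Ev_wdesc_le (hM : 0 < M) {η : ℝ} {q : ν → ℕ → ℝ} (hq : ∀ J i, 0 ≤ q J i)
    (hF : ∀ J, 0 ≤ F J) (k : ℕ) (I : ν) {z : ℝ} (hz : 0 ≤ z)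
    (hT : Tree a n ch (fun J => (0 < pre (a J) (n J) ∧ (pre (a J) (n J) : ℝ) / M ≤ η) ∧
      ∀ i < n J, a J i = 0 → q J i = 0) k I) :
    (wdesc a n ch q k I z).Ev M (fun J => J.2 * F J.1) ≤
      (1 + η) ^ k * (z * tsum n ch q k I F) := by
  induction k generalizing I z with
  | zero =>
    rw [pow_zero, one_mul]
    exact le_rfl
  | succ k ih =>
    obtain ⟨⟨⟨t1, t2⟩, t3⟩, t4⟩ := hT
    have hη : 0 ≤ η := le_trans (by positivity) t2
    rw [wdesc_succ, Ev_bind]
    refine (Ev_samp_le hM t1 fun i _ => Ev_wdesc_nonneg hq hF k _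
      (mul_nonneg hz (mul_nonneg (hq _ _) (by positivity)))).trans ?_
    have h1 : ∀ i ∈ range (n I), (a I i : ℝ) *
        (wdesc a n ch q k (ch I i) (z * (q I i * (pre (a I) (n I) / a I i)))).Ev M
          (fun J => J.2 * F J.1) ≤
        (1 + η) ^ k * (z * (a I i * (q I i * tsum n ch q k (ch I i) F *
          (pre (a I) (n I) / a I i)))) := by
      intro i hi
      rcases Nat.eq_zero_or_pos (a I i) with h | h
      · rw [h]; simp
      · have h5 := mul_le_mul_of_nonneg_left (ih (ch I i) (z := z * (q I i *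
          (pre (a I) (n I) / a I i))) (mul_nonneg hz (mul_nonneg (hq _ _) (by positivity)))
          (t4 i (mem_range.1 hi) h)) (Nat.cast_nonneg (α := ℝ) (a I i))
        refine h5.trans (le_of_eq (by ring))
    have h2 := sum_le_sum h1
    rw [← mul_sum, ← mul_sum] at h2
    have h3 := div_le_div_of_nonneg_right h2 (Nat.cast_nonneg (α := ℝ) (pre (a I) (n I)))
    rw [mul_div_assoc, mul_div_assoc,
      sum_est t1 (f := fun i => q I i * tsum n ch q k (ch I i) F)
        fun i hi h => by rw [t3 i hi h, zero_mul]] at h3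
    have h4 : 0 ≤ (1 + η) ^ k * (z * ∑ i ∈ range (n I), q I i * tsum n ch q k (ch I i) F) :=
      mul_nonneg (by positivity) (mul_nonneg hz (sum_nonneg fun i _ =>
        mul_nonneg (hq _ _) (tsum_nonneg hq hF _ _)))
    have h6 : 0 ≤ (∑ i ∈ range (n I), (a I i : ℝ) *
        (wdesc a n ch q k (ch I i) (z * (q I i * (pre (a I) (n I) / a I i)))).Ev M
          (fun J => J.2 * F J.1)) / pre (a I) (n I) :=
      div_nonneg (sum_nonneg fun i _ => mul_nonneg (Nat.cast_nonneg _)
        (Ev_wdesc_nonneg hq hF k _ (mul_nonneg hz (mul_nonneg (hq _ _) (by positivity)))))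
        (Nat.cast_nonneg _)
    refine (mul_le_mul (by linarith : (1 : ℝ) + (pre (a I) (n I) : ℝ) / M ≤ 1 + η) h3 h6
      (by linarith)).trans (le_of_eq ?_)
    rw [pow_succ]
    show _ = _ * (z * ∑ i ∈ range (n I), q I i * tsum n ch q k (ch I i) F)
    ring

theorem Ev_wdesc_ge (hM : 0 < M) {η : ℝ} (hη1 : η ≤ 1) {q : ν → ℕ → ℝ}
    (hq : ∀ J i, 0 ≤ q J i) (hF : ∀ J, 0 ≤ F J) (k : ℕ) (I : ν) {z : ℝ} (hz : 0 ≤ z)
    (hT : Tree a n ch (fun J => (0 < pre (a J) (n J) ∧ (pre (a J) (n J) : ℝ) / M ≤ η) ∧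
      ∀ i < n J, a J i = 0 → q J i = 0) k I) :
    (1 - η) ^ k * (z * tsum n ch q k I F) ≤
      (wdesc a n ch q k I z).Ev M (fun J => J.2 * F J.1) := by
  induction k generalizing I z with
  | zero =>
    rw [pow_zero, one_mul]
    exact le_rfl
  | succ k ih =>
    obtain ⟨⟨⟨t1, t2⟩, t3⟩, t4⟩ := hT
    rw [wdesc_succ, Ev_bind]
    refine le_trans ?_ (Ev_samp_ge hM t1 fun i _ => Ev_wdesc_nonneg hq hF k _
      (mul_nonneg hz (mul_nonneg (hq _ _) (by positivity))))
    have h1 : ∀ i ∈ range (n I), (1 - η) ^ k * (z * (a I i * (q I i *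
        tsum n ch q k (ch I i) F * (pre (a I) (n I) / a I i)))) ≤ (a I i : ℝ) *
        (wdesc a n ch q k (ch I i) (z * (q I i * (pre (a I) (n I) / a I i)))).Ev M
          (fun J => J.2 * F J.1) := by
      intro i hi
      rcases Nat.eq_zero_or_pos (a I i) with h | h
      · rw [h]; simp
      · have h5 := mul_le_mul_of_nonneg_left (ih (ch I i) (z := z * (q I i *
          (pre (a I) (n I) / a I i))) (mul_nonneg hz (mul_nonneg (hq _ _) (by positivity)))
          (t4 i (mem_range.1 hi) h)) (Nat.cast_nonneg (α := ℝ) (a I i))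
        refine le_trans (le_of_eq (by ring)) h5
    have h2 := sum_le_sum h1
    rw [← mul_sum, ← mul_sum] at h2
    have h3 := div_le_div_of_nonneg_right h2 (Nat.cast_nonneg (α := ℝ) (pre (a I) (n I)))
    rw [mul_div_assoc, mul_div_assoc,
      sum_est t1 (f := fun i => q I i * tsum n ch q k (ch I i) F)
        fun i hi h => by rw [t3 i hi h, zero_mul]] at h3
    have h4 : 0 ≤ (1 - η) ^ k * (z * ∑ i ∈ range (n I), q I i * tsum n ch q k (ch I i) F) :=
      mul_nonneg (pow_nonneg (by linarith) _) (mul_nonneg hz (sum_nonneg fun i _ =>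
        mul_nonneg (hq _ _) (tsum_nonneg hq hF _ _)))
    refine le_trans (le_of_eq ?_) (mul_le_mul (by linarith :
      (1 : ℝ) - η ≤ 1 - (pre (a I) (n I) : ℝ) / M) h3 h4 (by linarith))
    rw [pow_succ]
    show _ * (z * ∑ i ∈ range (n I), q I i * tsum n ch q k (ch I i) F) = _
    ring

end desc

/-! ### fair binary descents -/

/-- binary descent with fair bits, one word per step (bit = `v % 2`) -/
def leaf (ch : ν → Bool → ν) : ℕ → ν → RT ν
  | 0, I => RT.ret I
  | k + 1, I => RT.rnd fun v => leaf ch k (ch I (decide (v % 2 = 1)))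

/-- the average over the leaves -/
noncomputable def lavg (ch : ν → Bool → ν) : ℕ → ν → (ν → ℝ) → ℝ
  | 0, I, F => F I
  | k + 1, I, F => (lavg ch k (ch I false) F + lavg ch k (ch I true) F) / 2

section leaf

variable {ch : ν → Bool → ν} {M k : ℕ} {I : ν} {F G : ν → ℝ}

theorem lavg_succ : lavg ch (k + 1) I F =
    (lavg ch k (ch I false) F + lavg ch k (ch I true) F) / 2 := rfl

theorem Ev_leaf_rec (hM : 0 < M) (h2 : 2 ∣ M) : (leaf ch (k + 1) I).Ev M F =
    ((leaf ch k (ch I false)).Ev M F + (leaf ch k (ch I true)).Ev M F) / 2 := by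
  have h := Ev_mod_eq hM h2 fun r => (leaf ch k (ch I (decide (r = 1)))).Ev M F
  rw [Ev_draw] at h
  show (RT.rnd fun v => leaf ch k (ch I (decide (v % 2 = 1)))).Ev M F = _
  rw [Ev_rnd, h, sum_range_succ, sum_range_succ, sum_range_zero, zero_add]
  simp

theorem Ev_leaf (hM : 0 < M) (h2 : 2 ∣ M) (k : ℕ) (I : ν) (F : ν → ℝ) :
    (leaf ch k I).Ev M F = lavg ch k I F := by
  induction k generalizing I with
  | zero => rfl
  | succ k ih => rw [Ev_leaf_rec hM h2, ih, ih]; rfl

theorem lavg_mono (h : ∀ J, F J ≤ G J) (k : ℕ) (I : ν) : lavg ch k I F ≤ lavg ch k I G := by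
  induction k generalizing I with
  | zero => exact h I
  | succ k ih => rw [lavg_succ, lavg_succ]; linarith [ih (ch I false), ih (ch I true)]

theorem lavg_add (F G : ν → ℝ) (k : ℕ) (I : ν) :
    lavg ch k I (fun J => F J + G J) = lavg ch k I F + lavg ch k I G := by
  induction k generalizing I with
  | zero => rfl
  | succ k ih => rw [lavg_succ, lavg_succ, lavg_succ, ih, ih]; ring

theorem lavg_mul (c : ℝ) (F : ν → ℝ) (k : ℕ) (I : ν) :
    lavg ch k I (fun J => c * F J) = c * lavg ch k I F := by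
  induction k generalizing I with
  | zero => rfl
  | succ k ih => rw [lavg_succ, lavg_succ, ih, ih]; ring

theorem lavg_const (c : ℝ) (k : ℕ) (I : ν) : lavg ch k I (fun _ => c) = c := by
  induction k generalizing I with
  | zero => rfl
  | succ k ih => rw [lavg_succ, ih, ih]; ring

/-- two stages: `j` steps, then `k` steps -/
theorem lavg_lavg (j k : ℕ) (I : ν) (F : ν → ℝ) :
    lavg ch j I (fun J => lavg ch k J F) = lavg ch (j + k) I F := by
  induction j generalizing I with
  | zero => rw [Nat.zero_add]; rfl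
  | succ j ih =>
    rw [lavg_succ, ih, ih, show j + 1 + k = (j + k) + 1 by omega, lavg_succ]

/-- dyadic positions: the children of `p` are `2 p` and `2 p + 1` -/
def dy (p : ℕ) (b : Bool) : ℕ := 2 * p + (if b then 1 else 0)

/-- the descent over dyadic positions is uniform -/
theorem lavg_dy (k p : ℕ) (F : ℕ → ℝ) :
    lavg dy k p F = (∑ i ∈ range (2 ^ k), F (2 ^ k * p + i)) / 2 ^ k := by
  induction k generalizing p with
  | zero => simp [lavg]
  | succ k ih =>
    rw [lavg_succ, ih, ih]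
    have e : (2 : ℕ) ^ (k + 1) = 2 ^ k + 2 ^ k := by ring
    rw [e, sum_range_add]
    have h1 : ∀ x, F (2 ^ k * dy p false + x) = F ((2 ^ k + 2 ^ k) * p + x) := by
      intro x
      congr 1
      simp only [dy, Bool.false_eq_true, if_false]
      ring
    have h2 : ∀ x, F (2 ^ k * dy p true + x) = F ((2 ^ k + 2 ^ k) * p + (2 ^ k + x)) := by
      intro x
      congr 1
      simp only [dy, if_true]
      ring
    simp only [h1, h2]
    have h3 : (2 : ℝ) ^ (k + 1) = 2 * 2 ^ k := by ring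
    rw [h3]
    field_simp

/-- uniform position on level `k`, one word -/
def levN (k : ℕ) : RT ℕ := RT.rnd fun v => RT.ret (v % 2 ^ k)

theorem run_levN (M k : ℕ) (ρ : ℕ → ℕ) (i : ℕ) :
    (levN k).run M ρ i = (ρ i % M % 2 ^ k, i + 1) := rfl

theorem Ev_levN (hM : 0 < M) (h : 2 ^ k ∣ M) (F : ℕ → ℝ) :
    (levN k).Ev M F = (∑ p ∈ range (2 ^ k), F p) / 2 ^ k := by
  have := Ev_mod_eq hM h F
  rw [Nat.cast_pow, Nat.cast_ofNat] at this
  exact this

theorem Ev_levN_eq_leaf (hM : 0 < M) (h : 2 ^ k ∣ M) (h2 : 2 ∣ M) (F : ℕ → ℝ) :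
    (levN k).Ev M F = (leaf dy k 0).Ev M F := by
  rw [Ev_levN hM h, Ev_leaf hM h2, lavg_dy]
  simp

end leaf

end Crest.Agent.R288.Path45
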