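import Crest.Agent.R288.DPt_964
import Crest.Agent.R288.StPT_569

/-!
# R288: certificates of the functions of AlgB_45, part A (helper964)

Clamped maps; grid functions `gst, gpt, rd, rdn, dist, cls`; `look`, `ins`, `isort`, `med`.
Codes of `St`, `Cel`, `Key`: `StPT_569`.
-/

set_option autoImplicit false

namespace Crest.Agent.R288.Ptb964

open Crest.Agent.Lib.PT
open Crest.Agent.R288.DPt964
open Alg45 (Par St Cel Key)
open StPT569

variable {α β γ δ : Type} [PTCode α] [PTCode β] [PTCode γ] [PTCode δ]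

/-! ### clamped maps: the elements are bounded by a unary number -/

section clamp

theorem ptf_flatMap_le {l : γ → List ℕ} {f : γ → ℕ → List β} {b : γ → ℕ} (hl : PTF l)
    (hle : ∀ c, ∀ k ∈ l c, k ≤ b c) (hf : PTF (fun q : γ × ℕ => f q.1 (min q.2 (b q.1)))) :
    PTF (fun c => (l c).flatMap (f c)) := by
  refine PTF.of_eq (PTF.flatMap (f := fun c k => f c (min k (b c))) hl hf) fun c => ?_
  refine List.flatMap_congr fun k hk => ?_
  rw [min_eq_left (hle c k hk)]

theorem ptf_map_le {l : γ → List ℕ} {f : γ → ℕ → β} {b : γ → ℕ} (hl : PTF l)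
    (hle : ∀ c, ∀ k ∈ l c, k ≤ b c) (hf : PTF (fun q : γ × ℕ => f q.1 (min q.2 (b q.1)))) :
    PTF (fun c => (l c).map (f c)) := by
  refine PTF.of_eq (PTF.map (f := fun c k => f c (min k (b c))) hl hf) fun c => ?_
  refine List.map_congr_left fun k hk => ?_
  rw [min_eq_left (hle c k hk)]

theorem ptu_min_snd {b : γ → ℕ} (hb : PTU b) : PTU (fun q : γ × ℕ => min q.2 (b q.1)) :=
  PTF.natMinUn PTF.snd (PTU.comp hb PTF.fst)

end clamp

/-! ### grid functions -/

section grid

theorem ptf_gst {P : γ → Par} {κ : γ → ℕ} (hpb : PTF (fun c => (P c).pb)) (hκ : PTU κ) :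
    PTF (fun c => Alg45.gst (P c) (κ c)) := by
  have h : PTU (fun c => κ c - (P c).pb) := by
    refine (PTF.natMinUn (PTF.natSub (PTU.toPTF hκ) hpb) hκ).of_eq fun c => ?_
    exact min_eq_left (Nat.sub_le _ _)
  exact PTF.natTwoPow h

theorem ptf_gpt {P : γ → Par} {κ : γ → ℕ} (hpb : PTF (fun c => (P c).pb)) (hκ : PTU κ) :
    PTF (fun c => Alg45.gpt (P c) (κ c)) := by
  have h : PTU (fun c => min (κ c) (P c).pb) :=
    (PTF.natMinUn hpb hκ).of_eq fun c => min_comm _ _
  exact PTF.natTwoPow h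

/-- the number of grid points is unary as soon as `2 ^ pb` is -/
theorem ptu_gpt {P : γ → Par} {κ : γ → ℕ} (hpb : PTF (fun c => (P c).pb)) (hκ : PTU κ)
    (hpt : PTU (fun c => 2 ^ (P c).pb)) : PTU (fun c => Alg45.gpt (P c) (κ c)) := by
  refine (PTF.natMinUn (ptf_gpt hpb hκ) hpt).of_eq fun c => min_eq_left ?_
  exact Nat.pow_le_pow_right (by norm_num) (min_le_right _ _)

theorem ptf_rd {P : γ → Par} {κ : γ → ℕ} {u : γ → ℤ} (hpb : PTF (fun c => (P c).pb)) (hκ : PTU κ)
    (hu : PTF u) : PTF (fun c => Alg45.rd (P c) (κ c) (u c)) := by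
  have h : PTF (fun c => ((Alg45.gst (P c) (κ c) : ℕ) : ℤ)) := PTF.intNatCast (ptf_gst hpb hκ)
  exact PTF.intMul (PTF.intEdiv hu h) h

theorem ptf_rdn {P : γ → Par} {κ : γ → ℕ} {y : γ → St} (hpb : PTF (fun c => (P c).pb)) (hκ : PTU κ)
    (hy : PTF y) : PTF (fun c => Alg45.rdn (P c) (κ c) (y c)) :=
  ptf_stMk (ptf_stI hy) (ptf_stJ hy) (ptf_rd hpb hκ (ptf_stU hy)) (ptf_rd hpb hκ (ptf_stV hy))

@[fun_prop]
theorem ptf_dist {y z : γ → St} (hy : PTF y) (hz : PTF z) :
    PTF (fun c => Alg45.dist (y c) (z c)) := by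
  unfold Alg45.dist
  exact PTF.natAdd (PTF.intNatAbs (PTF.intSub (ptf_stU hy) (ptf_stU hz)))
    (PTF.intNatAbs (PTF.intSub (ptf_stV hy) (ptf_stV hz)))

/-- the class is unary -/
theorem ptu_cls {F : γ → St → ℕ} {y : γ → St} (hF : PTF (fun q : γ × St => F q.1 q.2))
    (hy : PTF y) : PTU (fun c => Alg45.cls (F c) (y c)) := by
  have h : PTF (fun c => F c (y c)) := PTF.comp hF (PTF.prodMk PTF.id hy)
  refine (PTU.sub (PTF.natSizeUn h) (PTU.const 1)).of_eq fun c => ?_
  show (F c (y c)).size - 1 = Nat.log 2 (F c (y c))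
  rw [← Nat.log2_eq_log_two]
  rcases Nat.eq_zero_or_pos (F c (y c)) with h | h
  · simp [h]
  · have h1 : (F c (y c)).size = (F c (y c)).log2 + 1 := by
      refine le_antisymm (Nat.size_le.2 Nat.lt_log2_self) ?_
      rw [Nat.succ_le_iff, Nat.lt_size]
      exact Nat.log2_self_le h.ne'
    omega

end grid

/-! ### look, sorting, median -/

section look

omit [PTCode α] [PTCode β] in
theorem lookup_eq_find? [DecidableEq α] (l : List (α × β)) (k : α) :
    l.lookup k = (l.find? fun p => decide (k = p.1)).map Prod.snd := by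
  induction l with
  | nil => rfl
  | cons p l ih =>
    rw [List.find?_cons, List.lookup_cons]
    by_cases h : k = p.1
    · simp [h]
    · simp only [h, decide_false]
      have : (k == p.1) = false := by simpa using h
      rw [this, ih]

theorem ptf_lookup [DecidableEq α] {l : γ → List (α × β)} {k : γ → α} (hl : PTF l) (hk : PTF k) :
    PTF (fun c => (l c).lookup (k c)) := by
  refine PTF.of_eq (f := fun c => ((l c).find? fun p => decide (k c = p.1)).map Prod.snd) ?_
    fun c => (lookup_eq_find? _ _).symm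
  refine PTF.optionMap (g := fun _ p => p.2) (PTF.find? (p := fun c (p : α × β) =>
    decide (k c = p.1)) hl ?_) (PTF.comp PTF.snd PTF.snd)
  refine PTPred.toPTF (p := fun q : γ × α × β => k q.1 = q.2.1) ?_
  exact PTPred.eq (PTF.comp hk PTF.fst) (PTF.comp PTF.fst PTF.snd)

theorem ptf_look [DecidableEq α] [Inhabited β] {ks : γ → List α} {res : γ → List β} {k : γ → α}
    (hks : PTF ks) (hres : PTF res) (hk : PTF k) :
    PTF (fun c => Alg45.look (ks c) (res c) (k c)) :=
  ptf_lookup (PTF.zip hks hres) hk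

theorem ins_eq (a : ℕ) (l : List ℕ) : Alg45.ins a l =
    l.takeWhile (fun b => decide (b < a)) ++ a :: l.dropWhile (fun b => decide (b < a)) := by
  induction l with
  | nil => rfl
  | cons b l ih =>
    unfold Alg45.ins
    by_cases h : a ≤ b
    · have h' : ¬ b < a := by omega
      simp [h, h']
    · have h' : b < a := by omega
      simp [h, h', ih]

theorem ptf_ins {a : γ → ℕ} {l : γ → List ℕ} (ha : PTF a) (hl : PTF l) :
    PTF (fun c => Alg45.ins (a c) (l c)) := by
  refine PTF.of_eq (f := fun c => (l c).takeWhile (fun b => decide (b < a c)) ++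
    a c :: (l c).dropWhile (fun b => decide (b < a c))) ?_ fun c => (ins_eq _ _).symm
  have h : PTF₂ (fun (c : γ) (b : ℕ) => decide (b < a c)) := by
    refine PTPred.toPTF (p := fun q : γ × ℕ => q.2 < a q.1) (PTPred.natLt PTF.snd ?_)
    exact PTF.comp ha PTF.fst
  exact PTF.append (PTF.takeWhile hl h) (PTF.listCons ha (PTF.dropWhile hl h))

theorem ins_perm (a : ℕ) (l : List ℕ) : (Alg45.ins a l).Perm (a :: l) := by
  induction l with
  | nil => exact List.Perm.refl _
  | cons b l ih =>
    unfold Alg45.ins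
    split_ifs
    · exact List.Perm.refl _
    · exact (List.Perm.cons b ih).trans (List.Perm.swap a b l)

theorem isort_perm (l : List ℕ) : (Alg45.isort l).Perm l := by
  induction l with
  | nil => exact List.Perm.refl _
  | cons a l ih =>
    show (Alg45.ins a (Alg45.isort l)).Perm (a :: l)
    exact (ins_perm _ _).trans (List.Perm.cons a ih)

theorem sz_perm {l l' : List α} (h : l.Perm l') : sz l = sz l' := by
  rw [sz_list, sz_list]
  exact (h.map _).sum_eq

@[fun_prop]
theorem ptf_isort {l : γ → List ℕ} (hl : PTF l) : PTF (fun c => Alg45.isort (l c)) := by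
  refine PTF.foldr (f := fun _ a b => Alg45.ins a b) hl ?_ (PTF.const [])
    (B := fun c => sz (l c)) hl.sz fun c i _ => ?_
  · exact ptf_ins (by fun_prop) (by fun_prop)
  · show sz (Alg45.isort ((l c).drop i)) ≤ _
    rw [sz_perm (isort_perm _)]
    exact sz_drop_le _ _

@[fun_prop]
theorem ptf_med {l : γ → List ℕ} (hl : PTF l) : PTF (fun c => Alg45.med (l c)) := by
  unfold Alg45.med
  refine ptf_getD_bin (ptf_isort hl) (PTF.natDiv (ptf_length hl) (PTF.const 2)) (PTF.const 0)

end look

end Crest.Agent.R288.Ptb964
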