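import Crest.Agent.R288.PtSt_966
import Crest.Agent.R288.PtbA_964

/-!
# R288: certificates of the requests of ALG-U and of the spawned end values (helper966)

`copies`, `modu`, `cellsIn`, `spCl`, `jCl`, `bkeys`, `akeys`, `look`, `cidx`, `rdt`, `XB`.
-/

set_option autoImplicit false

namespace Crest.Agent.R288.PtK966

open Crest.Agent.Lib.PT Crest.Agent.R288.Alg45 Crest.Agent.R288.PtX949
  Crest.Agent.R288.StPT569 Crest.Agent.R288.PtSt966

variable {α β γ δ : Type} [PTCode α] [PTCode β] [PTCode γ] [PTCode δ]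

/-! ### maps over lists whose elements are clamped -/

theorem ptf_flatMap_congr {l : γ → List α} {f f' : γ → α → List β} (hl : PTF l)
    (hf : PTF (fun p : γ × α => f' p.1 p.2)) (h : ∀ c, ∀ k ∈ l c, f c k = f' c k) :
    PTF (fun c => (l c).flatMap (f c)) := by
  refine PTF.of_eq (f := fun c => (l c).flatMap (f' c)) (by fun_prop) fun c => ?_
  exact (List.flatMap_congr fun k hk => h c k hk).symm

theorem ptf_map_congr {l : γ → List α} {f f' : γ → α → β} (hl : PTF l)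
    (hf : PTF (fun p : γ × α => f' p.1 p.2)) (h : ∀ c, ∀ k ∈ l c, f c k = f' c k) :
    PTF (fun c => (l c).map (f c)) := by
  refine PTF.of_eq (f := fun c => (l c).map (f' c)) (by fun_prop) fun c => ?_
  exact (List.map_congr_left fun k hk => h c k hk).symm

/-! ### copies and moduli -/

section keys

variable {P : γ → Par}

theorem pow_add_sub_le (a b k : ℕ) : 2 ^ (a + b - k) ≤ 2 ^ a * 2 ^ (b - k) := by
  rw [← pow_add]
  exact Nat.pow_le_pow_right (by omega) (by omega)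

@[fun_prop]
theorem ptf_copies {κ κ' : γ → ℕ} (hP : PTF P) (hκ : PTU κ) (hκ' : PTU κ') :
    PTF (fun c => copies (P c) (κ c) (κ' c)) := by
  unfold copies
  have h : PTU (fun c => (P c).c0 + κ' c - κ c) := by fun_prop
  exact PTF.natTwoPow h

@[fun_prop]
theorem ptf_modu {κ κ' : γ → ℕ} (hP : PTF P) (hκ : PTU κ) (hκ' : PTU κ') :
    PTF (fun c => modu (P c) (κ c) (κ' c)) := by
  unfold modu
  have h : PTU (fun c => κ c - ((P c).c0 + κ' c)) := by fun_prop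
  exact PTF.natTwoPow h

/-- the number of copies is unary if `κ' ≤ κ + du` -/
theorem ptu_copies {κ κ' : γ → ℕ} (hP : PTF P) (hκ : PTU κ) (hκ' : PTU κ')
    (h : ∀ c, κ' c ≤ κ c + (P c).du) : PTU (fun c => copies (P c) (κ c) (κ' c)) := by
  have h1 := ptu_two_c0 hP
  have h2 := ptu_two_du hP
  refine PtX949.ptu_of_le (g := fun c => 2 ^ (P c).c0 * 2 ^ (P c).du) (ptf_copies hP hκ hκ')
    (by fun_prop) fun c => ?_
  unfold copies
  rw [← pow_add]
  have := h c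
  exact Nat.pow_le_pow_right (by omega) (by omega)

/-- at most `(2 r + 1) 2^d + 2` cells of a class `κ' ≥ κ - d` -/
theorem cellsIn_count (r κ κ' d : ℕ) (m : ℤ) (h : κ ≤ κ' + d) :
    ((m + 1 + r) * 2 ^ κ / 2 ^ κ' - (m - r) * 2 ^ κ / 2 ^ κ' + 1 : ℤ).toNat ≤
      (2 * r + 1) * 2 ^ d + 2 := by
  have h1 : ((m + 1 + r) * 2 ^ κ / 2 ^ κ' : ℤ) ≤
      (m - r) * 2 ^ κ / 2 ^ κ' + ((2 * r + 1) * 2 ^ d + 1) := by
    have h2 : (0 : ℤ) < 2 ^ κ' := by positivity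
    rw [← Int.lt_add_one_iff, Int.ediv_lt_iff_lt_mul h2]
    have h3 := Int.lt_ediv_add_one_mul_self ((m - r) * 2 ^ κ : ℤ) h2
    have h4 : (2 : ℤ) ^ κ ≤ 2 ^ d * 2 ^ κ' := by
      rw [← pow_add]
      exact pow_le_pow_right₀ (by norm_num) (by omega)
    have h5 : ((2 * r + 1 : ℕ) : ℤ) * 2 ^ κ ≤ ((2 * r + 1 : ℕ) : ℤ) * (2 ^ d * 2 ^ κ') :=
      mul_le_mul_of_nonneg_left h4 (by positivity)
    push_cast at h5
    nlinarith
  have h6 : ((m + 1 + r) * 2 ^ κ / 2 ^ κ' - (m - r) * 2 ^ κ / 2 ^ κ' + 1 : ℤ) ≤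
      (((2 * r + 1) * 2 ^ d + 2 : ℕ) : ℤ) := by push_cast; linarith
  exact Int.toNat_le.2 h6

omit [PTCode α] [PTCode β] in
theorem flatMap_single (g : α → β) (l : List α) : (l.flatMap fun a => [g a]) = l.map g := by
  induction l with
  | nil => rfl
  | cons a l ih => simp [ih]

theorem cellsIn_eq (r κ : ℕ) (m : ℤ) (κ' : ℕ) : cellsIn r κ m κ' =
    (List.range ((m + 1 + r) * 2 ^ κ / 2 ^ κ' - (m - r) * 2 ^ κ / 2 ^ κ' + 1 : ℤ).toNat).map
      fun t : ℕ => (m - r) * 2 ^ κ / 2 ^ κ' + (t : ℤ) := by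
  unfold cellsIn
  simp only [List.bind_eq_flatMap, List.pure_def, flatMap_single, List.map_map]
  rfl

/-- cells around a cell; all classes `κ' ≥ κ - d` with `2 ^ d` unary -/
theorem ptf_cellsIn {r κ κ' d : γ → ℕ} {m : γ → ℤ} (hr : PTU r) (hκ : PTU κ) (hm : PTF m)
    (hκ' : PTU κ') (hd : PTU (fun c => 2 ^ d c)) (h : ∀ c, κ c ≤ κ' c + d c) :
    PTF (fun c => cellsIn (r c) (κ c) (m c) (κ' c)) := by
  simp only [cellsIn_eq]
  have hr' := hr.toPTF
  have h1 : PTU (fun c => ((m c + 1 + (r c : ℤ)) * 2 ^ κ c / 2 ^ κ' c -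
      (m c - (r c : ℤ)) * 2 ^ κ c / 2 ^ κ' c + 1).toNat) := by
    refine PtX949.ptu_of_le (g := fun c => (2 * r c + 1) * 2 ^ d c + 2) (by fun_prop)
      (by fun_prop) fun c => ?_
    exact cellsIn_count _ _ _ _ _ (h c)
  fun_prop

/-! ### requests of a window -/

theorem mem_spCl {P : Par} {κ κ' : ℕ} (h : κ' ∈ spCl P κ) : κ' ≤ κ + P.du ∧ κ ≤ κ' + P.dl := by
  unfold spCl at h
  have := mem_rngC h
  omega

@[fun_prop]
theorem ptf_spCl {κ : γ → ℕ} (hP : PTF P) (hκ : PTU κ) : PTF (fun c => spCl (P c) (κ c)) := by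
  unfold spCl
  have := hκ.toPTF
  exact ptf_rngC (by fun_prop) (by fun_prop)

theorem mem_jCl {P : Par} {κ κ' : ℕ} (h : κ' ∈ jCl P κ) : κ' ≤ κ + P.a2 ∧ κ ≤ κ' + P.a1 := by
  unfold jCl at h
  have := mem_rngC h
  omega

@[fun_prop]
theorem ptf_jCl {κ : γ → ℕ} (hP : PTF P) (hκ : PTU κ) : PTF (fun c => jCl (P c) (κ c)) := by
  unfold jCl
  have := hκ.toPTF
  exact ptf_rngC (by fun_prop) (by fun_prop)

/-- a class clamped to `[κ - d, κ + b]` -/
def cl3 (κ d b κ' : ℕ) : ℕ := max (κ - d) (min κ' (κ + b))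

theorem cl3_eq {κ d b κ' : ℕ} (h1 : κ' ≤ κ + b) (h2 : κ ≤ κ' + d) : cl3 κ d b κ' = κ' := by
  unfold cl3
  omega

theorem le_cl3 (κ d b κ' : ℕ) : κ ≤ cl3 κ d b κ' + d := by
  unfold cl3
  omega

theorem cl3_le (κ d b κ' : ℕ) : cl3 κ d b κ' ≤ κ + b := by
  unfold cl3
  omega

theorem ptu_cl3 {κ d b κ' : γ → ℕ} (hκ : PTU κ) (hd : PTU d) (hb : PTU b) (hκ' : PTF κ') :
    PTU (fun c => cl3 (κ c) (d c) (b c) (κ' c)) := by
  unfold cl3
  have h1 : PTU (fun c => κ c + b c) := by fun_prop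
  have h2 : PTU (fun c => min (κ' c) (κ c + b c)) := PtX949.ptu_min_left hκ' h1
  fun_prop

theorem ptf_keys_aux {L : γ → List ℤ} {M R C Q K : γ → ℕ} (hL : PTF L) (hM : PTF M)
    (hR : PTF R) (hC : PTU C) (hQ : PTF Q) (hK : PTF K) :
    PTF (fun c => ((L c).filter fun m' => m' % (M c : ℤ) = (R c : ℤ)).flatMap fun m' =>
      (List.range (C c)).map fun s => (⟨Q c, K c, m', s⟩ : Key)) := by
  fun_prop

@[fun_prop]
theorem ptf_bkeys {κ : γ → ℕ} {m : γ → ℤ} {ρ : γ → ℕ → ℕ → ℕ} (hP : PTF P) (hκ : PTU κ)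
    (hm : PTF m) (hρ : PTF (fun p : γ × ℕ × ℕ => ρ p.1 p.2.1 p.2.2)) :
    PTF (fun c => bkeys (P c) (κ c) (m c) (ρ c)) := by
  unfold bkeys
  refine PtX949.flatMap (f := fun c q => (spCl (P c) (κ c)).flatMap fun κ' =>
    ((cellsIn (P c).r (κ c) (m c) κ').filter fun m' =>
      m' % (modu (P c) (κ c) κ' : ℤ) = (ρ c q κ' : ℤ)).flatMap fun m' =>
      (List.range (copies (P c) (κ c) κ')).map fun s => (⟨q, κ', m', s⟩ : Key)) (by fun_prop) ?_
  refine ptf_flatMap_congr (γ := γ × ℕ) (l := fun p => spCl (P p.1) (κ p.1))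
    (f := fun p κ' => ((cellsIn (P p.1).r (κ p.1) (m p.1) κ').filter fun m' =>
      m' % (modu (P p.1) (κ p.1) κ' : ℤ) = (ρ p.1 p.2 κ' : ℤ)).flatMap fun m' =>
      (List.range (copies (P p.1) (κ p.1) κ')).map fun s => (⟨p.2, κ', m', s⟩ : Key))
    (f' := fun p κ' => ((cellsIn (P p.1).r (κ p.1) (m p.1)
        (cl3 (κ p.1) (P p.1).dl (P p.1).du κ')).filter fun m' =>
      m' % (modu (P p.1) (κ p.1) (cl3 (κ p.1) (P p.1).dl (P p.1).du κ') : ℤ) =
        (ρ p.1 p.2 κ' : ℤ)).flatMap fun m' =>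
      (List.range (copies (P p.1) (κ p.1) (cl3 (κ p.1) (P p.1).dl (P p.1).du κ'))).map
        fun s => (⟨p.2, κ', m', s⟩ : Key)) (by fun_prop) ?_ ?_
  · have hk : PTU (fun q : (γ × ℕ) × ℕ =>
        cl3 (κ q.1.1) (P q.1.1).dl (P q.1.1).du q.2) :=
      ptu_cl3 (by fun_prop) (by fun_prop) (by fun_prop) (by fun_prop)
    have hd := ptu_two_dl (P := fun q : (γ × ℕ) × ℕ => P q.1.1) (by fun_prop)
    have h1 : PTF (fun q : (γ × ℕ) × ℕ => cellsIn (P q.1.1).r (κ q.1.1) (m q.1.1)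
        (cl3 (κ q.1.1) (P q.1.1).dl (P q.1.1).du q.2)) :=
      ptf_cellsIn (by fun_prop) (by fun_prop) (by fun_prop) hk hd fun q => le_cl3 _ _ _ _
    have h2 : PTU (fun q : (γ × ℕ) × ℕ => copies (P q.1.1) (κ q.1.1)
        (cl3 (κ q.1.1) (P q.1.1).dl (P q.1.1).du q.2)) :=
      ptu_copies (by fun_prop) (by fun_prop) hk fun q => cl3_le _ _ _ _
    have h3 : PTF (fun q : (γ × ℕ) × ℕ => modu (P q.1.1) (κ q.1.1)
        (cl3 (κ q.1.1) (P q.1.1).dl (P q.1.1).du q.2)) :=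
      ptf_modu (by fun_prop) (by fun_prop) hk
    have h4 : PTF (fun q : (γ × ℕ) × ℕ => ρ q.1.1 q.1.2 q.2) :=
      PTF.comp (g := fun p : γ × ℕ × ℕ => ρ p.1 p.2.1 p.2.2)
        (f := fun q : (γ × ℕ) × ℕ => (q.1.1, q.1.2, q.2)) hρ (by fun_prop)
    exact ptf_keys_aux h1 h3 h4 h2 (by fun_prop) (by fun_prop)
  · intro p κ' hk
    obtain ⟨h1, h2⟩ := mem_spCl hk
    simp only [cl3_eq h1 h2]

theorem ptf_acells_aux {L : γ → List ℤ} {D : γ → ℕ} {κ q : γ → ℕ} (hL : PTF L) (hD : PTF D)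
    (hκ : PTU κ) (hq : PTF q) :
    PTF (fun c => ((L c).filter fun m' =>
      decide (m' * 2 ^ κ c ≤ (D c : ℤ)) && decide (-(D c : ℤ) < (m' + 1) * 2 ^ κ c)).map
        fun m' => (q c, m')) := by
  have h1 : PTF (fun p : γ × ℤ => (2 : ℤ) ^ κ p.1) :=
    PTF.comp (g := fun c => (2 : ℤ) ^ κ c) (f := fun p : γ × ℤ => p.1)
      (ptf_intPow (by fun_prop) hκ) (by fun_prop)
  have h2 : PTPred (fun p : γ × ℤ => p.2 * 2 ^ κ p.1 ≤ (D p.1 : ℤ)) :=
    PTPred.intLe (PTF.intMul (by fun_prop) h1) (by fun_prop)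
  have h3 : PTPred (fun p : γ × ℤ => -(D p.1 : ℤ) < (p.2 + 1) * 2 ^ κ p.1) :=
    PTPred.intLt (by fun_prop) (PTF.intMul (by fun_prop) h1)
  refine PtX949.map (f := fun c m' => (q c, m')) (PtX949.filter (f := fun c m' =>
      decide (m' * 2 ^ κ c ≤ (D c : ℤ)) && decide (-(D c : ℤ) < (m' + 1) * 2 ^ κ c)) hL
      (PTF.and h2.toPTF h3.toPTF)) (by fun_prop)

@[fun_prop]
theorem ptf_acells {κ : γ → ℕ} {m : γ → ℤ} (hP : PTF P) (hκ : PTU κ) (hm : PTF m) :
    PTF (fun c => acells (P c) (κ c) (m c)) := by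
  unfold acells
  refine ptf_flatMap_congr
    (f' := fun c κ' => ((cellsIn (P c).r (κ c) (m c)
        (cl3 (κ c) (P c).a1 (P c).a2 κ')).filter fun m' =>
      decide (m' * 2 ^ (cl3 (κ c) (P c).a1 (P c).a2 κ') ≤ ((P c).Dm : ℤ)) &&
        decide (-((P c).Dm : ℤ) < (m' + 1) * 2 ^ (cl3 (κ c) (P c).a1 (P c).a2 κ'))).map
        fun m' => (κ', m')) (by fun_prop) ?_ ?_
  · have hk : PTU (fun q : γ × ℕ => cl3 (κ q.1) (P q.1).a1 (P q.1).a2 q.2) :=
      ptu_cl3 (by fun_prop) (by fun_prop) (by fun_prop) (by fun_prop)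
    have hd := ptu_two_a1 (P := fun q : γ × ℕ => P q.1) (by fun_prop)
    have h1 : PTF (fun q : γ × ℕ => cellsIn (P q.1).r (κ q.1) (m q.1)
        (cl3 (κ q.1) (P q.1).a1 (P q.1).a2 q.2)) :=
      ptf_cellsIn (by fun_prop) (by fun_prop) (by fun_prop) hk hd fun q => le_cl3 _ _ _ _
    exact ptf_acells_aux (D := fun q : γ × ℕ => (P q.1).Dm) h1 (by fun_prop) hk (by fun_prop)
  · intro p κ' hk
    obtain ⟨h1, h2⟩ := mem_jCl hk
    simp only [cl3_eq h1 h2]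

/-! ### tables of cells -/

@[fun_prop]
theorem ptf_look [DecidableEq α] [Inhabited β] {ks : γ → List α} {res : γ → List β} {k : γ → α}
    (hks : PTF ks) (hres : PTF res) (hk : PTF k) :
    PTF (fun c => Alg45.look (ks c) (res c) (k c)) := Ptb964.ptf_look hks hres hk

@[fun_prop]
theorem ptu_cu {κ : γ → ℕ} (hP : PTF P) (hκ : PTU κ) : PTU (fun c => cu (P c) (κ c)) := by
  unfold cu
  fun_prop

@[fun_prop]
theorem ptu_cv {κ : γ → ℕ} (hP : PTF P) (hκ : PTU κ) : PTU (fun c => cv (P c) (κ c)) := by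
  unfold cv
  fun_prop

@[fun_prop]
theorem ptf_cu {κ : γ → ℕ} (hP : PTF P) (hκ : PTU κ) : PTF (fun c => cu (P c) (κ c)) :=
  (ptu_cu hP hκ).toPTF

@[fun_prop]
theorem ptf_cv {κ : γ → ℕ} (hP : PTF P) (hκ : PTU κ) : PTF (fun c => cv (P c) (κ c)) :=
  (ptu_cv hP hκ).toPTF

@[fun_prop]
theorem ptu_csz {κ : γ → ℕ} (hP : PTF P) (hκ : PTU κ) : PTU (fun c => csz (P c) (κ c)) := by
  unfold csz
  fun_prop

theorem ptf_cidx_aux {c : γ → Cel} {y : γ → St} {g : γ → ℤ} {p : γ → ℤ} {v : γ → ℕ}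
    (hc : PTF c) (hy : PTF y) (hg : PTF g) (hp : PTF p) (hv : PTF v) :
    PTF (fun a => (((y a).u - (c a).m * p a) / g a).toNat * v a +
      (((y a).v - ((c a).m - 8) * p a) / g a).toNat) := by
  fun_prop

/-- index of a state in a cell -/
theorem ptf_cidx {c : γ → Cel} {y : γ → St} (hP : PTF P) (hκ : PTU (fun a => (c a).κ))
    (hc : PTF c) (hy : PTF y) : PTF (fun a => cidx (P a) (c a) (y a)) := by
  unfold cidx
  have h1 : PTF (fun a => ((c a).κ : ℕ)) := hκ.toPTF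
  have h2 : PTF (fun a => (gst (P a) (c a).κ : ℤ)) := by
    have := ptf_gst (κ := fun a => (c a).κ) hP hκ
    fun_prop
  have h3 : PTF (fun a => (2 : ℤ) ^ (c a).κ) := ptf_intPow (by fun_prop) hκ
  have h4 := ptf_cv (κ := fun a => (c a).κ) hP hκ
  exact ptf_cidx_aux hc hy h2 h3 h4

theorem ptf_rdt {c : γ → Cel} {T : γ → List ℕ} {y : γ → St} (hP : PTF P)
    (hκ : PTU (fun a => (c a).κ)) (hc : PTF c) (hT : PTF T) (hy : PTF y) :
    PTF (fun a => rdt (P a) (c a) (T a) (y a)) := by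
  unfold rdt
  have h := ptf_cidx hP hκ hc hy
  exact PtX949.getD h hT (PTF.const 0)

theorem ptf_celOf {κ : γ → ℕ} {y : γ → St} (hκ : PTU κ) (hy : PTF y) :
    PTF (fun c => celOf (κ c) (y c)) := by
  unfold celOf
  have := hκ.toPTF
  fun_prop

/-- the term of a copy in `spw` -/
def spT (P : Par) (ks : List Key) (res : List (List ℕ)) (q κ' : ℕ) (z : St) (s : ℕ) : ℕ :=
  (look ks res ⟨q, κ', (celOf κ' z).m, s⟩).elim 0 fun T => rdt P (celOf κ' z) T z

theorem spw_eq (P : Par) (κ : ℕ) (ks : List Key) (res : List (List ℕ)) (q κ' : ℕ) (z : St) :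
    spw P κ ks res q κ' z = cdiv (modu P κ κ' * sumR (copies P κ κ') (spT P ks res q κ' z))
      (copies P κ κ') := by
  unfold spw
  congr 2
  refine congrArg _ (funext fun s => ?_)
  unfold spT
  cases look ks res ⟨q, κ', (celOf κ' z).m, s⟩ <;> rfl

theorem ptf_spT {ks : γ → List Key} {res : γ → List (List ℕ)} {q κ' s : γ → ℕ} {z : γ → St}
    (hP : PTF P) (hks : PTF ks) (hres : PTF res) (hq : PTF q) (hκ' : PTU κ') (hz : PTF z)
    (hs : PTF s) : PTF (fun c => spT (P c) (ks c) (res c) (q c) (κ' c) (z c) (s c)) := by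
  unfold spT
  have h1 := ptf_celOf hκ' hz
  have h2 := hκ'.toPTF
  have h3 : PTF (fun c => look (ks c) (res c)
      ⟨q c, κ' c, (celOf (κ' c) (z c)).m, s c⟩) := ptf_look hks hres (by fun_prop)
  refine PtX949.optionElim (g := fun c T => rdt (P c) (celOf (κ' c) (z c)) T (z c)) h3
    (PTF.const 0) ?_
  refine ptf_rdt (P := fun p : γ × List ℕ => P p.1) (by fun_prop) ?_ ?_ (by fun_prop)
    (by fun_prop)
  · change PTU (fun p : γ × List ℕ => κ' p.1)
    fun_prop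
  · exact PTF.comp (g := fun c : γ => celOf (κ' c) (z c)) (f := fun p : γ × List ℕ => p.1) h1
      (by fun_prop)

/-- **the spawned number**; the class is at most `κ + du` (true wherever `numSt` reads it) -/
theorem ptf_spw {ks : γ → List Key} {res : γ → List (List ℕ)} {q κ κ' : γ → ℕ} {z : γ → St}
    (hP : PTF P) (hκ : PTU κ) (hks : PTF ks) (hres : PTF res) (hq : PTF q) (hκ' : PTU κ')
    (hz : PTF z) (h : ∀ c, κ' c ≤ κ c + (P c).du) :
    PTF (fun c => spw (P c) (κ c) (ks c) (res c) (q c) (κ' c) (z c)) := by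
  simp only [spw_eq]
  have h1 := ptu_copies hP hκ hκ' h
  have h2 := ptf_modu hP hκ hκ'
  have h4 : PTF (fun c => sumR (copies (P c) (κ c) (κ' c))
      (spT (P c) (ks c) (res c) (q c) (κ' c) (z c))) := by
    refine ptf_sumR (f := fun c s => spT (P c) (ks c) (res c) (q c) (κ' c) (z c) s) h1 ?_
    exact ptf_spT (P := fun p : γ × ℕ => P p.1) (by fun_prop) (by fun_prop) (by fun_prop)
      (by fun_prop) (by fun_prop) (by fun_prop) (by fun_prop)
  exact ptf_cdiv (PTF.natMul h2 h4) h1.toPTF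

end keys

end Crest.Agent.R288.PtK966
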