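import Crest.Agent.R288.PgA_172
import Crest.Agent.R288.PtK_966

/-!
# R288, [PROG] (helper172): certificates of the read sets and association lists of `PgA_172`

`P : γ → Par` with `PTF P`, classes unary (`PTU κ`), the unit function as a function of the context:
`hF : PTF (fun p : γ × St => F p.1 p.2)`.

`ptf_adm`, `ptf_menu`, `ptf_hmenu`, `ptf_own`, `ptf_pcs`, `ptf_wst`, `ptf_wpr`, `ptf_cells`, `ptf_bst`,
`ptf_bpr`, `ptf_rpr`, `ptf_mkT`, `ptf_getT`, `ptf_getO`, `ptf_encO`, `ptf_decO`, `ptf_mkX`, `ptf_getX`,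
`ptf_hull`.
-/

set_option autoImplicit false

namespace Crest.Agent.R288.PgB172

open Crest.Agent.Lib.PT Crest.Agent.R288.Alg45 Crest.Agent.R288.PtX949
  Crest.Agent.R288.StPT569 Crest.Agent.R288.PtSt966 Crest.Agent.R288.PtK966
  Crest.Agent.R288.PgA172

variable {α β γ δ : Type} [PTCode α] [PTCode β] [PTCode γ] [PTCode δ]

/-! ### association lists -/

section tab

omit [PTCode α] [PTCode β] in
theorem lookup_eq_find [DecidableEq α] (l : List (α × β)) (y : α) :
    l.lookup y = (l.find? fun p => decide (y = p.1)).map Prod.snd := by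
  induction l with
  | nil => rfl
  | cons a l ih =>
    rw [List.lookup_cons, List.find?_cons]
    by_cases h : y = a.1
    · simp [h]
    · have h' : (y == a.1) = false := beq_eq_false_iff_ne.2 h
      rw [h', decide_eq_false h]
      exact ih

@[fun_prop]
theorem ptf_lookup [DecidableEq α] {l : γ → List (α × β)} {y : γ → α} (hl : PTF l) (hy : PTF y) :
    PTF (fun c => (l c).lookup (y c)) := by
  refine PTF.of_eq (f := fun c => ((l c).find? fun p => decide (y c = p.1)).map Prod.snd) ?_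
    fun c => (lookup_eq_find _ _).symm
  have h1 : PTF (fun c => (l c).find? fun p => decide (y c = p.1)) := by fun_prop
  exact PtX949.optionMap (g := fun _ (p : α × β) => p.2) h1 (by fun_prop)

@[fun_prop]
theorem ptf_mkT {L : γ → List α} {f : γ → α → β} (hL : PTF L)
    (hf : PTF (fun p : γ × α => f p.1 p.2)) : PTF (fun c => mkT (L c) (f c)) := by
  unfold mkT
  exact PtX949.map (f := fun c y => (y, f c y)) hL (by fun_prop)

@[fun_prop]
theorem ptf_getT [DecidableEq α] {T : γ → List (α × ℕ)} {y : γ → α} (hT : PTF T) (hy : PTF y) :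
    PTF (fun c => getT (T c) (y c)) := by
  unfold getT
  fun_prop

theorem encO_eq (o : Option ℕ) : encO o = o.elim 0 fun c => c + 1 := by cases o <;> rfl

theorem decO_eq (n : ℕ) : decO n = if n = 0 then none else some (n - 1) := by
  cases n <;> rfl

@[fun_prop]
theorem ptf_encO {f : γ → Option ℕ} (hf : PTF f) : PTF (fun c => encO (f c)) := by
  simp only [encO_eq]
  exact PtX949.optionElim (g := fun _ (n : ℕ) => n + 1) hf (PTF.const 0) (by fun_prop)

@[fun_prop]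
theorem ptf_decO {f : γ → ℕ} (hf : PTF f) : PTF (fun c => decO (f c)) := by
  simp only [decO_eq]
  fun_prop

@[fun_prop]
theorem ptf_getO [DecidableEq α] {T : γ → List (α × ℕ)} {y : γ → α} (hT : PTF T) (hy : PTF y) :
    PTF (fun c => getO (T c) (y c)) := by
  unfold getO
  fun_prop

@[fun_prop]
theorem ptf_rpr {k : γ → ℕ} {L : γ → List (ℕ × St)} (hk : PTU k) (hL : PTF L) :
    PTF (fun c => rpr (k c) (L c)) := by
  unfold rpr
  fun_prop

theorem ptf_mkX {k : γ → ℕ} {L : γ → List (ℕ × St)} {X : γ → ℕ → ℕ → St → ℕ} (hk : PTU k)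
    (hL : PTF L) (hX : PTF (fun p : γ × ℕ × ℕ × St => X p.1 p.2.1 p.2.2.1 p.2.2.2)) :
    PTF (fun c => mkX (k c) (L c) (X c)) := by
  unfold mkX
  exact ptf_mkT (f := fun c s => X c s.1 s.2.1 s.2.2) (ptf_rpr hk hL) hX

@[fun_prop]
theorem ptf_getX {T : γ → List ((ℕ × ℕ × St) × ℕ)} {i κ : γ → ℕ} {z : γ → St} (hT : PTF T)
    (hi : PTF i) (hκ : PTF κ) (hz : PTF z) : PTF (fun c => getX (T c) (i c) (κ c) (z c)) := by
  unfold getX
  exact ptf_getT hT (by fun_prop)

end tab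

section lists

variable {P : γ → Par} {κ : γ → ℕ} {x y : γ → St} {F : γ → St → ℕ}

theorem ptf_F (hF : PTF (fun p : γ × St => F p.1 p.2)) (hy : PTF y) : PTF (fun c => F c (y c)) :=
  PTF.comp (g := fun p : γ × St => F p.1 p.2) (f := fun c => (c, y c)) hF (by fun_prop)

@[fun_prop]
theorem ptf_adm (hP : PTF P) (hκ : PTU κ) (hF : PTF (fun p : γ × St => F p.1 p.2)) (hy : PTF y) :
    PTF (fun c => adm (P c) (F c) (κ c) (y c)) := by
  unfold adm
  have h1 : PTF (fun c => cls (F c) (y c)) := (ptu_cls hF hy).toPTF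
  have h2 : PTF (fun c => 2 ^ κ c) := PTF.natTwoPow hκ
  have h3 : PTF κ := hκ.toPTF
  fun_prop

/-! ### menus -/

theorem castRange_eq (n : ℕ) :
    (do let a ← List.range n; pure (a : ℤ)) = (List.range n).map fun a : ℕ => (a : ℤ) := by
  simp [List.map_eq_flatMap]

theorem menu_eq (P : Par) (κ' ρ : ℕ) (y : St) : menu P κ' ρ y =
    (List.range (2 * (ρ / gst P κ') + 3)).flatMap fun a : ℕ =>
      (List.range (2 * (ρ / gst P κ') + 3)).map fun b : ℕ =>
        ({ y with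
          u := clp P (rd P κ' y.u + ((a : ℤ) - (ρ / gst P κ' + 1 : ℕ)) * (gst P κ' : ℤ))
          v := clp P (rd P κ' y.v + ((b : ℤ) - (ρ / gst P κ' + 1 : ℕ)) * (gst P κ' : ℤ)) }
          : St) := by
  simp only [menu, castRange_eq, List.flatMap_map, List.map_map, Function.comp_def]

theorem ptf_menu {ρ b : γ → ℕ} (hP : PTF P) (hκ : PTU κ) (hρ : PTF ρ) (hy : PTF y) (hb : PTU b)
    (h : ∀ c, ρ c / gst (P c) (κ c) ≤ b c) :
    PTF (fun c => menu (P c) (κ c) (ρ c) (y c)) := by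
  simp only [menu_eq]
  have hg : PTF (fun c => gst (P c) (κ c)) := ptf_gst hP hκ
  have h1 : PTU (fun c => ρ c / gst (P c) (κ c)) := ptu_of_le (by fun_prop) hb h
  have h1' : PTF (fun c => ρ c / gst (P c) (κ c)) := h1.toPTF
  have hu : PTF (fun c => rd (P c) (κ c) (y c).u) := by fun_prop
  have hv : PTF (fun c => rd (P c) (κ c) (y c).v) := by fun_prop
  refine PtX949.flatMap (l := fun c => List.range (2 * (ρ c / gst (P c) (κ c)) + 3))
    (f := fun c (a : ℕ) => (List.range (2 * (ρ c / gst (P c) (κ c)) + 3)).map fun b : ℕ =>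
      ({ y c with
        u := clp (P c) (rd (P c) (κ c) (y c).u +
          ((a : ℤ) - (ρ c / gst (P c) (κ c) + 1 : ℕ)) * (gst (P c) (κ c) : ℤ))
        v := clp (P c) (rd (P c) (κ c) (y c).v +
          ((b : ℤ) - (ρ c / gst (P c) (κ c) + 1 : ℕ)) * (gst (P c) (κ c) : ℤ)) } : St))
    (by fun_prop) ?_
  have e1 : PTU (fun p : γ × ℕ => ρ p.1 / gst (P p.1) (κ p.1)) :=
    PTU.comp (n := fun c => ρ c / gst (P c) (κ c)) h1 PTF.fst
  have e2 : PTF (fun p : (γ × ℕ) × ℕ => ρ p.1.1 / gst (P p.1.1) (κ p.1.1)) :=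
    PTF.comp (g := fun c => ρ c / gst (P c) (κ c)) (f := fun p : (γ × ℕ) × ℕ => p.1.1) h1'
      (by fun_prop)
  have e3 : PTF (fun p : (γ × ℕ) × ℕ => gst (P p.1.1) (κ p.1.1)) :=
    PTF.comp (g := fun c => gst (P c) (κ c)) (f := fun p : (γ × ℕ) × ℕ => p.1.1) hg (by fun_prop)
  have e4 : PTF (fun p : (γ × ℕ) × ℕ => rd (P p.1.1) (κ p.1.1) (y p.1.1).u) :=
    PTF.comp (g := fun c => rd (P c) (κ c) (y c).u) (f := fun p : (γ × ℕ) × ℕ => p.1.1) hu
      (by fun_prop)
  have e5 : PTF (fun p : (γ × ℕ) × ℕ => rd (P p.1.1) (κ p.1.1) (y p.1.1).v) :=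
    PTF.comp (g := fun c => rd (P c) (κ c) (y c).v) (f := fun p : (γ × ℕ) × ℕ => p.1.1) hv
      (by fun_prop)
  refine PtX949.map (γ := γ × ℕ) (l := fun p => List.range (2 * (ρ p.1 / gst (P p.1) (κ p.1)) + 3))
    (f := fun p b => ({ y p.1 with
        u := clp (P p.1) (rd (P p.1) (κ p.1) (y p.1).u +
          ((p.2 : ℤ) - (ρ p.1 / gst (P p.1) (κ p.1) + 1 : ℕ)) * (gst (P p.1) (κ p.1) : ℤ))
        v := clp (P p.1) (rd (P p.1) (κ p.1) (y p.1).v +
          ((b : ℤ) - (ρ p.1 / gst (P p.1) (κ p.1) + 1 : ℕ)) * (gst (P p.1) (κ p.1) : ℤ)) } : St))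
    (by fun_prop) ?_
  have e6 : PTF (fun p : (γ × ℕ) × ℕ => ((ρ p.1.1 / gst (P p.1.1) (κ p.1.1) + 1 : ℕ) : ℤ)) :=
    PTF.intNatCast (PTF.natAdd e2 (PTF.const 1))
  have e7 : PTF (fun p : (γ × ℕ) × ℕ => ((gst (P p.1.1) (κ p.1.1) : ℕ) : ℤ)) := PTF.intNatCast e3
  refine ptf_stMk (by fun_prop) (by fun_prop) ?_ ?_
  · refine ptf_clp (by fun_prop) (PTF.intAdd e4 (PTF.intMul (PTF.intSub (by fun_prop) e6) e7))
  · refine ptf_clp (by fun_prop) (PTF.intAdd e5 (PTF.intMul (PTF.intSub (by fun_prop) e6) e7))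

theorem menu_size (P : Par) {κ κ' f : ℕ} (hf : f < 2 ^ (κ + 1)) (h : κ ≤ κ' + P.al) :
    2 * f / gst P κ' ≤ 4 * (2 ^ P.al * 2 ^ P.pb) := by
  unfold gst
  rw [← pow_add]
  have h1 : 2 ^ κ ≤ 2 ^ (κ' - P.pb) * 2 ^ (P.al + P.pb) := by
    rw [← pow_add]
    exact Nat.pow_le_pow_right (by norm_num) (by omega)
  rw [pow_succ] at hf
  refine Nat.div_le_of_le_mul ?_
  calc 2 * f ≤ 4 * 2 ^ κ := by omega
    _ ≤ 4 * (2 ^ (κ' - P.pb) * 2 ^ (P.al + P.pb)) := Nat.mul_le_mul_left _ h1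
    _ = 2 ^ (κ' - P.pb) * (4 * 2 ^ (P.al + P.pb)) := by ring

@[fun_prop]
theorem ptf_hmenu (hP : PTF P) (hF : PTF (fun p : γ × St => F p.1 p.2)) (hy : PTF y) :
    PTF (fun c => hmenu (P c) (F c) (y c)) := by
  unfold hmenu
  have hc : PTU (fun c => cls (F c) (y c)) := ptu_cls hF hy
  have hF1 := ptf_F hF hy
  refine ptf_flatMap_congr (f := fun c κ' =>
      (menu (P c) κ' (2 * F c (y c)) (y c)).map fun z => (κ', z))
    (f' := fun c κ' => (menu (P c) (cl3 (cls (F c) (y c)) (P c).al (P c).a2 κ')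
      (2 * F c (y c)) (y c)).map fun z => (κ', z)) ?_ ?_ ?_
  · refine ptf_rngC ?_ ?_
    · have := hc.toPTF
      fun_prop
    · fun_prop
  · have hk : PTU (fun q : γ × ℕ => cl3 (cls (F q.1) (y q.1)) (P q.1).al (P q.1).a2 q.2) :=
      ptu_cl3 (κ := fun q : γ × ℕ => cls (F q.1) (y q.1))
        (PTU.comp (n := fun c => cls (F c) (y c)) hc PTF.fst) (by fun_prop) (by fun_prop)
        (by fun_prop)
    have hb : PTU (fun q : γ × ℕ => 4 * (2 ^ (P q.1).al * 2 ^ (P q.1).pb)) := by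
      have h1 := ptu_two_al (P := fun q : γ × ℕ => P q.1) (by fun_prop)
      have h2 := ptu_two_pb (P := fun q : γ × ℕ => P q.1) (by fun_prop)
      fun_prop
    have hf : PTF (fun q : γ × ℕ => 2 * F q.1 (y q.1)) := by
      have := PTF.comp (g := fun c => F c (y c)) (f := fun q : γ × ℕ => q.1) hF1 (by fun_prop)
      fun_prop
    have h1 : PTF (fun q : γ × ℕ => menu (P q.1) (cl3 (cls (F q.1) (y q.1)) (P q.1).al (P q.1).a2
        q.2) (2 * F q.1 (y q.1)) (y q.1)) := by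
      refine ptf_menu (P := fun q : γ × ℕ => P q.1) (by fun_prop) hk hf (by fun_prop) hb fun q => ?_
      exact menu_size (P q.1) (κ := cls (F q.1) (y q.1)) (Nat.lt_pow_succ_log_self (by norm_num) _)
        (le_cl3 _ _ _ _)
    exact PtX949.map (f := fun (q : γ × ℕ) (z : St) => (q.2, z)) h1 (by fun_prop)
  · intro c κ' hk
    obtain ⟨h1, h2⟩ := PtSt966.mem_rngC hk
    rw [cl3_eq h2 (by omega)]

@[fun_prop]
theorem ptf_own (hP : PTF P) (hF : PTF (fun p : γ × St => F p.1 p.2)) (hy : PTF y) :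
    PTF (fun c => own (P c) (F c) (y c)) := by
  unfold own
  have hc : PTU (fun c => cls (F c) (y c)) := ptu_cls hF hy
  have h1 := hc.toPTF
  have h2 : PTF (fun c => rdn (P c) (cls (F c) (y c)) (y c)) := ptf_rdn hP hc hy
  fun_prop

/-! ### windows -/

@[fun_prop]
theorem ptf_pcs (hP : PTF P) (hκ : PTU κ) (hx : PTF x) :
    PTF (fun c => pcs (P c) (κ c) (x c)) := by
  unfold pcs
  fun_prop

@[fun_prop]
theorem ptf_wst (hP : PTF P) (hκ : PTU κ) (hx : PTF x) :
    PTF (fun c => wst (P c) (κ c) (x c)) := by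
  unfold wst
  fun_prop

@[fun_prop]
theorem ptf_wpr (hP : PTF P) (hκ : PTU κ) (hF : PTF (fun p : γ × St => F p.1 p.2))
    (hx : PTF x) : PTF (fun c => wpr (P c) (F c) (κ c) (x c)) := by
  unfold wpr
  have hF' : PTF (fun p : (γ × St) × St => F p.1.1 p.2) :=
    PTF.comp (g := fun p : γ × St => F p.1 p.2) (f := fun p : (γ × St) × St => (p.1.1, p.2)) hF
      (by fun_prop)
  refine PtX949.flatMap (f := fun c y => own (P c) (F c) y :: hmenu (P c) (F c) y) (by fun_prop) ?_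
  have h1 : PTF (fun p : γ × St => own (P p.1) (F p.1) p.2) :=
    ptf_own (P := fun p : γ × St => P p.1) (F := fun p : γ × St => F p.1) (by fun_prop) hF'
      (by fun_prop)
  have h2 : PTF (fun p : γ × St => hmenu (P p.1) (F p.1) p.2) :=
    ptf_hmenu (P := fun p : γ × St => P p.1) (F := fun p : γ × St => F p.1) (by fun_prop) hF'
      (by fun_prop)
  exact PTF.listCons h1 h2

/-! ### cells -/

variable {a : γ → Cel}

@[fun_prop]
theorem ptf_cst {t : γ → ℕ} (hP : PTF P) (hκ : PTU (fun c => (a c).κ)) (ha : PTF a)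
    (ht : PTF t) : PTF (fun c => cst (P c) (a c) (t c)) := by
  unfold cst
  have h1 : PTF (fun c => (2 : ℤ) ^ (a c).κ) := ptf_intPow (by fun_prop) hκ
  have h2 : PTF (fun c => (gst (P c) (a c).κ : ℤ)) := PTF.intNatCast (ptf_gst hP hκ)
  have h3 : PTF (fun c => cv (P c) (a c).κ) := PtK966.ptf_cv hP hκ
  fun_prop

theorem ptf_cells (hP : PTF P) (hκ : PTU (fun c => (a c).κ)) (ha : PTF a) :
    PTF (fun c => cells (P c) (a c)) := by
  unfold cells
  have h1 : PTU (fun c => csz (P c) (a c).κ) := PtK966.ptu_csz hP hκ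
  refine PtX949.map (f := fun c t => cst (P c) (a c) t) (by fun_prop) ?_
  exact ptf_cst (P := fun p : γ × ℕ => P p.1) (a := fun p : γ × ℕ => a p.1) (by fun_prop)
    (PTU.comp (n := fun c => (a c).κ) hκ PTF.fst) (by fun_prop) (by fun_prop)

theorem ptf_bst (hP : PTF P) (hκ : PTU (fun c => (a c).κ)) (ha : PTF a) :
    PTF (fun c => bst (P c) (a c)) := by
  unfold bst
  have h1 : PTU (fun c => csz (P c) (a c).κ) := PtK966.ptu_csz hP hκ
  have hκ' : PTU (fun p : γ × ℕ => (a p.1).κ) := PTU.comp (n := fun c => (a c).κ) hκ PTF.fst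
  refine PtX949.flatMap (f := fun c t => wst (P c) (a c).κ (cst (P c) (a c) t)) (by fun_prop) ?_
  exact ptf_wst (P := fun p : γ × ℕ => P p.1) (by fun_prop) hκ'
    (ptf_cst (P := fun p : γ × ℕ => P p.1) (by fun_prop) hκ' (by fun_prop) (by fun_prop))

theorem ptf_bpr (hP : PTF P) (hκ : PTU (fun c => (a c).κ)) (ha : PTF a)
    (hF : PTF (fun p : γ × St => F p.1 p.2)) : PTF (fun c => bpr (P c) (F c) (a c)) := by
  unfold bpr
  have h1 : PTU (fun c => csz (P c) (a c).κ) := PtK966.ptu_csz hP hκ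
  have hκ' : PTU (fun p : γ × ℕ => (a p.1).κ) := PTU.comp (n := fun c => (a c).κ) hκ PTF.fst
  have hF' : PTF (fun p : (γ × ℕ) × St => F p.1.1 p.2) :=
    PTF.comp (g := fun p : γ × St => F p.1 p.2) (f := fun p : (γ × ℕ) × St => (p.1.1, p.2)) hF
      (by fun_prop)
  refine PtX949.flatMap (f := fun c t => wpr (P c) (F c) (a c).κ (cst (P c) (a c) t))
    (by fun_prop) ?_
  exact ptf_wpr (P := fun p : γ × ℕ => P p.1) (F := fun p : γ × ℕ => F p.1) (by fun_prop) hκ' hF'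
    (ptf_cst (P := fun p : γ × ℕ => P p.1) (by fun_prop) hκ' (by fun_prop) (by fun_prop))

/-! ### hull, numbers, next unit function -/

theorem ptf_hull {f : γ → ℕ → St → ℕ} (hP : PTF P) (hF : PTF (fun p : γ × St => F p.1 p.2))
    (hf : PTF (fun p : γ × ℕ × St => f p.1 p.2.1 p.2.2)) (hy : PTF y) :
    PTF (fun c => hull (P c) (F c) (f c) (y c)) := by
  simp only [hull_eq]
  have h1 := ptf_F hF hy
  have h2 := ptf_hmenu hP hF hy
  refine ptf_lmin h1 (PtX949.map (f := fun c p => Alg45.dist (y c) p.2 + f c p.1 p.2) h2 ?_)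
  have h3 : PTF (fun p : γ × ℕ × St => Alg45.dist (y p.1) p.2.2) := by fun_prop
  exact PTF.natAdd h3 hf

end lists

end Crest.Agent.R288.PgB172
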