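import Crest.Agent.R288.Pl_726
import Crest.Agent.R288.Bridge_331

/-!
# R288, PL layer part 4 (helper726): PL programs realise randomized computations

* `PRea e M pr p v T d`: on every stream, statement `p` started in the environment `v` computes
  `T : RT (List ℕ × ℕ)` (final environment, bound of the time) with call depth `≤ d`; random words
  are uniform below `M`.
* rules `PRea.skip/asg/rnd/rd/call/seq/ite_true/ite_false/whl_done/whl_step`, `PRea.time`,
  `PRea.eq_run` (another computation with the same results).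
* `redu M' T`: the computation `T` (modulus `M'`) as a computation with modulus `M`, `M' ∣ M`.
-/

set_option autoImplicit false

namespace Crest.Agent.R288.Pl726

open Crest.Agent.R295 Crest.Agent.R295.Rnd627 Crest.Agent.R288.Bridge331
open Crest.Agent.Lib.PT (PTF)

universe u

/-! ### change of the modulus -/

section redu

variable {α : Type u}

/-- reduce every random word -/
def redu (M' : ℕ) : RT α → RT α
  | .ret a => .ret a
  | .rnd k => .rnd fun v => redu M' (k (v % M'))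

theorem run_redu {M M' : ℕ} (h : M' ∣ M) (T : RT α) (ρ : ℕ → ℕ) (i : ℕ) :
    (redu M' T).run M ρ i = T.run M' ρ i := by
  induction T generalizing i with
  | ret a => rfl
  | rnd k ih =>
    show (redu M' (k ((ρ i % M) % M'))).run M ρ (i + 1) = (k (ρ i % M')).run M' ρ (i + 1)
    rw [Nat.mod_mod_of_dvd _ h, ih]

theorem val_redu {M M' : ℕ} (h : M' ∣ M) (T : RT α) (ρ : ℕ → ℕ) (i : ℕ) :
    (redu M' T).val M ρ i = T.val M' ρ i := by unfold RT.val; rw [run_redu h]

theorem nxt_redu {M M' : ℕ} (h : M' ∣ M) (T : RT α) (ρ : ℕ → ℕ) (i : ℕ) :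
    (redu M' T).nxt M ρ i = T.nxt M' ρ i := by unfold RT.nxt; rw [run_redu h]

theorem sum_range_mod {M' : ℕ} (q : ℕ) (F : ℕ → ℝ) :
    ∑ v ∈ Finset.range (M' * q), F (v % M') = q * ∑ v ∈ Finset.range M', F v := by
  induction q with
  | zero => simp
  | succ q ih =>
    rw [Nat.mul_succ, Finset.sum_range_add, ih]
    have h1 : ∀ x ∈ Finset.range M', F ((M' * q + x) % M') = F x := by
      intro x hx
      rw [Nat.mul_add_mod, Nat.mod_eq_of_lt (Finset.mem_range.1 hx)]
    rw [Finset.sum_congr rfl h1]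
    push_cast
    ring

theorem Ev_redu {M M' : ℕ} (hM' : 0 < M') (h : M' ∣ M) (hM : 0 < M) (T : RT α) (f : α → ℝ) :
    (redu M' T).Ev M f = T.Ev M' f := by
  obtain ⟨q, rfl⟩ := h
  have hq : 0 < q := Nat.pos_of_mul_pos_left hM
  induction T with
  | ret a => rfl
  | rnd k ih =>
    show (RT.rnd fun v => redu M' (k (v % M'))).Ev (M' * q) f = (RT.rnd k).Ev M' f
    rw [RT.Ev_rnd, RT.Ev_rnd]
    have h1 : ∀ v ∈ Finset.range (M' * q), (redu M' (k (v % M'))).Ev (M' * q) f =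
        (fun v => (k v).Ev M' f) (v % M') := fun v _ => ih _
    rw [Finset.sum_congr rfl h1, sum_range_mod q (fun v => RT.Ev M' (k v) f)]
    have h2 : (M' : ℝ) ≠ 0 := Nat.cast_ne_zero.2 hM'.ne'
    have h3 : (q : ℝ) ≠ 0 := Nat.cast_ne_zero.2 hq.ne'
    push_cast
    field_simp

theorem Pr_redu {M M' : ℕ} (hM' : 0 < M') (h : M' ∣ M) (hM : 0 < M) (T : RT α) (P : α → Prop) :
    (redu M' T).Pr M P = T.Pr M' P := Ev_redu hM' h hM T _

end redu

/-! ### realisation -/

/-- the environment with random words `ρ i % M` -/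
def PEnv.at (e : PEnv) (M : ℕ) (ρ : ℕ → ℕ) : PEnv := { e with ρ := fun i => ρ i % M }

theorem PEnv.at_fits {e : PEnv} {M : ℕ} {ρ : ℕ → ℕ} {v : List ℕ} :
    (e.at M ρ).Fits v ↔ e.Fits v := Iff.rfl

/-- the statement `p` realises `T` -/
def PRea (e : PEnv) (M : ℕ) (pr : List PS) (p : PS) (v : List ℕ) (T : RT (List ℕ × ℕ)) (d : ℕ) :
    Prop :=
  ∀ (ρ : ℕ → ℕ) (i : ℕ), ∃ t d', PEx (e.at M ρ) pr p v i (T.val M ρ i).1 (T.nxt M ρ i) t d' ∧
    t ≤ (T.val M ρ i).2 ∧ d' ≤ d

section rules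

variable {e : PEnv} {M : ℕ} {pr : List PS} {p q : PS} {v : List ℕ} {T : RT (List ℕ × ℕ)}
  {d d' : ℕ}

theorem PRea.mono (h : PRea e M pr p v T d) (hd : d ≤ d') : PRea e M pr p v T d' := by
  intro ρ i
  obtain ⟨t, d1, h1, h2, h3⟩ := h ρ i
  exact ⟨t, d1, h1, h2, h3.trans hd⟩

/-- another computation with the same result, at least the time -/
theorem PRea.eq_run {T' : RT (List ℕ × ℕ)} (h : PRea e M pr p v T d)
    (hT : ∀ ρ i, (T'.val M ρ i).1 = (T.val M ρ i).1 ∧ T'.nxt M ρ i = T.nxt M ρ i ∧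
      (T.val M ρ i).2 ≤ (T'.val M ρ i).2) : PRea e M pr p v T' d := by
  intro ρ i
  obtain ⟨t, d1, h1, h2, h3⟩ := h ρ i
  obtain ⟨g1, g2, g3⟩ := hT ρ i
  rw [g1, g2]
  exact ⟨t, d1, h1, h2.trans g3, h3⟩

/-- a larger time -/
theorem PRea.time (h : PRea e M pr p v T d) {g : List ℕ → ℕ → ℕ} (hg : ∀ a c, c ≤ g a c) :
    PRea e M pr p v (mapC g T) d :=
  h.eq_run fun ρ i => by
    unfold mapC
    rw [val_map, nxt_map]
    exact ⟨rfl, rfl, hg _ _⟩

theorem PRea.skip : PRea e M pr .skip v (.ret (v, 1)) d :=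
  fun _ _ => ⟨1, 0, .skip, le_rfl, Nat.zero_le _⟩

theorem PRea.asg {f : List ℕ → List ℕ} {hf : PTF f} (h : e.Fits (f v)) :
    PRea e M pr (.asg f hf) v (.ret (f v, 1)) d :=
  fun _ _ => ⟨1, 0, .asg h, le_rfl, Nat.zero_le _⟩

theorem PRea.rnd (hM : 0 < M) (h : ∀ r, r < M → e.Fits (r :: v)) :
    PRea e M pr .rnd v (RT.draw.map fun r => (r :: v, 1)) d := by
  intro ρ i
  rw [val_map, nxt_map]
  exact ⟨1, 0, .rnd (h _ (Nat.mod_lt _ hM)), le_rfl, Nat.zero_le _⟩

theorem PRea.rd {k : ℕ} {g : List ℕ → ℕ} {hg : PTF g} (hk : k < 50) (hL : g v < e.L)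
    (h : e.Fits (e.O k (g v) :: v)) :
    PRea e M pr (.rd k g hg) v (.ret (e.O k (g v) :: v, 1)) d :=
  fun _ _ => ⟨1, 0, .rd hk hL h, le_rfl, Nat.zero_le _⟩

theorem PRea.ext {g : List ℕ → List ℕ} {hg : PTF g} (h5 : (g v).length = 5)
    (h1 : e.Fits (g v)) (h2 : e.Fits (e.X (g v) :: v)) :
    PRea e M pr (.ext g hg) v (.ret (e.X (g v) :: v, e.XT (g v) + 1)) d :=
  fun _ _ => ⟨e.XT (g v) + 1, 0, .ext h5 h1 h2, le_rfl, Nat.zero_le _⟩

theorem PRea.call (hM : 0 < M) {j : ℕ} {g : List ℕ → List ℕ} {hg : PTF g} (hv : e.Fits (g v))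
    (h : PRea e M pr (pbody pr j) (g v) T d)
    (hfit : T.All M fun x => e.Fits (x.1.length :: (x.1 ++ v))) (hd : d + 1 ≤ d') :
    PRea e M pr (.call j g hg) v (T.map fun x => (x.1.length :: (x.1 ++ v), x.2 + 1)) d' := by
  intro ρ i
  obtain ⟨t, d1, h1, h2, h3⟩ := h ρ i
  rw [val_map, nxt_map]
  exact ⟨t + 1, d1 + 1, .call hv h1 (hfit.val hM ρ i), by dsimp only; omega, by omega⟩

theorem PRea.seq (hM : 0 < M) {f : List ℕ → RT (List ℕ × ℕ)} (h : PRea e M pr p v T d)
    (h' : T.All M fun x => PRea e M pr q x.1 (f x.1) d) :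
    PRea e M pr (.seq p q) v (mapC (fun _ c => c + 1) (bindC T f)) d := by
  intro ρ i
  obtain ⟨t, d1, h1, h2, h3⟩ := h ρ i
  obtain ⟨t', d2, h4, h5, h6⟩ := h'.val hM ρ i ρ (T.nxt M ρ i)
  unfold mapC
  rw [val_map, nxt_map, val_bindC, nxt_bindC]
  exact ⟨_, _, .seq h1 h4, by dsimp only; omega, by omega⟩

theorem PRea.ite_true {g : List ℕ → Bool} {hg : PTF g} (hv : g v = true)
    (h : PRea e M pr p v T d) :
    PRea e M pr (.ite g hg p q) v (mapC (fun _ c => c + 1) T) d := by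
  intro ρ i
  obtain ⟨t, d1, h1, h2, h3⟩ := h ρ i
  unfold mapC
  rw [val_map, nxt_map]
  exact ⟨_, _, .ite_true hv h1, by dsimp only; omega, by omega⟩

theorem PRea.ite_false {g : List ℕ → Bool} {hg : PTF g} (hv : g v = false)
    (h : PRea e M pr q v T d) :
    PRea e M pr (.ite g hg p q) v (mapC (fun _ c => c + 1) T) d := by
  intro ρ i
  obtain ⟨t, d1, h1, h2, h3⟩ := h ρ i
  unfold mapC
  rw [val_map, nxt_map]
  exact ⟨_, _, .ite_false hv h1, by dsimp only; omega, by omega⟩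

theorem PRea.ite {g : List ℕ → Bool} {hg : PTF g} (ht : g v = true → PRea e M pr p v T d)
    (hf : g v = false → PRea e M pr q v T d) :
    PRea e M pr (.ite g hg p q) v (mapC (fun _ c => c + 1) T) d := by
  cases h : g v with
  | true => exact .ite_true h (ht h)
  | false => exact .ite_false h (hf h)

theorem PRea.whl_done {g : List ℕ → Bool} {hg : PTF g} (hv : g v = false) :
    PRea e M pr (.whl g hg p) v (.ret (v, 1)) d :=
  fun _ _ => ⟨1, 0, .whl_done hv, le_rfl, Nat.zero_le _⟩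

theorem PRea.whl_step (hM : 0 < M) {g : List ℕ → Bool} {hg : PTF g}
    {f : List ℕ → RT (List ℕ × ℕ)} (hv : g v = true)
    (h : PRea e M pr p v T d) (h' : T.All M fun x => PRea e M pr (.whl g hg p) x.1 (f x.1) d) :
    PRea e M pr (.whl g hg p) v (mapC (fun _ c => c + 1) (bindC T f)) d := by
  intro ρ i
  obtain ⟨t, d1, h1, h2, h3⟩ := h ρ i
  obtain ⟨t', d2, h4, h5, h6⟩ := h'.val hM ρ i ρ (T.nxt M ρ i)
  unfold mapC
  rw [val_map, nxt_map, val_bindC, nxt_bindC]
  exact ⟨_, _, .whl_step hv h1 h4, by dsimp only; omega, by omega⟩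

/-- `n` rounds of a loop: `st j` = environments before round `j` -/
def loopT (f : ℕ → List ℕ → RT (List ℕ × ℕ)) : ℕ → ℕ → List ℕ → RT (List ℕ × ℕ)
  | 0, _, v => .ret (v, 1)
  | n + 1, j, v => mapC (fun _ c => c + 1) (bindC (f j v) fun v' => loopT f n (j + 1) v')

/-- a counting loop: `I j v` = the environment `v` is possible before round `j` -/
theorem PRea.whl_loop (hM : 0 < M) {g : List ℕ → Bool} {hg : PTF g}
    {f : ℕ → List ℕ → RT (List ℕ × ℕ)} (I : ℕ → List ℕ → Prop) {N : ℕ}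
    (hstep : ∀ j v, j < N → I j v → g v = true ∧ PRea e M pr p v (f j v) d ∧
      (f j v).All M fun x => I (j + 1) x.1)
    (hend : ∀ v, I N v → g v = false) :
    ∀ n j v, j + n = N → I j v → PRea e M pr (.whl g hg p) v (loopT f n j v) d := by
  intro n
  induction n with
  | zero =>
    intro j v hj hI
    rw [add_zero] at hj
    subst hj
    exact .whl_done (hend v hI)
  | succ n ih =>
    intro j v hj hI
    obtain ⟨h1, h2, h3⟩ := hstep j v (by omega) hI
    exact .whl_step hM h1 h2 (h3.mono fun x hx => ih (j + 1) x.1 (by omega) hx)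

theorem PRea.fits (h : PRea e M pr p v T d) (hv : e.Fits v) (ρ : ℕ → ℕ) (i : ℕ) :
    e.Fits (T.val M ρ i).1 := by
  obtain ⟨t, d1, h1, h2, h3⟩ := h ρ i
  exact h1.fits hv

end rules

end Crest.Agent.R288.Pl726
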