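import Crest.Agent.R288.PlT_726
import Crest.Agent.R288.PlR_726
import Crest.Agent.R288.ShellC_12

/-!
# R288, PL layer part 5 (helper726): S0433 from a PL program

Bounds `L^{o(1)}` (`og`), used in `PlW_726` (`topPL`: S0433 from a PL program that
realises a randomized computation which is good with probability `≥ 2/3`).
-/

set_option autoImplicit false

namespace Crest.Agent.R288.Pl726

open Crest.Agent.R295 HL Pt949 Crest.Agent.R288.Rec690 Crest.Agent.R288.EnvM12
open Crest.GraphRAM Crest.Agent.R288.Ed Crest.Agent.R295.Rnd627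
open Crest.Agent.R288.Lv Crest.Agent.R288.Top791 Crest.Agent.R288.Front327
open Crest.Agent.R288.Shell12 Crest.Agent.R295.TopH791 Crest.Agent.R288.Bridge331
open Crest.Agent.Lib.PT (PTF)

/-! ### bounds -/

/-- a factor `L^{o(1)}` -/
def og (c k r j L : ℕ) : ℕ := c * 2 ^ (r * Nat.clog 2 L / slk j L) * (Nat.clog 2 L + 1) ^ k

theorem fuc_eq (c k r j L : ℕ) : fuc c k r j L = (L + 1) * og c k r j L := by
  unfold fuc og
  ring

theorem og_mul (c k r c' k' r' j L : ℕ) :
    og c k r j L * og c' k' r' j L ≤ og (c * c') (k + k') (r + r') j L := by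
  unfold og
  have h1 : r * Nat.clog 2 L / slk j L + r' * Nat.clog 2 L / slk j L ≤
      (r + r') * Nat.clog 2 L / slk j L := by
    rw [add_mul]
    exact Nat.div_add_div_le_add_div
  calc c * 2 ^ (r * Nat.clog 2 L / slk j L) * (Nat.clog 2 L + 1) ^ k *
      (c' * 2 ^ (r' * Nat.clog 2 L / slk j L) * (Nat.clog 2 L + 1) ^ k')
      = (c * c') * 2 ^ (r * Nat.clog 2 L / slk j L + r' * Nat.clog 2 L / slk j L) *
        (Nat.clog 2 L + 1) ^ (k + k') := by rw [pow_add, pow_add]; ring
    _ ≤ _ := by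
      gcongr
      norm_num

theorem og_mono {c k r c' k' r' : ℕ} (hc : c ≤ c') (hk : k ≤ k') (hr : r ≤ r') (j L : ℕ) :
    og c k r j L ≤ og c' k' r' j L := by
  unfold og
  gcongr
  · norm_num
  · omega

theorem og_add (c k r c' k' r' j L : ℕ) :
    og c k r j L + og c' k' r' j L ≤ og (c + c') (k + k') (r + r') j L := by
  have h1 := og_mono (le_refl c) (Nat.le_add_right k k') (Nat.le_add_right r r') j L
  have h2 := og_mono (le_refl c') (Nat.le_add_left k' k) (Nat.le_add_left r' r) j L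
  refine (Nat.add_le_add h1 h2).trans (le_of_eq ?_)
  unfold og
  ring

theorem og_pow (c k r j L d : ℕ) : og c k r j L ^ d ≤ og (c ^ d) (k * d) (r * d) j L := by
  induction d with
  | zero => simp [og]
  | succ d ih =>
    rw [pow_succ]
    refine (Nat.mul_le_mul_right _ ih).trans ((og_mul _ _ _ _ _ _ _ _).trans ?_)
    rw [← pow_succ, Nat.mul_succ, Nat.mul_succ]

theorem one_le_og {c k r j L : ℕ} (hc : 1 ≤ c) : 1 ≤ og c k r j L := by
  unfold og
  exact Nat.mul_pos (Nat.mul_pos hc (by positivity)) (by positivity)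

theorem const_le_og (c k r j L : ℕ) : c ≤ og c k r j L := by
  unfold og
  rw [mul_assoc]
  exact Nat.le_mul_of_pos_right _ (by positivity)

theorem poly_le (P : Polynomial ℕ) : ∃ c d : ℕ, ∀ x, P.eval x ≤ c * (x + 1) ^ d := by
  induction P using Polynomial.induction_on' with
  | add p q hp hq =>
    obtain ⟨c, d, h⟩ := hp
    obtain ⟨c', d', h'⟩ := hq
    refine ⟨c + c', d + d', fun x => ?_⟩
    rw [Polynomial.eval_add]
    have h1 : c * (x + 1) ^ d ≤ c * (x + 1) ^ (d + d') :=
      Nat.mul_le_mul_left _ (Nat.pow_le_pow_right (by omega) (by omega))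
    have h2 : c' * (x + 1) ^ d' ≤ c' * (x + 1) ^ (d + d') :=
      Nat.mul_le_mul_left _ (Nat.pow_le_pow_right (by omega) (by omega))
    have := h x
    have := h' x
    rw [add_mul]
    omega
  | monomial n a =>
    refine ⟨a, n, fun x => ?_⟩
    rw [Polynomial.eval_monomial]
    exact Nat.mul_le_mul_left _ (Nat.pow_le_pow_left (by omega) _)

/-- a polynomial of an `L^{o(1)}` quantity -/
theorem poly_og (P : Polynomial ℕ) (c k r : ℕ) : ∃ c' k' r' : ℕ, ∀ j L x : ℕ,
    x ≤ og c k r j L → P.eval x ≤ og c' k' r' j L := by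
  obtain ⟨a, d, h⟩ := poly_le P
  refine ⟨a * (c + 1) ^ d, k * d, r * d, fun j L x hx => (h x).trans ?_⟩
  have h1 : x + 1 ≤ og (c + 1) k r j L := by
    have h2 := og_add c k r 1 0 0 j L
    have h3 : 1 ≤ og 1 0 0 j L := one_le_og le_rfl
    simp only [add_zero] at h2
    omega
  calc a * (x + 1) ^ d ≤ a * og (c + 1) k r j L ^ d :=
        Nat.mul_le_mul_left _ (Nat.pow_le_pow_left h1 _)
    _ ≤ a * og ((c + 1) ^ d) (k * d) (r * d) j L := Nat.mul_le_mul_left _ (og_pow _ _ _ _ _ _)
    _ = og (a * (c + 1) ^ d) (k * d) (r * d) j L := by unfold og; ring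

/-- `L^{o(1)} ≤ L` eventually -/
theorem ev_og {j : ℕ} (hj : 1 ≤ j) (c k r : ℕ) :
    ∀ᶠ L in Filter.atTop, og c k r j L ≤ L := by
  filter_upwards [ev_fuel hj (2 * c) k r, Filter.eventually_ge_atTop 3] with L h1 h2
  have h3 := h1.trans (fuel_le _ _)
  have h4 : 2 * c * (L + 1) * 2 ^ (r * Nat.clog 2 L / slk j L) * (Nat.clog 2 L + 1) ^ k =
      2 * ((L + 1) * og c k r j L) := by unfold og; ring
  rw [h4] at h3
  by_contra h5
  push Not at h5
  have h6 : (L + 1) * (L + 1) ≤ (L + 1) * og c k r j L := Nat.mul_le_mul_left _ h5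
  nlinarith

end Crest.Agent.R288.Pl726
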