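import Crest.Agent.R288.AsyB_720
import Crest.Agent.R288.PlH_726

/-!
# R288, leaf G8 (helper155): fuel / size / depth inequalities of the program side

`h = clog 2 L`, `w = il j h = slk j L`.

* `pow_main`     : `(A S')^T V^κ ≤ 2^H 2^(r h / w)` from the budget of the exponents (numbers only)
* `Bu j f`       : `f = O(h / il j h)`, the budget calculus (`of_sm`, `add`, `const_mul`, `levels`, `ranks`)
* `Bu.le_div`    : `Bu j f → ∃ r, f h ≤ r h / il j h` eventually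
* `cost_ev`      : the closed form of (G7) is `≤ 2^H 2^(r h / il j h)` eventually
* `fuc_of`, `og_of`, ... : literal forms of `PlW_726.topPL` (`fuc`, `og`), depth `≤ L`
-/

set_option autoImplicit false

namespace Crest.Agent.R288.PgG8155

open Filter Crest.Agent.R288.Asy720 Crest.Agent.R288.Pl726 Crest.Agent.R288.Shell12
open Crest.Agent.R288.Front327

/-! ### numbers -/

/-- exponent of the same-index part: `T ≤ H / n + c` macro levels, factor `2^(n+q)` per level -/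
theorem levels_main {AS n q T c H : ℕ} (hAS : AS ≤ 2 ^ (n + q)) (hT : T ≤ H / n + c) :
    AS ^ T ≤ 2 ^ (H + (q * (H / n + c) + c * n)) := by
  calc AS ^ T ≤ (2 ^ (n + q)) ^ T := Nat.pow_le_pow_left hAS _
    _ = 2 ^ ((n + q) * T) := by rw [pow_mul]
    _ ≤ 2 ^ ((n + q) * (H / n + c)) := Nat.pow_le_pow_right (by norm_num) (Nat.mul_le_mul_left _ hT)
    _ ≤ 2 ^ (H + (q * (H / n + c) + c * n)) := by
        refine Nat.pow_le_pow_right (by norm_num) ?_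
        have h1 : n * (H / n) ≤ H := Nat.mul_div_le H n
        calc (n + q) * (H / n + c) = n * (H / n) + (q * (H / n + c) + c * n) := by ring
          _ ≤ _ := Nat.add_le_add_right h1 _

/-- **the closed form of the cost against the budget**, numbers only -/
theorem pow_main {AS V n q b κ T c h H w r : ℕ}
    (hAS : AS ≤ 2 ^ (n + q)) (hV : V ≤ 2 ^ b) (hT : T ≤ H / n + c)
    (he : q * (H / n + c) + c * n + b * κ ≤ r * h / w) :
    AS ^ T * V ^ κ ≤ 2 ^ H * 2 ^ (r * h / w) := by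
  calc AS ^ T * V ^ κ ≤ 2 ^ (H + (q * (H / n + c) + c * n)) * (2 ^ b) ^ κ :=
        Nat.mul_le_mul (levels_main hAS hT) (Nat.pow_le_pow_left hV _)
    _ = 2 ^ H * 2 ^ (q * (H / n + c) + c * n + b * κ) := by
        rw [← pow_mul, ← pow_add, ← pow_add]
        congr 1
        ring
    _ ≤ 2 ^ H * 2 ^ (r * h / w) :=
        Nat.mul_le_mul_left _ (Nat.pow_le_pow_right (by norm_num) he)

/-! ### the budget -/

/-- `f = O(h / il j h)` -/
def Bu (j : ℕ) (f : ℕ → ℕ) : Prop := ∃ c : ℕ, ∀ᶠ h : ℕ in atTop, f h * il j h ≤ c * h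

theorem Bu.mono {j : ℕ} {f g : ℕ → ℕ} (hg : Bu j g) (hfg : ∀ᶠ h : ℕ in atTop, f h ≤ g h) :
    Bu j f := by
  obtain ⟨c, hc⟩ := hg
  exact ⟨c, by
    filter_upwards [hc, hfg] with h h1 h2
    exact (Nat.mul_le_mul_right _ h2).trans h1⟩

theorem Bu.mono' {j : ℕ} {f g : ℕ → ℕ} (hg : Bu j g) (hfg : ∀ h, f h ≤ g h) : Bu j f :=
  hg.mono (Eventually.of_forall hfg)

theorem Bu.add {j : ℕ} {f g : ℕ → ℕ} (hf : Bu j f) (hg : Bu j g) : Bu j (fun h => f h + g h) := by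
  obtain ⟨c, hc⟩ := hf
  obtain ⟨d, hd⟩ := hg
  refine ⟨c + d, ?_⟩
  filter_upwards [hc, hd] with h h1 h2
  rw [add_mul, add_mul]
  exact Nat.add_le_add h1 h2

theorem Bu.const_mul {j : ℕ} {f : ℕ → ℕ} (hf : Bu j f) (C : ℕ) : Bu j (fun h => C * f h) := by
  obtain ⟨c, hc⟩ := hf
  refine ⟨C * c, ?_⟩
  filter_upwards [hc] with h h1
  calc C * f h * il j h = C * (f h * il j h) := by ring
    _ ≤ C * (c * h) := Nat.mul_le_mul_left _ h1
    _ = C * c * h := by ring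

/-- every `h^{o(1)}` function -/
theorem Bu.of_sm {j : ℕ} (hj : 1 ≤ j) {f : ℕ → ℕ} (hf : Sm 0 f) : Bu j f := by
  have h1 : Sm 0 (fun h => f h * il j h) := hf.mul (Sm.il_lt hj)
  exact ⟨1, by
    filter_upwards [h1.le0] with h h2
    simpa using h2⟩

theorem Bu.anti {j k : ℕ} (hjk : j ≤ k) {f : ℕ → ℕ} (hf : Bu j f) : Bu k f := by
  obtain ⟨c, hc⟩ := hf
  refine ⟨c, ?_⟩
  filter_upwards [hc] with h h1
  exact (Nat.mul_le_mul_left _ (il_anti hjk h)).trans h1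

/-- factor `2^(q h)` at every macro level: `H / n` levels, `q = O(n / w)`, `H = O(h)` -/
theorem Bu.levels {j : ℕ} {q n H : ℕ → ℕ} {c c' : ℕ}
    (hq : ∀ᶠ h : ℕ in atTop, q h * il j h ≤ c * n h) (hH : ∀ᶠ h : ℕ in atTop, H h ≤ c' * h) :
    Bu j (fun h => q h * (H h / n h)) := by
  refine ⟨c * c', ?_⟩
  filter_upwards [hq, hH] with h h1 h2
  calc q h * (H h / n h) * il j h = q h * il j h * (H h / n h) := by ring
    _ ≤ c * n h * (H h / n h) := Nat.mul_le_mul_right _ h1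
    _ = c * (n h * (H h / n h)) := by ring
    _ ≤ c * H h := Nat.mul_le_mul_left _ (Nat.mul_div_le _ _)
    _ ≤ c * (c' * h) := Nat.mul_le_mul_left _ h2
    _ = c * c' * h := by ring

/-- factor `2^(b h)` at every index: `κ = O(h / d)` indices, `b = O(d / w)` -/
theorem Bu.ranks {j : ℕ} {b κ d : ℕ → ℕ} {c c' : ℕ}
    (hb : ∀ᶠ h : ℕ in atTop, b h * il j h ≤ c * d h)
    (hκ : ∀ᶠ h : ℕ in atTop, κ h ≤ c' * (h / d h)) :
    Bu j (fun h => b h * κ h) := by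
  refine ⟨c * c', ?_⟩
  filter_upwards [hb, hκ] with h h1 h2
  calc b h * κ h * il j h = b h * il j h * κ h := by ring
    _ ≤ c * d h * (c' * (h / d h)) := Nat.mul_le_mul h1 h2
    _ = c * c' * (d h * (h / d h)) := by ring
    _ ≤ c * c' * h := Nat.mul_le_mul_left _ (Nat.mul_div_le _ _)

/-- the same with an explicit product bound `κ * d = O(h)` -/
theorem Bu.ranks' {j : ℕ} {b κ d : ℕ → ℕ} {c c' : ℕ}
    (hb : ∀ᶠ h : ℕ in atTop, b h * il j h ≤ c * d h)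
    (hκ : ∀ᶠ h : ℕ in atTop, κ h * d h ≤ c' * h) :
    Bu j (fun h => b h * κ h) := by
  refine ⟨c * c', ?_⟩
  filter_upwards [hb, hκ] with h h1 h2
  calc b h * κ h * il j h = b h * il j h * κ h := by ring
    _ ≤ c * d h * κ h := Nat.mul_le_mul_right _ h1
    _ = c * (κ h * d h) := by ring
    _ ≤ c * (c' * h) := Nat.mul_le_mul_left _ h2
    _ = c * c' * h := by ring

theorem Bu.le_div {j : ℕ} {f : ℕ → ℕ} (hf : Bu j f) :
    ∃ r, ∀ᶠ h : ℕ in atTop, f h ≤ r * h / il j h := by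
  obtain ⟨c, hc⟩ := hf
  refine ⟨c, ?_⟩
  filter_upwards [hc, ev_il_ge j 1] with h h1 h2
  exact (Nat.le_div_iff_mul_le h2).2 h1

/-! ### the closed form, eventually -/

/-- **(G8), cost**: `AS ≤ 2^(n+q)` per macro level, `V ≤ 2^b` per index, `T ≤ H/n + c` levels, `κ` indices -/
theorem cost_ev {j c cq cH : ℕ} {n q b κ H : ℕ → ℕ}
    (hq : ∀ᶠ h : ℕ in atTop, q h * il j h ≤ cq * n h)
    (hn : Bu j n) (hH : ∀ᶠ h : ℕ in atTop, H h ≤ cH * h)
    (hbκ : Bu j (fun h => b h * κ h)) :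
    ∃ r, ∀ᶠ h : ℕ in atTop, ∀ AS V T : ℕ, AS ≤ 2 ^ (n h + q h) → V ≤ 2 ^ b h →
      T ≤ H h / n h + c → AS ^ T * V ^ κ h ≤ 2 ^ H h * 2 ^ (r * h / il j h) := by
  have hq2 : Bu j q := by
    obtain ⟨d, hd⟩ := hn
    refine ⟨cq * d, ?_⟩
    filter_upwards [hq, hd, ev_il_ge j 1] with h h1 h2 h3
    calc q h * il j h ≤ cq * n h := h1
      _ ≤ cq * (n h * il j h) := Nat.mul_le_mul_left _ (Nat.le_mul_of_pos_right _ h3)
      _ ≤ cq * (d * h) := Nat.mul_le_mul_left _ h2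
      _ = cq * d * h := by ring
  have hB : Bu j (fun h => q h * (H h / n h + c) + c * n h + b h * κ h) := by
    have h1 := (((Bu.levels hq hH).add (hq2.const_mul c)).add (hn.const_mul c)).add hbκ
    refine h1.mono' fun h => le_of_eq ?_
    ring
  obtain ⟨r, hr⟩ := hB.le_div
  refine ⟨r, ?_⟩
  filter_upwards [hr] with h h1 AS V T h2 h3 h4
  exact pow_main h2 h3 h4 h1

/-! ### literal forms -/

theorem two_pow_clog_le {L : ℕ} (h : 1 ≤ L) : 2 ^ Nat.clog 2 L ≤ 2 * L := by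
  rcases Nat.lt_or_ge L 2 with h1 | h1
  · have : L = 1 := by omega
    subst this
    simp
  · have h0 : 0 < Nat.clog 2 L := Nat.clog_pos (by norm_num) (by omega)
    have h2 : 2 ^ (Nat.clog 2 L - 1) < L := Nat.pow_pred_clog_lt_self (b := 2) (by norm_num) (by omega)
    calc 2 ^ Nat.clog 2 L = 2 * 2 ^ (Nat.clog 2 L - 1) := by
          rw [← pow_succ']; congr 1; omega
      _ ≤ 2 * L := by omega

/-- powers of two with a budget exponent -/
theorem two_pow_ev {j : ℕ} {f : ℕ → ℕ} (hf : Bu j f) :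
    ∃ r j₀ : ℕ, ∀ L : ℕ, 2 ^ j₀ ≤ L → 2 ^ f (Nat.clog 2 L) ≤ og 1 0 r j L := by
  obtain ⟨r, hr⟩ := hf.le_div
  obtain ⟨j₀, hj⟩ := exists_threshold hr
  refine ⟨r, j₀, fun L hL => ?_⟩
  unfold og
  rw [one_mul, pow_zero, mul_one]
  exact Nat.pow_le_pow_right (by norm_num) (hj L hL)

/-- **(G8), sizes**: `S ≤ C 2^(s h)` -/
theorem size_ev {j : ℕ} {s : ℕ → ℕ} (hs : Bu j s) (C : ℕ) :
    ∃ r j₀ : ℕ, ∀ L : ℕ, 2 ^ j₀ ≤ L → ∀ S ≤ C * 2 ^ s (Nat.clog 2 L), S ≤ og C 0 r j L := by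
  obtain ⟨r, j₀, h⟩ := two_pow_ev hs
  refine ⟨r, j₀, fun L hL S hS => hS.trans ?_⟩
  calc C * 2 ^ s (Nat.clog 2 L) ≤ C * og 1 0 r j L := Nat.mul_le_mul_left _ (h L hL)
    _ = og C 0 r j L := by unfold og; ring

/-- a polylogarithmic quantity is `≤ L` -/
theorem polylog_ev (C a : ℕ) : ∃ j₀ : ℕ, ∀ L : ℕ, 2 ^ j₀ ≤ L → C * (Nat.clog 2 L + 1) ^ a ≤ L := by
  have h1 : ∀ᶠ h : ℕ in atTop, C * (h + 1) ^ a ≤ 2 ^ (h - 1) := by
    have h2 := ev_pow_le_two_pow (C * 2 ^ (a + 1)) a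
    filter_upwards [h2, eventually_ge_atTop 1] with h h3 h4
    have h5 : (h + 1) ^ a ≤ (2 * h) ^ a := Nat.pow_le_pow_left (by omega) a
    have h6 : C * (h + 1) ^ a * 2 ≤ 2 ^ h := by
      calc C * (h + 1) ^ a * 2 ≤ C * (2 * h) ^ a * 2 := by gcongr
        _ = C * 2 ^ (a + 1) * h ^ a := by rw [mul_pow, pow_succ]; ring
        _ ≤ 2 ^ h := h3
    have h7 : 2 ^ h = 2 ^ (h - 1) * 2 := by rw [← pow_succ]; congr 1; omega
    omega
  obtain ⟨j₀, hj⟩ := exists_threshold h1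
  refine ⟨max j₀ 1, fun L hL => ?_⟩
  have hL1 : 2 ^ j₀ ≤ L := (Nat.pow_le_pow_right (by norm_num) (le_max_left _ _)).trans hL
  have hL2 : 2 ≤ L := by
    have := (Nat.pow_le_pow_right (show 0 < 2 by norm_num) (le_max_right j₀ 1)).trans hL
    simpa using this
  exact (hj L hL1).trans (Nat.pow_pred_clog_lt_self (b := 2) (by norm_num) (by omega)).le

/-- **(G8), depth** (and every other polynomial in `h`, e.g. number of indices times heights) -/
theorem depth_ev {D : ℕ → ℕ} {C a : ℕ} (hD : ∀ h, D h ≤ C * (h + 1) ^ a) :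
    ∃ j₀ : ℕ, ∀ L : ℕ, 2 ^ j₀ ≤ L → D (Nat.clog 2 L) ≤ L := by
  obtain ⟨j₀, h⟩ := polylog_ev C a
  exact ⟨j₀, fun L hL => (hD _).trans (h L hL)⟩

/-- **(G8), total time / tape length**: root height `H ≤ h + e`, `e`, `g` in the budget -/
theorem fuel_ev {j c cq : ℕ} (C : ℕ) {n q b κ H e g : ℕ → ℕ}
    (hq : ∀ᶠ h : ℕ in atTop, q h * il j h ≤ cq * n h)
    (hn : Bu j n) (hH : ∀ h, H h ≤ h + e h) (he : Bu j e) (hg : Bu j g)
    (hbκ : Bu j (fun h => b h * κ h)) :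
    ∃ r j₀ : ℕ, ∀ L : ℕ, 2 ^ j₀ ≤ L → ∀ AS V T : ℕ,
      AS ≤ 2 ^ (n (Nat.clog 2 L) + q (Nat.clog 2 L)) → V ≤ 2 ^ b (Nat.clog 2 L) →
      T ≤ H (Nat.clog 2 L) / n (Nat.clog 2 L) + c →
      C * 2 ^ g (Nat.clog 2 L) * (AS ^ T * V ^ κ (Nat.clog 2 L)) ≤ fuc (2 * C) 0 r j L := by
  -- `H = O(h)`
  have hH2 : ∃ cH, ∀ᶠ h : ℕ in atTop, H h ≤ cH * h := by
    obtain ⟨d, hd⟩ := he
    refine ⟨1 + d, ?_⟩
    filter_upwards [hd, ev_il_ge j 1] with h h1 h2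
    calc H h ≤ h + e h := hH h
      _ ≤ h + e h * il j h := Nat.add_le_add_left (Nat.le_mul_of_pos_right _ h2) _
      _ ≤ h + d * h := Nat.add_le_add_left h1 _
      _ = (1 + d) * h := by ring
  obtain ⟨cH, hH2⟩ := hH2
  obtain ⟨r, hr⟩ := cost_ev (c := c) hq hn hH2 hbκ
  obtain ⟨r', hr'⟩ := (he.add hg).le_div
  obtain ⟨j₀, hj⟩ := exists_threshold (hr.and hr')
  refine ⟨r + r', j₀, fun L hL AS V T h1 h2 h3 => ?_⟩
  obtain ⟨h4, h5⟩ := hj L hL
  have hL1 : 1 ≤ L := (Nat.one_le_two_pow).trans hL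
  have h6 := h4 AS V T h1 h2 h3
  set h := Nat.clog 2 L with hh
  have h7 : 2 ^ H h ≤ 2 * L * 2 ^ e h := by
    calc 2 ^ H h ≤ 2 ^ (h + e h) := Nat.pow_le_pow_right (by norm_num) (hH h)
      _ = 2 ^ h * 2 ^ e h := pow_add _ _ _
      _ ≤ 2 * L * 2 ^ e h := Nat.mul_le_mul_right _ (two_pow_clog_le hL1)
  have h8 : e h + g h + r * h / il j h ≤ (r + r') * h / il j h := by
    have h9 : r * h / il j h + r' * h / il j h ≤ (r + r') * h / il j h := div_add_div_le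
    omega
  unfold fuc
  rw [pow_zero, mul_one]
  calc C * 2 ^ g h * (AS ^ T * V ^ κ h) ≤ C * 2 ^ g h * (2 ^ H h * 2 ^ (r * h / il j h)) :=
        Nat.mul_le_mul_left _ h6
    _ ≤ C * 2 ^ g h * (2 * L * 2 ^ e h * 2 ^ (r * h / il j h)) := by gcongr
    _ = 2 * C * L * 2 ^ (e h + g h + r * h / il j h) := by
        rw [pow_add, pow_add]; ring
    _ ≤ 2 * C * (L + 1) * 2 ^ ((r + r') * h / il j h) := by
        gcongr
        · omega
        · norm_num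

end Crest.Agent.R288.PgG8155
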