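import Crest.Agent.R288.ParB_806
import Crest.Agent.R288.PgG8_155

/-!
# R288, leaf G8 with the parameter table of ParB_806 (helper155)

`h = clog 2 L`, `C` an arbitrary constant (also as exponent), `j = 3` (`W h = il 3 h + 1`).

* `pol C h`    : `C W^C Lg^C Mg^C 2^(C Mg)` = polylogarithmic factor of one macro level (besides `2^nn`)
* `sub C h`    : `2 ^ (C W^C Lg^C Mg^C)` = any quasi-polynomial quantity in `Lg` (sizes, tables, frames)
* `time_tab`   : `G * (AS^T * V^κ) ≤ fuc c 0 r 3 L`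
* `sub_le_og`  : `sub C h ≤ og 1 0 r 3 L`
* `depth_tab`  : `C (h+1)^C ≤ L`
-/

set_option autoImplicit false

namespace Crest.Agent.R288.PgG8155

open Filter Crest.Agent.R288.Asy720 Crest.Agent.R288.Pl726 Crest.Agent.R288.Shell12
open Crest.Agent.R288.Front327 Crest.Agent.R288.Par806

/-- polylogarithmic factor of one macro level -/
def pol (C h : ℕ) : ℕ := C * W h ^ C * Lg h ^ C * Mg h ^ C * 2 ^ (C * Mg h)

/-- quasi-polynomial quantity in `Lg` -/
def sub (C h : ℕ) : ℕ := 2 ^ (C * W h ^ C * Lg h ^ C * Mg h ^ C)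

theorem pol_mono {C C' : ℕ} (hC : C ≤ C') (h : ℕ) : pol C h ≤ pol C' h := by
  unfold pol
  have h1 := W_pos h
  have h2 := Lg_pos h
  have h3 := Mg_pos h
  gcongr; norm_num

theorem sub_mono {C C' : ℕ} (hC : C ≤ C') (h : ℕ) : sub C h ≤ sub C' h := by
  unfold sub
  have h1 := W_pos h
  have h2 := Lg_pos h
  have h3 := Mg_pos h
  refine Nat.pow_le_pow_right (by norm_num) ?_
  gcongr

theorem sub_mul (C C' h : ℕ) : sub C h * sub C' h ≤ sub (C + C') h := by
  unfold sub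
  have h1 := W_pos h
  have h2 := Lg_pos h
  have h3 := Mg_pos h
  rw [← pow_add]
  refine Nat.pow_le_pow_right (by norm_num) ?_
  have e1 : C * W h ^ C * Lg h ^ C * Mg h ^ C ≤ C * W h ^ (C + C') * Lg h ^ (C + C') * Mg h ^ (C + C') := by
    gcongr <;> norm_num
  have e2 : C' * W h ^ C' * Lg h ^ C' * Mg h ^ C' ≤
      C' * W h ^ (C + C') * Lg h ^ (C + C') * Mg h ^ (C + C') := by
    gcongr <;> norm_num
  calc _ ≤ _ := Nat.add_le_add e1 e2
    _ = (C + C') * W h ^ (C + C') * Lg h ^ (C + C') * Mg h ^ (C + C') := by ring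

theorem sub_pow (C h : ℕ) : ∀ k : ℕ, 1 ≤ k → sub C h ^ k ≤ sub (k * C) h := by
  intro k hk
  induction k, hk using Nat.le_induction with
  | base => simp
  | succ k hk ih =>
    rw [pow_succ]
    calc sub C h ^ k * sub C h ≤ sub (k * C) h * sub C h := Nat.mul_le_mul_right _ ih
      _ ≤ sub (k * C + C) h := sub_mul _ _ _
      _ = sub ((k + 1) * C) h := by rw [Nat.add_mul, one_mul]

theorem pol_ev (C : ℕ) : ∀ᶠ h : ℕ in atTop, pol C h ≤ 2 ^ ((2 * C + 1) * Mg h) := by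
  filter_upwards [ev_le_two_pow_Mg C C C C] with h h1
  unfold pol
  calc C * W h ^ C * Lg h ^ C * Mg h ^ C * 2 ^ (C * Mg h) ≤ 2 ^ ((C + 1) * Mg h) * 2 ^ (C * Mg h) :=
        Nat.mul_le_mul_right _ h1
    _ = 2 ^ ((2 * C + 1) * Mg h) := by rw [← pow_add]; congr 1; ring

theorem bu_nn : Bu 3 nn := Bu.of_sm (by norm_num) (sm1_nn.of_le (Nat.zero_le 1))

theorem bu_sub (C : ℕ) : Bu 3 (fun h => C * W h ^ C * Lg h ^ C * Mg h ^ C) := by
  refine Bu.of_sm (by norm_num) ?_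
  refine ((Sm.const 0 C).mul (sm_poly C C C)).mono' fun h => le_of_eq ?_
  ring

theorem bu_index (C a : ℕ) (ha : a ≤ 4) :
    Bu 3 (fun h => C * W h ^ a * Lg h * (EE h * KK h + C)) := by
  refine ⟨1, ?_⟩
  filter_upwards [ev_work C (a + 1) (by omega)] with h h1
  have h2 : il 3 h ≤ W h := Nat.le_succ _
  calc C * W h ^ a * Lg h * (EE h * KK h + C) * il 3 h
      ≤ C * W h ^ a * Lg h * (EE h * KK h + C) * W h := Nat.mul_le_mul_left _ h2
    _ = (EE h * KK h + C) * (C * W h ^ (a + 1) * Lg h) := by rw [pow_succ]; ring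
    _ ≤ h := h1
    _ = 1 * h := (one_mul _).symm

/-- **time and tape words with the table of ParB_806** -/
theorem time_tab (C a : ℕ) (ha : a ≤ 4) : ∃ c r j₀ : ℕ, ∀ L : ℕ, 2 ^ j₀ ≤ L →
    ∀ AS V T κ G : ℕ, AS ≤ 2 ^ nn (Nat.clog 2 L) * pol C (Nat.clog 2 L) →
      1 ≤ V → V ≤ 2 ^ (C * W (Nat.clog 2 L) ^ a * Lg (Nat.clog 2 L)) →
      T ≤ II (Nat.clog 2 L) + C → κ ≤ EE (Nat.clog 2 L) * KK (Nat.clog 2 L) + C →
      G ≤ sub C (Nat.clog 2 L) →
      G * (AS ^ T * V ^ κ) ≤ fuc c 0 r 3 L := by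
  obtain ⟨r, j₀, hj⟩ := fuel_ev (j := 3) (c := C + 1) (cq := 2 * C + 1) 1 (n := nn)
    (q := fun h => (2 * C + 1) * Mg h) (b := fun h => C * W h ^ a * Lg h)
    (κ := fun h => EE h * KK h + C) (H := fun h => h) (e := fun _ => 0)
    (g := fun h => C * W h ^ C * Lg h ^ C * Mg h ^ C)
    (Eventually.of_forall fun h => by
      have h1 : il 3 h ≤ W h := Nat.le_succ _
      have h2 := W_pos h
      calc (2 * C + 1) * Mg h * il 3 h ≤ (2 * C + 1) * Mg h * W h ^ 2 := by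
            refine Nat.mul_le_mul_left _ (h1.trans ?_)
            calc W h = W h ^ 1 := (pow_one _).symm
              _ ≤ W h ^ 2 := Nat.pow_le_pow_right h2 (by norm_num)
        _ = (2 * C + 1) * nn h := by unfold nn; ring)
    bu_nn (fun h => by simp) (Bu.of_sm (by norm_num) (Sm.const 0 0)) (bu_sub C) (bu_index C a ha)
  obtain ⟨j₁, hj1⟩ := exists_threshold (pol_ev C)
  refine ⟨2 * 1, r, max j₀ j₁, fun L hL AS V T κ G h1 h2 h3 h4 h5 h6 => ?_⟩
  have hL0 : 2 ^ j₀ ≤ L := (Nat.pow_le_pow_right (by norm_num) (le_max_left _ _)).trans hL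
  have hL1 : 2 ^ j₁ ≤ L := (Nat.pow_le_pow_right (by norm_num) (le_max_right _ _)).trans hL
  have h7 := hj1 L hL1
  have h8 := hj L hL0 AS V T (by
    refine h1.trans ?_
    rw [pow_add]
    exact Nat.mul_le_mul_left _ h7) h3 (by
    refine h4.trans (le_of_eq ?_)
    unfold II
    ring)
  refine le_trans ?_ h8
  rw [one_mul]
  exact Nat.mul_le_mul h6 (Nat.mul_le_mul_left _ (Nat.pow_le_pow_right h2 h5))

/-- **sizes** -/
theorem sub_le_og (C : ℕ) : ∃ r j₀ : ℕ, ∀ L : ℕ, 2 ^ j₀ ≤ L →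
    sub C (Nat.clog 2 L) ≤ og 1 0 r 3 L := two_pow_ev (bu_sub C)

/-- the products of the table -/
theorem pol_le_sub (C : ℕ) : ∀ᶠ h : ℕ in atTop, pol C h ≤ sub (2 * C + 1) h := by
  filter_upwards [pol_ev C] with h h1
  refine h1.trans ?_
  unfold sub
  have h2 := W_pos h
  have h3 := Lg_pos h
  have h4 := Mg_pos h
  refine Nat.pow_le_pow_right (by norm_num) ?_
  have h5 : Mg h ≤ Mg h ^ (2 * C + 1) := Nat.le_self_pow (by omega) _
  have h6 : 1 ≤ W h ^ (2 * C + 1) * Lg h ^ (2 * C + 1) := Nat.mul_pos (by positivity) (by positivity)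
  calc (2 * C + 1) * Mg h ≤ (2 * C + 1) * ((W h ^ (2 * C + 1) * Lg h ^ (2 * C + 1)) * Mg h ^ (2 * C + 1)) := by
        refine Nat.mul_le_mul_left _ ?_
        calc Mg h = 1 * Mg h := (one_mul _).symm
          _ ≤ _ := Nat.mul_le_mul h6 h5
    _ = _ := by ring

/-- **depth** and every other polynomial in `h` -/
theorem depth_tab (C : ℕ) : ∃ j₀ : ℕ, ∀ L : ℕ, 2 ^ j₀ ≤ L → C * (Nat.clog 2 L + 1) ^ C ≤ L :=
  polylog_ev C C

end Crest.Agent.R288.PgG8155
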