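import Crest.Agent.R288.PgG8b_155

/-!
# R288, leaf G8 in the `∀ᶠ h` form of `AsmN_12.exists_num` (helper155)

For every number of input words `L` with `clog 2 L = h` (`hh x y ε = h`):

* `ev_of_threshold` : conversion of any threshold statement
* `time_ev`         : `G * (AS^T * V^κ) ≤ fuc 2 0 r 3 L` (time and tape words)
* `size_ev'`        : `sub C h ≤ og 1 0 r 3 L`
* `depth_ev'`       : `C (h+1)^C ≤ L`
* `fuc_le_sq`       : `fuc c k r 3 L ≤ N ^ 2` for `L ≤ 4 N` (number of tape words in `topPLT`)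
* `og_le_sq`, `og_le`: `og c k r 3 L ≤ L`
-/

set_option autoImplicit false

namespace Crest.Agent.R288.PgG8155

open Filter Crest.Agent.R288.Asy720 Crest.Agent.R288.Pl726 Crest.Agent.R288.Shell12
open Crest.Agent.R288.Front327 Crest.Agent.R288.Par806

theorem ev_of_threshold {Q : ℕ → Prop} (h : ∃ j₀ : ℕ, ∀ L : ℕ, 2 ^ j₀ ≤ L → Q L) :
    ∀ᶠ h : ℕ in atTop, ∀ L : ℕ, Nat.clog 2 L = h → Q L := by
  obtain ⟨j₀, hj⟩ := h
  filter_upwards [eventually_ge_atTop (j₀ + 1)] with h h1 L hL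
  refine hj L ?_
  have h2 : 1 < L := by
    by_contra h3
    have : Nat.clog 2 L = 0 := Nat.clog_of_right_le_one (by omega) 2
    omega
  have h3 : 2 ^ (Nat.clog 2 L - 1) < L := Nat.pow_pred_clog_lt_self (by norm_num) h2
  exact (Nat.pow_le_pow_right (by norm_num) (by omega)).trans h3.le

/-- eventual properties of `L` -/
theorem ev_of_ev {Q : ℕ → Prop} (h : ∀ᶠ L : ℕ in atTop, Q L) :
    ∀ᶠ h : ℕ in atTop, ∀ L : ℕ, Nat.clog 2 L = h → Q L := by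
  obtain ⟨N, hN⟩ := eventually_atTop.1 h
  exact ev_of_threshold ⟨N, fun L hL => hN L ((Nat.lt_two_pow_self (n := N)).le.trans hL)⟩

/-- **time, tape words** -/
theorem time_ev (C a : ℕ) (ha : a ≤ 4) : ∃ c r : ℕ, ∀ᶠ h : ℕ in atTop, ∀ L : ℕ, Nat.clog 2 L = h →
    ∀ AS V T κ G : ℕ, AS ≤ 2 ^ nn h * pol C h → 1 ≤ V → V ≤ 2 ^ (C * W h ^ a * Lg h) →
      T ≤ II h + C → κ ≤ EE h * KK h + C → G ≤ sub C h →
      G * (AS ^ T * V ^ κ) ≤ fuc c 0 r 3 L := by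
  obtain ⟨c, r, h1⟩ := time_tab C a ha
  refine ⟨c, r, ?_⟩
  filter_upwards [ev_of_threshold h1] with h h2 L hL
  have h3 := h2 L hL
  rw [hL] at h3
  exact h3

/-- **sizes** -/
theorem size_ev' (C : ℕ) : ∃ r : ℕ, ∀ᶠ h : ℕ in atTop, ∀ L : ℕ, Nat.clog 2 L = h →
    sub C h ≤ og 1 0 r 3 L := by
  obtain ⟨r, h1⟩ := sub_le_og C
  refine ⟨r, ?_⟩
  filter_upwards [ev_of_threshold h1] with h h2 L hL
  have h3 := h2 L hL
  rw [hL] at h3
  exact h3

/-- **depth**, and everything polynomial in `h` -/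
theorem depth_ev' (C : ℕ) : ∀ᶠ h : ℕ in atTop, ∀ L : ℕ, Nat.clog 2 L = h →
    C * (h + 1) ^ C ≤ L := by
  filter_upwards [ev_of_threshold (polylog_ev C C)] with h h2 L hL
  have h3 := h2 L hL
  rw [hL] at h3
  exact h3

theorem og_le (c k r : ℕ) : ∀ᶠ h : ℕ in atTop, ∀ L : ℕ, Nat.clog 2 L = h → og c k r 3 L ≤ L :=
  ev_of_ev (ev_og (by norm_num) c k r)

/-- **the number of tape words is at most `N ^ 2`** -/
theorem fuc_le_sq (c k r : ℕ) : ∀ᶠ h : ℕ in atTop, ∀ L N : ℕ, Nat.clog 2 L = h → L ≤ 4 * N →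
    fuc c k r 3 L ≤ N ^ 2 := by
  filter_upwards [og_le (32 * c) k r, depth_ev' 1] with h h1 h2 L N hL hN
  have h3 := h1 L hL
  have h4 := h2 L hL
  have h5 : og (32 * c) k r 3 L = 32 * og c k r 3 L := by unfold og; ring
  rw [h5] at h3
  rw [fuc_eq]
  have h6 : 1 ≤ L := by
    have : 1 ≤ 1 * (h + 1) ^ 1 := by simp
    omega
  nlinarith [Nat.zero_le (og c k r 3 L)]

/-- sums and products of `fuc` with factors `L^{o(1)}` -/
theorem fuc_mul_sub (C c k r : ℕ) : ∃ c' k' r' : ℕ, ∀ᶠ h : ℕ in atTop, ∀ L : ℕ, Nat.clog 2 L = h →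
    sub C h * fuc c k r 3 L ≤ fuc c' k' r' 3 L := by
  obtain ⟨r1, h1⟩ := size_ev' C
  refine ⟨1 * c, 0 + k, r1 + r, ?_⟩
  filter_upwards [h1] with h h2 L hL
  rw [fuc_eq, fuc_eq]
  calc sub C h * ((L + 1) * og c k r 3 L) ≤ og 1 0 r1 3 L * ((L + 1) * og c k r 3 L) :=
        Nat.mul_le_mul_right _ (h2 L hL)
    _ = (L + 1) * (og 1 0 r1 3 L * og c k r 3 L) := by ring
    _ ≤ _ := Nat.mul_le_mul_left _ (og_mul _ _ _ _ _ _ _ _)

theorem fuc_mono {c k r c' k' r' : ℕ} (hc : c ≤ c') (hk : k ≤ k') (hr : r ≤ r') (j L : ℕ) :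
    fuc c k r j L ≤ fuc c' k' r' j L := by
  rw [fuc_eq, fuc_eq]
  exact Nat.mul_le_mul_left _ (og_mono hc hk hr j L)

theorem fuc_add (c k r c' k' r' j L : ℕ) :
    fuc c k r j L + fuc c' k' r' j L ≤ fuc (c + c') (k + k') (r + r') j L := by
  rw [fuc_eq, fuc_eq, fuc_eq, ← Nat.mul_add]
  exact Nat.mul_le_mul_left _ (og_add _ _ _ _ _ _ _ _)

end Crest.Agent.R288.PgG8155
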