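import Mathlib

/-!
# R288, leaf G7 of post 4727 (helper435): the cost recursion of ALG-U

Pure recursion in `ℕ`. Index of rank `k` of epoch `e` = `1 + e K + k`; `i` = macro height.

* `cA l i`, `cB l i` : cost of ARR, BODY of index `l` at macro height `i`;
* `cX l i` : cost of one number of index `l` at a state of macro height `i`;
* `cF e i` : cost of one value of the unit function of epoch `e`.

`CostRec` : one line per procedure. `CostRec.cF_le`, `cX_le`, `cA_le`, `cB_le` : closed forms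
`C (U+1)^e (1+Q)^(eK+k+1) g i`, `Q = G (a₀ + 2 A T + B) (I+1) + a₁`, for every growth function `g`
with `A S g i ≤ g (i+1)` (one factor `A S` per window, nothing of the other calls multiplies with the
windows).

`words_le`, `words_eq` : number of words drawn by one lane.
-/

set_option autoImplicit false

namespace Crest.Agent.R288.PgG435

open Finset

/-- the recursion, one line per procedure -/
structure CostRec (E K I A B S T G U a0 a1 : ℕ) (cA cB cX cF : ℕ → ℕ → ℕ) : Prop where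
  /-- ARR at macro height `0` -/
  A0 : ∀ e < E, ∀ k < K, cA (1 + e * K + k) 0 ≤ a0
  /-- ARR: `A` BODY tables and `B` unit values -/
  As : ∀ e < E, ∀ k < K, ∀ i < I,
    cA (1 + e * K + k) (i + 1) ≤ A * cB (1 + e * K + k) (i + 1) + B * (cF e (i + 1) + 1)
  /-- BODY: `S` ARR tables one macro height lower, `T` unit values and numbers of all lower ranks at
  the two macro heights -/
  Bs : ∀ e < E, ∀ k < K, ∀ i < I,
    cB (1 + e * K + k) (i + 1) ≤ S * cA (1 + e * K + k) i +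
      T * (cF e (i + 1) + cF e i +
        ∑ j ∈ range k, (cX (1 + e * K + j) (i + 1) + cX (1 + e * K + j) i) + 1)
  /-- a number: `G` lanes -/
  Xs : ∀ e < E, ∀ k < K, ∀ i ≤ I,
    cX (1 + e * K + k) i ≤ G * cA (1 + e * K + k) i + a1 * (cF e i + 1)
  /-- the unit function of the next epoch: `U` numbers of every rank -/
  Fs : ∀ e < E, ∀ i ≤ I,
    cF (e + 1) i ≤ U * (cF e i + ∑ j ∈ range K, cX (1 + e * K + j) i + 1)

/-- factor per rank -/
def QQ (I A B T G a0 a1 : ℕ) : ℕ := G * ((a0 + 2 * A * T + B) * (I + 1)) + a1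

/-- coefficient at the beginning of rank `k` of epoch `e` -/
def yy (C U Q K e k : ℕ) : ℕ := C * ((U + 1) ^ e * (1 + Q) ^ (e * K + k))

theorem yy_succ (C U Q K e k : ℕ) : yy C U Q K e (k + 1) = (1 + Q) * yy C U Q K e k := by
  unfold yy
  rw [← add_assoc, pow_succ]
  ring

theorem yy_epoch (C U Q K e : ℕ) : yy C U Q K (e + 1) 0 = (U + 1) * yy C U Q K e K := by
  unfold yy
  have : (e + 1) * K + 0 = e * K + K := by ring
  rw [this, pow_succ]
  ring

theorem yy_mono {C U Q K e k e' k' : ℕ} (he : e ≤ e') (hk : e * K + k ≤ e' * K + k') :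
    yy C U Q K e k ≤ yy C U Q K e' k' := by
  unfold yy
  gcongr
  · omega
  · omega

section rec

variable {E K I A B S T G U a0 a1 : ℕ} {cA cB cX cF : ℕ → ℕ → ℕ} {g : ℕ → ℕ} {C : ℕ}

/-- ARR from the lower costs at the same rank -/
theorem CostRec.arr (h : CostRec E K I A B S T G U a0 a1 cA cB cX cF)
    (hg : ∀ i < I, A * S * g i ≤ g (i + 1)) (hg1 : ∀ i ≤ I, 1 ≤ g i) (hgm : ∀ i < I, g i ≤ g (i + 1))
    {e k : ℕ} (he : e < E) (hk : k < K) {y : ℕ}
    (hy : ∀ i ≤ I, cF e i + ∑ j ∈ range k, cX (1 + e * K + j) i + 1 ≤ y * g i) :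
    ∀ i ≤ I, cA (1 + e * K + k) i ≤ (a0 + 2 * A * T + B) * y * ((i + 1) * g i) := by
  have hy1 : 1 ≤ y := by
    have := hy 0 (Nat.zero_le _)
    rcases Nat.eq_zero_or_pos y with h0 | h0
    · rw [h0, zero_mul] at this; omega
    · exact h0
  intro i
  induction i with
  | zero =>
    intro _
    have h1 := h.A0 e he k hk
    have h2 := hg1 0 (Nat.zero_le _)
    calc cA (1 + e * K + k) 0 ≤ a0 := h1
      _ = a0 * 1 * (1 * 1) := by ring
      _ ≤ (a0 + 2 * A * T + B) * y * ((0 + 1) * g 0) := by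
        gcongr
        omega
  | succ i ih =>
    intro hi
    have hi' : i < I := hi
    have h1 := h.As e he k hk i hi'
    have h2 := h.Bs e he k hk i hi'
    have h3 := ih hi'.le
    have h4 := hy (i + 1) hi
    have h5 := hy i hi'.le
    have h6 : y * g i ≤ y * g (i + 1) := Nat.mul_le_mul_left _ (hgm i hi')
    have h7 : cF e (i + 1) + cF e i +
        ∑ j ∈ range k, (cX (1 + e * K + j) (i + 1) + cX (1 + e * K + j) i) + 1 ≤
        2 * (y * g (i + 1)) := by
      rw [sum_add_distrib]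
      omega
    have h8 : cF e (i + 1) + 1 ≤ y * g (i + 1) := by omega
    set a := a0 + 2 * A * T + B with ha
    have h9 : A * (S * cA (1 + e * K + k) i) ≤ a * y * ((i + 1) * g (i + 1)) := by
      calc A * (S * cA (1 + e * K + k) i) ≤ A * (S * (a * y * ((i + 1) * g i))) := by gcongr
        _ = a * y * ((i + 1) * (A * S * g i)) := by ring
        _ ≤ a * y * ((i + 1) * g (i + 1)) := by
          gcongr
          exact hg i hi'
    calc cA (1 + e * K + k) (i + 1)
        ≤ A * cB (1 + e * K + k) (i + 1) + B * (cF e (i + 1) + 1) := h1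
      _ ≤ A * (S * cA (1 + e * K + k) i + T * (2 * (y * g (i + 1)))) + B * (y * g (i + 1)) := by
        gcongr
        exact h2.trans (by gcongr)
      _ = A * (S * cA (1 + e * K + k) i) + (2 * A * T + B) * (y * g (i + 1)) := by ring
      _ ≤ a * y * ((i + 1) * g (i + 1)) + a * (y * g (i + 1)) := by
        gcongr
        omega
      _ = a * y * ((i + 1 + 1) * g (i + 1)) := by ring

/-- a number from the lower costs at the same rank -/
theorem CostRec.num (h : CostRec E K I A B S T G U a0 a1 cA cB cX cF)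
    (hg : ∀ i < I, A * S * g i ≤ g (i + 1)) (hg1 : ∀ i ≤ I, 1 ≤ g i) (hgm : ∀ i < I, g i ≤ g (i + 1))
    {e k : ℕ} (he : e < E) (hk : k < K) {y : ℕ}
    (hy : ∀ i ≤ I, cF e i + ∑ j ∈ range k, cX (1 + e * K + j) i + 1 ≤ y * g i) :
    ∀ i ≤ I, cX (1 + e * K + k) i ≤ QQ I A B T G a0 a1 * (y * g i) := by
  intro i hi
  have h1 := h.arr hg hg1 hgm he hk hy i hi
  have h2 := h.Xs e he k hk i hi
  have h3 := hy i hi
  have h4 : cF e i + 1 ≤ y * g i := by omega
  calc cX (1 + e * K + k) i ≤ G * cA (1 + e * K + k) i + a1 * (cF e i + 1) := h2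
    _ ≤ G * ((a0 + 2 * A * T + B) * y * ((I + 1) * g i)) + a1 * (y * g i) := by
      gcongr
      exact h1.trans (by gcongr)
    _ = QQ I A B T G a0 a1 * (y * g i) := by unfold QQ; ring

/-- all lower costs of a rank together -/
theorem CostRec.lower (h : CostRec E K I A B S T G U a0 a1 cA cB cX cF)
    (hg : ∀ i < I, A * S * g i ≤ g (i + 1)) (hg1 : ∀ i ≤ I, 1 ≤ g i) (hgm : ∀ i < I, g i ≤ g (i + 1))
    (h0 : ∀ i ≤ I, cF 0 i + 1 ≤ C * g i) :
    ∀ e ≤ E, (∀ i ≤ I, cF e i + 1 ≤ yy C U (QQ I A B T G a0 a1) K e 0 * g i) ∧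
      (e < E → ∀ k ≤ K, ∀ i ≤ I, cF e i + ∑ j ∈ range k, cX (1 + e * K + j) i + 1 ≤
        yy C U (QQ I A B T G a0 a1) K e k * g i) := by
  set Q := QQ I A B T G a0 a1 with hQ
  have key : ∀ e < E, (∀ i ≤ I, cF e i + 1 ≤ yy C U Q K e 0 * g i) →
      ∀ k ≤ K, ∀ i ≤ I, cF e i + ∑ j ∈ range k, cX (1 + e * K + j) i + 1 ≤
        yy C U Q K e k * g i := by
    intro e he hF k
    induction k with
    | zero =>
      intro _ i hi
      simpa using hF i hi
    | succ k ih =>
      intro hk i hi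
      have h1 := ih (by omega)
      have h2 := h.num hg hg1 hgm he (show k < K by omega) h1 i hi
      have h3 := h1 i hi
      rw [sum_range_succ, yy_succ]
      calc cF e i + (∑ j ∈ range k, cX (1 + e * K + j) i + cX (1 + e * K + k) i) + 1
          = (cF e i + ∑ j ∈ range k, cX (1 + e * K + j) i + 1) + cX (1 + e * K + k) i := by ring
        _ ≤ yy C U Q K e k * g i + Q * (yy C U Q K e k * g i) := Nat.add_le_add h3 h2
        _ = (1 + Q) * yy C U Q K e k * g i := by ring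
  intro e
  induction e with
  | zero =>
    intro _
    have h1 : ∀ i ≤ I, cF 0 i + 1 ≤ yy C U Q K 0 0 * g i := by
      intro i hi
      simpa [yy] using h0 i hi
    exact ⟨h1, fun he => key 0 he h1⟩
  | succ e ih =>
    intro he
    obtain ⟨_, h2⟩ := ih (by omega)
    have h3 := h2 (by omega) K le_rfl
    have h1 : ∀ i ≤ I, cF (e + 1) i + 1 ≤ yy C U Q K (e + 1) 0 * g i := by
      intro i hi
      have h4 := h.Fs e (by omega) i hi
      have h5 := h3 i hi
      rw [yy_epoch]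
      have h6 : 1 ≤ yy C U Q K e K * g i := by omega
      calc cF (e + 1) i + 1
          ≤ U * (yy C U Q K e K * g i) + yy C U Q K e K * g i :=
            Nat.add_le_add (h4.trans (by gcongr)) h6
        _ = (U + 1) * yy C U Q K e K * g i := by ring
    exact ⟨h1, fun he' => key (e + 1) he' h1⟩

/-- **unit values** -/
theorem CostRec.cF_le (h : CostRec E K I A B S T G U a0 a1 cA cB cX cF)
    (hg : ∀ i < I, A * S * g i ≤ g (i + 1)) (hg1 : ∀ i ≤ I, 1 ≤ g i) (hgm : ∀ i < I, g i ≤ g (i + 1))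
    (h0 : ∀ i ≤ I, cF 0 i + 1 ≤ C * g i) {e i : ℕ} (he : e ≤ E) (hi : i ≤ I) :
    cF e i + 1 ≤ C * ((U + 1) ^ e * (1 + QQ I A B T G a0 a1) ^ (e * K)) * g i := by
  simpa [yy] using (h.lower hg hg1 hgm h0 e he).1 i hi

/-- **numbers** -/
theorem CostRec.cX_le (h : CostRec E K I A B S T G U a0 a1 cA cB cX cF)
    (hg : ∀ i < I, A * S * g i ≤ g (i + 1)) (hg1 : ∀ i ≤ I, 1 ≤ g i) (hgm : ∀ i < I, g i ≤ g (i + 1))
    (h0 : ∀ i ≤ I, cF 0 i + 1 ≤ C * g i) {e k i : ℕ} (he : e < E) (hk : k < K) (hi : i ≤ I) :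
    cX (1 + e * K + k) i ≤
      C * ((U + 1) ^ e * (1 + QQ I A B T G a0 a1) ^ (e * K + k + 1)) * g i := by
  have h1 := (h.lower hg hg1 hgm h0 e he.le).2 he k hk.le
  have h2 := h.num hg hg1 hgm he hk h1 i hi
  refine h2.trans ?_
  have h3 : C * ((U + 1) ^ e * (1 + QQ I A B T G a0 a1) ^ (e * K + k + 1)) =
      yy C U (QQ I A B T G a0 a1) K e (k + 1) := rfl
  rw [h3, yy_succ, ← mul_assoc]
  gcongr
  omega

/-- **arrival tables** -/
theorem CostRec.cA_le (h : CostRec E K I A B S T G U a0 a1 cA cB cX cF)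
    (hg : ∀ i < I, A * S * g i ≤ g (i + 1)) (hg1 : ∀ i ≤ I, 1 ≤ g i) (hgm : ∀ i < I, g i ≤ g (i + 1))
    (h0 : ∀ i ≤ I, cF 0 i + 1 ≤ C * g i) {e k i : ℕ} (he : e < E) (hk : k < K) (hi : i ≤ I) :
    cA (1 + e * K + k) i ≤ (a0 + 2 * A * T + B) * (I + 1) *
      (C * ((U + 1) ^ e * (1 + QQ I A B T G a0 a1) ^ (e * K + k)) * g i) := by
  have h1 := (h.lower hg hg1 hgm h0 e he.le).2 he k hk.le
  refine (h.arr hg hg1 hgm he hk h1 i hi).trans ?_
  calc (a0 + 2 * A * T + B) * yy C U (QQ I A B T G a0 a1) K e k * ((i + 1) * g i)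
      ≤ (a0 + 2 * A * T + B) * yy C U (QQ I A B T G a0 a1) K e k * ((I + 1) * g i) := by gcongr
    _ = _ := by unfold yy; ring

/-- **body tables** -/
theorem CostRec.cB_le (h : CostRec E K I A B S T G U a0 a1 cA cB cX cF)
    (hg : ∀ i < I, A * S * g i ≤ g (i + 1)) (hg1 : ∀ i ≤ I, 1 ≤ g i) (hgm : ∀ i < I, g i ≤ g (i + 1))
    (h0 : ∀ i ≤ I, cF 0 i + 1 ≤ C * g i) {e k i : ℕ} (he : e < E) (hk : k < K) (hi : i < I) :
    cB (1 + e * K + k) (i + 1) ≤ (S * (a0 + 2 * A * T + B) * (I + 1) + 2 * T) *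
      (C * ((U + 1) ^ e * (1 + QQ I A B T G a0 a1) ^ (e * K + k)) * g (i + 1)) := by
  have h1 := (h.lower hg hg1 hgm h0 e he.le).2 he k hk.le
  have h2 := h.cA_le hg hg1 hgm h0 he hk hi.le
  have h3 := h.Bs e he k hk i hi
  have h4 := h1 (i + 1) hi
  have h5 := h1 i hi.le
  have h6 := hgm i hi
  rw [sum_add_distrib] at h3
  have h8 : C * ((U + 1) ^ e * (1 + QQ I A B T G a0 a1) ^ (e * K + k)) =
      yy C U (QQ I A B T G a0 a1) K e k := rfl
  rw [h8] at h2 ⊢
  set Y := yy C U (QQ I A B T G a0 a1) K e k with hY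
  have h7 : Y * g i ≤ Y * g (i + 1) := Nat.mul_le_mul_left _ h6
  have h9 : cF e (i + 1) + cF e i + (∑ j ∈ range k, cX (1 + e * K + j) (i + 1) +
      ∑ j ∈ range k, cX (1 + e * K + j) i) + 1 ≤ 2 * (Y * g (i + 1)) := by omega
  calc cB (1 + e * K + k) (i + 1)
      ≤ S * ((a0 + 2 * A * T + B) * (I + 1) * (Y * g (i + 1))) + T * (2 * (Y * g (i + 1))) := by
        refine h3.trans ?_
        gcongr
        exact h2.trans (by gcongr)
    _ = (S * (a0 + 2 * A * T + B) * (I + 1) + 2 * T) * (Y * g (i + 1)) := by ring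

/-- everything at one blow: with `Z` above all constants -/
theorem CostRec.all_le (h : CostRec E K I A B S T G U a0 a1 cA cB cX cF)
    (hg : ∀ i < I, A * S * g i ≤ g (i + 1)) (hg1 : ∀ i ≤ I, 1 ≤ g i) (hgm : ∀ i < I, g i ≤ g (i + 1))
    (h0 : ∀ i ≤ I, cF 0 i + 1 ≤ C * g i) {Z : ℕ}
    (hZ : 1 + QQ I A B T G a0 a1 ≤ Z) (hU : U + 1 ≤ Z) :
    (∀ e ≤ E, ∀ i ≤ I, cF e i ≤ C * Z ^ (e * K + e) * g i) ∧
      ∀ e < E, ∀ k < K, ∀ i ≤ I, cX (1 + e * K + k) i ≤ C * Z ^ (e * K + k + 1 + e) * g i := by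
  have hp : ∀ e m : ℕ, (U + 1) ^ e * (1 + QQ I A B T G a0 a1) ^ m ≤ Z ^ (m + e) := by
    intro e m
    calc (U + 1) ^ e * (1 + QQ I A B T G a0 a1) ^ m ≤ Z ^ e * Z ^ m := by gcongr
      _ = Z ^ (m + e) := by rw [← pow_add, Nat.add_comm]
  refine ⟨fun e he i hi => ?_, fun e he k hk i hi => ?_⟩
  · have h1 := h.cF_le hg hg1 hgm h0 he hi
    calc cF e i ≤ C * ((U + 1) ^ e * (1 + QQ I A B T G a0 a1) ^ (e * K)) * g i := by omega
      _ ≤ C * Z ^ (e * K + e) * g i := by
        gcongr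
        exact hp _ _
  · refine (h.cX_le hg hg1 hgm h0 he hk hi).trans ?_
    gcongr
    exact hp _ _

end rec

/-! ### words of one lane (no lower calls: tapes) -/

/-- words drawn by ARR, `r` residue words per BODY, `nB` requests of BODY, `nA` of ARR -/
def wA (nA nB r : ℕ) : ℕ → ℕ
  | 0 => 0
  | i + 1 => nA * (r + nB * wA nA nB r i)

theorem wA_mono (nA nB r : ℕ) : Monotone (wA nA nB r) := by
  have h : ∀ i, wA nA nB r i ≤ wA nA nB r (i + 1) := by
    intro i
    induction i with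
    | zero => exact Nat.zero_le _
    | succ i ih =>
      change nA * (r + nB * wA nA nB r i) ≤ nA * (r + nB * wA nA nB r (i + 1))
      gcongr
  exact monotone_nat_of_le_succ h

/-- **closed form of the number of words** -/
theorem wA_le {nA nB : ℕ} (h : 1 ≤ nA * nB) (r : ℕ) (i : ℕ) :
    wA nA nB r i ≤ nA * r * (i * (nA * nB) ^ i) := by
  induction i with
  | zero => simp [wA]
  | succ i ih =>
    have h1 : 1 ≤ (nA * nB) ^ (i + 1) := Nat.one_le_pow _ _ h
    calc wA nA nB r (i + 1) = nA * r + nA * nB * wA nA nB r i := by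
          change nA * (r + nB * wA nA nB r i) = _
          ring
      _ ≤ nA * r * (nA * nB) ^ (i + 1) + nA * nB * (nA * r * (i * (nA * nB) ^ i)) :=
        Nat.add_le_add (Nat.le_mul_of_pos_right _ h1) (Nat.mul_le_mul_left _ ih)
      _ = nA * r * ((i + 1) * (nA * nB) ^ (i + 1)) := by rw [pow_succ]; ring

/-- the same by a growth function: `nA nB g i ≤ g (i+1)` -/
theorem wA_le_growth {nA nB r I : ℕ} {g : ℕ → ℕ} (hg : ∀ i < I, nA * nB * g i ≤ g (i + 1))
    (hg1 : ∀ i ≤ I, 1 ≤ g i) : ∀ i ≤ I, wA nA nB r i ≤ nA * r * (i * g i) := by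
  intro i
  induction i with
  | zero => intro _; simp [wA]
  | succ i ih =>
    intro hi
    have h1 := ih (by omega)
    have h2 := hg i (by omega)
    have h3 := hg1 (i + 1) hi
    calc wA nA nB r (i + 1) = nA * r * 1 + nA * nB * wA nA nB r i := by
          change nA * (r + nB * wA nA nB r i) = _
          ring
      _ ≤ nA * r * g (i + 1) + nA * nB * (nA * r * (i * g i)) := by gcongr
      _ = nA * r * g (i + 1) + nA * r * (i * (nA * nB * g i)) := by ring
      _ ≤ nA * r * g (i + 1) + nA * r * (i * g (i + 1)) := by gcongr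
      _ = nA * r * ((i + 1) * g (i + 1)) := by ring

end Crest.Agent.R288.PgG435
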