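import Crest.Agent.R288.PgI_726
import Crest.Agent.R288.PgG_380
import Crest.Agent.R288.PgXc_583
import Crest.Agent.R288.ArrH_222
import Crest.Agent.R288.PgBr_72
import Crest.Agent.R288.PgZ_692
import Crest.Agent.R288.PgZd_692
import Crest.Agent.R288.CpU_776
import Crest.Agent.R288.PgL_172
import Crest.Agent.R288.AsmC_331

/-!
# R288, [PROG] P11: the mutual induction from `Pgc578.Hyp` (helper763)

Costs and fuels of `cpOf` (776): `cp := cpOf c.P Zc t0 lfc I b0`, `HC` = the numbers of `cp`.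

* `hf_cz'`, `x_h`, `f0_h`, `fs_h` : the procedures X and F under `Hyp`;
* `fam`, **`dep`** : 726's family and all its fields; **`allX`, `allF`**;
* **`root_cz`** : the unit function of the last epoch at the root.
-/

set_option autoImplicit false

namespace Crest.Agent.R288.PgH763

open Crest.Agent.R295.Rnd627 Crest.Agent.R288.Alg45 Crest.Agent.R288.PgX583
open Crest.Agent.R288.Delta222 Crest.Agent.R288.PgA172 Crest.Agent.R288.Pgb578
open Crest.Agent.R288.Pgc578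
open Crest.Agent.R288.PgY583 (arS arC qU qX qF qA qB phG phG_zero phG_one phG_two)
open Crest.Agent.R288.PgZ692 (ZP)
open Crest.Agent.R288.PgF380 (uP wd_single hkeys_sum_le mem_hkeys hkeys_ij mem_rks
  list_sum_range)
open Crest.Agent.R288.CpU776 (cpOf)
open Crest.Agent.R288.PrK690 (KN wrapQ)
open Crest.Agent.R288.Phe940 (Prg Wld Rz Rq Rqs)
open Crest.Agent.R288.Pg7776 (CP)
open Crest.Agent.R288.Delta72 (nwd bkeysOf xkeys bcel)

variable {c : Cx} {D : Txt} {G : Prg} {W : Wld} {K : KN} {Z lfc : ℕ} {Zc t0 b0 p I : ℕ}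

local notation "cc" => cpOf c.P Zc t0 lfc I b0

/-- the numbers of the cost functions -/
structure HC (P : Par) (Zc t0 p : ℕ) : Prop where
  zc : ZP P ≤ Zc
  u : uP P + 1 ≤ Zc
  t : 5 ≤ t0
  p : 3 ≤ p

/-! ### indices -/

theorem ep_idx {P : Par} {e k : ℕ} (hk : k < P.K) : ep P (idx P e k) = e := Asm331.epo_idx hk

theorem rk_idx {P : Par} {e k : ℕ} (hk : k < P.K) : rk P (idx P e k) = k := Asm331.rnk_idx hk

theorem idx_pos {P : Par} {e k : ℕ} : 0 < idx P e k := by unfold idx; omega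

theorem idx_EK {e k : ℕ} (he : e < c.P.E) (hk : k < c.P.K) : idx c.P e k ≤ c.EK :=
  Nat.lt_succ_iff.1 (Asm331.idx_lt he hk)

theorem lt_of_idx {P : Par} {e k : ℕ} (h : 1 + e * P.K + k < P.E * P.K + 1) : e < P.E := by
  have h1 : e * P.K < P.E * P.K := by omega
  exact Nat.lt_of_mul_lt_mul_right h1

theorem csts_i {P : Par} {d : Cel} {y : St} (h : y ∈ csts P d) : y.i = d.i := by
  obtain ⟨t, -, rfl⟩ := List.mem_map.1 h
  rfl

/-! ### `val` and `nxt` of `map` -/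

theorem val_map {α β : Type} (t : RT α) (f : α → β) (N : ℕ) (z : ℕ → ℕ) (q : ℕ) :
    (t.map f).val N z q = f (t.val N z q) := by
  unfold RT.map RT.val
  rw [RT.run_bind]
  rfl

theorem nxt_map {α β : Type} (t : RT α) (f : α → β) (N : ℕ) (z : ℕ → ℕ) (q : ℕ) :
    (t.map f).nxt N z q = t.nxt N z q := by
  unfold RT.map RT.nxt
  rw [RT.run_bind]
  rfl

/-! ### the common scheme of F -/

/-- 380's `hf_cz` with the number of the keys -/
theorem hf_cz' {ph : Ph} {tg n : ℕ} {P : Par} {a : Pgb578.Ar} (hG : Has G K ph tg)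
    (hE : Env W K Z) {q0 : List ℕ} {ls : List ℕ} {y : St}
    (hph : ∀ sv, ph K tg a sv = phG P q0 ls y sv) (ha : ArOk W.M tg a)
    {X : ℕ → ℕ × St → ℕ} {v C0 : ℕ} {f : ℕ → ℕ}
    (hq0 : Wd W.M Z q0)
    (h0 : Rq G W (n + 2) (wrapQ K q0) (.ret [v]) C0)
    (hv : v < W.M)
    (hX : ∀ k ∈ hkeys P v y ls, Rq G W (n + 1) (wrapQ K (qX k.1 k.2.1 k.2.2))
      (.ret [X k.1 k.2]) (f k.1))
    (hXv : ∀ k ∈ hkeys P v y ls, X k.1 k.2 < W.M)
    (hq : ∀ k ∈ hkeys P v y ls, Wd W.M Z (qX k.1 k.2.1 k.2.2))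
    (hlen : (hkeys P v y ls).length ≤ Z)
    (hr : hfin P v y ls ((hkeys P v y ls).map fun k => X k.1 k.2) < W.M) :
    Cz G W K tg (n + 3) a []
      (.ret [hfin P v y ls ((hkeys P v y ls).map fun k => X k.1 k.2)])
      (4 + (C0 + 1) + uP P * (ls.map fun l => f l + 1).sum) := by
  have hZ8 := hE.Z8
  have s2 : Cz G W K tg (n + 1) a ([[[v]], (hkeys P v y ls).map fun k => [X k.1 k.2]] : Pgb578.Svd)
      (.ret [hfin P v y ls ((hkeys P v y ls).map fun k => X k.1 k.2)]) 0 := by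
    refine Cz.stop hG hE ?_ (wd_single (by omega) hr)
    rw [hph, phG_two, List.map_map]
    rfl
  have hA : Rqs G W (n + 1)
      (((hkeys P v y ls).map fun k => qX k.1 k.2.1 k.2.2).map (wrapQ K))
      (.ret ((hkeys P v y ls).map fun k => [X k.1 k.2]))
      ((hkeys P v y ls).map fun k => f k.1 + 1).sum := by
    rw [List.map_map]
    exact Rqs.map_ret (hkeys P v y ls) _ (fun k => [X k.1 k.2]) (fun k => f k.1) hX
  have s1 := Cz.step_ret (a := a) (sv := ([[[v]]] : Pgb578.Svd)) hG hE (by rw [hph, phG_one]) hA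
    (by rw [List.length_map]; exact hlen)
    (fun q hq' => by
      obtain ⟨k, hk, rfl⟩ := List.mem_map.1 hq'
      exact hq k hk) ha
    (SvOk.nil.snoc (us := [[v]]) (by simp) (by simp; omega) (fun u hu => by
      rw [List.mem_singleton] at hu
      exact hu ▸ wd_single (by omega) hv))
    (by rw [List.length_map]; exact hlen)
    (fun u hu => by
      obtain ⟨k, hk, rfl⟩ := List.mem_map.1 hu
      exact wd_single (by omega) (hXv k hk)) s2
  have hA0 : Rqs G W (n + 2) ([q0].map (wrapQ K)) (.ret [[v]]) (C0 + 0 + 1) := by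
    rw [List.map_cons, List.map_nil]
    exact Rqs.cons_ret h0 Rqs.nil
  have s0 := Cz.step_ret (a := a) (sv := ([] : Pgb578.Svd)) hG hE (by rw [hph, phG_zero]) hA0
    (by simp; omega)
    (fun q hq' => by
      rw [List.mem_singleton] at hq'
      exact hq' ▸ hq0) ha SvOk.nil (by simp; omega)
    (fun u hu => by
      rw [List.mem_singleton] at hu
      exact hu ▸ wd_single (by omega) hv) s1
  refine s0.mono le_rfl ?_
  have h3 : ((hkeys P v y ls).map fun k => f k.1 + 1).sum ≤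
      uP P * (ls.map fun l => f l + 1).sum := hkeys_sum_le v y ls fun l => f l + 1
  omega

/-! ### X and F under `Hyp` -/

section steps

variable (H : Hyp c D G W K Z lfc)

include H

theorem wd_qX {l κ : ℕ} {z : St} (hl : l ≤ c.EK) (hp : c.DP κ z) : Wd W.M Z (qX l κ z) := by
  unfold qX
  split_ifs with h0
  · exact cal_wd (tg := 2) H.env H.Z12 (kd := 5) le_rfl (H.wU z (H.P_S κ z hp))
  · exact cal_wd (tg := 3) H.env H.Z12 (kd := 5) le_rfl (H.wX l hl κ z hp)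

theorem wd_qF {e : ℕ} {y : St} (he : e ≤ c.P.E) (hy : c.DS y) : Wd W.M Z (qF e y) :=
  cal_wd (tg := 4) H.env H.Z12 (kd := 5) le_rfl (H.wF e he y hy)

theorem rq_F {n e C : ℕ} {y : St} (h : Cz G W K 4 n (arS e 0 y) [] (.ret [c.F e y]) C) :
    Rq G W n (wrapQ K (qF e y)) (.ret [c.F e y]) C := cal5_ret h (H.bF e y)

/-- **X** -/
theorem x_h {l n CF CA κ : ℕ} {z : St} (h0 : 0 < l) (hl : l ≤ c.EK) (hz : c.DP κ z)
    (hF : Cz G W K 4 (n + 2) (arS (ep c.P l) 0 z) [] (.ret [c.Fl l z]) CF)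
    (hA : c.DA (celOf κ z) →
      Cz G W K 5 (n + 1) (arC l (celOf κ z)) [] (c.tA l (celOf κ z)) CA)
    (hall : (c.tX l κ z).All W.N fun v => v < W.M) :
    Rq G W (n + 3) (wrapQ K (qX l κ z)) (.ret [c.X l (κ, z)])
      (CF + c.P.gX * c.P.mX * (CA + 1) + 5) := by
  have hS := H.P_S κ z hz
  have he : ep c.P l ≤ c.P.E := Delta72.ep_le H.Kpos hl
  have hadm : ¬ admV c.P (c.Fl l z) κ z = false → c.DA (celOf κ z) := fun h =>
    H.P_A l h0 hl κ z hz (by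
      rw [adm_eq]
      simpa using h)
  have h1 := x_cz (P := c.P) (G := G) (W := W) (K := K) (Z := Z) (ph := phAll D) H.gX H.env H.Z12
    H.N (n := n) (leaf := c.leaf) (F := c.Fl l) (X := c.Xl l) (k := rk c.P l) (l := l) (κ := κ)
    (z := z) (CF := CF) (CA := CA)
    (fun sv => by rw [phAll_X D K (H.P_b κ z hz), H.dP])
    hF (H.bF _ _) (fun h => hA (hadm h))
    (fun h => H.vA l h0 hl _ (hadm h)) (H.vF _ he z hS) (H.wX l hl κ z hz) (H.wF _ he z hS)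
    (fun h => H.wA l hl _ (hadm h)) H.zX hall
  have hb : G.base (fr K 3 (arS l κ z) []) = c.o l := H.bX l κ z
  have h2 : ((numPair c.P c.leaf (c.Fl l) (c.Xl l) (rk c.P l) κ z).map fun v => [v]).nxt W.N W.Z
      (G.base (fr K 3 (arS l κ z) [])) ≤ W.Pm := by
    rw [nxt_map, hb]
    exact H.X_nxt l h0 hl κ z hz
  have h3 := cal5 h1 h2
  have h4 : ((numPair c.P c.leaf (c.Fl l) (c.Xl l) (rk c.P l) κ z).map fun v => [v]).val W.N W.Z
      (G.base (fr K 3 (arS l κ z) [])) = [c.X l (κ, z)] := by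
    rw [val_map, hb, H.X_eq l h0 hl κ z hz]
    rfl
  rw [h4] at h3
  rw [qX_eq (by omega)]
  exact h3

/-- keys of the hull of epoch `0` -/
theorem keys0 {y : St} (hy : c.DS y) {k : ℕ × ℕ × St}
    (hk : k ∈ hkeys c.P (c.X 0 (0, y)) y [0]) :
    k.1 = 0 ∧ k.2.1 = 0 ∧ c.DP k.2.1 k.2.2 ∧ k.2.2.i = y.i := by
  obtain ⟨h2, q, hq, h3⟩ := mem_hkeys.1 hk
  rw [List.mem_singleton] at h2
  have h4 : k.2 = (0, q.2) := by rw [h3, h2]; rfl
  have h5 : c.DS q.2 := H.S_h0 y hy q hq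
  refine ⟨h2, by rw [h4], ?_, (hkeys_ij hk).1⟩
  rw [h4]
  exact H.S_0 _ h5

/-- keys of the hull of the later epochs -/
theorem keysS {e : ℕ} (he : e < c.P.E) {y : St} (hy : c.DS y) {k : ℕ × ℕ × St}
    (hk : k ∈ hkeys c.P (c.F e y) y (rks c.P e)) :
    (∃ j < c.P.K, k.1 = 1 + e * c.P.K + j) ∧ c.DP k.2.1 k.2.2 ∧ k.2.2.i = y.i ∧ k.1 ≤ c.EK := by
  obtain ⟨h2, q, hq, h3⟩ := mem_hkeys.1 hk
  obtain ⟨j, hj, h4⟩ := mem_rks.1 h2
  have h5 : k.2 = q := by
    rw [h3]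
    unfold harg
    rw [if_neg (by omega)]
  have h6 : c.DP q.1 q.2 := H.S_h e he.le y hy q hq
  refine ⟨⟨j, hj, h4⟩, by rw [h5]; exact h6, (hkeys_ij hk).1, ?_⟩
  rw [h4]
  exact idx_EK he hj

/-- **F, epoch `0`** -/
theorem f0_h {n C0 C : ℕ} {y : St} (hy : c.DS y)
    (h0 : Rq G W (n + 2) (wrapQ K (qX 0 0 y)) (.ret [c.X 0 (0, y)]) C0)
    (hX : ∀ z, c.DP 0 z → z.i = y.i →
      Rq G W (n + 1) (wrapQ K (qX 0 0 z)) (.ret [c.X 0 (0, z)]) C) :
    Cz G W K 4 (n + 3) (arS 0 0 y) [] (.ret [c.F 0 y]) (4 + (C0 + 1) + uP c.P * (C + 1)) := by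
  have hv : c.X 0 (0, y) < W.M := H.vX 0 (Nat.zero_le _) 0 y (H.S_0 y hy)
  have h := hf_cz' (ls := [0]) (y := y) (X := c.X) (v := c.X 0 (0, y)) (f := fun _ => C)
    (a := arS 0 0 y) (q0 := qX 0 0 y) H.gF H.env
    (fun sv => by rw [phAll_F D K, H.dP]; rfl)
    (H.wF 0 (Nat.zero_le _) y hy) (wd_qX H (Nat.zero_le _) (H.S_0 y hy)) h0 hv
    (fun k hk => by
      obtain ⟨e1, e2, h3, h4⟩ := keys0 H hy hk
      obtain ⟨k1, k2, k3⟩ := k
      simp only at e1 e2 h3 h4 ⊢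
      subst e1 e2
      exact hX k3 h3 h4)
    (fun k hk => by
      obtain ⟨e1, -, h3, -⟩ := keys0 H hy hk
      rw [e1]
      exact H.vX 0 (Nat.zero_le _) _ _ h3)
    (fun k hk => by
      obtain ⟨e1, -, h3, -⟩ := keys0 H hy hk
      rw [e1]
      exact wd_qX H (Nat.zero_le _) h3)
    (H.z0 y hy)
    (by rw [← FE_zero_eq]; exact H.vF 0 (Nat.zero_le _) y hy)
  rw [← FE_zero_eq] at h
  have e2 : ([0].map fun _ => C + 1).sum = C + 1 := by simp
  rw [e2] at h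
  exact h

/-- **F, epoch `e + 1`** -/
theorem fs_h {n C0 e : ℕ} {f : ℕ → ℕ} (he : e < c.P.E) {y : St} (hy : c.DS y)
    (h0 : Rq G W (n + 2) (wrapQ K (qF e y)) (.ret [c.F e y]) C0)
    (hX : ∀ j < c.P.K, ∀ κ z, c.DP κ z → z.i = y.i →
      Rq G W (n + 1) (wrapQ K (qX (1 + e * c.P.K + j) κ z)) (.ret [c.X (1 + e * c.P.K + j) (κ, z)])
        (f (1 + e * c.P.K + j))) :
    Cz G W K 4 (n + 3) (arS (e + 1) 0 y) [] (.ret [c.F (e + 1) y])
      (4 + (C0 + 1) + uP c.P * ∑ j ∈ Finset.range c.P.K, (f (1 + e * c.P.K + j) + 1)) := by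
  have h := hf_cz' (ls := rks c.P e) (y := y) (X := c.X) (v := c.F e y) (f := f)
    (a := arS (e + 1) 0 y) (q0 := qF e y) H.gF H.env
    (fun sv => by rw [phAll_F D K, H.dP]; rfl)
    (H.wF (e + 1) he y hy) (wd_qF H he.le hy) h0 (H.vF e he.le y hy)
    (fun k hk => by
      obtain ⟨⟨j, hj, e1⟩, h3, h4, -⟩ := keysS H he hy hk
      rw [e1]
      exact hX j hj k.2.1 k.2.2 h3 h4)
    (fun k hk => by
      obtain ⟨-, h3, -, h4⟩ := keysS H he hy hk
      exact H.vX _ h4 _ _ h3)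
    (fun k hk => by
      obtain ⟨-, h3, -, h4⟩ := keysS H he hy hk
      exact wd_qX H h4 h3)
    (H.zF e he y hy)
    (by
      have := H.vF (e + 1) he y hy
      unfold Cx.F at this ⊢
      rw [← FE_succ_eq]
      exact this)
  have e2 : ((rks c.P e).map fun l => f l + 1).sum =
      ∑ j ∈ Finset.range c.P.K, (f (1 + e * c.P.K + j) + 1) := by
    unfold rks
    rw [List.map_map, ← list_sum_range]
    rfl
  rw [e2] at h
  unfold Cx.F at h ⊢
  rw [← FE_succ_eq] at h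
  exact h

end steps

/-! ### 726's family -/

/-- the claims of all procedures of one run (`I` = bound of the macro heights) -/
def fam (c : Cx) (G : Prg) (W : Wld) (K : KN) (cp : CP) (p I : ℕ) : PgI726.Fam where
  X := fun l κ z => Rq G W (cp.dX p l) (wrapQ K (qX l κ z)) (.ret [c.X l (κ, z)]) (cp.cX l z.i)
  F := fun e y => Cz G W K 4 (cp.dF p e) (arS e 0 y) [] (.ret [c.F e y]) (cp.cF e y.i)
  A := fun l d => Cz G W K 5 (cp.dArr p l d.i) (arC l d) [] (c.tA l d) (cp.cArr l d.i)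
  B := fun l d => Cz G W K 6 (cp.dBody p l d.i) (arC l d) [] (c.tB l d) (cp.cBody l d.i)
  okX := fun l κ z => c.DP κ z ∧ z.i ≤ I ∧ (l = 0 → κ = 0)
  okF := fun _ y => c.DS y ∧ y.i ≤ I
  okA := fun _ d => c.DA d ∧ d.i ≤ I
  okB := fun _ d => c.DB d ∧ d.i ≤ I

section dep

variable (H : Hyp c D G W K Z lfc)

include H

theorem a0_step (hc : HC c.P Zc t0 p) {e k : ℕ} (hk : k < c.P.K) (he : e < c.P.E)
    (hF : (fam c G W K (cc) p I).AF e) {d : Cel} (hd : c.DA d ∧ d.i ≤ I) (hi : d.i = 0) :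
    Cz G W K 5 ((cc).dArr p (idx c.P e k) d.i) (arC (idx c.P e k) d) [] (c.tA (idx c.P e k) d)
      ((cc).cArr (idx c.P e k) d.i) := by
  have hp := hc.p
  have ht := hc.t
  have d1 : (cc).dF p e ≤ (cc).dLow p (idx c.P e k) := CP.dF_le_low
  have d2 : (cc).dLow p (idx c.P e k) + p ≤ (cc).dArr p (idx c.P e k) d.i := CP.dArr_low
  obtain ⟨n, hn⟩ : ∃ n, (cc).dArr p (idx c.P e k) d.i = n + 2 :=
    ⟨(cc).dArr p (idx c.P e k) d.i - 2, by omega⟩
  rw [hn]
  have h1 := arr0_hyp (n := n) (CF := (cc).cF e d.i) H idx_pos (idx_EK he hk) hd.1 hi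
    (fun y hy => by
      have h2 := hF y ⟨H.A_S d hd.1 y hy, by rw [csts_i hy]; exact hd.2⟩
      have h3 : Cz G W K 4 ((cc).dF p e) (arS e 0 y) [] (.ret [c.F e y]) ((cc).cF e y.i) := h2
      rw [csts_i hy] at h3
      unfold Cx.Fl
      rw [ep_idx hk]
      exact h3.mono (by omega) le_rfl)
  refine h1.mono le_rfl ?_
  have h2 : (csts c.P d).length ≤ Zc := by
    rw [PgZ692.csts_len]; exact (PgZ692.csz_ZP c.P d.κ).trans hc.zc
  have h3 := CpU776.arr0_req (P := c.P) (Z := Zc) (t0 := t0) (lf := lfc) (H := I) (b0 := b0)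
    H.Kpos (e := e) (k := k) (i := d.i) h2 h2
  unfold idx
  omega

theorem aS_step (hc : HC c.P Zc t0 p) {e k i : ℕ} (hk : k < c.P.K) (he : e < c.P.E)
    (hF : (fam c G W K (cc) p I).AF e)
    (hB : (fam c G W K (cc) p I).AB (idx c.P e k) (i + 1)) {d : Cel} (hd : c.DA d ∧ d.i ≤ I)
    (hi : d.i = i + 1) :
    Cz G W K 5 ((cc).dArr p (idx c.P e k) d.i) (arC (idx c.P e k) d) [] (c.tA (idx c.P e k) d)
      ((cc).cArr (idx c.P e k) d.i) := by
  have hp := hc.p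
  have ht := hc.t
  have d1 : (cc).dF p e ≤ (cc).dLow p (idx c.P e k) := CP.dF_le_low
  have d2 : (cc).dLow p (idx c.P e k) + p ≤ (cc).dArr p (idx c.P e k) d.i := CP.dArr_low
  have d3 : (cc).dBody p (idx c.P e k) d.i + p ≤ (cc).dArr p (idx c.P e k) d.i := CP.dArr_ok
  obtain ⟨n, hn⟩ : ∃ n, (cc).dArr p (idx c.P e k) d.i = n + 2 :=
    ⟨(cc).dArr p (idx c.P e k) d.i - 2, by omega⟩
  rw [hn]
  have h1 := arr_hyp (n := n) (CF := (cc).cF e d.i) (CB := (cc).cBody (idx c.P e k) d.i) H idx_pos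
    (idx_EK he hk) hd.1 (by omega)
    (fun d' hd' => by
      have hi' := (mem_abod c.P hd').1
      have h2 := hB d' ⟨H.A_B d hd.1 (by omega) d' hd', by rw [hi']; exact hd.2⟩
        (by rw [hi', hi])
      have h3 : Cz G W K 6 ((cc).dBody p (idx c.P e k) d'.i) (arC (idx c.P e k) d') []
        (c.tB (idx c.P e k) d') ((cc).cBody (idx c.P e k) d'.i) := h2
      rw [hi'] at h3
      exact h3.mono (by omega) le_rfl)
    (fun y hy => by
      have h2 := hF y ⟨H.A_S d hd.1 y hy, by rw [csts_i hy]; exact hd.2⟩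
      have h3 : Cz G W K 4 ((cc).dF p e) (arS e 0 y) [] (.ret [c.F e y]) ((cc).cF e y.i) := h2
      rw [csts_i hy] at h3
      unfold Cx.Fl
      rw [ep_idx hk]
      exact h3.mono (by omega) le_rfl)
  refine h1.mono le_rfl ?_
  have h2 : (csts c.P d).length ≤ Zc := by
    rw [PgZ692.csts_len]; exact (PgZ692.csz_ZP c.P d.κ).trans hc.zc
  have h3 := CpU776.arr_req (P := c.P) (Z := Zc) (t0 := t0) (lf := lfc) (H := I) (b0 := b0)
    H.Kpos (e := e) (k := k) (i := i) (PgZ692.abod_len c.P d) h2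
  rw [hi]
  unfold idx
  omega

theorem b_step (hc : HC c.P Zc t0 p) {e k i : ℕ} (hk : k < c.P.K) (he : e < c.P.E)
    (hF : (fam c G W K (cc) p I).AF e)
    (hX : ∀ j < k, (fam c G W K (cc) p I).AX (1 + e * c.P.K + j))
    (hA : (fam c G W K (cc) p I).AA (idx c.P e k) i) {d : Cel} (hd : c.DB d ∧ d.i ≤ I)
    (hi : d.i = i + 1) :
    Cz G W K 6 ((cc).dBody p (idx c.P e k) d.i) (arC (idx c.P e k) d) [] (c.tB (idx c.P e k) d)
      ((cc).cBody (idx c.P e k) d.i) := by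
  have hp := hc.p
  have ht := hc.t
  have d1 : (cc).dF p e ≤ (cc).dLow p (idx c.P e k) := CP.dF_le_low
  have d2 : (cc).dLow p (idx c.P e k) + p ≤ (cc).dBody p (idx c.P e k) (i + 1) := CP.dBody_low
  have d3 : (cc).dArr p (idx c.P e k) i + p ≤ (cc).dBody p (idx c.P e k) (i + 1) := CP.dBody_ok
  obtain ⟨n, hn⟩ : ∃ n, (cc).dBody p (idx c.P e k) (i + 1) = n + 3 :=
    ⟨(cc).dBody p (idx c.P e k) (i + 1) - 3, by omega⟩
  rw [hi, hn]
  have h1 := Delta72.b_hyp (n := n) (CF := (cc).low (idx c.P e k) (i + 1))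
    (CX := (cc).low (idx c.P e k) (i + 1)) (CA := (cc).cArr (idx c.P e k) i)
    (nB := Cnt308.nB c.P) H idx_pos (idx_EK he hk) hd.1
    (fun y hy => by
      have hyi : y.i ≤ i + 1 := by rcases PgL172.bst_i hy with h3 | h3 <;> omega
      have h2 := hF y ⟨H.B_S d hd.1 y hy, by omega⟩
      have h3 : Cz G W K 4 ((cc).dF p e) (arS e 0 y) [] (.ret [c.F e y]) ((cc).cF e y.i) := h2
      unfold Cx.Fl
      rw [ep_idx hk]
      exact (rq_F H h3).mono (by omega)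
        (CpU776.cF_low H.Kpos (e := e) (k := k) hyi))
    (fun a ha => by
      rw [rk_idx hk] at ha
      obtain ⟨h3, h4⟩ := PgL172.mem_rpr_iff.1 ha
      have h5 : a.2.2.i = i := by rw [PgL172.bpr_i h4]; omega
      have h6 := hX a.1 h3 a.2.1 a.2.2
        ⟨H.B_P _ idx_pos (idx_EK he hk) d hd.1 a.2 h4, by omega, fun h => by omega⟩
      have h7 : Rq G W ((cc).dX p (1 + e * c.P.K + a.1))
        (wrapQ K (qX (1 + e * c.P.K + a.1) a.2.1 a.2.2))
        (.ret [c.X (1 + e * c.P.K + a.1) (a.2.1, a.2.2)])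
        ((cc).cX (1 + e * c.P.K + a.1) a.2.2.i) := h6
      rw [h5] at h7
      unfold Cx.Xl
      rw [ep_idx hk]
      refine h7.mono ?_ (CpU776.cX_low H.Kpos (by unfold idx; omega) (by omega))
      have : (cc).dX p (1 + e * c.P.K + a.1) ≤ (cc).dLow p (idx c.P e k) :=
        CP.dX_le_low (by unfold idx; omega)
      omega)
    (fun d' hd' hi' => by
      have h3 : d'.i = i := by omega
      have h4 := hA d' ⟨hd', by omega⟩ h3
      have h5 : Cz G W K 5 ((cc).dArr p (idx c.P e k) d'.i) (arC (idx c.P e k) d') []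
        (c.tA (idx c.P e k) d') ((cc).cArr (idx c.P e k) d'.i) := h4
      rw [h3] at h5
      exact h5.mono (by omega) le_rfl)
    (fun ρ => Cnt308.bkeys_len c.P d.κ d.m ρ)
  refine h1.mono le_rfl ?_
  have hz := hc.zc
  have h3 : (bst c.P d).length ≤ Zc := (PgZ692.bst_ZP c.P d).trans hz
  have h4 : (cells c.P d).length ≤ Zc := by
    rw [PgZ692.cells_len]; exact (PgZ692.csz_ZP c.P d.κ).trans hz
  have h5 : (rpr (rk c.P (idx c.P e k)) (bpr c.P (c.Fl (idx c.P e k)) d)).length ≤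
      c.P.K * Zc := by
    rw [PgZ692.rpr_len, rk_idx hk]
    exact Nat.mul_le_mul hk.le ((PgZ692.bpr_ZP c.P _ d).trans hz)
  have h6 := CpU776.body_req (P := c.P) (Z := Zc) (t0 := t0) (lf := lfc) (H := I) (b0 := b0)
    H.Kpos (l := idx c.P e k) (i := i) (nw := nwd c.P) (nb := Cnt308.nB c.P) le_rfl le_rfl
    h3 h4 h5
  omega

theorem x_step (hc : HC c.P Zc t0 p)
    (vN : ∀ l, 0 < l → l ≤ c.EK → ∀ κ z, c.DP κ z → (c.tX l κ z).All W.N fun v => v < W.M)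
    {e k : ℕ} (hk : k < c.P.K) (he : e < c.P.E)
    (hF : (fam c G W K (cc) p I).AF e)
    (hA : ∀ i, (fam c G W K (cc) p I).AA (idx c.P e k) i) {κ : ℕ} {z : St}
    (hz : c.DP κ z ∧ z.i ≤ I) :
    Rq G W ((cc).dX p (idx c.P e k)) (wrapQ K (qX (idx c.P e k) κ z))
      (.ret [c.X (idx c.P e k) (κ, z)]) ((cc).cX (idx c.P e k) z.i) := by
  have hp := hc.p
  have ht := hc.t
  have d1 : (cc).dF p e ≤ (cc).dLow p (idx c.P e k) := CP.dF_le_low
  have d2 : (cc).dLow p (idx c.P e k) + p ≤ (cc).dX p (idx c.P e k) := CP.dX_low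
  have d3 : (cc).dArr p (idx c.P e k) z.i + p ≤ (cc).dX p (idx c.P e k) := CP.dX_ok hz.2
  obtain ⟨n, hn⟩ : ∃ n, (cc).dX p (idx c.P e k) = n + 3 :=
    ⟨(cc).dX p (idx c.P e k) - 3, by omega⟩
  rw [hn]
  have h1 := x_h (n := n) (CF := (cc).cF e z.i) (CA := (cc).cArr (idx c.P e k) z.i) H idx_pos
    (idx_EK he hk) hz.1
    (by
      have h2 := hF z ⟨H.P_S κ z hz.1, hz.2⟩
      have h3 : Cz G W K 4 ((cc).dF p e) (arS e 0 z) [] (.ret [c.F e z]) ((cc).cF e z.i) := h2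
      unfold Cx.Fl
      rw [ep_idx hk]
      exact h3.mono (by omega) le_rfl)
    (fun hd => by
      have h2 := hA z.i (celOf κ z) ⟨hd, hz.2⟩ rfl
      have h3 : Cz G W K 5 ((cc).dArr p (idx c.P e k) z.i) (arC (idx c.P e k) (celOf κ z)) []
        (c.tA (idx c.P e k) (celOf κ z)) ((cc).cArr (idx c.P e k) z.i) := h2
      exact h3.mono (by omega) le_rfl)
    (vN _ idx_pos (idx_EK he hk) κ z hz.1)
  refine h1.mono le_rfl ?_
  have h5 := CpU776.x_req (P := c.P) (Z := Zc) (t0 := t0) (lf := lfc) (H := I) (b0 := b0) H.Kpos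
    (e := e) (k := k) (i := z.i) (n := c.P.gX * c.P.mX) hz.2 le_rfl
  unfold idx
  omega

theorem f0_step (hc : HC c.P Zc t0 p) (hX : (fam c G W K (cc) p I).AX 0) {y : St}
    (hy : c.DS y ∧ y.i ≤ I) :
    Cz G W K 4 ((cc).dF p 0) (arS 0 0 y) [] (.ret [c.F 0 y]) ((cc).cF 0 y.i) := by
  have hp := hc.p
  have ht := hc.t
  have d1 : (cc).dX p 0 + p ≤ (cc).dF p 0 := CP.dF0_x
  obtain ⟨n, hn⟩ : ∃ n, (cc).dF p 0 = n + 3 := ⟨(cc).dF p 0 - 3, by omega⟩
  rw [hn]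
  have h1 := f0_h (n := n) (C0 := (cc).cX 0 y.i) (C := (cc).cX 0 y.i) H hy.1
    (by
      have h2 : Rq G W ((cc).dX p 0) (wrapQ K (qX 0 0 y)) (.ret [c.X 0 (0, y)])
        ((cc).cX 0 y.i) := hX 0 y ⟨H.S_0 y hy.1, hy.2, fun _ => rfl⟩
      exact h2.mono (by omega) le_rfl)
    (fun z hz hi => by
      have h2 : Rq G W ((cc).dX p 0) (wrapQ K (qX 0 0 z)) (.ret [c.X 0 (0, z)])
        ((cc).cX 0 z.i) := hX 0 z ⟨hz, by omega, fun _ => rfl⟩
      rw [hi] at h2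
      exact h2.mono (by omega) le_rfl)
  refine h1.mono le_rfl ?_
  have h3 := CpU776.f0_req (P := c.P) (Z := Zc) (t0 := t0) (lf := lfc) (H := I) (b0 := b0) H.Kpos
    (i := y.i) (n := uP c.P + 1) (by have := hc.u; omega)
  have h4 : (uP c.P + 1) * ((cc).cX 0 y.i + 1) =
      uP c.P * ((cc).cX 0 y.i + 1) + ((cc).cX 0 y.i + 1) := by ring
  omega

theorem fs_step (hc : HC c.P Zc t0 p) {e : ℕ} (he : e < c.P.E)
    (hF : (fam c G W K (cc) p I).AF e)
    (hX : ∀ j < c.P.K, (fam c G W K (cc) p I).AX (1 + e * c.P.K + j)) {y : St}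
    (hy : c.DS y ∧ y.i ≤ I) :
    Cz G W K 4 ((cc).dF p (e + 1)) (arS (e + 1) 0 y) [] (.ret [c.F (e + 1) y])
      ((cc).cF (e + 1) y.i) := by
  have hp := hc.p
  have ht := hc.t
  have hok : (cc).Ok := CpU776.ok H.Kpos
  have d1 : (cc).dF p e + p ≤ (cc).dF p (e + 1) := CP.dF_ok hok
  obtain ⟨n, hn⟩ : ∃ n, (cc).dF p (e + 1) = n + 3 := ⟨(cc).dF p (e + 1) - 3, by omega⟩
  have h1 := fs_h (n := n) (C0 := (cc).cF e y.i) (f := fun l => (cc).cX l y.i) H he hy.1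
    (by
      have h2 : Cz G W K 4 ((cc).dF p e) (arS e 0 y) [] (.ret [c.F e y]) ((cc).cF e y.i) :=
        hF y hy
      exact (rq_F H h2).mono (by omega) le_rfl)
    (fun j hj κ z hz hi => by
      have h2 : Rq G W ((cc).dX p (1 + e * c.P.K + j)) (wrapQ K (qX (1 + e * c.P.K + j) κ z))
        (.ret [c.X (1 + e * c.P.K + j) (κ, z)]) ((cc).cX (1 + e * c.P.K + j) z.i) :=
        hX j hj κ z ⟨hz, by omega, fun h => by omega⟩
      rw [hi] at h2
      refine h2.mono ?_ le_rfl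
      have : (cc).dX p (1 + e * c.P.K + j) + p ≤ (cc).dF p (e + 1) := CP.dF_x hj
      omega)
  rw [hn]
  refine h1.mono le_rfl ?_
  have h3 : (cc).t0 + ((cc).cF e y.i + (cc).t1) + (cc).U * ∑ j ∈ Finset.range (cc).K,
      ((cc).cX (1 + e * (cc).K + j) y.i + (cc).t1) ≤ (cc).cF (e + 1) y.i := CP.f_ok hok
  have h4 : t0 + ((cc).cF e y.i + 1) + Zc * ∑ j ∈ Finset.range c.P.K,
      ((cc).cX (1 + e * c.P.K + j) y.i + 1) ≤ (cc).cF (e + 1) y.i := h3
  have h5 : uP c.P * ∑ j ∈ Finset.range c.P.K, ((cc).cX (1 + e * c.P.K + j) y.i + 1) ≤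
      Zc * ∑ j ∈ Finset.range c.P.K, ((cc).cX (1 + e * c.P.K + j) y.i + 1) :=
    Nat.mul_le_mul_right _ (by have := hc.u; omega)
  omega

/-- **all fields of 726's induction** -/
theorem dep (hc : HC c.P Zc t0 p)
    (vN : ∀ l, 0 < l → l ≤ c.EK → ∀ κ z, c.DP κ z → (c.tX l κ z).All W.N fun v => v < W.M)
    (h0 : (fam c G W K (cc) p I).AX 0) :
    (fam c G W K (cc) p I).Dep c.P.K (c.P.E * c.P.K + 1) where
  init := h0
  f0 := fun hX y hy => f0_step H hc hX hy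
  fs := fun e he hF hX y hy => fs_step H hc (by
    have h1 : (e + 1) * c.P.K ≤ c.P.E * c.P.K := by
      have : (e + 1) * c.P.K = e * c.P.K + c.P.K := by ring
      omega
    exact Nat.le_of_mul_le_mul_right h1 H.Kpos) hF hX hy
  a0 := fun _ _ hk hT hF _ hd hi => a0_step H hc hk (lt_of_idx hT) hF hd hi
  as := fun _ _ _ hk hT hF hB _ hd hi => aS_step H hc hk (lt_of_idx hT) hF hB hd hi
  bs := fun _ _ _ hk hT hF hX hA _ hd hi => b_step H hc hk (lt_of_idx hT) hF hX hA hd hi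
  x := fun _ _ hk hT hF hA _ _ hz => x_step H hc vN hk (lt_of_idx hT) hF hA ⟨hz.1, hz.2.1⟩

/-- **all numbers** -/
theorem allX (hc : HC c.P Zc t0 p)
    (vN : ∀ l, 0 < l → l ≤ c.EK → ∀ κ z, c.DP κ z → (c.tX l κ z).All W.N fun v => v < W.M)
    (h0 : (fam c G W K (cc) p I).AX 0) {l : ℕ} (hl : l ≤ c.EK) :
    (fam c G W K (cc) p I).AX l :=
  (dep H hc vN h0).allX H.Kpos l (Nat.lt_succ_of_le hl)

/-- **all unit functions** -/
theorem allF (hc : HC c.P Zc t0 p)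
    (vN : ∀ l, 0 < l → l ≤ c.EK → ∀ κ z, c.DP κ z → (c.tX l κ z).All W.N fun v => v < W.M)
    (h0 : (fam c G W K (cc) p I).AX 0) {e : ℕ} (he : e ≤ c.P.E) :
    (fam c G W K (cc) p I).AF e :=
  (dep H hc vN h0).allF' H.Kpos (by
    have : e * c.P.K ≤ c.P.E * c.P.K := Nat.mul_le_mul_right _ he
    omega) (Nat.succ_pos _)

/-- index `0` as the claim of the family -/
theorem ax_zero (h0 : ∀ y, c.DS y → y.i ≤ I → ∃ n ci, n ≤ (cc).dX p 0 ∧
      ci ≤ b0 * (cc).Y ^ y.i ∧ Rq G W n (wrapQ K (qU y)) (.ret [c.X 0 (0, y)]) ci) :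
    (fam c G W K (cc) p I).AX 0 := fun κ z hz => by
  obtain ⟨h1, h2, h3⟩ := hz
  have h4 : κ = 0 := h3 rfl
  subst h4
  obtain ⟨n, ci, hn, hci, h⟩ := h0 z (H.P_S 0 z h1) h2
  exact h.mono hn (CpU776.init_req hci)

/-- **the root**: the unit function of the last epoch -/
theorem root_cz (hc : HC c.P Zc t0 p)
    (vN : ∀ l, 0 < l → l ≤ c.EK → ∀ κ z, c.DP κ z → (c.tX l κ z).All W.N fun v => v < W.M)
    (h0 : ∀ y, c.DS y → y.i ≤ I → ∃ n ci, n ≤ (cc).dX p 0 ∧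
      ci ≤ b0 * (cc).Y ^ y.i ∧ Rq G W n (wrapQ K (qU y)) (.ret [c.X 0 (0, y)]) ci)
    {root : St} (hr : c.DS root) (hI : root.i ≤ I) :
    Cz G W K 4 ((cc).dF p c.P.E) (arS c.P.E 0 root) [] (.ret [c.F c.P.E root])
      ((cc).cF c.P.E I) := by
  have h2 : Cz G W K 4 ((cc).dF p c.P.E) (arS c.P.E 0 root) [] (.ret [c.F c.P.E root])
      ((cc).cF c.P.E root.i) := allF H hc vN (ax_zero H h0) le_rfl root ⟨hr, hI⟩
  exact h2.mono le_rfl (CP.cF_mono (CpU776.ok H.Kpos) le_rfl hI)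

/-- the same from the literal claim of index `0` at all pairs -/
theorem root_rx (hc : HC c.P Zc t0 p)
    (vN : ∀ l, 0 < l → l ≤ c.EK → ∀ κ z, c.DP κ z → (c.tX l κ z).All W.N fun v => v < W.M)
    (hU : ∀ κ z, c.DP κ z →
      Rq G W ((cc).dX p 0) (wrapQ K (qX 0 κ z)) (.ret [c.X 0 (κ, z)]) ((cc).cX 0 z.i))
    {root : St} (hr : c.DS root) (hI : root.i ≤ I) :
    Cz G W K 4 ((cc).dF p c.P.E) (arS c.P.E 0 root) [] (.ret [c.F c.P.E root])
      ((cc).cF c.P.E I) := by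
  have h2 : Cz G W K 4 ((cc).dF p c.P.E) (arS c.P.E 0 root) [] (.ret [c.F c.P.E root])
      ((cc).cF c.P.E root.i) := allF H hc vN (fun κ z hz => hU κ z hz.1) le_rfl root ⟨hr, hI⟩
  exact h2.mono le_rfl (CP.cF_mono (CpU776.ok H.Kpos) le_rfl hI)

end dep

end Crest.Agent.R288.PgH763
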