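import Crest.Agent.R288.AlgB_45
import Crest.Agent.R288.Pg7_776

/-!
# R288, [PROG] the mutual induction over (index, macro height) (helper726, second of helper578)

Four families of claims: `X l κ z` (number of the index `l` at a pair), `F e y` (unit function of the
epoch `e`), `A l c` (arrival table), `B l c` (body table).  `Dep` = the realisation theorems of the
owners, in the form "claim of the procedure from the claims of the procedures it calls, at the
arguments that are in the domain".  `Dep.all` : all claims of all indices.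

Domains: `okX l κ z` pairs which may be asked of the index `l`, `okF y`, `okA l c`, `okB l c`.
Costs, fuels, sizes are hidden in the claims (closed forms of helper776 in the instance).
-/

set_option autoImplicit false

namespace Crest.Agent.R288.PgI726

open Crest.Agent.R288.Alg45

/-- claims of the four procedures and their domains -/
structure Fam where
  /-- claims -/
  X : ℕ → ℕ → St → Prop
  F : ℕ → St → Prop
  A : ℕ → Cel → Prop
  B : ℕ → Cel → Prop
  /-- domains -/
  okX : ℕ → ℕ → St → Prop
  okF : ℕ → St → Prop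
  okA : ℕ → Cel → Prop
  okB : ℕ → Cel → Prop

namespace Fam

variable (f : Fam)

/-- all pairs of the index `l` -/
def AX (l : ℕ) : Prop := ∀ κ z, f.okX l κ z → f.X l κ z
/-- all states of the epoch `e` -/
def AF (e : ℕ) : Prop := ∀ y, f.okF e y → f.F e y
/-- all cells of the index `l` at macro height `i` -/
def AA (l i : ℕ) : Prop := ∀ c, f.okA l c → c.i = i → f.A l c
def AB (l i : ℕ) : Prop := ∀ c, f.okB l c → c.i = i → f.B l c

/-- the realisation theorems of the owners; `K` = ranks of an epoch, `T` = number of indices -/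
structure Dep (K T : ℕ) : Prop where
  /-- INIT -/
  init : f.AX 0
  /-- unit function of epoch `0` -/
  f0 : f.AX 0 → f.AF 0
  /-- unit function of epoch `e + 1` -/
  fs : ∀ e, 1 + e * K + K ≤ T → f.AF e → (∀ j < K, f.AX (1 + e * K + j)) → f.AF (e + 1)
  /-- arrival tables at macro height `0` -/
  a0 : ∀ e k, k < K → 1 + e * K + k < T → f.AF e → f.AA (1 + e * K + k) 0
  /-- arrival tables -/
  as : ∀ e k i, k < K → 1 + e * K + k < T → f.AF e → f.AB (1 + e * K + k) (i + 1) →
    f.AA (1 + e * K + k) (i + 1)
  /-- body tables -/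
  bs : ∀ e k i, k < K → 1 + e * K + k < T → f.AF e → (∀ j < k, f.AX (1 + e * K + j)) →
    f.AA (1 + e * K + k) i → f.AB (1 + e * K + k) (i + 1)
  /-- numbers -/
  x : ∀ e k, k < K → 1 + e * K + k < T → f.AF e → (∀ i, f.AA (1 + e * K + k) i) →
    f.AX (1 + e * K + k)

variable {f} {K T : ℕ}

/-- the unit functions whose indices are done -/
theorem Dep.allF (h : f.Dep K T) {l : ℕ} (hl : ∀ l' < l, f.AX l') (h0 : 0 < l) (hT : l ≤ T) :
    ∀ e, 1 + e * K ≤ l → f.AF e
  | 0, _ => h.f0 (hl 0 h0)
  | e + 1, he => by
    have h1 : 1 + e * K + K ≤ l := by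
      have : (e + 1) * K = e * K + K := by ring
      omega
    exact h.fs e (h1.trans hT) (h.allF hl h0 hT e (by omega)) fun j hj => hl _ (by omega)

/-- the arrival tables of one index -/
theorem Dep.allA (h : f.Dep K T) {e k : ℕ} (hk : k < K) (hT : 1 + e * K + k < T) (hF : f.AF e)
    (hX : ∀ j < k, f.AX (1 + e * K + j)) : ∀ i, f.AA (1 + e * K + k) i
  | 0 => h.a0 e k hk hT hF
  | i + 1 => h.as e k i hk hT hF (h.bs e k i hk hT hF hX (h.allA hk hT hF hX i))

/-- **all numbers** -/
theorem Dep.allX (h : f.Dep K T) (hK : 0 < K) : ∀ l, l < T → f.AX l := by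
  intro l
  induction l using Nat.strong_induction_on with
  | _ l ih =>
    intro hT
    rcases Nat.eq_zero_or_pos l with rfl | h0
    · exact h.init
    · obtain ⟨e, k, hk, rfl⟩ : ∃ e k, k < K ∧ l = 1 + e * K + k := by
        refine ⟨(l - 1) / K, (l - 1) % K, Nat.mod_lt _ hK, ?_⟩
        have := Nat.div_add_mod (l - 1) K
        rw [Nat.mul_comm] at this
        omega
      have hF : f.AF e := h.allF (fun l' hl' => ih l' hl' (by omega)) h0 hT.le e (by omega)
      exact h.x e k hk hT hF
        (h.allA hk hT hF fun j hj => ih _ (by omega) (by omega))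

/-- **all unit functions** -/
theorem Dep.allF' (h : f.Dep K T) (hK : 0 < K) {e : ℕ} (he : 1 + e * K ≤ T) (hT : 0 < T) :
    f.AF e :=
  h.allF (l := T) (fun l' hl' => h.allX hK l' hl') hT le_rfl e he

/-- all arrival tables of index `l = 1 + e K + k` -/
theorem Dep.allA' (h : f.Dep K T) (hK : 0 < K) {e k : ℕ} (hk : k < K) (hT : 1 + e * K + k < T)
    (i : ℕ) : f.AA (1 + e * K + k) i :=
  h.allA hk hT (h.allF' hK (by omega) (by omega)) (fun j hj => h.allX hK _ (by omega)) i

end Fam

end Crest.Agent.R288.PgI726
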