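import Crest.Agent.R288.PgI_726
import Crest.Agent.R288.PgG_380
import Crest.Agent.R288.PgXc_583
import Crest.Agent.R288.ArrC_222
import Crest.Agent.R288.BodyC_72
import Crest.Agent.R288.PgZc_692
import Crest.Agent.R288.PgZd_692
import Crest.Agent.R288.PgZa_200
import Crest.Agent.R288.CpU_776
import Crest.Agent.R288.PgL_172
import Crest.Agent.R288.GoodI_829
import Crest.Agent.R288.AsmC_331

/-!
# R288, [PROG] P11: the mutual induction, all steps (helper763)

The procedures X (583), F (380), ARR (222), BODY (72) over 578's typed layer, costs and fuels of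
`cpOf` (776), sizes of 692 and 200, invariants of the cells of 692.

* `PhB` : the text of BODY (tag 6), three phase equations; `HP` : everything about one run;
* `arr0`, `arrS`, `bodyS`, `xS` : one procedure from the procedures it calls;
* `fam` : 726's family, **`dep`** : its fields, **`allX`, `allF`** : all numbers, all unit functions.
-/

set_option autoImplicit false

namespace Crest.Agent.R288.PgJ763

open Crest.Agent.R295.Rnd627 Crest.Agent.R288.Alg45 Crest.Agent.R288.Dom20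
open Crest.Agent.R288.PgX583 Crest.Agent.R288.Delta222 Crest.Agent.R288.Delta72
open Crest.Agent.R288.PgA172 Crest.Agent.R288.Pgb578
open Crest.Agent.R288.PgY583 (arS arC qU qX qF qA qB)
open Crest.Agent.R288.PgZ692 (Nd ArrI BodI kM ZP Fit)
open Crest.Agent.R288.PgF380 (FH RX RF uP)
open Crest.Agent.R288.PgZa200 (Vs)
open Crest.Agent.R288.Asm331 (epo rnk Xe epo_idx rnk_idx idx_lt)
open Crest.Agent.R288.CpU776 (cpOf)
open Crest.Agent.R288.PrK690 (KN wrapQ)
open Crest.Agent.R288.Phe940 (Prg Wld Rz Rq Rqs)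
open Crest.Agent.R288.Pg7776 (CP)

/-- the text of BODY (tag 6): the three phase equations; `N` = range of the words -/
structure PhB (K : KN) (ph : Ph) (P : Par) (N top : ℕ) (la : St → List ℕ)
    (lf : ℕ → St → Option ℕ) : Prop where
  p0 : ∀ l (c : Cel), c.κ ≤ top → ph K 6 (arC l c) [] = .inr ((List.range (nwd P)).map (fun _ => [0]) ++
    (bst P c).map (qF ((l - 1) / P.K)))
  p1 : ∀ l (c : Cel), c.κ ≤ top → ∀ (F : St → ℕ) u0, Q0 P N F c u0 → ph K 6 (arC l c) [u0] = .inr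
    ((bkeysOf P c (u0.take (nwd P))).map (fun key => qA l (bcel P c key)) ++
      ((xkeys P c ((l - 1) % P.K) (u0.drop (nwd P))).map
        (fun a => qX (idx P ((l - 1) / P.K) a.1) a.2.1 a.2.2) ++
          (cells P c).map fun y => 3 :: la y))
  p2 : ∀ l (c : Cel), c.κ ≤ top → ∀ (F : St → ℕ) u0, Q0 P N F c u0 → ∀ u1 : List (List ℕ),
    u1.length = (bkeysOf P c (u0.take (nwd P))).length +
      ((xkeys P c ((l - 1) % P.K) (u0.drop (nwd P))).length + (cells P c).length) →
    ph K 6 (arC l c) [u0, u1] = .inl (bodyEnd P lf c ((l - 1) % P.K) u0 u1)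

/-- everything about one run: program `G`, run `W`, constants `K`, sizes `Z`, text `ph`, parameters
`P`, macro height of the root `I`, classes `K0`, `top`, largest index `Lx`, history `X`; `la`, `lf`,
`g` = leaf requests, their meaning and their answers; `lc` = cost of a leaf request -/
structure HP (G : Prg) (W : Wld) (K : KN) (Z : ℕ) (ph : Ph) (P : Par) (I K0 Lx top : ℕ)
    (X : ℕ → ℕ × St → ℕ) (leaf : St → Option ℕ) (la : St → List ℕ) (lf : ℕ → St → Option ℕ)
    (g : St → ℕ) (lc : ℕ) : Prop where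
  h3 : Has G K ph 3
  h4 : Has G K ph 4
  h5 : Has G K ph 5
  h6 : Has G K ph 6
  t3 : ∀ l κ z, κ ≤ top → ∀ sv, ph K 3 (arS l κ z) sv = PgY583.phX P (arS l κ z) sv
  t4 : ∀ e y sv, ph K 4 (arS e 0 y) sv = PgY583.phF P (arS e 0 y) sv
  t5 : ∀ l (c : Cel), c.κ ≤ top → ∀ sv, ph K 5 (arC l c) sv = phA P la lf (arC l c) sv
  t6 : PhB K ph P W.N top la lf
  env : Env W K Z
  N0 : 0 < W.N
  NM : W.N ≤ W.M
  fh : FH W.M Z P I K0 X
  fit : Fit P I Lx K0 W.M
  lx : P.E * P.K ≤ Lx
  K1 : 1 ≤ P.K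
  r : 1 ≤ P.r
  grd : GrdOK P K0
  zp : 2 * ZP P ≤ Z
  tp : K0 + I * (P.a2 + P.du) + P.a2 ≤ top
  vs : ∀ e ≤ P.E, Vs P leaf (FE P X e) (Nd P I) W.M Z top I
  hl : ∀ y, leaf y = lf (g y) y
  lv : ∀ y, Dom P I y → W.okE (la y) ∧ W.E (la y) = [g y] ∧ W.cE (la y) ≤ lc
  lg : ∀ y, Dom P I y → g y < W.M
  lw : ∀ y, Dom P I y → Wd W.M Z (3 :: la y)
  b4 : ∀ a, G.base (fr K 4 a []) ≤ W.Pm
  val : ∀ e < P.E, ∀ k < P.K, ∀ κ z, (κ, z) ∈ Om P I K0 →
    (numPair P leaf (FE P X e) (Xe P X e) k κ z).val W.N W.Z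
      (G.base (fr K 3 (arS (idx P e k) κ z) [])) = X (idx P e k) (κ, z)
  nxt : ∀ e < P.E, ∀ k < P.K, ∀ κ z, (κ, z) ∈ Om P I K0 →
    (numPair P leaf (FE P X e) (Xe P X e) k κ z).nxt W.N W.Z
      (G.base (fr K 3 (arS (idx P e k) κ z) [])) ≤ W.Pm

section steps

variable {G : Prg} {W : Wld} {K : KN} {Z : ℕ} {ph : Ph} {P : Par} {I K0 Lx top : ℕ}
  {X : ℕ → ℕ × St → ℕ} {leaf : St → Option ℕ} {la : St → List ℕ} {lf : ℕ → St → Option ℕ}
  {g : St → ℕ} {lc : ℕ} {Zc t0 b0 p : ℕ}

local notation "cc" => cpOf P Zc t0 lc I b0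

/-- the numbers of the cost functions -/
structure HC (P : Par) (Zc t0 p : ℕ) : Prop where
  zc : ZP P ≤ Zc
  u : uP P + 1 ≤ Zc
  t : 5 ≤ t0
  p : 3 ≤ p

theorem idx_div {e k : ℕ} (hk : k < P.K) : (idx P e k - 1) / P.K = e := epo_idx hk

theorem idx_mod {e k : ℕ} (hk : k < P.K) : (idx P e k - 1) % P.K = k := rnk_idx hk

theorem idx_le {e k : ℕ} (he : e < P.E) (hk : k < P.K) : idx P e k ≤ P.E * P.K :=
  Nat.lt_succ_iff.1 (idx_lt he hk)

theorem lt_of_idx {e k : ℕ} (h : 1 + e * P.K + k < P.E * P.K + 1) : e < P.E := by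
  have h1 : e * P.K < P.E * P.K := by omega
  exact Nat.lt_of_mul_lt_mul_right h1

theorem csts_ij {c : Cel} {y : St} (h : y ∈ csts P c) : y.i = c.i ∧ y.j = c.j := by
  obtain ⟨t, -, rfl⟩ := List.mem_map.1 h
  exact ⟨rfl, rfl⟩

theorem csts_dom {c : Cel} (h : Nd P I c.i c.j) {y : St} (hy : y ∈ csts P c) : Dom P I y :=
  PgZ692.csts_InD h hy

theorem val_map {α β : Type} (t : RT α) (f : α → β) (N : ℕ) (z : ℕ → ℕ) (q : ℕ) :
    (t.map f).val N z q = f (t.val N z q) := by
  unfold RT.map RT.val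
  rw [RT.run_bind]
  rfl

theorem nxt_map {α β : Type} (t : RT α) (f : α → β) (N : ℕ) (z : ℕ → ℕ) (q : ℕ) :
    (t.map f).nxt N z q = t.nxt N z q := by
  unfold RT.map RT.nxt
  rw [RT.run_bind]
  rfl

section

variable (H : HP G W K Z ph P I K0 Lx top X leaf la lf g lc)

include H

theorem Z12 : 12 ≤ Z := H.fh.hZ12

theorem e_lt {e : ℕ} (he : e ≤ P.E) : e < W.M := he.trans_lt H.fh.hEM

theorem arOk_S {tg l κ : ℕ} (ht : tg < 8) (hl : l ≤ Lx) (hκ : κ ≤ K0) {y : St} (hy : Dom P I y) :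
    ArOk W.M tg (arS l κ y) := PgZ692.arOk_st H.fit ht hl hκ hy

theorem e_Lx {e : ℕ} (he : e ≤ P.E) : e ≤ Lx :=
  (Nat.le_mul_of_pos_right e H.K1).trans ((Nat.mul_le_mul_right _ he).trans H.lx)

theorem arOk_A {tg l : ℕ} (ht : tg < 8) (hl : l ≤ Lx) {c : Cel} (h : ArrI P I K0 c) :
    ArOk W.M tg (arC l c) := h.arOk H.fit ht hl

theorem arOk_B {tg l : ℕ} (ht : tg < 8) (hl : l ≤ Lx) {c : Cel} (h : BodI P I K0 c) :
    ArOk W.M tg (arC l c) := h.arOk H.fit ht hl

theorem arrI_top {c : Cel} (h : ArrI P I K0 c) : c.κ ≤ top := by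
  have h1 := h.κ
  have h2 := PgZ692.kM_le (P := P) I K0 c.i
  have h3 := H.tp
  omega

theorem bodI_top {c : Cel} (h : BodI P I K0 c) : c.κ ≤ top := by
  have h1 := h.κ
  have h2 := PgZ692.kM_le (P := P) I K0 c.i
  have h3 := H.tp
  omega

theorem F_lt {e : ℕ} {y : St} (hy : Dom P I y) : FE P X e y < W.M := H.fh.FE_lt hy

/-- arrival tables fit -/
theorem A_wd {e k : ℕ} (he : e ≤ P.E) {c : Cel} (h : ArrI P I K0 c) :
    (arrT P leaf (FE P X e) (Xe P X e) k c.i c).All W.N (Wd W.M Z) :=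
  Vs.arrT (H.vs e he) (arrI_top H h) h.nd

/-- body tables fit -/
theorem B_wd {e k i : ℕ} (he : e ≤ P.E) {c : Cel} (h : BodI P I K0 c) (hi : c.i = i + 1) :
    (bodyT P leaf (FE P X e) (Xe P X e) k
      (fun c' => arrT P leaf (FE P X e) (Xe P X e) k i c') c).All W.N (Wd W.M Z) :=
  Vs.bodyT (H.vs e he) hi (bodI_top H h) h.nd

/-- **ARR, macro height `0`** -/
theorem arr0 (hc : HC P Zc t0 p) {e k : ℕ} (he : e < P.E) (hk : k < P.K)
    (hF : RF G W K P I X e ((cc).dF p e) ((cc).cF e)) {c : Cel} (h : ArrI P I K0 c)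
    (hi : c.i = 0) :
    Cz G W K 5 ((cc).dArr p (idx P e k) c.i) (arC (idx P e k) c) []
      (arrT P leaf (FE P X e) (Xe P X e) k c.i c) ((cc).cArr (idx P e k) c.i) := by
  have hp := hc.p
  have d1 : (cc).dF p e ≤ (cc).dLow p (idx P e k) := CP.dF_le_low
  have d2 : (cc).dLow p (idx P e k) + p ≤ (cc).dArr p (idx P e k) c.i := CP.dArr_low
  obtain ⟨n, hn⟩ : ∃ n, (cc).dArr p (idx P e k) c.i = n + 2 :=
    ⟨(cc).dArr p (idx P e k) c.i - 2, by omega⟩
  have e1 := idx_div (P := P) (e := e) hk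
  rw [hn]
  have h1 := phA_cz_zero (G := G) (W := W) (K := K) (Z := Z) (n := n) (ph := ph) (P := P) (c := c)
    (l := idx P e k) (la := la) (lf := lf) (leaf := leaf) (F := FE P X e) (g := g)
    (X := Xe P X e) (k := k) (CF := (cc).cF e 0) (CG := lc) H.h5 H.env H.N0 (Z12 H) (H.t5 _ _ (arrI_top H h)) hi H.hl
    (fun y hy => by
      rw [e1]
      have := hF y (csts_dom h.nd hy)
      rw [(csts_ij hy).1, hi] at this
      exact this.mono (by omega) le_rfl)
    (fun y hy => H.b4 _) (fun y hy => H.lv y (csts_dom h.nd hy))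
    (fun y hy => F_lt H (csts_dom h.nd hy)) (fun y hy => H.lg y (csts_dom h.nd hy))
    (arOk_A H (by norm_num) ((idx_le he hk).trans H.lx) h)
    (fun y hy => by
      rw [e1]
      exact arOk_S H (by norm_num) (e_Lx H he.le) (Nat.zero_le _) (csts_dom h.nd hy))
    (fun y hy => H.lw y (csts_dom h.nd hy))
    (by
      have := PgZ692.csts2_ZP P c
      rw [PgZ692.csts_len]
      exact this.trans H.zp)
    (A_wd H he.le h)
  refine h1.mono le_rfl ?_
  have hz := hc.zc
  have h2 : (csts P c).length ≤ Zc := by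
    rw [PgZ692.csts_len]; exact (PgZ692.csz_ZP P c.κ).trans hz
  have h3 := CpU776.arr0_req (P := P) (Z := Zc) (t0 := t0) (lf := lc) (H := I) (b0 := b0) H.K1
    (e := e) (k := k) (i := c.i) h2 h2
  have ht := hc.t
  rw [hi] at h3 ⊢
  unfold idx
  omega

/-- **ARR, macro height `i + 1`** -/
theorem arrS (hc : HC P Zc t0 p) {e k i : ℕ} (he : e < P.E) (hk : k < P.K)
    (hF : RF G W K P I X e ((cc).dF p e) ((cc).cF e))
    (hB : ∀ c, BodI P I K0 c → c.i = i + 1 →
      Cz G W K 6 ((cc).dBody p (idx P e k) (i + 1)) (arC (idx P e k) c) []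
        (bodyT P leaf (FE P X e) (Xe P X e) k
          (fun c' => arrT P leaf (FE P X e) (Xe P X e) k i c') c) ((cc).cBody (idx P e k) (i + 1)))
    {c : Cel} (h : ArrI P I K0 c) (hi : c.i = i + 1) :
    Cz G W K 5 ((cc).dArr p (idx P e k) c.i) (arC (idx P e k) c) []
      (arrT P leaf (FE P X e) (Xe P X e) k c.i c) ((cc).cArr (idx P e k) c.i) := by
  have hp := hc.p
  have d1 : (cc).dF p e ≤ (cc).dLow p (idx P e k) := CP.dF_le_low
  have d2 : (cc).dLow p (idx P e k) + p ≤ (cc).dArr p (idx P e k) c.i := CP.dArr_low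
  have d3 : (cc).dBody p (idx P e k) c.i + p ≤ (cc).dArr p (idx P e k) c.i := CP.dArr_ok
  obtain ⟨n, hn⟩ : ∃ n, (cc).dArr p (idx P e k) c.i = n + 2 :=
    ⟨(cc).dArr p (idx P e k) c.i - 2, by omega⟩
  have e1 := idx_div (P := P) (e := e) hk
  have e2 : c.i - 1 = i := by omega
  rw [hn]
  have hb : ∀ c' ∈ abod P c, c'.i = i + 1 := fun c' hc' => by
    rw [(mem_abod P hc').1, hi]
  have h1 := phA_cz_pos (G := G) (W := W) (K := K) (Z := Z) (n := n) (ph := ph) (P := P) (c := c)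
    (l := idx P e k) (la := la) (lf := lf) (leaf := leaf) (F := FE P X e)
    (X := Xe P X e) (k := k) (CF := (cc).cF e c.i) (CB := (cc).cBody (idx P e k) (i + 1))
    H.h5 H.env H.N0 (Z12 H) (H.t5 _ _ (arrI_top H h)) (by omega)
    (fun c' hc' => by
      rw [e2]
      exact (hB c' (h.body hc') (hb c' hc')).mono (by rw [hi] at d3 hn; omega) le_rfl)
    (fun y hy => by
      rw [e1]
      have := hF y (csts_dom h.nd hy)
      rw [(csts_ij hy).1] at this
      exact this.mono (by omega) le_rfl)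
    (fun y hy => H.b4 _)
    (fun c' hc' => by
      rw [e2]
      exact B_wd H he.le (h.body hc') (hb c' hc'))
    (fun y hy => F_lt H (csts_dom h.nd hy))
    (arOk_A H (by norm_num) ((idx_le he hk).trans H.lx) h)
    (fun c' hc' => arOk_B H (by norm_num) ((idx_le he hk).trans H.lx) (h.body hc'))
    (fun y hy => by
      rw [e1]
      exact arOk_S H (by norm_num) (e_Lx H he.le) (Nat.zero_le _) (csts_dom h.nd hy))
    (by
      have h3 := PgZ692.abod_csts_ZP P c
      have h4 := H.zp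
      rw [PgZ692.csts_len]
      omega)
    (A_wd H he.le h)
  refine h1.mono le_rfl ?_
  have hz := hc.zc
  have h2 : (csts P c).length ≤ Zc := by
    rw [PgZ692.csts_len]; exact (PgZ692.csz_ZP P c.κ).trans hz
  have h3 := CpU776.arr_req (P := P) (Z := Zc) (t0 := t0) (lf := lc) (H := I) (b0 := b0) H.K1
    (e := e) (k := k) (i := i) (PgZ692.abod_len P c) h2
  have ht := hc.t
  rw [hi]
  unfold idx
  omega

/-- **BODY, macro height `i + 1`** -/
theorem bodyS (hc : HC P Zc t0 p) {e k i : ℕ} (he : e < P.E) (hk : k < P.K)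
    (hF : RF G W K P I X e ((cc).dF p e) ((cc).cF e))
    (hX : ∀ j < k, RX G W K P I K0 X (idx P e j) ((cc).dX p (idx P e j)) ((cc).cX (idx P e j)))
    (hA : ∀ c, ArrI P I K0 c → c.i = i →
      Cz G W K 5 ((cc).dArr p (idx P e k) i) (arC (idx P e k) c) []
        (arrT P leaf (FE P X e) (Xe P X e) k i c) ((cc).cArr (idx P e k) i))
    {c : Cel} (h : BodI P I K0 c) (hi : c.i = i + 1) :
    Cz G W K 6 ((cc).dBody p (idx P e k) (i + 1)) (arC (idx P e k) c) []
      (bodyT P leaf (FE P X e) (Xe P X e) k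
        (fun c' => arrT P leaf (FE P X e) (Xe P X e) k i c') c)
      ((cc).cBody (idx P e k) (i + 1)) := by
  have hp := hc.p
  have hZ := Z12 H
  have d1 : (cc).dF p e ≤ (cc).dLow p (idx P e k) := CP.dF_le_low
  have d2 : (cc).dLow p (idx P e k) + p ≤ (cc).dBody p (idx P e k) (i + 1) := CP.dBody_low
  have d3 : (cc).dArr p (idx P e k) i + p ≤ (cc).dBody p (idx P e k) (i + 1) := CP.dBody_ok
  obtain ⟨n, hn⟩ : ∃ n, (cc).dBody p (idx P e k) (i + 1) = n + 3 :=
    ⟨(cc).dBody p (idx P e k) (i + 1) - 3, by omega⟩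
  have e1 := idx_div (P := P) (e := e) hk
  have e2 := idx_mod (P := P) (e := e) hk
  have h1i : 1 ≤ c.i := by omega
  have hlx : idx P e k ≤ Lx := (idx_le he hk).trans H.lx
  have hcls : ∀ y, Dom P I y → cls (FE P X e) y + P.a2 ≤ K0 := fun y hy => H.fh.log_FE hy
  have hbst : ∀ y ∈ bst P c, Dom P I y := fun y hy =>
    PgL172.bst_dom H.r h.nd.1 h.nd.2 h1i hy
  have hcel : ∀ y ∈ cells P c, Dom P I y := fun y hy => PgL172.cells_dom h.nd.1 h.nd.2 hy
  have hrpr : ∀ a ∈ rpr k (bpr P (FE P X e) c), a.1 < k ∧ a.2 ∈ Om P I K0 ∧ a.2.2.i = i := by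
    intro a ha
    obtain ⟨ha1, ha2⟩ := PgL172.mem_rpr_iff.1 ha
    exact ⟨ha1, PgL172.bpr_Om H.r h.nd.1 h.nd.2 h1i H.grd hcls ha2, by
      rw [PgL172.bpr_i ha2]; omega⟩
  have hkey : ∀ ρ, ∀ key ∈ bkeys P c.κ c.m ρ, ArrI P I K0 (bcel P c key) ∧
      (bcel P c key).i = i := fun ρ key hkey => ⟨h.arr h1i hkey, by
        show c.i - 1 = i
        omega⟩
  have hidx : ∀ j < k, idx P e j ≤ Lx := fun j hj => (idx_le he (hj.trans hk)).trans H.lx
  rw [hn]
  have h1 := body_cz (P := P) (G := G) (W := W) (K := K) (Z := Z) (tg := 6) (n := n) (ph := ph)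
    (a := arC (idx P e k) c) (c := c) H.h6 H.env H.N0 H.NM
    (encA := fun c' => qA (idx P e k) c') (encF := qF e) (encG := fun y => 3 :: la y)
    (encX := fun a => qX (idx P e a.1) a.2.1 a.2.2) (leaf := leaf) (lf := lf) (g := g)
    (fun y _ => H.hl y) (F := FE P X e) (X := Xe P X e) (k := k)
    (sub := fun c' => arrT P leaf (FE P X e) (Xe P X e) k i c')
    (CA := (cc).cArr (idx P e k) i) (CF := (cc).low (idx P e k) (i + 1))
    (CX := (cc).low (idx P e k) (i + 1)) (CG := lc) (nB := Cnt308.nB P)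
    (by
      have := H.t6.p0 (idx P e k) c (bodI_top H h)
      rw [e1] at this
      exact this)
    (fun u0 hu0 => by
      have := H.t6.p1 (idx P e k) c (bodI_top H h) (FE P X e) u0 hu0
      rw [e1, e2] at this
      exact this)
    (fun u0 hu0 u1 hu1 => by
      have := H.t6.p2 (idx P e k) c (bodI_top H h) (FE P X e) u0 hu0 u1 (by rw [e2]; exact hu1)
      rw [e2] at this
      exact this)
    (fun y hy => by
      refine (hF.rq H.b4 (hbst y hy)).mono (by omega) ?_
      refine CpU776.cF_low H.K1 (e := e) (k := k) ?_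
      rcases PgL172.bst_i hy with h3 | h3 <;> omega)
    (fun ρ key hk' => by
      obtain ⟨h3, h4⟩ := hkey ρ key hk'
      rw [qA_eq]
      exact cal4 ((hA _ h3 h4).mono (by omega) le_rfl))
    (fun a ha => by
      obtain ⟨h3, h4, h5⟩ := hrpr a ha
      refine (hX a.1 h3 a.2.1 a.2.2 h4).mono ?_ ?_
      · have : (cc).dX p (idx P e a.1) ≤ (cc).dLow p (idx P e k) :=
          CP.dX_le_low (by unfold idx; omega)
        omega
      · rw [h5]
        exact CpU776.cX_low H.K1 (by unfold idx; omega) (by omega))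
    (fun y hy => by
      obtain ⟨h3, h4, h5⟩ := H.lv y (hcel y hy)
      have h6 : Rq G W (n + 1) (3 :: la y) (.ret (W.E (la y))) (W.cE (la y)) :=
        Phe940.Rq.ext (q := 3 :: la y) (by simp [Phe940.kq]) h3
      rw [PrK690.wrapQ_three, ← h4]
      exact h6.mono le_rfl h5)
    (fun ρ key hk' => by
      obtain ⟨h3, h4⟩ := hkey ρ key hk'
      have h5 := A_wd (k := k) H he.le h3
      rw [h4] at h5
      exact h5)
    (fun y hy => F_lt H (hbst y hy)) (fun y hy => H.lg y (hcel y hy))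
    (fun a ha => by
      obtain ⟨h3, h4, -⟩ := hrpr a ha
      exact H.fh.val _ (idx_le he (h3.trans hk)) _ h4)
    (fun ρ key hk' => by
      obtain ⟨h3, -⟩ := hkey ρ key hk'
      rw [qA_eq]
      exact cal_wd H.env hZ (by norm_num) (arOk_A H (by norm_num) hlx h3))
    (fun y hy => H.fh.qF_wd H.env (e_lt H he.le) (hbst y hy))
    (fun y hy => H.lw y (hcel y hy))
    (fun a ha => by
      obtain ⟨h3, h4, -⟩ := hrpr a ha
      exact H.fh.qX_wd H.env ((hidx a.1 h3).trans_lt H.fit.lx) h4)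
    (arOk_B H (by norm_num) hlx h)
    (fun ρ => Cnt308.bkeys_len P c.κ c.m ρ)
    (by
      have h3 := PgZ692.words_ZP P
      have h4 := PgZ692.bst_ZP P c
      have h5 := H.zp
      unfold nwd
      omega)
    (by
      have h3 := PgZ692.bpr_len P (FE P X e) c
      have h4 : k * (bpr P (FE P X e) c).length ≤ (P.K + 1) * PgZ692.nQ P :=
        Nat.mul_le_mul (by omega) h3
      have h5 := PgZ692.csz_le P c.κ
      have h6 := H.zp
      rw [PgZ692.rpr_len, PgZ692.cells_len]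
      unfold ZP at h6
      omega)
    (B_wd H he.le h hi)
  refine h1.mono le_rfl ?_
  have hz := hc.zc
  have h3 : (bst P c).length ≤ Zc := (PgZ692.bst_ZP P c).trans hz
  have h4 : (cells P c).length ≤ Zc := by
    rw [PgZ692.cells_len]; exact (PgZ692.csz_ZP P c.κ).trans hz
  have h5 : (rpr k (bpr P (FE P X e) c)).length ≤ P.K * Zc := by
    rw [PgZ692.rpr_len]
    exact Nat.mul_le_mul hk.le ((PgZ692.bpr_ZP P _ c).trans hz)
  have h6 := CpU776.body_req (P := P) (Z := Zc) (t0 := t0) (lf := lc) (H := I) (b0 := b0) H.K1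
    (l := idx P e k) (i := i) (nw := nwd P) (nb := Cnt308.nB P) le_rfl le_rfl h3 h4 h5
  have ht := hc.t
  omega

/-- **X** -/
theorem xS (hc : HC P Zc t0 p) {e k : ℕ} (he : e < P.E) (hk : k < P.K)
    (hF : RF G W K P I X e ((cc).dF p e) ((cc).cF e))
    (hA : ∀ c, ArrI P I K0 c →
      Cz G W K 5 ((cc).dArr p (idx P e k) c.i) (arC (idx P e k) c) []
        (arrT P leaf (FE P X e) (Xe P X e) k c.i c) ((cc).cArr (idx P e k) c.i)) :
    RX G W K P I K0 X (idx P e k) ((cc).dX p (idx P e k)) ((cc).cX (idx P e k)) := by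
  intro κ z hz
  have hp := hc.p
  have hZ := Z12 H
  obtain ⟨hκ, hD⟩ := mem_Om.1 hz
  simp only at hκ hD
  have hzi : z.i ≤ I := hD.1
  have hcell : ArrI P I K0 (celOf κ z) := ArrI.of_state hD hκ
  have d1 : (cc).dF p e ≤ (cc).dLow p (idx P e k) := CP.dF_le_low
  have d2 : (cc).dLow p (idx P e k) + p ≤ (cc).dX p (idx P e k) := CP.dX_low
  have d3 : (cc).dArr p (idx P e k) z.i + p ≤ (cc).dX p (idx P e k) := CP.dX_ok hzi
  obtain ⟨n, hn⟩ : ∃ n, (cc).dX p (idx P e k) = n + 3 := ⟨(cc).dX p (idx P e k) - 3, by omega⟩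
  have e1 := idx_div (P := P) (e := e) hk
  have hlx : idx P e k ≤ Lx := (idx_le he hk).trans H.lx
  have h1 := x_cz (P := P) (G := G) (W := W) (K := K) (Z := Z) (ph := ph) H.h3 H.env hZ H.N0
    (n := n) (leaf := leaf) (F := FE P X e) (X := Xe P X e) (k := k) (l := idx P e k) (κ := κ)
    (z := z) (CF := (cc).cF e z.i) (CA := (cc).cArr (idx P e k) z.i)
    (H.t3 _ _ _ (by have := H.tp; omega))
    (by
      rw [e1]
      exact (hF z hD).mono (by omega) le_rfl)
    (H.b4 _)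
    (fun _ => (hA _ hcell).mono (by
      show (cc).dArr p (idx P e k) z.i ≤ n + 1
      omega) le_rfl)
    (fun _ => A_wd H he.le hcell)
    (F_lt H hD)
    (arOk_S H (by norm_num) hlx hκ hD)
    (by
      rw [e1]
      exact arOk_S H (by norm_num) (e_Lx H he.le) (Nat.zero_le _) hD)
    (fun _ => arOk_A H (by norm_num) hlx hcell)
    (by
      have h3 := PgZ692.lanes_ZP P
      have h4 := H.zp
      omega)
    (Vs.num (H.vs e he.le) (by have := H.tp; omega) ⟨hD.1, hD.2.1⟩ hD.inD)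
  have h2 : ((numPair P leaf (FE P X e) (Xe P X e) k κ z).map fun v => [v]).nxt W.N W.Z
      (G.base (fr K 3 (arS (idx P e k) κ z) [])) ≤ W.Pm := by
    rw [nxt_map]
    exact H.nxt e he k hk κ z hz
  have h3 := cal5 h1 h2
  have h4 : ((numPair P leaf (FE P X e) (Xe P X e) k κ z).map fun v => [v]).val W.N W.Z
      (G.base (fr K 3 (arS (idx P e k) κ z) [])) = [X (idx P e k) (κ, z)] := by
    rw [val_map, H.val e he k hk κ z hz]
  rw [h4] at h3
  rw [qX_eq (by unfold idx; omega), hn]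
  refine h3.mono le_rfl ?_
  have h5 := CpU776.x_req (P := P) (Z := Zc) (t0 := t0) (lf := lc) (H := I) (b0 := b0) H.K1
    (e := e) (k := k) (i := z.i) (n := P.gX * P.mX) hzi le_rfl
  have ht := hc.t
  unfold idx
  omega

end

/-! ### the induction of 726 -/

/-- the claims -/
def fam (G : Prg) (W : Wld) (K : KN) (P : Par) (I K0 : ℕ) (X : ℕ → ℕ × St → ℕ)
    (leaf : St → Option ℕ) (c : CP) (p : ℕ) : PgI726.Fam where
  X := fun l κ z => Rq G W (c.dX p l) (wrapQ K (qX l κ z)) (.ret [X l (κ, z)]) (c.cX l z.i)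
  F := fun e y => Cz G W K 4 (c.dF p e) (arS e 0 y) [] (.ret [FE P X e y]) (c.cF e y.i)
  A := fun l d => Cz G W K 5 (c.dArr p l d.i) (arC l d) []
    (arrT P leaf (FE P X (epo P l)) (Xe P X (epo P l)) (rnk P l) d.i d) (c.cArr l d.i)
  B := fun l d => Cz G W K 6 (c.dBody p l d.i) (arC l d) []
    (bodyT P leaf (FE P X (epo P l)) (Xe P X (epo P l)) (rnk P l)
      (fun c' => arrT P leaf (FE P X (epo P l)) (Xe P X (epo P l)) (rnk P l) (d.i - 1) c') d)
    (c.cBody l d.i)
  okX := fun _ κ z => (κ, z) ∈ Om P I K0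
  okF := fun _ y => Dom P I y
  okA := fun _ d => ArrI P I K0 d
  okB := fun _ d => BodI P I K0 d

section

variable (H : HP G W K Z ph P I K0 Lx top X leaf la lf g lc)

include H

/-- **all fields of 726's induction** -/
theorem dep (hc : HC P Zc t0 p)
    (h0 : RX G W K P I K0 X 0 ((cc).dX p 0) ((cc).cX 0)) :
    (fam G W K P I K0 X leaf (cc) p).Dep P.K (P.E * P.K + 1) where
  init := h0
  f0 := fun hX => PgF380.F_zero (cp := cc) H.h4 H.env H.t4 H.fh (CpU776.ok H.K1)
    (by have := hc.u; exact this) (by have := hc.t; show 4 ≤ t0; omega) (le_refl 1) hc.p hX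
  fs := fun e he hF hX => by
    have he' : e < P.E := by
      have h1 : (e + 1) * P.K ≤ P.E * P.K := by
        have : (e + 1) * P.K = e * P.K + P.K := by ring
        omega
      exact Nat.le_of_mul_le_mul_right h1 H.K1
    exact PgF380.F_succ (cp := cc) H.h4 H.env H.t4 H.fh H.b4 (CpU776.ok H.K1) rfl
      (by have := hc.u; show uP P ≤ Zc; omega) (by have := hc.t; show 4 ≤ t0; omega) (le_refl 1)
      hc.p he' hF hX
  a0 := fun e k hk hT hF d hd hi => by
    have he : e < P.E := lt_of_idx hT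
    have h1 := arr0 (b0 := b0) H hc he hk hF hd hi
    show Cz G W K 5 _ (arC _ d) [] (arrT P leaf (FE P X (epo P (idx P e k)))
      (Xe P X (epo P (idx P e k))) (rnk P (idx P e k)) d.i d) _
    rw [epo_idx hk, rnk_idx hk]
    exact h1
  as := fun e k i hk hT hF hB d hd hi => by
    have he : e < P.E := lt_of_idx hT
    have h1 := arrS (b0 := b0) H hc he hk hF (fun c hc' hi' => by
      have h2 := hB c hc' hi'
      have h3 : Cz G W K 6 ((cc).dBody p (idx P e k) c.i) (arC (idx P e k) c) []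
        (bodyT P leaf (FE P X (epo P (idx P e k))) (Xe P X (epo P (idx P e k)))
          (rnk P (idx P e k)) (fun c' => arrT P leaf (FE P X (epo P (idx P e k)))
            (Xe P X (epo P (idx P e k))) (rnk P (idx P e k)) (c.i - 1) c') c)
        ((cc).cBody (idx P e k) c.i) := h2
      rw [epo_idx hk, rnk_idx hk, hi'] at h3
      exact h3) hd hi
    show Cz G W K 5 _ (arC _ d) [] (arrT P leaf (FE P X (epo P (idx P e k)))
      (Xe P X (epo P (idx P e k))) (rnk P (idx P e k)) d.i d) _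
    rw [epo_idx hk, rnk_idx hk]
    exact h1
  bs := fun e k i hk hT hF hX hA d hd hi => by
    have he : e < P.E := lt_of_idx hT
    have h1 := bodyS (b0 := b0) H hc he hk hF (fun j hj => hX j hj) (fun c hc' hi' => by
      have h2 := hA c hc' hi'
      have h3 : Cz G W K 5 ((cc).dArr p (idx P e k) c.i) (arC (idx P e k) c) []
        (arrT P leaf (FE P X (epo P (idx P e k))) (Xe P X (epo P (idx P e k)))
          (rnk P (idx P e k)) c.i c) ((cc).cArr (idx P e k) c.i) := h2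
      rw [epo_idx hk, rnk_idx hk, hi'] at h3
      exact h3) hd hi
    show Cz G W K 6 ((cc).dBody p (idx P e k) d.i) (arC (idx P e k) d) []
      (bodyT P leaf (FE P X (epo P (idx P e k))) (Xe P X (epo P (idx P e k)))
        (rnk P (idx P e k)) (fun c' => arrT P leaf (FE P X (epo P (idx P e k)))
          (Xe P X (epo P (idx P e k))) (rnk P (idx P e k)) (d.i - 1) c') d)
      ((cc).cBody (idx P e k) d.i)
    rw [epo_idx hk, rnk_idx hk, hi]
    exact h1
  x := fun e k hk hT hF hA => by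
    have he : e < P.E := lt_of_idx hT
    refine xS (b0 := b0) H hc he hk hF fun c hc' => ?_
    have h2 := hA c.i c hc' rfl
    have h3 : Cz G W K 5 ((cc).dArr p (idx P e k) c.i) (arC (idx P e k) c) []
      (arrT P leaf (FE P X (epo P (idx P e k))) (Xe P X (epo P (idx P e k)))
        (rnk P (idx P e k)) c.i c) ((cc).cArr (idx P e k) c.i) := h2
    rw [epo_idx hk, rnk_idx hk] at h3
    exact h3

/-- **all numbers** -/
theorem allX (hc : HC P Zc t0 p) (h0 : RX G W K P I K0 X 0 ((cc).dX p 0) ((cc).cX 0)) {l : ℕ}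
    (hl : l ≤ P.E * P.K) : RX G W K P I K0 X l ((cc).dX p l) ((cc).cX l) :=
  (dep H hc h0).allX H.K1 l (Nat.lt_succ_of_le hl)

/-- **all unit functions** -/
theorem allF (hc : HC P Zc t0 p) (h0 : RX G W K P I K0 X 0 ((cc).dX p 0) ((cc).cX 0)) {e : ℕ}
    (he : e ≤ P.E) : RF G W K P I X e ((cc).dF p e) ((cc).cF e) :=
  (dep H hc h0).allF' H.K1 (by
    have : e * P.K ≤ P.E * P.K := Nat.mul_le_mul_right _ he
    omega) (Nat.succ_pos _)

end

end steps

end Crest.Agent.R288.PgJ763
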