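import Crest.Agent.R288.PgWb_155

/-!
# R288, [PROG] P7 (helper155): fuel of the engine, pointer bounds

`p` = number of phases of a procedure (+ 1), `U` = fuel of `EST` / `U` (index 0), `I` = macro height of the
root, `K` = ranks of an epoch.  One number for every call of the program:

* `nX l` number of index `l`, `nF e` unit function, `nH l` hull numbers of index `l`,
  `nA l i`, `nB l i` tables ARR / BODY of index `l` at macro height `i`
* every callee + `p` is below its caller (`U_nX`, `nX_nF`, `nF_nF`, `nA_nB`, `nB_nA`, `nA_nX`, ...)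
* `fuel_ev` : everything is below `L`
* `nxt_idx` : the pointer of index `l` stays below the number of tape words
-/

set_option autoImplicit false

namespace Crest.Agent.R288.PgP7155

open Filter Crest.Agent.R288.Asy720 Crest.Agent.R288.Pl726 Crest.Agent.R288.Shell12
open Crest.Agent.R288.Front327 Crest.Agent.R288.Par806 Crest.Agent.R288.PgG8155
open Crest.Agent.R288.Cnt308 Crest.Agent.R288.Alg45 Crest.Agent.R295.Rnd627
open Crest.Agent.R288.InitN775 Crest.Agent.R288.Asm331 Crest.Agent.R288.Asm12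
open Crest.Agent.R288.Tape829 Crest.Agent.R288.Init772 Crest.Agent.R288.PgW155

/-! ### fuel -/

section fuel

variable (p U I K : ℕ)

/-- number of index `l` -/
def nX (l : ℕ) : ℕ := U + p + l * (p * (2 * I + 6))
/-- unit function of epoch `e` -/
def nF (e : ℕ) : ℕ := nX p U I (e * K) + p
/-- hull numbers of index `l` -/
def nH (l : ℕ) : ℕ := nX p U I l + p
/-- BODY of index `l` at macro height `i` -/
def nB (l i : ℕ) : ℕ := nX p U I (l - 1) + 3 * p + 2 * p * i
/-- ARR of index `l` at macro height `i` -/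
def nA (l i : ℕ) : ℕ := nX p U I (l - 1) + 4 * p + 2 * p * i

variable {p U I K}

theorem U_nX (l : ℕ) : U + p ≤ nX p U I l := Nat.le_add_right _ _

theorem nX_mono {l l' : ℕ} (h : l ≤ l') : nX p U I l ≤ nX p U I l' :=
  Nat.add_le_add_left (Nat.mul_le_mul_right _ h) _

theorem nX_succ (l : ℕ) : nX p U I (l + 1) = nX p U I l + p * (2 * I + 6) := by
  unfold nX
  rw [Nat.add_mul, Nat.one_mul]
  omega

theorem nX_add6 {l l' : ℕ} (h : l < l') : nX p U I l + 6 * p ≤ nX p U I l' := by
  have h1 := nX_mono (p := p) (U := U) (I := I) (show l + 1 ≤ l' from h)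
  rw [nX_succ] at h1
  have h2 : 6 * p ≤ p * (2 * I + 6) := by
    rw [Nat.mul_comm 6 p]
    exact Nat.mul_le_mul_left _ (by omega)
  omega

/-- `F` calls the numbers of the epoch before -/
theorem nX_nF {e k : ℕ} (hk : k < K) : nX p U I (1 + e * K + k) + p ≤ nF p U I K (e + 1) := by
  unfold nF
  refine Nat.add_le_add_right (nX_mono ?_) _
  rw [Nat.add_mul, Nat.one_mul]
  omega

theorem nX_nF_zero : nX p U I 0 + p ≤ nF p U I K 0 := by
  unfold nF
  rw [Nat.zero_mul]

/-- `F` calls `F` of the epoch before -/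
theorem nF_nF (hK : 0 < K) (e : ℕ) : nF p U I K e + p ≤ nF p U I K (e + 1) := by
  unfold nF
  have := nX_add6 (p := p) (U := U) (I := I) (show e * K < (e + 1) * K by
    rw [Nat.add_mul, Nat.one_mul]; omega)
  omega

theorem nF_mono {e e' : ℕ} (h : e ≤ e') : nF p U I K e ≤ nF p U I K e' :=
  Nat.add_le_add_right (nX_mono (Nat.mul_le_mul_right _ h)) _

/-- the unit function below an index of the epoch -/
theorem nF_le {e l : ℕ} (h : e * K < l) : nF p U I K e ≤ nX p U I (l - 1) + p :=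
  Nat.add_le_add_right (nX_mono (by omega)) _

theorem nF_nX {e l : ℕ} (h : e * K < l) : nF p U I K e + p ≤ nX p U I l := by
  unfold nF
  have := nX_add6 (p := p) (U := U) (I := I) h
  omega

theorem nF_nH {e l : ℕ} (h : e * K < l) : nF p U I K e + p ≤ nH p U I l := by
  have := nF_nX (p := p) (U := U) (I := I) h
  unfold nH
  omega

theorem nX_nH (l : ℕ) : nX p U I l + p ≤ nH p U I l := le_rfl

theorem nF_nA {e l : ℕ} (h : e * K < l) (i : ℕ) : nF p U I K e + p ≤ nA p U I l i := by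
  have := nF_le (p := p) (U := U) (I := I) h
  unfold nA
  omega

theorem nF_nB {e l : ℕ} (h : e * K < l) (i : ℕ) : nF p U I K e + p ≤ nB p U I l i := by
  have := nF_le (p := p) (U := U) (I := I) h
  unfold nB
  omega

theorem nX_nB {l l' : ℕ} (h : l' < l) (i : ℕ) : nX p U I l' + p ≤ nB p U I l i := by
  have := nX_mono (p := p) (U := U) (I := I) (show l' ≤ l - 1 by omega)
  unfold nB
  omega

theorem nH_nB {l l' : ℕ} (h : l' < l) (i : ℕ) : nH p U I l' + p ≤ nB p U I l i := by
  have := nX_mono (p := p) (U := U) (I := I) (show l' ≤ l - 1 by omega)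
  unfold nB nH
  omega

/-- BODY calls ARR one macro height below -/
theorem nA_nB (l i : ℕ) : nA p U I l i + p ≤ nB p U I l (i + 1) := by
  unfold nA nB
  rw [Nat.mul_add, Nat.mul_one]
  omega

/-- ARR calls BODY at the same height -/
theorem nB_nA (l i : ℕ) : nB p U I l i + p ≤ nA p U I l i := by
  unfold nA nB
  omega

theorem nA_mono (l : ℕ) {i i' : ℕ} (h : i ≤ i') : nA p U I l i ≤ nA p U I l i' :=
  Nat.add_le_add_left (Nat.mul_le_mul_left _ h) _

theorem nB_mono (l : ℕ) {i i' : ℕ} (h : i ≤ i') : nB p U I l i ≤ nB p U I l i' :=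
  Nat.add_le_add_left (Nat.mul_le_mul_left _ h) _

/-- X calls ARR at the height of its state -/
theorem nA_nX {l : ℕ} (hl : 0 < l) {i : ℕ} (hi : i ≤ I) : nA p U I l i + p ≤ nX p U I l := by
  obtain ⟨l, rfl⟩ := Nat.exists_eq_succ_of_ne_zero hl.ne'
  have h1 : nX p U I (l + 1) = nX p U I l + p * (2 * I + 6) := nX_succ l
  have h2 := nA_mono (p := p) (U := U) (I := I) (l + 1) hi
  have h3 : nA p U I (l + 1) I = nX p U I l + 4 * p + 2 * p * I := rfl
  have h4 : p * (2 * I + 6) = 6 * p + 2 * p * I := by ring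
  rw [Nat.succ_eq_add_one, h1, h4]
  omega

/-- the largest one -/
theorem le_top {E l : ℕ} (hl : l ≤ E * K) : nX p U I l + p ≤ nF p U I K E :=
  Nat.add_le_add_right (nX_mono hl) _

end fuel

/-- **fuel `≤ L`**, for every polynomial fuel of index 0 and every number of phases -/
theorem fuel_ev (p C : ℕ) : ∀ᶠ h : ℕ in atTop, ∀ L : ℕ, Nat.clog 2 L = h →
    ∀ U ≤ C * (h + 1) ^ C, nF p U (II h) (KK h) (EE h) + C * p + C ≤ L := by
  filter_upwards [ev_work 1 0 (by norm_num), depth_ev' (2 * C + 10 * p * (C + 2) + 2 * C + 10),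
    eventually_ge_atTop 1] with h h1 h2 h3 L hL U hU
  have hLg := Lg_pos h
  have e1 : EE h * KK h ≤ h := by
    have : EE h * KK h + 1 ≤ h := by
      refine le_trans ?_ h1
      simp only [pow_zero, mul_one, one_mul]
      exact Nat.le_mul_of_pos_right _ hLg
    omega
  have e2 : II h ≤ h + 1 := Nat.add_le_add_right (Nat.div_le_self _ _) 1
  have e3 : EE h * KK h * (p * (2 * II h + 6)) ≤ 8 * p * (h + 1) ^ 2 := by
    calc EE h * KK h * (p * (2 * II h + 6)) ≤ (h + 1) * (p * (8 * (h + 1))) := by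
          refine Nat.mul_le_mul (by omega) (Nat.mul_le_mul_left _ (by omega))
      _ = 8 * p * (h + 1) ^ 2 := by ring
  refine le_trans ?_ (h2 L hL)
  unfold nF nX
  set D := 2 * C + 10 * p * (C + 2) + 2 * C + 10 with hD
  have e4 : 1 ≤ h + 1 := by omega
  have e5 : C * (h + 1) ^ C ≤ C * (h + 1) ^ D := Nat.mul_le_mul_left _ (Nat.pow_le_pow_right e4 (by omega))
  have e6 : 8 * p * (h + 1) ^ 2 ≤ 8 * p * (h + 1) ^ D :=
    Nat.mul_le_mul_left _ (Nat.pow_le_pow_right e4 (by omega))
  have e7 : 1 ≤ (h + 1) ^ D := Nat.one_le_pow _ _ e4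
  have e8 : p ≤ p * (h + 1) ^ D := Nat.le_mul_of_pos_right _ e7
  have e9 : C * p ≤ C * p * (h + 1) ^ D := Nat.le_mul_of_pos_right _ e7
  have e10 : C ≤ C * (h + 1) ^ D := Nat.le_mul_of_pos_right _ e7
  calc U + p + EE h * KK h * (p * (2 * II h + 6)) + p + C * p + C
      ≤ C * (h + 1) ^ D + p * (h + 1) ^ D + 8 * p * (h + 1) ^ D + p * (h + 1) ^ D +
        C * p * (h + 1) ^ D + C * (h + 1) ^ D := by omega
    _ = (2 * C + (10 + C) * p) * (h + 1) ^ D := by ring
    _ ≤ D * (h + 1) ^ D := by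
        refine Nat.mul_le_mul_right _ ?_
        rw [hD]
        nlinarith [Nat.zero_le (p * C)]

/-! ### pointers -/

/-- **the pointer of index `l`** starts at `l * nW r h` and stays below the number of tape words -/
theorem nxt_idx {K r h D m p M : ℕ} {x y : List ℕ} (hM : 0 < M) (hw : PwI K r h) {P : Alg45.Par}
    (hS : Szs K h P) (hD : D ≤ K * Lg h) (hm0 : m ≠ 0) (hm : m ≤ 2 ^ (K * Lg h))
    (leaf : St → Option ℕ) {l A : ℕ} (hl : l ≤ A) (Xs : ℕ → ℕ × St → ℕ) (s : ℕ × St)
    (hs : s.2.i ≤ II h) (ρ : ℕ → ℕ) :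
    (tapeRT P leaf (iniU (par (gI h) D m) p x y (nn h)) l Xs s).nxt M ρ (l * nW r h) ≤
      (A + 1) * nW r h := by
  have h1 : Cnt308.Dr M (nW r h)
      (tapeRT P leaf (iniU (par (gI h) D m) p x y (nn h)) l Xs s) := by
    refine (tapeRT_dr' M leaf (wU := nW r h) (H := II h) (fun y' hy' =>
      iniU_words hM hw hS hD hm0 hm y' hy') l Xs s hs).mono ?_
    split
    · exact le_rfl
    · exact le_trans (Nat.le_add_left _ _) (hw P hS D m 0 hD hm0 hm (Nat.zero_le _))
  have h2 := (dr_of_829 hM).2 h1 ρ (l * nW r h)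
  refine h2.trans ?_
  rw [Nat.add_mul, Nat.one_mul]
  exact Nat.add_le_add_right (Nat.mul_le_mul_right _ hl) _

/-- the number of words of a lane of macro height `i ≤ II h`, from any pointer -/
theorem nxt_arr {K r h D m M : ℕ} (hM : 0 < M) (hw : PwI K r h) {P : Alg45.Par}
    (hS : Szs K h P) (hD : D ≤ K * Lg h) (hm0 : m ≠ 0) (hm : m ≤ 2 ^ (K * Lg h))
    (hX : 0 < P.gX * P.mX) (leaf : St → Option ℕ) (F : St → ℕ) (X : ℕ → ℕ → St → ℕ) (k i : ℕ)
    (hi : i ≤ II h) (c : Cel) (ρ : ℕ → ℕ) (q : ℕ) :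
    (arrT P leaf F X k i c).nxt M ρ q ≤ q + nW r h := by
  have h1 : Cnt308.Dr M (nW r h) (arrT P leaf F X k i c) := by
    refine (arrT_dr M leaf F X k i c).mono ((wd_mono hi).trans ?_)
    refine le_trans ?_ (hw P hS D m 0 hD hm0 hm (Nat.zero_le _))
    exact (Nat.le_mul_of_pos_left _ hX).trans (Nat.le_add_left _ _)
  exact (dr_of_829 hM).2 h1 ρ q

end Crest.Agent.R288.PgP7155
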