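import Crest.Agent.R288.AsmD_331
import Crest.Agent.R288.PgP7_155

/-!
# R288, [WORDS] part C (helper155): words, draws and pointers at the concrete configuration `cfgO`

* `ev_szs`      : `Szs 200 h (parOf h)`
* `WOk h`       : all eventual facts of this leaf, `ev_WOk`
* **`words_cfgO`** : the words part of `ProgStm`, for `fR = fW rW`
* **`draws_cfgO`** : the hypotheses `ho`, `hS` of `ofSys_prob` / `Cfg.probBlock` at `cfgO`
* **`nxt_cfgO`**   : the pointer of index `l` stays below the number of tape words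
-/

set_option autoImplicit false

namespace Crest.Agent.R288.PgW155

open Filter Crest.Agent.R288.Asy720 Crest.Agent.R288.Pl726 Crest.Agent.R288.Shell12
open Crest.Agent.R288.Front327 Crest.Agent.R288.Par806 Crest.Agent.R288.PgG8155
open Crest.Agent.R288.ParO331
open Crest.Agent.R288.Cnt308 Crest.Agent.R288.Alg45 Crest.Agent.R295.Rnd627
open Crest.Agent.R288.InitN775 Crest.Agent.R288.Asm331 Crest.Agent.R288.Asm12
open Crest.Agent.R288.PltT365 Crest.Agent.R288.Top791 Crest.Agent.R288.Tape829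
open Crest.Agent.R288.Init772 Crest.Agent.R288.Dom20

/-! ### sizes of the table -/

theorem lt_two_pow_le (a : ℕ) : a ≤ 2 ^ a := (Nat.lt_two_pow_self).le

/-- **the sizes of the table** -/
theorem ev_szs : ∀ᶠ h : ℕ in atTop, Szs 200 h (parOf h) := by
  filter_upwards [ev_le_two_pow_Mg 17 1 1 0, ev_le_two_pow_Mg 13 2 1 0] with h h1 h2
  simp only [pow_one, pow_zero, mul_one] at h1 h2
  have hM := Mg_pos h
  have hW := W_pos h
  have hL := Lg_pos h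
  have hWL : 1 ≤ W h * Lg h := Nat.mul_pos hW hL
  have p5 : 32 ≤ 2 ^ (5 * Mg h) := by
    calc 32 = 2 ^ 5 := by norm_num
      _ ≤ _ := Nat.pow_le_pow_right (by norm_num) (by omega)
  refine ⟨rfl, ?_, ?_, ?_, ?_, ?_, ?_, ?_⟩
  · show dl h + 8 + 1 ≤ _
    calc dl h + 8 + 1 ≤ 17 * W h * Lg h := by
          have e : dl h = 8 * (W h * Lg h) := by unfold dl; ring
          have e' : 17 * W h * Lg h = 17 * (W h * Lg h) := by ring
          rw [e, e']
          omega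
      _ ≤ 2 ^ ((1 + 1) * Mg h) := h1
      _ ≤ _ := Nat.pow_le_pow_right (by norm_num) (Nat.mul_le_mul_right _ (by norm_num))
  · show 2 * 40 + 4 ≤ _
    calc 2 * 40 + 4 ≤ 2 ^ 64 := by norm_num
      _ ≤ _ := Nat.pow_le_pow_right (by norm_num) (by omega)
  · show Mg h + 8 ≤ _
    omega
  · show a1 h + 8 + 1 ≤ _
    have e1 : a1 h = 13 * Mg h := by unfold a1 bb; ring
    rw [e1]
    calc 13 * Mg h + 8 + 1 ≤ 32 * Mg h := by omega
      _ ≤ 2 ^ (5 * Mg h) * 2 ^ Mg h := Nat.mul_le_mul p5 (lt_two_pow_le _)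
      _ = 2 ^ (6 * Mg h) := by rw [← pow_add]; congr 1; ring
      _ ≤ _ := Nat.pow_le_pow_right (by norm_num) (by omega)
  · show a1 h ≤ _
    have e1 : a1 h = 13 * Mg h := by unfold a1 bb; ring
    omega
  · show (12 * (W h ^ 2 * Lg h) + 1) * 4 ^ (bb h + Mg h) + 1 ≤ _
    have e1 : 12 * (W h ^ 2 * Lg h) + 1 ≤ 2 ^ (2 * Mg h) := by
      have e0 : 1 ≤ W h ^ 2 * Lg h := Nat.mul_pos (by positivity) hL
      have e' : 13 * W h ^ 2 * Lg h = 13 * (W h ^ 2 * Lg h) := by ring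
      have e'' : (1 + 1) * Mg h = 2 * Mg h := by ring
      rw [e', e''] at h2
      omega
    have e2 : 4 ^ (bb h + Mg h) = 2 ^ (26 * Mg h) := by
      rw [show (4 : ℕ) = 2 ^ 2 by norm_num, ← pow_mul]
      congr 1
      unfold bb
      ring
    rw [e2]
    calc (12 * (W h ^ 2 * Lg h) + 1) * 2 ^ (26 * Mg h) + 1
        ≤ 2 ^ (2 * Mg h) * 2 ^ (26 * Mg h) + 2 ^ (28 * Mg h) :=
          Nat.add_le_add (Nat.mul_le_mul_right _ e1) Nat.one_le_two_pow
      _ = 2 ^ (28 * Mg h + 1) := by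
          rw [← pow_add, pow_succ]
          have : 2 * Mg h + 26 * Mg h = 28 * Mg h := by ring
          rw [this]
          ring
      _ ≤ _ := Nat.pow_le_pow_right (by norm_num) (by omega)
  · show (12 * (W h * h) + 1) * 2 ^ (2 * nb h + W h * Lg h) ≤ _
    set t := W h * Lg h with ht
    have e0 : 2 * nb h + t = 17 * t := by rw [ht]; unfold nb; ring
    have e1 : W h ≤ 2 ^ t := (lt_two_pow_le _).trans
      (Nat.pow_le_pow_right (by norm_num) (Nat.le_mul_of_pos_right _ hL))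
    have e2 : h ≤ 2 ^ t := (lt_two_pow_Lg h).le.trans
      (Nat.pow_le_pow_right (by norm_num) (Nat.le_mul_of_pos_left _ hW))
    have e3 : W h * h ≤ 2 ^ t * 2 ^ t := Nat.mul_le_mul e1 e2
    have e4 : 13 ≤ 2 ^ (4 * t) := by
      calc 13 ≤ 2 ^ 4 := by norm_num
        _ ≤ _ := Nat.pow_le_pow_right (by norm_num) (by omega)
    have e5 : 12 * (W h * h) + 1 ≤ 2 ^ (4 * t) * (2 ^ t * 2 ^ t) := by
      have e6 : 1 ≤ 2 ^ t * 2 ^ t := Nat.mul_pos (by positivity) (by positivity)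
      calc 12 * (W h * h) + 1 ≤ 12 * (2 ^ t * 2 ^ t) + 2 ^ t * 2 ^ t := by omega
        _ = 13 * (2 ^ t * 2 ^ t) := by ring
        _ ≤ _ := Nat.mul_le_mul_right _ e4
    rw [e0]
    calc (12 * (W h * h) + 1) * 2 ^ (17 * t) ≤ 2 ^ (4 * t) * (2 ^ t * 2 ^ t) * 2 ^ (17 * t) :=
          Nat.mul_le_mul_right _ e5
      _ = 2 ^ (23 * t) := by rw [← pow_add, ← pow_add, ← pow_add]; congr 1; ring
      _ ≤ _ := Nat.pow_le_pow_right (by norm_num) (by omega)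

theorem mI_ne {h : ℕ} (hh : h ≠ 0) : mI h ≠ 0 := by
  have := W_pos h
  unfold mI
  exact Nat.mul_ne_zero (by omega) hh

theorem mI_le (h : ℕ) : mI h ≤ 2 ^ (200 * Lg h) := by
  have hL := Lg_pos h
  have e1 : W h ≤ 2 ^ Lg h := (W_le_Lg h).trans (lt_two_pow_le _)
  have e2 : h ≤ 2 ^ Lg h := (lt_two_pow_Lg h).le
  unfold mI
  calc W h * h ≤ 2 ^ Lg h * 2 ^ Lg h := Nat.mul_le_mul e1 e2
    _ = 2 ^ (2 * Lg h) := by rw [← pow_add]; congr 1; ring
    _ ≤ _ := Nat.pow_le_pow_right (by norm_num) (by omega)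

theorem DI_le (h : ℕ) : DI h ≤ 200 * Lg h := by unfold DI; omega

/-! ### everything at one height -/

/-- the eventual facts -/
structure WOk (h : ℕ) : Prop where
  w : Pw rW h
  i : PwI 200 rW h
  s : Szs 200 h (parOf h)
  pos : h ≠ 0

theorem ev_WOk : ∀ᶠ h : ℕ in atTop, WOk h := by
  filter_upwards [ev_Pw rW, rW_spec, ev_szs, eventually_ne_atTop 0] with h h1 h2 h3 h4
  exact ⟨h1, h2, h3, h4⟩

section cfg

variable {x y : List ℕ} {ε : ℚ}

/-- **(words)** at `cfgO`, for `fR = fW rW` and every fuel with `2 ≤ c`, `1 ≤ k`, `rW ≤ r` -/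
theorem words_cfg (hN : Num x y ε) (h : WOk (hh x y ε)) {c k r : ℕ} (hc : 2 ≤ c) (hk : 1 ≤ k)
    (hr : rW ≤ r) :
    (cfgO x y ε).o ((cfgO x y ε).P.E * (cfgO x y ε).P.K + 1) ≤ tapeD (fW rW) x y ε ∧
      tapeD (fW rW) x y ε ≤ (x.length + y.length) ^ 2 ∧
      tapeD (fW rW) x y ε ≤ fuc c k r 3 (inp x y ε).length :=
  words_of' hN h.w (cfgO x y ε) (fun _ => rfl) rfl rfl hc hk hr

/-- **the words part of `ProgStm`** -/
theorem words_cfgO {c k r : ℕ} (hc : 2 ≤ c) (hk : 1 ≤ k) (hr : rW ≤ r) :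
    Ev fun x y ε =>
      (cfgO x y ε).o ((cfgO x y ε).P.E * (cfgO x y ε).P.K + 1) ≤ tapeD (fW rW) x y ε ∧
        tapeD (fW rW) x y ε ≤ (x.length + y.length) ^ 2 ∧
        tapeD (fW rW) x y ε ≤ fuc c k r 3 (inp x y ε).length :=
  Ev.of ev_WOk fun _ _ _ hN h => words_cfg hN h hc hk hr

/-- **the number of words is monotone, every index has its words** -/
theorem draws_cfg (h : WOk (hh x y ε)) :
    (∀ l < (cfgO x y ε).P.E * (cfgO x y ε).P.K + 1, (cfgO x y ε).o l ≤ (cfgO x y ε).o (l + 1)) ∧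
    ∀ l < (cfgO x y ε).P.E * (cfgO x y ε).P.K + 1, ∀ X, ∀ s ∈ (cfgO x y ε).Om l,
      ((sysU (cfgO x y ε).P (cfgO x y ε).leaf (cfgO x y ε).U).tRT l (lo l X) s).cnt.All
        (2 ^ (cfgO x y ε).W) fun z => (cfgO x y ε).o l + z.2 ≤ (cfgO x y ε).o (l + 1) :=
  draws_of (cfgO x y ε) h.i h.s (DI_le _) (mI_ne h.pos) (mI_le _) rfl rfl fun _ => rfl

/-- the same with `tapeRT` (the form of `Cfg.probBlock`) -/
theorem draws_cfg' (h : WOk (hh x y ε)) :
    (∀ l < (cfgO x y ε).P.E * (cfgO x y ε).P.K + 1, (cfgO x y ε).o l ≤ (cfgO x y ε).o (l + 1)) ∧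
    ∀ l < (cfgO x y ε).P.E * (cfgO x y ε).P.K + 1, ∀ X,
      ∀ s ∈ OmP (cfgO x y ε).P.N (cfgO x y ε).I (cfgO x y ε).P.Dm (cfgO x y ε).K0,
      (tapeRT (cfgO x y ε).P (cfgO x y ε).leaf (cfgO x y ε).U l (lo l X) s).cnt.All
        (2 ^ (cfgO x y ε).W) fun z => (cfgO x y ε).o l + z.2 ≤ (cfgO x y ε).o (l + 1) := by
  obtain ⟨h1, h2⟩ := draws_cfg h
  refine ⟨h1, fun l hl X s hs => ?_⟩
  have h3 := h2 l hl X s hs
  rw [tRT_sysU] at h3
  exact h3

/-- **the hypotheses `ho`, `hS` of [PROB]** -/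
theorem draws_cfgO : Ev fun x y ε =>
    (∀ l < (cfgO x y ε).P.E * (cfgO x y ε).P.K + 1, (cfgO x y ε).o l ≤ (cfgO x y ε).o (l + 1)) ∧
    ∀ l < (cfgO x y ε).P.E * (cfgO x y ε).P.K + 1, ∀ X,
      ∀ s ∈ OmP (cfgO x y ε).P.N (cfgO x y ε).I (cfgO x y ε).P.Dm (cfgO x y ε).K0,
      (tapeRT (cfgO x y ε).P (cfgO x y ε).leaf (cfgO x y ε).U l (lo l X) s).cnt.All
        (2 ^ (cfgO x y ε).W) fun z => (cfgO x y ε).o l + z.2 ≤ (cfgO x y ε).o (l + 1) :=
  Ev.of ev_WOk fun _ _ _ _ h => draws_cfg' h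

theorem tapeD_rW : tapeD (fW rW) x y ε =
    ((cfgO x y ε).P.E * (cfgO x y ε).P.K + 1) * nW rW (hh x y ε) := rfl

/-- **the pointer of index `l`** (state of macro height `≤ I`) stays below the number of tape words:
the hypothesis of `Rq.low`, with `Pm = tapeD (fW rW) x y ε` and base `(cfgO x y ε).o l` -/
theorem nxt_cfg (h : WOk (hh x y ε)) {l : ℕ} (hl : l ≤ (cfgO x y ε).P.E * (cfgO x y ε).P.K)
    (Xs : ℕ → ℕ × St → ℕ) (s : ℕ × St) (hs : s.2.i ≤ (cfgO x y ε).I) (ρ : ℕ → ℕ) :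
    (tapeRT (cfgO x y ε).P (cfgO x y ε).leaf (cfgO x y ε).U l Xs s).nxt (2 ^ (cfgO x y ε).W) ρ
      ((cfgO x y ε).o l) ≤ tapeD (fW rW) x y ε := by
  rw [tapeD_rW]
  exact PgP7155.nxt_idx (Nat.two_pow_pos _) h.i h.s (DI_le _) (mI_ne h.pos) (mI_le _) _ hl Xs s hs ρ

theorem gXmX_pos (h : ℕ) : 0 < (parOf h).gX * (parOf h).mX :=
  Nat.mul_pos (Nat.succ_pos _) (Nat.two_pow_pos _)

/-- the words of a lane, from any pointer -/
theorem nxt_arr_cfg (h : WOk (hh x y ε)) (F : St → ℕ) (X : ℕ → ℕ → St → ℕ) (k i : ℕ)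
    (hi : i ≤ (cfgO x y ε).I) (c : Cel) (ρ : ℕ → ℕ) (q : ℕ) :
    (arrT (cfgO x y ε).P (cfgO x y ε).leaf F X k i c).nxt (2 ^ (cfgO x y ε).W) ρ q ≤
      q + nW rW (hh x y ε) :=
  PgP7155.nxt_arr (Nat.two_pow_pos _) h.i h.s (DI_le _) (mI_ne h.pos) (mI_le _) (gXmX_pos _) _ F X k i
    hi c ρ q

end cfg

end Crest.Agent.R288.PgW155
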