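import Crest.Agent.R288.AlgB_45
import Crest.Agent.R288.DeltaC_222

/-!
# R288, [PROG] procedures X and F/H (helper583), part A: pure identities

* `hprs P Fy y`: the pairs (class, state) of the hull; `hullV`; `hull_eq`, `hullV_congr`.
* `HK ls p`: the keys (index, class, state) which the mean at the pair `p` over the indices `ls`
  needs; `hkeys P Fy y ls` all of them; `hfin`: the value from a table of the keys; `hfin_eq`,
  `FE_zero_eq`, `FE_succ_eq`, `hull_one_eq`.
* `xfin P κ z res`: the number from the tables of the lanes; `numPair_eq`.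
-/

set_option autoImplicit false

namespace Crest.Agent.R288.PgX583

open Crest.Agent.R295.Rnd627 Crest.Agent.R295.Rnd627.RT Crest.Agent.R288.Alg45
  Crest.Agent.R288.Delta222

variable (P : Par)

/-! ### the hull -/

/-- the pairs of the hull -/
def hprs (Fy : ℕ) (y : St) : List (ℕ × St) :=
  (rngC (Nat.log 2 Fy - P.al) (Nat.log 2 Fy + P.a2)).flatMap fun κ' =>
    (menu P κ' (2 * Fy) y).map fun z => (κ', z)

/-- the hull from the value `Fy` and the prices of the pairs -/
def hullV (Fy : ℕ) (y : St) (f : ℕ × St → ℕ) : ℕ :=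
  lmin Fy ((hprs P Fy y).map fun p => dist y p.2 + f p)

theorem hull_eq (F : St → ℕ) (f : ℕ → St → ℕ) (y : St) :
    hull P F f y = hullV P (F y) y fun p => f p.1 p.2 := by
  unfold hull hullV hprs cls
  rw [List.map_flatMap]
  simp only [List.map_map, Function.comp_def]

theorem hullV_congr {Fy : ℕ} {y : St} {f g : ℕ × St → ℕ} (h : ∀ p ∈ hprs P Fy y, f p = g p) :
    hullV P Fy y f = hullV P Fy y g := by
  unfold hullV
  congr 1
  exact List.map_congr_left fun p hp => by rw [h p hp]

theorem rngC_ne_nil {lo hi : ℕ} (h : lo ≤ hi) : rngC lo hi ≠ [] := by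
  unfold rngC
  intro h1
  have h2 := congrArg List.length h1
  simp at h2
  omega

theorem menu_ne_nil (κ ρ : ℕ) (y : St) : menu P κ ρ y ≠ [] := by
  unfold menu
  intro h1
  have h2 := congrArg List.length h1
  simp at h2

theorem hprs_ne_nil (Fy : ℕ) (y : St) : hprs P Fy y ≠ [] := by
  unfold hprs
  intro h
  rw [List.flatMap_eq_nil_iff] at h
  have h1 : Nat.log 2 Fy ∈ rngC (Nat.log 2 Fy - P.al) (Nat.log 2 Fy + P.a2) := by
    unfold rngC
    rw [List.mem_map]
    exact ⟨Nat.log 2 Fy - (Nat.log 2 Fy - P.al), by rw [List.mem_range]; omega, by omega⟩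
  have h2 := h _ h1
  rw [List.map_eq_nil_iff] at h2
  exact menu_ne_nil P _ _ _ h2

/-! ### means of indices -/

/-- argument of index `l` for the pair `p` (INIT numbers have no class) -/
def harg (l : ℕ) (p : ℕ × St) : ℕ × St := if l = 0 then (0, p.2) else p

/-- keys of the pair `p` -/
def HK (ls : List ℕ) (p : ℕ × St) : List (ℕ × ℕ × St) := ls.map fun l => (l, harg l p)

/-- keys of the hull -/
def hkeys (Fy : ℕ) (y : St) (ls : List ℕ) : List (ℕ × ℕ × St) := (hprs P Fy y).flatMap (HK ls)

/-- the mean of the indices `ls` at the pair `p`, read in a table -/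
def hmean (ls : List ℕ) (T : List ((ℕ × ℕ × St) × ℕ)) (p : ℕ × St) : ℕ :=
  cdiv ((HK ls p).map fun k => asc T k 0).sum ls.length

/-- the last phase: `r` = the results of the requests of `hkeys` -/
def hfin (Fy : ℕ) (y : St) (ls : List ℕ) (r : List ℕ) : ℕ :=
  hullV P Fy y (hmean ls ((hkeys P Fy y ls).zip r))

theorem hkeys_ne_nil (Fy : ℕ) (y : St) {ls : List ℕ} (h : ls ≠ []) : hkeys P Fy y ls ≠ [] := by
  unfold hkeys
  intro h1
  rw [List.flatMap_eq_nil_iff] at h1
  obtain ⟨p, hp⟩ := List.exists_mem_of_ne_nil _ (hprs_ne_nil P Fy y)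
  have h2 := h1 p hp
  unfold HK at h2
  rw [List.map_eq_nil_iff] at h2
  exact h h2

theorem hfin_eq (Fy : ℕ) (y : St) (ls : List ℕ) (X : ℕ → ℕ × St → ℕ) :
    hfin P Fy y ls ((hkeys P Fy y ls).map fun k => X k.1 k.2) =
      hullV P Fy y fun p => cdiv (ls.map fun l => X l (harg l p)).sum ls.length := by
  unfold hfin
  refine hullV_congr P fun p hp => ?_
  unfold hmean
  congr 2
  unfold HK
  rw [List.map_map]
  refine List.map_congr_left fun l hl => ?_
  rw [Function.comp_apply, asc_zip]
  unfold hkeys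
  rw [List.mem_flatMap]
  exact ⟨p, hp, by unfold HK; exact List.mem_map.2 ⟨l, hl, rfl⟩⟩

theorem cdiv_one (a : ℕ) : cdiv a 1 = a := by simp [cdiv]

/-- `F_0` -/
theorem FE_zero_eq (X : ℕ → ℕ × St → ℕ) (y : St) :
    FE P X 0 y = hfin P (X 0 (0, y)) y [0]
      ((hkeys P (X 0 (0, y)) y [0]).map fun k => X k.1 k.2) := by
  rw [hfin_eq, FE, hull_eq]
  refine hullV_congr P fun p _ => ?_
  simp [harg, cdiv_one]

/-- indices of the ranks of epoch `e` -/
def rks (e : ℕ) : List ℕ := (List.range P.K).map fun i => idx P e i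

/-- `F_(e+1)` -/
theorem FE_succ_eq (X : ℕ → ℕ × St → ℕ) (e : ℕ) (y : St) :
    FE P X (e + 1) y = hfin P (FE P X e y) y (rks P e)
      ((hkeys P (FE P X e y) y (rks P e)).map fun k => X k.1 k.2) := by
  rw [hfin_eq, FE, FNext, hull_eq]
  refine hullV_congr P fun p _ => ?_
  have h : ∀ i, harg (idx P e i) p = p := fun i => by
    unfold harg
    rw [if_neg (by unfold idx; omega)]
  unfold Xbar sumR rks
  rw [List.length_map, List.length_range, List.map_map]
  simp only [Function.comp_def, h]

/-- the hull of one index -/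
theorem hull_one_eq (X : ℕ → ℕ × St → ℕ) {l : ℕ} (hl : l ≠ 0) (F : St → ℕ) (y : St) :
    hull P F (fun κ z => X l (κ, z)) y = hfin P (F y) y [l]
      ((hkeys P (F y) y [l]).map fun k => X k.1 k.2) := by
  rw [hfin_eq, hull_eq]
  refine hullV_congr P fun p _ => ?_
  simp [harg, hl, cdiv_one]

/-! ### the number of a pair -/

/-- the number from the tables of the lanes -/
def xfin (κ : ℕ) (z : St) (res : List (List ℕ)) : ℕ :=
  medMean P.gX P.mX (fun a b => (res.map fun T => rdt P (celOf κ z) T z).getD (a * P.mX + b) 0) +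
    (cdiv (2 ^ κ) (2 ^ P.nb) + 1)

/-- guard of a number, from the value of the unit function at `z` -/
def admV (Fz κ : ℕ) (z : St) : Bool :=
  decide (rdn P κ z = z) && decide ((z.v - z.u).natAbs ≤ 8 * 2 ^ κ) &&
    decide (κ ≤ Nat.log 2 Fz + 1) && decide (Nat.log 2 Fz ≤ κ + 1)

theorem adm_eq (F : St → ℕ) (κ : ℕ) (z : St) : adm P F κ z = admV P (F z) κ z := rfl

theorem reps_eq_seqL' {α : Type} (k : ℕ) (t : RT α) : reps k t = seqL (List.replicate k t) := by
  induction k with
  | zero => rfl
  | succ k ih =>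
    rw [reps_succ, List.replicate_succ, seqL, ih]

theorem numPair_eq (leaf : St → Option ℕ) (F : St → ℕ) (X : ℕ → ℕ → St → ℕ) (k κ : ℕ) (z : St) :
    numPair P leaf F X k κ z =
      if admV P (F z) κ z = false then .ret (F z)
      else (seqL (List.replicate (P.gX * P.mX) (arrT P leaf F X k z.i (celOf κ z)))).bind fun res =>
        .ret (xfin P κ z res) := by
  unfold numPair
  rw [adm_eq]
  split
  · rfl
  · rw [reps_eq_seqL']
    have h : List.replicate (P.gX * P.mX) (lanePair P leaf F X k κ z) =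
        (List.replicate (P.gX * P.mX) ()).map fun _ =>
          (arrT P leaf F X k z.i (celOf κ z)).bind fun T => RT.ret (rdt P (celOf κ z) T z) := by
      rw [List.map_replicate]
      rfl
    rw [h, seqL_map_map, List.map_replicate, bind_assoc']
    rfl

end Crest.Agent.R288.PgX583
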