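import Crest.Agent.R288.PgZa_200
import Crest.Agent.R288.PgZc_692
import Crest.Agent.R288.PgZd_692
import Crest.Agent.R288.AsmC_331

/-!
# R288, [PROG] P5b (helper200), part b: sizes of all values and answers at a configuration

`C : Asm331.Cfg`, `τ` a tape, `X := C.X τ`; blocks `PgZ692.Nd C.P C.I` (by `rfl` the same as
`HypV53.okB C` and `BndG734.okBlk C`), cells `PgZ692.ArrI`, `BodI`.

* `kT C` : largest class of a call; `VG C τ M Z` : the values of the tape `τ` fit (numbers, except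
  `bd` = `Bnd275.Hyp` for all epochs);
* `VG.F_lt`, `VG.X_lt` (every index `≤ E K`, every pair), `VG.arr`, `VG.bod`, `VG.bod'`, `VG.num`,
  `VG.lane`, `leafF_lt`.
-/

set_option autoImplicit false

namespace Crest.Agent.R288.PgZa200

open Crest.Agent.R295.Rnd627 Crest.Agent.R288.Alg45 Crest.Agent.R288.Bnd275
open Crest.Agent.R288.Dom20 Crest.Agent.R288.Asm331 Crest.Agent.R288.Tape829
open Crest.Agent.R288.PgZ692
open Crest.Agent.R288.Pgb578 (Wd SvOk)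

/-- largest class of a call -/
def kT (C : Cfg) : ℕ := C.K0 + C.I * (C.P.a2 + C.P.du) + C.P.a2

/-- the values of the tape `τ` fit -/
structure VG (C : Cfg) (τ : ℕ → ℕ) (M Z : ℕ) : Prop where
  bd : ∀ e ≤ C.P.E, Bnd275.Hyp C.P C.leaf (FE C.P (C.X τ) e) (Nd C.P C.I)
  X0 : ∀ y, InD C.P.N C.I C.P.Dm y → C.X τ 0 (0, y) < M
  big : 2 ^ kT C * (bA C.P C.I + 2) < M
  K : 0 < C.P.K
  Z : ZP C.P ≤ Z

variable {C : Cfg} {τ : ℕ → ℕ} {M Z : ℕ}

theorem N_pos (P : Par) : 0 < P.N := Nat.two_pow_pos _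

theorem Nd_of {y : St} (h : InD C.P.N C.I C.P.Dm y) : Nd C.P C.I y.i y.j := ⟨h.1, h.2.1⟩

theorem inD_of_InD {y : St} (h : InD C.P.N C.I C.P.Dm y) : inD C.P y := by
  obtain ⟨-, -, h3, h4⟩ := h
  constructor <;> omega

theorem InD_of_Nd {y : St} (h : Nd C.P C.I y.i y.j) (hD : inD C.P y) :
    InD C.P.N C.I C.P.Dm y := by
  obtain ⟨h1, h2⟩ := h
  obtain ⟨h3, h4⟩ := hD
  refine ⟨h1, h2, ?_, ?_⟩ <;> omega

/-- unit functions -/
theorem VG.F_lt (h : VG C τ M Z) (e : ℕ) {y : St} (hy : InD C.P.N C.I C.P.Dm y) :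
    FE C.P (C.X τ) e y < M := FE_lt (h.X0 y hy) e

theorem VG.vs (h : VG C τ M Z) {e : ℕ} (he : e ≤ C.P.E) :
    Vs C.P C.leaf (FE C.P (C.X τ) e) (Nd C.P C.I) M Z (kT C) C.I where
  bd := h.bd e he
  iH := fun _ _ hb => hb.1
  csz := fun κ _ => (csz_ZP C.P κ).trans h.Z
  FM := fun _ hb hD => h.F_lt e (InD_of_Nd hb hD)
  big := h.big

/-- index `0` does not see the class -/
theorem X_zero_eq (τ : ℕ → ℕ) {κ : ℕ} {z : St} (hκ : κ ≤ C.K0) (hz : InD C.P.N C.I C.P.Dm z) :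
    C.X τ 0 (κ, z) = C.X τ 0 (0, z) := by
  rw [Cfg.X_zero τ (s := (κ, z)) ((mem_OmP (N_pos _)).2 ⟨hκ, hz⟩),
    Cfg.X_zero τ (s := (0, z)) ((mem_OmP (N_pos _)).2 ⟨Nat.zero_le _, hz⟩)]

theorem epo_lt (hK : 0 < C.P.K) {l : ℕ} (h0 : l ≠ 0) (hl : l ≤ C.P.E * C.P.K) :
    (l - 1) / C.P.K < C.P.E := by
  rw [Nat.div_lt_iff_lt_mul hK]
  omega

theorem epo_mul {l : ℕ} (h0 : l ≠ 0) : 1 + (l - 1) / C.P.K * C.P.K ≤ l := by
  have := Nat.div_mul_le_self (l - 1) C.P.K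
  omega

theorem FE_lo_epo (X : ℕ → ℕ × St → ℕ) {l : ℕ} (h0 : l ≠ 0) :
    FE C.P (lo l X) ((l - 1) / C.P.K) = FE C.P X ((l - 1) / C.P.K) := FE_lo (epo_mul h0)

/-- the largest class of a call -/
theorem K0_le_kT : C.K0 ≤ kT C := by unfold kT; omega

theorem kM_le_kT (i : ℕ) : kM C.P C.I C.K0 i ≤ kT C := by
  have := kM_le (P := C.P) C.I C.K0 i
  unfold kT
  omega

theorem kM_le_kT' (i : ℕ) : kM C.P C.I C.K0 i + C.P.a2 ≤ kT C := by
  have := kM_le (P := C.P) C.I C.K0 i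
  unfold kT
  omega

/-- **numbers of the pairs of the domain** -/
theorem VG.num (h : VG C τ M Z) {e : ℕ} (he : e ≤ C.P.E) {Xs : ℕ → ℕ → St → ℕ} {k N κ : ℕ} {z : St}
    (hκ : κ ≤ C.K0) (hz : InD C.P.N C.I C.P.Dm z) :
    (numPair C.P C.leaf (FE C.P (C.X τ) e) Xs k κ z).All N fun v => v < M :=
  (h.vs he).num (hκ.trans K0_le_kT) (Nd_of hz) (inD_of_InD hz)

/-- **every number of the history** (also outside the domain) -/
theorem VG.X_lt (h : VG C τ M Z) {l : ℕ} (hl : l ≤ C.P.E * C.P.K) (s : ℕ × St) :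
    C.X τ l s < M := by
  have hM : 0 < M := lt_of_le_of_lt (Nat.zero_le _) h.big
  by_cases hm : s ∈ OmP C.P.N C.I C.P.Dm C.K0
  · obtain ⟨κ, z⟩ := s
    obtain ⟨hκ, hz⟩ := (mem_OmP (N_pos _)).1 hm
    by_cases h0 : l = 0
    · subst h0
      rw [X_zero_eq τ hκ hz]
      exact h.X0 z hz
    · rw [Cfg.X_succ τ hm]
      have he := epo_lt h.K h0 hl
      have hV := h.vs he.le
      rw [← FE_lo_epo (C.X τ) h0] at hV
      exact RT.All.val (Nat.two_pow_pos _) (tape_lt (N := 2 ^ C.W) (U := C.U) h0 hV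
        (hκ.trans K0_le_kT) (Nd_of hz) (inD_of_InD hz)) τ (C.o l)
  · rw [Cfg.X_out τ hm]
    exact hM

/-- **ARR tables** -/
theorem VG.arr (h : VG C τ M Z) {e : ℕ} (he : e ≤ C.P.E) {Xs : ℕ → ℕ → St → ℕ} {k N : ℕ} {c : Cel}
    (hc : ArrI C.P C.I C.K0 c) :
    (arrT C.P C.leaf (FE C.P (C.X τ) e) Xs k c.i c).All N (Wd M Z) :=
  (h.vs he).arrT (hc.κ.trans (kM_le_kT _)) hc.nd

/-- ARR tables, the macro height as a number -/
theorem VG.arr' (h : VG C τ M Z) {e : ℕ} (he : e ≤ C.P.E) {Xs : ℕ → ℕ → St → ℕ} {k N i : ℕ}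
    {c : Cel} (hi : c.i = i) (hc : ArrI C.P C.I C.K0 c) :
    (arrT C.P C.leaf (FE C.P (C.X τ) e) Xs k i c).All N (Wd M Z) := by
  subst hi
  exact h.arr he hc

/-- **the lanes of a pair** -/
theorem VG.lane (h : VG C τ M Z) {e : ℕ} (he : e ≤ C.P.E) {Xs : ℕ → ℕ → St → ℕ} {k N κ : ℕ}
    {z : St} (hκ : κ ≤ C.K0) (hz : InD C.P.N C.I C.P.Dm z) :
    (arrT C.P C.leaf (FE C.P (C.X τ) e) Xs k z.i (celOf κ z)).All N (Wd M Z) :=
  h.arr he (c := celOf κ z) (ArrI.of_state hz hκ)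

/-- **BODY tables** -/
theorem VG.bod (h : VG C τ M Z) {e : ℕ} (he : e ≤ C.P.E) {Xs : ℕ → ℕ → St → ℕ} {k N i : ℕ}
    {c : Cel} (hi : c.i = i + 1) (hc : BodI C.P C.I C.K0 c) :
    (bodyT C.P C.leaf (FE C.P (C.X τ) e) Xs k
      (arrT C.P C.leaf (FE C.P (C.X τ) e) Xs k i) c).All N (Wd M Z) :=
  (h.vs he).bodyT hi (hc.κ.trans (kM_le_kT' _)) hc.nd

/-- BODY tables, in 222's letters -/
theorem VG.bod' (h : VG C τ M Z) {e : ℕ} (he : e ≤ C.P.E) {Xs : ℕ → ℕ → St → ℕ} {k N : ℕ}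
    {c : Cel} (hi : c.i ≠ 0) (hc : BodI C.P C.I C.K0 c) :
    (bodyT C.P C.leaf (FE C.P (C.X τ) e) Xs k
      (arrT C.P C.leaf (FE C.P (C.X τ) e) Xs k (c.i - 1)) c).All N (Wd M Z) :=
  h.bod he (by omega) hc

/-- the body tables of a jump -/
theorem VG.abod (h : VG C τ M Z) {e : ℕ} (he : e ≤ C.P.E) {Xs : ℕ → ℕ → St → ℕ} {k N : ℕ}
    {c : Cel} (hi : c.i ≠ 0) (hc : ArrI C.P C.I C.K0 c) :
    ∀ c' ∈ Delta222.abod C.P c, (bodyT C.P C.leaf (FE C.P (C.X τ) e) Xs k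
      (arrT C.P C.leaf (FE C.P (C.X τ) e) Xs k (c.i - 1)) c').All N (Wd M Z) := by
  intro c' hc'
  have h1 : c'.i = c.i := (abod_mem hc').1
  rw [← h1]
  exact h.bod' he (by rw [h1]; exact hi) (hc.body hc')

/-- the arrival tables of a window -/
theorem VG.bkeys (h : VG C τ M Z) {e : ℕ} (he : e ≤ C.P.E) {Xs : ℕ → ℕ → St → ℕ} {k N : ℕ}
    {c : Cel} (hi : c.i ≠ 0) (hc : BodI C.P C.I C.K0 c) (ρ : ℕ → ℕ → ℕ) :
    ∀ key ∈ Alg45.bkeys C.P c.κ c.m ρ, (arrT C.P C.leaf (FE C.P (C.X τ) e) Xs k (c.i - 1)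
      (Delta72.bcel C.P c key)).All N (Wd M Z) := by
  intro key hk
  exact h.arr' he (c := Delta72.bcel C.P c key) rfl (hc.arr (by omega) hk)

/-- the unit function at the states of a cell -/
theorem VG.csts (h : VG C τ M Z) (e : ℕ) {c : Cel} (hc : Nd C.P C.I c.i c.j) :
    ∀ y ∈ Delta222.csts C.P c, FE C.P (C.X τ) e y < M := fun _ hy => h.F_lt e (csts_InD hc hy)

/-- the unit function at the states of a window -/
theorem VG.bst (h : VG C τ M Z) (e : ℕ) (hr : 1 ≤ C.P.r) {c : Cel} (hc : Nd C.P C.I c.i c.j)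
    (hi : c.i ≠ 0) : ∀ y ∈ PgA172.bst C.P c, FE C.P (C.X τ) e y < M := fun _ hy =>
  h.F_lt e (bst_InD hr hc (by omega) hy)

/-- the numbers of the ranks `i < k` of epoch `e < E` -/
theorem VG.rpr (h : VG C τ M Z) {e k : ℕ} (he : e < C.P.E) (hk : k ≤ C.P.K)
    (L : List (ℕ × St)) : ∀ a ∈ PgA172.rpr k L, Xe C.P (C.X τ) e a.1 a.2.1 a.2.2 < M := by
  intro a ha
  have h1 := (mem_rpr' ha).1
  have h2 := idx_lt (P := C.P) he (h1.trans_le hk)
  exact h.X_lt (by omega) _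

/-- the answer of the leaf command -/
theorem leafF_lt (x y : List ℕ) {n m k Lam M : ℕ} (hn : n = x.length) (hm : m = y.length)
    (hL : Lam ≤ Shell12.D0 (x.length + y.length)) (hM : Lam + 1 < M) (s : St) :
    LeafX222.leafF x y (LeafO690.leafArg n m k Lam s) < M := by
  subst hn hm
  unfold LeafO690.leafArg
  rw [NodePT222.leafF_leafA x y (k * s.i) s.j s.u s.v hL]
  exact (min_le_right _ _).trans_lt hM

end Crest.Agent.R288.PgZa200
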