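import Crest.Agent.R288.PgZb_200
import Crest.Agent.R288.HypV_53

/-!
# R288, [PROG] P5b (helper200), part c: `VG` from a good tape

* `vE C cr` : the exponent of the sure bound of all values; **`VG.of_good`**: on a good tape (364's
  `LipOk`, 53's `VOk`, soundness of the unit functions) all values are `< M` as soon as
  `2 ^ vE C cr < M`; `top_log` : the classes of INIT numbers.
-/

set_option autoImplicit false

namespace Crest.Agent.R288.PgZa200

open Crest.Agent.R295.Rnd627 Crest.Agent.R288.Alg45 Crest.Agent.R288.Bnd275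
open Crest.Agent.R288.Dom20 Crest.Agent.R288.Asm331 Crest.Agent.R288.AnaLip364
open Crest.Agent.R288.PgZ692 Crest.Agent.R288.HypV53

variable {C : Cfg} {τ : ℕ → ℕ} {M Z : ℕ} {x y : List ℕ} {g p L : ℕ} {ζ : ℝ}

/-- exponent of the sure bound of all values -/
def vE (C : Cfg) (cr : ℕ) : ℕ := kT C + (4 + (C.P.n + C.P.du + C.P.a2 + cr) * C.I)

/-- **all values of a good tape fit** -/
theorem VG.of_good {cr : ℕ} (h : C.Good (C.X τ)) (hO : LipOk C x y g p L ζ) (hV : VOk C x y cr)
    (hs : ∀ e ≤ C.P.E, ∀ s, InD C.P.N C.I C.P.Dm s →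
      GSt442.gst x y C.P.n s ≤ FE C.P (C.X τ) e s)
    (hM : 2 ^ vE C cr < M) (hZ : ZP C.P ≤ Z) : VG C τ M Z where
  bd := fun e he => bnd_hyp h hO hV he (hs e he)
  X0 := fun s hs => by
    have h1 := X_zero_lt h hO (s := (0, s)) ((mem_OmP (N_pos _)).2 ⟨Nat.zero_le _, hs⟩)
    refine (h1.trans_le (Nat.pow_le_pow_right (by norm_num) ?_)).trans hM
    unfold vE kT
    omega
  big := by
    refine lt_of_le_of_lt ?_ hM
    unfold vE
    rw [pow_add]
    exact Nat.mul_le_mul_left _ (bA_le_two_pow hV.cr _)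
  K := hO.K
  Z := hZ

/-- classes of the INIT numbers, 380's field `top` -/
theorem top_log (h : C.Good (C.X τ)) (hO : LipOk C x y g p L ζ) {s : St}
    (hs : InD C.P.N C.I C.P.Dm s) (ha : C.P.a2 ≤ C.K0) :
    Nat.log 2 (C.X τ 0 (0, s)) + C.P.a2 ≤ C.K0 := by
  have h1 := X_zero_lt h hO (s := (0, s)) ((mem_OmP (N_pos _)).2 ⟨Nat.zero_le _, hs⟩)
  rcases Nat.eq_zero_or_pos (C.X τ 0 (0, s)) with h0 | h0
  · rw [h0, Nat.log_zero_right, Nat.zero_add]
    exact ha
  · have := Nat.log_lt_of_lt_pow h0.ne' h1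
    omega

end Crest.Agent.R288.PgZa200
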