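import Crest.Agent.R288.Pl_726

/-!
# R288, phase engine, part A (helper940): codec of frames and the pieces of the engine

A *frame* is a pair `(f, rs)`: local data `f : List ℕ` and the results `rs : List (List ℕ)` of the
last requests. A program is one function `δ f rs = (f', reqs)`; `reqs = []` means: stop with the
result `f'`.
-/

set_option autoImplicit false

namespace Crest.Agent.R288.Phe940

open Crest.Agent.R295 HL Pt949
open Crest.Agent.Lib.PT (PTF PTPred PTU PB sz PTCode)

/-- a list of lists, flat -/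
def fl (rs : List (List ℕ)) : List ℕ := rs.flatMap tow

@[simp] theorem fl_nil : fl [] = [] := rfl
@[simp] theorem fl_cons (r : List ℕ) (rs : List (List ℕ)) : fl (r :: rs) = tow r ++ fl rs := rfl
@[simp] theorem fl_append (rs rs' : List (List ℕ)) : fl (rs ++ rs') = fl rs ++ fl rs' := by
  simp [fl]

theorem ptf_tow : PTF (fun l : List ℕ => (tow l : List ℕ)) := Flat.ptf_tow (α := List ℕ)

theorem ptf_frw : PTF (fun l : List ℕ => (frw l : List ℕ × List ℕ)) :=
  Flat.ptf_frw (α := List ℕ)

theorem ptf_fl : PTF fl := by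
  unfold fl
  exact PTF.flatMap PTF.id (PTF.comp ptf_tow PTF.snd)

/-- one step of the decoder -/
def stp (x : List (List ℕ) × List ℕ) : List (List ℕ) × List ℕ :=
  if x.2 = [] then x else (x.1 ++ [(frw x.2 : List ℕ × List ℕ).1], (frw x.2 : List ℕ × List ℕ).2)

/-- decoder -/
def dec (l : List ℕ) : List (List ℕ) := (stp^[l.length] ([], l)).1

theorem stp_nil (a : List (List ℕ)) : stp (a, []) = (a, []) := rfl

theorem iter_nil (n : ℕ) (a : List (List ℕ)) : stp^[n] (a, []) = (a, []) := by
  induction n with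
  | zero => rfl
  | succ n ih => rw [Function.iterate_succ_apply, stp_nil, ih]

theorem tow_ne_nil (r : List ℕ) (l : List ℕ) : (tow r : List ℕ) ++ l ≠ [] := by
  simp

theorem stp_cons (a : List (List ℕ)) (r l : List ℕ) :
    stp (a, tow r ++ l) = (a ++ [r], l) := by
  unfold stp
  rw [if_neg (tow_ne_nil r l)]
  have h := Flat.frw_tow r l
  rw [show (frw ((a, tow r ++ l) : List (List ℕ) × List ℕ).2 : List ℕ × List ℕ) = (r, l) from h]

theorem iter_fl (rs : List (List ℕ)) : ∀ (n : ℕ) (a : List (List ℕ)), rs.length ≤ n →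
    stp^[n] (a, fl rs) = (a ++ rs, []) := by
  induction rs with
  | nil =>
    intro n a _
    rw [fl_nil, iter_nil, List.append_nil]
  | cons r rs ih =>
    intro n a hn
    obtain ⟨m, rfl⟩ : ∃ m, n = m + 1 := ⟨n - 1, by simp at hn; omega⟩
    rw [Function.iterate_succ_apply, fl_cons, stp_cons, ih m _ (by simp at hn; omega)]
    simp

theorem length_le_fl (rs : List (List ℕ)) : rs.length ≤ (fl rs).length := by
  induction rs with
  | nil => simp
  | cons r rs ih =>
    rw [fl_cons, List.length_append, tow_list]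
    simp only [List.length_cons]
    omega

theorem dec_fl (rs : List (List ℕ)) : dec (fl rs) = rs := by
  rw [dec, iter_fl rs _ _ (length_le_fl rs)]
  simp

theorem sz_frw (l : List ℕ) :
    sz (frw l : List ℕ × List ℕ).1 + sz (frw l : List ℕ × List ℕ).2 ≤ sz l := by
  have h1 : (frw l : List ℕ × List ℕ) = (l.tail.take (l.headD 0), l.tail.drop (l.headD 0)) := rfl
  rw [h1]
  have h2 := Crest.Agent.Lib.PT.sz_append (l.tail.take (l.headD 0)) (l.tail.drop (l.headD 0))
  rw [List.take_append_drop] at h2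
  have h3 := Crest.Agent.Lib.PT.sz_tail_le l
  simp only
  omega

theorem sz_single (r : List ℕ) : sz [r] = 2 * sz r + 1 := by
  rw [Crest.Agent.Lib.PT.sz_list]
  simp

theorem ptf_stp : PTF stp := by
  unfold stp
  have h0 : PTPred (fun x : List (List ℕ) × List ℕ => x.2 = []) :=
    (PTF.toPTPred (PTF.isEmpty PTF.snd)).of_iff fun x => by simp
  refine PTF.ite h0 PTF.id (PTF.prodMk ?_ ?_)
  · refine PTF.append PTF.fst (PTF.listCons ?_ (PTF.const _))
    exact PTF.comp (g := fun p : List ℕ × List ℕ => p.1) PTF.fst (PTF.comp ptf_frw PTF.snd)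
  · exact PTF.comp (g := fun p : List ℕ × List ℕ => p.2) PTF.snd (PTF.comp ptf_frw PTF.snd)

theorem sz_pair {α β : Type} [PTCode α] [PTCode β] (a : α) (b : β) :
    sz (a, b) = 2 * sz a + 1 + sz b := by
  simp [sz]

theorem ptf_dec : PTF dec := by
  unfold dec
  have h1 : PTF (fun l : List ℕ => (([], l) : List (List ℕ) × List ℕ)) :=
    PTF.prodMk (PTF.const _) PTF.id
  have h2 : PTF (fun l : List ℕ => stp^[l.length] ([], l)) := by
    refine PTF.iterate' (f := fun _ => stp) (a := fun l : List ℕ => ([], l))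
      (PTU.length PTF.id) (PTF.comp ptf_stp PTF.snd) h1
      (B := fun l => 3 * (2 * sz l + l.length) + 1) (by have := (PTU.length (l := fun l : List ℕ => l) PTF.id).pb; fun_prop) ?_
    intro l i hi
    have key : ∀ i, sz (stp^[i] ([], l)).1 + 2 * sz (stp^[i] ([], l)).2 ≤ 2 * sz l + i := by
      intro i
      induction i with
      | zero => simp [sz]
      | succ i ih =>
        rw [Function.iterate_succ_apply']
        generalize stp^[i] ([], l) = x at ih
        unfold stp
        split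
        · omega
        · have h3 := sz_frw x.2
          show sz (x.1 ++ [(frw x.2 : List ℕ × List ℕ).1]) +
            2 * sz (frw x.2 : List ℕ × List ℕ).2 ≤ _
          rw [Crest.Agent.Lib.PT.sz_append, sz_single]
          omega
    have h4 := key i
    generalize stp^[i] ([], l) = x at h4
    obtain ⟨a, b⟩ := x
    rw [sz_pair]
    simp only at h4
    omega
  exact PTF.comp (g := fun p : List (List ℕ) × List ℕ => p.1) PTF.fst h2

/-! ### pieces of the engine -/

/-- the environment inside the loop: tape pointer `p`, local data `f`, pending requests `pd`,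
results `rs` -/
def ev (p : ℕ) (f : List ℕ) (pd rs : List (List ℕ)) : List ℕ :=
  1 :: pd.length :: p :: (fl pd ++ (tow f ++ fl rs))

variable (δ : List ℕ → List (List ℕ) → List ℕ × List (List ℕ))

/-- start of a phase -/
def ini (p : ℕ) (f : List ℕ) (rs : List (List ℕ)) : List ℕ :=
  if (δ f rs).2 = [] then 0 :: p :: (δ f rs).1
  else 1 :: (δ f rs).2.length :: p :: (fl (δ f rs).2 ++ tow (δ f rs).1)

theorem ini_stop {p : ℕ} {f : List ℕ} {rs : List (List ℕ)} (h : (δ f rs).2 = []) :
    ini δ p f rs = 0 :: p :: (δ f rs).1 := by rw [ini, if_pos h]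

theorem ini_go {p : ℕ} {f : List ℕ} {rs : List (List ℕ)} (h : (δ f rs).2 ≠ []) :
    ini δ p f rs = ev p (δ f rs).1 (δ f rs).2 [] := by
  rw [ini, if_neg h, ev]
  simp

/-- the head request -/
def hq (v : List ℕ) : List ℕ := (frw (v.drop 3) : List ℕ × List ℕ).1

/-- kind of a request -/
def kq (q : List ℕ) : ℕ := q.headD 4

/-- kind of the head request -/
def kd (v : List ℕ) : ℕ := kq (hq v)

/-- index of a read request -/
def ix (v : List ℕ) : ℕ := (hq v).getD 1 0

/-- the tape pointer -/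
def pt (v : List ℕ) : ℕ := v.getD 2 0

/-- replace the tape pointer -/
def spt (p : ℕ) (w : List ℕ) : List ℕ := 1 :: w.getD 1 0 :: p :: w.drop 3

/-- after the read of a tape word -/
def fixT (v : List ℕ) : List ℕ := 1 :: v.headD 0 :: spt (pt v.tail + 1) v.tail

/-- after the read of an array -/
def one (v : List ℕ) : List ℕ := 1 :: v

/-- argument of a call -/
def argF (base : List ℕ → ℕ) (v : List ℕ) : List ℕ :=
  (if kd v = 5 then base (hq v).tail else pt v) :: (hq v).tail

/-- after a call -/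
def fixC (v : List ℕ) : List ℕ :=
  tow (frw v : List ℕ × List ℕ).1.tail ++
    spt (if kd (frw v : List ℕ × List ℕ).2 = 5 then pt (frw v : List ℕ × List ℕ).2
      else (frw v : List ℕ × List ℕ).1.headD 0) (frw v : List ℕ × List ℕ).2

/-- what remains behind the head request, with the new result -/
def frm (v : List ℕ) : List ℕ :=
  (frw ((frw v : List ℕ × List ℕ).2.drop 3) : List ℕ × List ℕ).2 ++
    (tow (frw v : List ℕ × List ℕ).1 : List ℕ)

/-- absorb the result of a request -/
def absF (v : List ℕ) : List ℕ :=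
  if (frw v : List ℕ × List ℕ).2.getD 1 0 ≤ 1 then
    ini δ (pt (frw v : List ℕ × List ℕ).2) (frw (frm v) : List ℕ × List ℕ).1
      (dec (frw (frm v) : List ℕ × List ℕ).2)
  else 1 :: ((frw v : List ℕ × List ℕ).2.getD 1 0 - 1) :: pt (frw v : List ℕ × List ℕ).2 :: frm v

section specs

variable (p p' : ℕ) (f q u : List ℕ) (pd rs : List (List ℕ))

theorem frw_tow' (u l : List ℕ) : (frw (tow u ++ l) : List ℕ × List ℕ) = (u, l) :=
  Flat.frw_tow u l

theorem drop_ev : (ev p f (q :: pd) rs).drop 3 = tow q ++ (fl pd ++ (tow f ++ fl rs)) := by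
  simp [ev]

@[simp] theorem hq_ev : hq (ev p f (q :: pd) rs) = q := by
  unfold hq
  rw [drop_ev, frw_tow']

@[simp] theorem kd_ev : kd (ev p f (q :: pd) rs) = kq q := by rw [kd, hq_ev]

@[simp] theorem ix_ev : ix (ev p f (q :: pd) rs) = q.getD 1 0 := by rw [ix, hq_ev]

@[simp] theorem pt_ev : pt (ev p f pd rs) = p := by simp [pt, ev]

@[simp] theorem spt_ev : spt p' (ev p f pd rs) = ev p' f pd rs := by simp [spt, ev]

theorem fixT_ev (r : ℕ) : fixT (r :: ev p f pd rs) = tow [r] ++ ev (p + 1) f pd rs := by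
  unfold fixT
  rw [List.tail_cons, pt_ev, spt_ev]
  simp

theorem one_ev (r : ℕ) (v : List ℕ) : one (r :: v) = tow [r] ++ v := by simp [one]

theorem argF_low (base : List ℕ → ℕ) (h : kq q = 5) :
    argF base (ev p f (q :: pd) rs) = base q.tail :: q.tail := by
  unfold argF
  rw [kd_ev, if_pos h, hq_ev]

theorem argF_same (base : List ℕ → ℕ) (h : kq q ≠ 5) :
    argF base (ev p f (q :: pd) rs) = p :: q.tail := by
  unfold argF
  rw [kd_ev, if_neg h, hq_ev, pt_ev]

theorem fixC_low (h : kq q = 5) :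
    fixC (tow (p' :: u) ++ ev p f (q :: pd) rs) = tow u ++ ev p f (q :: pd) rs := by
  unfold fixC
  rw [frw_tow']
  simp only [List.tail_cons, kd_ev, if_pos h, pt_ev, spt_ev]

theorem fixC_same (h : kq q ≠ 5) :
    fixC (tow (p' :: u) ++ ev p f (q :: pd) rs) = tow u ++ ev p' f (q :: pd) rs := by
  unfold fixC
  rw [frw_tow']
  simp only [List.tail_cons, kd_ev, if_neg h, List.headD_cons, spt_ev]

theorem frm_ev : frm (tow u ++ ev p f (q :: pd) rs) = fl pd ++ (tow f ++ fl (rs ++ [u])) := by
  unfold frm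
  rw [frw_tow']
  simp only [drop_ev, frw_tow']
  simp

theorem absF_more {pd : List (List ℕ)} (hpd : pd ≠ []) :
    absF δ (tow u ++ ev p f (q :: pd) rs) = ev p f pd (rs ++ [u]) := by
  unfold absF
  rw [frm_ev, frw_tow']
  have h4 : (ev p f (q :: pd) rs).getD 1 0 = pd.length + 1 := by simp [ev]
  have h5 : ¬ pd.length + 1 ≤ 1 := by
    cases pd with
    | nil => exact absurd rfl hpd
    | cons a l => simp
  simp only [h4, if_neg h5, pt_ev]
  rw [ev, Nat.add_sub_cancel]

theorem absF_last :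
    absF δ (tow u ++ ev p f [q] rs) = ini δ p f (rs ++ [u]) := by
  unfold absF
  rw [frm_ev, frw_tow']
  have h4 : (ev p f [q] rs).getD 1 0 = 1 := by simp [ev]
  simp only [h4, le_refl, if_true, pt_ev, fl_nil, List.nil_append, frw_tow', dec_fl]

end specs

section cert

variable {δ}

theorem ptf_ini (hδ : PTF (fun p : List ℕ × List (List ℕ) => δ p.1 p.2)) :
    PTF (fun x : ℕ × List ℕ × List (List ℕ) => ini δ x.1 x.2.1 x.2.2) := by
  unfold ini
  have h3 : PTF (fun x : ℕ × List ℕ × List (List ℕ) => δ x.2.1 x.2.2) :=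
    PTF.comp hδ PTF.snd
  have h1 : PTF (fun x : ℕ × List ℕ × List (List ℕ) => (δ x.2.1 x.2.2).1) :=
    PTF.comp (g := fun p : List ℕ × List (List ℕ) => p.1) PTF.fst h3
  have h2 : PTF (fun x : ℕ × List ℕ × List (List ℕ) => (δ x.2.1 x.2.2).2) :=
    PTF.comp (g := fun p : List ℕ × List (List ℕ) => p.2) PTF.snd h3
  have h0 : PTPred (fun x : ℕ × List ℕ × List (List ℕ) => (δ x.2.1 x.2.2).2 = []) :=
    (PTF.toPTPred (PTF.isEmpty h2)).of_iff fun x => by simp
  refine PTF.ite h0 (PTF.listCons (PTF.const _) (PTF.listCons PTF.fst h1))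
    (PTF.listCons (PTF.const _) (PTF.listCons (PTU.toPTF (PTU.length h2))
      (PTF.listCons PTF.fst (PTF.append (PTF.comp ptf_fl h2) (PTF.comp ptf_tow h1)))))

theorem ptf_headD (d : ℕ) : PTF (fun l : List ℕ => l.headD d) := by
  refine PTF.of_eq (f := fun l : List ℕ => l.head?.getD d) (by fun_prop) fun l => ?_
  cases l <;> rfl

theorem ptf_frw1 : PTF (fun l : List ℕ => (frw l : List ℕ × List ℕ).1) :=
  PTF.comp (g := fun p : List ℕ × List ℕ => p.1) PTF.fst ptf_frw

theorem ptf_frw2 : PTF (fun l : List ℕ => (frw l : List ℕ × List ℕ).2) :=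
  PTF.comp (g := fun p : List ℕ × List ℕ => p.2) PTF.snd ptf_frw

theorem ptf_drop3 : PTF (fun l : List ℕ => l.drop 3) := PTF.drop (PTU.const 3) PTF.id

theorem ptf_hq : PTF hq :=
  PTF.comp (g := fun l : List ℕ => (frw l : List ℕ × List ℕ).1) ptf_frw1 ptf_drop3

theorem ptf_kd : PTF kd := PTF.comp (g := kq) (ptf_headD 4) ptf_hq

theorem ptf_ix : PTF ix := PTF.getD (PTU.const 1) ptf_hq (PTF.const 0)

theorem ptf_pt : PTF pt := PTF.getD (PTU.const 2) PTF.id (PTF.const 0)

theorem ptf_spt : PTF (fun x : ℕ × List ℕ => spt x.1 x.2) := by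
  unfold spt
  exact PTF.listCons (PTF.const 1) (PTF.listCons (PTF.getD (PTU.const 1) PTF.snd (PTF.const 0))
    (PTF.listCons PTF.fst (PTF.comp ptf_drop3 PTF.snd)))

theorem ptf_fixT : PTF fixT := by
  unfold fixT
  refine PTF.listCons (PTF.const 1) (PTF.listCons (ptf_headD 0) ?_)
  exact PTF.comp (g := fun x : ℕ × List ℕ => spt x.1 x.2) ptf_spt (PTF.prodMk
    (PTF.natAdd (PTF.comp ptf_pt (PTF.tail PTF.id)) (PTF.const 1)) (PTF.tail PTF.id))

theorem ptf_one : PTF one := PTF.listCons (PTF.const 1) PTF.id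

theorem ptf_argF {base : List ℕ → ℕ} (hb : PTF base) : PTF (argF base) := by
  unfold argF
  have ht : PTF (fun v : List ℕ => (hq v).tail) := PTF.tail ptf_hq
  exact PTF.listCons (PTF.ite (PTPred.natEq ptf_kd (PTF.const 5)) (PTF.comp hb ht) ptf_pt) ht

theorem ptf_fixC : PTF fixC := by
  unfold fixC
  refine PTF.append (PTF.comp ptf_tow (PTF.tail ptf_frw1)) ?_
  refine PTF.comp (g := fun x : ℕ × List ℕ => spt x.1 x.2) ptf_spt (PTF.prodMk ?_ ptf_frw2)
  exact PTF.ite (PTPred.natEq (PTF.comp ptf_kd ptf_frw2) (PTF.const 5)) (PTF.comp ptf_pt ptf_frw2)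
    (PTF.comp (ptf_headD 0) ptf_frw1)

theorem ptf_frm : PTF frm := by
  unfold frm
  exact PTF.append (PTF.comp (g := fun l : List ℕ => (frw l : List ℕ × List ℕ).2) ptf_frw2
    (PTF.comp (g := fun l : List ℕ => l.drop 3) ptf_drop3 ptf_frw2)) (PTF.comp ptf_tow ptf_frw1)

theorem ptf_absF (hδ : PTF (fun p : List ℕ × List (List ℕ) => δ p.1 p.2)) : PTF (absF δ) := by
  unfold absF
  have hc : PTF (fun v : List ℕ => ((frw v : List ℕ × List ℕ).2).getD 1 0) :=
    PTF.getD (PTU.const 1) ptf_frw2 (PTF.const 0)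
  have hp : PTF (fun v : List ℕ => pt (frw v : List ℕ × List ℕ).2) := PTF.comp ptf_pt ptf_frw2
  refine PTF.ite (PTPred.natLe hc (PTF.const 1)) ?_ ?_
  · exact PTF.comp (g := fun x : ℕ × List ℕ × List (List ℕ) => ini δ x.1 x.2.1 x.2.2) (ptf_ini hδ)
      (PTF.prodMk hp (PTF.prodMk (PTF.comp ptf_frw1 ptf_frm)
        (PTF.comp ptf_dec (PTF.comp ptf_frw2 ptf_frm))))
  · exact PTF.listCons (PTF.const 1) (PTF.listCons (PTF.natSub hc (PTF.const 1))
      (PTF.listCons hp ptf_frm))

end cert

end Crest.Agent.R288.Phe940
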