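import Crest.Agent.R288.Pl_726
import Crest.Agent.R288.PtX_949

/-!
# R288, PL layer: calling a procedure on a computed list of arguments (helper667)

* `flat us` : a list of lists as one list (`length :: entries`), `unflat` : its inverse, PTF.
* `Run e pr p v i v' i' T D` : `p` started in `(v, i)` ends in `(v', i')` with time `≤ T`,
  depth `≤ D`; rules for all statements.
* `mapC j a h` : for every argument list in `a v` call procedure `j`; with the list `us` of the
  results: `v := h us v`. `Run.mapC`.
* `loopC n j a f` : counted loop with an accumulator. `Run.loopC`.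
-/

set_option autoImplicit false

namespace Crest.Agent.R288.PlMap667

open Crest.Agent.R295 HL Pt949 Crest.Agent.R288.Pl726
open Crest.Agent.Lib.PT Crest.Agent.R288.PtX949

/-! ### flat lists -/

/-- a list of lists as one list -/
def flat (us : List (List ℕ)) : List ℕ := us.flatMap fun u => u.length :: u

@[simp] theorem flat_nil : flat [] = [] := rfl

@[simp] theorem flat_cons (u : List ℕ) (us : List (List ℕ)) :
    flat (u :: us) = u.length :: (u ++ flat us) := rfl

theorem flat_append (us vs : List (List ℕ)) : flat (us ++ vs) = flat us ++ flat vs := by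
  simp [flat]

theorem flat_length (us : List (List ℕ)) :
    (flat us).length = (us.map fun u => u.length + 1).sum := by
  induction us with
  | nil => rfl
  | cons u us ih => simp [ih]; ring

theorem length_le_flat (us : List (List ℕ)) : us.length ≤ (flat us).length := by
  induction us with
  | nil => simp
  | cons u us ih => simp; omega

/-- one step of the decoding -/
def unStep (x : List (List ℕ) × List ℕ) : List (List ℕ) × List ℕ :=
  if x.2 = [] then x else
    (x.1 ++ [(x.2.drop 1).take (x.2.headD 0)], (x.2.drop 1).drop (x.2.headD 0))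

/-- decoding -/
def unflat (l : List ℕ) : List (List ℕ) := (unStep^[l.length] ([], l)).1

theorem unStep_nil (x : List (List ℕ)) : unStep (x, []) = (x, []) := by simp [unStep]

theorem unStep_cons (x : List (List ℕ)) (u : List ℕ) (l : List ℕ) :
    unStep (x, u.length :: (u ++ l)) = (x ++ [u], l) := by simp [unStep]

theorem unStep_iter_nil (x : List (List ℕ)) (k : ℕ) : unStep^[k] (x, []) = (x, []) := by
  induction k with
  | zero => rfl
  | succ k ih => rw [Function.iterate_succ_apply, unStep_nil, ih]

theorem unStep_iter (us : List (List ℕ)) :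
    ∀ (x : List (List ℕ)) (k : ℕ), us.length ≤ k → unStep^[k] (x, flat us) = (x ++ us, []) := by
  induction us with
  | nil => intro x k _; rw [flat_nil, unStep_iter_nil, List.append_nil]
  | cons u us ih =>
    intro x k hk
    obtain ⟨k, rfl⟩ : ∃ k', k = k' + 1 := ⟨k - 1, by simp at hk; omega⟩
    rw [Function.iterate_succ_apply, flat_cons, unStep_cons, ih _ _ (by simpa using hk),
      List.append_assoc, List.singleton_append]

@[simp] theorem unflat_flat (us : List (List ℕ)) : unflat (flat us) = us := by
  rw [unflat, unStep_iter us _ _ (length_le_flat us), List.nil_append]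

section ptf

variable {γ : Type} [PTCode γ]

@[fun_prop]
theorem ptf_flat {x : γ → List (List ℕ)} (hx : PTF x) : PTF (fun c => flat (x c)) := by
  unfold flat
  fun_prop

theorem ptf_unStep : PTF unStep := by
  unfold unStep
  fun_prop

/-- weight of a partial result -/
def wgt (x : List (List ℕ) × List ℕ) : ℕ := (x.1.map fun u => u.length + 1).sum + x.2.length

theorem wgt_unStep (x : List (List ℕ) × List ℕ) : wgt (unStep x) ≤ wgt x := by
  unfold unStep
  split
  · exact le_rfl
  · rename_i h
    obtain ⟨n, t, ht⟩ := List.exists_cons_of_ne_nil h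
    simp only [wgt, List.map_append, List.sum_append, ht, List.drop_succ_cons, List.drop_zero,
      List.headD_cons, List.map_cons, List.map_nil, List.sum_cons, List.sum_nil,
      List.length_take, List.length_drop, List.length_cons]
    omega

/-- all entries at most `M` -/
def ent (M : ℕ) (x : List (List ℕ) × List ℕ) : Prop :=
  (∀ u ∈ x.1, ∀ a ∈ u, a ≤ M) ∧ ∀ a ∈ x.2, a ≤ M

theorem ent_unStep {M : ℕ} {x : List (List ℕ) × List ℕ} (h : ent M x) : ent M (unStep x) := by
  unfold unStep
  split
  · exact h
  · refine ⟨?_, ?_⟩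
    · intro u hu a ha
      rw [List.mem_append, List.mem_singleton] at hu
      rcases hu with hu | rfl
      · exact h.1 u hu a ha
      · exact h.2 a (List.mem_of_mem_drop (List.mem_of_mem_take ha))
    · intro a ha
      exact h.2 a (List.mem_of_mem_drop (List.mem_of_mem_drop ha))

theorem ct_le_wgt (x : List (List ℕ) × List ℕ) : ct x ≤ 12 * wgt x + 1 := by
  have h1 : ct x.1 ≤ 6 * (x.1.map fun u => u.length + 1).sum := by
    generalize x.1 = l
    induction l with
    | nil => simp
    | cons u us ih => simp [ct_listNat] at ih ⊢; omega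
  have h2 : ct x.2 = 3 * x.2.length := ct_listNat x.2
  simp only [ct_prod, wgt]
  omega

theorem mx_le_ent {M : ℕ} {x : List (List ℕ) × List ℕ} (h : ent M x) : mx x ≤ M := by
  simp only [mx_prod]
  refine max_le ?_ ?_
  · exact mx_le_iff.2 fun u hu => mx_le_iff.2 fun a ha => h.1 u hu a ha
  · exact mx_le_iff.2 fun a ha => h.2 a ha

@[fun_prop]
theorem ptf_unflat {x : γ → List ℕ} (hx : PTF x) : PTF (fun c => unflat (x c)) := by
  have h1 : PTF (fun c => unStep^[(x c).length] (([], x c) : List (List ℕ) × List ℕ)) := by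
    refine iterate_inv (n := fun c => (x c).length) (f := fun _ y => unStep y)
      (a := fun c => (([], x c) : List (List ℕ) × List ℕ)) (by fun_prop)
      (ptf_unStep.comp (by fun_prop)) (by fun_prop)
      (fun c y => wgt y ≤ (x c).length ∧ ent (mx (x c)) y)
      (B := fun c => (12 * (x c).length + 1) * ((mx (x c)).size + 1)) ?_ ?_ ?_ ?_
    · have h3 := pb_mx hx
      have h4 : PTU (fun c => (x c).length) := by fun_prop
      have h5 := h4.pb
      fun_prop
    · intro c
      refine ⟨by simp [wgt], ?_, ?_⟩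
      · intro u hu; simp at hu
      · intro a ha
        exact (mx_le_iff.1 (le_refl (mx (x c)))) a ha
    · intro c y hy
      exact ⟨(wgt_unStep y).trans hy.1, ent_unStep hy.2⟩
    · intro c y hy
      refine sz_le_of ((ct_le_wgt y).trans ?_) (mx_le_ent hy.2)
      have := hy.1
      omega
  unfold unflat
  fun_prop

end ptf

/-! ### runs with bounds -/

/-- `p` started in `(v, i)` ends in `(v', i')` with time at most `T` and depth at most `D` -/
def Run (e : PEnv) (pr : List PS) (p : PS) (v : List ℕ) (i : ℕ) (v' : List ℕ) (i' T D : ℕ) :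
    Prop :=
  ∃ t d, PEx e pr p v i v' i' t d ∧ t ≤ T ∧ d ≤ D

section run

variable {e : PEnv} {pr : List PS} {p q : PS} {v v' v'' : List ℕ} {i i' i'' T T' D D' : ℕ}

theorem Run.mono (h : Run e pr p v i v' i' T D) (hT : T ≤ T') (hD : D ≤ D') :
    Run e pr p v i v' i' T' D' := by
  obtain ⟨t, d, h1, h2, h3⟩ := h
  exact ⟨t, d, h1, h2.trans hT, h3.trans hD⟩

theorem Run.fits (h : Run e pr p v i v' i' T D) (hv : e.Fits v) : e.Fits v' := by
  obtain ⟨t, d, h1, _, _⟩ := h
  exact h1.fits hv

theorem Run.skip (hT : 1 ≤ T) : Run e pr .skip v i v i T D := ⟨1, 0, .skip, hT, Nat.zero_le _⟩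

theorem Run.asg {f : List ℕ → List ℕ} {hf : PTF f} (h : e.Fits (f v)) (hT : 1 ≤ T) :
    Run e pr (.asg f hf) v i (f v) i T D := ⟨1, 0, .asg h, hT, Nat.zero_le _⟩

theorem Run.asg' {f : List ℕ → List ℕ} {hf : PTF f} (h : e.Fits v') (hv : f v = v')
    (hT : 1 ≤ T) : Run e pr (.asg f hf) v i v' i T D := by
  subst hv
  exact Run.asg h hT

theorem Run.rnd (h : e.Fits (e.ρ i :: v)) (hT : 1 ≤ T) :
    Run e pr .rnd v i (e.ρ i :: v) (i + 1) T D := ⟨1, 0, .rnd h, hT, Nat.zero_le _⟩

theorem Run.rd {k : ℕ} {g : List ℕ → ℕ} {hg : PTF g} (hk : k < 50) (hL : g v < e.L)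
    (h : e.Fits (e.O k (g v) :: v)) (hT : 1 ≤ T) :
    Run e pr (.rd k g hg) v i (e.O k (g v) :: v) i T D :=
  ⟨1, 0, .rd hk hL h, hT, Nat.zero_le _⟩

theorem Run.call {j : ℕ} {g : List ℕ → List ℕ} {hg : PTF g} {u : List ℕ} (h1 : e.Fits (g v))
    (h2 : Run e pr (pbody pr j) (g v) i u i' T D) (h3 : e.Fits (u.length :: (u ++ v)))
    (hT : T + 1 ≤ T') (hD : D + 1 ≤ D') :
    Run e pr (.call j g hg) v i (u.length :: (u ++ v)) i' T' D' := by
  obtain ⟨t, d, h4, h5, h6⟩ := h2
  exact ⟨t + 1, d + 1, .call h1 h4 h3, by omega, by omega⟩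

theorem Run.seq (h1 : Run e pr p v i v' i' T D) (h2 : Run e pr q v' i' v'' i'' T' D)
    {N : ℕ} (hN : T + T' + 1 ≤ N) : Run e pr (.seq p q) v i v'' i'' N D := by
  obtain ⟨t, d, h4, h5, h6⟩ := h1
  obtain ⟨t', d', h7, h8, h9⟩ := h2
  exact ⟨_, _, .seq h4 h7, by omega, max_le h6 h9⟩

theorem Run.ite_true {g : List ℕ → Bool} {hg : PTF g} (h : g v = true)
    (h1 : Run e pr p v i v' i' T D) (hT : T + 1 ≤ T') :
    Run e pr (.ite g hg p q) v i v' i' T' D := by
  obtain ⟨t, d, h4, h5, h6⟩ := h1
  exact ⟨_, _, .ite_true h h4, by omega, h6⟩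

theorem Run.ite_false {g : List ℕ → Bool} {hg : PTF g} (h : g v = false)
    (h1 : Run e pr q v i v' i' T D) (hT : T + 1 ≤ T') :
    Run e pr (.ite g hg p q) v i v' i' T' D := by
  obtain ⟨t, d, h4, h5, h6⟩ := h1
  exact ⟨_, _, .ite_false h h4, by omega, h6⟩

theorem Run.whl_done {g : List ℕ → Bool} {hg : PTF g} (h : g v = false) (hT : 1 ≤ T) :
    Run e pr (.whl g hg p) v i v i T D := ⟨1, 0, .whl_done h, hT, Nat.zero_le _⟩

theorem Run.whl_step {g : List ℕ → Bool} {hg : PTF g} (h : g v = true)
    (h1 : Run e pr p v i v' i' T D) (h2 : Run e pr (.whl g hg p) v' i' v'' i'' T' D)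
    {N : ℕ} (hN : T + T' + 1 ≤ N) : Run e pr (.whl g hg p) v i v'' i'' N D := by
  obtain ⟨t, d, h4, h5, h6⟩ := h1
  obtain ⟨t', d', h7, h8, h9⟩ := h2
  exact ⟨_, _, .whl_step h h4 h7, by omega, max_le h6 h9⟩

/-- a loop along a sequence of environments -/
theorem Run.whl {g : List ℕ → Bool} {hg : PTF g} (V : ℕ → List ℕ) (I C : ℕ → ℕ) (m : ℕ)
    (h : ∀ k < m, g (V k) = true ∧ Run e pr p (V k) (I k) (V (k + 1)) (I (k + 1)) (C k) D)
    (hm : g (V m) = false) (hT : ∑ k ∈ Finset.range m, (C k + 1) + 1 ≤ T) :
    Run e pr (.whl g hg p) (V 0) (I 0) (V m) (I m) T D := by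
  induction m generalizing V I C T with
  | zero => exact Run.whl_done hm (by simpa using hT)
  | succ m ih =>
    have h0 := h 0 (Nat.succ_pos m)
    have h1 := ih (fun k => V (k + 1)) (fun k => I (k + 1)) (fun k => C (k + 1))
      (T := ∑ k ∈ Finset.range m, (C (k + 1) + 1) + 1)
      (fun k hk => h (k + 1) (by omega)) hm le_rfl
    refine Run.whl_step h0.1 h0.2 h1 ?_
    rw [Finset.sum_range_succ'] at hT
    omega

end run

/-! ### calling a procedure for every element of a list -/

section mapC

/-- the base environment of a loop environment `k :: s :: (stack ++ v)` -/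
def mBase (w : List ℕ) : List ℕ := (w.drop 2).drop (w.getD 1 0)

/-- argument of the next call -/
def mArg (a : List ℕ → List (List ℕ)) (w : List ℕ) : List ℕ := (a (mBase w)).getD (w.headD 0) []

/-- is there a next call? -/
def mTst (a : List ℕ → List (List ℕ)) (w : List ℕ) : Bool :=
  decide (w.headD 0 < (a (mBase w)).length)

/-- start -/
def mIni (v : List ℕ) : List ℕ := 0 :: 0 :: v

/-- put the result on the stack -/
def mUpd (w : List ℕ) : List ℕ :=
  (((w.drop 1).drop (w.headD 0)).headD 0 + 1) ::
    (((w.drop 1).drop (w.headD 0)).getD 1 0 + w.headD 0 + 1) ::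
      ((((w.drop 1).drop (w.headD 0)).drop 2).take (((w.drop 1).drop (w.headD 0)).getD 1 0) ++
        (w.headD 0 :: (w.drop 1).take (w.headD 0)) ++
        (((w.drop 1).drop (w.headD 0)).drop 2).drop (((w.drop 1).drop (w.headD 0)).getD 1 0))

/-- the end -/
def mFin (h : List (List ℕ) → List ℕ → List ℕ) (w : List ℕ) : List ℕ :=
  h (unflat ((w.drop 2).take (w.getD 1 0))) (mBase w)

theorem ptf_mBase {γ : Type} [PTCode γ] {w : γ → List ℕ} (hw : PTF w) :
    PTF (fun c => mBase (w c)) := by
  unfold mBase
  fun_prop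

theorem ptf_mArg {a : List ℕ → List (List ℕ)} (ha : PTF a) : PTF (mArg a) := by
  have h1 : PTF (fun w => mBase w) := ptf_mBase PTF.id
  have h2 : PTF (fun w => a (mBase w)) := ha.comp h1
  unfold mArg
  fun_prop

theorem ptf_mTst {a : List ℕ → List (List ℕ)} (ha : PTF a) : PTF (mTst a) := by
  have h1 : PTF (fun w => mBase w) := ptf_mBase PTF.id
  have h2 : PTF (fun w => a (mBase w)) := ha.comp h1
  unfold mTst
  fun_prop

theorem ptf_mIni : PTF mIni := by
  unfold mIni
  fun_prop

theorem ptf_mUpd : PTF mUpd := by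
  unfold mUpd
  fun_prop

theorem ptf_mFin {h : List (List ℕ) → List ℕ → List ℕ}
    (hh : PTF fun p : List (List ℕ) × List ℕ => h p.1 p.2) : PTF (mFin h) := by
  have h1 : PTF (fun w => mBase w) := ptf_mBase PTF.id
  have h2 : PTF (fun w : List ℕ => ((unflat ((w.drop 2).take (w.getD 1 0)), mBase w) :
      List (List ℕ) × List ℕ)) := by fun_prop
  exact hh.comp h2

/-- for every argument list in `a v` call procedure `j`; `us` = the results; `v := h us v` -/
noncomputable def mapC (j : ℕ) (a : List ℕ → List (List ℕ)) (ha : PTF a)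
    (h : List (List ℕ) → List ℕ → List ℕ) (hh : PTF fun p : List (List ℕ) × List ℕ => h p.1 p.2) :
    PS :=
  (PS.asg mIni ptf_mIni).seq
    ((PS.whl (mTst a) (ptf_mTst ha)
      ((PS.call j (mArg a) (ptf_mArg ha)).seq (PS.asg mUpd ptf_mUpd))).seq
      (PS.asg (mFin h) (ptf_mFin hh)))

/-- environment of the loop after `k` calls -/
def mEnv (us : List (List ℕ)) (v : List ℕ) (k : ℕ) : List ℕ :=
  k :: (flat (us.take k)).length :: (flat (us.take k) ++ v)

theorem mBase_mEnv (us : List (List ℕ)) (v : List ℕ) (k : ℕ) : mBase (mEnv us v k) = v := by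
  simp [mBase, mEnv]

theorem mUpd_eq (k : ℕ) (u l v : List ℕ) :
    mUpd (u.length :: (u ++ (k :: l.length :: (l ++ v)))) =
      (k + 1) :: (l ++ (u.length :: u)).length :: ((l ++ (u.length :: u)) ++ v) := by
  simp [mUpd]
  omega

theorem flat_take_succ (us : List (List ℕ)) {k : ℕ} (hk : k < us.length) :
    flat (us.take (k + 1)) = flat (us.take k) ++
      ((us.getD k []).length :: us.getD k []) := by
  rw [List.take_succ_eq_append_getElem hk, flat_append, List.getD_eq_getElem _ _ hk]
  simp

theorem mUpd_mEnv (us : List (List ℕ)) (v : List ℕ) {k : ℕ} (hk : k < us.length) :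
    mUpd ((us.getD k []).length :: ((us.getD k []) ++ mEnv us v k)) = mEnv us v (k + 1) := by
  rw [mEnv, mUpd_eq, mEnv, flat_take_succ us hk]

theorem flat_take_le (us : List (List ℕ)) (k : ℕ) :
    (flat (us.take k)).length ≤ (flat us).length := by
  conv_rhs => rw [← List.take_append_drop k us, flat_append, List.length_append]
  omega

theorem mem_flat {us : List (List ℕ)} {x : ℕ} (h : x ∈ flat us) :
    ∃ u ∈ us, x = u.length ∨ x ∈ u := by
  rw [flat, List.mem_flatMap] at h
  obtain ⟨u, hu, hx⟩ := h
  exact ⟨u, hu, List.mem_cons.1 hx⟩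

variable {e : PEnv} {pr : List PS} {v : List ℕ} {i D : ℕ}

theorem mEnv_fits (hSB : e.S < e.B) (hv : e.Fits v) {us : List (List ℕ)}
    (hus : ∀ u ∈ us, e.Fits u) (hS : (flat us).length + v.length + 2 ≤ e.S) {k : ℕ}
    (hk : k ≤ us.length) : e.Fits (mEnv us v k) := by
  have h1 := flat_take_le us k
  have h2 := length_le_flat us
  refine ⟨?_, ?_⟩
  · simp only [mEnv, List.length_cons, List.length_append]
    omega
  · intro x hx
    simp only [mEnv, List.mem_cons, List.mem_append] at hx
    rcases hx with rfl | rfl | hx | hx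
    · omega
    · omega
    · obtain ⟨u, hu, hx⟩ := mem_flat hx
      have hu' := hus u (List.mem_of_mem_take hu)
      rcases hx with rfl | hx
      · have := hu'.1
        omega
      · exact hu'.2 x hx
    · exact hv.2 x hx

/-- **the rule for `mapC`** -/
theorem Run.mapC {j : ℕ} {a : List ℕ → List (List ℕ)} {ha : PTF a}
    {h : List (List ℕ) → List ℕ → List ℕ} {hh : PTF fun p : List (List ℕ) × List ℕ => h p.1 p.2}
    (hSB : e.S < e.B) (hv : e.Fits v) (us : List (List ℕ)) (I C : ℕ → ℕ)
    (hlen : us.length = (a v).length) (hI : I 0 = i)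
    (hcall : ∀ k < us.length, e.Fits ((a v).getD k []) ∧
      Run e pr (pbody pr j) ((a v).getD k []) (I k) (us.getD k []) (I (k + 1)) (C k) D)
    (hS : (flat us).length + v.length + 2 ≤ e.S) (hout : e.Fits (h us v)) {T : ℕ}
    (hT : ∑ k ∈ Finset.range us.length, (C k + 4) + 6 ≤ T) :
    Run e pr (mapC j a ha h hh) v i (h us v) (I us.length) T (D + 1) := by
  have hus : ∀ u ∈ us, e.Fits u := by
    intro u hu
    obtain ⟨k, hk, rfl⟩ := List.getElem_of_mem hu
    obtain ⟨h1, h2⟩ := hcall k hk
    rw [List.getD_eq_getElem _ _ hk] at h2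
    exact h2.fits h1
  have hfit : ∀ k ≤ us.length, e.Fits (mEnv us v k) := fun k hk => mEnv_fits hSB hv hus hS hk
  have hloop : Run e pr (PS.whl (mTst a) (ptf_mTst ha)
      ((PS.call j (mArg a) (ptf_mArg ha)).seq (PS.asg mUpd ptf_mUpd))) (mEnv us v 0) (I 0)
      (mEnv us v us.length) (I us.length)
      (∑ k ∈ Finset.range us.length, (C k + 3 + 1) + 1) (D + 1) := by
    refine Run.whl (fun k => mEnv us v k) I (fun k => C k + 3) us.length ?_ ?_ le_rfl
    · intro k hk
      have e1 : mArg a (mEnv us v k) = (a v).getD k [] := by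
        rw [mArg, mBase_mEnv]; rfl
      refine ⟨?_, ?_⟩
      · rw [mTst, mBase_mEnv, decide_eq_true_iff, ← hlen]
        exact hk
      · obtain ⟨h1, h2⟩ := hcall k hk
        have h3 := hfit (k + 1) hk
        have h4 : e.Fits ((us.getD k []).length :: (us.getD k [] ++ mEnv us v k)) := by
          have h5 := hus (us.getD k []) (by
            rw [List.getD_eq_getElem _ _ hk]; exact List.getElem_mem hk)
          refine ⟨?_, ?_⟩
          · have h6 := h3.1
            rw [mEnv, flat_take_succ us hk] at h6
            simp only [mEnv, List.length_cons, List.length_append] at h6 ⊢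
            omega
          · intro x hx
            rw [List.mem_cons, List.mem_append] at hx
            rcases hx with rfl | hx | hx
            · have := h5.1; omega
            · exact h5.2 x hx
            · exact (hfit k hk.le).2 x hx
        refine Run.seq (v' := (us.getD k []).length :: (us.getD k [] ++ mEnv us v k))
          (i' := I (k + 1)) (T := C k + 1) (T' := 1) ?_ ?_ (by omega)
        · refine Run.call (T := C k) (D := D) ?_ ?_ h4 le_rfl le_rfl
          · rw [e1]; exact h1
          · rw [e1]; exact h2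
        · exact Run.asg' h3 (mUpd_mEnv us v hk) le_rfl
    · rw [mTst, mBase_mEnv, decide_eq_false_iff_not, ← hlen]
      exact lt_irrefl _
  refine Run.seq (v' := mEnv us v 0) (i' := i) (T := 1)
    (T' := ∑ k ∈ Finset.range us.length, (C k + 3 + 1) + 1 + 1 + 1) ?_ ?_ (by
      have : ∀ k, C k + 3 + 1 = C k + 4 := fun k => by omega
      simp only [this]
      omega)
  · exact Run.asg' (hfit 0 (Nat.zero_le _)) (by simp [mIni, mEnv]) le_rfl
  · rw [← hI]
    refine Run.seq hloop (T' := 1) ?_ le_rfl
    refine Run.asg' hout ?_ le_rfl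
    rw [mFin, mBase_mEnv]
    congr 1
    simp [mEnv]

/-- uniform bound for the calls -/
theorem Run.mapC' {j : ℕ} {a : List ℕ → List (List ℕ)} {ha : PTF a}
    {h : List (List ℕ) → List ℕ → List ℕ} {hh : PTF fun p : List (List ℕ) × List ℕ => h p.1 p.2}
    (hSB : e.S < e.B) (hv : e.Fits v) (F : List ℕ → List ℕ) {C R : ℕ}
    (hcall : ∀ x ∈ a v, e.Fits x ∧ Run e pr (pbody pr j) x i (F x) i C D ∧ (F x).length ≤ R)
    (hS : (a v).length * (R + 1) + v.length + 2 ≤ e.S) (hout : e.Fits (h ((a v).map F) v)) {T : ℕ}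
    (hT : (a v).length * (C + 4) + 6 ≤ T) :
    Run e pr (PlMap667.mapC j a ha h hh) v i (h ((a v).map F) v) i T (D + 1) := by
  refine Run.mapC (I := fun _ => i) (C := fun _ => C) hSB hv ((a v).map F)
    (List.length_map ..) rfl ?_ ?_ hout ?_
  · intro k hk
    rw [List.length_map] at hk
    have hx := hcall _ (List.getElem_mem hk)
    rw [List.getD_eq_getElem _ _ hk, List.getD_eq_getElem _ _ (by rwa [List.length_map]),
      List.getElem_map]
    exact ⟨hx.1, hx.2.1⟩
  · have : (flat ((a v).map F)).length ≤ (a v).length * (R + 1) := by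
      rw [flat_length, List.map_map]
      have : ∀ l : List (List ℕ), (∀ x ∈ l, (F x).length ≤ R) →
          (l.map ((fun u => u.length + 1) ∘ F)).sum ≤ l.length * (R + 1) := by
        intro l
        induction l with
        | nil => intro _; simp
        | cons x l ih =>
          intro hl
          have h1 := ih fun y hy => hl y (List.mem_cons_of_mem _ hy)
          have h2 := hl x List.mem_cons_self
          simp only [List.map_cons, List.sum_cons, List.length_cons, Function.comp_apply]
          have : (l.length + 1) * (R + 1) = l.length * (R + 1) + (R + 1) := by ring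
          omega
      exact this _ fun x hx => (hcall x hx).2.2
    omega
  · rw [List.length_map, Finset.sum_const, Finset.card_range, smul_eq_mul]
    exact hT

end mapC

end Crest.Agent.R288.PlMap667
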