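import Crest.Agent.R288.PlS_726
import Crest.Agent.R288.EnvM_12

/-!
# R288, PL layer part 3 (helper726): the simulation theorem
-/

set_option autoImplicit false

namespace Crest.Agent.R288.Pl726

open Crest.Agent.R295 HL Pt949 Crest.Agent.R288.Rec690 Crest.Agent.R288.EnvM12
open Crest.Agent.Lib.PT (PTF)

/-- the polynomial of the two fixed pieces -/
noncomputable def fixP : Polynomial ℕ := tcallT ptf_consF + tcallT ptf_joinF

theorem body_map (pr : List PS) (j : ℕ) : body (pr.map tr) j = tr (pbody pr j) := by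
  unfold body pbody
  rw [List.getD_eq_getElem?_getD, List.getD_eq_getElem?_getD, List.getElem?_map]
  cases pr[j]? <;> rfl

theorem pbody_bd {pr : List PS} {N K : ℕ} (h : ∀ q ∈ pr, q.bd N K) (j : ℕ) :
    (pbody pr j).bd N K := by
  unfold pbody
  rw [List.getD_eq_getElem?_getD]
  rcases lt_or_ge j pr.length with hj | hj
  · rw [List.getElem?_eq_getElem hj, Option.getD_some]
    exact h _ (List.getElem_mem hj)
  · rw [List.getElem?_eq_none hj, Option.getD_none]
    trivial

/-- the real environment `E` (large words) and the small one `e`; `r` = number of random bits -/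
structure Big (E e : Env) (pe : PEnv) (w r : ℕ) : Prop where
  hw : E.B = 2 ^ w
  B : e.B ≤ E.B
  L : e.L ≤ E.L
  ρ : ∀ i, pe.ρ i = E.ρ i % E.B % 2 ^ r
  hr : 2 ^ r ≤ e.B

/-- **Simulation.** `N` = size of the inputs of all calls, `K` = cost of all calls, `3 K + 30`
= cost of one unit of time. -/
theorem PEx.sim {E e : Env} {pe : PEnv} {w w' r : ℕ} (G : Big E e pe w' r) (M : Mat e pe w)
    {pr : List PS} {N K : ℕ}
    (hN : w + (2 * pe.S + 2) ≤ N) (hfix : fixP.eval N ≤ K) (hKL : K ≤ e.L)
    {x y : List ℕ} (hX : XOk e pe x y)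
    (hpr : ∀ q ∈ pr, q.bd N K) {p : PS} {v v' : List ℕ} {i i' t d : ℕ}
    (h : PEx pe pr p v i v' i' t d) :
    ∀ (b : ℕ) (s : State), p.bd N K → pe.Fits v → Rp e pe b v i s → Cx r x y s →
      b + (d + 1) * pe.S ≤ e.L → pe.S < e.B →
      RRuns E (pr.map tr) (tr p) s (t * (3 * K + 30)) d
        (fun s' => Rp e pe b v' i' s' ∧ Keep b s s') := by
  have hS := M.hS
  have hcons : (tcallT ptf_consF).eval N ≤ K := by
    refine le_trans ?_ hfix
    rw [fixP, Polynomial.eval_add]
    omega
  have hjoin : (tcallT ptf_joinF).eval N ≤ K := by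
    refine le_trans ?_ hfix
    rw [fixP, Polynomial.eval_add]
    omega
  have h2B : 2 < e.B := by have := M.h107; omega
  have h2E : 2 < E.B := lt_of_lt_of_le h2B G.B
  induction h with
  | @skip v i =>
    intro b s _ _ hR _ _ _
    exact RRuns.base (n := 0) ⟨s, 0, Ex.skip s, le_rfl, hR, Keep.refl b s⟩ (by omega)
  | @asg f hf v i hu =>
    intro b s hbd hv hR hm hb hSB
    have hvS := hv.1
    have hlen : (tow v).length = v.length + 1 := by rw [tow_list]; rfl
    refine RRuns.base (n := K) (Runs.env G.B G.L (asg_runs M hR (by omega) hSB (f := f) (a := v) ?_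
      hf hR.args hu (by rw [hlen]; omega) hbd hKL) tcall_det) (by omega)
    intro j hj
    rw [List.mem_singleton] at hj
    rw [hj]
    exact hR.inE_ok (by omega)
  | @rnd v i hu =>
    intro b s _ hv hR hm hb hSB
    have hvS := hv.1
    have hr : Ex E (.rnd 107) s (s.draw 107 (E.ρ s.drawn % E.B)) 1 := Ex.rnd 107 s
    set s0 := s.draw 107 (E.ρ s.drawn % E.B) with hs0
    have hval : (Exp.and (.var 107) (.var 99)).val s0 = pe.ρ i := by
      rw [Exp.val_and, Exp.val_var, Exp.val_var, hs0, State.draw_reg, State.draw_reg, if_pos rfl,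
        if_neg (by norm_num), hm.mask, Nat.and_two_pow_sub_one_eq_mod, G.ρ, hR.drawn]
    have hr1 : Ex E (.set 107 (.and (.var 107) (.var 99))) s0 (s0.setReg 107 (pe.ρ i)) 1 := by
      have := Ex.set (e := E) (x := 107) (a := .and (.var 107) (.var 99)) (s := s0)
        ⟨trivial, trivial⟩
      rwa [hval] at this
    set s1 := s0.setReg 107 (pe.ρ i) with hs1
    have hρ : pe.ρ i < e.B := by
      rw [G.ρ]
      exact lt_of_lt_of_le (Nat.mod_lt _ (by positivity)) G.hr
    have hreg : ∀ x, x ≠ 107 → s1.reg x = s.reg x := by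
      intro x hx
      rw [hs1, State.setReg_reg, if_neg hx, hs0, State.draw_reg, if_neg hx]
    have hwf : s1.Wf e := by
      refine ⟨fun x => ?_, hR.wf.2⟩
      by_cases hx : x = 107
      · rw [hx, hs1, State.setReg_reg, if_pos rfl]
        exact hρ
      · rw [hreg x hx]
        exact hR.wf.1 x
    have hR1 : Rp e pe b v (i + 1) s1 :=
      ⟨hwf, by rw [hreg _ (by norm_num), hR.base], by rw [hreg _ (by norm_num), hR.len], hR.seg,
        by rw [hs1, hs0, State.setReg_drawn, State.draw_drawn, hR.drawn], hR.ora⟩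
    have h1 := cons_runs M hR1 hvS (by omega) hSB (r := pe.ρ i)
      (by rw [hs1, State.setReg_reg, if_pos rfl]) hu hN hcons hKL
    obtain ⟨s', t', e1, e2, e3, e4⟩ := h1
    refine RRuns.base (n := K + 2) ⟨s', _, Ex.seq hr (Ex.seq hr1 (Ex.env G.B G.L e1 tcall_det)),
      by omega, e3, ?_⟩ (by omega)
    exact ⟨fun x hx => (e4.reg x hx).trans (hreg x (by omega)), fun k hk => e4.arr k hk,
      fun j hj => e4.mem j hj⟩
  | @rd k g hg v i hk hL hu =>
    intro b s hbd hv hR hm hb hSB
    have hvS := hv.1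
    have hgB : g v < e.B := by have := M.hLB; have := M.L; omega
    obtain ⟨s1, t1, a1, a2, a3, a4, a5⟩ := sc_runs M hR (by omega) hg (n := g v) rfl hgB
      (by omega) hbd hKL
    have hx : Ex e (.set 107 (.get k (.var 106))) s1 (s1.setReg 107 (pe.O k (g v))) 1 := by
      have := Ex.set (e := e) (x := 107) (a := .get k (.var 106)) (s := s1) (by
        simp only [Exp.ok_get, Exp.ok_var, Exp.val_var, true_and, a5]
        have := M.L
        omega)
      simpa only [Exp.val_get, Exp.val_var, a5, a3.ora k hk] using this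
    have hR1 : Rp e pe b v i (s1.setReg 107 (pe.O k (g v))) :=
      ⟨hx.wf M.hw a3.wf, by simp [a3.base], by simp [a3.len], a3.seg, a3.drawn, a3.ora⟩
    obtain ⟨s', t', e1, e2, e3, e4⟩ := cons_runs M hR1 hvS (by omega) hSB (r := pe.O k (g v))
      (by simp) hu hN hcons hKL
    refine RRuns.base (n := 2 * K + 1) ⟨s', _, Ex.env G.B G.L (Ex.seq a1 (Ex.seq hx e1))
      ⟨tcall_det, trivial, tcall_det⟩, by omega, e3, ?_⟩
      (by omega)
    exact a4.trans ⟨fun x hx => (e4.reg x hx).trans (by simp; omega), fun k hk => e4.arr k hk,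
      fun j hj => e4.mem j hj⟩
  | @call j g hg v u i i' t d h1 h2 h3 ih =>
    intro b s hbd hv hR hm hb hSB
    have hvS := hv.1
    have huS : u.length ≤ pe.S := (h2.fits h1).1
    have hmul : (d + 1 + 1) * pe.S = (d + 1) * pe.S + pe.S := by ring
    have hmul1 : (d + 1) * pe.S = d * pe.S + pe.S := by ring
    have hd0 : 0 ≤ d * pe.S := Nat.zero_le _
    have hA := Runs.env G.B G.L (arg_runs M hR hvS (by omega) hg h1 hN hbd hKL)
      ⟨trivial, tcall_det⟩
    refine RRuns.seq (n := K + 2) (m := t * (3 * K + 30) + K + 15)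
      (R := fun s1 => Ar e pe b v (g v) i s1 ∧ Keep b s s1)
      (RRuns.base hA le_rfl) ?_ (by ring_nf; omega)
    rintro s1 ⟨hA1, hK1⟩
    -- the call
    have hE := Runs.env G.B G.L (ent_runs M hA1) ⟨trivial, trivial⟩
    have hin : RRuns E (pr.map tr) (.base entC ;;; .call j ;;; .base levC) s1
        (t * (3 * K + 30) + 9) (d + 1) (fun s3 => Rp e pe (b + v.length) u i' s3 ∧
          s3.reg 104 = b + v.length ∧ s3.reg 105 = u.length ∧
          Keep (b + v.length) s1 s3) := by
      refine RRuns.seq (n := 3) (m := t * (3 * K + 30) + 5)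
        (R := fun s2 => Rp e pe (b + v.length) (g v) i s2 ∧
          s2 = (s1.setReg 100 (b + v.length)).setReg 101 (g v).length)
        (RRuns.base hE le_rfl) ?_ (by omega)
      rintro s2 ⟨hR2, hs2⟩
      have hm2 : Cx r x y s2 := by
        refine (hm.keep hK1).keep (b := 0) ⟨fun z hz => ?_, fun k _ => ?_, fun j _ => ?_⟩
        · rw [hs2, State.setReg_reg, if_neg (by omega), State.setReg_reg, if_neg (by omega)]
        · rw [hs2]; rfl
        · rw [hs2]; rfl
      have hcall := ih (b + v.length) s2 (pbody_bd hpr j) h1 hR2 hm2 (by omega) hSB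
      rw [← body_map] at hcall
      refine RRuns.seq (n := t * (3 * K + 30) + 1) (m := 3)
        (R := fun s3 => Rp e pe (b + v.length) u i' s3 ∧ Keep (b + v.length) s2 s3)
        (RRuns.call hcall le_rfl le_rfl) ?_ (by omega)
      rintro s3 ⟨hR3, hK3⟩
      have e1 : Ex e (.set 104 (.var 100)) s3 (s3.setReg 104 (b + v.length)) 1 := by
        have := Ex.set (e := e) (x := 104) (a := .var 100) (s := s3) trivial
        simpa only [Exp.val_var, hR3.base] using this
      have e2 : Ex e (.set 105 (.var 101)) (s3.setReg 104 (b + v.length))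
          ((s3.setReg 104 (b + v.length)).setReg 105 u.length) 1 := by
        have := Ex.set (e := e) (x := 105) (a := .var 101) (s := s3.setReg 104 (b + v.length))
          trivial
        simpa only [Exp.val_var, State.setReg_reg, hR3.len,
          if_neg (show ¬ (101 : ℕ) = 104 by norm_num)] using this
      refine RRuns.base (n := 2) ⟨_, _, Ex.env G.B G.L (Ex.seq e1 e2) ⟨trivial, trivial⟩, le_rfl,
        ⟨e2.wf M.hw (e1.wf M.hw hR3.wf),
        by simp [hR3.base], by simp [hR3.len], hR3.seg, hR3.drawn, hR3.ora⟩, by simp, by simp,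
        ⟨fun x hx => ?_, fun k hk => ?_, fun jj hj => ?_⟩⟩ le_rfl
      · have := hK3.reg x hx
        simp only [State.setReg_reg, if_neg (show ¬ x = 105 by omega),
          if_neg (show ¬ x = 104 by omega), this, hs2, if_neg (show ¬ x = 101 by omega),
          if_neg (show ¬ x = 100 by omega)]
      · have := hK3.arr k hk
        simp only [State.setReg_arr, this, hs2]
      · have := hK3.mem jj hj
        simp only [State.setReg_arr, this, hs2]
    have hloc : RRuns E (pr.map tr) (.loc [100, 101] (.base entC ;;; .call j ;;; .base levC)) s1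
        (t * (3 * K + 30) + 10) (d + 1) (fun s3 => Rp e pe b v i' s3 ∧
          s3.reg 104 = b + v.length ∧ s3.reg 105 = u.length ∧ s3.Seg 50 (b + v.length) u ∧
          Keep b s1 s3) := by
      refine RRuns.loc (n := t * (3 * K + 30) + 9) (hin.post ?_) le_rfl
      rintro s3 ⟨hR3, h104, h105, hK3⟩
      refine ⟨⟨restore_wf hA1.rp.wf hR3.wf, ?_, ?_, ?_, ?_, ?_⟩, ?_, ?_, ?_, ⟨?_, ?_, ?_⟩⟩
      · rw [restore_reg, if_pos (by simp), hA1.rp.base]
      · rw [restore_reg, if_pos (by simp), hA1.rp.len]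
      · intro jj hj
        rw [restore_arr, hK3.mem _ (by omega)]
        exact hA1.rp.seg jj hj
      · rw [restore_drawn, hR3.drawn]
      · intro k hk
        rw [restore_arr, hR3.ora k hk]
      · rw [restore_reg, if_neg (by simp), h104]
      · rw [restore_reg, if_neg (by simp), h105]
      · intro jj hj
        rw [restore_arr]
        exact hR3.seg jj hj
      · intro x hx
        rw [restore_reg]
        split
        · rfl
        · exact hK3.reg x hx
      · intro k hk
        rw [restore_arr]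
        exact hK3.arr k hk
      · intro jj hj
        rw [restore_arr]
        exact hK3.mem jj (by omega)
    refine RRuns.seq (n := t * (3 * K + 30) + 10) (m := K + 1) hloc ?_ (by omega)
    rintro s3 ⟨hR3, h104, h105, hseg, hK3⟩
    refine RRuns.base (n := K) ?_ le_rfl
    obtain ⟨s', t', e1, e2, e3, e4⟩ := join_runs M hR3 hvS huS (by omega) hSB h104 h105 hseg
      (by omega) h3 hN hjoin hKL
    exact ⟨s', t', Ex.env G.B G.L e1 tcall_det, e2, e3, (hK1.trans hK3).trans e4⟩
  | @ext g hg v i h5 h1 h2 =>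
    intro b s hbd hv hR hm hb hSB
    have hvS := hv.1
    refine RRuns.base (n := 2 * K + pe.XT (g v)) (Runs.env G.B G.L (ext_runs M hX hR hm.ctx hvS
      (by omega) hSB hg h5 h1 h2 hN hbd hcons hKL) ⟨tcall_det, LeafX222.leafX_det, tcall_det⟩) ?_
    have e1 : (pe.XT (g v) + 1) * (3 * K + 30) = pe.XT (g v) * (3 * K + 30) + (3 * K + 30) := by
      ring
    have e2 : pe.XT (g v) * 1 ≤ pe.XT (g v) * (3 * K + 30) := Nat.mul_le_mul_left _ (by omega)
    omega
  | @seq p q v v' v'' i i' i'' t t' d d' h1 h2 ih1 ih2 =>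
    intro b s hbd hv hR hm hb hSB
    have hd1 : (d + 1) * pe.S ≤ (max d d' + 1) * pe.S := Nat.mul_le_mul_right _ (by omega)
    have hd2 : (d' + 1) * pe.S ≤ (max d d' + 1) * pe.S := Nat.mul_le_mul_right _ (by omega)
    have g1 := (ih1 b s hbd.1 hv hR hm (by omega) hSB).mono le_rfl (le_max_left d d')
      (fun _ h => h)
    refine RRuns.seq g1 (m := t' * (3 * K + 30)) ?_ (by ring_nf; omega)
    rintro s1 ⟨hR1, hK1⟩
    refine (ih2 b s1 hbd.2 (h1.fits hv) hR1 (hm.keep hK1)
      (by omega) hSB).mono le_rfl (le_max_right d d') ?_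
    rintro s2 ⟨hR2, hK2⟩
    exact ⟨hR2, hK1.trans hK2⟩
  | @ite_true g hg p q v v' i i' t d hg1 h1 ih =>
    intro b s hbd hv hR hm hb hSB
    have hvS := hv.1
    have hmul : (d + 1) * pe.S = d * pe.S + pe.S := by ring
    have hA := Runs.env G.B G.L (sc_runs M hR (by omega) hg (n := 1) (by rw [hg1]; rfl) (by omega)
      (by omega) hbd.1 hKL) tcall_det
    refine RRuns.seq (n := K + 1) (m := t * (3 * K + 30) + 1)
      (R := fun s1 => Rp e pe b v i s1 ∧ Keep b s s1 ∧ s1.reg 106 = 1)
      (RRuns.base hA le_rfl) ?_ (by ring_nf; omega)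
    rintro s1 ⟨hR1, hK1, h106⟩
    refine RRuns.ite (n := t * (3 * K + 30)) ⟨trivial, by simp only [Exp.ok_zero]; omega⟩ ?_ ?_
      le_rfl
    · intro _
      refine (ih b s1 hbd.2.1 hv hR1 (hm.keep hK1) hb hSB).post ?_
      rintro s2 ⟨hR2, hK2⟩
      exact ⟨hR2, hK1.trans hK2⟩
    · intro hn
      exact absurd (by simp [h106]) hn
  | @ite_false g hg p q v v' i i' t d hg1 h1 ih =>
    intro b s hbd hv hR hm hb hSB
    have hvS := hv.1
    have hmul : (d + 1) * pe.S = d * pe.S + pe.S := by ring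
    have hA := Runs.env G.B G.L (sc_runs M hR (by omega) hg (n := 0) (by rw [hg1]; rfl) (by omega)
      (by omega) hbd.1 hKL) tcall_det
    refine RRuns.seq (n := K + 1) (m := t * (3 * K + 30) + 1)
      (R := fun s1 => Rp e pe b v i s1 ∧ Keep b s s1 ∧ s1.reg 106 = 0)
      (RRuns.base hA le_rfl) ?_ (by ring_nf; omega)
    rintro s1 ⟨hR1, hK1, h106⟩
    refine RRuns.ite (n := t * (3 * K + 30)) ⟨trivial, by simp only [Exp.ok_zero]; omega⟩ ?_ ?_
      le_rfl
    · intro hn
      exact absurd h106 (by simpa using hn)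
    · intro _
      refine (ih b s1 hbd.2.2 hv hR1 (hm.keep hK1) hb hSB).post ?_
      rintro s2 ⟨hR2, hK2⟩
      exact ⟨hR2, hK1.trans hK2⟩
  | @whl_done g hg p v i hg1 =>
    intro b s hbd hv hR hm hb hSB
    have hvS := hv.1
    obtain ⟨s1, t1, a1, a2, a3, a4, a5⟩ := sc_runs M hR (by omega) hg (n := 0)
      (by rw [hg1]; rfl) (by omega) (by omega) hbd.1 hKL
    refine ⟨s1, _, _, REx.seq (REx.base (Ex.env G.B G.L a1 tcall_det))
      (REx.whl_done ⟨trivial, ?_⟩ ?_), ?_, ?_, a3, a4⟩
    · simp only [Exp.ok_zero]; omega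
    · simp [a5]
    · omega
    · simp
  | @whl_step g hg p v v' v'' i i' i'' t t' d d' hg1 h1 h2 ih1 ih2 =>
    intro b s hbd hv hR hm hb hSB
    have hvS := hv.1
    have hd1 : (d + 1) * pe.S ≤ (max d d' + 1) * pe.S := Nat.mul_le_mul_right _ (by omega)
    have hd2 : (d' + 1) * pe.S ≤ (max d d' + 1) * pe.S := Nat.mul_le_mul_right _ (by omega)
    have hmul : (max d d' + 1) * pe.S = max d d' * pe.S + pe.S := by ring
    obtain ⟨s1, t1, a1, a2, a3, a4, a5⟩ := sc_runs M hR (by omega) hg (n := 1)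
      (by rw [hg1]; rfl) (by omega) (by omega) hbd.1 hKL
    obtain ⟨s2, t2, d2, b1, b2, b3, b4, b5⟩ := ih1 b s1 hbd.2 hv a3
      (hm.keep a4) (by omega) hSB
    obtain ⟨s3, t3, d3, c1, c2, c3, c4, c5⟩ := ih2 b s2 hbd (h1.fits hv) b4
      (hm.keep (a4.trans b5)) (by omega) hSB
    cases c1 with
    | @seq _ _ _ s2' _ ta tb da db x1 x2 =>
      refine ⟨s3, _, _, REx.seq (REx.base (Ex.env G.B G.L a1 tcall_det))
        (REx.whl_step ⟨trivial, ?_⟩ ?_ (REx.seq b1 x1) x2), ?_, ?_, c4, (a4.trans b5).trans c5⟩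
      · simp only [Exp.ok_zero]; omega
      · simp [a5]
      · have e1 : (t + t' + 1) * (3 * K + 30) = t * (3 * K + 30) + t' * (3 * K + 30) +
          (3 * K + 30) := by ring
        omega
      · simp only [max_le_iff] at c3 ⊢
        omega

end Crest.Agent.R288.Pl726
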