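import Crest.Agent.R288.PlH_726

/-!
# R288, PL layer part 6 (helper726): the HL command of a PL program

`coreP pr mn` : one HL command. `coreP_runs`: its run from the state after the shell.
-/

set_option autoImplicit false

namespace Crest.Agent.R288.Pl726

open Crest.Agent.R295 HL Pt949 Crest.Agent.R288.Rec690 Crest.Agent.R288.EnvM12
open Crest.GraphRAM Crest.Agent.R288.Ed Crest.Agent.R295.Rnd627
open Crest.Agent.R288.Lv Crest.Agent.R288.Top791 Crest.Agent.R288.Front327
open Crest.Agent.R288.Shell12 Crest.Agent.R295.TopH791 Crest.Agent.R288.Bridge331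
open Crest.Agent.Lib.PT (PTF)

/-- the first environment from its parts -/
def initF (p : ℕ × ℕ × ℕ × List ℕ) : List ℕ := p.1 :: p.2.1 :: p.2.2.1 :: p.2.2.2

theorem ptf_initF : PTF initF := by
  unfold initF
  fun_prop

/-- only the answer -/
def headF (v : List ℕ) : List ℕ := [v.headD 0]

theorem ptf_headF : PTF headF := by
  refine PTF.of_eq (f := fun l : List ℕ => [l.head?.getD 0]) (by fun_prop) fun l => ?_
  cases l <;> rfl

/-- the inputs of `initF` -/
def initIns : List In :=
  [.sc (.var 60), .sc (.var 61), .sc (.var 65),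
    .ar 0 (.var 62 + .lit 2) (.var 65 - (.var 62 + .lit 2))]

/-- mask of the random words and first environment -/
noncomputable def initC : Cmd :=
  .set 99 (.shl (.lit 1) (.lit 2 * .var 64) - .lit 1) ;; tcall 110 60 initIns ptf_initF [outE]

/-- the whole program: the last environment has one word -/
noncomputable def mainP (mn : PS) : PS := .seq mn (.asg headF ptf_headF)

/-- **the HL command** -/
noncomputable def coreP (pr : List PS) (mn : PS) : Cmd :=
  initC ;; (comp 60 110 (pr.map tr) (tr (mainP mn)) ;; .set 0 (.get 50 0))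

/-- all polynomials of the program -/
noncomputable def allP (pr : List PS) (mn : PS) : Polynomial ℕ :=
  fixP + tcallT ptf_initF + (mainP mn).pol + (pr.map PS.pol).sum

theorem bd_allP {pr : List PS} {mn : PS} {N : ℕ} : ∀ q ∈ pr, q.bd N ((allP pr mn).eval N) := by
  intro q hq
  refine PS.bd_mono (q.bd_pol N) ?_
  have h1 : ∀ l : List PS, q ∈ l → q.pol.eval N ≤ ((l.map PS.pol).sum).eval N := by
    intro l
    induction l with
    | nil => intro h; simp at h
    | cons a l ih =>
      intro h
      rw [List.map_cons, List.sum_cons, Polynomial.eval_add]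
      rcases List.mem_cons.1 h with rfl | h
      · omega
      · have := ih h
        omega
  have h2 := h1 pr hq
  rw [allP, Polynomial.eval_add, Polynomial.eval_add, Polynomial.eval_add]
  omega

theorem bd_main {pr : List PS} {mn : PS} {N : ℕ} : (mainP mn).bd N ((allP pr mn).eval N) := by
  refine PS.bd_mono ((mainP mn).bd_pol N) ?_
  rw [allP, Polynomial.eval_add, Polynomial.eval_add, Polynomial.eval_add]
  omega

theorem fix_allP {pr : List PS} {mn : PS} {N : ℕ} : fixP.eval N ≤ (allP pr mn).eval N := by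
  rw [allP, Polynomial.eval_add, Polynomial.eval_add, Polynomial.eval_add]
  omega

theorem init_allP {pr : List PS} {mn : PS} {N : ℕ} :
    (tcallT ptf_initF).eval N ≤ (allP pr mn).eval N := by
  rw [allP, Polynomial.eval_add, Polynomial.eval_add, Polynomial.eval_add]
  omega

/-- the state seen by the compiled program -/
theorem Rp.view {e : Env} {pe : PEnv} {b i : ℕ} {v : List ℕ} {S : State}
    (h : Rp e pe b v i S) : Rp e pe b v i (S.view (fv 110) (ga 60)) := by
  refine ⟨⟨fun x => h.wf.1 _, fun k j => h.wf.2 _ _⟩, ?_, ?_, ?_, h.drawn, ?_⟩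
  · show S.reg (fv 110 100) = b
    rw [fv_lt (by norm_num), h.base]
  · show S.reg (fv 110 101) = _
    rw [fv_lt (by norm_num), h.len]
  · intro j hj
    show S.arr (ga 60 50) _ = _
    rw [ga_lt (by norm_num)]
    exact h.seg j hj
  · intro k hk
    show S.arr (ga 60 k) = _
    rw [ga_lt (by omega), h.ora k hk]

/-- the arguments of the first call -/
theorem args_init {n m l : ℕ} {z : List ℕ} {s : State} (h60 : s.reg 60 = n) (h61 : s.reg 61 = m)
    (h65 : s.reg 65 = l) (h62 : s.reg 62 = n + m) (hl : l = n + m + 2 + z.length)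
    (hz : s.Seg 0 (n + m + 2) z) :
    args s initIns = tow ((n, m, l, z) : ℕ × ℕ × ℕ × List ℕ) := by
  have e1 : (In.ar 0 (.var 62 + .lit 2) (.var 65 - (.var 62 + .lit 2))).words s = tow z :=
    words_ar (b := n + m + 2) (n := z.length) (by simp [h62]) (by simp [h62, h65, hl]) rfl hz
  unfold initIns
  rw [args_cons, args_cons, args_cons, args_cons, args_nil, e1, In.words_sc, In.words_sc,
    In.words_sc, Exp.val_var, Exp.val_var, Exp.val_var, h60, h61, h65, List.append_nil]
  rfl

/-- **the run of `coreP`** -/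
theorem coreP_runs {E e : Env} {pe : PEnv} {w w' r : ℕ} (G : Big E e pe w' r) (M : Mat e pe w)
    {x y : List ℕ} (hX : XOk e pe x y) {pr : List PS} {mn : PS} {N n m l t d : ℕ} {z v' : List ℕ} {i' : ℕ} {s : State}
    (hN : w + (2 * pe.S + 2) ≤ N) (hKL : (allP pr mn).eval N ≤ e.L)
    (h60 : s.reg 60 = n) (h61 : s.reg 61 = m) (h65 : s.reg 65 = l) (h62 : s.reg 62 = n + m)
    (hl : l = n + m + 2 + z.length) (hz : s.Seg 0 (n + m + 2) z) (hr : r = 2 * s.reg 64)
    (hrB : 2 ^ r < e.B) (hctx : LeafX222.Ctx x y s) (hw0 : s.Wf e) (h100 : s.reg 100 = 0) (h101 : s.reg 101 = 0)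
    (hO : ∀ k, k < 50 → s.arr k = pe.O k)
    (hlL : l ≤ e.L) (hlB : l < e.B) (hfit : pe.Fits (n :: m :: l :: z))
    (h : PEx pe pr (mainP mn) (n :: m :: l :: z) s.drawn v' i' t d) (hv' : ∃ x, v' = [x])
    (hd : (d + 1) * pe.S ≤ e.L) (hSB : pe.S < e.B)
    (hB1 : 2 * tot (pr.map tr) (tr (mainP mn)) < E.B)
    (hB2 : tot (pr.map tr) (tr (mainP mn)) * (d + 1) ≤ E.L)
    (hB3 : tot (pr.map tr) (tr (mainP mn)) * (d + 1) < E.B) :
    Runs E (coreP pr mn) s
      ((allP pr mn).eval N + cst (pr.map tr) (tr (mainP mn)) *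
        (t * (3 * (allP pr mn).eval N + 30) + 1) + 2)
      (fun s' => s'.drawn = i' ∧ s'.reg 0 = v'.headD 0) := by
  set K := (allP pr mn).eval N with hK
  have hS := M.hS
  have h2B : 2 < e.B := by have := M.h107; omega
  have h1E : 2 < E.B := lt_of_lt_of_le h2B G.B
  have hSL : pe.S ≤ e.L := by
    refine le_trans ?_ hd
    exact Nat.le_mul_of_pos_left _ (by omega)
  -- the mask
  have hv : (Exp.shl (.lit 1) (.lit 2 * .var 64) - .lit 1).val s = 2 ^ r - 1 := by
    rw [Exp.val_sub, Exp.val_shl, Exp.val_lit, Exp.val_mul, Exp.val_lit, Exp.val_var, ← hr,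
      one_mul]
  have hr64 : 2 * s.reg 64 < e.B := by
    rw [← hr]
    exact lt_of_lt_of_le Nat.lt_two_pow_self G.hr
  have e0 : Ex e (.set 99 (.shl (.lit 1) (.lit 2 * .var 64) - .lit 1)) s (s.setReg 99 (2 ^ r - 1)) 1 := by
    have := Ex.set (e := e) (x := 99) (a := .shl (.lit 1) (.lit 2 * .var 64) - .lit 1) (s := s) (by
      simp only [Exp.ok_sub, Exp.ok_shl, Exp.ok_lit, Exp.ok_mul, Exp.ok_var,
        Exp.val_lit, Exp.val_mul, Exp.val_var, one_mul, true_and, ← hr]
      omega)
    rwa [hv] at this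
  set s1 := s.setReg 99 (2 ^ r - 1) with hs1
  have hreg : ∀ x, x ≠ 99 → s1.reg x = s.reg x := fun x hx => by
    rw [hs1, State.setReg_reg, if_neg hx]
  have hR1 : Rp e pe 0 [] s.drawn s1 := ⟨e0.wf M.hw hw0, by rw [hreg _ (by norm_num), h100],
    by rw [hreg _ (by norm_num), h101]; rfl, fun j hj => absurd hj (by simp), rfl, hO⟩
  -- the first environment
  have hargs : args s1 initIns = tow ((n, m, l, z) : ℕ × ℕ × ℕ × List ℕ) :=
    args_init (by rw [hreg _ (by norm_num), h60]) (by rw [hreg _ (by norm_num), h61])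
      (by rw [hreg _ (by norm_num), h65]) (by rw [hreg _ (by norm_num), h62]) hl hz
  have hlen : (tow ((n, m, l, z) : ℕ × ℕ × ℕ × List ℕ)).length = z.length + 4 := by
    simp only [tow_prod, tow_nat, tow_list, List.length_append, List.length_cons, List.length_nil]
    omega
  have hzS : z.length + 3 ≤ pe.S := by
    have := hfit.1
    simp only [List.length_cons] at this
    omega
  have hins : ∀ j ∈ initIns, j.ok e 110 60 s1 := by
    intro j hj
    simp only [initIns, List.mem_cons, List.not_mem_nil, or_false] at hj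
    rcases hj with rfl | rfl | rfl | rfl
    · exact ⟨(show (60 : ℕ) < 110 by norm_num), trivial⟩
    · exact ⟨(show (61 : ℕ) < 110 by norm_num), trivial⟩
    · exact ⟨(show (65 : ℕ) < 110 by norm_num), trivial⟩
    · refine ⟨by norm_num, ⟨(show (62 : ℕ) < 110 by norm_num), trivial⟩,
        ⟨(show (65 : ℕ) < 110 by norm_num), (show (62 : ℕ) < 110 by norm_num), trivial⟩, ?_, ?_, ?_⟩
      · simp only [Exp.ok_add, Exp.ok_var, Exp.ok_lit, Exp.val_var, Exp.val_lit, true_and,
          hreg 62 (by norm_num), h62]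
        omega
      · simp only [Exp.ok_sub, Exp.ok_add, Exp.ok_var, Exp.ok_lit, Exp.val_var, Exp.val_lit,
          true_and, hreg 62 (by norm_num), h62]
        omega
      · simp only [Exp.val_sub, Exp.val_add, Exp.val_var, Exp.val_lit,
          hreg 62 (by norm_num), hreg 65 (by norm_num), h62, h65]
        omega
  obtain ⟨s2, t2, a1, a2, a3, a4⟩ := asg_runs M hR1 (by omega) hSB (f := initF)
    (a := (n, m, l, z)) hins ptf_initF hargs hfit (N := N) (K := K) (by rw [hlen]; omega)
    init_allP hKL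
  have hm : s2.reg 99 = 2 ^ r - 1 := by
    rw [a4.reg 99 (by norm_num), hs1, State.setReg_reg, if_pos rfl]
  have hc2 : LeafX222.Ctx x y s2 := by
    have hn : ∀ z, z < 99 → s2.reg z = s.reg z := fun z hz => by
      rw [a4.reg z (by omega), hreg z (by omega)]
    refine ⟨by rw [hn _ (by norm_num), hctx.n], by rw [hn _ (by norm_num), hctx.m],
      by rw [hn _ (by norm_num), hctx.M], by rw [hn _ (by norm_num), hctx.d0],
      by rw [hn _ (by norm_num), hctx.lv], ?_⟩
    rw [a4.arr 14 (by norm_num)]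
    exact hctx.names
  -- the program
  have hsim := h.sim G M (N := N) (K := K) hN fix_allP hKL hX bd_allP 0
    (s2.view (fv 110) (ga 60)) bd_main hfit a3.view (by
      have hv2 : ∀ z, z < 110 → (s2.view (fv 110) (ga 60)).reg z = s2.reg z := fun z hz => by
        show s2.reg (fv 110 z) = _
        rw [fv_lt hz]
      refine ⟨by rw [hv2 _ (by norm_num), hm], by rw [hv2 _ (by norm_num), hc2.n],
        by rw [hv2 _ (by norm_num), hc2.m], by rw [hv2 _ (by norm_num), hc2.M],
        by rw [hv2 _ (by norm_num), hc2.d0], by rw [hv2 _ (by norm_num), hc2.lv], ?_⟩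
      show Kmr725.Names _ _ (s2.arr (ga 60 14))
      rw [ga_lt (by norm_num)]
      exact hc2.names) (by omega) hSB
  obtain ⟨s3, t3, b1, b2, b3, b4⟩ := hsim.comp hB1 hB2 hB3
  obtain ⟨x, rfl⟩ := hv'
  have h0 : s3.arr 50 0 = x := by
    have := b3.seg 0 (by simp)
    rw [zero_add] at this
    have h5 : (s3.view (fv 110) (ga 60)).arr 50 0 = s3.arr (ga 60 50) 0 := rfl
    rw [h5, ga_lt (by norm_num)] at this
    simpa using this
  have e3 : Ex E (.set 0 (.get 50 0)) s3 (s3.setReg 0 x) 1 := by
    have := Ex.set (e := E) (x := 0) (a := .get 50 0) (s := s3) (by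
      simp only [Exp.ok_get, Exp.ok_zero, Exp.val_zero]
      have := G.L
      omega)
    simpa only [Exp.val_get, Exp.val_zero, h0] using this
  refine ⟨s3.setReg 0 x, _, Ex.seq (Ex.env G.B G.L (Ex.seq e0 a1) ⟨trivial, tcall_det⟩)
    (Ex.seq b1 e3), by omega, ?_, ?_⟩
  · rw [State.setReg_drawn]
    exact b3.drawn
  · simp

end Crest.Agent.R288.Pl726
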