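import Crest.Agent.R288.PlU_726

/-!
# R288, PL layer part 7 (helper726): the small environment

`wS`, `eS`: word length `min (wl) (clog² + 2 clog + 3)` for everything except the random words, so
that costs do not depend on the word length of the machine.
`shA_det_wf`: the deterministic part of the shell ends in a well formed state of `eS`.
-/

set_option autoImplicit false

namespace Crest.Agent.R288.Pl726

open Crest.Agent.R295 HL Pt949 Crest.Agent.R288.Rec690 Crest.Agent.R288.EnvM12
open Crest.GraphRAM Crest.Agent.R288.Ed Crest.Agent.R295.Rnd627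
open Crest.Agent.R288.Lv Crest.Agent.R288.Top791 Crest.Agent.R288.Front327
open Crest.Agent.R288.Shell12 Crest.Agent.R295.TopH791 Crest.Agent.R288.Bridge331
open Crest.Agent.R288.LceA508 Crest.Agent.R288.Kmr725 Crest.Agent.R288.Num414
open Crest.Agent.Lib.PT (PTF)

/-- word length of the small environment -/
def wS (a : ℕ) (x y : List ℕ) (ε : ℚ) : ℕ :=
  min (wl a x y ε) (Nat.clog 2 (inp x y ε).length * Nat.clog 2 (inp x y ε).length +
    2 * Nat.clog 2 (inp x y ε).length + 3)

/-- the small environment -/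
def eS (a : ℕ) (x y : List ℕ) (ε : ℚ) : Env :=
  ⟨2 ^ wS a x y ε, ((inp x y ε).length + 2) ^ 2, fun _ => 0⟩

theorem clog_add_two_le {L : ℕ} (hL : 2 ≤ L) : Nat.clog 2 (L + 2) ≤ Nat.clog 2 L + 1 := by
  rw [Nat.clog_le_iff_le_pow (by norm_num), pow_succ]
  have := Nat.le_pow_clog (b := 2) (by norm_num) L
  omega

/-- `(L + 2)^3 ≤ 2 ^ wS` -/
theorem cube_le_wS (a : ℕ) (x y : List ℕ) (ε : ℚ) :
    ((inp x y ε).length + 2) ^ 3 ≤ 2 ^ wS a x y ε := by
  have h3 := three_le x y ε
  unfold wS
  rcases min_choice (wl a x y ε) (Nat.clog 2 (inp x y ε).length * Nat.clog 2 (inp x y ε).length +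
    2 * Nat.clog 2 (inp x y ε).length + 3) with h | h
  · rw [h]
    exact cube_le_two_wl a x y ε
  · rw [h]
    set L := (inp x y ε).length
    have h1 : L + 2 ≤ 2 ^ (Nat.clog 2 L + 1) :=
      (Nat.le_pow_clog (by norm_num) _).trans
        (Nat.pow_le_pow_right (by norm_num) (clog_add_two_le (by omega)))
    calc (L + 2) ^ 3 ≤ (2 ^ (Nat.clog 2 L + 1)) ^ 3 := Nat.pow_le_pow_left h1 3
      _ = 2 ^ ((Nat.clog 2 L + 1) * 3) := by rw [pow_mul]
      _ ≤ _ := by
        refine Nat.pow_le_pow_right (by norm_num) ?_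
        have h2 : 1 ≤ Nat.clog 2 L := Nat.clog_pos (by norm_num) (by omega)
        have h4 : Nat.clog 2 L ≤ Nat.clog 2 L * Nat.clog 2 L := Nat.le_mul_of_pos_left _ h2
        omega

/-- the deterministic part of the shell, final state well formed in the small environment -/
theorem shA_det_wf {a : ℕ} {x y : List ℕ} {ε : ℚ} (hs : Symb a x y)
    (hsym : ∀ b ∈ x ++ y, b < 2 ^ (Nat.clog 2 (inp x y ε).length * Nat.clog 2 (inp x y ε).length))
    (hM : 10 ≤ x.length + y.length) (ρ : ℕ → ℕ) :
    Runs ⟨2 ^ wl a x y ε, ((inp x y ε).length + 2) ^ 2, ρ⟩ shA (initState (inp x y ε))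
      (shFuel (inp x y ε).length - 2)
      (fun s => AfterSt x y (ratWords ε) s ∧ s.Wf (eS a x y ε)) := by
  have hge := inp_ge x y ε
  have hcube := cube_le_wS a x y ε
  have hsy : ∀ b ∈ x ++ y, b < 2 ^ wl a x y ε := fun b hb => inp_lt ε hs b (by
    simp only [inp, stringsInput, List.cons_append, List.mem_cons, List.mem_append] at hb ⊢
    tauto)
  have hin := inp_lt ε hs
  have hinl := inp_length x y ε
  unfold eS
  set L := (inp x y ε).length with hL
  set w := wl a x y ε with hw
  set W := wS a x y ε with hWd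
  have hWe : W = min w (Nat.clog 2 L * Nat.clog 2 L + 2 * Nat.clog 2 L + 3) := rfl
  have hM2 : (x.length + y.length + 2) * (x.length + y.length + 2) ≤ L * L :=
    Nat.mul_le_mul hge hge
  have hB : (x.length + y.length + 2) * (x.length + y.length + 2) ≤ 2 ^ W := by
    have : L * L ≤ (L + 2) ^ 3 := by
      have e1 : (L + 2) ^ 3 = L * L * L + 6 * (L * L) + 12 * L + 8 := by ring
      rw [e1]
      omega
    omega
  have hsW : ∀ b ∈ x ++ y, b < 2 ^ W := by
    intro b hb
    rcases min_choice w (Nat.clog 2 L * Nat.clog 2 L + 2 * Nat.clog 2 L + 3) with h | h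
    · rw [hWe, h]; exact hsy b hb
    · rw [hWe, h]
      exact lt_of_lt_of_le (hsym b hb) (Nat.pow_le_pow_right (by norm_num) (by omega))
  have hLL : (x.length + y.length + 2) * (x.length + y.length + 2) ≤ (L + 2) ^ 2 := by
    have e1 : (L + 2) ^ 2 = L * L + 4 * L + 4 := by ring
    omega
  have hL3 : L + 2 < 2 ^ W := by
    refine lt_of_lt_of_le ?_ hcube
    have e1 : (L + 2) ^ 3 = L * L * L + 6 * (L * L) + 12 * L + 8 := by ring
    rw [e1]
    omega
  have A := shA_runs (e := ⟨2 ^ W, (L + 2) ^ 2, fun _ => 0⟩) (x := x) (y := y) (z := ratWords ε)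
    (W := W) rfl hM hB hLL hsW
  have hwf : (initState (inp x y ε)).Wf ⟨2 ^ W, (L + 2) ^ 2, fun _ => 0⟩ := by
    refine wf_initState (by positivity) (show L < 2 ^ W by omega) ?_
    intro b hb
    show b < 2 ^ W
    have hb' := hb
    simp only [inp, stringsInput, List.mem_append, List.mem_cons, List.cons_append] at hb'
    rcases hb' with h | h | h | h
    · omega
    · omega
    · exact hsW b (by simpa using h)
    · have := ratWords_le_two ε b h
      omega
  have B := Runs.env_small (W := W) (w := w) (ρ' := ρ) (min_le_left _ _) le_rfl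
    (A.wf (w := W) rfl hwf) shA_det
  refine B.mono ?_ (fun _ h => h)
  have := shCost_le (L := L) (M := x.length + y.length) (W := W) (by omega) (by omega)
    (min_le_right _ _)
  omega

end Crest.Agent.R288.Pl726
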