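import Mathlib

/-!
# R288: pure window lemmas of post 4082 (helper974)

Binary window tree: node `(h, j)` has the children `(h - 1, 2 j)`, `(h - 1, 2 j + 1)`; the pieces are
the nodes `(0, i)`. A staircase is a function `b : ℕ → P` of cuts (`P` any type with a real position
`pos`): the node `(h, j)` has the ends `b (j 2^h)`, `b ((j + 1) 2^h)`.

* `SF F b h j` = sum of `F` over the pieces of the node; `SF_succ`, `SF_nonneg`, `SF_mono`;
* `D F M h j u v` = min over the staircases with cuts in the menu `M`; `D_le_SF`, `D_le_D`,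
  `sl_mono` (the slack `SF - D` only grows upwards), `D_lip`;
* `near_step`, `near`: the comparator and the plan satisfy the same equation
  `m = u + θ D(l; u, m)` up to errors, so they are near (contraction `θ Λ ≤ 1 - δ`);
* `dev_a`, `dev_Z` (energy identities), `part_dev` (Cauchy-Schwarz on a part);
* `good_eq`: a good window gives the equation for the comparator;
* `plan_near`, `plan_regular`: part (5) of the post;
* `stp`, `stp_le`: forced stops.
-/

set_option autoImplicit false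

namespace Crest.Agent.R288.PlanA11

open Finset

/-! ### sums over the pieces of a node -/

section sums

variable {P : Type*}

/-- the pieces of the node `(h, j)` -/
def pc (h j : ℕ) : Finset ℕ := Ico (j * 2 ^ h) ((j + 1) * 2 ^ h)

theorem mem_pc {h j i : ℕ} : i ∈ pc h j ↔ j * 2 ^ h ≤ i ∧ i < (j + 1) * 2 ^ h := by
  simp [pc]

theorem pc_zero (j : ℕ) : pc 0 j = {j} := by
  ext i; simp [mem_pc]; omega

theorem card_pc (h j : ℕ) : (pc h j).card = 2 ^ h := by
  simp [pc, add_mul]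

theorem pc_succ (h j : ℕ) : pc (h + 1) j = pc h (2 * j) ∪ pc h (2 * j + 1) := by
  ext i
  simp only [mem_union, mem_pc]
  have e1 : j * 2 ^ (h + 1) = 2 * j * 2 ^ h := by rw [pow_succ]; ring
  have e2 : (j + 1) * 2 ^ (h + 1) = (2 * j + 1 + 1) * 2 ^ h := by rw [pow_succ]; ring
  have e3 : 2 * j * 2 ^ h ≤ (2 * j + 1) * 2 ^ h := Nat.mul_le_mul_right _ (by omega)
  have e4 : (2 * j + 1) * 2 ^ h ≤ (2 * j + 1 + 1) * 2 ^ h := Nat.mul_le_mul_right _ (by omega)
  rw [e1, e2]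
  constructor
  · rintro ⟨h1, h2⟩
    rcases lt_or_ge i ((2 * j + 1) * 2 ^ h) with h3 | h3
    · exact Or.inl ⟨h1, h3⟩
    · exact Or.inr ⟨h3, h2⟩
  · rintro (⟨h1, h2⟩ | ⟨h1, h2⟩)
    · exact ⟨h1, h2.trans_le e4⟩
    · exact ⟨e3.trans h1, h2⟩

theorem disj_pc (h j : ℕ) : Disjoint (pc h (2 * j)) (pc h (2 * j + 1)) := by
  rw [Finset.disjoint_left]
  intro i h1 h2
  rw [mem_pc] at h1 h2
  exact absurd h1.2 (not_lt.2 h2.1)

theorem sum_pc_succ (f : ℕ → ℝ) (h j : ℕ) :
    ∑ i ∈ pc (h + 1) j, f i = ∑ i ∈ pc h (2 * j), f i + ∑ i ∈ pc h (2 * j + 1), f i := by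
  rw [pc_succ, sum_union (disj_pc h j)]

/-- sum of `F` over the pieces of the node `(h, j)` of the staircase `b` -/
def SF (F : ℕ → P → P → ℝ) (b : ℕ → P) (h j : ℕ) : ℝ := ∑ i ∈ pc h j, F i (b i) (b (i + 1))

variable {F : ℕ → P → P → ℝ} {b : ℕ → P}

theorem SF_zero (F : ℕ → P → P → ℝ) (b : ℕ → P) (j : ℕ) : SF F b 0 j = F j (b j) (b (j + 1)) := by
  simp [SF, pc_zero]

theorem SF_succ (F : ℕ → P → P → ℝ) (b : ℕ → P) (h j : ℕ) :
    SF F b (h + 1) j = SF F b h (2 * j) + SF F b h (2 * j + 1) := sum_pc_succ _ _ _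

theorem SF_nonneg (hF : ∀ i u v, 0 ≤ F i u v) (h j : ℕ) : 0 ≤ SF F b h j :=
  sum_nonneg fun _ _ => hF _ _ _

theorem SF_add (F F' : ℕ → P → P → ℝ) (b : ℕ → P) (h j : ℕ) :
    SF (fun i u v => F i u v + F' i u v) b h j = SF F b h j + SF F' b h j := by
  unfold SF; rw [← sum_add_distrib]

/-- left end, middle, right end of a node -/
theorem ends_left (h j : ℕ) : 2 * j * 2 ^ h = j * 2 ^ (h + 1) := by rw [pow_succ]; ring

theorem ends_right (h j : ℕ) : (2 * j + 1 + 1) * 2 ^ h = (j + 1) * 2 ^ (h + 1) := by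
  rw [pow_succ]; ring

end sums

/-! ### the minimum over staircases -/

section D

variable {P : Type*}

/-- min over the staircases below the node `(h, j)` with ends `u`, `v` and cuts in the menu `M` -/
noncomputable def D (F : ℕ → P → P → ℝ) (M : Finset P) (hM : M.Nonempty) :
    ℕ → ℕ → P → P → ℝ
  | 0, j, u, v => F j u v
  | h + 1, j, u, v => M.inf' hM fun m => D F M hM h (2 * j) u m + D F M hM h (2 * j + 1) m v

variable {F : ℕ → P → P → ℝ} {M : Finset P} (hM : M.Nonempty)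

theorem D_zero (j : ℕ) (u v : P) : D F M hM 0 j u v = F j u v := rfl

theorem D_succ (h j : ℕ) (u v : P) : D F M hM (h + 1) j u v =
    M.inf' hM fun m => D F M hM h (2 * j) u m + D F M hM h (2 * j + 1) m v := rfl

theorem D_succ_le (h j : ℕ) (u v : P) {m : P} (hm : m ∈ M) :
    D F M hM (h + 1) j u v ≤ D F M hM h (2 * j) u m + D F M hM h (2 * j + 1) m v :=
  Finset.inf'_le (f := fun m => D F M hM h (2 * j) u m + D F M hM h (2 * j + 1) m v) hm

theorem exists_D_succ (h j : ℕ) (u v : P) : ∃ m ∈ M,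
    D F M hM (h + 1) j u v = D F M hM h (2 * j) u m + D F M hM h (2 * j + 1) m v :=
  Finset.exists_mem_eq_inf' hM fun m => D F M hM h (2 * j) u m + D F M hM h (2 * j + 1) m v

theorem D_nonneg (hF : ∀ i u v, 0 ≤ F i u v) (h j : ℕ) (u v : P) : 0 ≤ D F M hM h j u v := by
  induction h generalizing j u v with
  | zero => exact hF _ _ _
  | succ h ih =>
    obtain ⟨m, -, e⟩ := exists_D_succ (F := F) hM h j u v
    rw [e]; exact add_nonneg (ih _ _ _) (ih _ _ _)

theorem D_mono {F' : ℕ → P → P → ℝ} (hF : ∀ i u v, F i u v ≤ F' i u v) (h j : ℕ) (u v : P) :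
    D F M hM h j u v ≤ D F' M hM h j u v := by
  induction h generalizing j u v with
  | zero => exact hF _ _ _
  | succ h ih =>
    obtain ⟨m, hm, e⟩ := exists_D_succ (F := F') hM h j u v
    rw [e]; exact (D_succ_le hM h j u v hm).trans (add_le_add (ih _ _ _) (ih _ _ _))

/-- errors of the pieces add up -/
theorem D_pert {F' : ℕ → P → P → ℝ} {e : ℝ} (hF : ∀ i u v, F i u v ≤ F' i u v + e) (h j : ℕ)
    (u v : P) : D F M hM h j u v ≤ D F' M hM h j u v + 2 ^ h * e := by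
  induction h generalizing j u v with
  | zero => simpa [D_zero] using hF j u v
  | succ h ih =>
    obtain ⟨m, hm, e'⟩ := exists_D_succ (F := F') hM h j u v
    rw [e', pow_succ]
    have := D_succ_le (F := F) hM h j u v hm
    have h1 := ih (2 * j) u m
    have h2 := ih (2 * j + 1) m v
    linarith

/-- **every staircase costs at least `D`** -/
theorem D_le_SF {b : ℕ → P} (hb : ∀ i, b i ∈ M) (h j : ℕ) :
    D F M hM h j (b (j * 2 ^ h)) (b ((j + 1) * 2 ^ h)) ≤ SF F b h j := by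
  induction h generalizing j with
  | zero => simp [SF_zero, D_zero]
  | succ h ih =>
    rw [SF_succ]
    refine (D_succ_le hM h j _ _ (hb ((2 * j + 1) * 2 ^ h))).trans (add_le_add ?_ ?_)
    · rw [← ends_left]; exact ih (2 * j)
    · rw [← ends_right]; exact ih (2 * j + 1)

/-- slack of a staircase at a node -/
noncomputable def sl (F : ℕ → P → P → ℝ) (M : Finset P) (hM : M.Nonempty) (b : ℕ → P)
    (h j : ℕ) : ℝ := SF F b h j - D F M hM h j (b (j * 2 ^ h)) (b ((j + 1) * 2 ^ h))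

theorem sl_nonneg {b : ℕ → P} (hb : ∀ i, b i ∈ M) (h j : ℕ) : 0 ≤ sl F M hM b h j :=
  sub_nonneg.2 (D_le_SF hM hb h j)

/-- **exchange**: the slack of a child is at most the slack of the parent -/
theorem sl_child {b : ℕ → P} (hb : ∀ i, b i ∈ M) (h j : ℕ) (c : ℕ) (hc : c = 2 * j ∨ c = 2 * j + 1) :
    sl F M hM b h c ≤ sl F M hM b (h + 1) j := by
  have h1 : sl F M hM b h (2 * j) + sl F M hM b h (2 * j + 1) ≤ sl F M hM b (h + 1) j := by
    unfold sl
    rw [SF_succ]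
    have := D_succ_le (F := F) hM h j (b (j * 2 ^ (h + 1))) (b ((j + 1) * 2 ^ (h + 1)))
      (hb ((2 * j + 1) * 2 ^ h))
    rw [← ends_left, ← ends_right] at this
    rw [← ends_left, ← ends_right]
    linarith
  have h2 := sl_nonneg (F := F) hM hb h (2 * j)
  have h3 := sl_nonneg (F := F) hM hb h (2 * j + 1)
  rcases hc with rfl | rfl <;> linarith

/-- the node `(h, c)` lies below the node `(h + d, j)` -/
def Below (d j c : ℕ) : Prop := c / 2 ^ d = j

theorem sl_below {b : ℕ → P} (hb : ∀ i, b i ∈ M) (h d c : ℕ) :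
    sl F M hM b h c ≤ sl F M hM b (h + d) (c / 2 ^ d) := by
  induction d with
  | zero => simp
  | succ d ih =>
    refine ih.trans ?_
    have e : c / 2 ^ (d + 1) = c / 2 ^ d / 2 := by rw [pow_succ, Nat.div_div_eq_div_mul]
    rw [e, show h + (d + 1) = h + d + 1 by ring]
    apply sl_child hM hb
    omega

/-- `D` is as Lipschitz as the pieces -/
theorem D_lip (pos : P → ℝ) {Λ : ℝ}
    (hl : ∀ i u u' v, F i u v ≤ F i u' v + Λ * |pos u - pos u'|)
    (hr : ∀ i u v v', F i u v ≤ F i u v' + Λ * |pos v - pos v'|) (h j : ℕ) (u u' v v' : P) :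
    D F M hM h j u v ≤ D F M hM h j u' v' + Λ * (|pos u - pos u'| + |pos v - pos v'|) := by
  have key : ∀ h j, (∀ u u' v, D F M hM h j u v ≤ D F M hM h j u' v + Λ * |pos u - pos u'|) ∧
      (∀ u v v', D F M hM h j u v ≤ D F M hM h j u v' + Λ * |pos v - pos v'|) := by
    intro h
    induction h with
    | zero => exact fun j => ⟨fun u u' v => hl _ _ _ _, fun u v v' => hr _ _ _ _⟩
    | succ h ih =>
      intro j
      refine ⟨fun u u' v => ?_, fun u v v' => ?_⟩
      · obtain ⟨m, hm, e⟩ := exists_D_succ (F := F) hM h j u' v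
        rw [e]
        have := D_succ_le (F := F) hM h j u v hm
        have := (ih (2 * j)).1 u u' m
        linarith
      · obtain ⟨m, hm, e⟩ := exists_D_succ (F := F) hM h j u v'
        rw [e]
        have := D_succ_le (F := F) hM h j u v hm
        have := (ih (2 * j + 1)).2 m v v'
        linarith
  have h1 := (key h j).1 u u' v
  have h2 := (key h j).2 u' v v'
  linarith

end D

/-! ### nearness of two solutions of the splitting equation -/

theorem near_step {θ Λ δ m m' u u' Dm Dm' e e' : ℝ} (hδ : 0 < δ) (hθ : |θ| * Λ ≤ 1 - δ)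
    (hD : |Dm - Dm'| ≤ Λ * (|u - u'| + |m - m'|))
    (h1 : |m - u - θ * Dm| ≤ e) (h2 : |m' - u' - θ * Dm'| ≤ e') :
    |m - m'| ≤ 2 / δ * (|u - u'| + (e + e')) := by
  have h3 : |m - m'| ≤ |u - u'| + |θ| * |Dm - Dm'| + (e + e') := by
    have e1 : m - m' = (m - u - θ * Dm) - (m' - u' - θ * Dm') + (u - u') + θ * (Dm - Dm') := by
      ring
    calc |m - m'| = |(m - u - θ * Dm) - (m' - u' - θ * Dm') + (u - u') + θ * (Dm - Dm')| := by
          rw [← e1]
      _ ≤ |(m - u - θ * Dm) - (m' - u' - θ * Dm') + (u - u')| + |θ * (Dm - Dm')| := abs_add_le _ _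
      _ ≤ |(m - u - θ * Dm) - (m' - u' - θ * Dm')| + |u - u'| + |θ * (Dm - Dm')| := by
          gcongr; exact abs_add_le _ _
      _ ≤ |m - u - θ * Dm| + |m' - u' - θ * Dm'| + |u - u'| + |θ * (Dm - Dm')| := by
          gcongr; exact abs_sub _ _
      _ ≤ e + e' + |u - u'| + |θ| * |Dm - Dm'| := by
          rw [abs_mul]; gcongr
      _ = _ := by ring
  have h4 : |θ| * |Dm - Dm'| ≤ (1 - δ) * (|u - u'| + |m - m'|) := by
    calc |θ| * |Dm - Dm'| ≤ |θ| * (Λ * (|u - u'| + |m - m'|)) := by gcongr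
      _ = |θ| * Λ * (|u - u'| + |m - m'|) := by ring
      _ ≤ _ := by
        apply mul_le_mul_of_nonneg_right hθ
        positivity
  have he : 0 ≤ e + e' := add_nonneg ((abs_nonneg _).trans h1) ((abs_nonneg _).trans h2)
  have h5 : δ * |m - m'| ≤ 2 * (|u - u'| + (e + e')) := by
    have : 0 ≤ |u - u'| := abs_nonneg _
    have : 0 ≤ |m - m'| := abs_nonneg _
    nlinarith
  rw [div_mul_eq_mul_div, le_div_iff₀ hδ]
  linarith

section near

variable {P : Type*} {F : ℕ → P → P → ℝ} {M : Finset P} (hM : M.Nonempty)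

/-- the splitting equation of the staircase `b` at the node `(h + 1, j)`, up to `e` -/
def Eqn (pos : P → ℝ) (F : ℕ → P → P → ℝ) (M : Finset P) (hM : M.Nonempty) (θ : ℝ) (b : ℕ → P)
    (e : ℝ) (h j : ℕ) : Prop :=
  |pos (b ((2 * j + 1) * 2 ^ h)) - pos (b (2 * j * 2 ^ h)) -
    θ * D F M hM h (2 * j) (b (2 * j * 2 ^ h)) (b ((2 * j + 1) * 2 ^ h))| ≤ e

/-- the error after `d` levels -/
noncomputable def err (δ e : ℝ) : ℕ → ℝ
  | 0 => 0
  | d + 1 => 2 / δ * (err δ e d + e)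

theorem err_nonneg {δ e : ℝ} (hδ : 0 < δ) (he : 0 ≤ e) (d : ℕ) : 0 ≤ err δ e d := by
  induction d with
  | zero => simp [err]
  | succ d ih => unfold err; positivity

theorem err_mono {δ e : ℝ} (hδ : 0 < δ) (hδ1 : δ ≤ 1) (he : 0 ≤ e) (d : ℕ) :
    err δ e d ≤ err δ e (d + 1) := by
  have h0 := err_nonneg hδ he d
  have h2 : 2 ≤ 2 / δ := by rw [le_div_iff₀ hδ]; linarith
  have : 2 * (err δ e d + e) ≤ 2 / δ * (err δ e d + e) :=
    mul_le_mul_of_nonneg_right h2 (by linarith)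
  show err δ e d ≤ 2 / δ * (err δ e d + e)
  linarith

theorem err_le {δ e : ℝ} (hδ : 0 < δ) (hδ1 : δ ≤ 1) (he : 0 ≤ e) (d : ℕ) :
    err δ e d ≤ 2 * (2 / δ) ^ d * e := by
  have h2 : 2 ≤ 2 / δ := by rw [le_div_iff₀ hδ]; linarith
  have key : err δ e d + 2 * e ≤ 2 * (2 / δ) ^ d * e := by
    induction d with
    | zero => simp [err]
    | succ d ih =>
      have : 2 / δ * (err δ e d + 2 * e) ≤ 2 / δ * (2 * (2 / δ) ^ d * e) :=
        mul_le_mul_of_nonneg_left ih (by positivity)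
      show 2 / δ * (err δ e d + e) + 2 * e ≤ _
      rw [pow_succ]
      nlinarith
  linarith

theorem err_smul (δ e c : ℝ) (d : ℕ) : err δ (e * c) d = err δ e d * c := by
  induction d with
  | zero => simp [err]
  | succ d ih => simp only [err]; rw [ih]; ring

/-- **two staircases with the same ends which satisfy the splitting equation are near each other**;
`i` is any cut that occurs at depth `≤ d` below the node `(h + d, j)`: `i = k * 2 ^ h` -/
theorem near (pos : P → ℝ) {Λ δ θ e e' : ℝ} (hδ : 0 < δ) (hδ1 : δ ≤ 1)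
    (hθ : |θ| * Λ ≤ 1 - δ)
    (hl : ∀ i u u' v, F i u v ≤ F i u' v + Λ * |pos u - pos u'|)
    (hr : ∀ i u v v', F i u v ≤ F i u v' + Λ * |pos v - pos v'|)
    {b b' : ℕ → P} (n j₀ : ℕ)
    (hb : ∀ h j, h < n → j / 2 ^ (n - (h + 1)) = j₀ → Eqn pos F M hM θ b e h j)
    (hb' : ∀ h j, h < n → j / 2 ^ (n - (h + 1)) = j₀ → Eqn pos F M hM θ b' e' h j)
    (he : 0 ≤ e) (he' : 0 ≤ e')
    (h0 : pos (b (j₀ * 2 ^ n)) = pos (b' (j₀ * 2 ^ n)))
    (h1 : pos (b ((j₀ + 1) * 2 ^ n)) = pos (b' ((j₀ + 1) * 2 ^ n)))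
    (d : ℕ) (hd : d ≤ n) (k : ℕ) (hk : j₀ * 2 ^ d ≤ k) (hk' : k ≤ (j₀ + 1) * 2 ^ d) :
    |pos (b (k * 2 ^ (n - d))) - pos (b' (k * 2 ^ (n - d)))| ≤ err δ (e + e') d := by
  induction d generalizing k with
  | zero =>
    have : k = j₀ ∨ k = j₀ + 1 := by simp at hk hk'; omega
    rcases this with rfl | rfl
    · simp [err, h0]
    · simp [err, h1]
  | succ d ih =>
    obtain ⟨h, hh⟩ : ∃ h, n - (d + 1) = h := ⟨_, rfl⟩
    have hnd : n - d = h + 1 := by omega
    rw [hh]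
    rcases Nat.even_or_odd' k with ⟨c, rfl | rfl⟩
    · -- an old cut
      have e1 : 2 * c * 2 ^ h = c * 2 ^ (n - d) := by rw [hnd, pow_succ]; ring
      rw [e1]
      refine (ih (by omega) c ?_ ?_).trans (err_mono hδ hδ1 (add_nonneg he he') d)
      · rw [pow_succ] at hk; nlinarith
      · rw [pow_succ] at hk'; nlinarith
    · have hc1 : j₀ * 2 ^ d ≤ c := by rw [pow_succ] at hk; nlinarith
      have hc2 : c < (j₀ + 1) * 2 ^ d := by rw [pow_succ] at hk'; nlinarith
      have hc : c / 2 ^ (n - (h + 1)) = j₀ := by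
        have : n - (h + 1) = d := by omega
        rw [this]
        apply Nat.div_eq_of_lt_le
        · exact hc1
        · exact hc2
      have hu := ih (by omega) c hc1 hc2.le
      have e1 : 2 * c * 2 ^ h = c * 2 ^ (n - d) := by rw [hnd, pow_succ]; ring
      have E := hb h c (by omega) hc
      have E' := hb' h c (by omega) hc
      unfold Eqn at E E'
      have hD : |D F M hM h (2 * c) (b (2 * c * 2 ^ h)) (b ((2 * c + 1) * 2 ^ h)) -
          D F M hM h (2 * c) (b' (2 * c * 2 ^ h)) (b' ((2 * c + 1) * 2 ^ h))| ≤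
          Λ * (|pos (b (2 * c * 2 ^ h)) - pos (b' (2 * c * 2 ^ h))| +
            |pos (b ((2 * c + 1) * 2 ^ h)) - pos (b' ((2 * c + 1) * 2 ^ h))|) := by
        rw [abs_sub_le_iff]
        constructor
        · have := D_lip (F := F) hM pos hl hr h (2 * c) (b (2 * c * 2 ^ h)) (b' (2 * c * 2 ^ h))
            (b ((2 * c + 1) * 2 ^ h)) (b' ((2 * c + 1) * 2 ^ h))
          linarith
        · have := D_lip (F := F) hM pos hl hr h (2 * c) (b' (2 * c * 2 ^ h)) (b (2 * c * 2 ^ h))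
            (b' ((2 * c + 1) * 2 ^ h)) (b ((2 * c + 1) * 2 ^ h))
          rw [abs_sub_comm (pos (b' _)) (pos (b _)), abs_sub_comm (pos (b' _)) (pos (b _))] at this
          linarith
      have := near_step hδ hθ hD E E'
      refine this.trans ?_
      show _ ≤ 2 / δ * (err δ (e + e') d + (e + e'))
      rw [e1]
      gcongr

end near

/-! ### energy identities of one window and parts of it -/

section energy

variable {ι : Type*} (s : Finset ι) (w f : ι → ℝ)

/-- weighted variance around the value `c` of the parent: exact identity -/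
theorem dev_eq (c T ρ m : ℝ) (hρ : ∑ i ∈ s, w i = ρ * T) (hm : ∑ i ∈ s, w i * f i = m) :
    ∑ i ∈ s, w i * (f i - c) ^ 2 =
      (∑ i ∈ s, w i * f i ^ 2 - T * c ^ 2) + (2 * c * (c * T - m) + c ^ 2 * T * (ρ - 1)) := by
  have e : ∀ i ∈ s, w i * (f i - c) ^ 2 = w i * f i ^ 2 - 2 * c * (w i * f i) + c ^ 2 * w i :=
    fun i _ => by ring
  rw [sum_congr rfl e, sum_add_distrib, sum_sub_distrib, ← mul_sum, ← mul_sum, hm, hρ]
  ring

/-- **energy of the slope**: `∑ w a = a T` -/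
theorem dev_a {a T ρ : ℝ} (hT : 0 ≤ T) (hρ : ∑ i ∈ s, w i = ρ * T) (hρ1 : 1 ≤ ρ)
    (ha : a ^ 2 ≤ 1) (hm : ∑ i ∈ s, w i * f i = a * T) :
    ∑ i ∈ s, w i * (f i - a) ^ 2 ≤
      (∑ i ∈ s, w i * f i ^ 2 - T * a ^ 2) + (∑ i ∈ s, w i - T) := by
  rw [dev_eq s w f a T ρ _ hρ hm, hρ]
  have : a ^ 2 * T * (ρ - 1) ≤ 1 * T * (ρ - 1) := by
    have : 0 ≤ ρ - 1 := by linarith
    gcongr
  nlinarith

/-- **energy of a near submartingale** `Z`: `∑ w Z ≥ Z T - e` -/
theorem dev_Z {Z T B e : ℝ} (hZ0 : 0 ≤ Z) (hZ : Z ≤ B) (he : 0 ≤ e)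
    (hρ : T ≤ ∑ i ∈ s, w i) (hm : Z * T - e ≤ ∑ i ∈ s, w i * f i) :
    ∑ i ∈ s, w i * (f i - Z) ^ 2 ≤
      (∑ i ∈ s, w i * f i ^ 2 - T * Z ^ 2) + (2 * B * e + B ^ 2 * (∑ i ∈ s, w i - T)) := by
  have e' : ∀ i ∈ s, w i * (f i - Z) ^ 2 = w i * f i ^ 2 - 2 * Z * (w i * f i) + Z ^ 2 * w i :=
    fun i _ => by ring
  rw [sum_congr rfl e', sum_add_distrib, sum_sub_distrib, ← mul_sum, ← mul_sum]
  set W := ∑ i ∈ s, w i
  set m := ∑ i ∈ s, w i * f i
  have h1 : Z * (Z * T - m) ≤ B * e := by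
    calc Z * (Z * T - m) ≤ Z * e := by
          apply mul_le_mul_of_nonneg_left _ hZ0; linarith
      _ ≤ B * e := by gcongr
  have h2 : Z ^ 2 * (W - T) ≤ B ^ 2 * (W - T) := by
    have : 0 ≤ W - T := by linarith
    gcongr
  nlinarith

/-- Cauchy-Schwarz on a part `t ⊆ s` -/
theorem part_dev {t : Finset ι} (ht : t ⊆ s) (hw : ∀ i ∈ s, 0 ≤ w i) (c : ℝ) {W V : ℝ}
    (hW : ∑ i ∈ s, w i ≤ W) (hV : ∑ i ∈ s, w i * (f i - c) ^ 2 ≤ V) :
    |∑ i ∈ t, w i * f i - c * ∑ i ∈ t, w i| ≤ √(W * V) := by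
  have e1 : ∑ i ∈ t, w i * f i - c * ∑ i ∈ t, w i = ∑ i ∈ t, w i * (f i - c) := by
    rw [mul_sum, ← sum_sub_distrib]
    exact sum_congr rfl fun i _ => by ring
  rw [e1]
  apply Real.abs_le_sqrt
  have hwt : ∀ i ∈ t, 0 ≤ w i := fun i hi => hw i (ht hi)
  have h1 : (∑ i ∈ t, w i * (f i - c)) ^ 2 ≤
      (∑ i ∈ t, w i) * ∑ i ∈ t, w i * (f i - c) ^ 2 := by
    have := Finset.sum_mul_sq_le_sq_mul_sq t (fun i => √(w i)) (fun i => √(w i) * (f i - c))
    have e2 : ∑ i ∈ t, √(w i) * (√(w i) * (f i - c)) = ∑ i ∈ t, w i * (f i - c) :=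
      sum_congr rfl fun i hi => by
        rw [← mul_assoc, Real.mul_self_sqrt (hwt i hi)]
    have e3 : ∑ i ∈ t, √(w i) ^ 2 = ∑ i ∈ t, w i :=
      sum_congr rfl fun i hi => Real.sq_sqrt (hwt i hi)
    have e4 : ∑ i ∈ t, (√(w i) * (f i - c)) ^ 2 = ∑ i ∈ t, w i * (f i - c) ^ 2 :=
      sum_congr rfl fun i hi => by rw [mul_pow, Real.sq_sqrt (hwt i hi)]
    rw [e2, e3, e4] at this
    exact this
  refine h1.trans ?_
  have h2 : ∑ i ∈ t, w i ≤ W :=
    (sum_le_sum_of_subset_of_nonneg ht fun i hi _ => hw i hi).trans hW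
  have h3 : ∑ i ∈ t, w i * (f i - c) ^ 2 ≤ V :=
    (sum_le_sum_of_subset_of_nonneg ht fun i hi _ => mul_nonneg (hw i hi) (sq_nonneg _)).trans hV
  have h4 : 0 ≤ ∑ i ∈ t, w i * (f i - c) ^ 2 :=
    sum_nonneg fun i hi => mul_nonneg (hwt i hi) (sq_nonneg _)
  have h5 : 0 ≤ W := (sum_nonneg hwt).trans h2
  exact mul_le_mul h2 h3 h4 h5

end energy

/-! ### telescoping cuts -/

theorem sum_cuts (g : ℕ → ℝ) (h j : ℕ) :
    ∑ i ∈ pc h j, (g (i + 1) - g i) = g ((j + 1) * 2 ^ h) - g (j * 2 ^ h) := by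
  unfold pc
  have hle : j * 2 ^ h ≤ (j + 1) * 2 ^ h := Nat.mul_le_mul_right _ (by omega)
  exact Finset.sum_Ico_sub g hle

theorem pc_subset {n h j j₀ : ℕ} (hh : h ≤ n) (hj : j / 2 ^ (n - h) = j₀) :
    pc h j ⊆ pc n j₀ := by
  intro i hi
  rw [mem_pc] at hi ⊢
  have e : 2 ^ n = 2 ^ (n - h) * 2 ^ h := by rw [← pow_add]; congr 1; omega
  have h1 : j₀ * 2 ^ (n - h) ≤ j := by
    rw [← hj]; exact Nat.div_mul_le_self _ _
  have h2 : j + 1 ≤ (j₀ + 1) * 2 ^ (n - h) := by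
    rw [← hj]; exact Nat.lt_mul_of_div_lt (Nat.lt_succ_self _) (Nat.two_pow_pos _)
  constructor
  · refine le_trans ?_ hi.1
    rw [e, ← mul_assoc]; gcongr
  · refine hi.2.trans_le ?_
    rw [e, ← mul_assoc]; gcongr

/-! ### gaps of a subsolution -/

section gap

variable (w : ℕ → ℝ) (V : ℕ → ℕ → ℝ)

/-- gap of the node `(h, j)`: sum of the pieces minus the value of the node -/
def gap (h j : ℕ) : ℝ := ∑ i ∈ pc h j, w i - V h j

theorem gap_zero (j : ℕ) : gap w V 0 j = w j - V 0 j := by simp [gap, pc_zero]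

variable {w V} {n j₀ : ℕ}

theorem below_child {h j c : ℕ} (hh : h < n) (hj : j / 2 ^ (n - (h + 1)) = j₀)
    (hc : c = 2 * j ∨ c = 2 * j + 1) : c / 2 ^ (n - h) = j₀ := by
  have e : n - h = (n - (h + 1)) + 1 := by omega
  rw [e, pow_succ, mul_comm, ← Nat.div_div_eq_div_mul, ← hj]
  congr 1
  omega

theorem below_parent {h c : ℕ} (hh : h < n) (hc : c / 2 ^ (n - h) = j₀) :
    c / 2 / 2 ^ (n - (h + 1)) = j₀ := by
  have e : n - h = (n - (h + 1)) + 1 := by omega
  rw [← hc, e, pow_succ, mul_comm, ← Nat.div_div_eq_div_mul]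

theorem gap_nonneg (h0 : ∀ i ∈ pc n j₀, V 0 i ≤ w i)
    (hV : ∀ h j, h < n → j / 2 ^ (n - (h + 1)) = j₀ → V (h + 1) j ≤ V h (2 * j) + V h (2 * j + 1))
    {h j : ℕ} (hh : h ≤ n) (hj : j / 2 ^ (n - h) = j₀) : 0 ≤ gap w V h j := by
  induction h generalizing j with
  | zero =>
    rw [gap_zero]
    have : j ∈ pc n j₀ := pc_subset (Nat.zero_le n) hj (by simp [pc_zero])
    linarith [h0 j this]
  | succ h ih =>
    have h1 := ih (j := 2 * j) (by omega) (below_child (by omega) hj (Or.inl rfl))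
    have h2 := ih (j := 2 * j + 1) (by omega) (below_child (by omega) hj (Or.inr rfl))
    have h3 := hV h j (by omega) hj
    unfold gap at *
    rw [sum_pc_succ]
    linarith

/-- the gap of a node below the root is at most the gap of the root -/
theorem gap_le (h0 : ∀ i ∈ pc n j₀, V 0 i ≤ w i)
    (hV : ∀ h j, h < n → j / 2 ^ (n - (h + 1)) = j₀ → V (h + 1) j ≤ V h (2 * j) + V h (2 * j + 1))
    {h j : ℕ} (hh : h ≤ n) (hj : j / 2 ^ (n - h) = j₀) : gap w V h j ≤ gap w V n j₀ := by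
  obtain ⟨d, hd⟩ : ∃ d, d = n - h := ⟨_, rfl⟩
  induction d generalizing h j with
  | zero =>
    have : h = n := by omega
    subst this
    have : j = j₀ := by simpa using hj
    subst this
    exact le_rfl
  | succ d ih =>
    have hp := below_parent (show h < n by omega) hj
    refine le_trans ?_ (ih (h := h + 1) (j := j / 2) (by omega) hp (by omega))
    have hc1 := below_child (show h < n by omega) hp (Or.inl rfl)
    have hc2 := below_child (show h < n by omega) hp (Or.inr rfl)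
    have g1 := gap_nonneg h0 hV (h := h) (j := 2 * (j / 2)) (by omega) hc1
    have g2 := gap_nonneg h0 hV (h := h) (j := 2 * (j / 2) + 1) (by omega) hc2
    have h3 := hV h (j / 2) (by omega) hp
    have hsum : gap w V h (2 * (j / 2)) + gap w V h (2 * (j / 2) + 1) ≤ gap w V (h + 1) (j / 2) := by
      unfold gap
      rw [sum_pc_succ]
      linarith
    rcases Nat.mod_two_eq_zero_or_one j with h2 | h2
    · have e : 2 * (j / 2) = j := by omega
      have e1 : gap w V h (2 * (j / 2)) = gap w V h j := congrArg (gap w V h) e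
      linarith
    · have e : 2 * (j / 2) + 1 = j := by omega
      have e1 : gap w V h (2 * (j / 2) + 1) = gap w V h j := congrArg (gap w V h) e
      linarith

end gap

/-! ### a good window -/

section good

variable {P : Type*}

/-- Data of one window along a staircase `b` (root node `(n, j₀)`), all numbers absolute:
`w i` = promise of the piece `i`, `X` = promise of the root, `a`, `Z` = slope and cost ratio. -/
structure Good (pos : P → ℝ) (C : ℕ → P → P → ℝ) (T : ℕ → ℕ → P → P → ℝ) (b : ℕ → P)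
    (n j₀ : ℕ) (X a Z B σ : ℝ) where
  hX : 0 ≤ X
  hσ : 0 ≤ σ
  hσ1 : σ ≤ 1
  root : T n j₀ (b (j₀ * 2 ^ n)) (b ((j₀ + 1) * 2 ^ n)) = X
  /-- hard subsolution along `b` -/
  sub : ∀ h j, h < n → j / 2 ^ (n - (h + 1)) = j₀ →
    T (h + 1) j (b (j * 2 ^ (h + 1))) (b ((j + 1) * 2 ^ (h + 1))) ≤
      T h (2 * j) (b (2 * j * 2 ^ h)) (b ((2 * j + 1) * 2 ^ h)) +
      T h (2 * j + 1) (b ((2 * j + 1) * 2 ^ h)) (b ((2 * j + 1 + 1) * 2 ^ h))
  w0 : ∀ i ∈ pc n j₀, 0 ≤ T 0 i (b i) (b (i + 1))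
  /-- slopes -/
  ai : ℕ → ℝ
  hai : ∀ i ∈ pc n j₀, T 0 i (b i) (b (i + 1)) * ai i = pos (b (i + 1)) - pos (b i)
  ha : |a| ≤ 1
  /-- cost ratios -/
  zi : ℕ → ℝ
  hzi : ∀ i ∈ pc n j₀, T 0 i (b i) (b (i + 1)) * zi i = C i (b i) (b (i + 1))
  hZ0 : 0 ≤ Z
  hZ : Z ≤ B
  mass : ∑ i ∈ pc n j₀, T 0 i (b i) (b (i + 1)) ≤ (1 + σ) * X
  Va : ∑ i ∈ pc n j₀, T 0 i (b i) (b (i + 1)) * (ai i - a) ^ 2 ≤ σ ^ 2 * X
  VZ : ∑ i ∈ pc n j₀, T 0 i (b i) (b (i + 1)) * (zi i - Z) ^ 2 ≤ σ ^ 2 * X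

variable {pos : P → ℝ} {C : ℕ → P → P → ℝ} {T : ℕ → ℕ → P → P → ℝ} {b : ℕ → P} {n j₀ : ℕ}
  {X a Z B σ : ℝ}

theorem sqrt_two_le {X σ : ℝ} (hX : 0 ≤ X) (hσ : 0 ≤ σ) : √(2 * X * (σ ^ 2 * X)) ≤ 2 * σ * X := by
  apply Real.sqrt_le_iff.2
  constructor
  · positivity
  · have : 0 ≤ σ ^ 2 * X ^ 2 := by positivity
    nlinarith

theorem Good.mass2 (g : Good pos C T b n j₀ X a Z B σ) :
    ∑ i ∈ pc n j₀, T 0 i (b i) (b (i + 1)) ≤ 2 * X := by
  refine g.mass.trans ?_
  have := g.hX; have := g.hσ1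
  nlinarith

/-- the cuts of a part are given by the mass -/
theorem Good.cut_part (g : Good pos C T b n j₀ X a Z B σ) {h j : ℕ} (hh : h ≤ n)
    (hj : j / 2 ^ (n - h) = j₀) :
    |pos (b ((j + 1) * 2 ^ h)) - pos (b (j * 2 ^ h)) -
      a * ∑ i ∈ pc h j, T 0 i (b i) (b (i + 1))| ≤ 2 * σ * X := by
  have h1 := part_dev (pc n j₀) (fun i => T 0 i (b i) (b (i + 1))) g.ai (pc_subset hh hj) g.w0 a
    g.mass2 g.Va
  have e1 : ∑ i ∈ pc h j, T 0 i (b i) (b (i + 1)) * g.ai i =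
      pos (b ((j + 1) * 2 ^ h)) - pos (b (j * 2 ^ h)) := by
    rw [← sum_cuts (fun i => pos (b i)) h j]
    exact sum_congr rfl fun i hi => g.hai i (pc_subset hh hj hi)
  rw [e1] at h1
  exact h1.trans (sqrt_two_le g.hX g.hσ)

/-- the cost of a part is given by the mass -/
theorem Good.cost_part (g : Good pos C T b n j₀ X a Z B σ) {h j : ℕ} (hh : h ≤ n)
    (hj : j / 2 ^ (n - h) = j₀) :
    |∑ i ∈ pc h j, C i (b i) (b (i + 1)) - Z * ∑ i ∈ pc h j, T 0 i (b i) (b (i + 1))| ≤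
      2 * σ * X := by
  have h1 := part_dev (pc n j₀) (fun i => T 0 i (b i) (b (i + 1))) g.zi (pc_subset hh hj) g.w0 Z
    g.mass2 g.VZ
  have e1 : ∑ i ∈ pc h j, T 0 i (b i) (b (i + 1)) * g.zi i = ∑ i ∈ pc h j, C i (b i) (b (i + 1)) :=
    sum_congr rfl fun i hi => g.hzi i (pc_subset hh hj hi)
  rw [e1] at h1
  exact h1.trans (sqrt_two_le g.hX g.hσ)

/-- the promise of a part is its mass -/
theorem Good.T_part (g : Good pos C T b n j₀ X a Z B σ) {h j : ℕ} (hh : h ≤ n)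
    (hj : j / 2 ^ (n - h) = j₀) :
    T h j (b (j * 2 ^ h)) (b ((j + 1) * 2 ^ h)) ≤ ∑ i ∈ pc h j, T 0 i (b i) (b (i + 1)) ∧
    ∑ i ∈ pc h j, T 0 i (b i) (b (i + 1)) ≤
      T h j (b (j * 2 ^ h)) (b ((j + 1) * 2 ^ h)) + σ * X := by
  have h0 : ∀ i ∈ pc n j₀, T 0 i (b (i * 2 ^ 0)) (b ((i + 1) * 2 ^ 0)) ≤
      T 0 i (b i) (b (i + 1)) := fun i _ => by simp
  have hV : ∀ h j, h < n → j / 2 ^ (n - (h + 1)) = j₀ →
      T (h + 1) j (b (j * 2 ^ (h + 1))) (b ((j + 1) * 2 ^ (h + 1))) ≤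
      T h (2 * j) (b (2 * j * 2 ^ h)) (b ((2 * j + 1) * 2 ^ h)) +
      T h (2 * j + 1) (b ((2 * j + 1) * 2 ^ h)) (b ((2 * j + 1 + 1) * 2 ^ h)) := g.sub
  have g1 := gap_nonneg (w := fun i => T 0 i (b i) (b (i + 1)))
    (V := fun h j => T h j (b (j * 2 ^ h)) (b ((j + 1) * 2 ^ h))) h0 hV hh hj
  have g2 := gap_le (w := fun i => T 0 i (b i) (b (i + 1)))
    (V := fun h j => T h j (b (j * 2 ^ h)) (b ((j + 1) * 2 ^ h))) h0 hV hh hj
  unfold gap at g1 g2
  simp only at g1 g2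
  rw [g.root] at g2
  have := g.mass
  constructor <;> linarith

variable {M : Finset P} (hM : M.Nonempty)

/-- **in a good window the staircase satisfies the splitting equation** -/
theorem Good.eqn (g : Good pos C T b n j₀ X a Z B σ) (hb : ∀ i, b i ∈ M) {κ : ℝ}
    (hF : (Z + 1) * X ≤ D (fun i u v => C i u v + T 0 i u v) M hM n j₀ (b (j₀ * 2 ^ n))
      (b ((j₀ + 1) * 2 ^ n)) + κ * X)
    {h j : ℕ} (hh : h < n) (hj : j / 2 ^ (n - (h + 1)) = j₀) :
    Eqn pos (fun i u v => C i u v + T 0 i u v) M hM (a / (Z + 1)) b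
      (((B + 7) * σ + κ) * X) h j := by
  have hZ1 : 0 < Z + 1 := by linarith [g.hZ0]
  have hX := g.hX
  have hσ := g.hσ
  set F : ℕ → P → P → ℝ := fun i u v => C i u v + T 0 i u v with hFdef
  set θ := a / (Z + 1) with hθ
  have hθa : θ * (Z + 1) = a := by rw [hθ]; field_simp
  have hθ1 : |θ| ≤ 1 := by
    rw [hθ, abs_div, abs_of_pos hZ1, div_le_one hZ1]
    linarith [g.ha, g.hZ0]
  have hc := below_child hh hj (Or.inl rfl)
  have hle : h ≤ n := hh.le
  have hSF : ∀ h j, SF F b h j = ∑ i ∈ pc h j, C i (b i) (b (i + 1)) +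
      ∑ i ∈ pc h j, T 0 i (b i) (b (i + 1)) := fun h j => by
    unfold SF; rw [← sum_add_distrib]
  -- slack of the root
  have hn0 : j₀ / 2 ^ (n - n) = j₀ := by simp
  have r1 := g.cost_part le_rfl hn0
  have r2 := g.mass
  have hroot : sl F M hM b n j₀ ≤ ((B + 3) * σ + κ) * X := by
    unfold sl
    rw [hSF]
    have h1 := (abs_le.1 r1).2
    have h2 : Z * ∑ i ∈ pc n j₀, T 0 i (b i) (b (i + 1)) ≤ Z * ((1 + σ) * X) :=
      mul_le_mul_of_nonneg_left r2 g.hZ0
    have h3 : Z * (σ * X) ≤ B * (σ * X) := mul_le_mul_of_nonneg_right g.hZ (by positivity)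
    nlinarith
  -- slack of the left child
  have hsl : sl F M hM b h (2 * j) ≤ ((B + 3) * σ + κ) * X := by
    refine le_trans ?_ hroot
    have := sl_below (F := F) hM hb h (n - h) (2 * j)
    rwa [hc, show h + (n - h) = n by omega] at this
  have hsl0 := sl_nonneg (F := F) hM hb h (2 * j)
  -- the two sums of the left child
  have c1 := g.cut_part hle hc
  have c2 := g.cost_part hle hc
  set A := ∑ i ∈ pc h (2 * j), T 0 i (b i) (b (i + 1)) with hA
  have hDeq : D F M hM h (2 * j) (b (2 * j * 2 ^ h)) (b ((2 * j + 1) * 2 ^ h)) =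
      (Z + 1) * A + (∑ i ∈ pc h (2 * j), C i (b i) (b (i + 1)) - Z * A) -
        sl F M hM b h (2 * j) := by
    unfold sl
    rw [hSF]; ring
  unfold Eqn
  rw [hDeq]
  set Y := ∑ i ∈ pc h (2 * j), C i (b i) (b (i + 1)) - Z * A with hY
  set S := sl F M hM b h (2 * j) with hS
  have e1 : pos (b ((2 * j + 1) * 2 ^ h)) - pos (b (2 * j * 2 ^ h)) - θ * ((Z + 1) * A + Y - S) =
      (pos (b ((2 * j + 1) * 2 ^ h)) - pos (b (2 * j * 2 ^ h)) - a * A) - θ * (Y - S) := by
    rw [← hθa]; ring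
  rw [e1]
  have h5 : |θ * (Y - S)| ≤ 2 * σ * X + S := by
    rw [abs_mul]
    have h6 : |Y - S| ≤ 2 * σ * X + S := by
      calc |Y - S| ≤ |Y| + |S| := abs_sub _ _
        _ ≤ _ := by rw [abs_of_nonneg hsl0]; linarith
    calc |θ| * |Y - S| ≤ 1 * (2 * σ * X + S) :=
          mul_le_mul hθ1 h6 (abs_nonneg _) zero_le_one
      _ = _ := one_mul _
  calc _ ≤ |pos (b ((2 * j + 1) * 2 ^ h)) - pos (b (2 * j * 2 ^ h)) - a * A| +
        |θ * (Y - S)| := abs_sub _ _
    _ ≤ 2 * σ * X + (2 * σ * X + S) := add_le_add c1 h5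
    _ ≤ ((B + 7) * σ + κ) * X := by
      have := hsl
      nlinarith

/-- **in a good window the staircase is near the plan** `b'` (which satisfies the splitting equation
with the ratio `θ'` of the slope and of the cost up to `e'`) -/
theorem Good.near (g : Good pos C T b n j₀ X a Z B σ) (hb : ∀ i, b i ∈ M) {κ Λ δ e' : ℝ}
    (hF : (Z + 1) * X ≤ D (fun i u v => C i u v + T 0 i u v) M hM n j₀ (b (j₀ * 2 ^ n))
      (b ((j₀ + 1) * 2 ^ n)) + κ * X) (hκ : 0 ≤ κ)
    (hδ : 0 < δ) (hδ1 : δ ≤ 1) (hθ : |a / (Z + 1)| * Λ ≤ 1 - δ)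
    (hl : ∀ i u u' v, C i u v + T 0 i u v ≤ C i u' v + T 0 i u' v + Λ * |pos u - pos u'|)
    (hr : ∀ i u v v', C i u v + T 0 i u v ≤ C i u v' + T 0 i u v' + Λ * |pos v - pos v'|)
    {b' : ℕ → P} (he' : 0 ≤ e')
    (hb' : ∀ h j, h < n → j / 2 ^ (n - (h + 1)) = j₀ →
      Eqn pos (fun i u v => C i u v + T 0 i u v) M hM (a / (Z + 1)) b' (e' * X) h j)
    (h0 : pos (b (j₀ * 2 ^ n)) = pos (b' (j₀ * 2 ^ n)))
    (h1 : pos (b ((j₀ + 1) * 2 ^ n)) = pos (b' ((j₀ + 1) * 2 ^ n)))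
    {i : ℕ} (hi : j₀ * 2 ^ n ≤ i) (hi' : i ≤ (j₀ + 1) * 2 ^ n) :
    |pos (b i) - pos (b' i)| ≤ 2 * (2 / δ) ^ n * (((B + 7) * σ + κ + e') * X) := by
  have hX := g.hX
  have hσ := g.hσ
  have hB : 0 ≤ B := g.hZ0.trans g.hZ
  have := PlanA11.near (F := fun i u v => C i u v + T 0 i u v) hM pos hδ hδ1 hθ hl hr
    (b := b) (b' := b') (e := ((B + 7) * σ + κ) * X) (e' := e' * X) n j₀
    (fun h j hh hj => g.eqn hM hb hF hh hj) hb' (by positivity) (by positivity) h0 h1 n le_rfl i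
    hi hi'
  rw [Nat.sub_self, pow_zero, mul_one] at this
  refine this.trans ((err_le hδ hδ1 (by positivity) n).trans (le_of_eq ?_))
  ring

/-- **the plan of a good window is regular** -/
theorem Good.regular (g : Good pos C T b n j₀ X a Z B σ) {E : ℝ} {b' : ℕ → P}
    (hE : ∀ i, j₀ * 2 ^ n ≤ i → i ≤ (j₀ + 1) * 2 ^ n → |pos (b i) - pos (b' i)| ≤ E)
    (hTl : ∀ h j u u' v, T h j u v ≤ T h j u' v + |pos u - pos u'|)
    (hTr : ∀ h j u v v', T h j u v ≤ T h j u v' + |pos v - pos v'|)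
    {h j : ℕ} (hh : h ≤ n) (hj : j / 2 ^ (n - h) = j₀) :
    ∑ i ∈ pc h j, T 0 i (b' i) (b' (i + 1)) ≤
      T h j (b' (j * 2 ^ h)) (b' ((j + 1) * 2 ^ h)) + (σ * X + (2 * 2 ^ h + 2) * E) := by
  have hsub := pc_subset hh hj
  have hlip : ∀ h j u u' v v', T h j u v ≤ T h j u' v' + |pos u - pos u'| + |pos v - pos v'| :=
    fun h j u u' v v' => by
      have := hTl h j u u' v; have := hTr h j u' v v'; linarith
  have hends : ∀ i ∈ pc n j₀, |pos (b i) - pos (b' i)| ≤ E ∧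
      |pos (b (i + 1)) - pos (b' (i + 1))| ≤ E := fun i hi => by
    rw [mem_pc] at hi
    exact ⟨hE _ hi.1 hi.2.le, hE _ (by omega) (by omega)⟩
  have h1 : ∑ i ∈ pc h j, T 0 i (b' i) (b' (i + 1)) ≤
      ∑ i ∈ pc h j, (T 0 i (b i) (b (i + 1)) + 2 * E) := by
    refine sum_le_sum fun i hi => ?_
    have h2 := hends i (hsub hi)
    have h3 := hlip 0 i (b' i) (b i) (b' (i + 1)) (b (i + 1))
    rw [abs_sub_comm (pos (b' i)), abs_sub_comm (pos (b' (i + 1)))] at h3
    linarith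
  rw [sum_add_distrib, sum_const, card_pc, nsmul_eq_mul] at h1
  have h4 := (g.T_part hh hj).2
  have hj1 : j₀ * 2 ^ n ≤ j * 2 ^ h := by
    have e : 2 ^ n = 2 ^ (n - h) * 2 ^ h := by rw [← pow_add]; congr 1; omega
    rw [e, ← mul_assoc]
    apply Nat.mul_le_mul_right
    rw [← hj]; exact Nat.div_mul_le_self _ _
  have hj2 : (j + 1) * 2 ^ h ≤ (j₀ + 1) * 2 ^ n := by
    have e : 2 ^ n = 2 ^ (n - h) * 2 ^ h := by rw [← pow_add]; congr 1; omega
    rw [e, ← mul_assoc]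
    apply Nat.mul_le_mul_right
    rw [← hj]; exact Nat.lt_mul_of_div_lt (Nat.lt_succ_self _) (Nat.two_pow_pos _)
  have hjj : j * 2 ^ h ≤ (j + 1) * 2 ^ h := Nat.mul_le_mul_right _ (by omega)
  have h5 := hE (j * 2 ^ h) hj1 (hjj.trans hj2)
  have h6 := hE ((j + 1) * 2 ^ h) (hj1.trans hjj) hj2
  have h7 := hlip h j (b (j * 2 ^ h)) (b' (j * 2 ^ h)) (b ((j + 1) * 2 ^ h)) (b' ((j + 1) * 2 ^ h))
  push_cast at h1
  linarith

end good

/-! ### forced stops -/

section stops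

variable (w : ℕ → ℝ) (V : ℕ → ℕ → ℝ) (lam : ℝ)

/-- total mass (`∑ w` over the pieces below) of the nodes at which the player is forced to stop; the
counter `c` collects `ρ - 1`, the comparator leaves at the first node with mass `> 3 V` -/
noncomputable def stp : ℕ → ℕ → ℝ → ℝ
  | 0, _, _ => 0
  | h + 1, j, c =>
    if lam < c then ∑ i ∈ pc (h + 1) j, w i
    else if 3 * V (h + 1) j < ∑ i ∈ pc (h + 1) j, w i then 0
    else stp h (2 * j) (c + ((V h (2 * j) + V h (2 * j + 1)) / V (h + 1) j - 1)) +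
      stp h (2 * j + 1) (c + ((V h (2 * j) + V h (2 * j + 1)) / V (h + 1) j - 1))

variable {w V lam}

/-- **mass of the forced stops**: `λ stp ≤ c mass + 3 gap` -/
theorem stp_le (hw : ∀ i, 0 ≤ w i) (hV0 : ∀ h j, 0 < V h j ∨ ∑ i ∈ pc h j, w i = 0)
    (hVn : ∀ h j, 0 ≤ V h j) (h0 : ∀ i, V 0 i ≤ w i)
    (hV : ∀ h j, V (h + 1) j ≤ V h (2 * j) + V h (2 * j + 1)) (h j : ℕ) {c : ℝ} (hc : 0 ≤ c) :
    lam * stp w V lam h j c ≤ c * ∑ i ∈ pc h j, w i + 3 * gap w V h j := by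
  have hg : ∀ h j, 0 ≤ gap w V h j := by
    intro h
    induction h with
    | zero => intro j; rw [gap_zero]; linarith [h0 j]
    | succ h ih =>
      intro j
      have := ih (2 * j); have := ih (2 * j + 1); have := hV h j
      unfold gap at *
      rw [sum_pc_succ]; linarith
  have hs : ∀ h j, 0 ≤ ∑ i ∈ pc h j, w i := fun h j => sum_nonneg fun i _ => hw i
  induction h generalizing j c with
  | zero =>
    have := hg 0 j; have := hs 0 j
    simp only [stp, mul_zero]; positivity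
  | succ h ih =>
    have hgj := hg (h + 1) j
    have hsj := hs (h + 1) j
    unfold stp
    split_ifs with h1 h2
    · have : lam * ∑ i ∈ pc (h + 1) j, w i ≤ c * ∑ i ∈ pc (h + 1) j, w i :=
        mul_le_mul_of_nonneg_right h1.le hsj
      linarith
    · rw [mul_zero]; positivity
    · rcases hV0 (h + 1) j with hp | hz
      · set r := (V h (2 * j) + V h (2 * j + 1)) / V (h + 1) j - 1 with hr
        have hr0 : 0 ≤ r := by
          rw [hr, sub_nonneg, one_le_div hp]; exact hV h j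
        have h3 := ih (2 * j) (c := c + r) (by positivity)
        have h4 := ih (2 * j + 1) (c := c + r) (by positivity)
        have h5 : r * V (h + 1) j = V h (2 * j) + V h (2 * j + 1) - V (h + 1) j := by
          rw [hr]; field_simp
        have h6 : r * ∑ i ∈ pc (h + 1) j, w i ≤ 3 * (r * V (h + 1) j) := by
          have := mul_le_mul_of_nonneg_left (not_lt.1 h2) hr0
          linarith
        rw [mul_add]
        unfold gap at *
        rw [sum_pc_succ] at h6 ⊢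
        nlinarith
      · -- everything is zero
        have hz1 : ∑ i ∈ pc h (2 * j), w i = 0 := by
          have := hs h (2 * j); have := hs h (2 * j + 1)
          rw [sum_pc_succ] at hz; linarith
        have hz2 : ∑ i ∈ pc h (2 * j + 1), w i = 0 := by
          have := hs h (2 * j); have := hs h (2 * j + 1)
          rw [sum_pc_succ] at hz; linarith
        have g1 := hg h (2 * j)
        have g2 := hg h (2 * j + 1)
        have v1 := hVn h (2 * j)
        have v2 := hVn h (2 * j + 1)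
        have v3 := hVn (h + 1) j
        unfold gap at g1 g2
        rw [hz1] at g1; rw [hz2] at g2
        have e1 : V h (2 * j) = 0 := by linarith
        have e2 : V h (2 * j + 1) = 0 := by linarith
        have e3 : V (h + 1) j = 0 := by have := hV h j; linarith
        have key : ∀ h j c, ∑ i ∈ pc h j, w i = 0 → stp w V lam h j c = 0 := by
          intro h
          induction h with
          | zero => intro j c _; rfl
          | succ h ih2 =>
            intro j c hz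
            have hz1 : ∑ i ∈ pc h (2 * j), w i = 0 := by
              have := hs h (2 * j); have := hs h (2 * j + 1)
              rw [sum_pc_succ] at hz; linarith
            have hz2 : ∑ i ∈ pc h (2 * j + 1), w i = 0 := by
              have := hs h (2 * j); have := hs h (2 * j + 1)
              rw [sum_pc_succ] at hz; linarith
            unfold stp
            rw [hz, ih2 _ _ hz1, ih2 _ _ hz2]
            simp
        rw [key _ _ _ hz1, key _ _ _ hz2]
        rw [hz]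
        have := hg (h + 1) j
        simp only [add_zero, mul_zero, zero_add]
        linarith

end stops

end Crest.Agent.R288.PlanA11
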