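import Mathlib

/-!
# R288: one window of the relative round (post 4082 (3)-(6), helper974)

Pure statements about ONE window of `n` levels.  A node of the window is `(h, p)` (height `h`,
index `p < 2^(n-h)`), it consists of the pieces `j ∈ [p 2^h, (p+1) 2^h)`.  A staircase is a function
`w : ℕ → ℤ` on the boundaries `0..2^n`; the state of the node `(h,p)` on it has the two end
diagonals `w (p 2^h)` and `w ((p+1) 2^h)`.

* `nsum f h p`: sum of `f` over the pieces of the node.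
* `defect_le`: for a family which is subadditive along the staircase, the defect
  `nsum (g 0) h p - g h p` is `≥ 0` and at most the defect of the root.
* `cut_eq`: on a good window every node of the comparator satisfies the slope equation
  `w end - w start = θ D(node) ± c`.
* `near_plan`: the comparator staircase is near every approximate plan `t`.
* `regular`: the plan is regular.
* `val_between`, `osc_le`: the values of players which only use cuts near the plan are determined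
  up to the oscillation at the window ends.
* `exists_root`: an approximate root on a grid.
-/

set_option autoImplicit false

namespace Crest.Agent.R288.PlanA855

open Finset

/-- sum over the pieces of the node `(h,p)` -/
def nsum (f : ℕ → ℝ) (h p : ℕ) : ℝ := ∑ j ∈ Finset.Ico (p * 2 ^ h) ((p + 1) * 2 ^ h), f j

theorem nsum_zero (f : ℕ → ℝ) (p : ℕ) : nsum f 0 p = f p := by
  simp [nsum]

theorem nsum_succ (f : ℕ → ℝ) (h p : ℕ) :
    nsum f (h + 1) p = nsum f h (2 * p) + nsum f h (2 * p + 1) := by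
  unfold nsum
  have e1 : p * 2 ^ (h + 1) = 2 * p * 2 ^ h := by ring
  have e2 : (p + 1) * 2 ^ (h + 1) = (2 * p + 1 + 1) * 2 ^ h := by ring
  rw [e1, e2]
  exact (Finset.sum_Ico_consecutive f (Nat.mul_le_mul_right _ (by omega))
    (Nat.mul_le_mul_right _ (by omega))).symm

theorem nsum_add (f g : ℕ → ℝ) (h p : ℕ) :
    nsum (fun j => f j + g j) h p = nsum f h p + nsum g h p := by
  simp [nsum, Finset.sum_add_distrib]

theorem nsum_sub (f g : ℕ → ℝ) (h p : ℕ) :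
    nsum (fun j => f j - g j) h p = nsum f h p - nsum g h p := by
  simp [nsum, Finset.sum_sub_distrib]

theorem nsum_mul (c : ℝ) (f : ℕ → ℝ) (h p : ℕ) :
    nsum (fun j => c * f j) h p = c * nsum f h p := by
  simp [nsum, Finset.mul_sum]

theorem nsum_const (c : ℝ) (h p : ℕ) : nsum (fun _ => c) h p = 2 ^ h * c := by
  unfold nsum
  rw [Finset.sum_const, Nat.card_Ico]
  have : (p + 1) * 2 ^ h - p * 2 ^ h = 2 ^ h := by
    rw [add_mul, one_mul, Nat.add_sub_cancel_left]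
  rw [this]; simp

/-- the pieces of a node of the window are pieces of the window -/
theorem piece_lt {n h p j : ℕ} (hh : h ≤ n) (hp : p < 2 ^ (n - h))
    (hj : j ∈ Finset.Ico (p * 2 ^ h) ((p + 1) * 2 ^ h)) : j < 2 ^ n := by
  have h1 := (Finset.mem_Ico.1 hj).2
  have h2 : (p + 1) * 2 ^ h ≤ 2 ^ (n - h) * 2 ^ h := Nat.mul_le_mul_right _ hp
  have h3 : 2 ^ (n - h) * 2 ^ h = 2 ^ n := by rw [← pow_add]; congr 1; omega
  omega

theorem nsum_le {n h p : ℕ} (hh : h ≤ n) (hp : p < 2 ^ (n - h)) {f g : ℕ → ℝ}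
    (H : ∀ j, j < 2 ^ n → f j ≤ g j) : nsum f h p ≤ nsum g h p :=
  Finset.sum_le_sum fun j hj => H j (piece_lt hh hp hj)

theorem nsum_nonneg {n h p : ℕ} (hh : h ≤ n) (hp : p < 2 ^ (n - h)) {f : ℕ → ℝ}
    (H : ∀ j, j < 2 ^ n → 0 ≤ f j) : 0 ≤ nsum f h p :=
  Finset.sum_nonneg fun j hj => H j (piece_lt hh hp hj)

theorem nsum_le_root {n h p : ℕ} (hh : h ≤ n) (hp : p < 2 ^ (n - h)) {f : ℕ → ℝ}
    (H : ∀ j, j < 2 ^ n → 0 ≤ f j) : nsum f h p ≤ nsum f n 0 := by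
  unfold nsum
  apply Finset.sum_le_sum_of_subset_of_nonneg
  · intro j hj
    have := piece_lt hh hp hj
    simp only [Finset.mem_Ico]
    constructor
    · simp
    · simpa using this
  · intro j hj _
    apply H
    have := (Finset.mem_Ico.1 hj).2
    simpa using this

theorem abs_nsum_le (f : ℕ → ℝ) (h p : ℕ) : |nsum f h p| ≤ nsum (fun j => |f j|) h p :=
  Finset.abs_sum_le_sum_abs _ _

/-- telescoping of the ends -/
theorem nsum_diff (w : ℕ → ℤ) (h p : ℕ) :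
    nsum (fun j => ((w (j + 1) : ℤ) : ℝ) - (w j : ℝ)) h p
      = (w ((p + 1) * 2 ^ h) : ℝ) - (w (p * 2 ^ h) : ℝ) := by
  unfold nsum
  exact Finset.sum_Ico_sub (fun j => (w j : ℝ)) (Nat.mul_le_mul_right _ (by omega))

/-- subadditive values on the nodes of the window -/
def SubAt (n : ℕ) (g : ℕ → ℕ → ℝ) : Prop :=
  ∀ h p, h < n → p < 2 ^ (n - (h + 1)) → g (h + 1) p ≤ g h (2 * p) + g h (2 * p + 1)

theorem child_lt {n h p : ℕ} (hh : h < n) (hp : p < 2 ^ (n - (h + 1))) :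
    2 * p < 2 ^ (n - h) ∧ 2 * p + 1 < 2 ^ (n - h) := by
  have : 2 ^ (n - h) = 2 * 2 ^ (n - (h + 1)) := by
    rw [← pow_succ']; congr 1; omega
  omega

/-- a subadditive family lies below the sum of its pieces -/
theorem le_nsum {n : ℕ} {g : ℕ → ℕ → ℝ} (hg : SubAt n g) :
    ∀ h p, h ≤ n → p < 2 ^ (n - h) → g h p ≤ nsum (g 0) h p := by
  intro h
  induction h with
  | zero => intro p _ _; rw [nsum_zero]
  | succ h ih =>
    intro p hh hp
    have hc := child_lt (n := n) (h := h) (by omega) hp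
    have h1 := ih (2 * p) (by omega) hc.1
    have h2 := ih (2 * p + 1) (by omega) hc.2
    have h3 := hg h p (by omega) hp
    rw [nsum_succ]; linarith

/-- the defect of a node is at most the defect of the root -/
theorem defect_le {n : ℕ} {g : ℕ → ℕ → ℝ} (hg : SubAt n g) :
    ∀ i h p, h + i = n → p < 2 ^ i →
      nsum (g 0) h p - g h p ≤ nsum (g 0) n 0 - g n 0 := by
  intro i
  induction i with
  | zero =>
    intro h p hh hp
    have : h = n := by omega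
    subst this
    have : p = 0 := by simpa using hp
    subst this
    exact le_rfl
  | succ i ih =>
    intro h p hh hp
    have hpq : p / 2 < 2 ^ i := by
      rw [Nat.div_lt_iff_lt_mul (by norm_num)]
      rw [pow_succ] at hp; omega
    have hi := ih (h + 1) (p / 2) (by omega) hpq
    have hlt : p / 2 < 2 ^ (n - (h + 1)) := by
      have : n - (h + 1) = i := by omega
      rw [this]; exact hpq
    have hs := hg h (p / 2) (by omega) hlt
    have hc := child_lt (n := n) (h := h) (by omega) hlt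
    have l1 := le_nsum hg h (2 * (p / 2)) (by omega) hc.1
    have l2 := le_nsum hg h (2 * (p / 2) + 1) (by omega) hc.2
    rw [nsum_succ] at hi
    rcases Nat.mod_two_eq_zero_or_one p with h0 | h0
    · have e : 2 * (p / 2) = p := by omega
      rw [e] at l1 hs hi
      rw [e] at l2
      linarith
    · have e : 2 * (p / 2) + 1 = p := by omega
      rw [e] at l2 hs hi
      linarith

/-- values of a family on the staircase `w` -/
def at' (f : ℕ → ℕ → ℤ → ℤ → ℝ) (w : ℕ → ℤ) (h p : ℕ) : ℝ :=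
  f h p (w (p * 2 ^ h)) (w ((p + 1) * 2 ^ h))

theorem at'_zero (f : ℕ → ℕ → ℤ → ℤ → ℝ) (w : ℕ → ℤ) (j : ℕ) :
    at' f w 0 j = f 0 j (w j) (w (j + 1)) := by
  simp [at']

/-- The slope equation on a good window.  `T`, `D` are subadditive along the comparator staircase
`w`; the increments of `w` and the values `D 0 j = F_j` of the pieces are in L1 proportional to the
masses `T_j` up to `s`; then every node satisfies `w end - w start = θ D ± c`. -/
theorem cut_eq {n : ℕ} {T D : ℕ → ℕ → ℤ → ℤ → ℝ} {w : ℕ → ℤ} {α φ θ s Tx k : ℝ}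
    (hD : SubAt n (at' D w))
    (hT0 : ∀ j, j < 2 ^ n → 0 ≤ at' T w 0 j)
    (hTsum : nsum (at' T w 0) n 0 ≤ 2 * Tx)
    (ha : nsum (fun j => |((w (j + 1) : ℤ) : ℝ) - (w j : ℝ) - α * at' T w 0 j|) n 0 ≤ s)
    (hF : nsum (fun j => |at' D w 0 j - φ * at' T w 0 j|) n 0 ≤ s)
    (hθ : |θ| ≤ 1) (hαφ : |α - θ * φ| * Tx ≤ s)
    (hk : nsum (at' D w 0) n 0 - at' D w n 0 ≤ k)
    {h p : ℕ} (hh : h ≤ n) (hp : p < 2 ^ (n - h)) :
    |((w ((p + 1) * 2 ^ h) : ℤ) : ℝ) - (w (p * 2 ^ h) : ℝ) - θ * at' D w h p| ≤ 4 * s + k := by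
  have hi : h + (n - h) = n := by omega
  have d1 := defect_le hD (n - h) h p hi hp
  have d0 := le_nsum hD h p hh hp
  have b1 : |nsum (fun j => ((w (j + 1) : ℤ) : ℝ) - (w j : ℝ) - α * at' T w 0 j) h p| ≤ s :=
    (abs_nsum_le _ _ _).trans ((nsum_le_root hh hp (fun j _ => abs_nonneg _)).trans ha)
  have b2 : |nsum (fun j => at' D w 0 j - φ * at' T w 0 j) h p| ≤ s :=
    (abs_nsum_le _ _ _).trans ((nsum_le_root hh hp (fun j _ => abs_nonneg _)).trans hF)
  rw [nsum_sub (fun j => ((w (j + 1) : ℤ) : ℝ) - (w j : ℝ)) (fun j => α * at' T w 0 j),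
    nsum_diff, nsum_mul] at b1
  rw [nsum_sub (at' D w 0) (fun j => φ * at' T w 0 j), nsum_mul] at b2
  set N := nsum (at' T w 0) h p with hN
  have hN0 : 0 ≤ N := nsum_nonneg hh hp hT0
  have hN1 : N ≤ 2 * Tx := (nsum_le_root hh hp hT0).trans hTsum
  have hs : 0 ≤ s := (abs_nonneg _).trans b1
  have b3 : |(α - θ * φ) * N| ≤ 2 * s := by
    rw [abs_mul, abs_of_nonneg hN0]
    calc |α - θ * φ| * N ≤ |α - θ * φ| * (2 * Tx) :=
          mul_le_mul_of_nonneg_left hN1 (abs_nonneg _)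
      _ = 2 * (|α - θ * φ| * Tx) := by ring
      _ ≤ 2 * s := by linarith
  have b4 : |nsum (at' D w 0) h p - at' D w h p| ≤ k := by
    rw [abs_of_nonneg (by linarith)]; linarith
  have key : ((w ((p + 1) * 2 ^ h) : ℤ) : ℝ) - (w (p * 2 ^ h) : ℝ) - θ * at' D w h p
      = (((w ((p + 1) * 2 ^ h) : ℤ) : ℝ) - (w (p * 2 ^ h) : ℝ) - α * N)
        + (α - θ * φ) * N - θ * (nsum (at' D w 0) h p - φ * N)
        + θ * (nsum (at' D w 0) h p - at' D w h p) := by ring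
  rw [key]
  have t1 : |θ * (nsum (at' D w 0) h p - φ * N)| ≤ s := by
    rw [abs_mul]
    calc _ ≤ 1 * s := mul_le_mul hθ b2 (abs_nonneg _) zero_le_one
      _ = s := one_mul s
  have t2 : |θ * (nsum (at' D w 0) h p - at' D w h p)| ≤ k := by
    rw [abs_mul]
    calc _ ≤ 1 * k := mul_le_mul hθ b4 (abs_nonneg _) zero_le_one
      _ = k := one_mul k
  rw [abs_le] at b1 b3 t1 t2 ⊢
  constructor <;> linarith [b1.1, b1.2, b3.1, b3.2, t1.1, t1.2, t2.1, t2.2]

/-- error bounds of the cuts at depth `i` -/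
noncomputable def Bd (δ c : ℝ) : ℕ → ℝ
  | 0 => 0
  | i + 1 => (2 * Bd δ c i + c) / δ

theorem Bd_nonneg {δ c : ℝ} (hδ : 0 < δ) (hc : 0 ≤ c) : ∀ i, 0 ≤ Bd δ c i
  | 0 => le_rfl
  | i + 1 => by
    have := Bd_nonneg hδ hc i
    unfold Bd; positivity

theorem Bd_le_succ {δ c : ℝ} (hδ : 0 < δ) (hδ1 : δ ≤ 1) (hc : 0 ≤ c) (i : ℕ) :
    Bd δ c i ≤ Bd δ c (i + 1) := by
  have h0 := Bd_nonneg hδ hc i
  show Bd δ c i ≤ (2 * Bd δ c i + c) / δ
  rw [le_div_iff₀ hδ]
  nlinarith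

theorem Bd_mono {δ c : ℝ} (hδ : 0 < δ) (hδ1 : δ ≤ 1) (hc : 0 ≤ c) {i k : ℕ} (hik : i ≤ k) :
    Bd δ c i ≤ Bd δ c k := by
  induction k, hik using Nat.le_induction with
  | base => exact le_rfl
  | succ k _ ih => exact ih.trans (Bd_le_succ hδ hδ1 hc k)

theorem Bd_le {δ c : ℝ} (hδ : 0 < δ) (hδ1 : δ ≤ 1) (hc : 0 ≤ c) (i : ℕ) :
    Bd δ c i ≤ (3 / δ) ^ i * c := by
  induction i with
  | zero => simpa [Bd] using hc
  | succ i ih =>
    show (2 * Bd δ c i + c) / δ ≤ _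
    have h1 : (1 : ℝ) ≤ (3 / δ) ^ i := by
      apply one_le_pow₀
      rw [le_div_iff₀ hδ]; linarith
    rw [pow_succ, div_le_iff₀ hδ]
    have e : (3 / δ) ^ i * (3 / δ) * c * δ = 3 * ((3 / δ) ^ i * c) := by
      field_simp
    rw [e]
    have : c ≤ (3 / δ) ^ i * c := le_mul_of_one_le_left hc h1
    linarith

/-- **The comparator is near the plan.**  `t` is an approximate plan (slope equation up to `e0`
with the value function `D`, which is `Lip`-Lipschitz in each end, `|θ| Lip ≤ 1 - δ`), `w` satisfies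
the slope equation up to `c`; both have the same two ends.  Then `|w j - t j| ≤ (3/δ)^n (c + e0)`. -/
theorem near_plan_gen {n : ℕ} {D : ℕ → ℕ → ℤ → ℤ → ℝ} {w t : ℕ → ℤ} {θ Lip δ c e0 : ℝ}
    (hδ : 0 < δ) (hδ1 : δ ≤ 1) (hc : 0 ≤ c) (he : 0 ≤ e0)
    (h0 : w 0 = t 0) (h1 : w (2 ^ n) = t (2 ^ n))
    (hθ : |θ| * Lip ≤ 1 - δ)
    (hLip : ∀ h p, h < n → p < 2 ^ (n - h) → ∀ u v u' v' : ℤ,
      |D h p u v - D h p u' v'| ≤ Lip * (|(u : ℝ) - u'| + |(v : ℝ) - v'|))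
    (hw : ∀ h p, h < n → p < 2 ^ (n - (h + 1)) →
      |((w ((2 * p + 1) * 2 ^ h) : ℤ) : ℝ) - (w (2 * p * 2 ^ h) : ℝ)
        - θ * D h (2 * p) (w (2 * p * 2 ^ h)) (w ((2 * p + 1) * 2 ^ h))| ≤ c)
    (ht : ∀ h p, h < n → p < 2 ^ (n - (h + 1)) →
      |((t ((2 * p + 1) * 2 ^ h) : ℤ) : ℝ) - (t (2 * p * 2 ^ h) : ℝ)
        - θ * D h (2 * p) (t (2 * p * 2 ^ h)) (t ((2 * p + 1) * 2 ^ h))| ≤ e0) :
    ∀ i h p, h + i = n → p ≤ 2 ^ i →
      |((w (p * 2 ^ h) : ℤ) : ℝ) - (t (p * 2 ^ h) : ℝ)| ≤ Bd δ (c + e0) i := by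
  intro i
  induction i with
  | zero =>
    intro h p hh hp
    have e : h = n := by omega
    subst e
    have : p = 0 ∨ p = 1 := by simp at hp; omega
    rcases this with rfl | rfl
    · simp [h0, Bd]
    · simp [h1, Bd]
  | succ i ih =>
    intro h p hh hp
    have hce : 0 ≤ c + e0 := by linarith
    have hpq : p / 2 ≤ 2 ^ i := by
      rw [pow_succ] at hp; omega
    rcases Nat.mod_two_eq_zero_or_one p with hm | hm
    · have e : p * 2 ^ h = p / 2 * 2 ^ (h + 1) := by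
        have : p = 2 * (p / 2) := by omega
        calc p * 2 ^ h = 2 * (p / 2) * 2 ^ h := by rw [← this]
          _ = _ := by ring
      rw [e]
      exact (ih (h + 1) (p / 2) (by omega) hpq).trans (Bd_le_succ hδ hδ1 hce i)
    · set q := p / 2 with hq
      have hpe : p = 2 * q + 1 := by omega
      have hqlt : q < 2 ^ i := by
        rw [pow_succ] at hp; omega
      have hql : q < 2 ^ (n - (h + 1)) := by
        have : n - (h + 1) = i := by omega
        rw [this]; exact hqlt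
      have hL := ih (h + 1) q (by omega) (le_of_lt hqlt)
      have e2 : q * 2 ^ (h + 1) = 2 * q * 2 ^ h := by ring
      rw [e2] at hL
      have a1 := hw h q (by omega) hql
      have a2 := ht h q (by omega) hql
      have a3 := hLip h (2 * q) (by omega) (child_lt (n := n) (h := h) (by omega) hql).1
        (w (2 * q * 2 ^ h)) (w ((2 * q + 1) * 2 ^ h)) (t (2 * q * 2 ^ h))
        (t ((2 * q + 1) * 2 ^ h))
      rw [hpe]
      set X := |((w ((2 * q + 1) * 2 ^ h) : ℤ) : ℝ) - (t ((2 * q + 1) * 2 ^ h) : ℝ)| with hX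
      set Y := |((w (2 * q * 2 ^ h) : ℤ) : ℝ) - (t (2 * q * 2 ^ h) : ℝ)| with hY
      set d1 := D h (2 * q) (w (2 * q * 2 ^ h)) (w ((2 * q + 1) * 2 ^ h)) with hd1
      set d2 := D h (2 * q) (t (2 * q * 2 ^ h)) (t ((2 * q + 1) * 2 ^ h)) with hd2
      have hθd : |θ * (d1 - d2)| ≤ (1 - δ) * (Y + X) := by
        rw [abs_mul]
        calc |θ| * |d1 - d2| ≤ |θ| * (Lip * (Y + X)) :=
              mul_le_mul_of_nonneg_left a3 (abs_nonneg _)
          _ = |θ| * Lip * (Y + X) := by ring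
          _ ≤ (1 - δ) * (Y + X) :=
              mul_le_mul_of_nonneg_right hθ (by positivity)
      have hX0 : 0 ≤ X := abs_nonneg _
      have hY0 : 0 ≤ Y := abs_nonneg _
      have hsum : X ≤ Y + (1 - δ) * (Y + X) + (c + e0) := by
        have key : ((w ((2 * q + 1) * 2 ^ h) : ℤ) : ℝ) - (t ((2 * q + 1) * 2 ^ h) : ℝ)
            = (((w ((2 * q + 1) * 2 ^ h) : ℤ) : ℝ) - (w (2 * q * 2 ^ h) : ℝ) - θ * d1)
              - (((t ((2 * q + 1) * 2 ^ h) : ℤ) : ℝ) - (t (2 * q * 2 ^ h) : ℝ) - θ * d2)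
              + (((w (2 * q * 2 ^ h) : ℤ) : ℝ) - (t (2 * q * 2 ^ h) : ℝ)) + θ * (d1 - d2) := by
          ring
        have c1 := neg_abs_le (((w (2 * q * 2 ^ h) : ℤ) : ℝ) - (t (2 * q * 2 ^ h) : ℝ))
        have c2 := le_abs_self (((w (2 * q * 2 ^ h) : ℤ) : ℝ) - (t (2 * q * 2 ^ h) : ℝ))
        rw [← hY] at c1 c2
        rw [abs_le] at a1 a2 hθd
        have hfin : |((w ((2 * q + 1) * 2 ^ h) : ℤ) : ℝ) - (t ((2 * q + 1) * 2 ^ h) : ℝ)|
            ≤ Y + (1 - δ) * (Y + X) + (c + e0) := by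
          rw [key, abs_le]
          constructor <;> linarith [a1.1, a1.2, a2.1, a2.2, hθd.1, hθd.2]
        exact hfin
      show X ≤ (2 * Bd δ (c + e0) i + (c + e0)) / δ
      rw [le_div_iff₀ hδ]
      have hYB : Y ≤ Bd δ (c + e0) i := hL
      nlinarith

/-- all boundary points of the window: `|w j - t j| ≤ (3/δ)^n (c + e0)` -/
theorem near_plan {n : ℕ} {D : ℕ → ℕ → ℤ → ℤ → ℝ} {w t : ℕ → ℤ} {θ Lip δ c e0 : ℝ}
    (hδ : 0 < δ) (hδ1 : δ ≤ 1) (hc : 0 ≤ c) (he : 0 ≤ e0)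
    (h0 : w 0 = t 0) (h1 : w (2 ^ n) = t (2 ^ n))
    (hθ : |θ| * Lip ≤ 1 - δ)
    (hLip : ∀ h p, h < n → p < 2 ^ (n - h) → ∀ u v u' v' : ℤ,
      |D h p u v - D h p u' v'| ≤ Lip * (|(u : ℝ) - u'| + |(v : ℝ) - v'|))
    (hw : ∀ h p, h < n → p < 2 ^ (n - (h + 1)) →
      |((w ((2 * p + 1) * 2 ^ h) : ℤ) : ℝ) - (w (2 * p * 2 ^ h) : ℝ)
        - θ * D h (2 * p) (w (2 * p * 2 ^ h)) (w ((2 * p + 1) * 2 ^ h))| ≤ c)
    (ht : ∀ h p, h < n → p < 2 ^ (n - (h + 1)) →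
      |((t ((2 * p + 1) * 2 ^ h) : ℤ) : ℝ) - (t (2 * p * 2 ^ h) : ℝ)
        - θ * D h (2 * p) (t (2 * p * 2 ^ h)) (t ((2 * p + 1) * 2 ^ h))| ≤ e0)
    {j : ℕ} (hj : j ≤ 2 ^ n) :
    |((w j : ℤ) : ℝ) - (t j : ℝ)| ≤ (3 / δ) ^ n * (c + e0) := by
  have h := near_plan_gen hδ hδ1 hc he h0 h1 hθ hLip hw ht n 0 j (by omega) hj
  simp only [pow_zero, mul_one] at h
  exact h.trans (Bd_le hδ hδ1 (by linarith) n)

/-- **The good window lemma.**  See `cut_eq` and `near_plan`. -/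
theorem good_window {n : ℕ} {T D : ℕ → ℕ → ℤ → ℤ → ℝ} {w t : ℕ → ℤ}
    {α φ θ s Tx k Lip δ e0 : ℝ}
    (hδ : 0 < δ) (hδ1 : δ ≤ 1) (he : 0 ≤ e0) (hs : 0 ≤ s) (hk0 : 0 ≤ k)
    (hD : SubAt n (at' D w))
    (hT0 : ∀ j, j < 2 ^ n → 0 ≤ at' T w 0 j)
    (hTsum : nsum (at' T w 0) n 0 ≤ 2 * Tx)
    (ha : nsum (fun j => |((w (j + 1) : ℤ) : ℝ) - (w j : ℝ) - α * at' T w 0 j|) n 0 ≤ s)
    (hF : nsum (fun j => |at' D w 0 j - φ * at' T w 0 j|) n 0 ≤ s)
    (hθ1 : |θ| ≤ 1) (hαφ : |α - θ * φ| * Tx ≤ s)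
    (hk : nsum (at' D w 0) n 0 - at' D w n 0 ≤ k)
    (h0 : w 0 = t 0) (h1 : w (2 ^ n) = t (2 ^ n))
    (hθ : |θ| * Lip ≤ 1 - δ)
    (hLip : ∀ h p, h < n → p < 2 ^ (n - h) → ∀ u v u' v' : ℤ,
      |D h p u v - D h p u' v'| ≤ Lip * (|(u : ℝ) - u'| + |(v : ℝ) - v'|))
    (ht : ∀ h p, h < n → p < 2 ^ (n - (h + 1)) →
      |((t ((2 * p + 1) * 2 ^ h) : ℤ) : ℝ) - (t (2 * p * 2 ^ h) : ℝ)
        - θ * D h (2 * p) (t (2 * p * 2 ^ h)) (t ((2 * p + 1) * 2 ^ h))| ≤ e0)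
    {j : ℕ} (hj : j ≤ 2 ^ n) :
    |((w j : ℤ) : ℝ) - (t j : ℝ)| ≤ (3 / δ) ^ n * (4 * s + k + e0) := by
  refine near_plan hδ hδ1 (by linarith) he h0 h1 hθ hLip ?_ ht hj
  intro h p hh hp
  exact cut_eq (h := h) (p := 2 * p) hD hT0 hTsum ha hF hθ1 hαφ hk (by omega)
    (child_lt (n := n) (h := h) hh hp).1

/-- **Regularity of the plan**: if the comparator `w` is within `E` of the plan `t`, `T` is
1-Lipschitz in each end and has defect `≤ s` along `w`, then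
`Σ_{j ∈ node} T_j(t) ≤ T(node; t) + s + (2^(n+1) + 2) E`. -/
theorem regular {n : ℕ} {T : ℕ → ℕ → ℤ → ℤ → ℝ} {w t : ℕ → ℤ} {s E : ℝ} (hE0 : 0 ≤ E)
    (hT : SubAt n (at' T w))
    (hLip : ∀ h p, h ≤ n → p < 2 ^ (n - h) → ∀ u v u' v' : ℤ,
      |T h p u v - T h p u' v'| ≤ |(u : ℝ) - u'| + |(v : ℝ) - v'|)
    (hdef : nsum (at' T w 0) n 0 - at' T w n 0 ≤ s)
    (hE : ∀ j, j ≤ 2 ^ n → |((w j : ℤ) : ℝ) - (t j : ℝ)| ≤ E)
    {h p : ℕ} (hh : h ≤ n) (hp : p < 2 ^ (n - h)) :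
    nsum (at' T t 0) h p ≤ at' T t h p + s + (2 ^ (n + 1) + 2) * E := by
  have d1 := defect_le hT (n - h) h p (by omega) hp
  have hpe : (p + 1) * 2 ^ h ≤ 2 ^ n := by
    have h2 : (p + 1) * 2 ^ h ≤ 2 ^ (n - h) * 2 ^ h := Nat.mul_le_mul_right _ hp
    have h3 : 2 ^ (n - h) * 2 ^ h = 2 ^ n := by rw [← pow_add]; congr 1; omega
    omega
  have hps : p * 2 ^ h ≤ 2 ^ n := (Nat.mul_le_mul_right _ (Nat.le_succ p)).trans hpe
  have a1 := hLip h p hh hp (w (p * 2 ^ h)) (w ((p + 1) * 2 ^ h)) (t (p * 2 ^ h))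
    (t ((p + 1) * 2 ^ h))
  have a2 : nsum (at' T t 0) h p ≤ nsum (fun j => at' T w 0 j + 2 * E) h p := by
    apply Finset.sum_le_sum
    intro j hj
    have hj1 := piece_lt hh hp hj
    have b := hLip 0 j (by omega) (by simpa using hj1) (w j) (w (j + 1)) (t j) (t (j + 1))
    have c1 := hE j (by omega)
    have c2 := hE (j + 1) (by omega)
    have b' := (abs_le.1 b).1
    simp only [at'_zero]
    linarith
  rw [nsum_add, nsum_const] at a2
  have c1 := hE _ hps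
  have c2 := hE _ hpe
  have a1' := (abs_le.1 a1).2
  have h2n : (2 : ℝ) ^ h ≤ 2 ^ n := pow_le_pow_right₀ (by norm_num) hh
  have e1 : at' T w h p - at' T t h p ≤ 2 * E := by
    unfold at'; linarith
  have e2 : (2 : ℝ) ^ h * (2 * E) ≤ 2 ^ (n + 1) * E := by
    rw [pow_succ]; nlinarith
  have e3 : (2 ^ (n + 1) + 2) * E = 2 ^ (n + 1) * E + 2 * E := by ring
  rw [e3]
  linarith

/-- a pair of ends within `σ` of the plan -/
def Nr (t : ℕ → ℤ) (σ : ℝ) (h p : ℕ) (u v : ℤ) : Prop :=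
  |(u : ℝ) - t (p * 2 ^ h)| ≤ σ ∧ |(v : ℝ) - t ((p + 1) * 2 ^ h)| ≤ σ

/-- **Values near the plan.**  If every value `V (h+1) p u v` is an average over cuts `m` within `σ`
of the plan of `V h (2p) u m + V h (2p+1) m v`, then it lies between the sums of the piece bounds. -/
theorem val_between {ι : Type*} [Fintype ι] {n : ℕ} {t : ℕ → ℤ} {σ : ℝ}
    {V : ℕ → ℕ → ℤ → ℤ → ℝ} {lo hi : ℕ → ℝ}
    (q : ℕ → ℕ → ℤ → ℤ → ι → ℝ) (m : ℕ → ℕ → ℤ → ℤ → ι → ℤ)
    (hV0 : ∀ j, j < 2 ^ n → ∀ u v : ℤ, Nr t σ 0 j u v → lo j ≤ V 0 j u v ∧ V 0 j u v ≤ hi j)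
    (hq0 : ∀ h p u v i, 0 ≤ q h p u v i) (hq1 : ∀ h p u v, ∑ i, q h p u v i = 1)
    (hm : ∀ h p, h < n → p < 2 ^ (n - (h + 1)) → ∀ u v : ℤ, Nr t σ (h + 1) p u v → ∀ i,
      |((m h p u v i : ℤ) : ℝ) - t ((2 * p + 1) * 2 ^ h)| ≤ σ)
    (hV : ∀ h p, h < n → p < 2 ^ (n - (h + 1)) → ∀ u v : ℤ, Nr t σ (h + 1) p u v →
      V (h + 1) p u v = ∑ i, q h p u v i *
        (V h (2 * p) u (m h p u v i) + V h (2 * p + 1) (m h p u v i) v)) :
    ∀ h p, h ≤ n → p < 2 ^ (n - h) → ∀ u v : ℤ, Nr t σ h p u v →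
      nsum lo h p ≤ V h p u v ∧ V h p u v ≤ nsum hi h p := by
  intro h
  induction h with
  | zero =>
    intro p _ hp u v huv
    rw [nsum_zero, nsum_zero]
    exact hV0 p (by simpa using hp) u v huv
  | succ h ih =>
    intro p hh hp u v huv
    have hh' : h < n := by omega
    have hc := child_lt (n := n) (h := h) hh' hp
    have key : ∀ i, (nsum lo (h + 1) p ≤ V h (2 * p) u (m h p u v i)
        + V h (2 * p + 1) (m h p u v i) v) ∧
        (V h (2 * p) u (m h p u v i) + V h (2 * p + 1) (m h p u v i) v ≤ nsum hi (h + 1) p) := by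
      intro i
      have hmi := hm h p hh' hp u v huv i
      obtain ⟨h1, h2⟩ := huv
      have e1 : p * 2 ^ (h + 1) = 2 * p * 2 ^ h := by ring
      have e2 : (p + 1) * 2 ^ (h + 1) = (2 * p + 1 + 1) * 2 ^ h := by ring
      rw [e1] at h1
      rw [e2] at h2
      have i1 := ih (2 * p) (by omega) hc.1 u (m h p u v i) ⟨h1, hmi⟩
      have i2 := ih (2 * p + 1) (by omega) hc.2 (m h p u v i) v ⟨hmi, h2⟩
      rw [nsum_succ, nsum_succ]
      constructor <;> linarith [i1.1, i1.2, i2.1, i2.2]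
    rw [hV h p hh' hp u v huv]
    constructor
    · calc nsum lo (h + 1) p = ∑ i, q h p u v i * nsum lo (h + 1) p := by
            rw [← Finset.sum_mul, hq1, one_mul]
        _ ≤ _ := Finset.sum_le_sum fun i _ => mul_le_mul_of_nonneg_left (key i).1 (hq0 _ _ _ _ _)
    · calc _ ≤ ∑ i, q h p u v i * nsum hi (h + 1) p :=
            Finset.sum_le_sum fun i _ => mul_le_mul_of_nonneg_left (key i).2 (hq0 _ _ _ _ _)
        _ = nsum hi (h + 1) p := by rw [← Finset.sum_mul, hq1, one_mul]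

/-- **Approximate root on a grid** `u0 + i s`, `i ≤ N`: `φ` changes sign and moves by at most `M`
per step. -/
theorem exists_root {φ : ℕ → ℝ} {N : ℕ} {M : ℝ} (hM : 0 ≤ M) (h0 : φ 0 ≤ 0) (hN : 0 ≤ φ N)
    (hstep : ∀ i, i < N → φ (i + 1) - φ i ≤ M) : ∃ i, i ≤ N ∧ |φ i| ≤ M := by
  by_contra hcon
  push Not at hcon
  have : ∀ i, i ≤ N → φ i < 0 := by
    intro i
    induction i with
    | zero =>
      intro _
      have h1 := hcon 0 (by omega)
      rw [abs_of_nonpos h0] at h1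
      linarith
    | succ i ih =>
      intro hi
      have h1 := ih (by omega)
      have h2 := hstep i (by omega)
      have h3 := hcon (i + 1) hi
      by_contra h4
      push Not at h4
      rw [abs_of_nonneg h4] at h3
      linarith
  have := this N le_rfl
  linarith

end Crest.Agent.R288.PlanA855
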