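import Crest.Agent.R288.Plan_744

/-!
# Prefix plan, cut form (row 288, helper744)

Letters `a < A` at every cut `q ≤ N`, position `ps q a : ℝ` (the outer cuts are constant:
`ps 0 a = u`), `c q a b` = value of the plan function at piece `q` between the letters `a`, `b`.
No condition on the first and last letter of a staircase.

* `val`, `EnC`;  `resid_cut`, **`near_cut`**: an (approximate) argmin of the residual
  `|ps j m - u - θ Dp j m|` over the letters is near the comparator's cut;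
* `Dp_lip`: the prefix minimum is Lipschitz if the last piece is;
* `sum_near`: staircases with near cuts have near values;
* `pre A T` = the prefix DP (natural numbers, any `minR`-like recursion): `pre_le`, `pre_att`.
-/

set_option autoImplicit false

namespace Crest.Agent.R288.PlanC744

open Finset Crest.Agent.R288.Plan744

/-- value of a staircase. -/
noncomputable def val (N : ℕ) (c : ℕ → ℕ → ℕ → ℝ) (s : ℕ → ℕ) : ℝ :=
  ∑ q ∈ range N, c q (s q) (s (q + 1))

/-- energy of a staircase against the slope `θ`. -/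
noncomputable def EnC (N : ℕ) (ps : ℕ → ℕ → ℝ) (c : ℕ → ℕ → ℕ → ℝ) (θ : ℝ) (s : ℕ → ℕ) : ℝ :=
  ∑ q ∈ range N, c q (s q) (s (q + 1)) *
    ((ps (q + 1) (s (q + 1)) - ps q (s q)) / c q (s q) (s (q + 1)) - θ) ^ 2

/-- `root_stab` with an additive error in the Lipschitz property. -/
theorem root_stab' {m m' u θ φ φ' z δ e0 e1 : ℝ} (hδ : 0 < δ)
    (hlip : |φ - φ'| ≤ |m - m'| + z) (hθ : |θ| ≤ 1 - δ) (hz : 0 ≤ z)
    (h0 : |m' - u - θ * φ'| ≤ e0) (h1 : |m - u - θ * φ| ≤ e1) :
    |m - m'| ≤ (e0 + e1 + z) / δ := by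
  have h2 : |m - m'| ≤ |m - u - θ * φ| + |m' - u - θ * φ'| + |θ| * |φ - φ'| := by
    have e : m - m' = (m - u - θ * φ) - (m' - u - θ * φ') + θ * (φ - φ') := by ring
    calc |m - m'| = |(m - u - θ * φ) - (m' - u - θ * φ') + θ * (φ - φ')| := by rw [← e]
      _ ≤ |(m - u - θ * φ) - (m' - u - θ * φ')| + |θ * (φ - φ')| := abs_add_le _ _
      _ ≤ _ := by
          rw [abs_mul]
          gcongr
          exact abs_sub _ _
  have h3 : |θ| * |φ - φ'| ≤ (1 - δ) * |m - m'| + z := by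
    calc |θ| * |φ - φ'| ≤ |θ| * (|m - m'| + z) := by gcongr
      _ = |θ| * |m - m'| + |θ| * z := by ring
      _ ≤ (1 - δ) * |m - m'| + 1 * z := by
          gcongr
          linarith
      _ = _ := by ring
  rw [le_div_iff₀ hδ]
  nlinarith

section

variable {N A : ℕ} {u : ℝ} {ps : ℕ → ℕ → ℝ} {c : ℕ → ℕ → ℕ → ℝ} {Dp : ℕ → ℕ → ℝ}

/-- residual of the comparator's cut `j`. -/
theorem resid_cut {F kap θ : ℝ} {j : ℕ} (hj : j ≤ N)
    (hle : ∀ s : ℕ → ℕ, (∀ i ≤ j, s i < A) → Dp j (s j) ≤ ∑ q ∈ range j, c q (s q) (s (q + 1)))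
    (hat : ∀ b < A, ∃ s : ℕ → ℕ, (∀ i ≤ j, s i < A) ∧ s j = b ∧
      Dp j b = ∑ q ∈ range j, c q (s q) (s (q + 1)))
    (hF : ∀ s : ℕ → ℕ, (∀ i ≤ N, s i < A) → F ≤ val N c s + kap)
    (s : ℕ → ℕ) (sA : ∀ i ≤ N, s i < A) (hu : ps 0 (s 0) = u)
    (hd : ∀ q < N, |ps (q + 1) (s (q + 1)) - ps q (s q)| ≤ c q (s q) (s (q + 1)))
    (hθ : |θ| ≤ 1) :
    |ps j (s j) - u - θ * Dp j (s j)| ≤
      √(val N c s * EnC N ps c θ s) + max 0 (val N c s - F + kap) := by
  have h1 := prefix_dev N (fun q => c q (s q) (s (q + 1)))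
    (fun q => ps (q + 1) (s (q + 1)) - ps q (s q)) θ hd j hj
  have hsum : ∑ q ∈ range j, (ps (q + 1) (s (q + 1)) - ps q (s q)) = ps j (s j) - u := by
    rw [sum_range_sub (fun q => ps q (s q)), hu]
  rw [hsum] at h1
  have h2 := hle s (fun i hi => sA i (hi.trans hj))
  obtain ⟨r, rA, rj, re⟩ := hat (s j) (sA j hj)
  obtain ⟨t, rfl⟩ := Nat.exists_eq_add_of_le hj
  have h3 := hF (fun i => if i ≤ j then r i else s i) ?_
  · have e : val (j + t) c (fun i => if i ≤ j then r i else s i) =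
        ∑ q ∈ range j, c q (r q) (r (q + 1)) +
        ∑ q ∈ range t, c (j + q) (s (j + q)) (s (j + q + 1)) := by
      unfold val
      rw [sum_range_add]
      congr 1
      · apply sum_congr rfl
        intro q hq
        have hq' : q < j := mem_range.mp hq
        have a1 : q ≤ j := by omega
        have a2 : q + 1 ≤ j := by omega
        simp only [a1, a2, if_true]
      · apply sum_congr rfl
        intro q _
        have a2 : ¬ (j + q + 1 ≤ j) := by omega
        simp only [a2, if_false]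
        rcases Nat.eq_zero_or_pos q with h0 | h0
        · subst h0; simp [rj]
        · have a1 : ¬ (j + q ≤ j) := by omega
          simp only [a1, if_false]
    rw [e, ← re] at h3
    have h4 : val (j + t) c s = ∑ q ∈ range j, c q (s q) (s (q + 1)) +
        ∑ q ∈ range t, c (j + q) (s (j + q)) (s (j + q + 1)) := by
      unfold val; rw [sum_range_add]
    set P := ∑ q ∈ range j, c q (s q) (s (q + 1)) with hP
    have h5 : |Dp j (s j) - P| ≤ max 0 (val (j + t) c s - F + kap) := by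
      rw [abs_sub_comm, abs_of_nonneg (by linarith)]
      apply le_max_of_le_right
      rw [h4]; linarith
    have e2 : ps j (s j) - u - θ * Dp j (s j) =
        (ps j (s j) - u - θ * P) - θ * (Dp j (s j) - P) := by ring
    rw [e2]
    refine (abs_sub _ _).trans ?_
    rw [abs_mul]
    have h6 : |θ| * |Dp j (s j) - P| ≤ |Dp j (s j) - P| := by
      have := mul_le_mul_of_nonneg_right hθ (abs_nonneg (Dp j (s j) - P))
      linarith
    have h1' : |ps j (s j) - u - θ * P| ≤ √(val (j + t) c s * EnC (j + t) ps c θ s) := h1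
    linarith
  · intro i hi
    by_cases h : i ≤ j
    · simp only [h, if_true]; exact rA i h
    · simp only [h, if_false]; exact sA i hi

/-- **NEAR, cut form.** -/
theorem near_cut {F kap θ δ z e0 : ℝ} {j : ℕ} (hj : j ≤ N) (hδ : 0 < δ) (hz : 0 ≤ z)
    (hle : ∀ s : ℕ → ℕ, (∀ i ≤ j, s i < A) → Dp j (s j) ≤ ∑ q ∈ range j, c q (s q) (s (q + 1)))
    (hat : ∀ b < A, ∃ s : ℕ → ℕ, (∀ i ≤ j, s i < A) ∧ s j = b ∧
      Dp j b = ∑ q ∈ range j, c q (s q) (s (q + 1)))
    (hlip : ∀ b < A, ∀ b' < A, |Dp j b - Dp j b'| ≤ |ps j b - ps j b'| + z)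
    (hF : ∀ s : ℕ → ℕ, (∀ i ≤ N, s i < A) → F ≤ val N c s + kap)
    (s : ℕ → ℕ) (sA : ∀ i ≤ N, s i < A) (hu : ps 0 (s 0) = u)
    (hd : ∀ q < N, |ps (q + 1) (s (q + 1)) - ps q (s q)| ≤ c q (s q) (s (q + 1)))
    (hθ : |θ| ≤ 1 - δ) (m' : ℕ) (hm' : m' < A)
    (hm : |ps j m' - u - θ * Dp j m'| ≤ |ps j (s j) - u - θ * Dp j (s j)| + e0) :
    |ps j (s j) - ps j m'| ≤
      (2 * (√(val N c s * EnC N ps c θ s) + max 0 (val N c s - F + kap)) + e0 + z) / δ := by
  have hθ1 : |θ| ≤ 1 := by linarith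
  have h1 := resid_cut (Dp := Dp) hj hle hat hF s sA hu hd hθ1
  have h2 := root_stab' hδ (hlip (s j) (sA j hj) m' hm') hθ hz hm le_rfl
  refine h2.trans ?_
  apply div_le_div_of_nonneg_right _ hδ.le
  linarith

/-- the prefix minimum is Lipschitz if the last piece is (up to `z`). -/
theorem Dp_lip {z : ℝ} {i : ℕ}
    (hle : ∀ s : ℕ → ℕ, (∀ k ≤ i + 1, s k < A) →
      Dp (i + 1) (s (i + 1)) ≤ ∑ q ∈ range (i + 1), c q (s q) (s (q + 1)))
    (hat : ∀ b < A, ∃ s : ℕ → ℕ, (∀ k ≤ i + 1, s k < A) ∧ s (i + 1) = b ∧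
      Dp (i + 1) b = ∑ q ∈ range (i + 1), c q (s q) (s (q + 1)))
    (hlip : ∀ a < A, ∀ b < A, ∀ b' < A,
      |c i a b - c i a b'| ≤ |ps (i + 1) b - ps (i + 1) b'| + z) :
    ∀ b < A, ∀ b' < A, |Dp (i + 1) b - Dp (i + 1) b'| ≤ |ps (i + 1) b - ps (i + 1) b'| + z := by
  have hval : ∀ b < A, ∀ b' < A,
      Dp (i + 1) b ≤ Dp (i + 1) b' + (|ps (i + 1) b - ps (i + 1) b'| + z) := by
    intro b hb b' hb'
    obtain ⟨r, rA, rj, re⟩ := hat b' hb'
    have h1 := hle (fun q => if q ≤ i then r q else b) ?_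
    · rw [re]
      have a2 : ¬ (i + 1 ≤ i) := by omega
      rw [if_neg a2, sum_range_succ] at h1
      rw [sum_range_succ]
      have e1 : ∑ q ∈ range i, c q (if q ≤ i then r q else b)
          (if q + 1 ≤ i then r (q + 1) else b) =
          ∑ q ∈ range i, c q (r q) (r (q + 1)) := by
        apply sum_congr rfl
        intro q hq
        have hq' := mem_range.mp hq
        have a1 : q ≤ i := by omega
        have a2 : q + 1 ≤ i := by omega
        simp only [a1, a2, if_true]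
      rw [e1] at h1
      simp only [le_refl, if_true, a2, if_false] at h1
      have hl := hlip (r i) (rA i (by omega)) b hb b' hb'
      have hl' := (abs_le.mp hl).2
      rw [rj]
      linarith
    · intro q hq
      by_cases h : q ≤ i
      · simpa [h] using rA q (by omega)
      · simpa [h] using hb
  intro b hb b' hb'
  rw [abs_sub_le_iff]
  constructor
  · have := hval b hb b' hb'; linarith
  · have := hval b' hb' b hb
    rw [abs_sub_comm (ps (i + 1) b')] at this
    linarith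

/-- staircases with near cuts have near values (any selection `p` of pieces). -/
theorem sum_near {r z : ℝ} (M : ℕ) (p : ℕ → ℕ) (s t : ℕ → ℕ)
    (hlip : ∀ q < M, |c (p q) (s (p q)) (s (p q + 1)) - c (p q) (t (p q)) (t (p q + 1))| ≤
      |ps (p q) (s (p q)) - ps (p q) (t (p q))| +
      |ps (p q + 1) (s (p q + 1)) - ps (p q + 1) (t (p q + 1))| + z)
    (hr : ∀ q < M, |ps (p q) (s (p q)) - ps (p q) (t (p q))| ≤ r)
    (hr' : ∀ q < M, |ps (p q + 1) (s (p q + 1)) - ps (p q + 1) (t (p q + 1))| ≤ r) :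
    |∑ q ∈ range M, c (p q) (s (p q)) (s (p q + 1)) -
      ∑ q ∈ range M, c (p q) (t (p q)) (t (p q + 1))| ≤ M * (2 * r + z) := by
  rw [← sum_sub_distrib]
  refine (abs_sum_le_sum_abs _ _).trans ?_
  calc ∑ q ∈ range M, |c (p q) (s (p q)) (s (p q + 1)) - c (p q) (t (p q)) (t (p q + 1))|
      ≤ ∑ _q ∈ range M, (2 * r + z) := by
        apply sum_le_sum
        intro q hq
        have hq' := mem_range.mp hq
        linarith [hlip q hq', hr q hq', hr' q hq']
    _ = _ := by simp; ring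

end

/-! ## The prefix DP over natural numbers -/

section DP

variable {A : ℕ} {T : ℕ → ℕ → ℕ → ℕ} {D : ℕ → ℕ → ℕ}

/-- any function with `D 0 = 0` and `D (j+1) b = min_{a<A} (D j a + T j a b)` is at most the value of
every staircase of letters `< A`. -/
theorem pre_le (h0 : ∀ b, D 0 b = 0)
    (hs : ∀ j b a, a < A → D (j + 1) b ≤ D j a + T j a b) (s : ℕ → ℕ) (j : ℕ)
    (sA : ∀ i ≤ j, s i < A) : D j (s j) ≤ ∑ q ∈ range j, T q (s q) (s (q + 1)) := by
  induction j with
  | zero => simp [h0]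
  | succ j ih =>
      rw [sum_range_succ]
      have h1 := ih (fun i hi => sA i (by omega))
      have h2 := hs j (s (j + 1)) (s j) (sA j (by omega))
      omega

/-- and it is attained. -/
theorem pre_att (h0 : ∀ b, D 0 b = 0)
    (hs : ∀ j b, ∃ a < A, D (j + 1) b = D j a + T j a b) (j : ℕ) (b : ℕ)
    (hb : b < A) : ∃ s : ℕ → ℕ, (∀ i ≤ j, s i < A) ∧ s j = b ∧
      D j b = ∑ q ∈ range j, T q (s q) (s (q + 1)) := by
  induction j generalizing b with
  | zero => exact ⟨fun _ => b, fun _ _ => hb, rfl, by simp [h0]⟩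
  | succ j ih =>
      obtain ⟨a, ha, he⟩ := hs j b
      obtain ⟨s, sA, sj, se⟩ := ih a ha
      refine ⟨fun i => if i ≤ j then s i else b, ?_, by simp, ?_⟩
      · intro i hi
        by_cases h : i ≤ j
        · simpa [h] using sA i h
        · simpa [h] using hb
      · rw [he, se, sum_range_succ]
        congr 1
        · apply sum_congr rfl
          intro q hq
          have hq' := mem_range.mp hq
          have a1 : q ≤ j := by omega
          have a2 : q + 1 ≤ j := by omega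
          simp only [a1, a2, if_true]
        · have a2 : ¬ (j + 1 ≤ j) := by omega
          simp only [le_refl, if_true, a2, if_false, sj]

/-- **NEAR for a natural number plan**: `U j m = |(P j m) F - W (D j m)|` is minimised over the
letters by `m'` (`P j m` = position minus `u`, `W` = displacement `v - u` of the window start, all
integers). -/
theorem near_nat {N : ℕ} (h0 : ∀ b, D 0 b = 0)
    (hs : ∀ j b a, a < A → D (j + 1) b ≤ D j a + T j a b)
    (hs' : ∀ j b, ∃ a < A, D (j + 1) b = D j a + T j a b)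
    {F : ℕ} (hFpos : 0 < F) {W : ℤ} {Pz : ℕ → ℕ → ℤ} {kap δ z : ℝ} {i : ℕ} (hj : i + 1 ≤ N)
    (hδ : 0 < δ) (hz : 0 ≤ z)
    (hlip : ∀ a < A, ∀ b < A, ∀ b' < A,
      |(T i a b : ℝ) - T i a b'| ≤ |(Pz (i + 1) b : ℝ) - Pz (i + 1) b'| + z)
    (hF : ∀ s : ℕ → ℕ, (∀ k ≤ N, s k < A) →
      (F : ℝ) ≤ val N (fun q a b => (T q a b : ℝ)) s + kap)
    (s : ℕ → ℕ) (sA : ∀ k ≤ N, s k < A) (hu : Pz 0 (s 0) = 0)
    (hd : ∀ q < N, |(Pz (q + 1) (s (q + 1)) : ℝ) - Pz q (s q)| ≤ T q (s q) (s (q + 1)))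
    (hW : |(W : ℝ)| ≤ (1 - δ) * F) (m' : ℕ) (hm' : m' < A)
    (hm : ∀ m < A, (Pz (i + 1) m' * F - W * (D (i + 1) m' : ℤ)).natAbs ≤
      (Pz (i + 1) m * F - W * (D (i + 1) m : ℤ)).natAbs) :
    |(Pz (i + 1) (s (i + 1)) : ℝ) - Pz (i + 1) m'| ≤
      (2 * (√(val N (fun q a b => (T q a b : ℝ)) s *
          EnC N (fun q a => (Pz q a : ℝ)) (fun q a b => (T q a b : ℝ)) (W / F) s) +
        max 0 (val N (fun q a b => (T q a b : ℝ)) s - F + kap)) + z) / δ := by
  have hFp : (0 : ℝ) < F := by exact_mod_cast hFpos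
  let Dp : ℕ → ℕ → ℝ := fun j b => (D j b : ℝ)
  let c : ℕ → ℕ → ℕ → ℝ := fun q a b => (T q a b : ℝ)
  have hle : ∀ r : ℕ → ℕ, (∀ k ≤ i + 1, r k < A) →
      Dp (i + 1) (r (i + 1)) ≤ ∑ q ∈ range (i + 1), c q (r q) (r (q + 1)) := by
    intro r rA
    have h := pre_le (A := A) (T := T) (D := D) h0 hs r (i + 1) rA
    have : ((D (i + 1) (r (i + 1)) : ℕ) : ℝ) ≤
        ((∑ q ∈ range (i + 1), T q (r q) (r (q + 1)) : ℕ) : ℝ) := by exact_mod_cast h
    simpa [Dp, c] using this
  have hat : ∀ b < A, ∃ r : ℕ → ℕ, (∀ k ≤ i + 1, r k < A) ∧ r (i + 1) = b ∧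
      Dp (i + 1) b = ∑ q ∈ range (i + 1), c q (r q) (r (q + 1)) := by
    intro b hb
    obtain ⟨r, rA, rj, re⟩ := pre_att (A := A) (T := T) (D := D) h0 hs' (i + 1) b hb
    refine ⟨r, rA, rj, ?_⟩
    show ((D (i + 1) b : ℕ) : ℝ) = _
    rw [re]; push_cast; rfl
  have hθ : |(W : ℝ) / F| ≤ 1 - δ := by
    rw [abs_div, abs_of_pos hFp, div_le_iff₀ hFp]; exact hW
  have hres : ∀ b : ℕ, |(Pz (i + 1) b : ℝ) - 0 - (W : ℝ) / F * Dp (i + 1) b| =
      ((Pz (i + 1) b * F - W * (D (i + 1) b : ℤ)).natAbs : ℝ) / F := by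
    intro b
    have e1 : (Pz (i + 1) b : ℝ) - 0 - (W : ℝ) / F * Dp (i + 1) b =
        ((Pz (i + 1) b * F - W * (D (i + 1) b : ℤ) : ℤ) : ℝ) / F := by
      push_cast
      field_simp
      ring
    rw [e1, abs_div, abs_of_pos hFp]
    congr 1
    rw [Nat.cast_natAbs, Int.cast_abs]
  have hmain := near_cut (N := N) (A := A) (u := 0) (ps := fun q a => (Pz q a : ℝ)) (c := c)
    (Dp := Dp) (F := (F : ℝ)) (kap := kap) (θ := (W : ℝ) / F) (δ := δ) (z := z) (e0 := 0)
    hj hδ hz hle hat (Dp_lip (ps := fun q a => (Pz q a : ℝ)) hle hat hlip) hF s sA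
    (by simp [hu]) hd hθ m' hm' ?_
  · simpa using hmain
  · rw [hres, hres, add_zero]
    apply div_le_div_of_nonneg_right _ hFp.le
    exact_mod_cast hm (s (i + 1)) (sA (i + 1) hj)

end DP

end Crest.Agent.R288.PlanC744
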