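import Mathlib

/-!
# R288: pointwise epoch inequality ("POINTWISE FROM ABOVE", helper641; #4352 + #4412 + #4288)

Abstract macro tree: `S h` = states with `h` windows below, `M h x` = staircases at `x : S (h+1)`,
`pc h x m` = list of the pieces. `e` = `v - u`, `G` = exact cost, `Sv` = output of the previous epoch,
`F` = unit / plan function / retire price, `R` = mean arrival cost of this epoch.

* `energy`   : `∑ F_j (a_j - θ)² = ∑ ψ(y_j) - ψ(x) + θ² (∑ F_j - F)`, `ψ = e²/F` (744's identity)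
* `pot_step` : `pot = e²/F + 2F` grows by `En + (∑ F_j - F)⁺` up to twice the defect of `F`
* `far_energy` : a cut far from its target forces `c F ≤ En + (∑ F_j - F)⁺`
* `Epoch.main` : `R + λ pot ≤ (c + κ B h) (1 + η B)^h G` at EVERY state
* `chain` : `B_{e+1} ≤ a + κ B_e` for all `e`.
-/

set_option autoImplicit false

namespace Crest.Agent.R288.Ptw641

open Finset

universe u v

section pieces

variable {α : Type*}

/-- energy of the slopes of a list of pieces around `θ` -/
noncomputable def En (l : List α) (e F : α → ℝ) (θ : ℝ) : ℝ :=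
  (l.map fun a => F a * (e a / F a - θ) ^ 2).sum

/-- the potential -/
noncomputable def pot (e F : ℝ) : ℝ := e ^ 2 / F + 2 * F

theorem list_sum_le (l : List α) (F G : α → ℝ) (h : ∀ a ∈ l, F a ≤ G a) :
    (l.map F).sum ≤ (l.map G).sum := by
  induction l with
  | nil => simp
  | cons a l ih =>
    simp only [List.map_cons, List.sum_cons]
    exact add_le_add (h a (by simp)) (ih fun b hb => h b (by simp [hb]))

theorem list_sum_congr (l : List α) (F G : α → ℝ) (h : ∀ a ∈ l, F a = G a) :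
    (l.map F).sum = (l.map G).sum :=
  le_antisymm (list_sum_le l F G fun a ha => (h a ha).le)
    (list_sum_le l G F fun a ha => (h a ha).ge)

theorem list_sum_nonneg (l : List α) (F : α → ℝ) (h : ∀ a ∈ l, 0 ≤ F a) : 0 ≤ (l.map F).sum := by
  have := list_sum_le l (fun _ => 0) F h
  simpa using this

theorem list_sum_add (l : List α) (F G : α → ℝ) :
    (l.map fun a => F a + G a).sum = (l.map F).sum + (l.map G).sum := by
  induction l with
  | nil => simp
  | cons a l ih => simp only [List.map_cons, List.sum_cons, ih]; ring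

theorem list_sum_mul (l : List α) (c : ℝ) (F : α → ℝ) :
    (l.map fun a => c * F a).sum = c * (l.map F).sum := by
  induction l with
  | nil => simp
  | cons a l ih => simp only [List.map_cons, List.sum_cons, ih]; ring

theorem piece_id {e F : ℝ} (θ : ℝ) (h : |e| ≤ F) :
    F * (e / F - θ) ^ 2 = e ^ 2 / F - 2 * θ * e + θ ^ 2 * F := by
  rcases (abs_nonneg e).trans h |>.eq_or_lt with h0 | h0
  · rw [← h0] at h
    have : e = 0 := by simpa using abs_nonpos_iff.1 h
    simp [this, ← h0]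
  · field_simp
    ring

theorem En_eq (l : List α) (e F : α → ℝ) (θ : ℝ) (h : ∀ a ∈ l, |e a| ≤ F a) :
    En l e F θ = (l.map fun a => e a ^ 2 / F a).sum - 2 * θ * (l.map e).sum
      + θ ^ 2 * (l.map F).sum := by
  unfold En
  rw [list_sum_congr l _ _ fun a ha => piece_id θ (h a ha)]
  have h1 := list_sum_add l (fun a => e a ^ 2 / F a - 2 * θ * e a) (fun a => θ ^ 2 * F a)
  have h2 := list_sum_add l (fun a => e a ^ 2 / F a) (fun a => (-(2 * θ)) * e a)
  have h3 := list_sum_mul l (-(2 * θ)) e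
  have h4 := list_sum_mul l (θ ^ 2) F
  have h5 : (l.map fun a => e a ^ 2 / F a - 2 * θ * e a).sum
      = (l.map fun a => e a ^ 2 / F a + (-(2 * θ)) * e a).sum :=
    list_sum_congr l _ _ fun a _ => by ring
  rw [h1, h4, h5, h2, h3]
  ring

theorem En_nonneg (l : List α) (e F : α → ℝ) (θ : ℝ) (h : ∀ a ∈ l, 0 ≤ F a) :
    0 ≤ En l e F θ :=
  list_sum_nonneg l _ fun a ha => mul_nonneg (h a ha) (sq_nonneg _)

/-- 744's identity -/
theorem energy (l : List α) (e F : α → ℝ) {e₀ F₀ : ℝ} (h : ∀ a ∈ l, |e a| ≤ F a)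
    (h0 : |e₀| ≤ F₀) (hs : (l.map e).sum = e₀) :
    En l e F (e₀ / F₀) = (l.map fun a => e a ^ 2 / F a).sum - e₀ ^ 2 / F₀
      + (e₀ / F₀) ^ 2 * ((l.map F).sum - F₀) := by
  rw [En_eq l e F _ h, hs]
  rcases (abs_nonneg e₀).trans h0 |>.eq_or_lt with h1 | h1
  · simp [← h1]
  · field_simp
    ring

theorem div_sq_le {e F : ℝ} (h : |e| ≤ F) : (e / F) ^ 2 ≤ 1 := by
  have hF : 0 ≤ F := (abs_nonneg e).trans h
  rw [sq_le_one_iff_abs_le_one, abs_div, abs_of_nonneg hF]
  exact div_le_one_of_le₀ h hF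

theorem pot_le {e F : ℝ} (h : |e| ≤ F) : pot e F ≤ 3 * F := by
  have hF : 0 ≤ F := (abs_nonneg e).trans h
  have : e ^ 2 / F ≤ F := by
    rcases hF.eq_or_lt with h1 | h1
    · simp [← h1]
    · rw [div_le_iff₀ h1, ← sq_abs]
      nlinarith [abs_nonneg e]
  unfold pot
  linarith

theorem pot_nonneg {e F : ℝ} (h : 0 ≤ F) : 0 ≤ pot e F := by
  unfold pot
  positivity

theorem sum_pot (l : List α) (e F : α → ℝ) :
    (l.map fun a => pot (e a) (F a)).sum
      = (l.map fun a => e a ^ 2 / F a).sum + 2 * (l.map F).sum := by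
  have := list_sum_add l (fun a => e a ^ 2 / F a) (fun a => 2 * F a)
  rw [list_sum_mul] at this
  exact this

/-- the potential step: `d` = defect of `F` -/
theorem pot_step (l : List α) (e F : α → ℝ) {e₀ F₀ d : ℝ} (h : ∀ a ∈ l, |e a| ≤ F a)
    (h0 : |e₀| ≤ F₀) (hs : (l.map e).sum = e₀) (hd : 0 ≤ d) (hF : F₀ ≤ (l.map F).sum + d) :
    pot e₀ F₀ + En l e F (e₀ / F₀) + max ((l.map F).sum - F₀) 0 - 2 * d
      ≤ (l.map fun a => pot (e a) (F a)).sum := by
  rw [sum_pot, energy l e F h h0 hs]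
  have h1 := div_sq_le h0
  have h2 : 0 ≤ (e₀ / F₀) ^ 2 := sq_nonneg _
  set t := (e₀ / F₀) ^ 2
  set D := (l.map F).sum - F₀ with hD
  unfold pot
  rcases le_total 0 D with h3 | h3
  · rw [max_eq_left h3]
    nlinarith
  · rw [max_eq_right h3]
    have : -d ≤ D := by linarith
    nlinarith

/-- Cauchy--Schwarz for a prefix of the pieces -/
theorem prefix_dev (l₁ l₂ : List α) (e F : α → ℝ) (θ : ℝ) (h : ∀ a ∈ l₁ ++ l₂, |e a| ≤ F a) :
    |(l₁.map e).sum - θ * (l₁.map F).sum|
      ≤ Real.sqrt ((l₁.map F).sum * En (l₁ ++ l₂) e F θ) := by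
  have hF : ∀ a ∈ l₁ ++ l₂, 0 ≤ F a := fun a ha => (abs_nonneg _).trans (h a ha)
  have hEn : En l₁ e F θ ≤ En (l₁ ++ l₂) e F θ := by
    unfold En
    rw [List.map_append, List.sum_append]
    have := list_sum_nonneg l₂ (fun a => F a * (e a / F a - θ) ^ 2) fun a ha =>
      mul_nonneg (hF a (by simp [ha])) (sq_nonneg _)
    linarith
  have hF1 : ∀ a ∈ l₁, 0 ≤ F a := fun a ha => hF a (by simp [ha])
  have h1 : ∀ a ∈ l₁, |e a| ≤ F a := fun a ha => h a (by simp [ha])
  have hP : 0 ≤ (l₁.map F).sum := list_sum_nonneg l₁ F hF1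
  refine Real.abs_le_sqrt ?_
  refine le_trans ?_ (mul_le_mul_of_nonneg_left hEn hP)
  -- Cauchy--Schwarz by induction
  clear hEn hP hF h
  induction l₁ with
  | nil => simp [En]
  | cons a l ih =>
    have ih' := ih (fun b hb => hF1 b (by simp [hb])) (fun b hb => h1 b (by simp [hb]))
    have ha := hF1 a (by simp)
    have hae := h1 a (by simp)
    simp only [List.map_cons, List.sum_cons, En] at ih' ⊢
    set s := (l.map e).sum
    set P := (l.map F).sum with hPd
    set N := (l.map fun a => F a * (e a / F a - θ) ^ 2).sum with hN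
    have hP : 0 ≤ P := list_sum_nonneg l F fun b hb => hF1 b (by simp [hb])
    have hN0 : 0 ≤ N := list_sum_nonneg l _ fun b hb =>
      mul_nonneg (hF1 b (by simp [hb])) (sq_nonneg _)
    have key : e a - θ * F a = F a * (e a / F a - θ) := by
      rcases ha.eq_or_lt with h0 | h0
      · have : e a = 0 := by
          rw [← h0] at hae
          exact abs_nonpos_iff.1 hae
        simp [this, ← h0]
      · field_simp
    set z := e a / F a - θ
    have e1 : e a + s - θ * (F a + P) = F a * z + (s - θ * P) := by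
      rw [← key]; ring
    rw [e1]
    set y := s - θ * P
    -- y^2 ≤ P N ; want (F z + y)^2 ≤ (F+P)(F z^2 + N)
    have h2 : 2 * (F a * z * y) ≤ F a * N + P * (F a * z ^ 2) := by
      rcases hP.eq_or_lt with h0 | h0
      · have hy : y = 0 := by
          have : y ^ 2 ≤ 0 := by simpa [← h0] using ih'
          exact pow_eq_zero_iff (two_ne_zero) |>.1 (le_antisymm this (sq_nonneg _))
        rw [hy, ← h0]
        simp only [mul_zero, zero_mul, add_zero]
        positivity
      · have h3 : y ^ 2 / P ≤ N := by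
          rw [div_le_iff₀ h0]; linarith [mul_comm P N]
        have h4 : 2 * (z * y) ≤ y ^ 2 / P + P * z ^ 2 := by
          have : 0 ≤ (y - P * z) ^ 2 / P := by positivity
          have h5 : (y - P * z) ^ 2 / P = y ^ 2 / P - 2 * (z * y) + P * z ^ 2 := by
            field_simp
            ring
          linarith
        nlinarith
    nlinarith

/-- A cut which is far from its target forces energy or growth of `F`.
`Φ` = prefix minimum at the actual cut, `Φ'` at the target; `w w'` = actual and target increments. -/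
theorem far_energy {P E dr d e₀ F₀ θ w w' Φ Φ' δ σ : ℝ} (hδ : 0 < δ) (hσ : 0 < σ) (hσ1 : σ ≤ 1)
    (hδ1 : δ ≤ 1) (hF : 0 ≤ F₀) (hE : 0 ≤ E) (hP : P ≤ F₀ + max dr 0)
    (hθ : |θ| ≤ 1 - 4 * δ) (hw : |w - θ * P| ≤ Real.sqrt (P * E)) (hΦ : Φ ≤ P)
    (hΦ' : P - dr - d ≤ Φ) (hd : 0 ≤ d) (hlip : |Φ - Φ'| ≤ |w - w'|)
    (hres : |w' - θ * Φ'| ≤ e₀) (hsmall : 2 * d + e₀ ≤ δ * σ * F₀) (hfar : σ * F₀ < |w - w'|) :
    δ ^ 2 * σ ^ 2 * F₀ ≤ E + max dr 0 := by
  set q := E + max dr 0 with hq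
  have hm : 0 ≤ max dr 0 := le_max_right _ _
  have hq0 : 0 ≤ q := by positivity
  by_contra hcon
  push Not at hcon
  have hqF : q ≤ F₀ := by
    have : δ ^ 2 * σ ^ 2 ≤ 1 := by
      have h1 : δ ^ 2 ≤ 1 := by nlinarith
      have h2 : σ ^ 2 ≤ 1 := by nlinarith
      nlinarith [sq_nonneg δ, sq_nonneg σ]
    nlinarith
  -- |w - θ Φ| ≤ sqrt(P E) + |dr| + d
  have h1 : |P - Φ| ≤ max dr 0 + d := by
    rw [abs_of_nonneg (by linarith)]
    have : dr ≤ max dr 0 := le_max_left _ _
    linarith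
  have hθ1 : |θ| ≤ 1 := by linarith
  have h2 : |w - θ * Φ| ≤ Real.sqrt (P * E) + (max dr 0 + d) := by
    have : w - θ * Φ = (w - θ * P) + θ * (P - Φ) := by ring
    rw [this]
    refine (abs_add_le _ _).trans (add_le_add hw ?_)
    rw [abs_mul]
    calc |θ| * |P - Φ| ≤ 1 * (max dr 0 + d) := by gcongr
      _ = _ := one_mul _
  have h3 : |w - w'| ≤ Real.sqrt (P * E) + (max dr 0 + d) + e₀ + |θ| * |w - w'| := by
    have : w - w' = (w - θ * Φ) - (w' - θ * Φ') + θ * (Φ - Φ') := by ring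
    calc |w - w'| = |(w - θ * Φ) - (w' - θ * Φ') + θ * (Φ - Φ')| := by rw [← this]
      _ ≤ |(w - θ * Φ) - (w' - θ * Φ')| + |θ * (Φ - Φ')| := abs_add_le _ _
      _ ≤ (|w - θ * Φ| + |w' - θ * Φ'|) + |θ| * |w - w'| := by
          refine add_le_add (abs_sub _ _) ?_
          rw [abs_mul]
          gcongr
      _ ≤ _ := by linarith
  have h4 : Real.sqrt (P * E) ≤ Real.sqrt (2 * F₀ * q) := by
    apply Real.sqrt_le_sqrt
    have hEq : E ≤ q := by linarith
    have hP2 : P ≤ 2 * F₀ := by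
      have : max dr 0 ≤ q := by linarith
      linarith
    exact mul_le_mul hP2 hEq hE (by linarith)
  -- q ≤ sqrt (F q)
  have h5 : q ≤ Real.sqrt (F₀ * q) :=
    Real.le_sqrt_of_sq_le (by rw [sq]; exact mul_le_mul_of_nonneg_right hqF hq0)
  have h6 : Real.sqrt (2 * F₀ * q) ≤ (3 / 2) * Real.sqrt (F₀ * q) := by
    have h7 : 2 * F₀ * q = 2 * (F₀ * q) := by ring
    rw [h7, Real.sqrt_mul (by norm_num)]
    have : Real.sqrt 2 ≤ 3 / 2 := by
      rw [show (3 / 2 : ℝ) = Real.sqrt ((3 / 2) ^ 2) by rw [Real.sqrt_sq (by norm_num)]]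
      apply Real.sqrt_le_sqrt
      norm_num
    exact mul_le_mul_of_nonneg_right this (Real.sqrt_nonneg _)
  have h8 : Real.sqrt (F₀ * q) ≤ δ * σ * F₀ := by
    rw [show δ * σ * F₀ = Real.sqrt ((δ * σ * F₀) ^ 2) by rw [Real.sqrt_sq (by positivity)]]
    apply Real.sqrt_le_sqrt
    calc F₀ * q ≤ F₀ * (δ ^ 2 * σ ^ 2 * F₀) := by gcongr
      _ = _ := by ring
  have h9 : (1 - |θ|) * |w - w'| ≤ 5 / 2 * (δ * σ * F₀) + δ * σ * F₀ := by
    have : max dr 0 ≤ q := by linarith
    nlinarith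
  have h10 : 4 * δ * (σ * F₀) < (1 - |θ|) * |w - w'| ∨ F₀ = 0 := by
    rcases hF.eq_or_lt with h0 | h0
    · right; exact h0.symm
    · left
      have : 0 < |w - w'| := lt_of_le_of_lt (by positivity) hfar
      nlinarith
  rcases h10 with h10 | h10
  · have : 0 ≤ δ * σ * F₀ := by positivity
    nlinarith
  · rw [h10] at hcon
    simp only [mul_zero] at hcon
    linarith

end pieces

section epoch

variable {S : ℕ → Type u} {M : ∀ h, S (h + 1) → Type v}

/-- What one epoch of the play gives (all constants relative to `F`). -/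
structure Epoch (pc : ∀ h (x : S (h + 1)), M h x → List (S h)) (Ok : ∀ h, S h → Prop)
    (e G Sv F R : ∀ h, S h → ℝ) (B b δ lam η κd k1 kK κ0 c0 : ℝ) : Prop where
  ok : ∀ h x m, Ok (h + 1) x → ∀ y ∈ pc h x m, Ok h y
  e_sum : ∀ h x m, Ok (h + 1) x → ((pc h x m).map (e h)).sum = e (h + 1) x
  eG : ∀ h x, Ok h x → |e h x| ≤ G h x
  GF : ∀ h x, Ok h x → G h x ≤ F h x
  FS : ∀ h x, Ok h x → F h x ≤ Sv h x
  SB : ∀ h x, Ok h x → Sv h x ≤ B * G h x
  F3 : ∀ h x m, Ok (h + 1) x →
    F (h + 1) x ≤ ((pc h x m).map (F h)).sum + κd * Sv (h + 1) x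
  RF : ∀ h x, Ok h x → R h x ≤ (1 + b) * F h x
  leaf : ∀ x, Ok 0 x → F 0 x ≤ G 0 x
  opt : ∀ h x, Ok (h + 1) x → ∃ m, ((pc h x m).map (G h)).sum ≤ G (h + 1) x + η * Sv (h + 1) x ∧
    (|e (h + 1) x| ≤ (1 - 4 * δ) * F (h + 1) x →
      R (h + 1) x ≤ ((pc h x m).map (R h)).sum + κ0 * F (h + 1) x ∨
      (c0 * F (h + 1) x ≤ En (pc h x m) (e h) (F h) (e (h + 1) x / F (h + 1) x)
          + max (((pc h x m).map (F h)).sum - F (h + 1) x) 0 ∧
        R (h + 1) x ≤ ((pc h x m).map (R h)).sum + k1 * F (h + 1) x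
          + kK * ((pc h x m).map (F h)).sum))
  hB : 0 ≤ B
  hb : 0 ≤ b
  hδ : 0 ≤ δ
  hδ' : δ ≤ 1 / 20
  hη : 0 ≤ η
  hκd : 0 ≤ κd
  hκ0 : 0 ≤ κ0
  hkK : 0 ≤ kK
  hlam : kK ≤ lam
  hc : k1 + kK ≤ (lam - kK) * c0

variable {pc : ∀ h (x : S (h + 1)), M h x → List (S h)} {Ok : ∀ h, S h → Prop}
  {e G Sv F R : ∀ h, S h → ℝ} {B b δ lam η κd k1 kK κ0 c0 : ℝ}

/-- **The epoch theorem**, pointwise. -/
theorem Epoch.main (E : Epoch pc Ok e G Sv F R B b δ lam η κd k1 kK κ0 c0) :
    ∀ h x, Ok h x → R h x + lam * pot (e h x) (F h x)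
      ≤ (1 + η * B) ^ h * ((1 + b + 3 * lam) * (1 + 5 * δ) + (κ0 + 2 * lam * κd) * B * h)
        * G h x := by
  have hl : 0 ≤ lam := E.hkK.trans E.hlam
  have hηB : 0 ≤ η * B := mul_nonneg E.hη E.hB
  have hκ : 0 ≤ κ0 + 2 * lam * κd := by have := E.hκ0; have := E.hκd; positivity
  have hc1 : 1 ≤ (1 + b + 3 * lam) * (1 + 5 * δ) := by
    have := E.hb; have := E.hδ
    nlinarith [mul_nonneg hl this]
  have hG0 : ∀ h x, Ok h x → 0 ≤ G h x := fun h x hx => (abs_nonneg _).trans (E.eG h x hx)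
  have hF0 : ∀ h x, Ok h x → 0 ≤ F h x := fun h x hx => (hG0 h x hx).trans (E.GF h x hx)
  have heF : ∀ h x, Ok h x → |e h x| ≤ F h x := fun h x hx => (E.eG h x hx).trans (E.GF h x hx)
  -- a state with `F ≤ (1+5δ) G`
  have base : ∀ h x, Ok h x → F h x ≤ (1 + 5 * δ) * G h x →
      R h x + lam * pot (e h x) (F h x) ≤ (1 + η * B) ^ h *
        ((1 + b + 3 * lam) * (1 + 5 * δ) + (κ0 + 2 * lam * κd) * B * h) * G h x := by
    intro h x hx hFG
    have h1 := E.RF h x hx
    have h2 := pot_le (heF h x hx)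
    have h3 : R h x + lam * pot (e h x) (F h x) ≤ (1 + b + 3 * lam) * F h x := by nlinarith
    have hb1 : 0 ≤ 1 + b + 3 * lam := by have := E.hb; positivity
    have h4 : (1 + b + 3 * lam) * F h x ≤ (1 + b + 3 * lam) * (1 + 5 * δ) * G h x := by
      rw [mul_assoc]
      exact mul_le_mul_of_nonneg_left hFG hb1
    refine (h3.trans h4).trans (mul_le_mul_of_nonneg_right ?_ (hG0 h x hx))
    have h5 : 1 ≤ (1 + η * B) ^ h := one_le_pow₀ (by linarith)
    have h6 : 0 ≤ (κ0 + 2 * lam * κd) * B * h := by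
      have := E.hB
      positivity
    nlinarith
  intro h
  induction h with
  | zero =>
    intro x hx
    refine base 0 x hx ((E.leaf x hx).trans ?_)
    have := hG0 0 x hx
    have := E.hδ
    nlinarith
  | succ h ih =>
    intro x hx
    by_cases hret : |e (h + 1) x| ≤ (1 - 4 * δ) * F (h + 1) x
    · obtain ⟨m, hm, hwin⟩ := E.opt h x hx
      have hwin := hwin hret
      have hok := E.ok h x m hx
      set l := pc h x m with hl'
      have hpf : ∀ y ∈ l, |e h y| ≤ F h y := fun y hy => heF h y (hok y hy)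
      have hSv0 : 0 ≤ Sv (h + 1) x := (hF0 _ x hx).trans (E.FS _ x hx)
      have hps := pot_step l (e h) (F h) hpf (heF _ x hx) (E.e_sum h x m hx)
        (mul_nonneg E.hκd hSv0) (E.F3 h x m hx)
      have hEn : 0 ≤ En l (e h) (F h) (e (h + 1) x / F (h + 1) x) :=
        En_nonneg l _ _ _ fun y hy => (abs_nonneg _).trans (hpf y hy)
      set q := max ((l.map (F h)).sum - F (h + 1) x) 0 with hq
      have hq0 : 0 ≤ q := le_max_right _ _
      have hqF : (l.map (F h)).sum ≤ F (h + 1) x + q := by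
        have : (l.map (F h)).sum - F (h + 1) x ≤ q := le_max_left _ _
        linarith
      -- one window
      have hstep : R (h + 1) x + lam * pot (e (h + 1) x) (F (h + 1) x)
          ≤ (l.map fun y => R h y + lam * pot (e h y) (F h y)).sum
            + (κ0 + 2 * lam * κd) * Sv (h + 1) x := by
        rw [list_sum_add, list_sum_mul]
        have hFS := E.FS _ x hx
        have hpm := mul_le_mul_of_nonneg_left hps hl
        rcases hwin with hn | ⟨hfar, hR⟩
        · have h1 : κ0 * F (h + 1) x ≤ κ0 * Sv (h + 1) x :=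
            mul_le_mul_of_nonneg_left hFS E.hκ0
          have h2 : 0 ≤ lam * En l (e h) (F h) (e (h + 1) x / F (h + 1) x) := mul_nonneg hl hEn
          have h3 : 0 ≤ lam * q := mul_nonneg hl hq0
          linarith
        · have h1 : (k1 + kK) * F (h + 1) x ≤ (lam - kK) * c0 * F (h + 1) x :=
            mul_le_mul_of_nonneg_right E.hc (hF0 _ x hx)
          have h2 : (lam - kK) * (c0 * F (h + 1) x) ≤ (lam - kK) *
              (En l (e h) (F h) (e (h + 1) x / F (h + 1) x) + q) :=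
            mul_le_mul_of_nonneg_left hfar (by linarith [E.hlam])
          have h3 : kK * (l.map (F h)).sum ≤ kK * (F (h + 1) x + q) :=
            mul_le_mul_of_nonneg_left hqF E.hkK
          have h4 : 0 ≤ kK * En l (e h) (F h) (e (h + 1) x / F (h + 1) x) :=
            mul_nonneg E.hkK hEn
          have h5 : 0 ≤ κ0 * Sv (h + 1) x := mul_nonneg E.hκ0 hSv0
          linarith
      -- induction hypothesis
      set c := (1 + b + 3 * lam) * (1 + 5 * δ) + (κ0 + 2 * lam * κd) * B * h with hcdef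
      have hc0 : 0 ≤ c := by
        have := E.hB
        have h6 : 0 ≤ (κ0 + 2 * lam * κd) * B * h := by positivity
        linarith
      have hp : 1 ≤ (1 + η * B) ^ h := one_le_pow₀ (by linarith)
      have hsum : (l.map fun y => R h y + lam * pot (e h y) (F h y)).sum
          ≤ (1 + η * B) ^ h * c * (l.map (G h)).sum := by
        rw [← list_sum_mul]
        exact list_sum_le l _ _ fun y hy => ih y (hok y hy)
      have hG := hG0 _ x hx
      have hSB := E.SB _ x hx
      have hsG : (l.map (G h)).sum ≤ (1 + η * B) * G (h + 1) x := by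
        have : η * Sv (h + 1) x ≤ η * (B * G (h + 1) x) := mul_le_mul_of_nonneg_left hSB E.hη
        linarith
      have h7 : (1 + η * B) ^ h * c * (l.map (G h)).sum
          ≤ (1 + η * B) ^ (h + 1) * c * G (h + 1) x := by
        have h8 : 0 ≤ (1 + η * B) ^ h * c := mul_nonneg (by linarith) hc0
        calc (1 + η * B) ^ h * c * (l.map (G h)).sum
            ≤ (1 + η * B) ^ h * c * ((1 + η * B) * G (h + 1) x) :=
              mul_le_mul_of_nonneg_left hsG h8
          _ = _ := by ring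
      have h9 : (κ0 + 2 * lam * κd) * Sv (h + 1) x
          ≤ (1 + η * B) ^ (h + 1) * ((κ0 + 2 * lam * κd) * B) * G (h + 1) x := by
        have h10 : (κ0 + 2 * lam * κd) * Sv (h + 1) x
            ≤ (κ0 + 2 * lam * κd) * (B * G (h + 1) x) := mul_le_mul_of_nonneg_left hSB hκ
        have h11 : 1 ≤ (1 + η * B) ^ (h + 1) := one_le_pow₀ (by linarith)
        have h12 : 0 ≤ (κ0 + 2 * lam * κd) * B * G (h + 1) x := by
          have := E.hB
          positivity
        nlinarith
      calc R (h + 1) x + lam * pot (e (h + 1) x) (F (h + 1) x)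
          ≤ _ := hstep
        _ ≤ (1 + η * B) ^ (h + 1) * c * G (h + 1) x
            + (1 + η * B) ^ (h + 1) * ((κ0 + 2 * lam * κd) * B) * G (h + 1) x :=
          add_le_add (hsum.trans h7) h9
        _ = _ := by
          rw [hcdef]
          push_cast
          ring
    · -- retired state
      refine base (h + 1) x hx ?_
      push Not at hret
      have h1 := E.eG _ x hx
      have h2 : (1 - 4 * δ) * F (h + 1) x ≤ G (h + 1) x := hret.le.trans h1
      have h3 : 1 ≤ (1 + 5 * δ) * (1 - 4 * δ) := by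
        have := E.hδ; have := E.hδ'
        nlinarith
      have h4 : (1 + 5 * δ) * ((1 - 4 * δ) * F (h + 1) x) ≤ (1 + 5 * δ) * G (h + 1) x :=
        mul_le_mul_of_nonneg_left h2 (by have := E.hδ; positivity)
      have h5 : F (h + 1) x ≤ (1 + 5 * δ) * (1 - 4 * δ) * F (h + 1) x := by
        have := hF0 _ x hx
        nlinarith
      calc F (h + 1) x ≤ (1 + 5 * δ) * (1 - 4 * δ) * F (h + 1) x := h5
        _ = (1 + 5 * δ) * ((1 - 4 * δ) * F (h + 1) x) := by ring
        _ ≤ _ := h4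

/-- In particular `R ≤ B' G` everywhere, `B' = a + κ B`. -/
theorem Epoch.le (E : Epoch pc Ok e G Sv F R B b δ lam η κd k1 kK κ0 c0) {H : ℕ} {a κ : ℝ}
    (ha : (1 + η * B) ^ H * ((1 + b + 3 * lam) * (1 + 5 * δ)) ≤ a)
    (hκ' : (1 + η * B) ^ H * ((κ0 + 2 * lam * κd) * H) ≤ κ) :
    ∀ h x, h ≤ H → Ok h x → R h x ≤ (a + κ * B) * G h x := by
  intro h x hh hx
  have hl : 0 ≤ lam := E.hkK.trans E.hlam
  have hG : 0 ≤ G h x := (abs_nonneg _).trans (E.eG h x hx)
  have hF : 0 ≤ F h x := hG.trans (E.GF h x hx)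
  have h1 := E.main h x hx
  have h2 : 0 ≤ lam * pot (e h x) (F h x) := mul_nonneg hl (pot_nonneg hF)
  have hηB : 0 ≤ η * B := mul_nonneg E.hη E.hB
  have h3 : (1 + η * B) ^ h ≤ (1 + η * B) ^ H := pow_le_pow_right₀ (by linarith) hh
  have h0 : 0 ≤ (1 + η * B) ^ h := by positivity
  have hκ : 0 ≤ κ0 + 2 * lam * κd := by have := E.hκ0; have := E.hκd; positivity
  have hc1 : 0 ≤ (1 + b + 3 * lam) * (1 + 5 * δ) := by
    have := E.hb; have := E.hδ
    positivity
  have hB := E.hB
  have h4 : (1 + η * B) ^ h * ((1 + b + 3 * lam) * (1 + 5 * δ) + (κ0 + 2 * lam * κd) * B * h)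
      ≤ a + κ * B := by
    have h5 : (1 + η * B) ^ h * ((1 + b + 3 * lam) * (1 + 5 * δ)) ≤ a :=
      (mul_le_mul_of_nonneg_right h3 hc1).trans ha
    have h6 : (1 + η * B) ^ h * ((κ0 + 2 * lam * κd) * h) ≤ κ := by
      refine le_trans ?_ hκ'
      have : (h : ℝ) ≤ H := by exact_mod_cast hh
      gcongr
    have h7 := mul_le_mul_of_nonneg_right h6 hB
    calc _ = (1 + η * B) ^ h * ((1 + b + 3 * lam) * (1 + 5 * δ))
          + (1 + η * B) ^ h * ((κ0 + 2 * lam * κd) * h) * B := by ring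
      _ ≤ _ := add_le_add h5 h7
  have h8 := mul_le_mul_of_nonneg_right h4 hG
  linarith

end epoch

/-- the ratios of the epochs -/
theorem chain {B : ℕ → ℝ} {a κ : ℝ} (hκ : 0 ≤ κ) (hκ1 : κ < 1)
    (h : ∀ i, B (i + 1) ≤ a + κ * B i) (i : ℕ) :
    B i ≤ a / (1 - κ) + κ ^ i * (B 0 - a / (1 - κ)) := by
  have h1 : 0 < 1 - κ := by linarith
  induction i with
  | zero => simp
  | succ i ih =>
    refine (h i).trans ?_
    have h2 := mul_le_mul_of_nonneg_left ih hκ
    have h3 : a + κ * (a / (1 - κ)) = a / (1 - κ) := by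
      field_simp
      ring
    calc a + κ * B i ≤ a + κ * (a / (1 - κ) + κ ^ i * (B 0 - a / (1 - κ))) := by linarith
      _ = (a + κ * (a / (1 - κ))) + κ ^ (i + 1) * (B 0 - a / (1 - κ)) := by ring
      _ = _ := by rw [h3]

end Crest.Agent.R288.Ptw641
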