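import Crest.Agent.R288.AlgA_45
import Crest.Agent.R288.Ptw_641

/-!
# R288 [PLANI]: the prefix plan of AlgA_45 v2.2 (instance of the plan lemma), helper693

Pure. Index staircases `c : ℕ → ℕ` (letters), `T q a b` = cost of piece `q` between the letters
`a` and `b`.

* `minR_le`, `minR_att`, `argR_lt`, `argR_le`, `sumR_eq`
* `D_le`, `D_att`, `D_paste`, `minSt_le`, `minSt_att`, `Vst_le`, `Vst_att`
* `far_argmin` : the energy lemma for a target which MINIMISES the residual, approximate Lipschitz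
* `near_or_far` : the same for the index DP
* `tgt_near_or_far` : the instance for `tgt` of AlgA_45
* `near_surj` : a cut within `F / 2^sb` of the target is a letter of the near menu
* `regular_of_near`, **`plan_good`** : (A12) of the SPEC
-/

set_option autoImplicit false

namespace Crest.Agent.R288.PlanI693

open Finset Crest.Agent.R288.Alg45

/-! ## minimum, first argmin, sum over a range -/

theorem foldl_min_spec (f : ℕ → ℕ) (l : List ℕ) (m : ℕ) :
    l.foldl (fun m a => min m (f a)) m ≤ m ∧ (∀ a ∈ l, l.foldl (fun m a => min m (f a)) m ≤ f a) ∧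
      (l.foldl (fun m a => min m (f a)) m = m ∨ ∃ a ∈ l, l.foldl (fun m a => min m (f a)) m = f a) := by
  induction l generalizing m with
  | nil => simp
  | cons b l ih =>
    simp only [List.foldl_cons]
    obtain ⟨h1, h2, h3⟩ := ih (min m (f b))
    refine ⟨h1.trans (min_le_left _ _), ?_, ?_⟩
    · intro a ha
      rcases List.mem_cons.1 ha with rfl | ha
      · exact h1.trans (min_le_right _ _)
      · exact h2 a ha
    · rcases h3 with h3 | ⟨a, ha, h3⟩
      · rcases min_choice m (f b) with h | h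
        · left; rw [h3, h]
        · right; exact ⟨b, by simp, by rw [h3, h]⟩
      · right; exact ⟨a, by simp [ha], h3⟩

theorem minR_le {n : ℕ} (f : ℕ → ℕ) {a : ℕ} (ha : a < n) : minR n f ≤ f a :=
  (foldl_min_spec f (List.range n) (f 0)).2.1 a (List.mem_range.2 ha)

theorem minR_att {n : ℕ} (f : ℕ → ℕ) (hn : 0 < n) : ∃ a < n, minR n f = f a := by
  rcases (foldl_min_spec f (List.range n) (f 0)).2.2 with h | ⟨a, ha, h⟩
  · exact ⟨0, hn, h⟩
  · exact ⟨a, List.mem_range.1 ha, h⟩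

theorem foldl_arg_spec (f : ℕ → ℕ) (l : List ℕ) (m : ℕ) :
    f (l.foldl (fun m a => if f a < f m then a else m) m) ≤ f m ∧
      (∀ a ∈ l, f (l.foldl (fun m a => if f a < f m then a else m) m) ≤ f a) ∧
      (l.foldl (fun m a => if f a < f m then a else m) m = m ∨
        l.foldl (fun m a => if f a < f m then a else m) m ∈ l) := by
  induction l generalizing m with
  | nil => simp
  | cons b l ih =>
    simp only [List.foldl_cons]
    obtain ⟨h1, h2, h3⟩ := ih (if f b < f m then b else m)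
    have hb : f (if f b < f m then b else m) ≤ f b := by
      split_ifs with h
      · exact le_rfl
      · exact not_lt.1 h
    have hm : f (if f b < f m then b else m) ≤ f m := by
      split_ifs with h
      · exact h.le
      · exact le_rfl
    refine ⟨h1.trans hm, ?_, ?_⟩
    · intro a ha
      rcases List.mem_cons.1 ha with rfl | ha
      · exact h1.trans hb
      · exact h2 a ha
    · rcases h3 with h3 | h3
      · by_cases h : f b < f m
        · right; rw [h3]; simp [h]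
        · left; rw [h3]; simp [h]
      · right; exact List.mem_cons_of_mem _ h3

theorem argR_le {n : ℕ} (f : ℕ → ℕ) {a : ℕ} (ha : a < n) : f (argR n f) ≤ f a :=
  (foldl_arg_spec f (List.range n) 0).2.1 a (List.mem_range.2 ha)

theorem argR_lt {n : ℕ} (f : ℕ → ℕ) (hn : 0 < n) : argR n f < n := by
  rcases (foldl_arg_spec f (List.range n) 0).2.2 with h | h
  · unfold argR; rw [h]; exact hn
  · exact List.mem_range.1 h

/-- `argR` is the FIRST argmin -/
theorem argR_first {n : ℕ} (f : ℕ → ℕ) {a : ℕ} (ha : a < argR n f) : f (argR n f) < f a := by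
  have key : ∀ n, ∀ a < argR n f, f (argR n f) < f a := by
    intro n
    induction n with
    | zero => intro a ha; simp [argR] at ha
    | succ n ih =>
      intro a ha
      have e : argR (n + 1) f = if f n < f (argR n f) then n else argR n f := by
        unfold argR
        rw [List.range_succ, List.foldl_append]
        rfl
      have hle : ∀ b < n, f (argR n f) ≤ f b := fun b hb => argR_le f hb
      rw [e] at ha ⊢
      split_ifs at ha ⊢ with h
      · exact lt_of_lt_of_le h (hle a ha)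
      · exact ih a ha
  exact key n a ha

theorem sumR_eq (n : ℕ) (f : ℕ → ℕ) : sumR n f = ∑ i ∈ range n, f i := by
  unfold sumR
  induction n with
  | zero => simp
  | succ n ih => rw [List.range_succ, List.map_append, List.sum_append, ih, sum_range_succ]; simp

/-! ## the staircase DP -/

variable {N A : ℕ} {T : ℕ → ℕ → ℕ → ℕ}

theorem D_le (c : ℕ → ℕ) (j : ℕ) (hc : ∀ q < j, c q < A) :
    D A T j (c j) ≤ ∑ q ∈ range j, T q (c q) (c (q + 1)) := by
  induction j with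
  | zero => simp [D]
  | succ j ih =>
    rw [sum_range_succ]
    have h1 := ih fun q hq => hc q (by omega)
    have h2 : D A T (j + 1) (c (j + 1)) ≤ D A T j (c j) + T j (c j) (c (j + 1)) :=
      minR_le (fun a => D A T j a + T j a (c (j + 1))) (hc j (by omega))
    omega

theorem D_att (hA : 0 < A) (j b : ℕ) :
    ∃ c : ℕ → ℕ, c j = b ∧ (∀ q < j, c q < A) ∧
      D A T j b = ∑ q ∈ range j, T q (c q) (c (q + 1)) := by
  induction j generalizing b with
  | zero => exact ⟨fun _ => b, rfl, by simp, by simp [D]⟩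
  | succ j ih =>
    obtain ⟨a, ha, h⟩ := minR_att (fun a => D A T j a + T j a b) hA
    obtain ⟨c, h1, h2, h3⟩ := ih a
    refine ⟨fun i => if i ≤ j then c i else b, by simp, ?_, ?_⟩
    · intro q hq
      have hqj : q ≤ j := by omega
      simp only [hqj, if_true]
      rcases Nat.lt_or_ge q j with h' | h'
      · exact h2 q h'
      · have : q = j := by omega
        rw [this, h1]; exact ha
    · rw [sum_range_succ]
      have e1 : ∑ q ∈ range j, T q ((fun i => if i ≤ j then c i else b) q)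
          ((fun i => if i ≤ j then c i else b) (q + 1)) = ∑ q ∈ range j, T q (c q) (c (q + 1)) := by
        refine sum_congr rfl fun q hq => ?_
        rw [mem_range] at hq
        have a1 : q ≤ j := by omega
        have a2 : q + 1 ≤ j := by omega
        simp only [a1, a2, if_true]
      rw [e1, ← h3]
      simp only [D, h, le_refl, if_true, h1, Nat.not_succ_le_self, if_false]

theorem minSt_le (c : ℕ → ℕ) (hc : ∀ q < N, c q < A) (hN : c N = 0) :
    minSt N A T ≤ ∑ q ∈ range N, T q (c q) (c (q + 1)) := by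
  have := D_le (T := T) c N hc
  rwa [hN] at this

theorem minSt_att (hA : 0 < A) :
    ∃ c : ℕ → ℕ, c N = 0 ∧ (∀ q < N, c q < A) ∧
      minSt N A T = ∑ q ∈ range N, T q (c q) (c (q + 1)) := D_att hA N 0

/-- **cut and paste**: if every staircase costs at least `F₀ - d`, the optimal prefix up to a cut of
`c` is at least the prefix cost of `c` minus (excess of `c` + `d`) -/
theorem D_paste (hA : 0 < A) {c : ℕ → ℕ} (hc : ∀ q < N, c q < A) {F₀ d : ℝ}
    (hmin : ∀ c' : ℕ → ℕ, (∀ q < N, c' q < A) → c' N = c N →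
      F₀ ≤ (∑ q ∈ range N, (T q (c' q) (c' (q + 1)) : ℝ)) + d) {j : ℕ} (hj : j ≤ N) :
    (∑ q ∈ range j, (T q (c q) (c (q + 1)) : ℝ))
        - ((∑ q ∈ range N, (T q (c q) (c (q + 1)) : ℝ)) - F₀) - d ≤ D A T j (c j) := by
  obtain ⟨s, h1, h2, h3⟩ := D_att (T := T) hA j (c j)
  set c' : ℕ → ℕ := fun i => if i ≤ j then s i else c i with hc'
  have hlt : ∀ q < N, c' q < A := by
    intro q hq
    by_cases h : q ≤ j
    · simp only [hc', h, if_true]
      rcases Nat.lt_or_ge q j with h' | h'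
      · exact h2 q h'
      · have : q = j := by omega
        rw [this, h1]; exact hc j (by omega)
    · simp only [hc', h, if_false]; exact hc q hq
  have hN : c' N = c N := by
    by_cases h : N ≤ j
    · have : N = j := by omega
      simp only [hc', h, if_true]; rw [this, h1]
    · simp only [hc', h, if_false]
  have hm := hmin c' hlt hN
  obtain ⟨t, rfl⟩ := Nat.exists_eq_add_of_le hj
  have e0 : ∀ g : ℕ → ℕ, (∑ q ∈ range (j + t), (T q (g q) (g (q + 1)) : ℝ))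
      = ∑ q ∈ range j, (T q (g q) (g (q + 1)) : ℝ)
        + ∑ i ∈ range t, (T (j + i) (g (j + i)) (g (j + i + 1)) : ℝ) := fun g => by
    rw [sum_range_add]
  have e1 : (∑ q ∈ range j, (T q (c' q) (c' (q + 1)) : ℝ)) = D A T j (c j) := by
    rw [h3]
    push_cast
    refine sum_congr rfl fun q hq => ?_
    rw [mem_range] at hq
    have a1 : q ≤ j := by omega
    have a2 : q + 1 ≤ j := by omega
    simp only [hc', a1, a2, if_true]
  have e2 : (∑ i ∈ range t, (T (j + i) (c' (j + i)) (c' (j + i + 1)) : ℝ))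
      = ∑ i ∈ range t, (T (j + i) (c (j + i)) (c (j + i + 1)) : ℝ) := by
    refine sum_congr rfl fun i _ => ?_
    have a2 : ¬ j + i + 1 ≤ j := by omega
    have b2 : c' (j + i + 1) = c (j + i + 1) := by simp only [hc', a2, if_false]
    have b1 : c' (j + i) = c (j + i) := by
      rcases Nat.eq_zero_or_pos i with h | h
      · subst h
        simp only [hc', Nat.add_zero, le_refl, if_true, h1]
      · have a1 : ¬ j + i ≤ j := by omega
        simp only [hc', a1, if_false]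
    rw [b1, b2]
  rw [e0 c', e1, e2] at hm
  rw [e0 c]
  linarith

/-! ## the energy lemma for a minimising target -/

/-- A cut which is far from its target forces energy or growth; the target has a residual at most the
residual of the cut plus `r`, the prefix value is `1`-Lipschitz up to `e`. -/
theorem far_argmin {P E dr d F₀ θ w w' Φ Φ' δ σ e r : ℝ} (hδ : 0 < δ) (hσ : 0 < σ)
    (hσ1 : σ ≤ 1) (hδ1 : δ ≤ 1) (hF : 0 ≤ F₀) (hE : 0 ≤ E) (hP : P ≤ F₀ + max dr 0)
    (hθ : |θ| ≤ 1 - 4 * δ) (hw : |w - θ * P| ≤ Real.sqrt (P * E)) (hΦ : Φ ≤ P)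
    (hΦ' : P - dr - d ≤ Φ) (hd : 0 ≤ d) (he : 0 ≤ e) (hlip : |Φ - Φ'| ≤ |w - w'| + e)
    (hres : |w' - θ * Φ'| ≤ |w - θ * Φ| + r) (hsmall : 2 * d + e + r ≤ δ * σ * F₀)
    (hfar : σ * F₀ < |w - w'|) :
    δ ^ 2 * σ ^ 2 / 4 * F₀ ≤ E + max dr 0 := by
  set q := E + max dr 0 with hq
  have hm : 0 ≤ max dr 0 := le_max_right _ _
  have hq0 : 0 ≤ q := by positivity
  by_contra hcon
  push Not at hcon
  have h1' : δ ^ 2 ≤ 1 := by nlinarith
  have h2' : σ ^ 2 ≤ 1 := by nlinarith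
  have hqF : q ≤ F₀ := by
    have : δ ^ 2 * σ ^ 2 / 4 ≤ 1 := by nlinarith [sq_nonneg δ, sq_nonneg σ]
    nlinarith
  have h1 : |P - Φ| ≤ max dr 0 + d := by
    rw [abs_of_nonneg (by linarith)]
    have : dr ≤ max dr 0 := le_max_left _ _
    linarith
  have hθ1 : |θ| ≤ 1 := by linarith
  have h2 : |w - θ * Φ| ≤ Real.sqrt (P * E) + (max dr 0 + d) := by
    have : w - θ * Φ = (w - θ * P) + θ * (P - Φ) := by ring
    rw [this]
    refine (abs_add_le _ _).trans (add_le_add hw ?_)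
    rw [abs_mul]
    calc |θ| * |P - Φ| ≤ 1 * (max dr 0 + d) := by gcongr
      _ = _ := one_mul _
  have h3 : |w - w'| ≤ 2 * |w - θ * Φ| + r + |θ| * (|w - w'| + e) := by
    have : w - w' = (w - θ * Φ) - (w' - θ * Φ') + θ * (Φ - Φ') := by ring
    calc |w - w'| = |(w - θ * Φ) - (w' - θ * Φ') + θ * (Φ - Φ')| := by rw [← this]
      _ ≤ |(w - θ * Φ) - (w' - θ * Φ')| + |θ * (Φ - Φ')| := abs_add_le _ _
      _ ≤ (|w - θ * Φ| + |w' - θ * Φ'|) + |θ| * (|w - w'| + e) := by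
          refine add_le_add (abs_sub _ _) ?_
          rw [abs_mul]
          gcongr
      _ ≤ _ := by linarith
  have h4 : Real.sqrt (P * E) ≤ Real.sqrt (2 * F₀ * q) := by
    apply Real.sqrt_le_sqrt
    have hEq : E ≤ q := by linarith
    have hP2 : P ≤ 2 * F₀ := by
      have : max dr 0 ≤ q := by linarith
      linarith
    exact mul_le_mul hP2 hEq hE (by linarith)
  have h5 : q ≤ Real.sqrt (F₀ * q) :=
    Real.le_sqrt_of_sq_le (by rw [sq]; exact mul_le_mul_of_nonneg_right hqF hq0)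
  have h6 : Real.sqrt (2 * F₀ * q) ≤ (3 / 2) * Real.sqrt (F₀ * q) := by
    have h7 : 2 * F₀ * q = 2 * (F₀ * q) := by ring
    rw [h7, Real.sqrt_mul (by norm_num)]
    have : Real.sqrt 2 ≤ 3 / 2 := by
      rw [show (3 / 2 : ℝ) = Real.sqrt ((3 / 2) ^ 2) by rw [Real.sqrt_sq (by norm_num)]]
      apply Real.sqrt_le_sqrt
      norm_num
    exact mul_le_mul_of_nonneg_right this (Real.sqrt_nonneg _)
  have h8 : Real.sqrt (F₀ * q) ≤ δ * σ * F₀ / 2 := by
    rw [show δ * σ * F₀ / 2 = Real.sqrt ((δ * σ * F₀ / 2) ^ 2) by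
      rw [Real.sqrt_sq (by positivity)]]
    apply Real.sqrt_le_sqrt
    calc F₀ * q ≤ F₀ * (δ ^ 2 * σ ^ 2 / 4 * F₀) := by gcongr
      _ = _ := by ring
  have h9 : |w - θ * Φ| ≤ 5 / 4 * (δ * σ * F₀) + d := by
    have : max dr 0 ≤ q := by linarith
    linarith
  have h10 : |θ| * e ≤ e := by
    have := mul_le_mul_of_nonneg_right hθ1 he
    linarith
  have h11 : (1 - |θ|) * |w - w'| ≤ 7 / 2 * (δ * σ * F₀) := by
    nlinarith
  rcases hF.eq_or_lt with h0 | h0
  · rw [← h0] at hcon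
    simp only [mul_zero] at hcon
    linarith
  · have h12 : 0 < |w - w'| := lt_of_le_of_lt (by positivity) hfar
    have h13 : 4 * δ * |w - w'| ≤ (1 - |θ|) * |w - w'| :=
      mul_le_mul_of_nonneg_right (by linarith) h12.le
    have h14 : 4 * δ * (σ * F₀) ≤ 4 * δ * |w - w'| := by
      apply mul_le_mul_of_nonneg_left hfar.le (by positivity)
    have h15 : 0 < δ * σ * F₀ := by positivity
    nlinarith

/-- the linear form: small energy, growth and defect (`≤ s² F₀`, `s F₀`, `s F₀`) put the cut near its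
target -/
theorem near_lin {P E dr d F₀ θ w w' Φ Φ' δ σ s e r : ℝ} (hδ : 0 < δ) (hF : 0 ≤ F₀)
    (hE0 : 0 ≤ E) (hs : 0 ≤ s) (hs1 : s ≤ 1) (hE : E ≤ s ^ 2 * F₀) (hdr : dr ≤ s * F₀)
    (hd : d ≤ s * F₀) (hP : P ≤ F₀ + max dr 0)
    (hθ : |θ| ≤ 1 - 4 * δ) (hw : |w - θ * P| ≤ Real.sqrt (P * E)) (hΦ : Φ ≤ P)
    (hΦ' : P - dr - d ≤ Φ) (he : 0 ≤ e) (hlip : |Φ - Φ'| ≤ |w - w'| + e)
    (hres : |w' - θ * Φ'| ≤ |w - θ * Φ| + r) (hsmall : 7 * s * F₀ + e + r ≤ 4 * δ * σ * F₀) :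
    |w - w'| ≤ σ * F₀ := by
  have hsF : 0 ≤ s * F₀ := mul_nonneg hs hF
  have hdr' : max dr 0 ≤ s * F₀ := max_le hdr hsF
  have hsF1 : s * F₀ ≤ F₀ := by nlinarith
  have h1 : |P - Φ| ≤ s * F₀ + s * F₀ := by
    rw [abs_of_nonneg (by linarith)]
    linarith
  have hθ1 : |θ| ≤ 1 := by linarith
  have h4 : Real.sqrt (P * E) ≤ 3 / 2 * (s * F₀) := by
    rw [show 3 / 2 * (s * F₀) = Real.sqrt ((3 / 2 * (s * F₀)) ^ 2) by
      rw [Real.sqrt_sq (by positivity)]]
    apply Real.sqrt_le_sqrt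
    calc P * E ≤ (2 * F₀) * (s ^ 2 * F₀) := by
          refine mul_le_mul (by linarith) hE hE0 (by linarith)
      _ ≤ (3 / 2 * (s * F₀)) ^ 2 := by nlinarith [sq_nonneg (s * F₀)]
  have h2 : |w - θ * Φ| ≤ 7 / 2 * (s * F₀) := by
    have : w - θ * Φ = (w - θ * P) + θ * (P - Φ) := by ring
    rw [this]
    refine (abs_add_le _ _).trans ?_
    rw [abs_mul]
    have h5 : |θ| * |P - Φ| ≤ 1 * (s * F₀ + s * F₀) := by gcongr
    linarith
  have h3 : |w - w'| ≤ 2 * |w - θ * Φ| + r + |θ| * (|w - w'| + e) := by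
    have : w - w' = (w - θ * Φ) - (w' - θ * Φ') + θ * (Φ - Φ') := by ring
    calc |w - w'| = |(w - θ * Φ) - (w' - θ * Φ') + θ * (Φ - Φ')| := by rw [← this]
      _ ≤ |(w - θ * Φ) - (w' - θ * Φ')| + |θ * (Φ - Φ')| := abs_add_le _ _
      _ ≤ (|w - θ * Φ| + |w' - θ * Φ'|) + |θ| * (|w - w'| + e) := by
          refine add_le_add (abs_sub _ _) ?_
          rw [abs_mul]
          gcongr
      _ ≤ _ := by linarith
  have h10 : |θ| * e ≤ e := by
    have := mul_le_mul_of_nonneg_right hθ1 he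
    linarith
  have h11 : (1 - |θ|) * |w - w'| ≤ 4 * δ * σ * F₀ := by nlinarith
  have h13 : 4 * δ * |w - w'| ≤ (1 - |θ|) * |w - w'| :=
    mul_le_mul_of_nonneg_right (by linarith) (abs_nonneg _)
  have h14 : 4 * δ * |w - w'| ≤ 4 * δ * (σ * F₀) := by
    calc _ ≤ _ := h13
      _ ≤ _ := h11
      _ = _ := by ring
  exact le_of_mul_le_mul_left h14 (by positivity)

/-! ## index form -/

/-- energy of an index staircase: `f q` costs, `g q` displacements -/
noncomputable def EnI (N : ℕ) (f g : ℕ → ℝ) (θ : ℝ) : ℝ :=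
  ∑ q ∈ range N, f q * (g q / f q - θ) ^ 2

theorem sum_map_range (n : ℕ) (f : ℕ → ℝ) :
    ((List.range n).map f).sum = ∑ i ∈ range n, f i := by
  induction n with
  | zero => simp
  | succ n ih => rw [List.range_succ, List.map_append, List.sum_append, ih, sum_range_succ]; simp

theorem EnI_eq (N : ℕ) (f g : ℕ → ℝ) (θ : ℝ) :
    Ptw641.En (List.range N) g f θ = EnI N f g θ := by
  unfold Ptw641.En EnI
  exact sum_map_range N fun q => f q * (g q / f q - θ) ^ 2

theorem EnI_nonneg {N : ℕ} {f g : ℕ → ℝ} (θ : ℝ) (h : ∀ q < N, 0 ≤ f q) : 0 ≤ EnI N f g θ :=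
  sum_nonneg fun q hq => mul_nonneg (h q (mem_range.1 hq)) (sq_nonneg _)

theorem prefix_dev {N : ℕ} {f g : ℕ → ℝ} (θ : ℝ) (h : ∀ q < N, |g q| ≤ f q) {j : ℕ}
    (hj : j ≤ N) :
    |∑ q ∈ range j, g q - θ * ∑ q ∈ range j, f q|
      ≤ Real.sqrt ((∑ q ∈ range j, f q) * EnI N f g θ) := by
  obtain ⟨t, rfl⟩ := Nat.exists_eq_add_of_le hj
  have e : List.range (j + t) = List.range j ++ (List.range t).map (j + ·) := List.range_add ..
  have := Ptw641.prefix_dev (List.range j) ((List.range t).map (j + ·)) g f θ (by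
    intro a ha
    rw [← e] at ha
    exact h a (List.mem_range.1 ha))
  rw [← e, EnI_eq, sum_map_range, sum_map_range] at this
  exact this

/-- **near or far** for the index DP: `p q a` = position of letter `a` of cut `q`, `m'` = target
letter of cut `j` -/
theorem near_or_far {p : ℕ → ℕ → ℝ} {c : ℕ → ℕ} {F₀ e₀ d e r δ σ : ℝ} (hA : 0 < A)
    (hc : ∀ q < N, c q < A)
    (hd : ∀ q < N, |p (q + 1) (c (q + 1)) - p q (c q)| ≤ (T q (c q) (c (q + 1)) : ℝ))
    (hmin : ∀ c' : ℕ → ℕ, (∀ q < N, c' q < A) → c' N = c N →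
      F₀ ≤ (∑ q ∈ range N, (T q (c' q) (c' (q + 1)) : ℝ)) + d)
    (hF : 0 ≤ F₀) (hθ : |e₀ / F₀| ≤ 1 - 4 * δ) (hδ : 0 < δ) (hδ1 : δ ≤ 1) (hσ : 0 < σ)
    (hσ1 : σ ≤ 1) (hd0 : 0 ≤ d) (he : 0 ≤ e) {j : ℕ} (hj : j ≤ N) (m' : ℕ)
    (hlip : |(D A T j (c j) : ℝ) - D A T j m'| ≤ |p j (c j) - p j m'| + e)
    (hres : |p j m' - p 0 (c 0) - e₀ / F₀ * D A T j m'|
      ≤ |p j (c j) - p 0 (c 0) - e₀ / F₀ * D A T j (c j)| + r)
    (hsmall : 2 * d + e + r ≤ δ * σ * F₀) :
    |p j (c j) - p j m'| ≤ σ * F₀ ∨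
      δ ^ 2 * σ ^ 2 / 4 * F₀ ≤
        EnI N (fun q => (T q (c q) (c (q + 1)) : ℝ))
            (fun q => p (q + 1) (c (q + 1)) - p q (c q)) (e₀ / F₀)
          + max ((∑ q ∈ range N, (T q (c q) (c (q + 1)) : ℝ)) - F₀) 0 := by
  by_cases hfar : |p j (c j) - p j m'| ≤ σ * F₀
  · exact Or.inl hfar
  right
  push Not at hfar
  set f : ℕ → ℝ := fun q => (T q (c q) (c (q + 1)) : ℝ) with hf
  set g : ℕ → ℝ := fun q => p (q + 1) (c (q + 1)) - p q (c q) with hg
  have hf0 : ∀ q, 0 ≤ f q := fun q => Nat.cast_nonneg _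
  have hdev := prefix_dev (N := N) (f := f) (g := g) (e₀ / F₀) hd hj
  have htel : ∑ q ∈ range j, g q = p j (c j) - p 0 (c 0) :=
    sum_range_sub (fun q => p q (c q)) j
  rw [htel] at hdev
  have hsub : ∑ q ∈ range j, f q ≤ ∑ q ∈ range N, f q :=
    sum_le_sum_of_subset_of_nonneg (range_subset_range.2 hj) fun q _ _ => hf0 q
  have hDle : (D A T j (c j) : ℝ) ≤ ∑ q ∈ range j, f q := by
    have := D_le (T := T) c j fun q hq => hc q (by omega)
    calc (D A T j (c j) : ℝ) ≤ ((∑ q ∈ range j, T q (c q) (c (q + 1)) : ℕ) : ℝ) := by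
          exact_mod_cast this
      _ = _ := by push_cast; rfl
  have hpaste := D_paste (T := T) hA hc hmin hj
  have e1 : p j (c j) - p 0 (c 0) - (p j m' - p 0 (c 0)) = p j (c j) - p j m' := by ring
  refine far_argmin (P := ∑ q ∈ range j, f q) (w := p j (c j) - p 0 (c 0))
    (w' := p j m' - p 0 (c 0)) (Φ := D A T j (c j)) (Φ' := D A T j m') (d := d) (e := e) (r := r)
    (θ := e₀ / F₀) (dr := (∑ q ∈ range N, f q) - F₀)
    hδ hσ hσ1 hδ1 hF (EnI_nonneg _ fun q _ => hf0 q) ?_ hθ hdev hDle ?_ hd0 he ?_ hres hsmall ?_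
  · have : (∑ q ∈ range N, f q) - F₀ ≤ max ((∑ q ∈ range N, f q) - F₀) 0 := le_max_left _ _
    linarith
  · exact hpaste
  · rw [e1]; exact hlip
  · rw [e1]; exact hfar

/-- **near** for the index DP: good window -/
theorem near_good {p : ℕ → ℕ → ℝ} {c : ℕ → ℕ} {F₀ e₀ d e r δ σ s : ℝ} (hA : 0 < A)
    (hc : ∀ q < N, c q < A)
    (hd : ∀ q < N, |p (q + 1) (c (q + 1)) - p q (c q)| ≤ (T q (c q) (c (q + 1)) : ℝ))
    (hmin : ∀ c' : ℕ → ℕ, (∀ q < N, c' q < A) → c' N = c N →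
      F₀ ≤ (∑ q ∈ range N, (T q (c' q) (c' (q + 1)) : ℝ)) + d)
    (hF : 0 ≤ F₀) (hθ : |e₀ / F₀| ≤ 1 - 4 * δ) (hδ : 0 < δ) (hs : 0 ≤ s) (hs1 : s ≤ 1)
    (hE : EnI N (fun q => (T q (c q) (c (q + 1)) : ℝ))
      (fun q => p (q + 1) (c (q + 1)) - p q (c q)) (e₀ / F₀) ≤ s ^ 2 * F₀)
    (hdr : (∑ q ∈ range N, (T q (c q) (c (q + 1)) : ℝ)) - F₀ ≤ s * F₀) (hds : d ≤ s * F₀)
    (he : 0 ≤ e) {j : ℕ} (hj : j ≤ N) (m' : ℕ)
    (hlip : |(D A T j (c j) : ℝ) - D A T j m'| ≤ |p j (c j) - p j m'| + e)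
    (hres : |p j m' - p 0 (c 0) - e₀ / F₀ * D A T j m'|
      ≤ |p j (c j) - p 0 (c 0) - e₀ / F₀ * D A T j (c j)| + r)
    (hsmall : 7 * s * F₀ + e + r ≤ 4 * δ * σ * F₀) :
    |p j (c j) - p j m'| ≤ σ * F₀ := by
  set f : ℕ → ℝ := fun q => (T q (c q) (c (q + 1)) : ℝ) with hf
  set g : ℕ → ℝ := fun q => p (q + 1) (c (q + 1)) - p q (c q) with hg
  have hf0 : ∀ q, 0 ≤ f q := fun q => Nat.cast_nonneg _
  have hdev := prefix_dev (N := N) (f := f) (g := g) (e₀ / F₀) hd hj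
  have htel : ∑ q ∈ range j, g q = p j (c j) - p 0 (c 0) :=
    sum_range_sub (fun q => p q (c q)) j
  rw [htel] at hdev
  have hsub : ∑ q ∈ range j, f q ≤ ∑ q ∈ range N, f q :=
    sum_le_sum_of_subset_of_nonneg (range_subset_range.2 hj) fun q _ _ => hf0 q
  have hDle : (D A T j (c j) : ℝ) ≤ ∑ q ∈ range j, f q := by
    have := D_le (T := T) c j fun q hq => hc q (by omega)
    calc (D A T j (c j) : ℝ) ≤ ((∑ q ∈ range j, T q (c q) (c (q + 1)) : ℕ) : ℝ) := by
          exact_mod_cast this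
      _ = _ := by push_cast; rfl
  have hpaste := D_paste (T := T) hA hc hmin hj
  have e1 : p j (c j) - p 0 (c 0) - (p j m' - p 0 (c 0)) = p j (c j) - p j m' := by ring
  have main := near_lin (P := ∑ q ∈ range j, f q) (w := p j (c j) - p 0 (c 0))
    (w' := p j m' - p 0 (c 0)) (Φ := D A T j (c j)) (Φ' := D A T j m') (d := d) (e := e) (r := r)
    (θ := e₀ / F₀) (dr := (∑ q ∈ range N, f q) - F₀) (σ := σ) (s := s)
    hδ hF (EnI_nonneg _ fun q _ => hf0 q) hs hs1 hE hdr hds (by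
      have : (∑ q ∈ range N, f q) - F₀ ≤ max ((∑ q ∈ range N, f q) - F₀) 0 := le_max_left _ _
      linarith) hθ hdev hDle hpaste he (by rw [e1]; exact hlip) hres hsmall
  rwa [e1] at main

/-- the prefix DP inherits the Lipschitz property of the last piece (factor `1+ζ`, constant `C`) -/
theorem D_lip {p : ℕ → ℕ → ℝ} {ζ C : ℝ} (hA : 0 < A) (hζ : 0 ≤ ζ) (hC : 0 ≤ C) {j : ℕ} {b b' : ℕ}
    (hT : ∀ a < A, ∀ i, j = i + 1 →
      (T i a b : ℝ) ≤ (1 + ζ) * (T i a b' + |p j b - p j b'|) + C) :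
    (D A T j b : ℝ) ≤ (1 + ζ) * (D A T j b' + |p j b - p j b'|) + C := by
  cases j with
  | zero =>
    simp only [D, Nat.cast_zero, zero_add]
    positivity
  | succ j =>
    obtain ⟨a, ha, h⟩ := minR_att (fun a => D A T j a + T j a b') hA
    have h1 : D A T (j + 1) b ≤ D A T j a + T j a b := minR_le (fun a => D A T j a + T j a b) ha
    have h2 : D A T (j + 1) b' = D A T j a + T j a b' := h
    have h3 := hT a ha j rfl
    have h1' : (D A T (j + 1) b : ℝ) ≤ D A T j a + T j a b := by exact_mod_cast h1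
    rw [h2]
    push_cast
    have h4 : (0 : ℝ) ≤ D A T j a := Nat.cast_nonneg _
    have h5 : 0 ≤ ζ * (D A T j a : ℝ) := mul_nonneg hζ h4
    nlinarith

/-- **near or far** with the Lipschitz property `F ≤ (1+ζ)(F' + dist) + C` -/
theorem near_or_far_lip {p : ℕ → ℕ → ℝ} {c : ℕ → ℕ} {F₀ e₀ d W ζ C r δ σ : ℝ} (hA : 0 < A)
    (hc : ∀ q < N, c q < A)
    (hd : ∀ q < N, |p (q + 1) (c (q + 1)) - p q (c q)| ≤ (T q (c q) (c (q + 1)) : ℝ))
    (hmin : ∀ c' : ℕ → ℕ, (∀ q < N, c' q < A) → c' N = c N →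
      F₀ ≤ (∑ q ∈ range N, (T q (c' q) (c' (q + 1)) : ℝ)) + d)
    (hF : 0 ≤ F₀) (hθ : |e₀ / F₀| ≤ 1 - 4 * δ) (hδ : 0 < δ) (hδ1 : δ ≤ 1) (hσ : 0 < σ)
    (hσ1 : σ ≤ 1) (hd0 : 0 ≤ d) (hζ : 0 ≤ ζ) (hζ1 : ζ ≤ 1) (hC : 0 ≤ C) {j : ℕ} (hj : j < N)
    (m' : ℕ) (hm' : m' < A)
    (hT : ∀ i, j = i + 1 → ∀ a < A, ∀ b < A, ∀ b' < A,
      (T i a b : ℝ) ≤ (1 + ζ) * (T i a b' + |p j b - p j b'|) + C)
    (hW : |p j (c j) - p j m'| ≤ W)
    (hres : |p j m' - p 0 (c 0) - e₀ / F₀ * D A T j m'|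
      ≤ |p j (c j) - p 0 (c 0) - e₀ / F₀ * D A T j (c j)| + r)
    (hsmall : 2 * d + (ζ * (4 * F₀ + 3 * W) + 2 * C) + r ≤ δ * σ * F₀) :
    |p j (c j) - p j m'| ≤ σ * F₀ ∨
      δ ^ 2 * σ ^ 2 / 4 * F₀ ≤
        EnI N (fun q => (T q (c q) (c (q + 1)) : ℝ))
            (fun q => p (q + 1) (c (q + 1)) - p q (c q)) (e₀ / F₀)
          + max ((∑ q ∈ range N, (T q (c q) (c (q + 1)) : ℝ)) - F₀) 0 := by
  have hW0 : 0 ≤ W := (abs_nonneg _).trans hW
  by_cases hbig : 2 * F₀ ≤ ∑ q ∈ range N, (T q (c q) (c (q + 1)) : ℝ)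
  · right
    have h1 : F₀ ≤ max ((∑ q ∈ range N, (T q (c q) (c (q + 1)) : ℝ)) - F₀) 0 :=
      le_trans (by linarith) (le_max_left _ _)
    have h2 : 0 ≤ EnI N (fun q => (T q (c q) (c (q + 1)) : ℝ))
        (fun q => p (q + 1) (c (q + 1)) - p q (c q)) (e₀ / F₀) :=
      EnI_nonneg _ fun q _ => Nat.cast_nonneg _
    have h3 : δ ^ 2 * σ ^ 2 / 4 ≤ 1 := by
      have h1' : δ ^ 2 ≤ 1 := by nlinarith
      have h2' : σ ^ 2 ≤ 1 := by nlinarith
      nlinarith [sq_nonneg δ, sq_nonneg σ]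
    nlinarith
  push Not at hbig
  have hcj := hc j hj
  have hΦ : (D A T j (c j) : ℝ) ≤ 2 * F₀ := by
    have h1 := D_le (T := T) c j fun q hq => hc q (by omega)
    have h2 : (D A T j (c j) : ℝ) ≤ ∑ q ∈ range j, (T q (c q) (c (q + 1)) : ℝ) := by
      calc (D A T j (c j) : ℝ) ≤ ((∑ q ∈ range j, T q (c q) (c (q + 1)) : ℕ) : ℝ) := by
            exact_mod_cast h1
        _ = _ := by push_cast; rfl
    have h3 : ∑ q ∈ range j, (T q (c q) (c (q + 1)) : ℝ)
        ≤ ∑ q ∈ range N, (T q (c q) (c (q + 1)) : ℝ) :=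
      sum_le_sum_of_subset_of_nonneg (range_subset_range.2 hj.le) fun q _ _ => Nat.cast_nonneg _
    linarith
  have hl1 := D_lip (T := T) (p := p) hA hζ hC (j := j) (b := c j) (b' := m')
    fun a ha i hi => hT i hi a ha _ hcj _ hm'
  have hl2 := D_lip (T := T) (p := p) hA hζ hC (j := j) (b := m') (b' := c j)
    fun a ha i hi => hT i hi a ha _ hm' _ hcj
  rw [abs_sub_comm (p j m')] at hl2
  have hD0 : (0 : ℝ) ≤ D A T j (c j) := Nat.cast_nonneg _
  have hw0 := abs_nonneg (p j (c j) - p j m')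
  have hΦ' : (D A T j m' : ℝ) ≤ 2 * (2 * F₀ + W) + C := by
    have h4 : (1 + ζ) * ((D A T j (c j) : ℝ) + |p j (c j) - p j m'|) ≤ 2 * (2 * F₀ + W) :=
      mul_le_mul (by linarith) (by linarith) (by linarith) (by norm_num)
    linarith
  have he0 : 0 ≤ ζ * (4 * F₀ + 3 * W) + 2 * C := by positivity
  refine near_or_far (e := ζ * (4 * F₀ + 3 * W) + 2 * C) hA hc hd hmin hF hθ hδ hδ1 hσ hσ1 hd0
    he0 hj.le m' ?_ hres hsmall
  have ha : ζ * ((D A T j m' : ℝ) + |p j (c j) - p j m'|) ≤ ζ * (4 * F₀ + 3 * W + C) :=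
    mul_le_mul_of_nonneg_left (by linarith) hζ
  have hb : ζ * ((D A T j (c j) : ℝ) + |p j (c j) - p j m'|) ≤ ζ * (4 * F₀ + 3 * W + C) :=
    mul_le_mul_of_nonneg_left (by linarith) hζ
  have hc' : ζ * (4 * F₀ + 3 * W + C) ≤ ζ * (4 * F₀ + 3 * W) + C := by nlinarith
  rw [abs_sub_le_iff]
  constructor <;> linarith

/-- **near**, good window, with the Lipschitz property `F ≤ (1+ζ)(F' + dist) + C` -/
theorem near_good_lip {p : ℕ → ℕ → ℝ} {c : ℕ → ℕ} {F₀ e₀ d W ζ C r δ σ s : ℝ} (hA : 0 < A)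
    (hc : ∀ q < N, c q < A)
    (hd : ∀ q < N, |p (q + 1) (c (q + 1)) - p q (c q)| ≤ (T q (c q) (c (q + 1)) : ℝ))
    (hmin : ∀ c' : ℕ → ℕ, (∀ q < N, c' q < A) → c' N = c N →
      F₀ ≤ (∑ q ∈ range N, (T q (c' q) (c' (q + 1)) : ℝ)) + d)
    (hF : 0 ≤ F₀) (hθ : |e₀ / F₀| ≤ 1 - 4 * δ) (hδ : 0 < δ) (hs : 0 ≤ s) (hs1 : s ≤ 1)
    (hE : EnI N (fun q => (T q (c q) (c (q + 1)) : ℝ))
      (fun q => p (q + 1) (c (q + 1)) - p q (c q)) (e₀ / F₀) ≤ s ^ 2 * F₀)
    (hdr : (∑ q ∈ range N, (T q (c q) (c (q + 1)) : ℝ)) - F₀ ≤ s * F₀) (hds : d ≤ s * F₀)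
    (hζ : 0 ≤ ζ) (hζ1 : ζ ≤ 1) (hC : 0 ≤ C) {j : ℕ} (hj : j < N)
    (m' : ℕ) (hm' : m' < A)
    (hT : ∀ i, j = i + 1 → ∀ a < A, ∀ b < A, ∀ b' < A,
      (T i a b : ℝ) ≤ (1 + ζ) * (T i a b' + |p j b - p j b'|) + C)
    (hW : |p j (c j) - p j m'| ≤ W)
    (hres : |p j m' - p 0 (c 0) - e₀ / F₀ * D A T j m'|
      ≤ |p j (c j) - p 0 (c 0) - e₀ / F₀ * D A T j (c j)| + r)
    (hsmall : 7 * s * F₀ + (ζ * (4 * F₀ + 3 * W) + 2 * C) + r ≤ 4 * δ * σ * F₀) :
    |p j (c j) - p j m'| ≤ σ * F₀ := by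
  have hW0 : 0 ≤ W := (abs_nonneg _).trans hW
  have hcj := hc j hj
  have hsF : s * F₀ ≤ F₀ := by nlinarith
  have hΦ : (D A T j (c j) : ℝ) ≤ 2 * F₀ := by
    have h1 := D_le (T := T) c j fun q hq => hc q (by omega)
    have h2 : (D A T j (c j) : ℝ) ≤ ∑ q ∈ range j, (T q (c q) (c (q + 1)) : ℝ) := by
      calc (D A T j (c j) : ℝ) ≤ ((∑ q ∈ range j, T q (c q) (c (q + 1)) : ℕ) : ℝ) := by
            exact_mod_cast h1
        _ = _ := by push_cast; rfl
    have h3 : ∑ q ∈ range j, (T q (c q) (c (q + 1)) : ℝ)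
        ≤ ∑ q ∈ range N, (T q (c q) (c (q + 1)) : ℝ) :=
      sum_le_sum_of_subset_of_nonneg (range_subset_range.2 hj.le) fun q _ _ => Nat.cast_nonneg _
    linarith
  have hl1 := D_lip (T := T) (p := p) hA hζ hC (j := j) (b := c j) (b' := m')
    fun a ha i hi => hT i hi a ha _ hcj _ hm'
  have hl2 := D_lip (T := T) (p := p) hA hζ hC (j := j) (b := m') (b' := c j)
    fun a ha i hi => hT i hi a ha _ hm' _ hcj
  rw [abs_sub_comm (p j m')] at hl2
  have hD0 : (0 : ℝ) ≤ D A T j (c j) := Nat.cast_nonneg _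
  have hw0 := abs_nonneg (p j (c j) - p j m')
  have hΦ' : (D A T j m' : ℝ) ≤ 2 * (2 * F₀ + W) + C := by
    have h4 : (1 + ζ) * ((D A T j (c j) : ℝ) + |p j (c j) - p j m'|) ≤ 2 * (2 * F₀ + W) :=
      mul_le_mul (by linarith) (by linarith) (by linarith) (by norm_num)
    linarith
  have he0 : 0 ≤ ζ * (4 * F₀ + 3 * W) + 2 * C := by positivity
  refine near_good (e := ζ * (4 * F₀ + 3 * W) + 2 * C) hA hc hd hmin hF hθ hδ hs hs1 hE hdr hds
    he0 hj.le m' ?_ hres hsmall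
  have ha : ζ * ((D A T j m' : ℝ) + |p j (c j) - p j m'|) ≤ ζ * (4 * F₀ + 3 * W + C) :=
    mul_le_mul_of_nonneg_left (by linarith) hζ
  have hb : ζ * ((D A T j (c j) : ℝ) + |p j (c j) - p j m'|) ≤ ζ * (4 * F₀ + 3 * W + C) :=
    mul_le_mul_of_nonneg_left (by linarith) hζ
  have hc' : ζ * (4 * F₀ + 3 * W + C) ≤ ζ * (4 * F₀ + 3 * W) + C := by nlinarith
  rw [abs_sub_le_iff]
  constructor <;> linarith

/-! ## the instance for AlgA_45 -/

section AlgA

variable (P : Par) (F : St → ℕ) (κ : ℕ) (x : St)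

theorem WA_pos : 0 < WA P κ := by unfold WA; omega

theorem tgt_lt (j : ℕ) : tgt P F κ x j < WA P κ := argR_lt _ (WA_pos P κ)

/-- the defining property of the target -/
theorem tgt_min (hx : 0 < F x) {j a : ℕ} (ha : a < WA P κ) :
    |(pos P κ x (tgt P F κ x j) : ℝ) - x.u - ((x.v : ℝ) - x.u) / F x *
        D (WA P κ) (fun q a b => F (piece P κ x q a b)) j (tgt P F κ x j)|
      ≤ |(pos P κ x a : ℝ) - x.u - ((x.v : ℝ) - x.u) / F x *
        D (WA P κ) (fun q a b => F (piece P κ x q a b)) j a| := by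
  have key : ∀ b, |(pos P κ x b : ℝ) - x.u - ((x.v : ℝ) - x.u) / F x *
      D (WA P κ) (fun q a b => F (piece P κ x q a b)) j b| =
      (((pos P κ x b - x.u) * F x
      - (x.v - x.u) * (D (WA P κ) (fun q a b => F (piece P κ x q a b)) j b : ℤ)).natAbs : ℝ)
        / F x := by
    intro b
    have hF : (0 : ℝ) < F x := by exact_mod_cast hx
    rw [Nat.cast_natAbs]
    push_cast
    rw [eq_div_iff hF.ne', ← abs_of_pos hF, ← abs_mul, abs_of_pos hF]
    congr 1
    field_simp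
  rw [key, key]
  have h := argR_le (n := WA P κ) (fun a => ((pos P κ x a - x.u) * F x
      - (x.v - x.u) * (D (WA P κ) (fun q a b => F (piece P κ x q a b)) j a : ℤ)).natAbs) ha
  have h' : ((((pos P κ x (tgt P F κ x j) - x.u) * F x
      - (x.v - x.u) * (D (WA P κ) (fun q a b => F (piece P κ x q a b)) j (tgt P F κ x j) : ℤ)).natAbs
        : ℕ) : ℝ) ≤ ((((pos P κ x a - x.u) * F x
      - (x.v - x.u) * (D (WA P κ) (fun q a b => F (piece P κ x q a b)) j a : ℤ)).natAbs : ℕ) : ℝ) := by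
    exact_mod_cast h
  gcongr

/-- energy and growth of the staircase `c` of `x` -/
noncomputable def enr (c : ℕ → ℕ) : ℝ :=
  EnI P.N (fun q => (F (piece P κ x q (c q) (c (q + 1))) : ℝ))
    (fun q => (cut P κ x (q + 1) (c (q + 1)) : ℝ) - cut P κ x q (c q)) (((x.v : ℝ) - x.u) / F x)

theorem clp_lip (u v : ℤ) : |(clp P u : ℝ) - clp P v| ≤ |(u : ℝ) - v| := by
  have h : |clp P u - clp P v| ≤ |u - v| := by
    unfold clp
    rw [abs_le]
    have := neg_abs_le (u - v)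
    have := le_abs_self (u - v)
    omega
  exact_mod_cast h

/-- the position of a letter before the cut at `whi` -/
def raw (a : ℕ) : ℤ := wlo P κ x + a * (gst P κ : ℤ)

theorem pos_eq (a : ℕ) : pos P κ x a = min (whi P κ x) (raw P κ x a) := rfl

theorem pos_eq_raw {a : ℕ} (h : raw P κ x a ≤ whi P κ x) : pos P κ x a = raw P κ x a := by
  rw [pos_eq]; exact min_eq_right h

theorem raw_sub (a b : ℕ) : (raw P κ x a : ℝ) - raw P κ x b = ((a : ℝ) - b) * gst P κ := by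
  unfold raw; push_cast; ring

theorem pos_lip (a b : ℕ) :
    |(pos P κ x a : ℝ) - pos P κ x b| ≤ |((a : ℝ) - b) * gst P κ| := by
  rw [← raw_sub P κ x a b]
  have h : |pos P κ x a - pos P κ x b| ≤ |raw P κ x a - raw P κ x b| := by
    rw [pos_eq, pos_eq, abs_le]
    have := neg_abs_le (raw P κ x a - raw P κ x b)
    have := le_abs_self (raw P κ x a - raw P κ x b)
    omega
  exact_mod_cast h

theorem gst_mul_gpt : gst P κ * gpt P κ = 2 ^ κ := by
  unfold gst gpt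
  rw [← pow_add]
  congr 1
  omega

theorem gst_pos : 0 < gst P κ := by unfold gst; positivity

theorem gst_le : gst P κ ≤ 2 ^ κ := by
  unfold gst
  exact Nat.pow_le_pow_right (by norm_num) (Nat.sub_le _ _)

theorem pos_width {W : ℝ} (hW : 2 * (P.r : ℝ) * 2 ^ κ ≤ W) :
    ∀ a < WA P κ, ∀ b < WA P κ, |(pos P κ x a : ℝ) - pos P κ x b| ≤ W := by
  have hg : ∀ a < WA P κ, (a : ℝ) * gst P κ ≤ 2 * P.r * 2 ^ κ := by
    intro a ha
    have ha' : a ≤ 2 * P.r * gpt P κ := by unfold WA at ha; omega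
    have : a * gst P κ ≤ 2 * P.r * 2 ^ κ := by
      calc a * gst P κ ≤ 2 * P.r * gpt P κ * gst P κ := Nat.mul_le_mul_right _ ha'
        _ = 2 * P.r * (gst P κ * gpt P κ) := by ring
        _ = 2 * P.r * 2 ^ κ := by rw [gst_mul_gpt]
    exact_mod_cast this
  intro a ha b hb
  refine (pos_lip P κ x a b).trans ?_
  have h1 := hg a ha
  have h2 := hg b hb
  have h3 : (0 : ℝ) ≤ (a : ℝ) * gst P κ := by positivity
  have h4 : (0 : ℝ) ≤ (b : ℝ) * gst P κ := by positivity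
  rw [sub_mul, abs_le]
  constructor <;> linarith

theorem pos_mem (h : wlo P κ x ≤ whi P κ x) (a : ℕ) :
    wlo P κ x ≤ pos P κ x a ∧ pos P κ x a ≤ whi P κ x := by
  have h1 : (0 : ℤ) ≤ (a : ℤ) * (gst P κ : ℤ) := by positivity
  rw [pos_eq]
  unfold raw
  constructor
  · exact le_min h (by omega)
  · exact min_le_left _ _

/-- the ends of the window are in order -/
theorem wlo_le_whi (hu : x.u.natAbs ≤ P.Dm) (hr : 1 ≤ P.r) : wlo P κ x ≤ whi P κ x := by
  have hg : (0 : ℤ) < (gst P κ : ℤ) := by exact_mod_cast gst_pos P κ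
  have hgk : (gst P κ : ℤ) ≤ 2 ^ κ := by exact_mod_cast gst_le P κ
  have h1 : rd P κ x.u ≤ x.u := Int.ediv_mul_le _ hg.ne'
  have h2 : x.u < rd P κ x.u + gst P κ := by
    have := Int.lt_ediv_add_one_mul_self x.u hg
    unfold rd
    linarith
  have h3 : (2 : ℤ) ^ κ ≤ P.r * 2 ^ κ := by
    have hr' : (1 : ℤ) ≤ P.r := by exact_mod_cast hr
    have : (0 : ℤ) ≤ 2 ^ κ := by positivity
    nlinarith
  unfold wlo whi
  omega

/-- the length of the window is a multiple of the step -/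
theorem dvd_whi_sub_wlo (h : gst P κ ∣ P.Dm) : (gst P κ : ℤ) ∣ whi P κ x - wlo P κ x := by
  have h1 : (gst P κ : ℤ) ∣ (P.Dm : ℤ) := by exact_mod_cast h
  have h2 : (gst P κ : ℤ) ∣ P.r * 2 ^ κ := by
    have : gst P κ ∣ 2 ^ κ := ⟨gpt P κ, (gst_mul_gpt P κ).symm⟩
    exact Dvd.dvd.mul_left (by exact_mod_cast this) _
  have h3 : (gst P κ : ℤ) ∣ rd P κ x.u := Dvd.intro_left _ rfl
  have h4 : (gst P κ : ℤ) ∣ whi P κ x := by
    unfold whi
    rcases min_choice (P.Dm : ℤ) (rd P κ x.u + P.r * 2 ^ κ) with h | h <;> rw [h]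
    · exact h1
    · exact dvd_add h3 h2
  have h5 : (gst P κ : ℤ) ∣ wlo P κ x := by
    unfold wlo
    rcases max_choice (-(P.Dm : ℤ)) (rd P κ x.u - P.r * 2 ^ κ) with h | h <;> rw [h]
    · exact (dvd_neg).2 h1
    · exact dvd_sub h3 h2
  exact dvd_sub h4 h5

/-- the first letter at `whi` -/
theorem exists_whi (hw : wlo P κ x ≤ whi P κ x) (hdv : (gst P κ : ℤ) ∣ whi P κ x - wlo P κ x) :
    ∃ s : ℕ, raw P κ x s = whi P κ x := by
  obtain ⟨k, hk⟩ := hdv
  have hg : (0 : ℤ) < (gst P κ : ℤ) := by exact_mod_cast gst_pos P κ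
  have hk0 : 0 ≤ k := by
    by_contra hc
    push Not at hc
    nlinarith
  refine ⟨k.toNat, ?_⟩
  unfold raw
  rw [Int.toNat_of_nonneg hk0, mul_comm]
  omega

/-- the first representative of the position of a letter -/
theorem exists_first (hw : wlo P κ x ≤ whi P κ x) (hdv : (gst P κ : ℤ) ∣ whi P κ x - wlo P κ x)
    (a : ℕ) : ∃ s ≤ a, raw P κ x s ≤ whi P κ x ∧ pos P κ x s = pos P κ x a ∧
      (raw P κ x a ≤ whi P κ x → s = a) := by
  have hg : (0 : ℤ) < (gst P κ : ℤ) := by exact_mod_cast gst_pos P κ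
  rcases le_or_gt (raw P κ x a) (whi P κ x) with h | h
  · exact ⟨a, le_rfl, h, rfl, fun _ => rfl⟩
  · obtain ⟨s, hs⟩ := exists_whi P κ x hw hdv
    have hsa : s ≤ a := by
      by_contra hc
      push Not at hc
      have : (a : ℤ) * (gst P κ : ℤ) ≤ s * (gst P κ : ℤ) :=
        mul_le_mul_of_nonneg_right (by exact_mod_cast hc.le) hg.le
      unfold raw at hs h
      omega
    refine ⟨s, hsa, hs.le, ?_, fun hc => absurd hc (not_le.2 h)⟩
    rw [pos_eq, pos_eq, hs, min_self, min_eq_left h.le]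

/-- the prefix DP depends on the letter only through its position -/
theorem D_pos {j a b : ℕ} (h : pos P κ x a = pos P κ x b) :
    D (WA P κ) (fun q a b => F (piece P κ x q a b)) j a
      = D (WA P κ) (fun q a b => F (piece P κ x q a b)) j b := by
  cases j with
  | zero => rfl
  | succ j =>
    have hcut : cut P κ x (j + 1) a = cut P κ x (j + 1) b := by unfold cut; rw [h]
    simp only [D, piece, hcut]

/-- the target letter is the first representative of its position -/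
theorem raw_tgt_le (hw : wlo P κ x ≤ whi P κ x)
    (hdv : (gst P κ : ℤ) ∣ whi P κ x - wlo P κ x) (j : ℕ) :
    raw P κ x (tgt P F κ x j) ≤ whi P κ x := by
  by_contra hc
  obtain ⟨s, hs, hs1, hs2, -⟩ := exists_first P κ x hw hdv (tgt P F κ x j)
  have hne : s ≠ tgt P F κ x j := by rintro rfl; exact hc hs1
  have hlt : s < tgt P F κ x j := lt_of_le_of_ne hs hne
  have h := argR_first _ hlt
  rw [show argR (WA P κ) (fun a => ((pos P κ x a - x.u) * F x
      - (x.v - x.u) * (D (WA P κ) (fun q a b => F (piece P κ x q a b)) j a : ℤ)).natAbs)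
      = tgt P F κ x j from rfl, hs2, D_pos P F κ x hs2] at h
  exact lt_irrefl _ h

theorem cut_eq_pos {j : ℕ} (h0 : 0 < j) (hj : j < P.N) (a : ℕ) :
    cut P κ x j a = pos P κ x a := by
  have h1 : j ≠ 0 := by omega
  have h2 : j ≠ P.N := by omega
  simp [cut, h1, h2]

/-- **THE PLAN, near or far**: for every grid staircase `c` all its cuts are near the targets, or the
window pays energy / growth. -/
theorem tgt_near_or_far {c : ℕ → ℕ} {d ζ C δ σ W : ℝ} (hx : 0 < F x)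
    (hc : ∀ q < P.N, c q < WA P κ)
    (hd : ∀ q < P.N, |(cut P κ x (q + 1) (c (q + 1)) : ℝ) - cut P κ x q (c q)|
      ≤ (F (piece P κ x q (c q) (c (q + 1))) : ℝ))
    (hmin : ∀ c' : ℕ → ℕ, (∀ q < P.N, c' q < WA P κ) →
      (F x : ℝ) ≤ (∑ q ∈ range P.N, (F (piece P κ x q (c' q) (c' (q + 1))) : ℝ)) + d)
    (hθ : |(x.v : ℝ) - x.u| ≤ (1 - 4 * δ) * F x) (hδ : 0 < δ) (hδ1 : δ ≤ 1) (hσ : 0 < σ)
    (hσ1 : σ ≤ 1) (hd0 : 0 ≤ d) (hζ : 0 ≤ ζ) (hζ1 : ζ ≤ 1) (hC : 0 ≤ C)
    (hT : ∀ q, q + 1 < P.N → ∀ a < WA P κ, ∀ b < WA P κ, ∀ b' < WA P κ,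
      (F (piece P κ x q a b) : ℝ) ≤ (1 + ζ) * (F (piece P κ x q a b')
        + |(pos P κ x b : ℝ) - pos P κ x b'|) + C)
    (hW : 2 * (P.r : ℝ) * 2 ^ κ ≤ W)
    (hsmall : 2 * d + (ζ * (4 * F x + 3 * W) + 2 * C) ≤ δ * σ * F x) :
    (∀ j, 0 < j → j < P.N →
      |(pos P κ x (c j) : ℝ) - pos P κ x (tgt P F κ x j)| ≤ σ * F x) ∨
    δ ^ 2 * σ ^ 2 / 4 * F x ≤ enr P F κ x c
      + max ((∑ q ∈ range P.N, (F (piece P κ x q (c q) (c (q + 1))) : ℝ)) - F x) 0 := by
  by_cases hfar : δ ^ 2 * σ ^ 2 / 4 * F x ≤ enr P F κ x c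
      + max ((∑ q ∈ range P.N, (F (piece P κ x q (c q) (c (q + 1))) : ℝ)) - F x) 0
  · exact Or.inr hfar
  left
  intro j hj0 hj
  have hF : (0 : ℝ) < F x := by exact_mod_cast hx
  have hcut := cut_eq_pos P κ x hj0 hj
  have hcut0 : ∀ a, cut P κ x 0 a = x.u := by intro a; simp [cut]
  have hWd := pos_width P κ x hW
  have hcj := hc j hj
  have htg := tgt_lt P F κ x j
  have main := near_or_far_lip (N := P.N) (A := WA P κ)
    (T := fun q a b => F (piece P κ x q a b)) (p := fun q a => (cut P κ x q a : ℝ)) (c := c)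
    (F₀ := F x) (e₀ := (x.v : ℝ) - x.u) (d := d) (W := W) (ζ := ζ) (C := C) (r := 0) (δ := δ)
    (σ := σ) (WA_pos P κ) hc hd (fun c' h _ => hmin c' h) hF.le
    (by rw [abs_div, abs_of_pos hF, div_le_iff₀ hF]; exact hθ) hδ hδ1 hσ hσ1 hd0 hζ hζ1 hC hj
    (tgt P F κ x j) htg
    (by
      intro i hi a ha b hb b' hb'
      subst hi
      simp only [hcut]
      exact hT i hj a ha b hb b' hb')
    (by simp only [hcut]; exact hWd _ hcj _ htg)
    (by
      simp only [hcut, hcut0, add_zero]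
      exact tgt_min P F κ x hx hcj)
    (by simpa using hsmall)
  rcases main with h | h
  · simpa only [hcut] using h
  · exact absurd h hfar

/-- **THE PLAN, good window** (245 / 644 form): energy `≤ s² F`, growth `≤ s F`, defect `≤ s F` put
all cuts within `σ F` of the targets. -/
theorem tgt_near {c : ℕ → ℕ} {d ζ C δ σ s W : ℝ} (hx : 0 < F x)
    (hc : ∀ q < P.N, c q < WA P κ)
    (hd : ∀ q < P.N, |(cut P κ x (q + 1) (c (q + 1)) : ℝ) - cut P κ x q (c q)|
      ≤ (F (piece P κ x q (c q) (c (q + 1))) : ℝ))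
    (hmin : ∀ c' : ℕ → ℕ, (∀ q < P.N, c' q < WA P κ) →
      (F x : ℝ) ≤ (∑ q ∈ range P.N, (F (piece P κ x q (c' q) (c' (q + 1))) : ℝ)) + d)
    (hθ : |(x.v : ℝ) - x.u| ≤ (1 - 4 * δ) * F x) (hδ : 0 < δ) (hs : 0 ≤ s) (hs1 : s ≤ 1)
    (hE : enr P F κ x c ≤ s ^ 2 * F x)
    (hdr : (∑ q ∈ range P.N, (F (piece P κ x q (c q) (c (q + 1))) : ℝ)) - F x ≤ s * F x)
    (hds : d ≤ s * F x) (hζ : 0 ≤ ζ) (hζ1 : ζ ≤ 1) (hC : 0 ≤ C)
    (hT : ∀ q, q + 1 < P.N → ∀ a < WA P κ, ∀ b < WA P κ, ∀ b' < WA P κ,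
      (F (piece P κ x q a b) : ℝ) ≤ (1 + ζ) * (F (piece P κ x q a b')
        + |(pos P κ x b : ℝ) - pos P κ x b'|) + C)
    (hW : 2 * (P.r : ℝ) * 2 ^ κ ≤ W)
    (hsmall : 7 * s * F x + (ζ * (4 * F x + 3 * W) + 2 * C) ≤ 4 * δ * σ * F x) :
    ∀ j, 0 < j → j < P.N →
      |(pos P κ x (c j) : ℝ) - pos P κ x (tgt P F κ x j)| ≤ σ * F x := by
  intro j hj0 hj
  have hF : (0 : ℝ) < F x := by exact_mod_cast hx
  have hcut := cut_eq_pos P κ x hj0 hj
  have hcut0 : ∀ a, cut P κ x 0 a = x.u := by intro a; simp [cut]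
  have hWd := pos_width P κ x hW
  have hcj := hc j hj
  have htg := tgt_lt P F κ x j
  have main := near_good_lip (N := P.N) (A := WA P κ)
    (T := fun q a b => F (piece P κ x q a b)) (p := fun q a => (cut P κ x q a : ℝ)) (c := c)
    (F₀ := F x) (e₀ := (x.v : ℝ) - x.u) (d := d) (W := W) (ζ := ζ) (C := C) (r := 0) (δ := δ)
    (σ := σ) (s := s) (WA_pos P κ) hc hd (fun c' h _ => hmin c' h) hF.le
    (by rw [abs_div, abs_of_pos hF, div_le_iff₀ hF]; exact hθ) hδ hs hs1 hE hdr hds hζ hζ1 hC hj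
    (tgt P F κ x j) htg
    (by
      intro i hi a ha b hb b' hb'
      subst hi
      simp only [hcut]
      exact hT i hj a ha b hb b' hb')
    (by simp only [hcut]; exact hWd _ hcj _ htg)
    (by
      simp only [hcut, hcut0, add_zero]
      exact tgt_min P F κ x hx hcj)
    (by simpa using hsmall)
  simpa only [hcut] using main

theorem near_lt (p z : ℕ) : near P F κ x p z < WA P κ := by
  have := WA_pos P κ
  unfold near
  omega

/-- a cut within `F / 2^sb` of its target is (the position of) a letter of the near menu -/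
theorem near_surj (hw : wlo P κ x ≤ whi P κ x) (hdv : (gst P κ : ℤ) ∣ whi P κ x - wlo P κ x)
    {p a : ℕ} (ha : a < WA P κ)
    (h : |(pos P κ x a : ℝ) - pos P κ x (tgt P F κ x p)| ≤ 1 / 2 ^ P.sb * F x) :
    ∃ z < 2 * rad P F κ x + 1, pos P κ x (near P F κ x p z) = pos P κ x a ∧
      (raw P κ x a ≤ whi P κ x → near P F κ x p z = a) := by
  obtain ⟨a', ha', hr', hp', hf'⟩ := exists_first P κ x hw hdv a
  have haW : a' < WA P κ := lt_of_le_of_lt ha' ha
  have hrt := raw_tgt_le P F κ x hw hdv p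
  set t := tgt P F κ x p with ht
  have htW : t < WA P κ := tgt_lt P F κ x p
  have hg : 0 < gst P κ := gst_pos P κ
  have hsF : 0 ≤ 1 / 2 ^ P.sb * (F x : ℝ) := by positivity
  rw [← hp', pos_eq_raw P κ x hr', pos_eq_raw P κ x hrt, raw_sub, abs_mul,
    abs_of_nonneg (Nat.cast_nonneg (gst P κ) : (0 : ℝ) ≤ gst P κ)] at h
  have key : ∀ n : ℕ, (n : ℝ) * gst P κ ≤ 1 / 2 ^ P.sb * F x → n ≤ rad P F κ x := by
    intro n hn
    unfold rad
    rw [Nat.div_div_eq_div_mul, Nat.le_div_iff_mul_le (by positivity)]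
    have h2 : (n : ℝ) * (2 ^ P.sb * gst P κ) ≤ F x := by
      have h3 : (0 : ℝ) < 2 ^ P.sb := by positivity
      calc (n : ℝ) * (2 ^ P.sb * gst P κ) = 2 ^ P.sb * (n * gst P κ) := by ring
        _ ≤ 2 ^ P.sb * (1 / 2 ^ P.sb * F x) := by gcongr
        _ = F x := by field_simp
    exact_mod_cast h2
  have hz : ∃ z < 2 * rad P F κ x + 1, near P F κ x p z = a' := by
    unfold near
    rw [← ht]
    rcases le_total t a' with hta | hta
    · have h2 : a' - t ≤ rad P F κ x := by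
        apply key
        rw [Nat.cast_sub hta]
        have : (0 : ℝ) ≤ (a' : ℝ) - t := by
          have : (t : ℝ) ≤ a' := by exact_mod_cast hta
          linarith
        rwa [abs_of_nonneg this] at h
      exact ⟨rad P F κ x + (a' - t), by omega, by omega⟩
    · have h2 : t - a' ≤ rad P F κ x := by
        apply key
        rw [Nat.cast_sub hta]
        have : (a' : ℝ) - t ≤ 0 := by
          have : (a' : ℝ) ≤ t := by exact_mod_cast hta
          linarith
        rw [abs_of_nonpos this] at h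
        linarith
      exact ⟨rad P F κ x - (t - a'), by omega, by omega⟩
  obtain ⟨z, hz1, hz2⟩ := hz
  exact ⟨z, hz1, by rw [hz2, hp'], fun hc => by rw [hz2, hf' hc]⟩

/-- letters of the near menu are near the target -/
theorem near_close {p z : ℕ} (hz : z < 2 * rad P F κ x + 1) :
    |(pos P κ x (near P F κ x p z) : ℝ) - pos P κ x (tgt P F κ x p)| ≤ 1 / 2 ^ P.sb * F x := by
  set t := tgt P F κ x p with ht
  have htl : t < WA P κ := tgt_lt P F κ x p
  have hr : ((rad P F κ x : ℕ) : ℝ) * gst P κ ≤ 1 / 2 ^ P.sb * F x := by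
    have h1 : rad P F κ x * gst P κ ≤ F x / 2 ^ P.sb := Nat.div_mul_le_self _ _
    have h2 : ((F x / 2 ^ P.sb : ℕ) : ℝ) ≤ (F x : ℝ) / 2 ^ P.sb := by
      have := Nat.cast_div_le (α := ℝ) (m := F x) (n := 2 ^ P.sb)
      simpa using this
    calc ((rad P F κ x : ℕ) : ℝ) * gst P κ ≤ ((F x / 2 ^ P.sb : ℕ) : ℝ) := by exact_mod_cast h1
      _ ≤ (F x : ℝ) / 2 ^ P.sb := h2
      _ = _ := by ring
  set n := near P F κ x p z with hn
  have hn' : n = min (WA P κ - 1) (t + z - rad P F κ x) := rfl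
  refine (pos_lip P κ x _ _).trans ?_
  rw [abs_mul, abs_of_nonneg (Nat.cast_nonneg (gst P κ) : (0 : ℝ) ≤ gst P κ)]
  refine le_trans (mul_le_mul_of_nonneg_right ?_ (Nat.cast_nonneg _)) hr
  have h2 : n ≤ t + rad P F κ x := by omega
  have h3 : t ≤ n + rad P F κ x := by omega
  have h2' : (n : ℝ) ≤ t + (rad P F κ x : ℕ) := by exact_mod_cast h2
  have h3' : (t : ℝ) ≤ n + (rad P F κ x : ℕ) := by exact_mod_cast h3
  rw [abs_le]
  constructor <;> linarith

/-- in a near window every choice of near letters has pieces of total value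
`≤ (1+ζ) (Σ F(pieces of c) + 4 N F / 2^sb) + N C`: regularity. -/
theorem near_sum {c : ℕ → ℕ} {ζ C : ℝ} (hζ : 0 ≤ ζ) (hc : ∀ q ≤ P.N, c q < WA P κ)
    (hT : ∀ q < P.N, ∀ a < WA P κ, ∀ b < WA P κ, ∀ a' < WA P κ, ∀ b' < WA P κ,
      (F (piece P κ x q a b) : ℝ) ≤ (1 + ζ) * (F (piece P κ x q a' b')
        + |(cut P κ x q a : ℝ) - cut P κ x q a'|
        + |(cut P κ x (q + 1) b : ℝ) - cut P κ x (q + 1) b'|) + C)
    (hnear : ∀ j, 0 < j → j < P.N →
      |(pos P κ x (c j) : ℝ) - pos P κ x (tgt P F κ x j)| ≤ 1 / 2 ^ P.sb * F x)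
    {a b : ℕ → ℕ} (ha : ∀ q < P.N, a q < 2 * rad P F κ x + 1)
    (hb : ∀ q < P.N, b q < 2 * rad P F κ x + 1) :
    ∑ q ∈ range P.N, (F (npiece P F κ x q (a q) (b q)) : ℝ) ≤
      (1 + ζ) * ((∑ q ∈ range P.N, (F (piece P κ x q (c q) (c (q + 1))) : ℝ))
        + 4 * P.N * (1 / 2 ^ P.sb * F x)) + P.N * C := by
  have hs : 0 ≤ 1 / 2 ^ P.sb * (F x : ℝ) := by positivity
  have hcl : ∀ j ≤ P.N, ∀ z < 2 * rad P F κ x + 1,
      |(cut P κ x j (near P F κ x j z) : ℝ) - cut P κ x j (c j)| ≤ 2 * (1 / 2 ^ P.sb * F x) := by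
    intro j hj z hz
    by_cases h0 : j = 0
    · subst h0; simp only [cut, if_true, sub_self, abs_zero]; linarith
    by_cases hN : j = P.N
    · subst hN; simp only [cut, h0, if_true, if_false, sub_self, abs_zero]; linarith
    · have e : ∀ a, cut P κ x j a = pos P κ x a := fun a => by simp [cut, h0, hN]
      rw [e, e]
      have h1 := near_close P F κ x (p := j) hz
      have h2 := hnear j (by omega) (by omega)
      calc |(pos P κ x (near P F κ x j z) : ℝ) - pos P κ x (c j)|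
          = |((pos P κ x (near P F κ x j z) : ℝ) - pos P κ x (tgt P F κ x j))
            - ((pos P κ x (c j) : ℝ) - pos P κ x (tgt P F κ x j))| := by congr 1; ring
        _ ≤ _ := abs_sub _ _
        _ ≤ _ := by linarith
  calc ∑ q ∈ range P.N, (F (npiece P F κ x q (a q) (b q)) : ℝ)
      ≤ ∑ q ∈ range P.N, ((1 + ζ) * ((F (piece P κ x q (c q) (c (q + 1))) : ℝ)
          + 4 * (1 / 2 ^ P.sb * F x)) + C) := by
        refine sum_le_sum fun q hq => ?_
        rw [mem_range] at hq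
        refine (hT q hq _ (near_lt P F κ x q (a q)) _ (near_lt P F κ x (q + 1) (b q)) (c q)
          (hc q hq.le) (c (q + 1)) (hc (q + 1) hq)).trans ?_
        refine add_le_add (mul_le_mul_of_nonneg_left ?_ (by linarith)) le_rfl
        have h1 := hcl q hq.le (a q) (ha q hq)
        have h2 := hcl (q + 1) hq (b q) (hb q hq)
        linarith
    _ = _ := by
        rw [sum_add_distrib, ← mul_sum, sum_add_distrib, sum_const, sum_const, card_range,
          nsmul_eq_mul, nsmul_eq_mul]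
        ring

/-- the comparator's staircase is a staircase of the near menus -/
theorem near_letters (hw : wlo P κ x ≤ whi P κ x)
    (hdv : (gst P κ : ℤ) ∣ whi P κ x - wlo P κ x) {c : ℕ → ℕ} (hc : ∀ q < P.N, c q < WA P κ)
    (hnear : ∀ j, 0 < j → j < P.N →
      |(pos P κ x (c j) : ℝ) - pos P κ x (tgt P F κ x j)| ≤ 1 / 2 ^ P.sb * F x) :
    ∃ z : ℕ → ℕ, (∀ j, z j < 2 * rad P F κ x + 1) ∧ z 0 = 0 ∧ z P.N = 0 ∧
      (∀ j, 0 < j → j < P.N → pos P κ x (near P F κ x j (z j)) = pos P κ x (c j) ∧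
        (raw P κ x (c j) ≤ whi P κ x → near P F κ x j (z j) = c j)) ∧
      ∀ q < P.N, npiece P F κ x q (z q) (z (q + 1)) = piece P κ x q (c q) (c (q + 1)) := by
  have h : ∀ j, ∃ z < 2 * rad P F κ x + 1, 0 < j → j < P.N →
      pos P κ x (near P F κ x j z) = pos P κ x (c j) ∧
        (raw P κ x (c j) ≤ whi P κ x → near P F κ x j z = c j) := by
    intro j
    by_cases hj : 0 < j ∧ j < P.N
    · obtain ⟨z, h1, h2⟩ := near_surj P F κ x hw hdv (hc j hj.2) (hnear j hj.1 hj.2)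
      exact ⟨z, h1, fun _ _ => h2⟩
    · exact ⟨0, by omega, fun h1 h2 => absurd ⟨h1, h2⟩ hj⟩
  choose w hw' hw2 using h
  refine ⟨fun j => if j = 0 ∨ j = P.N then 0 else w j, ?_, by simp, by simp, ?_, ?_⟩
  · intro j
    by_cases hj : j = 0 ∨ j = P.N
    · simp only [hj, if_true]; omega
    · simp only [hj, if_false]; exact hw' j
  · intro j h0 h1
    have : ¬ (j = 0 ∨ j = P.N) := by omega
    simp only [this, if_false]
    exact hw2 j h0 h1
  · intro q hq
    have hcut : ∀ j ≤ P.N, cut P κ x j (near P F κ x j (if j = 0 ∨ j = P.N then 0 else w j))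
        = cut P κ x j (c j) := by
      intro j hj
      by_cases h0 : j = 0
      · subst h0; simp [cut]
      by_cases hN : j = P.N
      · subst hN; simp [cut, h0]
      · have h2 : ¬ (j = 0 ∨ j = P.N) := by omega
        simp only [h2, if_false]
        rw [cut_eq_pos P κ x (by omega) (by omega), cut_eq_pos P κ x (by omega) (by omega)]
        exact (hw2 j (by omega) (by omega)).1
    unfold npiece piece
    rw [hcut q hq.le, hcut (q + 1) hq]

theorem foldl_max_spec (f : ℕ → ℕ) (l : List ℕ) (m : ℕ) :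
    (∀ a ∈ l, f a ≤ l.foldl (fun m a => max m (f a)) m) ∧ m ≤ l.foldl (fun m a => max m (f a)) m ∧
      (l.foldl (fun m a => max m (f a)) m = m ∨ ∃ a ∈ l, l.foldl (fun m a => max m (f a)) m = f a) := by
  induction l generalizing m with
  | nil => simp
  | cons b l ih =>
    simp only [List.foldl_cons]
    obtain ⟨h1, h2, h3⟩ := ih (max m (f b))
    refine ⟨?_, (le_max_left _ _).trans h2, ?_⟩
    · intro a ha
      rcases List.mem_cons.1 ha with rfl | ha
      · exact (le_max_right _ _).trans h2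
      · exact h1 a ha
    · rcases h3 with h3 | ⟨a, ha, h3⟩
      · rcases max_choice m (f b) with h | h
        · left; rw [h3, h]
        · right; exact ⟨b, by simp, by rw [h3, h]⟩
      · right; exact ⟨a, by simp [ha], h3⟩

theorem le_maxR {n : ℕ} (f : ℕ → ℕ) {a : ℕ} (ha : a < n) : f a ≤ maxR n f :=
  (foldl_max_spec f (List.range n) 0).1 a (List.mem_range.2 ha)

theorem maxR_att {n : ℕ} (f : ℕ → ℕ) (hn : 0 < n) : ∃ a < n, maxR n f = f a := by
  rcases (foldl_max_spec f (List.range n) 0).2.2 with h | ⟨a, ha, h⟩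
  · have h0 := le_maxR f hn
    have h1 : maxR n f = 0 := h
    exact ⟨0, hn, by omega⟩
  · exact ⟨a, List.mem_range.1 ha, h⟩

/-- a near window is regular -/
theorem regular_of_near {c : ℕ → ℕ} {ζ C : ℝ} (hζ : 0 ≤ ζ) (hc : ∀ q ≤ P.N, c q < WA P κ)
    (hT : ∀ q < P.N, ∀ a < WA P κ, ∀ b < WA P κ, ∀ a' < WA P κ, ∀ b' < WA P κ,
      (F (piece P κ x q a b) : ℝ) ≤ (1 + ζ) * (F (piece P κ x q a' b')
        + |(cut P κ x q a : ℝ) - cut P κ x q a'|
        + |(cut P κ x (q + 1) b : ℝ) - cut P κ x (q + 1) b'|) + C)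
    (hnear : ∀ j, 0 < j → j < P.N →
      |(pos P κ x (c j) : ℝ) - pos P κ x (tgt P F κ x j)| ≤ 1 / 2 ^ P.sb * F x)
    (hreg : (1 + ζ) * ((∑ q ∈ range P.N, (F (piece P κ x q (c q) (c (q + 1))) : ℝ))
        + 4 * P.N * (1 / 2 ^ P.sb * F x)) + P.N * C ≤ P.Creg * F x) :
    regular P F κ x := by
  have hn : 0 < nlet P F κ x := by unfold nlet; omega
  have h1 : ∀ q, ∃ a < nlet P F κ x, ∃ b < nlet P F κ x,
      (maxR (nlet P F κ x) fun a => maxR (nlet P F κ x) fun b => F (npiece P F κ x q a b))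
        = F (npiece P F κ x q a b) := by
    intro q
    obtain ⟨a, ha, h⟩ := maxR_att
      (fun a => maxR (nlet P F κ x) fun b => F (npiece P F κ x q a b)) hn
    obtain ⟨b, hb, h'⟩ := maxR_att (fun b => F (npiece P F κ x q a b)) hn
    exact ⟨a, ha, b, hb, by rw [h, h']⟩
  choose a ha b hb h using h1
  unfold regular
  rw [sumR_eq]
  have h2 := near_sum P F κ x hζ hc hT hnear (a := a) (b := b) (fun q _ => ha q) (fun q _ => hb q)
  have h3 : ((∑ q ∈ range P.N, maxR (nlet P F κ x) fun a => maxR (nlet P F κ x) fun b =>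
      F (npiece P F κ x q a b) : ℕ) : ℝ) ≤ ((P.Creg * F x : ℕ) : ℝ) := by
    push_cast
    calc _ = ∑ q ∈ range P.N, (F (npiece P F κ x q (a q) (b q)) : ℝ) :=
          sum_congr rfl fun q _ => by rw [h q]
      _ ≤ _ := h2
      _ ≤ _ := hreg
  exact_mod_cast h3

/-- `(F3')` with a factor gives the additive defect for every staircase -/
theorem hmin_of_mul {X S z d₀ : ℝ} (hX : 0 ≤ X) (hz : 0 ≤ z) (hd : 0 ≤ d₀)
    (h : X ≤ (1 + z) * S + d₀) : X ≤ S + (z * X + d₀) := by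
  rcases le_total X S with h1 | h1
  · have : 0 ≤ z * X := mul_nonneg hz hX
    linarith
  · have : z * S ≤ z * X := mul_le_mul_of_nonneg_left h1 hz
    linarith

theorem clp_natAbs (u : ℤ) : (clp P u).natAbs ≤ P.Dm := by
  unfold clp
  omega

theorem pos_natAbs (hr : 1 ≤ P.r) (hx : inD P x) (a : ℕ) : (pos P κ x a).natAbs ≤ P.Dm := by
  have h := pos_mem P κ x (wlo_le_whi P κ x hx.1 hr) a
  have h1 : -(P.Dm : ℤ) ≤ wlo P κ x := le_max_left _ _
  have h2 : whi P κ x ≤ (P.Dm : ℤ) := min_le_left _ _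
  omega

theorem cut_inD (hr : 1 ≤ P.r) (hx : inD P x) (q a : ℕ) : (cut P κ x q a).natAbs ≤ P.Dm := by
  unfold cut
  split_ifs
  · exact hx.1
  · exact hx.2
  · exact pos_natAbs P κ x hr hx a

theorem piece_inD (hr : 1 ≤ P.r) (hx : inD P x) (q a b : ℕ) : inD P (piece P κ x q a b) :=
  ⟨cut_inD P κ x hr hx q a, cut_inD P κ x hr hx (q + 1) b⟩

/-- states of the blocks of the pieces of `x`, in the domain -/
def Chd (y : St) : Prop :=
  y.i = x.i - 1 ∧ P.N * x.j ≤ y.j ∧ y.j < P.N * x.j + P.N ∧ inD P y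

theorem piece_chd (hr : 1 ≤ P.r) (hx : inD P x) {q : ℕ} (hq : q < P.N) (a b : ℕ) :
    Chd P x (piece P κ x q a b) :=
  ⟨rfl, Nat.le_add_right _ _, Nat.add_lt_add_left hq _, piece_inD P κ x hr hx q a b⟩

theorem dist_piece (q a b a' b' : ℕ) :
    (dist (piece P κ x q a b) (piece P κ x q a' b') : ℝ)
      = |(cut P κ x q a : ℝ) - cut P κ x q a'|
        + |(cut P κ x (q + 1) b : ℝ) - cut P κ x (q + 1) b'| := by
  unfold Alg45.dist piece
  push_cast [Nat.cast_natAbs]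
  rfl

/-- the Lipschitz hypotheses from the one on states of the domain -/
theorem lip_piece {ζ C : ℝ} (hr : 1 ≤ P.r) (hx : inD P x)
    (hlip : ∀ y z : St, Chd P x y → Chd P x z → y.j = z.j →
      (F y : ℝ) ≤ (1 + ζ) * (F z + Alg45.dist y z) + C) {q : ℕ} (hq : q < P.N) (a b a' b' : ℕ) :
    (F (piece P κ x q a b) : ℝ) ≤ (1 + ζ) * (F (piece P κ x q a' b')
        + |(cut P κ x q a : ℝ) - cut P κ x q a'|
        + |(cut P κ x (q + 1) b : ℝ) - cut P κ x (q + 1) b'|) + C := by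
  have h := hlip (piece P κ x q a b) (piece P κ x q a' b') (piece_chd P κ x hr hx hq a b)
    (piece_chd P κ x hr hx hq a' b') rfl
  rw [dist_piece, ← add_assoc] at h
  exact h

/-- the slope bound of a state which is not `R1` -/
theorem slope_of_not_R1 (hδ : 4 < P.δi) (h : ¬ R1 P F x) :
    |(x.v : ℝ) - x.u| ≤ (1 - 4 * (1 / (P.δi : ℝ))) * F x := by
  unfold R1 at h
  push Not at h
  have h0 : (0 : ℝ) < P.δi := by exact_mod_cast (by omega : 0 < P.δi)
  have h1 : ((P.δi * (x.v - x.u).natAbs : ℕ) : ℝ) < (((P.δi - 4) * F x : ℕ) : ℝ) := by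
    exact_mod_cast h
  rw [Nat.cast_mul, Nat.cast_mul, Nat.cast_sub hδ.le, Nat.cast_natAbs] at h1
  push_cast at h1
  have h2 : (1 - 4 * (1 / (P.δi : ℝ))) * F x = ((P.δi : ℝ) - 4) * F x / P.δi := by
    field_simp
  rw [h2, le_div_iff₀ h0, mul_comm]
  exact h1.le

/-- **(A12)** a window which is good (energy, growth, defect) is regular and its comparator staircase
is a staircase of the near menus. `ζ`, `C`: Lipschitz constants of `F` on the domain, `d`: defect of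
`F` at `x` (for every grid staircase). -/
theorem plan_good {c : ℕ → ℕ} {d ζ C s W : ℝ} (hx : 0 < F x) (hxD : inD P x)
    (hr : 1 ≤ P.r) (hgD : gst P κ ∣ P.Dm)
    (hδ : 4 < P.δi) (hR : ¬ R1 P F x) (hc : ∀ q ≤ P.N, c q < WA P κ)
    (hcoer : ∀ y : St, Chd P x y → |(y.v : ℝ) - y.u| ≤ F y)
    (hζ : 0 ≤ ζ) (hζ1 : ζ ≤ 1) (hC : 0 ≤ C)
    (hlip : ∀ y z : St, Chd P x y → Chd P x z → y.j = z.j →
      (F y : ℝ) ≤ (1 + ζ) * (F z + Alg45.dist y z) + C)
    (hmin : ∀ c' : ℕ → ℕ, (∀ q < P.N, c' q < WA P κ) →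
      (F x : ℝ) ≤ (∑ q ∈ range P.N, (F (piece P κ x q (c' q) (c' (q + 1))) : ℝ)) + d)
    (hs : 0 ≤ s) (hs1 : s ≤ 1) (hE : enr P F κ x c ≤ s ^ 2 * F x)
    (hdr : (∑ q ∈ range P.N, (F (piece P κ x q (c q) (c (q + 1))) : ℝ)) - F x ≤ s * F x)
    (hds : d ≤ s * F x) (hW : 2 * (P.r : ℝ) * 2 ^ κ ≤ W)
    (hsmall : 7 * s * F x + (ζ * (4 * F x + 3 * W) + 2 * C)
      ≤ 4 * (1 / (P.δi : ℝ)) * (1 / 2 ^ P.sb) * F x)
    (hreg : (1 + ζ) * ((1 + s) * F x + 4 * P.N * (1 / 2 ^ P.sb * F x)) + P.N * C ≤ P.Creg * F x) :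
    regular P F κ x ∧
    ∃ z : ℕ → ℕ, (∀ j, z j < nlet P F κ x) ∧ z 0 = 0 ∧ z P.N = 0 ∧
      (∀ j, 0 < j → j < P.N → pos P κ x (near P F κ x j (z j)) = pos P κ x (c j) ∧
        (raw P κ x (c j) ≤ whi P κ x → near P F κ x j (z j) = c j)) ∧
      ∀ q < P.N, npiece P F κ x q (z q) (z (q + 1)) = piece P κ x q (c q) (c (q + 1)) := by
  have hc' : ∀ q < P.N, c q < WA P κ := fun q hq => hc q hq.le
  have h0 : (0 : ℝ) < P.δi := by exact_mod_cast (by omega : 0 < P.δi)
  have hnear := tgt_near P F κ x (c := c) (d := d) (ζ := ζ) (C := C) (δ := 1 / (P.δi : ℝ))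
    (σ := 1 / 2 ^ P.sb) (s := s) (W := W) hx hc'
    (by
      intro q hq
      have := hcoer _ (piece_chd P κ x hr hxD hq (c q) (c (q + 1)))
      exact this)
    hmin (slope_of_not_R1 P F x hδ hR) (by positivity) hs hs1 hE hdr hds hζ hζ1 hC
    (by
      intro q hq a _ b _ b' _
      have h := lip_piece P F κ x hr hxD hlip (by omega : q < P.N) a b a b'
      rw [sub_self, abs_zero, add_zero, cut_eq_pos P κ x (by omega) hq,
        cut_eq_pos P κ x (by omega) hq] at h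
      exact h)
    hW hsmall
  refine ⟨regular_of_near P F κ x hζ hc (fun q hq a _ b _ a' _ b' _ =>
    lip_piece P F κ x hr hxD hlip hq a b a' b') hnear ?_, near_letters P F κ x
      (wlo_le_whi P κ x hxD.1 hr) (dvd_whi_sub_wlo P κ x hgD) hc' hnear⟩
  have h1 : (1 + ζ) * ((∑ q ∈ range P.N, (F (piece P κ x q (c q) (c (q + 1))) : ℝ))
      + 4 * P.N * (1 / 2 ^ P.sb * F x)) ≤
      (1 + ζ) * ((1 + s) * F x + 4 * P.N * (1 / 2 ^ P.sb * F x)) :=
    mul_le_mul_of_nonneg_left (by linarith) (by linarith)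
  linarith

end AlgA

end Crest.Agent.R288.PlanI693
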