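import Crest.Agent.R288.Plan_744
import Crest.Agent.R288.Loc_45

/-!
# The prefix plan in index form (row 288, helper744): near theorem for `Loc45.tgt`

A window has pieces `q < N` and cuts `0 .. N`; a letter is an index `a < A` with position
`pos a : ℝ`; `c q a b` = value of the plan function at piece `q` with cuts `a`, `b`
(Lipschitz in the right end up to `z`).  `Dp j b` = least value of the first `j` pieces.

* `near_idx`: the planned letter (argmin of the residual over all letters) is near the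
  comparator's letter: `|pos (cs j) - pos m'| ≤ (2(√(P En) + (P - F + kap)⁺) + z)/δ`;
* `sum_near`: staircases with near cuts have near values (regularity and units of the plan);
* `D_le`, `D_att`: `Loc45.D` is the prefix minimum; `tgt_min`; **`near_tgt`**.
-/

set_option autoImplicit false

namespace Crest.Agent.R288.PlanL744

open Finset Crest.Agent.R288.Plan744

/-- `root_stab` with an additive error in the Lipschitz property. -/
theorem root_stab' {m m' u θ φ φ' Λ z δ e0 e1 : ℝ} (hδ : 0 < δ)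
    (hlip : |φ - φ'| ≤ Λ * |m - m'| + z) (hθ : |θ| * Λ ≤ 1 - δ) (hθ1 : |θ| ≤ 1) (hz : 0 ≤ z)
    (h0 : |m' - u - θ * φ'| ≤ e0) (h1 : |m - u - θ * φ| ≤ e1) :
    |m - m'| ≤ (e0 + e1 + z) / δ := by
  have h2 : |m - m'| ≤ |m - u - θ * φ| + |m' - u - θ * φ'| + |θ| * |φ - φ'| := by
    have e : m - m' = (m - u - θ * φ) - (m' - u - θ * φ') + θ * (φ - φ') := by ring
    calc |m - m'| = |(m - u - θ * φ) - (m' - u - θ * φ') + θ * (φ - φ')| := by rw [← e]
      _ ≤ |(m - u - θ * φ) - (m' - u - θ * φ')| + |θ * (φ - φ')| := abs_add_le _ _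
      _ ≤ _ := by
          rw [abs_mul]
          gcongr
          exact abs_sub _ _
  have h3 : |θ| * |φ - φ'| ≤ (1 - δ) * |m - m'| + z := by
    calc |θ| * |φ - φ'| ≤ |θ| * (Λ * |m - m'| + z) := by gcongr
      _ = |θ| * Λ * |m - m'| + |θ| * z := by ring
      _ ≤ (1 - δ) * |m - m'| + 1 * z := by gcongr
      _ = _ := by ring
  rw [le_div_iff₀ hδ]
  nlinarith

section Abstract

variable {N A : ℕ} {a₀ b₀ : ℕ} {pos : ℕ → ℝ} {c : ℕ → ℕ → ℕ → ℝ} {Dp : ℕ → ℕ → ℝ}

/-- energy of a staircase against the slope `θ`. -/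
noncomputable def EnS (N : ℕ) (pos : ℕ → ℝ) (c : ℕ → ℕ → ℕ → ℝ) (θ : ℝ) (s : ℕ → ℕ) : ℝ :=
  ∑ q ∈ range N, c q (s q) (s (q + 1)) *
    ((pos (s (q + 1)) - pos (s q)) / c q (s q) (s (q + 1)) - θ) ^ 2

/-- value of a staircase. -/
noncomputable def val (N : ℕ) (c : ℕ → ℕ → ℕ → ℝ) (s : ℕ → ℕ) : ℝ :=
  ∑ q ∈ range N, c q (s q) (s (q + 1))

/-- residual of the comparator's cut `j`. -/
theorem resid_idx {F kap θ : ℝ} {j : ℕ} (hj : j ≤ N)
    (hle : ∀ s : ℕ → ℕ, s 0 = a₀ → (∀ i ≤ j, s i < A) →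
      Dp j (s j) ≤ ∑ q ∈ range j, c q (s q) (s (q + 1)))
    (hat : ∀ b < A, ∃ s : ℕ → ℕ, s 0 = a₀ ∧ (∀ i ≤ j, s i < A) ∧ s j = b ∧
      Dp j b = ∑ q ∈ range j, c q (s q) (s (q + 1)))
    (hF : ∀ s : ℕ → ℕ, s 0 = a₀ → s N = b₀ → (∀ i ≤ N, s i < A) → F ≤ val N c s + kap)
    (s : ℕ → ℕ) (s0 : s 0 = a₀) (sN : s N = b₀) (sA : ∀ i ≤ N, s i < A)
    (hd : ∀ q < N, |pos (s (q + 1)) - pos (s q)| ≤ c q (s q) (s (q + 1)))
    (hθ : |θ| ≤ 1) :
    |pos (s j) - pos a₀ - θ * Dp j (s j)| ≤
      √(val N c s * EnS N pos c θ s) + max 0 (val N c s - F + kap) := by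
  have h1 := prefix_dev N (fun q => c q (s q) (s (q + 1))) (fun q => pos (s (q + 1)) - pos (s q))
    θ hd j hj
  have hsum : ∑ q ∈ range j, (pos (s (q + 1)) - pos (s q)) = pos (s j) - pos a₀ := by
    rw [sum_range_sub (fun q => pos (s q)), s0]
  rw [hsum] at h1
  have h2 := hle s s0 (fun i hi => sA i (hi.trans hj))
  obtain ⟨r, r0, rA, rj, re⟩ := hat (s j) (sA j hj)
  -- the hybrid: `r` up to `j`, `s` from `j` on
  obtain ⟨t, rfl⟩ := Nat.exists_eq_add_of_le hj
  have h3 := hF (fun i => if i ≤ j then r i else s i) (by simpa using r0) ?_ ?_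
  · have e : val (j + t) c (fun i => if i ≤ j then r i else s i) =
        ∑ q ∈ range j, c q (r q) (r (q + 1)) +
        ∑ q ∈ range t, c (j + q) (s (j + q)) (s (j + q + 1)) := by
      unfold val
      rw [sum_range_add]
      congr 1
      · apply sum_congr rfl
        intro q hq
        have hq' : q < j := mem_range.mp hq
        have a1 : q ≤ j := by omega
        have a2 : q + 1 ≤ j := by omega
        simp only [a1, a2, if_true]
      · apply sum_congr rfl
        intro q _
        have a2 : ¬ (j + q + 1 ≤ j) := by omega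
        simp only [a2, if_false]
        rcases Nat.eq_zero_or_pos q with h0 | h0
        · subst h0; simp [rj]
        · have a1 : ¬ (j + q ≤ j) := by omega
          simp only [a1, if_false]
    rw [e, ← re] at h3
    have h4 : val (j + t) c s = ∑ q ∈ range j, c q (s q) (s (q + 1)) +
        ∑ q ∈ range t, c (j + q) (s (j + q)) (s (j + q + 1)) := by
      unfold val; rw [sum_range_add]
    set P := ∑ q ∈ range j, c q (s q) (s (q + 1)) with hP
    have h5 : |Dp j (s j) - P| ≤ max 0 (val (j + t) c s - F + kap) := by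
      rw [abs_sub_comm, abs_of_nonneg (by linarith)]
      apply le_max_of_le_right
      rw [h4]; linarith
    have e2 : pos (s j) - pos a₀ - θ * Dp j (s j) =
        (pos (s j) - pos a₀ - θ * P) - θ * (Dp j (s j) - P) := by ring
    rw [e2]
    refine (abs_sub _ _).trans ?_
    rw [abs_mul]
    have h6 : |θ| * |Dp j (s j) - P| ≤ |Dp j (s j) - P| := by
      have := mul_le_mul_of_nonneg_right hθ (abs_nonneg (Dp j (s j) - P))
      linarith
    have h1' : |pos (s j) - pos a₀ - θ * P| ≤ √(val (j + t) c s * EnS (j + t) pos c θ s) := h1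
    linarith
  · by_cases ht : t = 0
    · subst ht
      have : s j = b₀ := sN
      simp [rj, this]
    · have : ¬ (j + t ≤ j) := by omega
      simp only [this, if_false]; exact sN
  · intro i hi
    by_cases h : i ≤ j
    · simp only [h, if_true]; exact rA i h
    · simp only [h, if_false]; exact sA i hi

/-- **NEAR, index form.** -/
theorem near_idx {F kap θ δ z e0 : ℝ} {j : ℕ} (hj : j ≤ N) (hδ : 0 < δ) (hz : 0 ≤ z)
    (hle : ∀ s : ℕ → ℕ, s 0 = a₀ → (∀ i ≤ j, s i < A) →
      Dp j (s j) ≤ ∑ q ∈ range j, c q (s q) (s (q + 1)))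
    (hat : ∀ b < A, ∃ s : ℕ → ℕ, s 0 = a₀ ∧ (∀ i ≤ j, s i < A) ∧ s j = b ∧
      Dp j b = ∑ q ∈ range j, c q (s q) (s (q + 1)))
    (hlip : ∀ b < A, ∀ b' < A, |Dp j b - Dp j b'| ≤ |pos b - pos b'| + z)
    (hF : ∀ s : ℕ → ℕ, s 0 = a₀ → s N = b₀ → (∀ i ≤ N, s i < A) → F ≤ val N c s + kap)
    (s : ℕ → ℕ) (s0 : s 0 = a₀) (sN : s N = b₀) (sA : ∀ i ≤ N, s i < A)
    (hd : ∀ q < N, |pos (s (q + 1)) - pos (s q)| ≤ c q (s q) (s (q + 1)))
    (hθ : |θ| ≤ 1 - δ) (m' : ℕ) (hm' : m' < A)
    (hm : |pos m' - pos a₀ - θ * Dp j m'| ≤ |pos (s j) - pos a₀ - θ * Dp j (s j)| + e0) :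
    |pos (s j) - pos m'| ≤
      (2 * (√(val N c s * EnS N pos c θ s) + max 0 (val N c s - F + kap)) + e0 + z) / δ := by
  have hθ1 : |θ| ≤ 1 := by linarith
  have h1 := resid_idx (Dp := Dp) hj hle hat hF s s0 sN sA hd hθ1
  have h2 := root_stab' (m := pos (s j)) (m' := pos m') (u := pos a₀) (θ := θ)
    (φ := Dp j (s j)) (φ' := Dp j m') (Λ := 1) (z := z) hδ
    (by simpa using hlip (s j) (sA j hj) m' hm') (by simpa using hθ) hθ1 hz hm le_rfl
  refine h2.trans ?_
  apply div_le_div_of_nonneg_right _ hδ.le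
  linarith

/-- staircases with near cuts have near values. -/
theorem sum_near {r z : ℝ} (M : ℕ) (p : ℕ → ℕ) (s t : ℕ → ℕ)
    (hlip : ∀ q < M, |c (p q) (s (p q)) (s (p q + 1)) - c (p q) (t (p q)) (t (p q + 1))| ≤
      |pos (s (p q)) - pos (t (p q))| + |pos (s (p q + 1)) - pos (t (p q + 1))| + z)
    (hr : ∀ q < M, |pos (s (p q)) - pos (t (p q))| ≤ r)
    (hr' : ∀ q < M, |pos (s (p q + 1)) - pos (t (p q + 1))| ≤ r) :
    |∑ q ∈ range M, c (p q) (s (p q)) (s (p q + 1)) -
      ∑ q ∈ range M, c (p q) (t (p q)) (t (p q + 1))| ≤ M * (2 * r + z) := by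
  rw [← sum_sub_distrib]
  refine (abs_sum_le_sum_abs _ _).trans ?_
  calc ∑ q ∈ range M, |c (p q) (s (p q)) (s (p q + 1)) - c (p q) (t (p q)) (t (p q + 1))|
      ≤ ∑ _q ∈ range M, (2 * r + z) := by
        apply sum_le_sum
        intro q hq
        have hq' := mem_range.mp hq
        linarith [hlip q hq', hr q hq', hr' q hq']
    _ = _ := by simp; ring

end Abstract

/-! ## `Loc45` -/

open Crest.Agent.R288.Loc45

theorem foldl_min (l : List ℕ) (f : ℕ → ℕ) (m : ℕ) :
    (l.foldl (fun m a => min m (f a)) m ≤ m ∧ ∀ a ∈ l, l.foldl (fun m a => min m (f a)) m ≤ f a) ∧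
    (l.foldl (fun m a => min m (f a)) m = m ∨ ∃ a ∈ l, l.foldl (fun m a => min m (f a)) m = f a) := by
  induction l generalizing m with
  | nil => simp
  | cons x l ih =>
      obtain ⟨⟨h1, h2⟩, h3⟩ := ih (min m (f x))
      refine ⟨⟨?_, ?_⟩, ?_⟩
      · simpa using h1.trans (min_le_left _ _)
      · intro a ha
        rcases List.mem_cons.mp ha with rfl | ha
        · simpa using h1.trans (min_le_right _ _)
        · simpa using h2 a ha
      · simp only [List.foldl_cons]
        rcases h3 with h3 | ⟨a, ha, h3⟩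
        · rcases min_choice m (f x) with h | h
          · left; rw [h3, h]
          · right; exact ⟨x, by simp, by rw [h3, h]⟩
        · right; exact ⟨a, by simp [ha], h3⟩

theorem minR_le {n : ℕ} {f : ℕ → ℕ} {a : ℕ} (ha : a < n) : minR n f ≤ f a :=
  ((foldl_min (List.range n) f (f 0)).1.2) a (List.mem_range.mpr ha)

theorem minR_att {n : ℕ} (hn : 0 < n) (f : ℕ → ℕ) : ∃ a < n, minR n f = f a := by
  rcases (foldl_min (List.range n) f (f 0)).2 with h | ⟨a, ha, h⟩
  · exact ⟨0, hn, h⟩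
  · exact ⟨a, List.mem_range.mp ha, h⟩

theorem foldl_arg (l : List ℕ) (f : ℕ → ℕ) (m : ℕ) :
    (f (l.foldl (fun m a => if f a < f m then a else m) m) ≤ f m ∧
      ∀ a ∈ l, f (l.foldl (fun m a => if f a < f m then a else m) m) ≤ f a) ∧
    (l.foldl (fun m a => if f a < f m then a else m) m = m ∨
      l.foldl (fun m a => if f a < f m then a else m) m ∈ l) := by
  induction l generalizing m with
  | nil => simp
  | cons x l ih =>
      obtain ⟨⟨h1, h2⟩, h3⟩ := ih (if f x < f m then x else m)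
      have hle : f (if f x < f m then x else m) ≤ f m ∧ f (if f x < f m then x else m) ≤ f x := by
        split_ifs with h
        · exact ⟨h.le, le_rfl⟩
        · exact ⟨le_rfl, not_lt.mp h⟩
      refine ⟨⟨?_, ?_⟩, ?_⟩
      · simpa using h1.trans hle.1
      · intro a ha
        rcases List.mem_cons.mp ha with rfl | ha
        · simpa using h1.trans hle.2
        · simpa using h2 a ha
      · simp only [List.foldl_cons, List.mem_cons]
        rcases h3 with h3 | h3
        · rw [h3]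
          split_ifs
          · right; left; rfl
          · left; rfl
        · right; right; exact h3

theorem argR_le {n : ℕ} {f : ℕ → ℕ} {a : ℕ} (ha : a < n) : f (argR n f) ≤ f a :=
  (foldl_arg (List.range n) f 0).1.2 a (List.mem_range.mpr ha)

theorem argR_lt {n : ℕ} (hn : 0 < n) (f : ℕ → ℕ) : argR n f < n := by
  rcases (foldl_arg (List.range n) f 0).2 with h | h
  · show (List.range n).foldl _ 0 < n
    rw [h]; exact hn
  · exact List.mem_range.mp h

theorem g1_tab {n : ℕ} {f : ℕ → ℕ} {i : ℕ} (hi : i < n) : g1 (tab n f) i = f i := by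
  simp [g1, tab, List.getD, hi]

theorem g2_tab {n m : ℕ} {f : ℕ → ℕ → ℕ} {i j : ℕ} (hi : i < n) (hj : j < m) :
    g2 (tab n fun i => tab m fun j => f i j) i j = f i j := by
  simp [g2, tab, List.getD, hi, hj]

/-- `D` one step. -/
theorem D_succ (A : ℕ) (T : List (List (List ℕ))) (j : ℕ) (hj : j < T.length) :
    D A T (j + 1) = stp A (T.getD j []) (D A T j) := by
  have e : T.take (j + 1) = T.take j ++ [T.getD j []] := by
    rw [List.take_add_one]
    simp [List.getElem?_eq_getElem hj, List.getD]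
  unfold D
  rw [e, List.foldl_append]
  rfl

/-- upper bound by every staircase of letters `< A` (no condition on the first letter). -/
theorem D_le (A : ℕ) (T : List (List (List ℕ))) (s : ℕ → ℕ) (j : ℕ) (hj : j ≤ T.length)
    (hs : ∀ i ≤ j, s i < A) :
    g1 (D A T j) (s j) ≤ ∑ q ∈ range j, g3 T q (s q) (s (q + 1)) := by
  induction j with
  | zero =>
      have h0 := hs 0 le_rfl
      simp [D, g1_tab h0]
  | succ j ih =>
      rw [D_succ A T j (by omega), sum_range_succ]
      have h1 := ih (by omega) (fun i hi => hs i (by omega))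
      unfold stp
      rw [g1_tab (hs (j + 1) le_rfl)]
      refine (minR_le (hs j (by omega))).trans ?_
      show g1 (D A T j) (s j) + g2 (T.getD j []) (s j) (s (j + 1)) ≤ _
      have e : g2 (T.getD j []) (s j) (s (j + 1)) = g3 T j (s j) (s (j + 1)) := rfl
      omega

/-- the prefix minimum is attained. -/
theorem D_att (A : ℕ) (hA : 0 < A) (T : List (List (List ℕ))) (j : ℕ) (hj : j ≤ T.length) (b : ℕ)
    (hb : b < A) : ∃ s : ℕ → ℕ, (∀ i ≤ j, s i < A) ∧ s j = b ∧
      g1 (D A T j) b = ∑ q ∈ range j, g3 T q (s q) (s (q + 1)) := by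
  induction j generalizing b with
  | zero => exact ⟨fun _ => b, fun _ _ => hb, rfl, by simp [D, g1_tab hb]⟩
  | succ j ih =>
      rw [D_succ A T j (by omega)]
      unfold stp
      rw [g1_tab hb]
      obtain ⟨a, ha, he⟩ := minR_att hA fun a => g1 (D A T j) a + g2 (T.getD j []) a b
      obtain ⟨s, sA, sj, se⟩ := ih (by omega) a ha
      refine ⟨fun i => if i ≤ j then s i else b, ?_, by simp, ?_⟩
      · intro i hi
        by_cases h : i ≤ j
        · simpa [h] using sA i h
        · simpa [h] using hb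
      · rw [he, se, sum_range_succ]
        congr 1
        · apply sum_congr rfl
          intro q hq
          have hq' := mem_range.mp hq
          have a1 : q ≤ j := by omega
          have a2 : q + 1 ≤ j := by omega
          simp only [a1, a2, if_true]
        · have a2 : ¬ (j + 1 ≤ j) := by omega
          simp only [le_refl, if_true, a2, if_false, sj]
          rfl

/-- entry of a table with fixed outer cuts. -/
theorem g3_ends {N A a₀ b₀ : ℕ} {T : List (List (List ℕ))} {q a b : ℕ} (hq : q < N) (ha : a < A)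
    (hb : b < A) :
    g3 (ends N A a₀ b₀ T) q a b =
      g3 T q (if q = 0 then a₀ else a) (if q + 1 = N then b₀ else b) := by
  simp [ends, g3, tab, List.getD, hq, ha, hb]

theorem length_ends (N A a₀ b₀ : ℕ) (T : List (List (List ℕ))) :
    (ends N A a₀ b₀ T).length = N := by simp [ends, tab]

/-- value of a piece of the window (real), outer cuts fixed. -/
noncomputable def cR (T : List (List (List ℕ))) (q a b : ℕ) : ℝ := (g3 T q a b : ℝ)

/-- **the plan of `Loc45` is near the comparator.**  `T` = table of the plan function, outer cuts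
fixed in `TF = ends N A a₀ b₀ T`; grid step `st`; `F` = value at the window start; `s` = comparator
(letters `< A`, `s 0 = a₀`, `s N = b₀`).  -/
theorem near_tgt {N A a₀ b₀ F : ℕ} {T : List (List (List ℕ))} {st δ z kap : ℝ} {j : ℕ}
    (hN : 0 < N) (hj : j ≤ N) (ha₀ : a₀ < A) (hst : 0 < st) (hδ : 0 < δ) (hz : 0 ≤ z)
    (hF0 : 0 < F)
    (hlip : ∀ q < N, ∀ a < A, ∀ b < A, ∀ b' < A,
      |(g3 T q a b : ℝ) - g3 T q a b'| ≤ st * |(b : ℝ) - b'| + z)
    (hF : ∀ s : ℕ → ℕ, s 0 = a₀ → s N = b₀ → (∀ i ≤ N, s i < A) →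
      (F : ℝ) ≤ val N (cR T) s + kap)
    (s : ℕ → ℕ) (s0 : s 0 = a₀) (sN : s N = b₀) (sA : ∀ i ≤ N, s i < A)
    (hd : ∀ q < N, st * |((s (q + 1) : ℕ) : ℝ) - s q| ≤ g3 T q (s q) (s (q + 1)))
    (hθ : st * |(b₀ : ℝ) - a₀| ≤ (1 - δ) * F) :
    st * |((s j : ℕ) : ℝ) - tgt N A a₀ b₀ F (ends N A a₀ b₀ T) j| ≤
      (2 * (√(val N (cR T) s * EnS N (fun a => st * a) (cR T) (st * ((b₀ : ℝ) - a₀) / F) s) +
        max 0 (val N (cR T) s - F + kap)) + z) / δ := by
  have hRHS : 0 ≤ (2 * (√(val N (cR T) s * EnS N (fun a => st * a) (cR T)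
      (st * ((b₀ : ℝ) - a₀) / F) s) + max 0 (val N (cR T) s - F + kap)) + z) / δ := by
    have h1 := Real.sqrt_nonneg (val N (cR T) s * EnS N (fun a => st * a) (cR T)
      (st * ((b₀ : ℝ) - a₀) / F) s)
    have h2 : 0 ≤ max 0 (val N (cR T) s - F + kap) := le_max_left _ _
    positivity
  by_cases hj0 : j = 0
  · subst hj0
    simp only [tgt, if_true, s0, sub_self, abs_zero, mul_zero]
    exact hRHS
  by_cases hjN : j = N
  · subst hjN
    have : tgt j A a₀ b₀ F (ends j A a₀ b₀ T) j = b₀ := by simp [tgt, hj0]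
    rw [this, sN]
    simp only [sub_self, abs_zero, mul_zero]
    exact hRHS
  have hA : 0 < A := by omega
  have hb₀ : b₀ < A := by rw [← sN]; exact sA N le_rfl
  set TF := ends N A a₀ b₀ T with hTF
  have hlen : TF.length = N := length_ends N A a₀ b₀ T
  have hFp : (0 : ℝ) < F := by exact_mod_cast hF0
  -- pieces of `TF` along a staircase with the right outer letters
  have hpre : ∀ r : ℕ → ℕ, r 0 = a₀ → (∀ i ≤ j, r i < A) → ∀ q < j,
      g3 TF q (r q) (r (q + 1)) = g3 T q (r q) (r (q + 1)) := by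
    intro r r0 rA q hq
    rw [hTF, g3_ends (by omega) (rA q (by omega)) (rA (q + 1) (by omega))]
    have h1 : (if q = 0 then a₀ else r q) = r q := by
      split_ifs with h
      · rw [h, r0]
      · rfl
    have h2 : ¬ (q + 1 = N) := by omega
    rw [h1, if_neg h2]
  let Dp : ℕ → ℕ → ℝ := fun i b => (g1 (D A TF i) b : ℝ)
  have hle : ∀ r : ℕ → ℕ, r 0 = a₀ → (∀ i ≤ j, r i < A) →
      Dp j (r j) ≤ ∑ q ∈ range j, cR T q (r q) (r (q + 1)) := by
    intro r r0 rA
    have h := D_le A TF r j (by omega) rA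
    have e : ∑ q ∈ range j, g3 TF q (r q) (r (q + 1)) = ∑ q ∈ range j, g3 T q (r q) (r (q + 1)) :=
      sum_congr rfl fun q hq => hpre r r0 rA q (mem_range.mp hq)
    rw [e] at h
    show (g1 (D A TF j) (r j) : ℝ) ≤ _
    have : ((g1 (D A TF j) (r j) : ℕ) : ℝ) ≤
        ((∑ q ∈ range j, g3 T q (r q) (r (q + 1)) : ℕ) : ℝ) := by exact_mod_cast h
    simpa [cR] using this
  have hat : ∀ b < A, ∃ r : ℕ → ℕ, r 0 = a₀ ∧ (∀ i ≤ j, r i < A) ∧ r j = b ∧
      Dp j b = ∑ q ∈ range j, cR T q (r q) (r (q + 1)) := by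
    intro b hb
    obtain ⟨r, rA, rj, re⟩ := D_att A hA TF j (by omega) b hb
    -- replace the letter at the cut `0`
    refine ⟨fun i => if i = 0 then a₀ else r i, by simp, ?_, by simp [hj0, rj], ?_⟩
    · intro i hi
      by_cases h : i = 0
      · simpa [h] using ha₀
      · simpa [h] using rA i hi
    · show (g1 (D A TF j) b : ℝ) = _
      rw [re]
      push_cast
      apply sum_congr rfl
      intro q hq
      have hq' := mem_range.mp hq
      have h2 : ¬ (q + 1 = N) := by omega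
      rw [hTF, g3_ends (by omega) (rA q (by omega)) (rA (q + 1) (by omega)), if_neg h2]
      have h3 : ¬ (q + 1 = 0) := by omega
      simp only [cR, h3, if_false]
  have hval : ∀ b < A, ∀ b' < A, Dp j b ≤ Dp j b' + (|st * (b : ℝ) - st * b'| + z) := by
    intro b hb b' hb'
    obtain ⟨i, rfl⟩ : ∃ i, j = i + 1 := ⟨j - 1, by omega⟩
    obtain ⟨r, r0, rA, rj, re⟩ := hat b' hb'
    have h1 := hle (fun q => if q ≤ i then r q else b) (by simpa using r0) ?_
    · rw [re]
      have a2 : ¬ (i + 1 ≤ i) := by omega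
      rw [if_neg a2, sum_range_succ] at h1
      rw [sum_range_succ]
      have e1 : ∑ q ∈ range i, cR T q (if q ≤ i then r q else b)
          (if q + 1 ≤ i then r (q + 1) else b) =
          ∑ q ∈ range i, cR T q (r q) (r (q + 1)) := by
        apply sum_congr rfl
        intro q hq
        have hq' := mem_range.mp hq
        have a1 : q ≤ i := by omega
        have a2 : q + 1 ≤ i := by omega
        simp only [a1, a2, if_true]
      rw [e1] at h1
      simp only [le_refl, if_true, a2, if_false] at h1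
      have hl := hlip i (by omega) (r i) (rA i (by omega)) b hb b' hb'
      have hl' := (abs_le.mp hl).2
      rw [rj]
      have e3 : st * |(b : ℝ) - b'| = |st * (b : ℝ) - st * b'| := by
        rw [← mul_sub, abs_mul, abs_of_pos hst]
      simp only [cR] at h1 ⊢
      rw [← e3]
      linarith
    · intro q hq
      by_cases h : q ≤ i
      · simpa [h] using rA q (by omega)
      · simpa [h] using hb
  have hlip' : ∀ b < A, ∀ b' < A, |Dp j b - Dp j b'| ≤ |st * (b : ℝ) - st * b'| + z := by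
    intro b hb b' hb'
    rw [abs_sub_le_iff]
    constructor
    · have := hval b hb b' hb'; linarith
    · have := hval b' hb' b hb
      rw [abs_sub_comm] at this
      linarith
  have htgt : tgt N A a₀ b₀ F TF j = argR A fun b =>
      (((b : ℤ) - a₀) * F - ((b₀ : ℤ) - a₀) * (g1 (D A TF j) b : ℤ)).natAbs := by
    simp [tgt, hj0, hjN]
  set m' := tgt N A a₀ b₀ F TF j with hm'
  have hm'A : m' < A := by rw [htgt]; exact argR_lt hA _
  set θ : ℝ := st * ((b₀ : ℝ) - a₀) / F with hθd
  have hθ' : |θ| ≤ 1 - δ := by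
    rw [hθd, abs_div, abs_mul, abs_of_pos hst, abs_of_pos hFp, div_le_iff₀ hFp]
    exact hθ
  -- the residual in real form
  have hres : ∀ b : ℕ, |st * (b : ℝ) - st * (a₀ : ℝ) - θ * Dp j b| =
      st / F * ((((b : ℤ) - a₀) * F - ((b₀ : ℤ) - a₀) * (g1 (D A TF j) b : ℤ)).natAbs : ℝ) := by
    intro b
    have e1 : st * (b : ℝ) - st * (a₀ : ℝ) - θ * Dp j b =
        st / F * ((((b : ℤ) - a₀) * F - ((b₀ : ℤ) - a₀) * (g1 (D A TF j) b : ℤ) : ℤ) : ℝ) := by
      rw [hθd]
      push_cast
      field_simp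
      rfl
    rw [e1, abs_mul, abs_of_pos (by positivity : (0 : ℝ) < st / F)]
    congr 1
    rw [Nat.cast_natAbs, Int.cast_abs]
  have hmin : |st * (m' : ℝ) - st * (a₀ : ℝ) - θ * Dp j m'| ≤
      |st * ((s j : ℕ) : ℝ) - st * (a₀ : ℝ) - θ * Dp j (s j)| + 0 := by
    rw [hres, hres, add_zero]
    apply mul_le_mul_of_nonneg_left _ (by positivity)
    have h := argR_le (n := A) (f := fun b =>
      (((b : ℤ) - a₀) * F - ((b₀ : ℤ) - a₀) * (g1 (D A TF j) b : ℤ)).natAbs) (sA j hj)
    rw [htgt]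
    exact_mod_cast h
  have hmain := near_idx (N := N) (A := A) (a₀ := a₀) (b₀ := b₀) (pos := fun a => st * a)
    (c := cR T) (Dp := Dp) (F := (F : ℝ)) (kap := kap) (θ := θ) (δ := δ) (z := z) (e0 := 0)
    hj hδ hz hle hat hlip' hF s s0 sN sA ?_ hθ' m' hm'A hmin
  · simp only [add_zero] at hmain
    have e : |st * ((s j : ℕ) : ℝ) - st * (m' : ℝ)| = st * |((s j : ℕ) : ℝ) - m'| := by
      rw [← mul_sub, abs_mul, abs_of_pos hst]
    rw [← e]
    exact hmain
  · intro q hq
    have h := hd q hq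
    have e : |st * ((s (q + 1) : ℕ) : ℝ) - st * ((s q : ℕ) : ℝ)| =
        st * |((s (q + 1) : ℕ) : ℝ) - s q| := by
      rw [← mul_sub, abs_mul, abs_of_pos hst]
    show |st * ((s (q + 1) : ℕ) : ℝ) - st * ((s q : ℕ) : ℝ)| ≤ cR T q (s q) (s (q + 1))
    rw [e]; exact h

end Crest.Agent.R288.PlanL744
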