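import Crest.Agent.R288.PlanC_744

/-!
# Prefix plan, cut form, MULTIPLICATIVE Lipschitz (row 288, helper744)

As `PlanC_744`, but the plan function is only approximately Lipschitz,
`F(y) ≤ (1+ζ)(F(y') + dist)`, and the defect is multiplicative, `F ≤ (1+ν)(val s + D0)`.

* `Dp_mul`: the prefix minimum has the same property in its end;
* `near_mul`: `|ps j (s j) - ps j m'| ≤ 4(√(V En) + (V - F + νF + D0)⁺ + e0 + ζ V)/δ`;
* **`near_or_far`**: all cuts near (`≤ σ F`), or `c0 F ≤ En + (V - F)⁺`;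
* `tube_sum`: sum of `F` over pieces near those of `s`.
-/

set_option autoImplicit false

namespace Crest.Agent.R288.PlanM744

open Finset Crest.Agent.R288.Plan744 Crest.Agent.R288.PlanC744

section

variable {N A : ℕ} {u : ℝ} {ps : ℕ → ℕ → ℝ} {c : ℕ → ℕ → ℕ → ℝ} {Dp : ℕ → ℕ → ℝ}

/-- the prefix minimum is multiplicatively Lipschitz if the last piece is. -/
theorem Dp_mul {ζ : ℝ} {i : ℕ} (hζ : 0 ≤ ζ)
    (hc0 : ∀ q ≤ i, ∀ a < A, ∀ b < A, 0 ≤ c q a b)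
    (hle : ∀ s : ℕ → ℕ, (∀ k ≤ i + 1, s k < A) →
      Dp (i + 1) (s (i + 1)) ≤ ∑ q ∈ range (i + 1), c q (s q) (s (q + 1)))
    (hat : ∀ b < A, ∃ s : ℕ → ℕ, (∀ k ≤ i + 1, s k < A) ∧ s (i + 1) = b ∧
      Dp (i + 1) b = ∑ q ∈ range (i + 1), c q (s q) (s (q + 1)))
    (hlip : ∀ a < A, ∀ b < A, ∀ b' < A,
      c i a b ≤ (1 + ζ) * (c i a b' + |ps (i + 1) b - ps (i + 1) b'|)) :
    ∀ b < A, ∀ b' < A,
      Dp (i + 1) b ≤ (1 + ζ) * (Dp (i + 1) b' + |ps (i + 1) b - ps (i + 1) b'|) := by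
  intro b hb b' hb'
  obtain ⟨r, rA, rj, re⟩ := hat b' hb'
  have h1 := hle (fun q => if q ≤ i then r q else b) ?_
  · rw [re]
    have a2 : ¬ (i + 1 ≤ i) := by omega
    rw [if_neg a2, sum_range_succ] at h1
    rw [sum_range_succ]
    have e1 : ∑ q ∈ range i, c q (if q ≤ i then r q else b)
        (if q + 1 ≤ i then r (q + 1) else b) =
        ∑ q ∈ range i, c q (r q) (r (q + 1)) := by
      apply sum_congr rfl
      intro q hq
      have hq' := mem_range.mp hq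
      have a1 : q ≤ i := by omega
      have a2 : q + 1 ≤ i := by omega
      simp only [a1, a2, if_true]
    rw [e1] at h1
    simp only [le_refl, if_true, a2, if_false] at h1
    have hl := hlip (r i) (rA i (by omega)) b hb b' hb'
    rw [rj]
    have hS : 0 ≤ ∑ q ∈ range i, c q (r q) (r (q + 1)) :=
      sum_nonneg fun q hq => hc0 q (by have := mem_range.mp hq; omega) _
        (rA q (by have := mem_range.mp hq; omega)) _ (rA (q + 1) (by have := mem_range.mp hq; omega))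
    nlinarith [mul_nonneg hζ hS]
  · intro q hq
    by_cases h : q ≤ i
    · simpa [h] using rA q (by omega)
    · simpa [h] using hb

/-- **NEAR, multiplicative form.** -/
theorem near_mul {F ν D0 θ δ ζ e0 : ℝ} {j : ℕ} (hj : j ≤ N) (hδ : 0 < δ) (hζ : 0 ≤ ζ)
    (hζδ : 6 * ζ ≤ δ) (hδ1 : δ ≤ 1) (hF0 : 0 ≤ F) (hν : 0 ≤ ν) (he0 : 0 ≤ e0)
    (hc0 : ∀ q < N, ∀ a < A, ∀ b < A, 0 ≤ c q a b)
    (hle : ∀ s : ℕ → ℕ, (∀ i ≤ j, s i < A) → Dp j (s j) ≤ ∑ q ∈ range j, c q (s q) (s (q + 1)))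
    (hat : ∀ b < A, ∃ s : ℕ → ℕ, (∀ i ≤ j, s i < A) ∧ s j = b ∧
      Dp j b = ∑ q ∈ range j, c q (s q) (s (q + 1)))
    (hlip : ∀ b < A, ∀ b' < A, Dp j b ≤ (1 + ζ) * (Dp j b' + |ps j b - ps j b'|))
    (hF : ∀ s : ℕ → ℕ, (∀ i ≤ N, s i < A) → F ≤ (1 + ν) * (val N c s + D0))
    (s : ℕ → ℕ) (sA : ∀ i ≤ N, s i < A) (hu : ps 0 (s 0) = u)
    (hd : ∀ q < N, |ps (q + 1) (s (q + 1)) - ps q (s q)| ≤ c q (s q) (s (q + 1)))
    (hθ : |θ| ≤ 1 - δ) (m' : ℕ) (hm' : m' < A)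
    (hm : |ps j m' - u - θ * Dp j m'| ≤ |ps j (s j) - u - θ * Dp j (s j)| + e0) :
    |ps j (s j) - ps j m'| ≤
      4 * (√(val N c s * EnC N ps c θ s) + max 0 (val N c s - F + (ν * F + D0)) + e0 +
        ζ * val N c s) / δ := by
  have hθ1 : |θ| ≤ 1 := by linarith
  have hF' : ∀ r : ℕ → ℕ, (∀ i ≤ N, r i < A) → F ≤ val N c r + (ν * F + D0) := by
    intro r rA
    have h := hF r rA
    have h2 : F - ν * F ≤ val N c r + D0 := by
      by_contra hcon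
      push Not at hcon
      have h3 : (1 + ν) * (val N c r + D0) < (1 + ν) * (F - ν * F) := by
        apply mul_lt_mul_of_pos_left hcon; linarith
      nlinarith [mul_nonneg (mul_nonneg hν hν) hF0]
    linarith
  have h1 := resid_cut (Dp := Dp) (kap := ν * F + D0) hj hle hat hF' s sA hu hd hθ1
  set R := √(val N c s * EnC N ps c θ s) + max 0 (val N c s - F + (ν * F + D0)) with hR
  set φ := Dp j (s j) with hφ
  set φ' := Dp j m' with hφ'
  set d := |ps j (s j) - ps j m'| with hdd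
  have hd0 : 0 ≤ d := abs_nonneg _
  -- the prefix value of the comparator
  have hφV : φ ≤ val N c s := by
    have h2 := hle s (fun i hi => sA i (hi.trans hj))
    refine h2.trans ?_
    unfold PlanC744.val
    exact sum_le_sum_of_subset_of_nonneg (range_subset_range.mpr hj)
      (fun q hq _ => hc0 q (mem_range.mp hq) _ (sA q (le_of_lt (mem_range.mp hq))) _
        (sA (q + 1) (mem_range.mp hq)))
  have hφ0 : 0 ≤ φ := by
    obtain ⟨r, rA, rj, re⟩ := hat (s j) (sA j hj)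
    rw [hφ, re]
    exact sum_nonneg fun q hq => hc0 q (lt_of_lt_of_le (mem_range.mp hq) hj) _
      (rA q (le_of_lt (mem_range.mp hq))) _ (rA (q + 1) (mem_range.mp hq))
  have hζ1 : ζ ≤ 1 := by linarith
  have l1 : φ' ≤ (1 + ζ) * (φ + d) := by
    have := hlip m' hm' (s j) (sA j hj)
    rwa [abs_sub_comm] at this
  have l2 : φ ≤ (1 + ζ) * (φ' + d) := hlip (s j) (sA j hj) m' hm'
  have l3 : |φ - φ'| ≤ d + (3 * ζ * d + 2 * ζ * φ) := by
    rw [abs_sub_le_iff]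
    constructor
    · have e1 : ζ * φ' ≤ ζ * ((1 + ζ) * (φ + d)) := mul_le_mul_of_nonneg_left l1 hζ
      have e2 : ζ * ((1 + ζ) * (φ + d)) ≤ ζ * (2 * (φ + d)) := by
        apply mul_le_mul_of_nonneg_left _ hζ
        apply mul_le_mul_of_nonneg_right (by linarith) (by linarith)
      nlinarith
    · have : ζ * d ≥ 0 := mul_nonneg hζ hd0
      have : ζ * φ ≥ 0 := mul_nonneg hζ hφ0
      nlinarith
  have l4 : d ≤ |ps j (s j) - u - θ * φ| + |ps j m' - u - θ * φ'| + |θ| * |φ - φ'| := by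
    have e : ps j (s j) - ps j m' = (ps j (s j) - u - θ * φ) - (ps j m' - u - θ * φ') +
        θ * (φ - φ') := by ring
    calc d = |(ps j (s j) - u - θ * φ) - (ps j m' - u - θ * φ') + θ * (φ - φ')| := by rw [hdd, e]
      _ ≤ |(ps j (s j) - u - θ * φ) - (ps j m' - u - θ * φ')| + |θ * (φ - φ')| := abs_add_le _ _
      _ ≤ _ := by
          rw [abs_mul]
          gcongr
          exact abs_sub _ _
  have l5 : |θ| * |φ - φ'| ≤ (1 - δ) * d + 3 * ζ * d + 2 * ζ * val N c s := by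
    calc |θ| * |φ - φ'| ≤ |θ| * (d + (3 * ζ * d + 2 * ζ * φ)) := by gcongr
      _ = |θ| * d + |θ| * (3 * ζ * d + 2 * ζ * φ) := by ring
      _ ≤ (1 - δ) * d + 1 * (3 * ζ * d + 2 * ζ * φ) := by
          gcongr
      _ ≤ _ := by
          have : ζ * φ ≤ ζ * val N c s := mul_le_mul_of_nonneg_left hφV hζ
          linarith
  rw [le_div_iff₀ hδ]
  nlinarith

/-- **NEAR OR FAR.** -/
theorem near_or_far {F ν D0 θ δ ζ c0 s0 σ : ℝ} (hδ : 0 < δ) (hζ : 0 ≤ ζ)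
    (hζδ : 6 * ζ ≤ δ) (hδ1 : δ ≤ 1) (hF0 : 0 ≤ F) (hν : 0 ≤ ν) (hc00 : 0 ≤ c0) (hc01 : c0 ≤ 1)
    (hs0 : 0 ≤ s0) (hσ : 4 * (√(2 * c0) + c0 + ν + s0 + 2 * ζ) ≤ δ * σ)
    (hc0 : ∀ q < N, ∀ a < A, ∀ b < A, 0 ≤ c q a b)
    (hle : ∀ j ≤ N, ∀ s : ℕ → ℕ, (∀ i ≤ j, s i < A) →
      Dp j (s j) ≤ ∑ q ∈ range j, c q (s q) (s (q + 1)))
    (hat : ∀ j ≤ N, ∀ b < A, ∃ s : ℕ → ℕ, (∀ i ≤ j, s i < A) ∧ s j = b ∧
      Dp j b = ∑ q ∈ range j, c q (s q) (s (q + 1)))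
    (hlip : ∀ i < N, ∀ a < A, ∀ b < A, ∀ b' < A,
      c i a b ≤ (1 + ζ) * (c i a b' + |ps (i + 1) b - ps (i + 1) b'|))
    (hF : ∀ s : ℕ → ℕ, (∀ i ≤ N, s i < A) → F ≤ (1 + ν) * (val N c s + D0))
    (hD0 : D0 ≤ s0 * F)
    (s : ℕ → ℕ) (sA : ∀ i ≤ N, s i < A) (hu : ps 0 (s 0) = u)
    (hd : ∀ q < N, |ps (q + 1) (s (q + 1)) - ps q (s q)| ≤ c q (s q) (s (q + 1)))
    (hθ : |θ| ≤ 1 - δ) (t : ℕ → ℕ)
    (ht : ∀ j, 1 ≤ j → j < N → t j < A ∧
      |ps j (t j) - u - θ * Dp j (t j)| ≤ |ps j (s j) - u - θ * Dp j (s j)|) :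
    (∀ j, 1 ≤ j → j < N → |ps j (s j) - ps j (t j)| ≤ σ * F) ∨
      c0 * F ≤ EnC N ps c θ s + max 0 (val N c s - F) := by
  by_cases hfar : c0 * F ≤ EnC N ps c θ s + max 0 (val N c s - F)
  · exact Or.inr hfar
  left
  push Not at hfar
  intro j hj1 hjN
  have hEn0 : 0 ≤ EnC N ps c θ s := by
    unfold EnC
    exact sum_nonneg fun q hq => mul_nonneg
      (hc0 q (mem_range.mp hq) _ (sA q (le_of_lt (mem_range.mp hq))) _
        (sA (q + 1) (mem_range.mp hq))) (sq_nonneg _)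
  have hdr0 : 0 ≤ max 0 (val N c s - F) := le_max_left _ _
  have hEn : EnC N ps c θ s ≤ c0 * F := by linarith
  have hdr : val N c s - F ≤ c0 * F := (le_max_right _ _).trans (by linarith)
  have hcF : c0 * F ≤ F := by nlinarith
  have hV : val N c s ≤ 2 * F := by linarith
  have hV0 : 0 ≤ val N c s := by
    unfold PlanC744.val
    exact sum_nonneg fun q hq => hc0 q (mem_range.mp hq) _ (sA q (le_of_lt (mem_range.mp hq))) _
        (sA (q + 1) (mem_range.mp hq))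
  obtain ⟨i, rfl⟩ : ∃ i, j = i + 1 := ⟨j - 1, by omega⟩
  have hD := Dp_mul (ps := ps) (Dp := Dp) hζ (fun q hq => hc0 q (by omega)) (hle (i + 1) hjN.le)
    (hat (i + 1) hjN.le) (hlip i (by omega))
  have h1 := near_mul (e0 := 0) hjN.le hδ hζ hζδ hδ1 hF0 hν le_rfl hc0 (hle (i + 1) hjN.le)
    (hat (i + 1) hjN.le) hD hF s sA hu hd hθ (t (i + 1)) (ht _ hj1 hjN).1
    (by simpa using (ht _ hj1 hjN).2)
  refine h1.trans ?_
  rw [div_le_iff₀ hδ]
  have hsq : √(val N c s * EnC N ps c θ s) ≤ √(2 * c0) * F := by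
    rw [← Real.sqrt_sq hF0, ← Real.sqrt_mul (by positivity)]
    apply Real.sqrt_le_sqrt
    calc val N c s * EnC N ps c θ s ≤ (2 * F) * (c0 * F) := by gcongr
      _ = 2 * c0 * F ^ 2 := by ring
  have hmx : max 0 (val N c s - F + (ν * F + D0)) ≤ (c0 + ν + s0) * F := by
    apply max_le
    · positivity
    · linarith
  have hζV : ζ * val N c s ≤ 2 * ζ * F := by nlinarith
  have := mul_le_mul_of_nonneg_right hσ hF0
  nlinarith

/-- **the tube**: pieces `(w q, w' q)` whose two ends are within `ρ` of those of `s`: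
`∑_{p ≤ q < p+M} c q (w q) (w' q) ≤ (1+ζ)² (∑ c q (s q) (s (q+1)) + M 2ρ)`. -/
theorem tube_sum {ζ ρ : ℝ} (hζ : 0 ≤ ζ) (hρ : 0 ≤ ρ) (p M : ℕ) (s w w' : ℕ → ℕ)
    (hr : ∀ q, p ≤ q → q < p + M →
      c q (w q) (w' q) ≤ (1 + ζ) * (c q (w q) (s (q + 1)) + ρ))
    (hl : ∀ q, p ≤ q → q < p + M →
      c q (w q) (s (q + 1)) ≤ (1 + ζ) * (c q (s q) (s (q + 1)) + ρ)) :
    ∑ q ∈ Ico p (p + M), c q (w q) (w' q) ≤
      (1 + ζ) ^ 2 * (∑ q ∈ Ico p (p + M), c q (s q) (s (q + 1)) + M * (2 * ρ)) := by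
  have h : ∀ q ∈ Ico p (p + M), c q (w q) (w' q) ≤
      (1 + ζ) ^ 2 * (c q (s q) (s (q + 1)) + 2 * ρ) := by
    intro q hq
    have hq' := mem_Ico.mp hq
    have h1 := hr q hq'.1 hq'.2
    have h2 := hl q hq'.1 hq'.2
    have h3 : (1 + ζ) * (c q (w q) (s (q + 1)) + ρ) ≤
        (1 + ζ) * ((1 + ζ) * (c q (s q) (s (q + 1)) + ρ) + ρ) := by gcongr
    have h4 : (1 + ζ) * ((1 + ζ) * (c q (s q) (s (q + 1)) + ρ) + ρ) ≤
        (1 + ζ) ^ 2 * (c q (s q) (s (q + 1)) + 2 * ρ) := by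
      nlinarith [mul_nonneg (mul_nonneg hζ hρ) (by linarith : (0:ℝ) ≤ 1 + ζ)]
    linarith
  calc ∑ q ∈ Ico p (p + M), c q (w q) (w' q)
      ≤ ∑ q ∈ Ico p (p + M), (1 + ζ) ^ 2 * (c q (s q) (s (q + 1)) + 2 * ρ) := sum_le_sum h
    _ = _ := by
        rw [← mul_sum, sum_add_distrib]
        simp

end

end Crest.Agent.R288.PlanM744
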