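import Mathlib

/-!
# Prefix plan of a window (LEMMA 288-440; helper440)

Window start `x = (H; u, v)` with pieces `0, …, B-1`; a staircase is a sequence of cuts `c 0 = u`,
`c 1`, …, `c B = v`; the cost of piece `j` is `F j (c j) (c (j+1)) ≥ 0`.  Cuts live in any type `ι`
with a position `p : ι → ℝ` (integers, shifted naturals, …).

* `DP F u X t m` = minimal cost of the pieces `0..t` over staircases from `u` to `m` with inner cuts
  in the finite set `X` (left-to-right dynamic program).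
* `energy_id`, `energy_step`: the exact energy identity in `F`-mass.
* `near`: at a good window every cut of the comparator is near the target of the plan, the target of
  a cut being ANY grid point minimising the residual `|p m - p u - θ * D̂ t m|`.
-/

namespace Crest.Agent.R288.PlanP440

open Finset

section dp

variable {ι : Type*} (F : ℕ → ι → ι → ℝ) (u : ι) (X : Finset ι)

/-- cost of the pieces `0..t-1` of the staircase `c` -/
def St (c : ℕ → ι) (t : ℕ) : ℝ := ∑ j ∈ range t, F j (c j) (c (j + 1))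

theorem St_zero (c : ℕ → ι) : St F c 0 = 0 := by simp [St]

theorem St_succ (c : ℕ → ι) (t : ℕ) : St F c (t + 1) = St F c t + F t (c t) (c (t + 1)) := by
  simp [St, sum_range_succ]

/-- the cost of a prefix only depends on the cuts of the prefix -/
theorem St_congr {c c' : ℕ → ι} {t : ℕ} (h : ∀ i ≤ t, c i = c' i) : St F c t = St F c' t := by
  unfold St
  refine sum_congr rfl fun j hj => ?_
  rw [mem_range] at hj
  rw [h j (by omega), h (j + 1) (by omega)]

/-- left-to-right dynamic program: `DP t m` = minimal cost of the pieces `0..t` (that is `t+1`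
pieces) over the staircases from `u` to `m` with inner cuts in `X` -/
def DP (hX : X.Nonempty) : ℕ → ι → ℝ
  | 0, m => F 0 u m
  | t + 1, m => X.inf' hX fun m' => DP hX t m' + F (t + 1) m' m

variable {F u X}

theorem DP_le (hX : X.Nonempty) {c : ℕ → ι} (h0 : c 0 = u) (t : ℕ)
    (hc : ∀ i, 1 ≤ i → i ≤ t → c i ∈ X) : DP F u X hX t (c (t + 1)) ≤ St F c (t + 1) := by
  induction t with
  | zero => simp [DP, St, h0]
  | succ t ih =>
    rw [St_succ]
    have h1 : DP F u X hX (t + 1) (c (t + 1 + 1))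
        ≤ DP F u X hX t (c (t + 1)) + F (t + 1) (c (t + 1)) (c (t + 1 + 1)) :=
      inf'_le (f := fun m' => DP F u X hX t m' + F (t + 1) m' (c (t + 1 + 1)))
        (hc (t + 1) (by omega) le_rfl)
    have h2 := ih fun i hi hi' => hc i hi (by omega)
    linarith

theorem DP_att (hX : X.Nonempty) (t : ℕ) (m : ι) :
    ∃ c : ℕ → ι, c 0 = u ∧ c (t + 1) = m ∧ (∀ i, 1 ≤ i → i ≤ t → c i ∈ X) ∧
      St F c (t + 1) = DP F u X hX t m := by
  induction t generalizing m with
  | zero =>
    refine ⟨fun i => if i = 0 then u else m, by simp, by simp, fun i h1 h2 => by omega, ?_⟩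
    simp [St, DP]
  | succ t ih =>
    obtain ⟨m', hm', he⟩ := exists_mem_eq_inf' hX fun m' => DP F u X hX t m' + F (t + 1) m' m
    obtain ⟨c, h0, h1, h2, h3⟩ := ih m'
    refine ⟨fun i => if i = t + 2 then m else c i, ?_, ?_, ?_, ?_⟩
    · simp [h0]
    · simp
    · intro i hi hi'
      have hne : i ≠ t + 2 := by omega
      simp only [hne, if_false]
      rcases Nat.lt_or_ge i (t + 1) with h | h
      · exact h2 i hi (by omega)
      · have : i = t + 1 := by omega
        rw [this, h1]; exact hm'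
    · rw [St_succ]
      have e1 : St F (fun i => if i = t + 2 then m else c i) (t + 1) = St F c (t + 1) := by
        refine St_congr F fun i hi => ?_
        have hne : i ≠ t + 2 := by omega
        simp [hne]
      rw [e1, h3]
      have e2 : t + 1 ≠ t + 2 := by omega
      have e3 : t + 1 + 1 = t + 2 := rfl
      simp only [e2, if_false, e3, if_true, h1]
      change _ = X.inf' hX _
      exact he.symm

/-- if the costs are Lipschitz in the right end, so is `DP` -/
theorem DP_lip (hX : X.Nonempty) {p : ι → ℝ} {Λ : ℝ}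
    (hF : ∀ j m a b, F j m a ≤ F j m b + Λ * |p a - p b|) (t : ℕ) (a b : ι) :
    DP F u X hX t a ≤ DP F u X hX t b + Λ * |p a - p b| := by
  cases t with
  | zero => exact hF 0 u a b
  | succ t =>
    obtain ⟨m', hm', he⟩ := exists_mem_eq_inf' hX fun m' => DP F u X hX t m' + F (t + 1) m' b
    have h1 : DP F u X hX (t + 1) a ≤ DP F u X hX t m' + F (t + 1) m' a :=
      inf'_le (f := fun m' => DP F u X hX t m' + F (t + 1) m' a) hm'
    have h2 : DP F u X hX (t + 1) b = DP F u X hX t m' + F (t + 1) m' b := he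
    have h3 := hF (t + 1) m' a b
    linarith

theorem DP_mono_err (hX : X.Nonempty) {F' : ℕ → ι → ι → ℝ} {e : ℝ} (t : ℕ)
    (h0 : ∀ m, m ∈ X → F 0 u m ≤ F' 0 u m + e)
    (hj : ∀ j ≤ t, 1 ≤ j → ∀ a ∈ X, ∀ b ∈ X, F j a b ≤ F' j a b + e) (m : ι) (hm : m ∈ X) :
    DP F u X hX t m ≤ DP F' u X hX t m + (t + 1) * e := by
  induction t generalizing m with
  | zero =>
    have := h0 m hm
    simp only [DP, Nat.cast_zero, zero_add, one_mul]
    exact this
  | succ t ih =>
    obtain ⟨m', hm', he⟩ := exists_mem_eq_inf' hX fun m' => DP F' u X hX t m' + F' (t + 1) m' m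
    have h1 : DP F u X hX (t + 1) m ≤ DP F u X hX t m' + F (t + 1) m' m :=
      inf'_le (f := fun m' => DP F u X hX t m' + F (t + 1) m' m) hm'
    have h2 : DP F' u X hX (t + 1) m = DP F' u X hX t m' + F' (t + 1) m' m := he
    have h3 := ih (fun j hj' hj1 => hj j (by omega) hj1) m' hm'
    have h4 := hj (t + 1) le_rfl (by omega) m' hm' m hm
    push_cast
    linarith

/-- error propagation of estimated costs -/
theorem DP_err (hX : X.Nonempty) {F' : ℕ → ι → ι → ℝ} {e : ℝ} (t : ℕ)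
    (h0 : ∀ m, m ∈ X → |F 0 u m - F' 0 u m| ≤ e)
    (hj : ∀ j ≤ t, 1 ≤ j → ∀ a ∈ X, ∀ b ∈ X, |F j a b - F' j a b| ≤ e) (m : ι) (hm : m ∈ X) :
    |DP F u X hX t m - DP F' u X hX t m| ≤ (t + 1) * e := by
  rw [abs_le]
  constructor
  · have := DP_mono_err (F := F') (F' := F) (u := u) (e := e) hX t
      (fun m hm => by have := abs_le.1 (h0 m hm); linarith)
      (fun j h1 h2 a ha b hb => by have := abs_le.1 (hj j h1 h2 a ha b hb); linarith) m hm
    linarith
  · have := DP_mono_err (F := F) (F' := F') (u := u) (e := e) hX t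
      (fun m hm => by have := abs_le.1 (h0 m hm); linarith)
      (fun j h1 h2 a ha b hb => by have := abs_le.1 (hj j h1 h2 a ha b hb); linarith) m hm
    linarith

/-- **cut and paste**: if every staircase `u → v` over the `B` pieces with inner cuts in `X` costs at
least `m₀`, then the prefix cost of `c` is at most the optimal prefix cost plus the excess of `c` -/
theorem prefix_le (hX : X.Nonempty) {B : ℕ} {c : ℕ → ι} {m₀ : ℝ}
    (hcX : ∀ i, 1 ≤ i → i < B → c i ∈ X)
    (hmin : ∀ c' : ℕ → ι, c' 0 = u → c' B = c B → (∀ i, 1 ≤ i → i < B → c' i ∈ X) →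
      m₀ ≤ St F c' B) {t : ℕ} (ht : t + 1 < B) :
    St F c (t + 1) ≤ DP F u X hX t (c (t + 1)) + (St F c B - m₀) := by
  obtain ⟨c1, h0, h1, h2, h3⟩ := DP_att (F := F) (u := u) (X := X) hX t (c (t + 1))
  -- glue `c1` on `[0, t+1]` and `c` after it
  set c' : ℕ → ι := fun i => if i ≤ t + 1 then c1 i else c i with hc'
  have hc0 : c' 0 = u := by simp [hc', h0]
  have hcB : c' B = c B := by
    have : ¬ B ≤ t + 1 := by omega
    simp [hc', this]
  have hc1 : ∀ i, 1 ≤ i → i < B → c' i ∈ X := by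
    intro i hi hi'
    by_cases h : i ≤ t + 1
    · simp only [hc', h, if_true]
      rcases Nat.lt_or_ge i (t + 1) with h' | h'
      · exact h2 i hi (by omega)
      · have : i = t + 1 := by omega
        rw [this, h1]; exact hcX (t + 1) (by omega) (by omega)
    · simp only [hc', h, if_false]; exact hcX i hi hi'
  have hm := hmin c' hc0 hcB hc1
  -- split both sums at `t+1`
  have split : ∀ d : ℕ → ι, St F d B = St F d (t + 1)
      + ∑ j ∈ Ico (t + 1) B, F j (d j) (d (j + 1)) := by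
    intro d
    unfold St
    rw [range_eq_Ico, range_eq_Ico,
      ← sum_Ico_consecutive _ (Nat.zero_le (t + 1)) (by omega : t + 1 ≤ B)]
  have e1 : St F c' (t + 1) = St F c1 (t + 1) := by
    refine St_congr F fun i hi => ?_
    simp [hc', hi]
  have e2 : ∑ j ∈ Ico (t + 1) B, F j (c' j) (c' (j + 1))
      = ∑ j ∈ Ico (t + 1) B, F j (c j) (c (j + 1)) := by
    refine sum_congr rfl fun j hj => ?_
    rw [mem_Ico] at hj
    have a1 : c' (j + 1) = c (j + 1) := by
      have : ¬ j + 1 ≤ t + 1 := by omega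
      simp only [hc', this, if_false]
    have a2 : c' j = c j := by
      rcases Nat.lt_or_ge (t + 1) j with h | h
      · have : ¬ j ≤ t + 1 := by omega
        simp only [hc', this, if_false]
      · have : j = t + 1 := by omega
        rw [this]
        simp only [hc', le_refl, if_true]
        exact h1
    rw [a1, a2]
  have s1 := split c'
  have s2 := split c
  rw [e1, e2, h3] at s1
  linarith

end dp

/-! ### energy of one window -/

section energy

/-- **energy identity**: `f j` = costs of the pieces, `a j` = slopes with `Σ f a = θ * Fx` -/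
theorem energy_id {B : ℕ} {f a : ℕ → ℝ} {θ Fx : ℝ} (h : ∑ j ∈ range B, f j * a j = θ * Fx) :
    ∑ j ∈ range B, f j * (a j - θ) ^ 2
      = (∑ j ∈ range B, f j * a j ^ 2 - Fx * θ ^ 2) + θ ^ 2 * (∑ j ∈ range B, f j - Fx) := by
  have h1 : ∑ j ∈ range B, f j * (a j - θ) ^ 2
      = ∑ j ∈ range B, f j * a j ^ 2 - 2 * θ * ∑ j ∈ range B, f j * a j
        + θ ^ 2 * ∑ j ∈ range B, f j := by
    rw [mul_sum, mul_sum, ← sum_sub_distrib, ← sum_add_distrib]
    exact sum_congr rfl fun j _ => by ring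
  rw [h1, h]; ring

/-- Cauchy–Schwarz for the prefix of a window -/
theorem prefix_cs {B t : ℕ} (ht : t ≤ B) {f a : ℕ → ℝ} (hf : ∀ j, 0 ≤ f j) {θ R E : ℝ}
    (hR : ∑ j ∈ range B, f j ≤ R) (hE : ∑ j ∈ range B, f j * (a j - θ) ^ 2 ≤ E) :
    (∑ j ∈ range t, f j * (a j - θ)) ^ 2 ≤ R * E := by
  have h1 : (∑ j ∈ range t, f j * (a j - θ)) ^ 2
      ≤ (∑ j ∈ range t, f j) * ∑ j ∈ range t, f j * (a j - θ) ^ 2 := by
    refine sum_sq_le_sum_mul_sum_of_sq_le_mul (range t) (fun j _ => hf j)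
      (fun j _ => mul_nonneg (hf j) (sq_nonneg _)) fun j _ => le_of_eq ?_
    ring
  have hsub : range t ⊆ range B := range_subset_range.2 ht
  have h2 : ∑ j ∈ range t, f j ≤ ∑ j ∈ range B, f j :=
    sum_le_sum_of_subset_of_nonneg hsub fun j _ _ => hf j
  have h3 : ∑ j ∈ range t, f j * (a j - θ) ^ 2 ≤ ∑ j ∈ range B, f j * (a j - θ) ^ 2 :=
    sum_le_sum_of_subset_of_nonneg hsub fun j _ _ => mul_nonneg (hf j) (sq_nonneg _)
  have h4 : 0 ≤ ∑ j ∈ range t, f j * (a j - θ) ^ 2 :=
    sum_nonneg fun j _ => mul_nonneg (hf j) (sq_nonneg _)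
  have h5 : 0 ≤ R := le_trans (sum_nonneg fun j _ => hf j) hR
  calc _ ≤ _ := h1
    _ ≤ R * E := mul_le_mul (h2.trans hR) (h3.trans hE) h4 h5

end energy

/-! ### good window ⇒ comparator near the plan -/

section near

variable {ι : Type*} {F : ℕ → ι → ι → ℝ} {u : ι} {X : Finset ι} {p : ι → ℝ}

/-- **residual of the comparator**: at a good window every cut of the comparator nearly satisfies the
slope equation `p m = p u + θ * D t m` -/
theorem residual (hX : X.Nonempty) {B : ℕ} {c : ℕ → ι} (h0 : c 0 = u)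
    (hcX : ∀ i, 1 ≤ i → i < B → c i ∈ X) (hF : ∀ j, 0 ≤ F j (c j) (c (j + 1)))
    {a : ℕ → ℝ} (ha : ∀ j < B, F j (c j) (c (j + 1)) * a j = p (c (j + 1)) - p (c j))
    {θ Fx sg err : ℝ} (hθ : |θ| ≤ 1) (hFx : 0 ≤ Fx) (hsg : 0 ≤ sg) (hsg1 : sg ≤ 1)
    (hρ : St F c B ≤ (1 + sg) * Fx)
    (hE : ∑ j ∈ range B, F j (c j) (c (j + 1)) * (a j - θ) ^ 2 ≤ sg ^ 2 * Fx)
    (hmin : ∀ c' : ℕ → ι, c' 0 = u → c' B = c B → (∀ i, 1 ≤ i → i < B → c' i ∈ X) →
      (1 - err) * Fx ≤ St F c' B) {t : ℕ} (ht : t + 1 < B) :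
    |p (c (t + 1)) - p u - θ * DP F u X hX t (c (t + 1))| ≤ (3 * sg + err) * Fx := by
  set f : ℕ → ℝ := fun j => F j (c j) (c (j + 1)) with hf
  have hcs := prefix_cs (t := t + 1) (B := B) (by omega) (f := f) (a := a) (θ := θ)
    (fun j => hF j) (R := (1 + sg) * Fx) (E := sg ^ 2 * Fx) hρ hE
  -- the deviation of the prefix
  have hdev : |∑ j ∈ range (t + 1), f j * (a j - θ)| ≤ 2 * sg * Fx := by
    refine abs_le_of_sq_le_sq ?_ (by positivity)
    refine hcs.trans ?_
    have : (1 + sg) * Fx * (sg ^ 2 * Fx) = (1 + sg) * (sg * Fx) ^ 2 := by ring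
    rw [this]
    have : (2 * sg * Fx) ^ 2 = 4 * (sg * Fx) ^ 2 := by ring
    rw [this]
    nlinarith [sq_nonneg (sg * Fx)]
  -- telescoping of the positions
  have htel : ∑ j ∈ range (t + 1), f j * a j = p (c (t + 1)) - p u := by
    have : ∑ j ∈ range (t + 1), f j * a j = ∑ j ∈ range (t + 1), (p (c (j + 1)) - p (c j)) := by
      refine sum_congr rfl fun j hj => ?_
      rw [mem_range] at hj
      exact ha j (by omega)
    rw [this, sum_range_sub (fun j => p (c j)), h0]
  have hsum : ∑ j ∈ range (t + 1), f j * (a j - θ) = p (c (t + 1)) - p u - θ * St F c (t + 1) := by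
    rw [← htel]
    unfold St
    rw [mul_sum, ← sum_sub_distrib]
    exact sum_congr rfl fun j _ => by simp only [hf]; ring
  have h1 : DP F u X hX t (c (t + 1)) ≤ St F c (t + 1) :=
    DP_le hX h0 t fun i hi hi' => hcX i hi (by omega)
  have h2 : St F c (t + 1) ≤ DP F u X hX t (c (t + 1)) + (St F c B - (1 - err) * Fx) :=
    prefix_le hX hcX hmin ht
  have h3 : St F c (t + 1) - DP F u X hX t (c (t + 1)) ≤ (sg + err) * Fx := by
    have : St F c B - (1 - err) * Fx ≤ (sg + err) * Fx := by linarith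
    linarith
  have h4 : |θ * (St F c (t + 1) - DP F u X hX t (c (t + 1)))| ≤ (sg + err) * Fx := by
    rw [abs_mul, abs_of_nonneg (sub_nonneg.2 h1)]
    calc |θ| * (St F c (t + 1) - DP F u X hX t (c (t + 1)))
        ≤ 1 * (St F c (t + 1) - DP F u X hX t (c (t + 1))) :=
          mul_le_mul_of_nonneg_right hθ (sub_nonneg.2 h1)
      _ ≤ _ := by rw [one_mul]; exact h3
  have h5 : p (c (t + 1)) - p u - θ * DP F u X hX t (c (t + 1))
      = ∑ j ∈ range (t + 1), f j * (a j - θ)
        + θ * (St F c (t + 1) - DP F u X hX t (c (t + 1))) := by rw [hsum]; ring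
  rw [h5]
  calc _ ≤ |∑ j ∈ range (t + 1), f j * (a j - θ)|
        + |θ * (St F c (t + 1) - DP F u X hX t (c (t + 1)))| := abs_add_le _ _
    _ ≤ 2 * sg * Fx + (sg + err) * Fx := add_le_add hdev h4
    _ = (3 * sg + err) * Fx := by ring

/-- **stability of the slope equation**: if `D` is `Λ`-Lipschitz with `|θ| Λ ≤ 1 - δ`, `D̂` is within
`e` of `D`, and the target `m'` has a residual (for `D̂`) not larger than that of `m`, then
`|p m - p m'| ≤ 2 (res m + e) / δ` -/
theorem target_near {D Dh : ι → ℝ} {θ Λ δ e r : ℝ} (hδ : 0 < δ) (hθ : |θ| ≤ 1)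
    (hΛ : |θ| * Λ ≤ 1 - δ) (hD : ∀ a b, D a ≤ D b + Λ * |p a - p b|)
    {m m' : ι} (he : |Dh m - D m| ≤ e) (he' : |Dh m' - D m'| ≤ e)
    (hr : |p m - p u - θ * D m| ≤ r)
    (hmin : |p m' - p u - θ * Dh m'| ≤ |p m - p u - θ * Dh m|) :
    |p m - p m'| ≤ (2 * r + 3 * e) / δ := by
  have he0 : 0 ≤ e := (abs_nonneg _).trans he
  have hθ0 := abs_nonneg θ
  have e1 : |p m - p u - θ * Dh m| ≤ r + e := by
    have : p m - p u - θ * Dh m = (p m - p u - θ * D m) - θ * (Dh m - D m) := by ring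
    rw [this]
    calc _ ≤ |p m - p u - θ * D m| + |θ * (Dh m - D m)| := abs_sub _ _
      _ ≤ r + e := by
        refine add_le_add hr ?_
        rw [abs_mul]
        calc |θ| * |Dh m - D m| ≤ 1 * e := mul_le_mul hθ he (abs_nonneg _) zero_le_one
          _ = e := one_mul e
  have e2 : |p m' - p u - θ * D m'| ≤ r + 2 * e := by
    have : p m' - p u - θ * D m' = (p m' - p u - θ * Dh m') + θ * (Dh m' - D m') := by ring
    rw [this]
    calc _ ≤ |p m' - p u - θ * Dh m'| + |θ * (Dh m' - D m')| := abs_add_le _ _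
      _ ≤ (r + e) + e := by
        refine add_le_add (hmin.trans e1) ?_
        rw [abs_mul]
        calc |θ| * |Dh m' - D m'| ≤ 1 * e := mul_le_mul hθ he' (abs_nonneg _) zero_le_one
          _ = e := one_mul e
      _ = r + 2 * e := by ring
  have e3 : |D m - D m'| ≤ Λ * |p m - p m'| := by
    rw [abs_le]
    have a1 := hD m m'
    have a2 := hD m' m
    rw [abs_sub_comm (p m') (p m)] at a2
    constructor <;> linarith
  have e4 : |p m - p m'| ≤ (2 * r + 2 * e) + |θ| * (Λ * |p m - p m'|) := by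
    have : p m - p m' = (p m - p u - θ * D m) - (p m' - p u - θ * D m')
        + θ * (D m - D m') := by ring
    calc |p m - p m'| = |(p m - p u - θ * D m) - (p m' - p u - θ * D m')
        + θ * (D m - D m')| := by rw [← this]
      _ ≤ |(p m - p u - θ * D m) - (p m' - p u - θ * D m')| + |θ * (D m - D m')| :=
          abs_add_le _ _
      _ ≤ (|p m - p u - θ * D m| + |p m' - p u - θ * D m'|) + |θ| * |D m - D m'| := by
          rw [abs_mul]
          exact add_le_add (abs_sub _ _) le_rfl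
      _ ≤ (r + (r + 2 * e)) + |θ| * (Λ * |p m - p m'|) :=
          add_le_add (add_le_add hr e2) (mul_le_mul_of_nonneg_left e3 hθ0)
      _ = (2 * r + 2 * e) + |θ| * (Λ * |p m - p m'|) := by ring
  have e5 : |θ| * (Λ * |p m - p m'|) ≤ (1 - δ) * |p m - p m'| := by
    rw [← mul_assoc]; exact mul_le_mul_of_nonneg_right hΛ (abs_nonneg _)
  rw [le_div_iff₀ hδ]
  nlinarith

/-- **good window ⇒ near the plan** (all hypotheses of the window in one place).  `Dh` = estimated
dynamic program, `tg` = targets (any minimisers of the residual over `X`). -/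
theorem near (hX : X.Nonempty) {B : ℕ} {c : ℕ → ι} (h0 : c 0 = u)
    (hcX : ∀ i, 1 ≤ i → i < B → c i ∈ X) (hF : ∀ j, 0 ≤ F j (c j) (c (j + 1)))
    {a : ℕ → ℝ} (ha : ∀ j < B, F j (c j) (c (j + 1)) * a j = p (c (j + 1)) - p (c j))
    {Λ δ e : ℝ} (hlip : ∀ j m a b, F j m a ≤ F j m b + Λ * |p a - p b|)
    {θ Fx sg err : ℝ} (hθ : |θ| ≤ 1) (hFx : 0 ≤ Fx) (hsg : 0 ≤ sg) (hsg1 : sg ≤ 1)
    (hδ : 0 < δ) (hΛ : |θ| * Λ ≤ 1 - δ)
    (hρ : St F c B ≤ (1 + sg) * Fx)
    (hE : ∑ j ∈ range B, F j (c j) (c (j + 1)) * (a j - θ) ^ 2 ≤ sg ^ 2 * Fx)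
    (hmin : ∀ c' : ℕ → ι, c' 0 = u → c' B = c B → (∀ i, 1 ≤ i → i < B → c' i ∈ X) →
      (1 - err) * Fx ≤ St F c' B)
    {Dh : ℕ → ι → ℝ} (hDh : ∀ t, t + 1 < B → ∀ m ∈ X, |Dh t m - DP F u X hX t m| ≤ e)
    {tg : ℕ → ι} (htg : ∀ t, t + 1 < B → tg t ∈ X)
    (htg' : ∀ t, t + 1 < B → ∀ m ∈ X,
      |p (tg t) - p u - θ * Dh t (tg t)| ≤ |p m - p u - θ * Dh t m|)
    {t : ℕ} (ht : t + 1 < B) :
    |p (c (t + 1)) - p (tg t)| ≤ (2 * (3 * sg + err) * Fx + 3 * e) / δ := by
  have hc : c (t + 1) ∈ X := hcX (t + 1) (by omega) ht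
  have hr := residual (p := p) hX h0 hcX hF ha hθ hFx hsg hsg1 hρ hE hmin ht
  have := target_near (p := p) (u := u) (D := DP F u X hX t) (Dh := Dh t) hδ hθ hΛ
    (fun a b => DP_lip hX hlip t a b) (hDh t ht _ hc) (hDh t ht _ (htg t ht)) hr
    (htg' t ht _ hc)
  refine this.trans (le_of_eq ?_)
  ring

end near

end Crest.Agent.R288.PlanP440
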