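import Mathlib

/-!
# PREFIX PLAN and ENERGY (row 288, LEMMA 288-744; [PL] and [EN] of #4274)

Pure real analysis.  A window start `x` has a displacement `dl x = v - u`, a value `F x ≥ |dl x|`
and slope `θ = dl x / F x`; its comparator pieces `y_j` have values `F y_j` and displacements
`dl y_j` with `∑ dl y_j = dl x`.

* `energy_id`: `∑ F_j (a_j - θ)^2 = ∑ Ψ_j - Ψ + θ² (∑ F_j - F)`, `Ψ = dl²/F`;
* `inner_tele`, `energy_sum`, `bad_mass`: the sum over a comparator tree;
* `prefix_dev`: `|∑_{j<i} dl_j - θ ∑_{j<i} F_j| ≤ √(P_N En)`;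
* `Phi` (left-to-right DP), `Phi_le`, `Phi_paste`, `Phi_lip`;
* `near`, `near_argmin`: the comparator's cuts are near the planned cuts.
-/

set_option autoImplicit false

namespace Crest.Agent.R288.Plan744

open Finset

/-! ## one window -/

/-- one term of the energy. -/
theorem term_id {f d θ : ℝ} (h : |d| ≤ f) :
    f * (d / f - θ) ^ 2 = d ^ 2 / f - 2 * θ * d + θ ^ 2 * f := by
  rcases eq_or_ne f 0 with hf | hf
  · have hd : d = 0 := by
      have : |d| ≤ 0 := by rw [← hf]; exact h
      exact abs_nonpos_iff.mp this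
    subst hf; subst hd; simp
  · field_simp
    ring

/-- **the energy identity** (list form). -/
theorem energy_id_list {ι : Type*} (l : List ι) (f d : ι → ℝ) (F D : ℝ)
    (hd : ∀ j ∈ l, |d j| ≤ f j) (hF : |D| ≤ F) (hs : (l.map d).sum = D) :
    (l.map fun j => f j * (d j / f j - D / F) ^ 2).sum =
      (l.map fun j => d j ^ 2 / f j).sum - D ^ 2 / F + (D / F) ^ 2 * ((l.map f).sum - F) := by
  have h1 : (l.map fun j => f j * (d j / f j - D / F) ^ 2).sum =
      (l.map fun j => d j ^ 2 / f j - 2 * (D / F) * d j + (D / F) ^ 2 * f j).sum := by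
    congr 1
    apply List.map_congr_left
    intro j hj
    exact term_id (hd j hj)
  have h2 : ∀ l : List ι, (l.map fun j => d j ^ 2 / f j - 2 * (D / F) * d j + (D / F) ^ 2 * f j).sum =
      (l.map fun j => d j ^ 2 / f j).sum - 2 * (D / F) * (l.map d).sum
        + (D / F) ^ 2 * (l.map f).sum := by
    intro l
    induction l with
    | nil => simp
    | cons a l ih =>
        simp only [List.map_cons, List.sum_cons, ih]
        ring
  have h3 : D ^ 2 / F - 2 * (D / F) * D + (D / F) ^ 2 * F = 0 := by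
    have := term_id (f := F) (d := D) (θ := D / F) hF
    rw [← this]; simp
  rw [h1, h2 l, hs]
  linarith

/-- the energy identity, `Finset.range` form. -/
theorem energy_id (N : ℕ) (f d : ℕ → ℝ) (F D : ℝ)
    (hd : ∀ j < N, |d j| ≤ f j) (hF : |D| ≤ F) (hs : ∑ j ∈ range N, d j = D) :
    ∑ j ∈ range N, f j * (d j / f j - D / F) ^ 2 =
      ∑ j ∈ range N, d j ^ 2 / f j - D ^ 2 / F + (D / F) ^ 2 * (∑ j ∈ range N, f j - F) := by
  have h1 : ∑ j ∈ range N, f j * (d j / f j - D / F) ^ 2 =
      ∑ j ∈ range N, (d j ^ 2 / f j - 2 * (D / F) * d j + (D / F) ^ 2 * f j) := by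
    apply sum_congr rfl
    intro j hj
    exact term_id (hd j (mem_range.mp hj))
  have h3 : D ^ 2 / F - 2 * (D / F) * D + (D / F) ^ 2 * F = 0 := by
    have := term_id (f := F) (d := D) (θ := D / F) hF
    rw [← this]; simp
  rw [h1, sum_add_distrib, sum_sub_distrib, ← mul_sum, ← mul_sum, hs]
  linarith

/-- **(N), first half**: prefix displacements against prefix values. -/
theorem prefix_dev (N : ℕ) (f d : ℕ → ℝ) (θ : ℝ) (hd : ∀ j < N, |d j| ≤ f j)
    (i : ℕ) (hi : i ≤ N) :
    |∑ j ∈ range i, d j - θ * ∑ j ∈ range i, f j| ≤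
      √((∑ j ∈ range N, f j) * ∑ j ∈ range N, f j * (d j / f j - θ) ^ 2) := by
  have hf : ∀ j < N, 0 ≤ f j := fun j hj => le_trans (abs_nonneg _) (hd j hj)
  have e1 : ∑ j ∈ range i, d j - θ * ∑ j ∈ range i, f j =
      ∑ j ∈ range i, f j * (d j / f j - θ) := by
    rw [mul_sum, ← sum_sub_distrib]
    apply sum_congr rfl
    intro j hj
    have hjN : j < N := lt_of_lt_of_le (mem_range.mp hj) hi
    rcases eq_or_ne (f j) 0 with h0 | h0
    · have hdj : d j = 0 := by
        have := hd j hjN
        rw [h0] at this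
        exact abs_nonpos_iff.mp this
      rw [h0, hdj]; simp
    · field_simp
  rw [e1]
  apply Real.abs_le_sqrt
  have cs : (∑ j ∈ range i, f j * (d j / f j - θ)) ^ 2 ≤
      (∑ j ∈ range i, f j) * ∑ j ∈ range i, f j * (d j / f j - θ) ^ 2 := by
    have h := Finset.sum_mul_sq_le_sq_mul_sq (range i) (fun j => √(f j))
      (fun j => √(f j) * (d j / f j - θ))
    have ha : ∑ j ∈ range i, √(f j) * (√(f j) * (d j / f j - θ)) =
        ∑ j ∈ range i, f j * (d j / f j - θ) := by
      apply sum_congr rfl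
      intro j hj
      have hjN : j < N := lt_of_lt_of_le (mem_range.mp hj) hi
      rw [← mul_assoc, Real.mul_self_sqrt (hf j hjN)]
    have hb : ∑ j ∈ range i, √(f j) ^ 2 = ∑ j ∈ range i, f j := by
      apply sum_congr rfl
      intro j hj
      exact Real.sq_sqrt (hf j (lt_of_lt_of_le (mem_range.mp hj) hi))
    have hc : ∑ j ∈ range i, (√(f j) * (d j / f j - θ)) ^ 2 =
        ∑ j ∈ range i, f j * (d j / f j - θ) ^ 2 := by
      apply sum_congr rfl
      intro j hj
      rw [mul_pow, Real.sq_sqrt (hf j (lt_of_lt_of_le (mem_range.mp hj) hi))]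
    rw [ha, hb, hc] at h
    exact h
  refine cs.trans ?_
  have hsub : range i ⊆ range N := range_subset_range.mpr hi
  apply mul_le_mul
  · exact sum_le_sum_of_subset_of_nonneg hsub (fun j hj _ => hf j (mem_range.mp hj))
  · exact sum_le_sum_of_subset_of_nonneg hsub
      (fun j hj _ => mul_nonneg (hf j (mem_range.mp hj)) (sq_nonneg _))
  · exact sum_nonneg fun j hj =>
      mul_nonneg (hf j (lt_of_lt_of_le (mem_range.mp hj) hi)) (sq_nonneg _)
  · exact sum_nonneg fun j hj => hf j (mem_range.mp hj)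

/-- **(N), second half**: a solution of `m - u = θ Φ(m)` up to `e0` is near every solution up to
`e1`, if `Φ` is `Λ`-Lipschitz between the two and `|θ| Λ ≤ 1 - δ`. -/
theorem root_stab {m m' u θ φ φ' Λ δ e0 e1 : ℝ} (hδ : 0 < δ)
    (hlip : |φ - φ'| ≤ Λ * |m - m'|) (hθ : |θ| * Λ ≤ 1 - δ)
    (h0 : |m' - u - θ * φ'| ≤ e0) (h1 : |m - u - θ * φ| ≤ e1) :
    |m - m'| ≤ (e0 + e1) / δ := by
  have h2 : |m - m'| ≤ |m - u - θ * φ| + |m' - u - θ * φ'| + |θ| * |φ - φ'| := by
    have e : m - m' = (m - u - θ * φ) - (m' - u - θ * φ') + θ * (φ - φ') := by ring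
    calc |m - m'| = |(m - u - θ * φ) - (m' - u - θ * φ') + θ * (φ - φ')| := by rw [← e]
      _ ≤ |(m - u - θ * φ) - (m' - u - θ * φ')| + |θ * (φ - φ')| := abs_add_le _ _
      _ ≤ _ := by
          rw [abs_mul]
          gcongr
          exact abs_sub _ _
  have h3 : |θ| * |φ - φ'| ≤ (1 - δ) * |m - m'| := by
    calc |θ| * |φ - φ'| ≤ |θ| * (Λ * |m - m'|) := by gcongr
      _ = |θ| * Λ * |m - m'| := by ring
      _ ≤ _ := by gcongr
  rw [le_div_iff₀ hδ]
  nlinarith

/-! ## the prefix DP -/

/-- `Phi c A u i m`: least cost of a staircase of the first `i+1` pieces from `u` to `m`, the inner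
cuts `1..i` in the menus `A 1, …, A i`. -/
noncomputable def Phi (c : ℕ → ℤ → ℤ → ℝ) (A : ℕ → Finset ℤ) (hA : ∀ i, (A i).Nonempty) (u : ℤ) :
    ℕ → ℤ → ℝ
  | 0, m => c 0 u m
  | i + 1, m => (A (i + 1)).inf' (hA (i + 1)) fun m' => Phi c A hA u i m' + c (i + 1) m' m

variable {c : ℕ → ℤ → ℤ → ℝ} {A : ℕ → Finset ℤ} {hA : ∀ i, (A i).Nonempty} {u : ℤ}

/-- `Phi` is at most the cost of every staircase. -/
theorem Phi_le (s : ℕ → ℤ) (i : ℕ) (h0 : s 0 = u) (hs : ∀ j, 1 ≤ j → j ≤ i → s j ∈ A j) :
    Phi c A hA u i (s (i + 1)) ≤ ∑ j ∈ range (i + 1), c j (s j) (s (j + 1)) := by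
  induction i with
  | zero => simp [Phi, h0]
  | succ i ih =>
      rw [sum_range_succ]
      have h1 := ih (fun j h1 h2 => hs j h1 (by omega))
      calc Phi c A hA u (i + 1) (s (i + 1 + 1))
          ≤ Phi c A hA u i (s (i + 1)) + c (i + 1) (s (i + 1)) (s (i + 1 + 1)) := by
            simp only [Phi]
            exact Finset.inf'_le _ (hs (i + 1) (by omega) le_rfl)
        _ ≤ _ := by linarith

/-- `Phi` is attained by a staircase. -/
theorem Phi_attained (i : ℕ) (m : ℤ) :
    ∃ s : ℕ → ℤ, s 0 = u ∧ s (i + 1) = m ∧ (∀ j, 1 ≤ j → j ≤ i → s j ∈ A j) ∧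
      Phi c A hA u i m = ∑ j ∈ range (i + 1), c j (s j) (s (j + 1)) := by
  induction i generalizing m with
  | zero =>
      refine ⟨fun j => if j = 0 then u else m, by simp, by simp, ?_, by simp [Phi]⟩
      intro j h1 h2; omega
  | succ i ih =>
      obtain ⟨m', hm', he⟩ := Finset.exists_mem_eq_inf' (hA (i + 1))
        (fun m' => Phi c A hA u i m' + c (i + 1) m' m)
      obtain ⟨s, s0, s1, s2, s3⟩ := ih m'
      refine ⟨fun j => if j ≤ i + 1 then s j else m, by simpa using s0, by simp, ?_, ?_⟩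
      · intro j h1 h2
        have : j ≤ i + 1 := h2
        simp only [this, if_true]
        rcases Nat.lt_or_ge i j with h | h
        · have : j = i + 1 := by omega
          subst this; rw [s1]; exact hm'
        · exact s2 j h1 h
      · rw [Phi, he, s3]
        symm
        rw [sum_range_succ]
        congr 1
        · apply sum_congr rfl
          intro j hj
          have hj' : j < i + 1 := mem_range.mp hj
          have a1 : j ≤ i + 1 := by omega
          have a2 : j + 1 ≤ i + 1 := by omega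
          simp only [a1, a2, if_true]
        · have a3 : ¬ (i + 1 + 1 ≤ i + 1) := by omega
          simp only [le_refl, if_true, a3, if_false, s1]

/-- **cut and paste**: if every staircase of all `N = i+1+t` pieces costs at least `F - kap`, then
the optimal prefix plus the comparator's rest costs at least `F - kap`. -/
theorem Phi_paste {F kap : ℝ} (i t : ℕ) (v : ℤ)
    (hF : ∀ s : ℕ → ℤ, s 0 = u → s (i + 1 + t) = v → (∀ j, 1 ≤ j → j < i + 1 + t → s j ∈ A j) →
      F ≤ ∑ j ∈ range (i + 1 + t), c j (s j) (s (j + 1)) + kap)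
    (s : ℕ → ℤ) (hv : s (i + 1 + t) = v)
    (hs : ∀ j, 1 ≤ j → j < i + 1 + t → s j ∈ A j) :
    F ≤ Phi c A hA u i (s (i + 1)) +
      ∑ j ∈ range t, c (i + 1 + j) (s (i + 1 + j)) (s (i + 1 + j + 1)) + kap := by
  obtain ⟨r, r0, r1, r2, r3⟩ := Phi_attained (c := c) (A := A) (hA := hA) (u := u) i (s (i + 1))
  have h := hF (fun j => if j ≤ i + 1 then r j else s j) (by simpa using r0) ?_ ?_
  · have e : ∑ j ∈ range (i + 1 + t), c j ((fun j => if j ≤ i + 1 then r j else s j) j)
        ((fun j => if j ≤ i + 1 then r j else s j) (j + 1)) =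
        ∑ j ∈ range (i + 1), c j (r j) (r (j + 1)) +
        ∑ j ∈ range t, c (i + 1 + j) (s (i + 1 + j)) (s (i + 1 + j + 1)) := by
      rw [sum_range_add]
      congr 1
      · apply sum_congr rfl
        intro j hj
        have hj' : j < i + 1 := mem_range.mp hj
        have a1 : j ≤ i + 1 := by omega
        have a2 : j + 1 ≤ i + 1 := by omega
        simp only [a1, a2, if_true]
      · apply sum_congr rfl
        intro j _
        have a2 : ¬ (i + 1 + j + 1 ≤ i + 1) := by omega
        simp only [a2, if_false]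
        rcases Nat.eq_zero_or_pos j with h0 | h0
        · subst h0; simp [r1]
        · have a1 : ¬ (i + 1 + j ≤ i + 1) := by omega
          simp only [a1, if_false]
    rw [e, ← r3] at h
    exact h
  · by_cases ht : t = 0
    · subst ht; simp [r1]; simpa using hv
    · have : ¬ (i + 1 + t ≤ i + 1) := by omega
      simp only [this, if_false]; exact hv
  · intro j h1 h2
    by_cases hj : j ≤ i + 1
    · simp only [hj, if_true]
      rcases Nat.lt_or_ge i j with h | h
      · have : j = i + 1 := by omega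
        subst this; rw [r1]; exact hs _ h1 h2
      · exact r2 j h1 h
    · simp only [hj, if_false]; exact hs j h1 h2

/-- `Phi` is Lipschitz in its end if the last piece is Lipschitz in its right end. -/
theorem Phi_lip {Λ : ℝ} (i : ℕ) (m m' : ℤ)
    (hc : ∀ a : ℤ, |c i a m - c i a m'| ≤ Λ * |(m : ℝ) - m'|) :
    |Phi c A hA u i m - Phi c A hA u i m'| ≤ Λ * |(m : ℝ) - m'| := by
  cases i with
  | zero => simpa [Phi] using hc u
  | succ i =>
      simp only [Phi]
      rw [abs_sub_le_iff]
      constructor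
      · obtain ⟨a, ha, he⟩ := Finset.exists_mem_eq_inf' (hA (i + 1))
          (fun a => Phi c A hA u i a + c (i + 1) a m')
        have h1 : (A (i + 1)).inf' (hA (i + 1)) (fun a => Phi c A hA u i a + c (i + 1) a m) ≤
            Phi c A hA u i a + c (i + 1) a m := Finset.inf'_le _ ha
        have h2 := (abs_sub_le_iff.mp (hc a)).1
        rw [he]; linarith
      · obtain ⟨a, ha, he⟩ := Finset.exists_mem_eq_inf' (hA (i + 1))
          (fun a => Phi c A hA u i a + c (i + 1) a m)
        have h1 : (A (i + 1)).inf' (hA (i + 1)) (fun a => Phi c A hA u i a + c (i + 1) a m') ≤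
            Phi c A hA u i a + c (i + 1) a m' := Finset.inf'_le _ ha
        have h2 := (abs_sub_le_iff.mp (hc a)).2
        rw [he]; linarith

/-- **the residual of a comparator cut.**  `s` = comparator staircase of `N = i+1+t` pieces. -/
theorem residual {F kap : ℝ} (i t : ℕ) (v : ℤ) (s : ℕ → ℤ)
    (hF : ∀ r : ℕ → ℤ, r 0 = u → r (i + 1 + t) = v → (∀ j, 1 ≤ j → j < i + 1 + t → r j ∈ A j) →
      F ≤ ∑ j ∈ range (i + 1 + t), c j (r j) (r (j + 1)) + kap)
    (s0 : s 0 = u) (hv : s (i + 1 + t) = v)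
    (hs : ∀ j, 1 ≤ j → j < i + 1 + t → s j ∈ A j)
    (hd : ∀ j < i + 1 + t, |((s (j + 1) : ℤ) : ℝ) - s j| ≤ c j (s j) (s (j + 1)))
    (θ : ℝ) (hθ : |θ| ≤ 1) :
    |((s (i + 1) : ℤ) : ℝ) - u - θ * Phi c A hA u i (s (i + 1))| ≤
      √((∑ j ∈ range (i + 1 + t), c j (s j) (s (j + 1))) *
        ∑ j ∈ range (i + 1 + t), c j (s j) (s (j + 1)) *
          ((((s (j + 1) : ℤ) : ℝ) - s j) / c j (s j) (s (j + 1)) - θ) ^ 2) +
      max 0 (∑ j ∈ range (i + 1 + t), c j (s j) (s (j + 1)) - F + kap) := by
  have h1 := prefix_dev (i + 1 + t) (fun j => c j (s j) (s (j + 1)))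
    (fun j => ((s (j + 1) : ℤ) : ℝ) - s j) θ hd (i + 1) (by omega)
  have hsum : ∑ j ∈ range (i + 1), (((s (j + 1) : ℤ) : ℝ) - s j) = ((s (i + 1) : ℤ) : ℝ) - u := by
    rw [sum_range_sub (fun j => ((s j : ℤ) : ℝ)), s0]
  rw [hsum] at h1
  have h2 := Phi_le (c := c) (A := A) (hA := hA) (u := u) s i s0
    (fun j a b => hs j a (by omega))
  have h3 := Phi_paste (c := c) (A := A) (hA := hA) (u := u) i t v hF s hv hs
  have h4 : ∑ j ∈ range (i + 1 + t), c j (s j) (s (j + 1)) =
      ∑ j ∈ range (i + 1), c j (s j) (s (j + 1)) +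
      ∑ j ∈ range t, c (i + 1 + j) (s (i + 1 + j)) (s (i + 1 + j + 1)) := by
    rw [sum_range_add]
  set P := ∑ j ∈ range (i + 1), c j (s j) (s (j + 1)) with hP
  set φ := Phi c A hA u i (s (i + 1)) with hφ
  have h5 : |φ - P| ≤ max 0 (∑ j ∈ range (i + 1 + t), c j (s j) (s (j + 1)) - F + kap) := by
    rw [abs_sub_comm, abs_of_nonneg (by linarith)]
    apply le_max_of_le_right
    rw [h4]; linarith
  have e : ((s (i + 1) : ℤ) : ℝ) - u - θ * φ =
      (((s (i + 1) : ℤ) : ℝ) - u - θ * P) - θ * (φ - P) := by ring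
  rw [e]
  refine (abs_sub _ _).trans ?_
  rw [abs_mul]
  have h6 : |θ| * |φ - P| ≤ |φ - P| := by
    have := mul_le_mul_of_nonneg_right hθ (abs_nonneg (φ - P))
    linarith
  linarith

/-- **NEAR (argmin form).**  If the planned cut `m'` has a residual at most the residual of the
comparator's cut plus `e0` (e.g. `m'` minimises the residual over a menu that contains it, with
estimates of total error `e0`), then `|m* - m'| ≤ (2 (√(P En) + (drift + kap)⁺) + e0) / δ`. -/
theorem near_argmin {F kap Λ δ e0 : ℝ} (i t : ℕ) (v : ℤ) (s : ℕ → ℤ)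
    (hF : ∀ r : ℕ → ℤ, r 0 = u → r (i + 1 + t) = v → (∀ j, 1 ≤ j → j < i + 1 + t → r j ∈ A j) →
      F ≤ ∑ j ∈ range (i + 1 + t), c j (r j) (r (j + 1)) + kap)
    (s0 : s 0 = u) (hv : s (i + 1 + t) = v)
    (hs : ∀ j, 1 ≤ j → j < i + 1 + t → s j ∈ A j)
    (hd : ∀ j < i + 1 + t, |((s (j + 1) : ℤ) : ℝ) - s j| ≤ c j (s j) (s (j + 1)))
    (θ : ℝ) (hθ : |θ| ≤ 1) (hδ : 0 < δ) (hθΛ : |θ| * Λ ≤ 1 - δ) (m' : ℤ)
    (hc : ∀ a : ℤ, |c i a (s (i + 1)) - c i a m'| ≤ Λ * |((s (i + 1) : ℤ) : ℝ) - m'|)
    (hm : |(m' : ℝ) - u - θ * Phi c A hA u i m'| ≤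
      |((s (i + 1) : ℤ) : ℝ) - u - θ * Phi c A hA u i (s (i + 1))| + e0) :
    |((s (i + 1) : ℤ) : ℝ) - m'| ≤
      (2 * (√((∑ j ∈ range (i + 1 + t), c j (s j) (s (j + 1))) *
        ∑ j ∈ range (i + 1 + t), c j (s j) (s (j + 1)) *
          ((((s (j + 1) : ℤ) : ℝ) - s j) / c j (s j) (s (j + 1)) - θ) ^ 2) +
      max 0 (∑ j ∈ range (i + 1 + t), c j (s j) (s (j + 1)) - F + kap)) + e0) / δ := by
  have h1 := residual (c := c) (A := A) (hA := hA) (u := u) i t v s hF s0 hv hs hd θ hθ
  have h2 := Phi_lip (c := c) (A := A) (hA := hA) (u := u) (Λ := Λ) i (s (i + 1)) m' hc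
  have h3 := root_stab hδ h2 hθΛ hm le_rfl
  refine h3.trans ?_
  apply div_le_div_of_nonneg_right _ hδ.le
  linarith

/-! ## sums over a comparator tree -/

section Tree

variable {S : ℕ → Type*} (st : ∀ h, S (h + 1) → Prop) (nx : ∀ h, S (h + 1) → List (S h))

open Classical in
/-- the sum of `f` over the stopped states (and the states of height 0). -/
noncomputable def stops (f : ∀ h, S h → ℝ) : ∀ h, S h → ℝ
  | 0, x => f 0 x
  | h + 1, x => if st h x then f (h + 1) x else ((nx h x).map (stops f h)).sum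

open Classical in
/-- the sum of `w` over the states which are not stopped. -/
noncomputable def inner (w : ∀ h, S (h + 1) → ℝ) : ∀ h, S h → ℝ
  | 0, _ => 0
  | h + 1, x => if st h x then 0 else w h x + ((nx h x).map (inner w h)).sum

variable {st nx}

theorem inner_mono {w w' : ∀ h, S (h + 1) → ℝ}
    (hw : ∀ h x, ¬ st h x → w h x ≤ w' h x) (h : ℕ) (x : S h) :
    inner st nx w h x ≤ inner st nx w' h x := by
  induction h with
  | zero => simp [inner]
  | succ h ih =>
      by_cases hx : st h x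
      · simp [inner, hx]
      · simp only [inner, hx, if_false]
        have := List.sum_le_sum (l := nx h x) (f := inner st nx w h) (g := inner st nx w' h)
          (fun y _ => ih y)
        linarith [hw h x hx]

theorem stops_mono {f g : ∀ h, S h → ℝ} (h0 : ∀ x, f 0 x ≤ g 0 x)
    (hf : ∀ h x, st h x → f (h + 1) x ≤ g (h + 1) x) (h : ℕ) (x : S h) :
    stops st nx f h x ≤ stops st nx g h x := by
  induction h with
  | zero => simpa [stops] using h0 x
  | succ h ih =>
      by_cases hx : st h x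
      · simpa [stops, hx] using hf h x hx
      · simp only [stops, hx, if_false]
        exact List.sum_le_sum (fun y _ => ih y)

theorem map_sum_add {ι : Type*} (l : List ι) (f g : ι → ℝ) :
    (l.map fun i => f i + g i).sum = (l.map f).sum + (l.map g).sum := by
  induction l with
  | nil => simp
  | cons a l ih => simp only [List.map_cons, List.sum_cons, ih]; ring

theorem map_sum_sub {ι : Type*} (l : List ι) (f g : ι → ℝ) :
    (l.map fun i => f i - g i).sum = (l.map f).sum - (l.map g).sum := by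
  induction l with
  | nil => simp
  | cons a l ih => simp only [List.map_cons, List.sum_cons, ih]; ring

theorem map_sum_mul {ι : Type*} (l : List ι) (a : ℝ) (f : ι → ℝ) :
    (l.map fun i => a * f i).sum = a * (l.map f).sum := by
  induction l with
  | nil => simp
  | cons b l ih => simp only [List.map_cons, List.sum_cons, ih]; ring

theorem inner_add (w w' : ∀ h, S (h + 1) → ℝ) (h : ℕ) (x : S h) :
    inner st nx (fun h x => w h x + w' h x) h x = inner st nx w h x + inner st nx w' h x := by
  induction h with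
  | zero => simp [inner]
  | succ h ih =>
      by_cases hx : st h x
      · simp [inner, hx]
      · simp only [inner, hx, if_false]
        have e : (inner st nx (fun h x => w h x + w' h x) h) =
            fun y => inner st nx w h y + inner st nx w' h y := funext ih
        rw [e, map_sum_add]; ring

theorem inner_mul (a : ℝ) (w : ∀ h, S (h + 1) → ℝ) (h : ℕ) (x : S h) :
    inner st nx (fun h x => a * w h x) h x = a * inner st nx w h x := by
  induction h with
  | zero => simp [inner]
  | succ h ih =>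
      by_cases hx : st h x
      · simp [inner, hx]
      · simp only [inner, hx, if_false]
        have e : (inner st nx (fun h x => a * w h x) h) =
            fun y => a * inner st nx w h y := funext ih
        rw [e, map_sum_mul]; ring

/-- **telescoping** over the comparator tree. -/
theorem inner_tele (f : ∀ h, S h → ℝ) (h : ℕ) (x : S h) :
    inner st nx (fun h x => ((nx h x).map (f h)).sum - f (h + 1) x) h x =
      stops st nx f h x - f h x := by
  induction h with
  | zero => simp [inner, stops]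
  | succ h ih =>
      by_cases hx : st h x
      · simp [inner, stops, hx]
      · simp only [inner, stops, hx, if_false]
        have e : (inner st nx (fun h x => ((nx h x).map (f h)).sum - f (h + 1) x) h) =
            fun y => stops st nx f h y - f h y := funext ih
        rw [e, map_sum_sub]; ring

theorem inner_nonneg {w : ∀ h, S (h + 1) → ℝ} (hw : ∀ h x, ¬ st h x → 0 ≤ w h x) (h : ℕ)
    (x : S h) : 0 ≤ inner st nx w h x := by
  have h1 := inner_mono (st := st) (nx := nx) (w := fun _ _ => 0) (w' := w) hw h x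
  have h2 : inner st nx (fun _ _ => (0 : ℝ)) h x = 0 := by
    have := inner_mul (st := st) (nx := nx) 0 (fun _ _ => (0 : ℝ)) h x
    simpa using this
  linarith

/-- energy of the pieces of `x` against the slope of `x`. -/
noncomputable def En (nx : ∀ h, S (h + 1) → List (S h)) (F dl : ∀ h, S h → ℝ) (h : ℕ)
    (x : S (h + 1)) : ℝ :=
  ((nx h x).map fun y => F h y * (dl h y / F h y - dl (h + 1) x / F (h + 1) x) ^ 2).sum

/-- drift of `F` at `x`. -/
noncomputable def drift (nx : ∀ h, S (h + 1) → List (S h)) (F : ∀ h, S h → ℝ) (h : ℕ)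
    (x : S (h + 1)) : ℝ :=
  ((nx h x).map (F h)).sum - F (h + 1) x

variable {F dl : ∀ h, S h → ℝ} {kap : ∀ h, S (h + 1) → ℝ}

theorem En_nonneg (hF : ∀ h x, |dl h x| ≤ F h x) (h : ℕ) (x : S (h + 1)) :
    0 ≤ En nx F dl h x := by
  unfold En
  apply List.sum_nonneg
  intro a ha
  obtain ⟨y, _, rfl⟩ := List.mem_map.mp ha
  exact mul_nonneg (le_trans (abs_nonneg _) (hF h y)) (sq_nonneg _)

/-- **ENERGY SUM** over a comparator tree: total energy plus total positive drift is at most
`3 ∑_{stops} F + 2 ∑ kap`. -/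
theorem energy_sum (hF : ∀ h x, |dl h x| ≤ F h x)
    (hdl : ∀ h x, ¬ st h x → ((nx h x).map (dl h)).sum = dl (h + 1) x)
    (hk : ∀ h x, ¬ st h x → 0 ≤ kap h x)
    (hdr : ∀ h x, ¬ st h x → F (h + 1) x ≤ ((nx h x).map (F h)).sum + kap h x)
    (h : ℕ) (x : S h) :
    inner st nx (fun h x => En nx F dl h x + max 0 (drift nx F h x)) h x ≤
      3 * stops st nx F h x + 2 * inner st nx kap h x := by
  have hF0 : ∀ h x, 0 ≤ F h x := fun h x => le_trans (abs_nonneg _) (hF h x)
  -- positive drift
  have h1 : inner st nx (fun h x => max 0 (drift nx F h x)) h x ≤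
      stops st nx F h x - F h x + inner st nx kap h x := by
    rw [← inner_tele (st := st) (nx := nx) F h x, ← inner_add]
    apply inner_mono
    intro h x hx
    have a := hdr h x hx
    have b := hk h x hx
    unfold drift
    apply max_le <;> linarith
  -- energy
  let Ψ : ∀ h, S h → ℝ := fun h x => dl h x ^ 2 / F h x
  have hΨ : ∀ h x, Ψ h x ≤ F h x := by
    intro h x
    rcases eq_or_ne (F h x) 0 with h0 | h0
    · simp [Ψ, h0]
    · have hpos : 0 < F h x := lt_of_le_of_ne (hF0 h x) (Ne.symm h0)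
      show dl h x ^ 2 / F h x ≤ F h x
      rw [div_le_iff₀ hpos]
      have := hF h x
      nlinarith [sq_abs (dl h x), abs_nonneg (dl h x)]
  have hΨ0 : ∀ h x, 0 ≤ Ψ h x := fun h x => div_nonneg (sq_nonneg _) (hF0 h x)
  have h2 : inner st nx (fun h x => En nx F dl h x) h x ≤
      inner st nx (fun h x => (((nx h x).map (Ψ h)).sum - Ψ (h + 1) x) +
        max 0 (drift nx F h x)) h x := by
    apply inner_mono
    intro h x hx
    have e := energy_id_list (nx h x) (F h) (dl h) (F (h + 1) x) (dl (h + 1) x)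
      (fun y _ => hF h y) (hF (h + 1) x) (hdl h x hx)
    have e' : En nx F dl h x = (((nx h x).map (Ψ h)).sum - Ψ (h + 1) x) +
        (dl (h + 1) x / F (h + 1) x) ^ 2 * drift nx F h x := by
      unfold En drift
      rw [e]
    rw [e']
    have hθ : (dl (h + 1) x / F (h + 1) x) ^ 2 ≤ 1 := by
      rw [sq_le_one_iff_abs_le_one, abs_div, abs_of_nonneg (hF0 (h + 1) x)]
      exact div_le_one_of_le₀ (hF (h + 1) x) (hF0 _ _)
    have : (dl (h + 1) x / F (h + 1) x) ^ 2 * drift nx F h x ≤ max 0 (drift nx F h x) := by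
      calc (dl (h + 1) x / F (h + 1) x) ^ 2 * drift nx F h x
          ≤ (dl (h + 1) x / F (h + 1) x) ^ 2 * max 0 (drift nx F h x) := by
            gcongr; exact le_max_right _ _
        _ ≤ 1 * max 0 (drift nx F h x) := by gcongr
        _ = _ := one_mul _
    linarith
  rw [inner_add, inner_tele] at h2
  rw [inner_add]
  have h3 : stops st nx Ψ h x ≤ stops st nx F h x :=
    stops_mono (fun x => hΨ 0 x) (fun h x _ => hΨ (h + 1) x) h x
  have h4 := hΨ0 h x
  have h5 := hF0 h x
  linarith

/-- **BAD MASS**: the `F`-mass of the states whose energy exceeds `sg² F` or whose drift exceeds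
`sg F` is at most `(3 ∑_{stops} F + 2 ∑ kap)/sg²`. -/
theorem bad_mass {sg : ℝ} (hsg : 0 < sg) (hsg1 : sg ≤ 1) (hF : ∀ h x, |dl h x| ≤ F h x)
    (hdl : ∀ h x, ¬ st h x → ((nx h x).map (dl h)).sum = dl (h + 1) x)
    (hk : ∀ h x, ¬ st h x → 0 ≤ kap h x)
    (hdr : ∀ h x, ¬ st h x → F (h + 1) x ≤ ((nx h x).map (F h)).sum + kap h x)
    (bad : ∀ h, S (h + 1) → ℝ) (hbad1 : ∀ h x, bad h x ≤ 1)
    (hbad : ∀ h x, ¬ st h x → En nx F dl h x ≤ sg ^ 2 * F (h + 1) x →
      drift nx F h x ≤ sg * F (h + 1) x → bad h x ≤ 0)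
    (h : ℕ) (x : S h) :
    inner st nx (fun h x => bad h x * F (h + 1) x) h x ≤
      (3 * stops st nx F h x + 2 * inner st nx kap h x) / sg ^ 2 := by
  have hF0 : ∀ h x, 0 ≤ F h x := fun h x => le_trans (abs_nonneg _) (hF h x)
  rw [le_div_iff₀ (by positivity), mul_comm, ← inner_mul]
  refine le_trans ?_ (energy_sum (st := st) (nx := nx) hF hdl hk hdr h x)
  apply inner_mono
  intro h x hx
  have hE := En_nonneg (nx := nx) hF h x
  have hD : 0 ≤ max 0 (drift nx F h x) := le_max_left _ _
  have hf := hF0 (h + 1) x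
  by_cases h1 : En nx F dl h x ≤ sg ^ 2 * F (h + 1) x
  · by_cases h2 : drift nx F h x ≤ sg * F (h + 1) x
    · have := hbad h x hx h1 h2
      have : sg ^ 2 * (bad h x * F (h + 1) x) ≤ 0 := by
        have h3 : bad h x * F (h + 1) x ≤ 0 := mul_nonpos_of_nonpos_of_nonneg this hf
        exact mul_nonpos_of_nonneg_of_nonpos (by positivity) h3
      linarith
    · push Not at h2
      have h3 : sg * F (h + 1) x ≤ max 0 (drift nx F h x) := h2.le.trans (le_max_right _ _)
      have h4 : bad h x * F (h + 1) x ≤ F (h + 1) x := by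
        have := mul_le_mul_of_nonneg_right (hbad1 h x) hf
        linarith
      have h5 : sg ^ 2 * (bad h x * F (h + 1) x) ≤ sg ^ 2 * F (h + 1) x := by gcongr
      have h6 : sg ^ 2 * F (h + 1) x ≤ sg * F (h + 1) x := by
        have : sg ^ 2 ≤ sg := by nlinarith
        gcongr
      linarith
  · push Not at h1
    have h4 : bad h x * F (h + 1) x ≤ F (h + 1) x := by
      have := mul_le_mul_of_nonneg_right (hbad1 h x) hf
      linarith
    have h5 : sg ^ 2 * (bad h x * F (h + 1) x) ≤ sg ^ 2 * F (h + 1) x := by gcongr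
    linarith

end Tree

end Crest.Agent.R288.Plan744
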