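import Crest.Agent.R288.Conf_780

/-!
# [PL] of #4274 without slope roots (row 288, REMARK 288-780 (E1), helper780)

One window with `N` pieces; piece `j` has `T j ≥ 0`, displacement `T j * a j`, reference cost
`T j * Z j`.  `good_of_var`: small variances of `a`, `Z`, small waste and drift imply the
slope equation piece by piece, hence a GOOD staircase; `Conf780.conf` then puts every other GOOD
staircase (the plan) next to it.
-/

open Finset

namespace Crest.Agent.R288.Plan780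

open Conf780

/-- `|T j (f j - fbar)| ≤ 2 sg T` if the weighted variance is `≤ sg²` and `∑ T j ≤ 4 T`. -/
theorem piece_dev {N : ℕ} {T : ℕ → ℝ} {f : ℕ → ℝ} {Tx fb sg : ℝ}
    (hT : ∀ j < N, 0 ≤ T j) (hTx : 0 ≤ Tx) (hsg : 0 ≤ sg)
    (hsum : ∑ j ∈ range N, T j ≤ 4 * Tx)
    (hvar : ∑ j ∈ range N, T j * (f j - fb) ^ 2 ≤ Tx * sg ^ 2) {j : ℕ} (hj : j < N) :
    |T j * (f j - fb)| ≤ 2 * sg * Tx := by
  have hj' : j ∈ range N := mem_range.2 hj
  have h1 : T j * (f j - fb) ^ 2 ≤ Tx * sg ^ 2 :=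
    (single_le_sum (f := fun j => T j * (f j - fb) ^ 2)
      (fun i hi => mul_nonneg (hT i (mem_range.1 hi)) (sq_nonneg _)) hj').trans hvar
  have h2 : T j ≤ 4 * Tx :=
    (single_le_sum (f := T) (fun i hi => hT i (mem_range.1 hi)) hj').trans hsum
  refine abs_le_of_sq_le_sq ?_ (by positivity)
  calc (T j * (f j - fb)) ^ 2 = T j * (T j * (f j - fb) ^ 2) := by ring
    _ ≤ (4 * Tx) * (Tx * sg ^ 2) :=
        mul_le_mul h2 h1 (mul_nonneg (hT j hj) (sq_nonneg _)) (by linarith)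
    _ = (2 * sg * Tx) ^ 2 := by ring

/-- The same around a value `f0` near the weighted mean. -/
theorem piece_dev' {N : ℕ} {T : ℕ → ℝ} {f : ℕ → ℝ} {Tx fb f0 e sg : ℝ}
    (hT : ∀ j < N, 0 ≤ T j) (hTx : 0 ≤ Tx) (hsg : 0 ≤ sg)
    (hsum : ∑ j ∈ range N, T j ≤ 4 * Tx)
    (hvar : ∑ j ∈ range N, T j * (f j - fb) ^ 2 ≤ Tx * sg ^ 2)
    (he : |fb - f0| ≤ e) {j : ℕ} (hj : j < N) :
    |T j * (f j - f0)| ≤ (2 * sg + 4 * e) * Tx := by
  have h1 := piece_dev hT hTx hsg hsum hvar hj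
  have h2 : T j ≤ 4 * Tx :=
    (single_le_sum (f := T) (fun i hi => hT i (mem_range.1 hi)) (mem_range.2 hj)).trans hsum
  have he0 : 0 ≤ e := (abs_nonneg _).trans he
  have h3 : |T j * (fb - f0)| ≤ 4 * Tx * e := by
    rw [abs_mul, abs_of_nonneg (hT j hj)]
    exact mul_le_mul h2 he (abs_nonneg _) (by linarith)
  calc |T j * (f j - f0)| = |T j * (f j - fb) + T j * (fb - f0)| := by ring_nf
    _ ≤ 2 * sg * Tx + 4 * Tx * e := (abs_add_le _ _).trans (add_le_add h1 h3)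
    _ = _ := by ring

/-- The data of one window: `T j` masses, `a j` slopes, `Z j` cost ratios; waste `ω`, drift `d`.
`good_piece`: the slope equation holds on every piece up to `C sg T`. -/
theorem good_piece {N : ℕ} {T a Z : ℕ → ℝ} {Tx ax Zx ab Zb θ ω d κ sg Zm : ℝ}
    (hT : ∀ j < N, 0 ≤ T j) (hTx : 0 ≤ Tx) (hsg : 0 ≤ sg) (hsg1 : sg ≤ 1)
    -- mass
    (hmass : ∑ j ∈ range N, T j = (1 + ω) * Tx) (hω0 : 0 ≤ ω) (hω : ω ≤ sg ^ 2)
    -- means
    (hab : ab * (1 + ω) = ax) (hZb : Zb * (1 + ω) = Zx + d)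
    (hd : d ≤ sg ^ 2) (hd' : -κ ≤ d) (hκ1 : κ ≤ sg)
    (hax : |ax| ≤ 1) (hZ0 : 0 ≤ Zx) (hZm : Zx ≤ Zm)
    (hva : ∑ j ∈ range N, T j * (a j - ab) ^ 2 ≤ Tx * sg ^ 2)
    (hvZ : ∑ j ∈ range N, T j * (Z j - Zb) ^ 2 ≤ Tx * sg ^ 2)
    (hθ : θ * Zx = ax) (hθ1 : |θ| ≤ 1) {j : ℕ} (hj : j < N) :
    |T j * a j - θ * (T j * Z j)| ≤ (16 + 4 * Zm) * sg * Tx := by
  have hsum : ∑ j ∈ range N, T j ≤ 4 * Tx := by
    rw [hmass]
    exact mul_le_mul_of_nonneg_right (by nlinarith) hTx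
  have hsg2 : sg ^ 2 ≤ sg := by nlinarith
  have hω1 : ω ≤ sg := hω.trans hsg2
  have h1ω : 0 < 1 + ω := by linarith
  -- the mean of the slopes
  have hea : |ab - ax| ≤ sg := by
    have : ab - ax = -(ω * ab) := by linarith
    rw [this, abs_neg, abs_mul, abs_of_nonneg hω0]
    have hab1 : |ab| ≤ 1 := by
      have h1 : |ab| * (1 + ω) ≤ 1 := by
        rw [← abs_of_pos h1ω, ← abs_mul, hab]; exact hax
      nlinarith [abs_nonneg ab]
    calc ω * |ab| ≤ sg * 1 := mul_le_mul hω1 hab1 (abs_nonneg _) hsg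
      _ = sg := mul_one _
  have heZ : |Zb - Zx| ≤ (2 + Zm) * sg := by
    have h1 : (Zb - Zx) * (1 + ω) = d - ω * Zx := by linarith
    have h2 : |Zb - Zx| * (1 + ω) ≤ (1 + Zm) * sg := by
      rw [← abs_of_pos h1ω, ← abs_mul, h1]
      have h3 : ω * Zx ≤ sg * Zm := mul_le_mul hω1 hZm hZ0 hsg
      have h4 : 0 ≤ ω * Zx := mul_nonneg hω0 hZ0
      rw [abs_le]
      constructor <;> nlinarith
    nlinarith [abs_nonneg (Zb - Zx), mul_nonneg (abs_nonneg (Zb - Zx)) hω0]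
  have hA := piece_dev' hT hTx hsg hsum hva hea hj
  have hB := piece_dev' hT hTx hsg hsum hvZ heZ hj
  have hid : T j * a j - θ * (T j * Z j) = T j * (a j - ax) - θ * (T j * (Z j - Zx)) := by
    linear_combination (-(T j)) * hθ
  have hZm0 : 0 ≤ Zm := hZ0.trans hZm
  rw [hid]
  calc |T j * (a j - ax) - θ * (T j * (Z j - Zx))|
      ≤ |T j * (a j - ax)| + |θ * (T j * (Z j - Zx))| := abs_sub _ _
    _ ≤ (2 * sg + 4 * sg) * Tx + 1 * ((2 * sg + 4 * ((2 + Zm) * sg)) * Tx) := by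
        refine add_le_add hA ?_
        rw [abs_mul]
        exact mul_le_mul hθ1 hB (abs_nonneg _) zero_le_one
    _ = (16 + 4 * Zm) * sg * Tx := by ring

/-! ### Staircases -/

variable {α : Type*}

/-- GOOD staircase: cost at most `Fx + s`, slope equation up to `s'` at every cut. -/
structure Good (ps : α → ℝ) (F : ℕ → α → α → ℝ) (N : ℕ) (θ Fx s s' : ℝ) (c : ℕ → α) : Prop where
  up : cost F c N ≤ Fx + s
  slope : ∀ p ≤ N, |ps (c p) - ps (c 0) - θ * cost F c p| ≤ s'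

theorem Good.mono {ps : α → ℝ} {F : ℕ → α → α → ℝ} {N : ℕ} {θ Fx s s' t t' : ℝ} {c : ℕ → α}
    (h : Good ps F N θ Fx s s' c) (hs : s ≤ t) (hs' : s' ≤ t') : Good ps F N θ Fx t t' c :=
  ⟨h.up.trans (by linarith), fun p hp => (h.slope p hp).trans hs'⟩

/-- Slope equation piece by piece gives the cumulative one. -/
theorem slope_of_pieces {ps : α → ℝ} {F : ℕ → α → α → ℝ} {N : ℕ} {θ e : ℝ} {c : ℕ → α}
    (he : 0 ≤ e)
    (h : ∀ j < N, |ps (c (j + 1)) - ps (c j) - θ * F j (c j) (c (j + 1))| ≤ e) :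
    ∀ p ≤ N, |ps (c p) - ps (c 0) - θ * cost F c p| ≤ N * e := by
  have h1 : ∀ p ≤ N, |ps (c p) - ps (c 0) - θ * cost F c p| ≤ p * e := by
    intro p
    induction p with
    | zero => intro _; simp
    | succ p ih =>
      intro hp
      rw [cost_succ]
      calc |ps (c (p + 1)) - ps (c 0) - θ * (cost F c p + F p (c p) (c (p + 1)))|
          = |(ps (c p) - ps (c 0) - θ * cost F c p)
            + (ps (c (p + 1)) - ps (c p) - θ * F p (c p) (c (p + 1)))| := by ring_nf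
        _ ≤ p * e + e := (abs_add_le _ _).trans (add_le_add (ih (by omega)) (h p (by omega)))
        _ = _ := by push_cast; ring
  intro p hp
  exact (h1 p hp).trans (mul_le_mul_of_nonneg_right (by exact_mod_cast hp) he)

/-- The staircase of a window with small variances, waste and drift is GOOD. -/
theorem good_of_var {ps : α → ℝ} {T F : ℕ → α → α → ℝ} {N : ℕ} {c : ℕ → α} {a Z : ℕ → ℝ}
    {Tx Fx ax Zx ab Zb θ ω d κ sg Zm : ℝ}
    (hT : ∀ j < N, 0 ≤ T j (c j) (c (j + 1)))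
    (ha : ∀ j < N, T j (c j) (c (j + 1)) * a j = ps (c (j + 1)) - ps (c j))
    (hZ : ∀ j < N, T j (c j) (c (j + 1)) * Z j = F j (c j) (c (j + 1)))
    (hTx : 0 ≤ Tx) (hsg : 0 ≤ sg) (hsg1 : sg ≤ 1)
    (hmass : cost T c N = (1 + ω) * Tx) (hω0 : 0 ≤ ω) (hω : ω ≤ sg ^ 2)
    (hF : cost F c N = Fx + d * Tx)
    (hab : ab * (1 + ω) = ax) (hZb : Zb * (1 + ω) = Zx + d)
    (hd : d ≤ sg ^ 2) (hd' : -κ ≤ d) (hκ1 : κ ≤ sg)
    (hax : |ax| ≤ 1) (hZ0 : 0 ≤ Zx) (hZm : Zx ≤ Zm)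
    (hva : ∑ j ∈ range N, T j (c j) (c (j + 1)) * (a j - ab) ^ 2 ≤ Tx * sg ^ 2)
    (hvZ : ∑ j ∈ range N, T j (c j) (c (j + 1)) * (Z j - Zb) ^ 2 ≤ Tx * sg ^ 2)
    (hθ : θ * Zx = ax) (hθ1 : |θ| ≤ 1) :
    Good ps F N θ Fx (sg ^ 2 * Tx) (N * ((16 + 4 * Zm) * sg * Tx)) c := by
  have hZm0 : 0 ≤ Zm := hZ0.trans hZm
  refine ⟨?_, slope_of_pieces (by positivity) fun j hj => ?_⟩
  · rw [hF]
    have := mul_le_mul_of_nonneg_right hd hTx
    linarith
  · have h := good_piece (T := fun j => T j (c j) (c (j + 1))) (a := a) (Z := Z) hT hTx hsg hsg1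
      hmass hω0 hω hab hZb hd hd' hκ1 hax hZ0 hZm hva hvZ hθ hθ1 hj
    rwa [ha j hj, hZ j hj] at h

/-- Two GOOD staircases with the same ends are near each other. -/
theorem Good.near {ps : α → ℝ} {F : ℕ → α → α → ℝ} {N : ℕ} {l κ s s' θ δ Fx : ℝ} {c c' : ℕ → α}
    (h : Good ps F N θ Fx s s' c) (h' : Good ps F N θ Fx s s' c')
    (hl : ∀ j < N, ∀ p q q', F j p q' ≤ F j p q + l * |ps q' - ps q|)
    (h0 : c 0 = c' 0)
    (hlow : ∀ e : ℕ → α, e 0 = c 0 → e N = c N ∨ e N = c' N → (∀ j, e j = c j ∨ e j = c' j) →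
      Fx - κ ≤ cost F e N)
    (hδ : 0 < δ) (hθ : l * |θ| ≤ 1 - δ) (hθ1 : |θ| ≤ 1) (hκ : 0 ≤ κ) (hs0 : 0 ≤ s)
    {p : ℕ} (hp : p ≤ N) : |ps (c p) - ps (c' p)| ≤ (κ + s + 2 * s') / δ :=
  conf ps F c c' hl h0 hlow h.up h'.up h.slope h'.slope hδ hθ hθ1 hκ hs0 hp

theorem abs_cost_sub_le {F F' : ℕ → α → α → ℝ} {N : ℕ} {c : ℕ → α} {e : ℝ} (he : 0 ≤ e)
    (h : ∀ j < N, |F' j (c j) (c (j + 1)) - F j (c j) (c (j + 1))| ≤ e) {p : ℕ} (hp : p ≤ N) :
    |cost F' c p - cost F c p| ≤ N * e := by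
  unfold cost
  rw [← sum_sub_distrib]
  calc |∑ j ∈ range p, (F' j (c j) (c (j + 1)) - F j (c j) (c (j + 1)))|
      ≤ ∑ j ∈ range p, |F' j (c j) (c (j + 1)) - F j (c j) (c (j + 1))| :=
        abs_sum_le_sum_abs _ _
    _ ≤ ∑ _j ∈ range p, e := sum_le_sum fun j hj => h j (by have := mem_range.1 hj; omega)
    _ = p * e := by simp
    _ ≤ N * e := mul_le_mul_of_nonneg_right (by exact_mod_cast hp) he

/-- GOOD for an estimated table (errors `e` per piece, `e0` at `Fx`, `e1` in `θ`) is GOOD for the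
true one. `B` bounds the estimated costs. -/
theorem Good.of_est {ps : α → ℝ} {F F' : ℕ → α → α → ℝ} {N : ℕ} {θ θ' Fx Fx' s s' e e0 e1 B : ℝ}
    {c : ℕ → α} (h : Good ps F' N θ' Fx' s s' c) (he : 0 ≤ e)
    (hF : ∀ j < N, |F' j (c j) (c (j + 1)) - F j (c j) (c (j + 1))| ≤ e)
    (hFx : Fx' ≤ Fx + e0) (hθ : |θ' - θ| ≤ e1) (hθ1 : |θ| ≤ 1)
    (hB : ∀ p ≤ N, |cost F' c p| ≤ B) :
    Good ps F N θ Fx (s + e0 + N * e) (s' + e1 * B + N * e) c := by
  refine ⟨?_, fun p hp => ?_⟩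
  · have h1 := (abs_le.1 (abs_cost_sub_le he hF le_rfl)).1
    have h2 := h.up
    linarith
  · have h1 := abs_cost_sub_le he hF hp
    have h2 := h.slope p hp
    have h3 : ps (c p) - ps (c 0) - θ * cost F c p =
        (ps (c p) - ps (c 0) - θ' * cost F' c p) + ((θ' - θ) * cost F' c p
          + θ * (cost F' c p - cost F c p)) := by ring
    rw [h3]
    have h4 : |(θ' - θ) * cost F' c p| ≤ e1 * B := by
      rw [abs_mul]
      exact mul_le_mul hθ (hB p hp) (abs_nonneg _) ((abs_nonneg _).trans hθ)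
    have h5 : |θ * (cost F' c p - cost F c p)| ≤ N * e := by
      rw [abs_mul]
      calc |θ| * |cost F' c p - cost F c p| ≤ 1 * (N * e) :=
            mul_le_mul hθ1 h1 (abs_nonneg _) zero_le_one
        _ = _ := one_mul _
    calc _ ≤ |ps (c p) - ps (c 0) - θ' * cost F' c p|
          + |(θ' - θ) * cost F' c p + θ * (cost F' c p - cost F c p)| := abs_add_le _ _
      _ ≤ s' + (e1 * B + N * e) :=
          add_le_add h2 ((abs_add_le _ _).trans (add_le_add h4 h5))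
      _ = _ := by ring

/-- The plan minimises the sum of `F` and `T`: both sums are small. -/
theorem mass_of_min {T F : ℕ → α → α → ℝ} {N : ℕ} {c : ℕ → α} {Tx Fx s κ : ℝ}
    (h : cost (fun j p q => F j p q + T j p q) c N ≤ Fx + Tx + s)
    (hT : Tx ≤ cost T c N) (hF : Fx - κ ≤ cost F c N) :
    cost F c N ≤ Fx + s ∧ cost T c N ≤ Tx + s + κ := by
  have h1 : cost (fun j p q => F j p q + T j p q) c N = cost F c N + cost T c N := by
    simp [cost, sum_add_distrib]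
  rw [h1] at h
  constructor <;> linarith

/-- In the tube of radius `r` around the plan every piece cost moves by at most `2 l r`. -/
theorem tube_piece {ps : α → ℝ} {G : ℕ → α → α → ℝ} {l r : ℝ} {j : ℕ} (hl0 : 0 ≤ l)
    (hl : ∀ p q q', G j p q' ≤ G j p q + l * |ps q' - ps q|)
    (hl' : ∀ p p' q, G j p' q ≤ G j p q + l * |ps p' - ps p|)
    {p p' q q' : α} (hp : |ps p - ps p'| ≤ r) (hq : |ps q - ps q'| ≤ r) :
    |G j p q - G j p' q'| ≤ 2 * l * r := by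
  have h1 := hl p q q'
  have h2 := hl' p p' q'
  have h3 := hl p' q' q
  have h4 := hl' p' p q
  have hp' : |ps p' - ps p| ≤ r := by rwa [abs_sub_comm]
  have hq' : |ps q' - ps q| ≤ r := by rwa [abs_sub_comm]
  have e1 := mul_le_mul_of_nonneg_left hp hl0
  have e2 := mul_le_mul_of_nonneg_left hq hl0
  have e3 := mul_le_mul_of_nonneg_left hp' hl0
  have e4 := mul_le_mul_of_nonneg_left hq' hl0
  rw [abs_le]
  constructor <;> linarith

/-- Sums of piece costs over a set of pieces, for two staircases in the same tube. -/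
theorem tube_sum {ps : α → ℝ} {G : ℕ → α → α → ℝ} {l r : ℝ} (hl0 : 0 ≤ l) {N : ℕ}
    (hl : ∀ j < N, ∀ p q q', G j p q' ≤ G j p q + l * |ps q' - ps q|)
    (hl' : ∀ j < N, ∀ p p' q, G j p' q ≤ G j p q + l * |ps p' - ps p|)
    {c c' : ℕ → α} (hc : ∀ p ≤ N, |ps (c p) - ps (c' p)| ≤ r) (J : Finset ℕ)
    (hJ : ∀ j ∈ J, j < N) :
    |∑ j ∈ J, G j (c j) (c (j + 1)) - ∑ j ∈ J, G j (c' j) (c' (j + 1))| ≤ J.card * (2 * l * r) := by
  rw [← sum_sub_distrib]
  calc |∑ j ∈ J, (G j (c j) (c (j + 1)) - G j (c' j) (c' (j + 1)))|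
      ≤ ∑ j ∈ J, |G j (c j) (c (j + 1)) - G j (c' j) (c' (j + 1))| := abs_sum_le_sum_abs _ _
    _ ≤ ∑ _j ∈ J, 2 * l * r := sum_le_sum fun j hj =>
        tube_piece hl0 (hl j (hJ j hj)) (hl' j (hJ j hj)) (hc j (hJ j hj).le) (hc (j + 1) (hJ j hj))
    _ = _ := by simp

end Crest.Agent.R288.Plan780
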