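import Crest.Agent.R288.Pl_726
import Crest.Agent.R288.Bridge2_331

/-!
# R288, PLT part A (helper365): semantics of the PL programs of `Pl_726` (with `ext`)

* `PP` = parameters of the pure machine (read-only arrays `O`, word bound `B`, index bound `L`,
  bound `S` for the length of the environments).
* **`PR m pr p v t D`**: on EVERY random stream the statement `p`, started on the environment `v`,
  ends in the environment `(value of t).1`, executes at most `(value of t).2` statements, draws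
  the words that `t` draws, call depth `≤ D`; `t : RT (List ℕ × ℕ)`.
* **`PD m pr p v n t D`**: the same with a fixed bound `n` for the number of statements,
  `t : RT (List ℕ)`.
Both come with one rule per statement, counted loops (`PD.iter`, `PR.iter`), monotonicity.
A family of procedures is verified by an induction over a measure that the user chooses: the rule
`PD.call` asks for `PD m pr (pbody pr j) (g v) n t D`.
-/

set_option autoImplicit false

namespace Crest.Agent.R288.Plt365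

open Crest.Agent.R295 Crest.Agent.R295.HL Crest.Agent.R295.Pt949 Crest.Agent.R295.Rnd627
open Crest.Agent.R288.Rec690 Crest.Agent.R288.Pl726 Crest.Agent.R288.Bridge331
open Crest.Agent.Lib.PT (PTF)

/-- parameters of the pure machine -/
structure PP where
  /-- read-only arrays -/
  O : ℕ → ℕ → ℕ
  /-- word bound -/
  B : ℕ
  /-- index bound -/
  L : ℕ
  /-- bound for the length of the environments -/
  S : ℕ
  /-- there is a word -/
  hB : 0 < B

/-- the pure environment on a stream -/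
def PP.pe (m : PP) (ρ : ℕ → ℕ) : PEnv :=
  ⟨m.O, fun i => ρ i % m.B, m.B, m.L, m.S⟩

/-- result of the leaf command -/
def PP.X (m : PP) (u : List ℕ) : ℕ := m.O 50 (Encodable.encode u)

/-- time of the leaf command -/
def PP.XT (m : PP) (u : List ℕ) : ℕ := m.O 51 (Encodable.encode u)

/-- admissible environments -/
def PP.Fits (m : PP) (v : List ℕ) : Prop := v.length ≤ m.S ∧ ∀ x ∈ v, x < m.B

/-- realisation of a randomized computation with the number of statements -/
def PR (m : PP) (pr : List PS) (p : PS) (v : List ℕ) (t : RT (List ℕ × ℕ)) (D : ℕ) : Prop :=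
  ∀ ρ i, ∃ n d, PEx (m.pe ρ) pr p v i (t.val m.B ρ i).1 (t.nxt m.B ρ i) n d ∧
    n ≤ (t.val m.B ρ i).2 ∧ d ≤ D

/-- realisation of a randomized computation with at most `n` statements -/
def PD (m : PP) (pr : List PS) (p : PS) (v : List ℕ) (n : ℕ) (t : RT (List ℕ)) (D : ℕ) : Prop :=
  ∀ ρ i, ∃ n' d, PEx (m.pe ρ) pr p v i (t.val m.B ρ i) (t.nxt m.B ρ i) n' d ∧ n' ≤ n ∧ d ≤ D

section rules

variable {m : PP} {pr : List PS} {p q : PS} {v : List ℕ} {n n' k D D' : ℕ}

/-! ### values of all results -/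

theorem all_val {α : Type} {M : ℕ} (hM : 0 < M) {t : RT α} {P : α → Prop} (h : t.All M P)
    (ρ : ℕ → ℕ) (i : ℕ) : P (t.val M ρ i) := h.val hM ρ i

/-! ### fixed number of statements -/

theorem PD.mono {t : RT (List ℕ)} (h : PD m pr p v n t D) (hn : n ≤ n') (hD : D ≤ D') :
    PD m pr p v n' t D' := by
  intro ρ i
  obtain ⟨a, d, h1, h2, h3⟩ := h ρ i
  exact ⟨a, d, h1, h2.trans hn, h3.trans hD⟩

theorem PD.congr {t t' : RT (List ℕ)} (h : PD m pr p v n t D)
    (ht : ∀ ρ i, t.run m.B ρ i = t'.run m.B ρ i) : PD m pr p v n t' D := by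
  intro ρ i
  have := h ρ i
  unfold RT.val RT.nxt at this ⊢
  rwa [ht] at this

theorem PD.skip : PD m pr .skip v 1 (.ret v) D := fun _ _ => ⟨1, 0, PEx.skip, le_rfl, Nat.zero_le _⟩

theorem PD.asg {f : List ℕ → List ℕ} (hf : PTF f) (h : m.Fits (f v)) :
    PD m pr (.asg f hf) v 1 (.ret (f v)) D := fun _ _ => ⟨1, 0, PEx.asg h, le_rfl, Nat.zero_le _⟩

theorem PD.rnd (h : ∀ r < m.B, m.Fits (r :: v)) :
    PD m pr .rnd v 1 (.rnd fun r => .ret (r :: v)) D := by
  intro ρ i
  refine ⟨1, 0, ?_, le_rfl, Nat.zero_le _⟩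
  exact PEx.rnd (e := m.pe ρ) (h _ (Nat.mod_lt _ m.hB))

theorem PD.rd {k : ℕ} {g : List ℕ → ℕ} (hg : PTF g) (hk : k < 50) (hL : g v < m.L)
    (h : m.Fits (m.O k (g v) :: v)) :
    PD m pr (.rd k g hg) v 1 (.ret (m.O k (g v) :: v)) D := fun ρ _ =>
  ⟨1, 0, PEx.rd (e := m.pe ρ) hk hL h, le_rfl, Nat.zero_le _⟩

theorem PD.ext {g : List ℕ → List ℕ} (hg : PTF g) (h5 : (g v).length = 5) (h1 : m.Fits (g v))
    (h : m.Fits (m.X (g v) :: v)) :
    PD m pr (.ext g hg) v (m.XT (g v) + 1) (.ret (m.X (g v) :: v)) D := fun ρ _ =>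
  ⟨m.XT (g v) + 1, 0, PEx.ext (e := m.pe ρ) h5 h1 h, le_rfl, Nat.zero_le _⟩

theorem PD.call {j : ℕ} {g : List ℕ → List ℕ} (hg : PTF g) {t : RT (List ℕ)} (h1 : m.Fits (g v))
    (h2 : PD m pr (pbody pr j) (g v) n t D) (h3 : t.All m.B fun u => m.Fits (u.length :: (u ++ v))) :
    PD m pr (.call j g hg) v (n + 1) (t.map fun u => u.length :: (u ++ v)) (D + 1) := by
  intro ρ i
  obtain ⟨a, d, h4, h5, h6⟩ := h2 ρ i
  rw [val_map, nxt_map]
  exact ⟨a + 1, d + 1, PEx.call h1 h4 (all_val m.hB h3 ρ i), by omega, by omega⟩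

theorem PD.seq {t : RT (List ℕ)} {f : List ℕ → RT (List ℕ)} {P : List ℕ → Prop}
    (h1 : PD m pr p v n t D) (hP : t.All m.B P) (h2 : ∀ u, P u → PD m pr q u n' (f u) D) :
    PD m pr (.seq p q) v (n + n' + 1) (t.bind f) D := by
  intro ρ i
  obtain ⟨a, d, h3, h4, h5⟩ := h1 ρ i
  obtain ⟨a', d', h6, h7, h8⟩ := h2 _ (all_val m.hB hP ρ i) ρ (t.nxt m.B ρ i)
  rw [val_bind, nxt_bind]
  exact ⟨_, _, PEx.seq h3 h6, by omega, max_le h5 h8⟩

/-- a deterministic statement first -/
theorem PD.seq_ret {u : List ℕ} {t : RT (List ℕ)} (h1 : PD m pr p v n (.ret u) D)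
    (h2 : PD m pr q u n' t D) : PD m pr (.seq p q) v (n + n' + 1) t D :=
  h1.seq (f := fun _ => t) (P := fun x => x = u) rfl fun _ hx => by rw [hx]; exact h2

/-- a deterministic statement last -/
theorem PD.seq_map {g : List ℕ → List ℕ} {t : RT (List ℕ)} {P : List ℕ → Prop}
    (h1 : PD m pr p v n t D) (hP : t.All m.B P) (h2 : ∀ u, P u → PD m pr q u n' (.ret (g u)) D) :
    PD m pr (.seq p q) v (n + n' + 1) (t.map g) D :=
  h1.seq hP h2

theorem PD.ite {g : List ℕ → Bool} (hg : PTF g) {t : RT (List ℕ)}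
    (h1 : g v = true → PD m pr p v n t D) (h2 : g v = false → PD m pr q v n t D) :
    PD m pr (.ite g hg p q) v (n + 1) t D := by
  intro ρ i
  cases hgv : g v with
  | true =>
    obtain ⟨a, d, h3, h4, h5⟩ := h1 hgv ρ i
    exact ⟨_, _, PEx.ite_true hgv h3, by omega, h5⟩
  | false =>
    obtain ⟨a, d, h3, h4, h5⟩ := h2 hgv ρ i
    exact ⟨_, _, PEx.ite_false hgv h3, by omega, h5⟩

theorem PD.ite_true {g : List ℕ → Bool} (hg : PTF g) {t : RT (List ℕ)} (hgv : g v = true)
    (h1 : PD m pr p v n t D) : PD m pr (.ite g hg p q) v (n + 1) t D :=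
  PD.ite hg (fun _ => h1) fun h => by rw [hgv] at h; exact absurd h (by decide)

theorem PD.ite_false {g : List ℕ → Bool} (hg : PTF g) {t : RT (List ℕ)} (hgv : g v = false)
    (h1 : PD m pr q v n t D) : PD m pr (.ite g hg p q) v (n + 1) t D :=
  PD.ite hg (fun h => by rw [hgv] at h; exact absurd h (by decide)) fun _ => h1

theorem PD.whl_done {g : List ℕ → Bool} (hg : PTF g) (hgv : g v = false) :
    PD m pr (.whl g hg p) v 1 (.ret v) D := fun _ _ =>
  ⟨1, 0, PEx.whl_done hgv, le_rfl, Nat.zero_le _⟩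

theorem PD.whl_step {g : List ℕ → Bool} (hg : PTF g) (hgv : g v = true) {t : RT (List ℕ)}
    {f : List ℕ → RT (List ℕ)} {P : List ℕ → Prop} (h1 : PD m pr p v n t D) (hP : t.All m.B P)
    (h2 : ∀ u, P u → PD m pr (.whl g hg p) u n' (f u) D) :
    PD m pr (.whl g hg p) v (n + n' + 1) (t.bind f) D := by
  intro ρ i
  obtain ⟨a, d, h3, h4, h5⟩ := h1 ρ i
  obtain ⟨a', d', h6, h7, h8⟩ := h2 _ (all_val m.hB hP ρ i) ρ (t.nxt m.B ρ i)
  rw [val_bind, nxt_bind]
  exact ⟨_, _, PEx.whl_step hgv h3 h6, by omega, max_le h5 h8⟩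

/-- **counted loop**: invariant `I j u` (`j` = number of the round), at most `c j` statements in
round `j`; the round `j` realises `f j` -/
theorem PD.iterFrom {g : List ℕ → Bool} (hg : PTF g) (I : ℕ → List ℕ → Prop) (c : ℕ → ℕ)
    (f : ℕ → List ℕ → RT (List ℕ)) (N a : ℕ) (h0 : I a v) (hend : ∀ u, I (a + N) u → g u = false)
    (hrun : ∀ j u, a ≤ j → j < a + N → I j u → g u = true ∧ PD m pr p u (c j) (f j u) D ∧
      (f j u).All m.B (I (j + 1))) :
    PD m pr (.whl g hg p) v ((∑ j ∈ Finset.range N, (c (a + j) + 1)) + 1)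
      (RT.iterFrom f a N v) D := by
  induction N generalizing a v with
  | zero =>
    rw [RT.iterFrom_zero]
    exact (PD.whl_done hg (hend v h0)).mono (by simp) le_rfl
  | succ N ih =>
    obtain ⟨h1, h2, h3⟩ := hrun a v le_rfl (by omega) h0
    rw [RT.iterFrom_succ]
    refine (PD.whl_step hg h1 h2 h3 (n' := (∑ j ∈ Finset.range N, (c (a + 1 + j) + 1)) + 1)
      fun u hu => ?_).mono ?_ le_rfl
    · refine ih (a + 1) hu (fun u' hu' => hend u' ?_) fun j u' hj hj' hu' =>
        hrun j u' (by omega) (by omega) hu'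
      rwa [show a + (N + 1) = a + 1 + N by omega]
    · rw [Finset.sum_range_succ']
      have : ∀ j, c (a + (j + 1)) = c (a + 1 + j) := fun j => by congr 1; omega
      simp only [this, add_zero]
      omega

theorem PD.iter {g : List ℕ → Bool} (hg : PTF g) (I : ℕ → List ℕ → Prop) (c : ℕ → ℕ)
    (f : ℕ → List ℕ → RT (List ℕ)) (N : ℕ) (h0 : I 0 v) (hend : ∀ u, I N u → g u = false)
    (hrun : ∀ j u, j < N → I j u → g u = true ∧ PD m pr p u (c j) (f j u) D ∧
      (f j u).All m.B (I (j + 1))) :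
    PD m pr (.whl g hg p) v ((∑ j ∈ Finset.range N, (c j + 1)) + 1) (RT.iter N f v) D := by
  have := PD.iterFrom (m := m) (pr := pr) (p := p) (v := v) (D := D) hg I c f N 0 h0
    (by simpa using hend) fun j u _ hj hu => hrun j u (by omega) hu
  simpa [RT.iter] using this

end rules

/-! ### typed environments -/

section typed

variable {σ τ α β γ : Type} [Crest.Agent.Lib.PT.PTCode σ] [Crest.Agent.Lib.PT.PTCode τ]
  [Crest.Agent.Lib.PT.PTCode α] [Crest.Agent.Lib.PT.PTCode β] [Crest.Agent.Lib.PT.PTCode γ]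
  [Flat σ] [Flat τ] [Flat α] [Flat β] [Flat γ]
variable {m : PP} {pr : List PS} {p q : PS} {n n' k D D' : ℕ} {s : σ}

/-- a typed value is an admissible environment -/
def FT (m : PP) (s : σ) : Prop := m.Fits (tow s)

/-- number of words of a typed value -/
def sz (s : σ) : ℕ := (tow s).length

/-- all words of a typed value are `< B` -/
def Wd (B : ℕ) (s : σ) : Prop := ∀ x ∈ (tow s : List ℕ), x < B

theorem FT.mk (h : sz s ≤ m.S) (h' : Wd m.B s) : FT m s := ⟨h, h'⟩

theorem ft_iff : FT m s ↔ sz s ≤ m.S ∧ Wd m.B s := Iff.rfl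

@[simp] theorem sz_nat (a : ℕ) : sz a = 1 := rfl
@[simp] theorem sz_bool (a : Bool) : sz a = 1 := rfl
@[simp] theorem sz_list (a : List ℕ) : sz a = a.length + 1 := rfl
@[simp] theorem sz_prod (a : σ) (b : τ) : sz (a, b) = sz a + sz b := by
  simp [sz]
@[simp] theorem wd_nat (B a : ℕ) : Wd B a ↔ a < B := by simp [Wd]
theorem wd_bool {B : ℕ} (hB : 1 < B) (a : Bool) : Wd B a := by
  cases a <;> simp [Wd] <;> omega
@[simp] theorem wd_list (B : ℕ) (a : List ℕ) : Wd B a ↔ a.length < B ∧ ∀ x ∈ a, x < B := by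
  simp [Wd]
@[simp] theorem wd_prod (B : ℕ) (a : σ) (b : τ) : Wd B (a, b) ↔ Wd B a ∧ Wd B b := by
  simp [Wd, or_imp, forall_and]

/-- typed realisation -/
def TD (m : PP) (pr : List PS) (p : PS) (s : σ) (n : ℕ) (t : RT τ) (D : ℕ) : Prop :=
  PD m pr p (tow s) n (t.map tow) D

theorem TD.mono {t : RT τ} (h : TD m pr p s n t D) (hn : n ≤ n') (hD : D ≤ D') :
    TD m pr p s n' t D' := PD.mono h hn hD

/-- typed assignment -/
noncomputable def tasg (f : σ → τ) (hf : PTF f) : PS := .asg (flat f) (ptf_flat hf)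

theorem TD.asg {f : σ → τ} (hf : PTF f) (h : FT m (f s)) :
    TD m pr (tasg f hf) s 1 (.ret (f s)) D := by
  have := PD.asg (m := m) (pr := pr) (v := tow s) (D := D) (ptf_flat hf) (by rw [flat_tow]; exact h)
  rw [flat_tow] at this
  exact this

/-- typed scalar function -/
def flatN (g : σ → ℕ) (l : List ℕ) : ℕ := g (frw l : σ × List ℕ).1

theorem frw_tow' (s : σ) : (frw (tow s) : σ × List ℕ).1 = s := by
  have := Flat.frw_tow s []
  rw [List.append_nil] at this
  rw [this]

theorem flatN_tow (g : σ → ℕ) (s : σ) : flatN g (tow s) = g s := by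
  rw [flatN, frw_tow']

theorem ptf_flatN {g : σ → ℕ} (hg : PTF g) : PTF (flatN g) := by
  have h1 := Flat.ptf_frw (α := σ)
  unfold flatN
  exact PTF.comp hg (PTF.comp (g := Prod.fst) PTF.fst h1)

/-- typed test -/
def flatB (g : σ → Bool) (l : List ℕ) : Bool := g (frw l : σ × List ℕ).1

theorem flatB_tow (g : σ → Bool) (s : σ) : flatB g (tow s) = g s := by
  rw [flatB, frw_tow']

theorem ptf_flatB {g : σ → Bool} (hg : PTF g) : PTF (flatB g) := by
  have h1 := Flat.ptf_frw (α := σ)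
  unfold flatB
  exact PTF.comp hg (PTF.comp (g := Prod.fst) PTF.fst h1)

theorem TD.skip : TD m pr .skip s 1 (.ret s) D := PD.skip

/-- one random word is put in front -/
theorem TD.rnd (h : ∀ r < m.B, FT m (r, s)) : TD m pr .rnd s 1 (RT.draw.map fun r => (r, s)) D :=
  PD.rnd (m := m) (pr := pr) (v := tow s) (D := D) h

/-- typed read -/
noncomputable def trd (k : ℕ) (g : σ → ℕ) (hg : PTF g) : PS := .rd k (flatN g) (ptf_flatN hg)

theorem TD.rd {k : ℕ} {g : σ → ℕ} (hg : PTF g) (hk : k < 50) (hL : g s < m.L)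
    (h : FT m (m.O k (g s), s)) : TD m pr (trd k g hg) s 1 (.ret (m.O k (g s), s)) D := by
  have := PD.rd (m := m) (pr := pr) (v := tow s) (D := D) (k := k) (ptf_flatN hg) hk
    (by rw [flatN_tow]; exact hL) (by rw [flatN_tow]; exact h)
  rw [flatN_tow] at this
  exact this

/-- typed external command -/
noncomputable def text (g : σ → List ℕ) (hg : PTF g) : PS :=
  .ext (fun l => g (frw l : σ × List ℕ).1) (by
    have h1 := Flat.ptf_frw (α := σ)
    exact PTF.comp hg (PTF.comp (g := Prod.fst) PTF.fst h1))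

theorem TD.ext {g : σ → List ℕ} (hg : PTF g) (h5 : (g s).length = 5) (h1 : m.Fits (g s))
    (h : FT m (m.X (g s), s)) :
    TD m pr (text g hg) s (m.XT (g s) + 1) (.ret (m.X (g s), s)) D := by
  have := PD.ext (m := m) (pr := pr) (v := tow s) (D := D)
    (g := fun l => g (frw l : σ × List ℕ).1) (by
      have h1 := Flat.ptf_frw (α := σ)
      exact PTF.comp hg (PTF.comp (g := Prod.fst) PTF.fst h1))
    (by rw [frw_tow']; exact h5) (by rw [frw_tow']; exact h1) (by rw [frw_tow']; exact h)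
  rw [frw_tow'] at this
  exact this

/-- typed sequence -/
theorem TD.seq {t : RT τ} {f : τ → RT γ} {P : τ → Prop}
    (h1 : TD m pr p s n t D) (hP : t.All m.B P) (h2 : ∀ u, P u → TD m pr q u n' (f u) D) :
    TD m pr (.seq p q) s (n + n' + 1) (t.bind f) D := by
  intro ρ i
  obtain ⟨a, d, h3, h4, h5⟩ := h1 ρ i
  obtain ⟨a', d', h6, h7, h8⟩ := h2 _ (all_val m.hB hP ρ i) ρ (t.nxt m.B ρ i)
  rw [val_map, nxt_map] at h3 h6
  rw [val_map, nxt_map, val_bind, nxt_bind]
  exact ⟨_, _, PEx.seq h3 h6, by omega, max_le h5 h8⟩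

/-- a deterministic statement first -/
theorem TD.seq_ret {u : τ} {t : RT γ} (h1 : TD m pr p s n (.ret u) D)
    (h2 : TD m pr q u n' t D) : TD m pr (.seq p q) s (n + n' + 1) t D :=
  TD.seq (f := fun _ => t) (P := fun x => x = u) h1 rfl fun _ hx => by rw [hx]; exact h2

/-- a deterministic statement last -/
theorem TD.seq_map {g : τ → γ} {t : RT τ} {P : τ → Prop}
    (h1 : TD m pr p s n t D) (hP : t.All m.B P) (h2 : ∀ u, P u → TD m pr q u n' (.ret (g u)) D) :
    TD m pr (.seq p q) s (n + n' + 1) (t.map g) D :=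
  TD.seq h1 hP h2

/-- typed alternative -/
noncomputable def tite (g : σ → Bool) (hg : PTF g) (p q : PS) : PS :=
  .ite (flatB g) (ptf_flatB hg) p q

theorem TD.ite {g : σ → Bool} (hg : PTF g) {t : RT τ}
    (h1 : g s = true → TD m pr p s n t D) (h2 : g s = false → TD m pr q s n t D) :
    TD m pr (tite g hg p q) s (n + 1) t D :=
  PD.ite (ptf_flatB hg) (fun h => h1 (by rwa [flatB_tow] at h))
    fun h => h2 (by rwa [flatB_tow] at h)

/-- typed loop -/
noncomputable def twhl (g : σ → Bool) (hg : PTF g) (p : PS) : PS :=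
  .whl (flatB g) (ptf_flatB hg) p

theorem TD.whl_done {g : σ → Bool} (hg : PTF g) (hgs : g s = false) :
    TD m pr (twhl g hg p) s 1 (.ret s) D :=
  PD.whl_done (ptf_flatB hg) (by rwa [flatB_tow])

theorem TD.whl_step {g : σ → Bool} (hg : PTF g) (hgs : g s = true) {t : RT σ}
    {f : σ → RT σ} {P : σ → Prop} (h1 : TD m pr p s n t D) (hP : t.All m.B P)
    (h2 : ∀ u, P u → TD m pr (twhl g hg p) u n' (f u) D) :
    TD m pr (twhl g hg p) s (n + n' + 1) (t.bind f) D := by
  intro ρ i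
  obtain ⟨a, d, h3, h4, h5⟩ := h1 ρ i
  obtain ⟨a', d', h6, h7, h8⟩ := h2 _ (all_val m.hB hP ρ i) ρ (t.nxt m.B ρ i)
  rw [val_map, nxt_map] at h3 h6
  rw [val_map, nxt_map, val_bind, nxt_bind]
  exact ⟨_, _, PEx.whl_step (by rwa [flatB_tow]) h3 h6, by omega, max_le h5 h8⟩

/-- **typed counted loop** -/
theorem TD.iterFrom {g : σ → Bool} (hg : PTF g) (I : ℕ → σ → Prop) (c : ℕ → ℕ)
    (f : ℕ → σ → RT σ) (N a : ℕ) (h0 : I a s) (hend : ∀ u, I (a + N) u → g u = false)
    (hrun : ∀ j u, a ≤ j → j < a + N → I j u → g u = true ∧ TD m pr p u (c j) (f j u) D ∧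
      (f j u).All m.B (I (j + 1))) :
    TD m pr (twhl g hg p) s ((∑ j ∈ Finset.range N, (c (a + j) + 1)) + 1)
      (RT.iterFrom f a N s) D := by
  induction N generalizing a s with
  | zero =>
    rw [RT.iterFrom_zero]
    exact (TD.whl_done hg (hend s h0)).mono (by simp) le_rfl
  | succ N ih =>
    obtain ⟨h1, h2, h3⟩ := hrun a s le_rfl (by omega) h0
    rw [RT.iterFrom_succ]
    refine (TD.whl_step hg h1 h2 h3 (n' := (∑ j ∈ Finset.range N, (c (a + 1 + j) + 1)) + 1)
      fun u hu => ?_).mono ?_ le_rfl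
    · refine ih (a + 1) hu (fun u' hu' => hend u' ?_) fun j u' hj hj' hu' =>
        hrun j u' (by omega) (by omega) hu'
      rwa [show a + (N + 1) = a + 1 + N by omega]
    · rw [Finset.sum_range_succ']
      have : ∀ j, c (a + (j + 1)) = c (a + 1 + j) := fun j => by congr 1; omega
      simp only [this, add_zero]
      omega

theorem TD.iter {g : σ → Bool} (hg : PTF g) (I : ℕ → σ → Prop) (c : ℕ → ℕ)
    (f : ℕ → σ → RT σ) (N : ℕ) (h0 : I 0 s) (hend : ∀ u, I N u → g u = false)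
    (hrun : ∀ j u, j < N → I j u → g u = true ∧ TD m pr p u (c j) (f j u) D ∧
      (f j u).All m.B (I (j + 1))) :
    TD m pr (twhl g hg p) s ((∑ j ∈ Finset.range N, (c j + 1)) + 1) (RT.iter N f s) D := by
  have := TD.iterFrom (m := m) (pr := pr) (p := p) (s := s) (D := D) hg I c f N 0 h0
    (by simpa using hend) fun j u _ hj hu => hrun j u (by omega) hu
  simpa [RT.iter] using this

/-- typed call: procedure `j` on `g s`, its result `b` is combined with the environment by `h` -/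
noncomputable def tcal (j : ℕ) (g : σ → α) (hg : PTF g) (h : β × σ → τ) (hh : PTF h) : PS :=
  .seq (.call j (flat g) (ptf_flat hg))
    (.asg (flat fun x : ℕ × β × σ => h x.2) (ptf_flat (PTF.comp hh PTF.snd)))

theorem TD.call {j : ℕ} {g : σ → α} (hg : PTF g) {h : β × σ → τ} (hh : PTF h) {t : RT β}
    (h1 : FT m (g s)) (h2 : TD m pr (pbody pr j) (g s) n t D)
    (h3 : t.All m.B fun b => FT m (sz b, b, s) ∧ FT m (h (b, s))) :
    TD m pr (tcal j g hg h hh) s (n + 3) (t.map fun b => h (b, s)) (D + 1) := by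
  intro ρ i
  obtain ⟨a, d, h4, h5, h6⟩ := h2 ρ i
  rw [val_map, nxt_map] at h4
  rw [val_map, nxt_map, val_map, nxt_map]
  obtain ⟨h7, h8⟩ := all_val m.hB h3 ρ i
  have e1 : (tow (t.val m.B ρ i)).length :: (tow (t.val m.B ρ i) ++ tow s) =
      tow ((sz (t.val m.B ρ i), t.val m.B ρ i, s) : ℕ × β × σ) := rfl
  have e2 := flat_tow (fun x : ℕ × β × σ => h x.2) (sz (t.val m.B ρ i), t.val m.B ρ i, s)
  have c1 : PEx (m.pe ρ) pr (.call j (flat g) (ptf_flat hg)) (tow s) i _ _ _ _ :=
    PEx.call (by rw [flat_tow]; exact h1) (by rw [flat_tow]; exact h4) (by rw [e1]; exact h7)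
  rw [e1] at c1
  have c2 : PEx (m.pe ρ) pr (.asg (flat fun x : ℕ × β × σ => h x.2)
      (ptf_flat (PTF.comp hh PTF.snd))) (tow ((sz (t.val m.B ρ i), t.val m.B ρ i, s) : ℕ × β × σ))
      (t.nxt m.B ρ i) _ (t.nxt m.B ρ i) _ _ := PEx.asg (by rw [e2]; exact h8)
  rw [e2] at c2
  exact ⟨_, _, PEx.seq c1 c2, by omega, by simp; omega⟩

end typed

end Crest.Agent.R288.Plt365
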