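import Crest.Agent.R288.PlW_726
import Crest.Agent.R288.TapeHL_867

/-!
# R288, [TOPPL]: **S0433 from a deterministic PL program with a tape** (helper365)

`topPLT`: the program first computes the number `R = fR (|x| :: |y| :: L :: ratWords ε)` of tape
words (`fR` any `PTF` function, `L` = number of input words), draws `R` random words below
`2 ^ (2 size (|x|+|y|))` into array `15`, and then runs a PL program (`pr`, `mn`) without
randomness. If all tapes are good with probability `≥ 2/3` and on every good tape the PL program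
ends with a good answer within the fuel, S0433 follows.
-/

set_option autoImplicit false

namespace Crest.Agent.R288.PltB365

open Crest.Agent.R295 HL Pt949 Crest.Agent.R288.Rec690 Crest.Agent.R288.EnvM12
open Crest.GraphRAM Crest.Agent.R288.Ed Crest.Agent.R295.Rnd627
open Crest.Agent.R288.Lv Crest.Agent.R288.Top791 Crest.Agent.R288.Front327
open Crest.Agent.R288.Shell12 Crest.Agent.R295.TopH791 Crest.Agent.R288.Bridge331
open Crest.Agent.R288.LceA508 Crest.Agent.R288.Kmr725 Crest.Agent.R288.Num414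
open Crest.Agent.R288.Pl726 Crest.Agent.R288.TapeHL867 Crest.Agent.R295.Prob791
open Crest.Agent.Lib.PT (PTF)

/-- the number of tape words from the four inputs -/
def cntF (fR : List ℕ → ℕ) (p : ℕ × ℕ × ℕ × List ℕ) : ℕ := fR (initF p)

theorem ptf_cntF {fR : List ℕ → ℕ} (h : PTF fR) : PTF (cntF fR) := by
  unfold cntF
  exact PTF.comp h ptf_initF

/-- the number of tape words into variable `71` -/
noncomputable def cntC {fR : List ℕ → ℕ} (hR : PTF fR) : Cmd :=
  tcall 110 60 initIns (ptf_cntF hR) [.sc 71]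

/-- **the HL command**: number of tape words, tape, PL program -/
noncomputable def coreT {fR : List ℕ → ℕ} (hR : PTF fR) (pr : List PS) (mn : PS) : Cmd :=
  cntC hR ;; (drawT 73 (.lit 2 * .var 64) 15 70 71 72 ;; (.set 70 0 ;; (.set 72 0 ;; coreP pr mn)))

theorem initIns_ok {e : Env} {s : State} {n m l : ℕ} {z : List ℕ} (h65 : s.reg 65 = l)
    (h62 : s.reg 62 = n + m) (hl : l = n + m + 2 + z.length) (hlL : l ≤ e.L) (hlB : l < e.B) :
    ∀ j ∈ initIns, j.ok e 110 60 s := by
  intro j hj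
  simp only [initIns, List.mem_cons, List.not_mem_nil, or_false] at hj
  rcases hj with rfl | rfl | rfl | rfl
  · exact ⟨(show (60 : ℕ) < 110 by norm_num), trivial⟩
  · exact ⟨(show (61 : ℕ) < 110 by norm_num), trivial⟩
  · exact ⟨(show (65 : ℕ) < 110 by norm_num), trivial⟩
  · refine ⟨by norm_num, ⟨(show (62 : ℕ) < 110 by norm_num), trivial⟩,
      ⟨(show (65 : ℕ) < 110 by norm_num), (show (62 : ℕ) < 110 by norm_num), trivial⟩, ?_, ?_, ?_⟩
    · simp only [Exp.ok_add, Exp.ok_var, Exp.ok_lit, Exp.val_var, Exp.val_lit, true_and, h62]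
      omega
    · simp only [Exp.ok_sub, Exp.ok_add, Exp.ok_var, Exp.ok_lit, Exp.val_var, Exp.val_lit,
        true_and, h62]
      omega
    · simp only [Exp.val_sub, Exp.val_add, Exp.val_var, Exp.val_lit, h62, h65]
      omega

theorem cntC_runs {e : Env} {w : ℕ} (hw : e.B = 2 ^ w) (h2w : 2 ≤ w) (hLB : e.L ≤ e.B)
    {fR : List ℕ → ℕ} (hR : PTF fR) {s : State} (hs : s.Wf e) {n m l : ℕ} {z : List ℕ}
    (h60 : s.reg 60 = n) (h61 : s.reg 61 = m) (h65 : s.reg 65 = l)
    (h62 : s.reg 62 = n + m) (hl : l = n + m + 2 + z.length) (hz : s.Seg 0 (n + m + 2) z)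
    (hlL : l ≤ e.L) (hlB : l < e.B) (hv : fR (n :: m :: l :: z) < e.B) {N : ℕ}
    (hN : w + (z.length + 4) ≤ N) (hK : (tcallT (ptf_cntF hR)).eval N ≤ e.L) :
    Runs e (cntC hR) s ((tcallT (ptf_cntF hR)).eval N) (fun s' => s'.Wf e ∧
      s'.drawn = s.drawn ∧ s'.reg 71 = fR (n :: m :: l :: z) ∧
      (∀ x, x < 110 → x ≠ 71 → s'.reg x = s.reg x) ∧ ∀ k, k < 60 → s'.arr k = s.arr k) := by
  have hargs : args s initIns = tow ((n, m, l, z) : ℕ × ℕ × ℕ × List ℕ) :=
    args_init h60 h61 h65 h62 hl hz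
  have hlen : (tow ((n, m, l, z) : ℕ × ℕ × ℕ × List ℕ)).length = z.length + 4 := by
    simp only [tow_prod, tow_nat, tow_list, List.length_append, List.length_cons, List.length_nil]
    omega
  have hc : (tcallT (ptf_cntF hR)).eval (w + (tow ((n, m, l, z) : ℕ × ℕ × ℕ × List ℕ)).length) ≤
      (tcallT (ptf_cntF hR)).eval N := by
    rw [hlen]
    exact tcallT_mono _ hN
  have hval : cntF fR (n, m, l, z) = fR (n :: m :: l :: z) := rfl
  have h := tcall_runs (V := 110) (A := 60) hw h2w hLB hs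
    (initIns_ok h65 h62 hl hlL hlB) (ptf_cntF hR) hargs (outs := [.sc 71])
    (by rw [tow_nat]; exact (fit_sc _ _ _ _ _ _ _ _).2 ⟨by norm_num, (fit_nil _ _ _ _ _).2 trivial⟩)
    (by
      rw [tow_nat]
      intro x hx
      rw [List.mem_singleton] at hx
      rw [hx, hval]
      exact hv)
    (hc.trans hK)
  refine ((h.wf hw hs).mono hc ?_)
  rintro s' ⟨h3, h4⟩
  rw [tow_nat, putOuts_sc, putOuts_nil, hval] at h3
  refine ⟨h4, by rw [h3.drawn, State.setReg_drawn], ?_, ?_, ?_⟩
  · rw [h3.reg 71 (by norm_num), State.setReg_reg, if_pos rfl]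
  · intro x hx hx'
    rw [h3.reg x hx, State.setReg_reg, if_neg hx']
  · intro k hk
    rw [h3.arr k hk, State.setReg_arr]

theorem cntC_det {fR : List ℕ → ℕ} (hR : PTF fR) : (cntC hR).det := tcall_det

/-- **the tape program as a probabilistic triple** -/
theorem coreT_HPR {a : ℕ} {ε : ℚ} {x y : List ℕ} {fR : List ℕ → ℕ} {hfR : PTF fR} {pr : List PS}
    {mn : PS} {S n R : ℕ} {s : State} {δ : ℝ} (h10 : 10 ≤ x.length + y.length)
    (hA : AfterSt x y (ratWords ε) s) (hwf : s.Wf (eS a x y ε))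
    (hK : (allP pr mn).eval (wS a x y ε + (2 * S + 2)) ≤ (inp x y ε).length)
    (hK' : (tcallT (ptf_cntF hfR)).eval (wS a x y ε + (2 * S + 2)) ≤ (inp x y ε).length)
    (hS1 : (ratWords ε).length + 3 ≤ S) (hS2 : S ≤ (inp x y ε).length)
    (htot : tot (pr.map tr) (tr (mainP mn)) ≤ (inp x y ε).length)
    (hR : fR (x.length :: y.length :: (inp x y ε).length :: ratWords ε) = R)
    (hR2 : R ≤ (x.length + y.length) ^ 2) (G : (ℕ → ℕ) → Prop)
    (hG : ∀ (T : ℕ) (ρ0 : ℕ → ℕ), cnt (2 ^ (2 * Nat.size (x.length + y.length))) (R + T) 0 ρ0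
      (fun ρ => ¬ G ρ) ≤ δ * ((2 ^ (2 * Nat.size (x.length + y.length)) : ℕ) : ℝ) ^ (R + T))
    (hT : ∀ τ, G τ → ∀ pe : PEnv, PIn x y ε pe → pe.S = S →
      pe.B = 2 ^ wS a x y ε →
      (∀ i < R, pe.O 15 i = τ i % 2 ^ (2 * Nat.size (x.length + y.length))) → ∀ i,
      ∃ (u : List ℕ) (t d : ℕ), PEx pe pr mn
        (x.length :: y.length :: (inp x y ε).length :: ratWords ε) i u i t d ∧
        GoodD ε x y (u.headD 0) ∧ t ≤ n ∧ d ≤ (inp x y ε).length) :
    HPR (wl a x y ε) (((inp x y ε).length + 2) ^ 2) (coreT hfR pr mn) s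
      ((tcallT (ptf_cntF hfR)).eval (wS a x y ε + (2 * S + 2)) + (8 * R + 5 + (2 +
        ((allP pr mn).eval (wS a x y ε + (2 * S + 2)) + cst (pr.map tr) (tr (mainP mn)) *
        ((n + 2) * (3 * (allP pr mn).eval (wS a x y ε + (2 * S + 2)) + 30) + 1) + 2))))
      (fun s' => GoodD ε x y (s'.reg 0)) δ := by
  have hge := inp_ge x y ε
  have hcube := cube_le_wS a x y ε
  have hcube' := cube_le_two_wl a x y ε
  have hsz := size_lt_wS a x y ε
  have hwS : wS a x y ε ≤ wl a x y ε := min_le_left _ _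
  have hli : (inp x y ε).length = x.length + y.length + 2 + (ratWords ε).length := by
    rw [inp_length]; omega
  set L := (inp x y ε).length with hL
  set w := wl a x y ε with hw
  set W := wS a x y ε with hWd
  set r := 2 * Nat.size (x.length + y.length) with hr
  have hWw : 2 ^ W ≤ 2 ^ w := Nat.pow_le_pow_right (by norm_num) hwS
  have hrW : 2 ^ r < 2 ^ W := Nat.pow_lt_pow_right (by norm_num) hsz
  have hmin : min r w = r := min_eq_left (by omega)
  have h3L : 3 ≤ S := by omega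
  obtain ⟨q1, q2, q3, q4⟩ := nums (L := L) (B := 2 ^ W) (by omega) hcube
  have h2W : 2 ≤ W := by
    by_contra hc
    have : 2 ^ W ≤ 2 ^ 1 := Nat.pow_le_pow_right (by norm_num) (by omega)
    omega
  have hML : (x.length + y.length) ^ 2 ≤ (L + 2) ^ 2 := Nat.pow_le_pow_left (by omega) 2
  have hMr : (x.length + y.length) ^ 2 < 2 ^ r := by
    rw [hr, mul_comm, pow_mul]
    exact Nat.pow_lt_pow_left (Nat.lt_size_self _) (by norm_num)
  have hseg : s.Seg 0 (x.length + y.length + 2) (ratWords ε) := by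
    intro j hj
    rw [hA.inp]
    have hlen : (stringsInput x y).length = x.length + y.length + 2 := by
      simp only [stringsInput, List.length_cons, List.length_append]
    rw [List.getElem?_append_right (by omega), hlen, Nat.add_sub_cancel_left,
      List.getElem?_eq_getElem hj]
    rfl
  have hword : ∀ b ∈ x.length :: y.length :: L :: ratWords ε, b < 2 ^ W := by
    intro b hb
    have hb3 : b < L + 2 := by
      rw [List.mem_cons, List.mem_cons, List.mem_cons] at hb
      rcases hb with rfl | rfl | rfl | hb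
      · omega
      · omega
      · omega
      · have := ratWords_le_two ε b hb
        omega
    omega
  -- the number of tape words
  have h1 := cntC_runs (e := eS a x y ε) (w := W) (l := L) rfl h2W q1.le hfR hwf hA.n hA.m
    (show s.reg 65 = L from hA.li) hA.M hli
    hseg (show L ≤ (L + 2) ^ 2 by omega) (show L < 2 ^ W by omega)
    (show _ < 2 ^ W by rw [hR]; omega) (N := W + (2 * S + 2)) (by omega)
    (show _ ≤ (L + 2) ^ 2 by omega)
  unfold coreT
  refine HPR.seq_det (cntC_det hfR) (ρ₁ := fun _ => 0)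
    (Runs.env (e := eS a x y ε) (e' := ⟨2 ^ w, (L + 2) ^ 2, fun _ => 0⟩) hWw le_rfl h1
      (cntC_det hfR)) ?_ le_rfl
  rintro s1 ⟨k1, k2, k3, k4, k5⟩ -
  have k64 : s1.reg 64 = Nat.size (x.length + y.length) := by
    rw [k4 64 (by norm_num) (by norm_num), hA.lv]
  have kd : s1.drawn = 0 := by rw [k2, hA.dr]
  -- the tape
  refine tape_core (W := r) (D := R) (m := 2 + ((allP pr mn).eval (W + (2 * S + 2)) +
    cst (pr.map tr) (tr (mainP mn)) * ((n + 2) * (3 * (allP pr mn).eval (W + (2 * S + 2)) + 30) +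
    1) + 2)) ?_ ?_ (by norm_num) (by norm_num) (by norm_num) (by rw [k3, hR]) (by omega)
    (by rw [hmin]; omega) (by norm_num) (by norm_num) (by norm_num) G ?_ ?_ le_rfl
  · intro ρ
    simp only [Exp.ok_mul, Exp.ok_lit, Exp.ok_var, Exp.val_lit, Exp.val_var, true_and, k64]
    have : r < 2 ^ w := lt_of_lt_of_le (lt_of_le_of_lt (Nat.lt_two_pow_self (n := r)).le hrW) hWw
    omega
  · simp only [Exp.val_mul, Exp.val_lit, Exp.val_var, k64, hr]
  · rw [hmin, kd]
    exact hG
  rintro s2 ⟨⟨τ, hτ, g1⟩, g2, g3, g4⟩ ρ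
  rw [hmin] at g1
  have g1g : ∀ i < R, s2.arr 15 i = τ i % 2 ^ r := fun i hi => by
    rw [g1.get i hi, kd, Nat.zero_add]
  -- clean up
  set s3 := (s2.setReg 70 0).setReg 72 0 with hs3
  have e1 : Ex ⟨2 ^ w, (L + 2) ^ 2, ρ⟩ (.set 70 0) s2 (s2.setReg 70 0) 1 := by
    have := Ex.set (e := ⟨2 ^ w, (L + 2) ^ 2, ρ⟩) (x := 70) (a := 0) (s := s2) (by
      simp only [Exp.ok_zero]
      exact Nat.two_pow_pos w)
    simpa only [Exp.val_zero] using this
  have e2 : Ex ⟨2 ^ w, (L + 2) ^ 2, ρ⟩ (.set 72 0) (s2.setReg 70 0) s3 1 := by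
    have := Ex.set (e := ⟨2 ^ w, (L + 2) ^ 2, ρ⟩) (x := 72) (a := 0) (s := s2.setReg 70 0) (by
      simp only [Exp.ok_zero]
      exact Nat.two_pow_pos w)
    simpa only [Exp.val_zero] using this
  have r3 : ∀ j, j ≠ 70 → j ≠ 72 → j ≠ 73 → s3.reg j = s1.reg j := by
    intro j j1 j2 j3
    rw [hs3, State.setReg_reg, if_neg j2, State.setReg_reg, if_neg j1, g2 j j1 j2 j3]
  have a3 : ∀ j, s3.arr j = s2.arr j := fun j => rfl
  have d3 : s3.drawn = R := by
    show s2.drawn = R
    rw [g1.drawn, kd, Nat.zero_add]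
  have w3 : s3.Wf (eS a x y ε) := by
    refine ⟨fun j => ?_, fun k i => ?_⟩
    · show s3.reg j < 2 ^ W
      by_cases j1 : j = 70
      · rw [hs3, State.setReg_reg, if_neg (by omega), State.setReg_reg, if_pos j1]
        exact Nat.two_pow_pos W
      by_cases j2 : j = 72
      · rw [hs3, State.setReg_reg, if_pos j2]
        exact Nat.two_pow_pos W
      by_cases j3 : j = 73
      · rw [hs3, State.setReg_reg, if_neg j2, State.setReg_reg, if_neg j1, j3, g3]
        exact lt_of_lt_of_le (lt_of_le_of_lt (Nat.lt_two_pow_self (n := r)).le hrW) le_rfl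
      · rw [r3 j j1 j2 j3]
        exact k1.1 j
    · show s3.arr k i < 2 ^ W
      rw [a3]
      by_cases hk : k = 15
      · subst hk
        by_cases hi : i < R
        · rw [g1g i hi]
          exact lt_trans (Nat.mod_lt _ (Nat.two_pow_pos r)) hrW
        · rw [g1.out i (by omega)]
          exact k1.2 15 i
      · rw [g4 k hk]
        exact k1.2 k i
  have o3 : ∀ k, k < 60 → k ≠ 15 → s3.arr k = s.arr k := by
    intro k hk hk'
    rw [a3, g4 k hk', k5 k hk]
  set pe : PEnv := ⟨oraX x y s3, fun i => ρ i % 2 ^ w % 2 ^ r, 2 ^ W, (L + 2) ^ 2, S⟩ with hpe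
  have hPIn : PIn x y ε pe := by
    refine ⟨?_, ?_, ?_, ?_, oraX_X x y s3, oraX_XT x y s3, ?_, rfl, hcube, hrW.le⟩
    · intro i
      show oraX x y s3 0 i = _
      rw [oraX_lt x y s3 (by norm_num), o3 0 (by norm_num) (by norm_num)]
      exact hA.inp i
    · intro i hi
      show oraX x y s3 13 i = _
      rw [oraX_lt x y s3 (by norm_num), o3 13 (by norm_num) (by norm_num)]
      exact hA.str i hi
    · show Names _ _ (oraX x y s3 14)
      rw [oraX_lt x y s3 (by norm_num), o3 14 (by norm_num) (by norm_num)]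
      exact hA.names
    · intro k i hk
      show oraX x y s3 k i < _
      rw [oraX_lt x y s3 hk]
      exact w3.2 k i
    · intro u
      show oraX x y s3 50 _ < _
      rw [oraX_X x y s3 u]
      exact leafF_lt h10 hge q2 u
  obtain ⟨u, t, d, p1, p2, p3, p4⟩ := hT τ hτ pe hPIn rfl rfl (by
    intro i hi
    show oraX x y s3 15 i = _
    rw [oraX_lt x y s3 (by norm_num), a3, g1g i hi]) s3.drawn
  have hfit : pe.Fits (x.length :: y.length :: L :: ratWords ε) :=
    ⟨by simp only [List.length_cons]; exact hS1, hword⟩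
  have hfu : pe.Fits u := p1.fits hfit
  have hfh : pe.Fits (headF u) := by
    refine ⟨?_, ?_⟩
    · show 1 ≤ S
      omega
    · intro b hb
      rw [headF, List.mem_singleton] at hb
      rw [hb]
      cases hc : u with
      | nil => exact Nat.two_pow_pos W
      | cons c u' => exact hfu.2 _ (by rw [hc]; exact List.mem_cons_self)
  have h4 : PEx pe pr (mainP mn) (x.length :: y.length :: L :: ratWords ε) s3.drawn
      (headF u) s3.drawn (t + 1 + 1) (max d 0) := .seq p1 (.asg hfh)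
  have Gb : Big ⟨2 ^ w, (L + 2) ^ 2, ρ⟩ (eS a x y ε) pe w r :=
    ⟨rfl, hWw, le_rfl, fun i => rfl, hrW.le⟩
  have Mt : Mat (eS a x y ε) pe W := ⟨rfl, h2W, q1.le, rfl, rfl, show 1 ≤ S by omega, q3⟩
  have hd1 : (max d 0 + 1) * S ≤ (L + 2) ^ 2 := by
    rw [Nat.max_zero]
    exact nums2 hS2 (by omega)
  have hd2 : tot (pr.map tr) (tr (mainP mn)) * (max d 0 + 1) ≤ (L + 2) ^ 2 := by
    rw [Nat.max_zero, Nat.mul_comm]
    exact nums2 htot (by omega)
  have hseg3 : s3.Seg 0 (x.length + y.length + 2) (ratWords ε) := by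
    intro j hj
    rw [o3 0 (by norm_num) (by norm_num)]
    exact hseg j hj
  have hz : ∀ j, 60 ≤ j → j < 66 → s3.reg j = s.reg j := by
    intro j h1 h2
    rw [r3 j (by omega) (by omega) (by omega), k4 j (by omega) (by omega)]
  have hXO : XOk (eS a x y ε) pe x y := by
    have e1 : (x.length + y.length + 2) * (x.length + y.length + 2) ≤ (L + 2) ^ 2 := by
      rw [pow_two]
      exact Nat.mul_le_mul (by omega) (by omega)
    exact ⟨⟨h10, e1.trans q1.le, e1⟩, fun u _ => oraX_X x y s3 u,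
      fun u _ => (oraX_XT x y s3 u).ge⟩
  have hctx : LeafX222.Ctx x y s3 := by
    refine ⟨?_, ?_, ?_, ?_, ?_, ?_⟩
    · rw [hz 60 (by norm_num) (by norm_num), hA.n]
    · rw [hz 61 (by norm_num) (by norm_num), hA.m]
    · rw [hz 62 (by norm_num) (by norm_num), hA.M]
    · rw [hz 63 (by norm_num) (by norm_num), hA.d0]
    · rw [hz 64 (by norm_num) (by norm_num), hA.lv]
    · rw [o3 14 (by norm_num) (by norm_num)]
      exact hA.names
  have hrun := coreP_runs Gb Mt hXO (pr := pr) (mn := mn) (N := W + (2 * S + 2))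
    (n := x.length) (m := y.length) (l := L) (t := t + 1 + 1) (d := max d 0) (z := ratWords ε)
    (v' := headF u) (i' := s3.drawn) (s := s3) le_rfl
    (show (allP pr mn).eval (W + (2 * S + 2)) ≤ (L + 2) ^ 2 by omega)
    (by rw [hz 60 (by norm_num) (by norm_num), hA.n])
    (by rw [hz 61 (by norm_num) (by norm_num), hA.m])
    (by rw [hz 65 (by norm_num) (by norm_num)]; exact hA.li)
    (by rw [hz 62 (by norm_num) (by norm_num), hA.M]) hli hseg3
    (by rw [hz 64 (by norm_num) (by norm_num), hA.lv]) hrW hctx w3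
    (by rw [r3 100 (by norm_num) (by norm_num) (by norm_num), k4 100 (by norm_num) (by norm_num),
      hA.reg0 _ (by norm_num)])
    (by rw [r3 101 (by norm_num) (by norm_num) (by norm_num), k4 101 (by norm_num) (by norm_num),
      hA.reg0 _ (by norm_num)])
    (fun k hk => (oraX_lt x y s3 hk).symm) (show L ≤ (L + 2) ^ 2 by omega) (show L < 2 ^ W by omega) hfit
    h4 ⟨_, rfl⟩ hd1 (show S < 2 ^ W by omega) (show _ < 2 ^ w by omega) hd2
    (show _ < 2 ^ w by omega)
  obtain ⟨s4, t4, b1, b2, b3, b4⟩ := hrun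
  refine ⟨s4, _, Ex.seq e1 (Ex.seq e2 b1), ?_, ?_⟩
  · have h7 : t + 1 + 1 ≤ n + 2 := by omega
    have h8 := Nat.add_le_add_right (Nat.add_le_add_left (Nat.mul_le_mul_left
      (cst (pr.map tr) (tr (mainP mn))) (Nat.add_le_add_right (Nat.mul_le_mul_right
      (3 * (allP pr mn).eval (W + (2 * S + 2)) + 30) h7) 1))
      ((allP pr mn).eval (W + (2 * S + 2)))) 2
    omega
  · show GoodD ε x y (s4.reg 0)
    rw [b4]
    exact p2

/-- arithmetic of the fuel -/
theorem fuel_arithT (c k r c1 k1 r1 C j L K K' R : ℕ) (hK : K ≤ og c1 k1 r1 j L)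
    (hK' : K' ≤ og c1 k1 r1 j L) (hR : R ≤ fuc c k r j L) :
    K' + (8 * R + 5 + (2 + (K + C * ((fuc c k r j L + 2) * (3 * K + 30) + 1) + 2))) ≤
      fuc (c1 + 8 * c + 7 + (c1 + C * ((c + 2) * (3 * c1 + 30) + 1) + 2)) (k + k1) (r + r1) j L := by
  have h1 := fuel_arith c k r c1 k1 r1 C j L K hK
  have h2 : K' ≤ fuc c1 (k + k1) (r + r1) j L := by
    rw [fuc_eq]
    refine (hK'.trans (og_mono (k' := k + k1) (r' := r + r1) le_rfl (by omega) (by omega)
      j L)).trans ?_
    exact Nat.le_mul_of_pos_left _ (by omega)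
  have h3 : R ≤ fuc c (k + k1) (r + r1) j L := by
    refine hR.trans ?_
    rw [fuc_eq, fuc_eq]
    exact Nat.mul_le_mul_left _ (og_mono le_rfl (by omega) (by omega) j L)
  have h4 : 1 ≤ fuc 1 (k + k1) (r + r1) j L := by
    rw [fuc_eq]
    exact (const_le_og 1 (k + k1) (r + r1) j L).trans (Nat.le_mul_of_pos_left _ (by omega))
  have e1 : fuc (c1 + 8 * c + 7 + (c1 + C * ((c + 2) * (3 * c1 + 30) + 1) + 2)) (k + k1) (r + r1)
      j L = fuc c1 (k + k1) (r + r1) j L + 8 * fuc c (k + k1) (r + r1) j L +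
        7 * fuc 1 (k + k1) (r + r1) j L +
        fuc (c1 + C * ((c + 2) * (3 * c1 + 30) + 1) + 2) (k + k1) (r + r1) j L := by
    simp only [fuc_eq]
    unfold og
    ring
  rw [e1]
  omega

/-- **S0433 from a deterministic PL program with a tape.** -/
theorem topPLT (km j c k r cS kS rS j₀ : ℕ) (hj : 1 ≤ j) (hcS : 4 ≤ cS) (hkS : 1 ≤ kS)
    (fR : List ℕ → ℕ) (hfR : PTF fR) (pr : List PS) (mn : PS)
    (H : ∀ (a : ℕ) (ε : ℚ), 0 < ε → ε < 1 → ∀ x y, Symb a x y → Mode2 km x y ε →
      2 ^ j₀ ≤ (inp x y ε).length → 10 ≤ x.length + y.length →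
      D0 (x.length + y.length) < editDist x y →
      fR (x.length :: y.length :: (inp x y ε).length :: ratWords ε) ≤
        (x.length + y.length) ^ 2 ∧
      fR (x.length :: y.length :: (inp x y ε).length :: ratWords ε) ≤
        fuc c k r j (inp x y ε).length ∧
      ∃ G : (ℕ → ℕ) → Prop,
        (∀ (T : ℕ) (ρ0 : ℕ → ℕ), cnt (2 ^ (2 * Nat.size (x.length + y.length)))
          (fR (x.length :: y.length :: (inp x y ε).length :: ratWords ε) + T) 0 ρ0
          (fun ρ => ¬ G ρ) ≤ 1 / 3 * ((2 ^ (2 * Nat.size (x.length + y.length)) : ℕ) : ℝ) ^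
            (fR (x.length :: y.length :: (inp x y ε).length :: ratWords ε) + T)) ∧
        ∀ τ, G τ → ∀ pe : PEnv, PIn x y ε pe → pe.S = og cS kS rS j (inp x y ε).length →
          (∀ i < fR (x.length :: y.length :: (inp x y ε).length :: ratWords ε),
            pe.O 15 i = τ i % 2 ^ (2 * Nat.size (x.length + y.length))) → ∀ i,
          ∃ (u : List ℕ) (t d : ℕ), PEx pe pr mn
            (x.length :: y.length :: (inp x y ε).length :: ratWords ε) i u i t d ∧
            GoodD ε x y (u.headD 0) ∧ t ≤ fuc c k r j (inp x y ε).length ∧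
            d ≤ (inp x y ε).length) :
    ∃ P : Crest.WordRAM.Program, ∀ (a : ℕ) (ε : ℚ), 0 < ε → ε < 1 →
      (∀ x y : List ℕ, (∀ s ∈ x ++ y, s < (x.length + y.length + 2) ^ a) →
        2 / 3 ≤ Crest.WordRAM.probHaltsWith P ((a + 3) * Nat.clog 2 ((stringsInput x y ++ ratWords ε).length + 2))
            (stringsInput x y ++ ratWords ε)
            (fun out => ∃ D : ℕ, out = [D] ∧ editDist x y ≤ D ∧
              (D : ℝ) ≤ (1 + (ε : ℝ)) * editDist x y)) ∧
      (∀ x y : List ℕ, (∀ s ∈ x ++ y, s < (x.length + y.length + 2) ^ a) → x = y →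
        ∀ ρ : ℕ → ℕ, ∃ T : ℕ, Crest.WordRAM.HaltsWithin P
            ((a + 3) * Nat.clog 2 ((stringsInput x y ++ ratWords ε).length + 2)) ρ
            (stringsInput x y ++ ratWords ε) T [0]) ∧
      ∀ δ : ℝ, 0 < δ → ∃ N₀ : ℕ, ∀ x y : List ℕ, N₀ ≤ x.length + y.length →
        (∀ s ∈ x ++ y, s < (x.length + y.length + 2) ^ a) →
        Crest.WordRAM.expectedTime P ((a + 3) * Nat.clog 2 ((stringsInput x y ++ ratWords ε).length + 2))
            (stringsInput x y ++ ratWords ε)
          ≤ ENNReal.ofReal (((x.length + y.length : ℕ) : ℝ) ^ (1 + δ)) := by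
  -- the cost of one call
  obtain ⟨c1, k1, r1, hpoly⟩ := poly_og (allP pr mn + tcallT (ptf_cntF hfR)) (3 + (2 * cS + 2))
    (2 + kS) (0 + rS)
  -- thresholds
  obtain ⟨N, hN⟩ := Filter.eventually_atTop.1 (((ev_og hj c1 k1 r1).and (ev_og hj cS kS rS)).and
    (Filter.eventually_ge_atTop (tot (pr.map tr) (tr (mainP mn)))))
  set C := cst (pr.map tr) (tr (mainP mn)) with hC
  set c2 := c1 + 8 * c + 7 + (c1 + C * ((c + 2) * (3 * c1 + 30) + 1) + 2) with hc2
  refine top433G km j (c2 + 5000) (k + k1 + 3) (r + r1) (max (max j₀ N) 6) hj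
    (shell (coreT hfR pr mn)) ?_
  intro a ε h0 h1 x y hs hm hj'
  have hj0 : 2 ^ j₀ ≤ (inp x y ε).length :=
    (Nat.pow_le_pow_right (by norm_num) ((le_max_left _ _).trans (le_max_left _ _))).trans hj'
  have hjN : 2 ^ N ≤ (inp x y ε).length :=
    (Nat.pow_le_pow_right (by norm_num) ((le_max_right _ _).trans (le_max_left _ _))).trans hj'
  have hj6 : 2 ^ 6 ≤ (inp x y ε).length :=
    (Nat.pow_le_pow_right (by norm_num) (le_max_right _ _)).trans hj'
  have hNL : N ≤ (inp x y ε).length := (Nat.lt_two_pow_self (n := N)).le.trans hjN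
  obtain ⟨⟨hn1, hn2⟩, hn3⟩ := hN _ hNL
  have h10 := ten_le hm hj6
  have hsym : ∀ b ∈ x ++ y,
      b < 2 ^ (Nat.clog 2 (inp x y ε).length * Nat.clog 2 (inp x y ε).length) := fun b hb =>
    lt_of_lt_of_le (hm.small b hb) (Nat.pow_le_pow_right (by norm_num)
      (Nat.mul_le_mul_right _ (slk_le _ _)))
  refine (shell_HPR_wf (m := fuc c2 (k + k1) (r + r1) j (inp x y ε).length) h0 hs hsym h10
    (by norm_num) ?_).mono (shFuel_add_le _ _ _ j _) (fun _ h => h) le_rfl
  intro s hA hwf hD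
  obtain ⟨hR2, hRf, G, hG, hT⟩ := H a ε h0 h1 x y hs hm hj0 h10 hD
  have hKog : (allP pr mn + tcallT (ptf_cntF hfR)).eval
      (wS a x y ε + (2 * og cS kS rS j (inp x y ε).length + 2)) ≤
      og c1 k1 r1 j (inp x y ε).length := by
    refine hpoly j _ _ ?_
    have e1 := wS_le_og a x y ε j
    have e2 : 2 * og cS kS rS j (inp x y ε).length + 2 ≤
        og (2 * cS + 2) kS rS j (inp x y ε).length := by
      have e3 : og (2 * cS + 2) kS rS j (inp x y ε).length =
          2 * og cS kS rS j (inp x y ε).length + og 2 kS rS j (inp x y ε).length := by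
        unfold og; ring
      have := const_le_og 2 kS rS j (inp x y ε).length
      omega
    exact (Nat.add_le_add e1 e2).trans (og_add _ _ _ _ _ _ _ _)
  rw [Polynomial.eval_add] at hKog
  have hK1 := (Nat.le_add_right _ _).trans hKog
  have hK2 := (Nat.le_add_left _ _).trans hKog
  exact (coreT_HPR (S := og cS kS rS j (inp x y ε).length) (hfR := hfR) h10 hA hwf
    (hK1.trans hn1) (hK2.trans hn1) (init_le_og hm hcS hkS j) hn2 hn3 rfl hR2 G hG
    (fun τ hτ pe h1 h2 _ h4 i => hT τ hτ pe h1 h2 h4 i)).mono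
    (fuel_arithT c k r c1 k1 r1 C j _ _ _ _ hK1 hK2 hRf) (fun _ h => h) le_rfl

end Crest.Agent.R288.PltB365
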