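import Crest.Agent.R288.NodeA_785
import Crest.Agent.R288.VI_684

/-!
# R288: the macro tree on POSITIONS (helper616, post 4770)

States of a block are pairs of positions `p, q ≤ m` of the second word (naturals).
`f : ℕ → ℕ → ℕ → ℕ → ℝ` = functions of (macro height `i`, block `j`, positions `p`, `q`).

* `dn`                : distance of two positions
* `row M n i j`       : left end of the block `j` of macro height `i` (`row .. (j+1)` = its right end)
* `GP x y n i j p q`  : exact cost; `GP_coer`, `GP_lip`, `GP_sub`, `GP_opt`, `GP_root`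
* `stairP f n j r`    : sum over the pieces of the staircase `r` (positions of the cuts `0 .. 2^n`)
* `lift m a b f`      : extension to all pairs of diagonals with the conventions of `VI_684`
  (`Coer`, `Lip`); `liftF M m n F i j`; `stair_lift`, `stair_lift_le`, `lift_at`.
-/

set_option autoImplicit false

namespace Crest.Agent.R288.Pos616

open Finset Crest.Agent.R288.VI684 Crest.Agent.R288.NodeA785
open Crest.Agent.R288.GameA347 (pos pos_le Adm coe_pos adm_of_pos pos_sub clip adm_clip pos_clip
  clip_of_adm g g_le_pathCost exists_pathCost pathCost G_ge_left G_ge_right G_lip_left G_lip_right)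

/-- distance of two positions -/
def dn (p q : ℕ) : ℕ := (p - q) + (q - p)

theorem dn_self (p : ℕ) : dn p p = 0 := by simp [dn]

theorem dn_comm (p q : ℕ) : dn p q = dn q p := by unfold dn; omega

theorem dn_tri (p q r : ℕ) : dn p r ≤ dn p q + dn q r := by unfold dn; omega

theorem dn_eq (p q : ℕ) : dn p q = ((p : ℤ) - q).natAbs := by unfold dn; omega

theorem dn_cast (p q : ℕ) : (dn p q : ℝ) = |(p : ℝ) - q| := by
  rw [dn_eq, Nat.cast_natAbs]
  push_cast
  rfl

theorem dz_natAbs (a b : ℤ) : dz a b = ((a - b).natAbs : ℝ) := by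
  rw [Nat.cast_natAbs]
  unfold dz
  push_cast
  rfl

/-! ## The rows -/

/-- left end of the block `j` of macro height `i` -/
def row (M n i j : ℕ) : ℕ := lo M (n * i) j

theorem row_mono (M n i : ℕ) : Monotone (row M n i) := fun _ _ h => lo_mono M (n * i) h

theorem row_le (M n i j : ℕ) : row M n i j ≤ M := lo_le _ _ _

/-- the ends of a block are ends of its pieces -/
theorem row_window (M n i j : ℕ) : row M n i (2 ^ n * j) = row M n (i + 1) j := by
  unfold row lo
  congr 1
  rw [mul_add, mul_one, pow_add]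
  ring

/-! ## Functions of positions -/

/-- functions of macro height, block, two positions -/
abbrev FP := ℕ → ℕ → ℕ → ℕ → ℝ

/-- `1`-Lipschitz on the positions `≤ m` -/
def LipP (m : ℕ) (f : ℕ → ℕ → ℝ) : Prop :=
  ∀ p q p' q', p ≤ m → q ≤ m → p' ≤ m → q' ≤ m → f p q ≤ f p' q' + (dn p p' + dn q q' : ℕ)

/-- displacement of a state of a block with ends `a`, `b` -/
def dsp (a b p q : ℕ) : ℤ := ((q : ℤ) - b) - ((p : ℤ) - a)

/-- at least the displacement -/
def CoerP (m a b : ℕ) (f : ℕ → ℕ → ℝ) : Prop :=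
  ∀ p q, p ≤ m → q ≤ m → |((dsp a b p q : ℤ) : ℝ)| ≤ f p q

/-- sum over the pieces of the staircase with cuts `r 0, …, r (2^n)` -/
noncomputable def stairP (f : ℕ → ℕ → ℕ → ℝ) (n j : ℕ) (r : ℕ → ℕ) : ℝ :=
  ∑ t ∈ range (2 ^ n), f (2 ^ n * j + t) (r t) (r (t + 1))

/-! ## The exact cost -/

section cost

variable (x y : List ℕ) (n : ℕ)

/-- exact cost of the block -/
def gP (i j p q : ℕ) : ℕ :=
  GameA347.G x y (row x.length n i j) (row x.length n i (j + 1)) p q

/-- exact cost as a real function -/
noncomputable def GP : FP := fun i j p q => (gP x y n i j p q : ℝ)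

theorem gP_eq_g {i j p q : ℕ} (hp : p ≤ y.length) (hq : q ≤ y.length) :
    gP x y n i j p q = g x y (row x.length n i j) (row x.length n i (j + 1))
      ((p : ℤ) - row x.length n i j) ((q : ℤ) - row x.length n i (j + 1)) := by
  unfold gP g
  rw [pos_sub _ _ _ hp, pos_sub _ _ _ hq]

theorem GP_lip (i j : ℕ) : LipP y.length (GP x y n i j) := by
  intro p q p' q' _ _ _ _
  have h1 := G_lip_left x y (row x.length n i j) (row x.length n i (j + 1)) p p' q
  have h2 := G_lip_right x y (row x.length n i j) (row x.length n i (j + 1)) p' q q'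
  have : gP x y n i j p q ≤ gP x y n i j p' q' + (dn p p' + dn q q') := by
    unfold gP dn
    omega
  unfold GP
  exact_mod_cast this

theorem GP_coer (i j : ℕ) :
    CoerP y.length (row x.length n i j) (row x.length n i (j + 1)) (GP x y n i j) := by
  intro p q hp hq
  have hab := row_mono x.length n i (Nat.le_succ j)
  have hb := row_le x.length n i (j + 1)
  have h1 := G_ge_left x y (a := row x.length n i j) (p := p) (q := q) hb
  have h2 := G_ge_right x y (a := row x.length n i j) (b := row x.length n i (j + 1)) (p := p)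
    (q := q) hq
  have h3 : (dsp (row x.length n i j) (row x.length n i (j + 1)) p q).natAbs
      ≤ gP x y n i j p q := by
    unfold dsp gP
    simp only [Nat.succ_eq_add_one] at hab
    omega
  have h4 : |((dsp (row x.length n i j) (row x.length n i (j + 1)) p q : ℤ) : ℝ)|
      = ((dsp (row x.length n i j) (row x.length n i (j + 1)) p q).natAbs : ℝ) := by
    rw [Nat.cast_natAbs]
    push_cast
    rfl
  rw [h4]
  unfold GP
  exact_mod_cast h3

theorem GP_nonneg (i j p q : ℕ) : 0 ≤ GP x y n i j p q := Nat.cast_nonneg _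

theorem stairP_GP (i j : ℕ) (r : ℕ → ℕ) : stairP (GP x y n i) n j r
    = ((∑ t ∈ range (2 ^ n), gP x y n i (2 ^ n * j + t) (r t) (r (t + 1)) : ℕ) : ℝ) := by
  rw [Nat.cast_sum]
  rfl

theorem rows_window (i j : ℕ) :
    row x.length n i (2 ^ n * j + 0) = row x.length n (i + 1) j ∧
    row x.length n i (2 ^ n * j + 2 ^ n) = row x.length n (i + 1) (j + 1) := by
  constructor
  · rw [add_zero, row_window]
  · rw [← row_window, mul_add, mul_one]

/-- every staircase costs at least the exact cost -/
theorem GP_sub (i j : ℕ) (r : ℕ → ℕ) (hr : ∀ t ≤ 2 ^ n, r t ≤ y.length) :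
    GP x y n (i + 1) j (r 0) (r (2 ^ n)) ≤ stairP (GP x y n i) n j r := by
  have hN : 0 < 2 ^ n := by positivity
  set R : ℕ → ℕ := fun k => row x.length n i (2 ^ n * j + k) with hR
  have hRm : Monotone R := fun a b h => row_mono x.length n i (by omega)
  have h := g_le_pathCost x y R hRm (fun k => (r k : ℤ) - R k) (2 ^ n) hN
  have e0 : R 0 = row x.length n (i + 1) j := (rows_window x n i j).1
  have e1 : R (2 ^ n) = row x.length n (i + 1) (j + 1) := (rows_window x n i j).2
  have h1 : gP x y n (i + 1) j (r 0) (r (2 ^ n))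
      = g x y (R 0) (R (2 ^ n)) ((r 0 : ℤ) - R 0) ((r (2 ^ n) : ℤ) - R (2 ^ n)) := by
    rw [gP_eq_g x y n (hr 0 (Nat.zero_le _)) (hr _ le_rfl), e0, e1]
  have h2 : pathCost x y R (fun k => (r k : ℤ) - R k) (2 ^ n)
      = ∑ t ∈ range (2 ^ n), gP x y n i (2 ^ n * j + t) (r t) (r (t + 1)) := by
    unfold pathCost
    refine sum_congr rfl fun t ht => ?_
    have ht' := mem_range.1 ht
    rw [gP_eq_g x y n (hr t (by omega)) (hr (t + 1) (by omega))]
    simp only [hR]
    rw [add_assoc]
  rw [h2, ← h1] at h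
  rw [stairP_GP]
  unfold GP
  exact_mod_cast h

/-- some staircase attains the exact cost -/
theorem GP_opt (i j p q : ℕ) (hp : p ≤ y.length) (hq : q ≤ y.length) :
    ∃ r : ℕ → ℕ, r 0 = p ∧ r (2 ^ n) = q ∧ (∀ t ≤ 2 ^ n, r t ≤ y.length) ∧
      stairP (GP x y n i) n j r = GP x y n (i + 1) j p q := by
  have hN : 0 < 2 ^ n := by positivity
  set R : ℕ → ℕ := fun k => row x.length n i (2 ^ n * j + k) with hR
  have hRm : Monotone R := fun a b h => row_mono x.length n i (by omega)
  have e0 : R 0 = row x.length n (i + 1) j := (rows_window x n i j).1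
  have e1 : R (2 ^ n) = row x.length n (i + 1) (j + 1) := (rows_window x n i j).2
  obtain ⟨w, hw0, hwN, hadm, hc⟩ := exists_pathCost x y R hRm (2 ^ n) hN
    ((p : ℤ) - R 0) ((q : ℤ) - R (2 ^ n))
  have hadm' : ∀ t ≤ 2 ^ n, Adm y.length (R t) (w t) := by
    intro t ht
    rcases Nat.eq_zero_or_pos t with h | h
    · subst h
      rw [hw0]
      exact adm_of_pos _ _ _ hp
    · rcases Nat.lt_or_ge t (2 ^ n) with h' | h'
      · exact hadm t h h'
      · obtain rfl : t = 2 ^ n := by omega
        rw [hwN]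
        exact adm_of_pos _ _ _ hq
  refine ⟨fun t => pos y.length (R t) (w t), ?_, ?_, fun t _ => pos_le _ _ _, ?_⟩
  · simp only [hw0]
    exact pos_sub _ _ _ hp
  · simp only [hwN]
    exact pos_sub _ _ _ hq
  · have h1 : gP x y n (i + 1) j p q
        = g x y (R 0) (R (2 ^ n)) ((p : ℤ) - R 0) ((q : ℤ) - R (2 ^ n)) := by
      rw [gP_eq_g x y n hp hq, e0, e1]
    have h2 : pathCost x y R w (2 ^ n)
        = ∑ t ∈ range (2 ^ n), gP x y n i (2 ^ n * j + t) (pos y.length (R t) (w t))
          (pos y.length (R (t + 1)) (w (t + 1))) := by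
      unfold pathCost
      refine sum_congr rfl fun t ht => ?_
      rfl
    rw [h2, ← h1] at hc
    rw [stairP_GP]
    unfold GP
    exact_mod_cast hc

/-- the root -/
theorem gP_root {H : ℕ} (hH : x.length ≤ 2 ^ (n * H)) :
    gP x y n H 0 0 y.length = Crest.GraphRAM.editDist x y := by
  unfold gP
  have h0 : row x.length n H 0 = 0 := by simp [row, lo]
  have h1 : row x.length n H (0 + 1) = x.length := hi_root hH
  rw [h0, h1]
  exact GameA347.G_root x y

end cost

/-! ## Extension to all diagonals -/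

section lift

/-- the projection to the box does not increase the distance, and pays for itself -/
theorem proj_lip (m a : ℕ) (u u' : ℤ) :
    dz (clip m a u) (clip m a u') + dz u (clip m a u) ≤ dz u u' + dz u' (clip m a u') := by
  simp only [dz_natAbs]
  have : (clip m a u - clip m a u').natAbs + (u - clip m a u).natAbs
      ≤ (u - u').natAbs + (u' - clip m a u').natAbs := by
    unfold clip pos
    omega
  exact_mod_cast this

variable (m a b : ℕ) (f : ℕ → ℕ → ℝ)

/-- extension of a function of two positions to all pairs of diagonals -/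
noncomputable def lift (u v : ℤ) : ℝ :=
  f (pos m a u) (pos m b v) + (dz u (clip m a u) + dz v (clip m b v))

variable {m a b f}

theorem lift_ge (u v : ℤ) : f (pos m a u) (pos m b v) ≤ lift m a b f u v := by
  unfold lift
  have := dz_nonneg u (clip m a u)
  have := dz_nonneg v (clip m b v)
  linarith

theorem lift_adm {u v : ℤ} (hu : Adm m a u) (hv : Adm m b v) :
    lift m a b f u v = f (pos m a u) (pos m b v) := by
  unfold lift
  rw [clip_of_adm hu, clip_of_adm hv, dz_self, dz_self]
  ring

theorem lift_at {p q : ℕ} (hp : p ≤ m) (hq : q ≤ m) :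
    lift m a b f ((p : ℤ) - a) ((q : ℤ) - b) = f p q := by
  rw [lift_adm (adm_of_pos _ _ _ hp) (adm_of_pos _ _ _ hq), pos_sub _ _ _ hp, pos_sub _ _ _ hq]

theorem dn_pos (u u' : ℤ) : (dn (pos m a u) (pos m a u') : ℝ) = dz (clip m a u) (clip m a u') := by
  rw [dz_natAbs, dn_eq]
  unfold clip
  congr 2
  ring

theorem lift_lip (h : LipP m f) : Lip (lift m a b f) := by
  intro u v u' v'
  have h1 := h (pos m a u) (pos m b v) (pos m a u') (pos m b v') (pos_le _ _ _) (pos_le _ _ _)
    (pos_le _ _ _) (pos_le _ _ _)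
  push_cast at h1
  rw [dn_pos, dn_pos] at h1
  have h2 := proj_lip m a u u'
  have h3 := proj_lip m b v v'
  unfold lift
  linarith

theorem lift_coer (h : CoerP m a b f) : Coer (lift m a b f) := by
  intro u v
  have h1 := h (pos m a u) (pos m b v) (pos_le _ _ _) (pos_le _ _ _)
  have h2 : |((dsp a b (pos m a u) (pos m b v) : ℤ) : ℝ)| = dz (clip m a u) (clip m b v) := by
    unfold dsp dz clip
    push_cast
    rw [abs_sub_comm]
  rw [h2] at h1
  have h3 := dz_tri u (clip m a u) v
  have h4 := dz_tri (clip m a u) (clip m b v) v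
  rw [dz_comm (clip m b v) v] at h4
  unfold lift
  linarith

theorem lift_mono {f' : ℕ → ℕ → ℝ} (h : ∀ p q, p ≤ m → q ≤ m → f p q ≤ f' p q) (u v : ℤ) :
    lift m a b f u v ≤ lift m a b f' u v := by
  unfold lift
  have := h (pos m a u) (pos m b v) (pos_le _ _ _) (pos_le _ _ _)
  linarith

/-- inequalities with a constant `c ≥ 1` survive the extension -/
theorem lift_le_mul {f' : ℕ → ℕ → ℝ} {c : ℝ} (hc : 1 ≤ c)
    (h : ∀ p q, p ≤ m → q ≤ m → f p q ≤ c * f' p q) (u v : ℤ) :
    lift m a b f u v ≤ c * lift m a b f' u v := by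
  unfold lift
  have h1 := h (pos m a u) (pos m b v) (pos_le _ _ _) (pos_le _ _ _)
  have h2 : 0 ≤ (c - 1) * (dz u (clip m a u) + dz v (clip m b v)) :=
    mul_nonneg (by linarith) (add_nonneg (dz_nonneg _ _) (dz_nonneg _ _))
  nlinarith

end lift

/-! ## The extended macro tree -/

section tree

variable (M m n : ℕ)

/-- extension of a function of (macro height, block, positions) -/
noncomputable def liftF (F : FP) : ℕ → ℕ → ℤ → ℤ → ℝ := fun i j =>
  lift m (row M n i j) (row M n i (j + 1)) (F i j)

/-- the box: both diagonals are admissible -/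
def Box (i j : ℕ) (u v : ℤ) : Prop := Adm m (row M n i j) u ∧ Adm m (row M n i (j + 1)) v

/-- positions of a staircase of diagonals through the block `j` of macro height `i + 1` -/
def toP (i j : ℕ) (c : ℕ → ℤ) (t : ℕ) : ℕ := pos m (row M n i (2 ^ n * j + t)) (c t)

/-- diagonals of a staircase of positions -/
def ofP (i j : ℕ) (r : ℕ → ℕ) (t : ℕ) : ℤ := (r t : ℤ) - row M n i (2 ^ n * j + t)

variable {M m n}

theorem toP_le (i j : ℕ) (c : ℕ → ℤ) (t : ℕ) : toP M m n i j c t ≤ m := pos_le _ _ _

theorem liftF_at {F : FP} {i j p q : ℕ} (hp : p ≤ m) (hq : q ≤ m) :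
    liftF M m n F i j ((p : ℤ) - row M n i j) ((q : ℤ) - row M n i (j + 1)) = F i j p q :=
  lift_at hp hq

theorem liftF_box {F : FP} {i j : ℕ} {u v : ℤ} (h : Box M m n i j u v) :
    liftF M m n F i j u v
      = F i j (pos m (row M n i j) u) (pos m (row M n i (j + 1)) v) := lift_adm h.1 h.2

theorem box_at {i j p q : ℕ} (hp : p ≤ m) (hq : q ≤ m) :
    Box M m n i j ((p : ℤ) - row M n i j) ((q : ℤ) - row M n i (j + 1)) :=
  ⟨adm_of_pos _ _ _ hp, adm_of_pos _ _ _ hq⟩

/-- the sum over the extended staircase is at least the sum over the positions plus the distance of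
the two ends from the box -/
theorem stair_lift (F : FP) (i j : ℕ) (c : ℕ → ℤ) :
    stairP (F i) n j (toP M m n i j c)
      + (dz (c 0) (clip m (row M n (i + 1) j) (c 0))
        + dz (c (2 ^ n)) (clip m (row M n (i + 1) (j + 1)) (c (2 ^ n))))
      ≤ stair (liftF M m n F i) n j c := by
  have hN : 0 < 2 ^ n := by positivity
  have e0 : row M n i (2 ^ n * j + 0) = row M n (i + 1) j := by rw [add_zero, row_window]
  have e1 : row M n i (2 ^ n * j + 2 ^ n) = row M n (i + 1) (j + 1) := by
    rw [← row_window, mul_add, mul_one]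
  set d : ℕ → ℝ := fun t => dz (c t) (clip m (row M n i (2 ^ n * j + t)) (c t)) with hd
  have hd0 : ∀ t, 0 ≤ d t := fun t => dz_nonneg _ _
  have h1 : stair (liftF M m n F i) n j c
      = stairP (F i) n j (toP M m n i j c)
        + (∑ t ∈ range (2 ^ n), d t + ∑ t ∈ range (2 ^ n), d (t + 1)) := by
    unfold stair stairP liftF lift toP
    rw [← sum_add_distrib, ← sum_add_distrib]
    refine sum_congr rfl fun t _ => ?_
    simp only [hd, add_assoc]
  have h2 : d 0 ≤ ∑ t ∈ range (2 ^ n), d t :=
    single_le_sum (fun t _ => hd0 t) (mem_range.2 hN)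
  have h3 : d (2 ^ n) ≤ ∑ t ∈ range (2 ^ n), d (t + 1) := by
    have := single_le_sum (f := fun t => d (t + 1)) (fun t _ => hd0 (t + 1))
      (mem_range.2 (show 2 ^ n - 1 < 2 ^ n by omega))
    rwa [show 2 ^ n - 1 + 1 = 2 ^ n by omega] at this
  have h4 : d 0 = dz (c 0) (clip m (row M n (i + 1) j) (c 0)) := by simp only [hd, e0]
  have h5 : d (2 ^ n) = dz (c (2 ^ n)) (clip m (row M n (i + 1) (j + 1)) (c (2 ^ n))) := by
    simp only [hd, e1]
  rw [h1, ← h4, ← h5]
  linarith

/-- a staircase of positions -/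
theorem stair_ofP (F : FP) (i j : ℕ) {r : ℕ → ℕ} (hr : ∀ t ≤ 2 ^ n, r t ≤ m) :
    stair (liftF M m n F i) n j (ofP M n i j r) = stairP (F i) n j r := by
  unfold stair stairP ofP
  refine sum_congr rfl fun t ht => ?_
  have ht' := mem_range.1 ht
  rw [← liftF_at (M := M) (m := m) (n := n) (F := F) (hr t (by omega)) (hr (t + 1) (by omega)),
    add_assoc]

/-- transfer of an inequality 'value at the block ≤ sum over every staircase + error' -/
theorem sub_lift {F E : FP} {i j : ℕ}
    (h : ∀ r : ℕ → ℕ, (∀ t ≤ 2 ^ n, r t ≤ m) →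
      F (i + 1) j (r 0) (r (2 ^ n)) ≤ stairP (F i) n j r + E (i + 1) j (r 0) (r (2 ^ n)))
    (c : ℕ → ℤ) :
    liftF M m n F (i + 1) j (c 0) (c (2 ^ n))
      ≤ stair (liftF M m n F i) n j c + liftF M m n E (i + 1) j (c 0) (c (2 ^ n)) := by
  have h1 := h (toP M m n i j c) fun t _ => toP_le _ _ _ _
  have h2 := stair_lift (M := M) (m := m) (n := n) F i j c
  have e0 : toP M m n i j c 0 = pos m (row M n (i + 1) j) (c 0) := by
    unfold toP; rw [add_zero, row_window]
  have e1 : toP M m n i j c (2 ^ n) = pos m (row M n (i + 1) (j + 1)) (c (2 ^ n)) := by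
    unfold toP; rw [show 2 ^ n * j + 2 ^ n = 2 ^ n * (j + 1) by ring, row_window]
  rw [e0, e1] at h1
  have h3 : E (i + 1) j (pos m (row M n (i + 1) j) (c 0))
      (pos m (row M n (i + 1) (j + 1)) (c (2 ^ n)))
      ≤ liftF M m n E (i + 1) j (c 0) (c (2 ^ n)) := lift_ge _ _
  have h4 : liftF M m n F (i + 1) j (c 0) (c (2 ^ n))
      = F (i + 1) j (pos m (row M n (i + 1) j) (c 0))
          (pos m (row M n (i + 1) (j + 1)) (c (2 ^ n)))
        + (dz (c 0) (clip m (row M n (i + 1) j) (c 0))
          + dz (c (2 ^ n)) (clip m (row M n (i + 1) (j + 1)) (c (2 ^ n)))) := rfl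
  rw [h4]
  linarith

end tree

/-! ## The exact game in the conventions of `VI_684` -/

section game

variable (x y : List ℕ) (n : ℕ)

/-- extended exact cost -/
noncomputable def GZ : ℕ → ℕ → ℤ → ℤ → ℝ := liftF x.length y.length n (GP x y n)

theorem GZ_coer (i j : ℕ) : Coer (GZ x y n i j) := lift_coer (GP_coer x y n i j)

theorem GZ_lip (i j : ℕ) : Lip (GZ x y n i j) := lift_lip (GP_lip x y n i j)

theorem GZ_sub (i j : ℕ) (c : ℕ → ℤ) :
    GZ x y n (i + 1) j (c 0) (c (2 ^ n)) ≤ stair (GZ x y n i) n j c := by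
  have h1 := stair_lift (M := x.length) (m := y.length) (n := n) (GP x y n) i j c
  have h2 := GP_sub x y n i j (toP x.length y.length n i j c) fun t _ => toP_le _ _ _ _
  have e0 : toP x.length y.length n i j c 0
      = pos y.length (row x.length n (i + 1) j) (c 0) := by
    unfold toP; rw [add_zero, row_window]
  have e1 : toP x.length y.length n i j c (2 ^ n)
      = pos y.length (row x.length n (i + 1) (j + 1)) (c (2 ^ n)) := by
    unfold toP; rw [show 2 ^ n * j + 2 ^ n = 2 ^ n * (j + 1) by ring, row_window]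
  rw [e0, e1] at h2
  unfold GZ at *
  unfold liftF lift at *
  linarith

/-- an optimal staircase of a state of the box, inside the box -/
theorem GZ_opt (i j : ℕ) {u v : ℤ} (h : Box x.length y.length n (i + 1) j u v) :
    ∃ c : ℕ → ℤ, c 0 = u ∧ c (2 ^ n) = v ∧
      (∀ t < 2 ^ n, Box x.length y.length n i (2 ^ n * j + t) (c t) (c (t + 1))) ∧
      stair (GZ x y n i) n j c = GZ x y n (i + 1) j u v := by
  obtain ⟨r, h0, hN, hr, he⟩ := GP_opt x y n i j
    (pos y.length (row x.length n (i + 1) j) u)
    (pos y.length (row x.length n (i + 1) (j + 1)) v) (pos_le _ _ _) (pos_le _ _ _)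
  refine ⟨ofP x.length n i j r, ?_, ?_, fun t ht => ?_, ?_⟩
  · unfold ofP
    rw [h0, add_zero, row_window, coe_pos h.1]
    ring
  · unfold ofP
    rw [hN, show 2 ^ n * j + 2 ^ n = 2 ^ n * (j + 1) by ring, row_window, coe_pos h.2]
    ring
  · unfold ofP
    exact ⟨adm_of_pos _ _ _ (hr t (by omega)), by
      rw [← add_assoc]
      exact adm_of_pos _ _ _ (hr (t + 1) (by omega))⟩
  · unfold GZ
    rw [stair_ofP _ _ _ hr, he, liftF_box h]

end game

end Crest.Agent.R288.Pos616
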