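import Crest.Agent.R288.PotF_245

/-!
# R288: one epoch of the scheme "from above" (posts 4352, 4412) in pointwise potential form

Notation of `PotF_245`: abstract macro tree, `pc h x m` = pieces of the staircase `m` at `x`,
`a = v - u` (additive), `F ≥ |a|` the unit / plan function of the epoch, `Φ = a²/F + 2F`,
`En = ∑ F_j (a_j/F_j - a/F)²`.

* `Phi_step'` : if `F(x) ≤ ∑ F(y_j) + d` then `∑ Φ(y_j) ≥ Φ(x) + En + (∑ F(y_j) - F(x))⁺ - 2 d`.
* `closure'` : if `R(x) ≤ ∑ R(y_j) + κ F(x)` at good windows (`En ≤ s² F`, `∑ F(y_j) - F ≤ s F`,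
  `d ≤ s F`) and `R(x) ≤ ∑ R(y_j) + k1 (F(x) + (∑ F(y_j) - F(x))⁺)` at all windows, then
  `(R + λΦ)(x) ≤ ∑ (R + λΦ)(y_j) + κ F(x) + (2λ + k1/s) d`, where `k1 (1 + s²) ≤ λ s²`.
* `epoch_bound` : **`R ≤ (1 + c + κ₁ h) V` at EVERY state** (`V` = exact cost `G`; only its optimal
  staircase is used), `κ₁ = κ CF + (2λ + k1/s) kd`, `F ≤ CF V`, `d ≤ kd V`. With `F ≤ A V` and
  `d = Ĉ/J ≤ (A/J) V` (`A` = factor of the previous epoch) the new factor is
  `1 + c + h (κ + (2λ + k1/s)/J) A`.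
* `factor_iter` : iteration of `A' ≤ b + q A`.
-/

set_option autoImplicit false

namespace Crest.Agent.R288.PotA245

open Crest.Agent.R288.PotF245

universe u v

section lists

variable {α : Type*} {F a : α → ℝ}

/-- **the potential grows along every move**, general defect `d` -/
theorem Phi_step' (hFa : ∀ y, |a y| ≤ F y) {A Fx d : ℝ} (hA : |A| ≤ Fx) (hx : 0 < Fx)
    (hd0 : 0 ≤ d) (l : List α) (hsum : (l.map a).sum = A) (hd : Fx ≤ (l.map F).sum + d) :
    A ^ 2 / Fx + 2 * Fx + En F a (A / Fx) l + max ((l.map F).sum - Fx) 0 - 2 * d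
      ≤ (l.map (Phi F a)).sum := by
  have h := Phi_step (k := d / Fx) hFa hA hx (div_nonneg hd0 hx.le) l hsum
    (by rw [div_mul_cancel₀ _ hx.ne']; exact hd)
  rwa [div_mul_cancel₀ _ hx.ne'] at h

theorem sum_split {R P : α → ℝ} (lam : ℝ) (l : List α) :
    (l.map fun y => R y + lam * P y).sum = (l.map R).sum + lam * (l.map P).sum := by
  induction l with
  | nil => simp
  | cons y l ih =>
    simp only [List.map_cons, List.sum_cons, ih]
    ring

/-- **closure at one state** -/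
theorem closure' {R : α → ℝ} (hFa : ∀ y, |a y| ≤ F y) {A Fx Rx d k1 κ s lam : ℝ}
    (hA : |A| ≤ Fx) (hx : 0 < Fx) (hd0 : 0 ≤ d) (hk1 : 0 ≤ k1) (hκ : 0 ≤ κ) (hs : 0 < s)
    (hs1 : s ≤ 1) (hlam : k1 * (1 + s ^ 2) ≤ lam * s ^ 2)
    (l : List α) (hsum : (l.map a).sum = A) (hd : Fx ≤ (l.map F).sum + d)
    (hnear : En F a (A / Fx) l ≤ s ^ 2 * Fx → (l.map F).sum - Fx ≤ s * Fx → d ≤ s * Fx →
      Rx ≤ (l.map R).sum + κ * Fx)
    (hall : Rx ≤ (l.map R).sum + k1 * (Fx + max ((l.map F).sum - Fx) 0)) :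
    Rx + lam * (A ^ 2 / Fx + 2 * Fx)
      ≤ (l.map fun y => R y + lam * Phi F a y).sum + (κ * Fx + (2 * lam + k1 / s) * d) := by
  have hs2 : (0 : ℝ) < s ^ 2 := by positivity
  have hlk : k1 ≤ lam := by
    by_contra h
    push Not at h
    nlinarith [mul_lt_mul_of_pos_right h hs2]
  have hlam0 : 0 ≤ lam := hk1.trans hlk
  have hs2' : s ^ 2 ≤ s := by nlinarith
  have hP := Phi_step' hFa hA hx hd0 l hsum hd
  have hE := En_nonneg (F := F) (a := a) (fun y => (abs_nonneg _).trans (hFa y)) (A / Fx) l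
  have hP' := mul_le_mul_of_nonneg_left hP hlam0
  rw [sum_split]
  have hm : 0 ≤ max ((l.map F).sum - Fx) 0 := le_max_right _ _
  have hmle : (l.map F).sum - Fx ≤ max ((l.map F).sum - Fx) 0 := le_max_left _ _
  generalize max ((l.map F).sum - Fx) 0 = D at *
  generalize En F a (A / Fx) l = E at *
  have hks : 0 ≤ k1 / s * d := mul_nonneg (div_nonneg hk1 hs.le) hd0
  by_cases hdd : d ≤ s * Fx
  · by_cases hn : E ≤ s ^ 2 * Fx ∧ (l.map F).sum - Fx ≤ s * Fx
    · have h1 := hnear hn.1 hn.2 hdd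
      nlinarith [mul_nonneg hlam0 hE, mul_nonneg hlam0 hm]
    · have h2 : s ^ 2 * Fx ≤ E + D := by
        by_contra hc
        push Not at hc
        apply hn
        constructor
        · linarith
        · nlinarith
      have h4 : k1 * (Fx + D) ≤ lam * (E + D) := by
        have h5 : 0 ≤ lam - k1 := by linarith
        have h6 : (lam - k1) * (s ^ 2 * Fx) ≤ (lam - k1) * (E + D) :=
          mul_le_mul_of_nonneg_left h2 h5
        have h7 : k1 * Fx ≤ (lam - k1) * (s ^ 2 * Fx) := by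
          have : k1 ≤ (lam - k1) * s ^ 2 := by nlinarith
          calc k1 * Fx ≤ ((lam - k1) * s ^ 2) * Fx := mul_le_mul_of_nonneg_right this hx.le
            _ = _ := by ring
        nlinarith [mul_nonneg hk1 hE]
      nlinarith [mul_nonneg hκ hx.le]
  · push Not at hdd
    have h3 : k1 * Fx ≤ k1 / s * d := by
      rw [div_mul_eq_mul_div, le_div_iff₀ hs]
      nlinarith [mul_le_mul_of_nonneg_left hdd.le hk1]
    nlinarith [mul_nonneg hκ hx.le, mul_nonneg (sub_nonneg.2 hlk) hm, mul_nonneg hlam0 hE]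

end lists

section tree

variable {S : ℕ → Type u} {M : ∀ h, S (h + 1) → Type v}

/-- **one epoch, pointwise at every state** -/
theorem epoch_bound (pc : ∀ h (x : S (h + 1)), M h x → List (S h)) {F a R V : ∀ h, S h → ℝ}
    {k1 κ s lam c CF kd κ₁ : ℝ}
    (hFa : ∀ h y, |a h y| ≤ F h y) (hV0 : ∀ h y, 0 ≤ V h y)
    (hk1 : 0 ≤ k1) (hκ : 0 ≤ κ) (hs : 0 < s) (hs1 : s ≤ 1) (hc : 0 ≤ c)
    (hlam : k1 * (1 + s ^ 2) ≤ lam * s ^ 2) (hκ₁ : κ * CF + (2 * lam + k1 / s) * kd ≤ κ₁)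
    (hκ₁0 : 0 ≤ κ₁)
    (hleaf : ∀ x, R 0 x + lam * Phi (F 0) (a 0) x ≤ (1 + c) * V 0 x)
    (hstep : ∀ h (x : S (h + 1)),
      R (h + 1) x + lam * Phi (F (h + 1)) (a (h + 1)) x ≤ (1 + c) * V (h + 1) x ∨
      ∃ m : M h x, ∃ d : ℝ, ((pc h x m).map (V h)).sum ≤ V (h + 1) x ∧
        0 < F (h + 1) x ∧ F (h + 1) x ≤ CF * V (h + 1) x ∧
        0 ≤ d ∧ d ≤ kd * V (h + 1) x ∧
        ((pc h x m).map (a h)).sum = a (h + 1) x ∧
        F (h + 1) x ≤ ((pc h x m).map (F h)).sum + d ∧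
        (En (F h) (a h) (a (h + 1) x / F (h + 1) x) (pc h x m) ≤ s ^ 2 * F (h + 1) x →
          ((pc h x m).map (F h)).sum - F (h + 1) x ≤ s * F (h + 1) x →
          d ≤ s * F (h + 1) x →
          R (h + 1) x ≤ ((pc h x m).map (R h)).sum + κ * F (h + 1) x) ∧
        R (h + 1) x ≤ ((pc h x m).map (R h)).sum
          + k1 * (F (h + 1) x + max (((pc h x m).map (F h)).sum - F (h + 1) x) 0)) :
    ∀ h (x : S h), R h x + lam * Phi (F h) (a h) x ≤ (1 + c + κ₁ * h) * V h x := by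
  have hs2 : (0 : ℝ) < s ^ 2 := by positivity
  have hlk : k1 ≤ lam := by
    by_contra h
    push Not at h
    nlinarith [mul_lt_mul_of_pos_right h hs2]
  have hlam0 : 0 ≤ lam := hk1.trans hlk
  have hq : 0 ≤ 2 * lam + k1 / s := add_nonneg (by linarith) (div_nonneg hk1 hs.le)
  intro h
  induction h with
  | zero => intro x; simpa using hleaf x
  | succ h ih =>
    intro x
    have hV := hV0 (h + 1) x
    have hcast : ((h + 1 : ℕ) : ℝ) = h + 1 := by push_cast; ring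
    rcases hstep h x with h1 | ⟨m, d, hVm, hF0, hFV, hd0, hdV, hsum, hd, hnear, hall⟩
    · have : 0 ≤ κ₁ * ((h + 1 : ℕ) : ℝ) * V (h + 1) x :=
        mul_nonneg (mul_nonneg hκ₁0 (Nat.cast_nonneg _)) hV
      nlinarith
    · have hcl := closure' (R := R h) (hFa h) (Rx := R (h + 1) x) (d := d) (k1 := k1) (κ := κ)
        (s := s) (lam := lam) (hFa (h + 1) x) hF0 hd0 hk1 hκ hs hs1 hlam (pc h x m) hsum hd
        hnear hall
      have h2 : ((pc h x m).map fun y => R h y + lam * Phi (F h) (a h) y).sum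
          ≤ (1 + c + κ₁ * h) * ((pc h x m).map (V h)).sum := by
        generalize pc h x m = l
        induction l with
        | nil => simp
        | cons y l ihl =>
          simp only [List.map_cons, List.sum_cons]
          have := ih y
          nlinarith
      have h3 : 0 ≤ 1 + c + κ₁ * (h : ℝ) := by positivity
      have h4 := mul_le_mul_of_nonneg_left hVm h3
      have h5 : κ * F (h + 1) x + (2 * lam + k1 / s) * d ≤ κ₁ * V (h + 1) x := by
        calc κ * F (h + 1) x + (2 * lam + k1 / s) * d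
            ≤ κ * (CF * V (h + 1) x) + (2 * lam + k1 / s) * (kd * V (h + 1) x) :=
              add_le_add (mul_le_mul_of_nonneg_left hFV hκ) (mul_le_mul_of_nonneg_left hdV hq)
          _ = (κ * CF + (2 * lam + k1 / s) * kd) * V (h + 1) x := by ring
          _ ≤ _ := mul_le_mul_of_nonneg_right hκ₁ hV
      have h6 : Phi (F (h + 1)) (a (h + 1)) x
          = a (h + 1) x ^ 2 / F (h + 1) x + 2 * F (h + 1) x := rfl
      rw [h6, hcast]
      nlinarith

/-- the same, conclusion for `R` alone -/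
theorem epoch_bound_R (pc : ∀ h (x : S (h + 1)), M h x → List (S h)) {F a R V : ∀ h, S h → ℝ}
    {k1 κ s lam c CF kd κ₁ : ℝ}
    (hFa : ∀ h y, |a h y| ≤ F h y) (hV0 : ∀ h y, 0 ≤ V h y)
    (hk1 : 0 ≤ k1) (hκ : 0 ≤ κ) (hs : 0 < s) (hs1 : s ≤ 1) (hc : 0 ≤ c)
    (hlam : k1 * (1 + s ^ 2) ≤ lam * s ^ 2) (hκ₁ : κ * CF + (2 * lam + k1 / s) * kd ≤ κ₁)
    (hκ₁0 : 0 ≤ κ₁)
    (hleaf : ∀ x, R 0 x + lam * Phi (F 0) (a 0) x ≤ (1 + c) * V 0 x)
    (hstep : ∀ h (x : S (h + 1)),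
      R (h + 1) x + lam * Phi (F (h + 1)) (a (h + 1)) x ≤ (1 + c) * V (h + 1) x ∨
      ∃ m : M h x, ∃ d : ℝ, ((pc h x m).map (V h)).sum ≤ V (h + 1) x ∧
        0 < F (h + 1) x ∧ F (h + 1) x ≤ CF * V (h + 1) x ∧
        0 ≤ d ∧ d ≤ kd * V (h + 1) x ∧
        ((pc h x m).map (a h)).sum = a (h + 1) x ∧
        F (h + 1) x ≤ ((pc h x m).map (F h)).sum + d ∧
        (En (F h) (a h) (a (h + 1) x / F (h + 1) x) (pc h x m) ≤ s ^ 2 * F (h + 1) x →
          ((pc h x m).map (F h)).sum - F (h + 1) x ≤ s * F (h + 1) x →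
          d ≤ s * F (h + 1) x →
          R (h + 1) x ≤ ((pc h x m).map (R h)).sum + κ * F (h + 1) x) ∧
        R (h + 1) x ≤ ((pc h x m).map (R h)).sum
          + k1 * (F (h + 1) x + max (((pc h x m).map (F h)).sum - F (h + 1) x) 0)) (h : ℕ)
    (x : S h) : R h x ≤ (1 + c + κ₁ * h) * V h x := by
  have hs2 : (0 : ℝ) < s ^ 2 := by positivity
  have hlk : k1 ≤ lam := by
    by_contra h
    push Not at h
    nlinarith [mul_lt_mul_of_pos_right h hs2]
  have h1 := epoch_bound pc hFa hV0 hk1 hκ hs hs1 hc hlam hκ₁ hκ₁0 hleaf hstep h x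
  have h2 := mul_nonneg (hk1.trans hlk) (Phi_nonneg (hFa h) x)
  linarith

end tree

/-- iteration of the factors: `A (e+1) ≤ b + q A e`, `q < 1` -/
theorem factor_iter {A : ℕ → ℝ} {b q B : ℝ} (hb : 0 ≤ b) (hq0 : 0 ≤ q) (hq : q < 1) (h0 : A 0 ≤ B)
    (hA : ∀ e, A (e + 1) ≤ b + q * A e) (e : ℕ) : A e ≤ b / (1 - q) + q ^ e * B := by
  have hq1 : 0 < 1 - q := by linarith
  induction e with
  | zero =>
    have : 0 ≤ b / (1 - q) := div_nonneg hb hq1.le
    simpa using by linarith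
  | succ e ih =>
    have h1 := mul_le_mul_of_nonneg_left ih hq0
    have h2 : b + q * (b / (1 - q)) = b / (1 - q) := by field_simp; ring
    calc A (e + 1) ≤ b + q * A e := hA e
      _ ≤ b + q * (b / (1 - q) + q ^ e * B) := by linarith
      _ = (b + q * (b / (1 - q))) + q ^ (e + 1) * B := by ring
      _ = _ := by rw [h2]

end Crest.Agent.R288.PotA245
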