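import Mathlib

/-!
# R288: the potential `Φ = (v-u)²/F + 2F` and the macro induction (posts 4274, 4288, 4323)

Abstract macro tree as in `Look_134`: `S h` = states with `h` macro levels below them, `pc h x m` = the
list of the pieces of the move (staircase) `m : M h x` at `x : S (h+1)`.

* `F ≥ |a|` : the prediction function (average of value iteration), `a = v - u` the signed
  displacement, additive along every move.
* `En` : `∑ F_j (a_j/F_j - θ)²`, `θ = a/F`; `Dr` : `∑ F_j - F` (drift).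
* `Phi_step` : **`∑ Φ(y_j) ≥ Φ(x) + En + Dr⁺ - 2 k F(x)`** if `Dr ≥ -k F(x)`.
* `closure` : a function `R` with `R(x) ≤ ∑ R(y_j) + κ' W` at moves with `En ≤ s² F`, `Dr ≤ s F` and
  `R(x) ≤ ∑ R(y_j) + k1 F(x)` always satisfies
  `(R + λΦ)(x) ≤ ∑ (R + λΦ)(y_j) + κ' F(x) + 2 λ k F(x)`, `λ = k1/s²`.
* `macro_bound` : **`R ≤ (1 + c + κ'' h) V`** at every state with `h` macro levels below it, if at each
  state either `R + λΦ ≤ (1+c) V` (stop/retire/leaf) or the optimal move satisfies `∑ V(y_j) ≤ V(x)`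
  and the one window inequality above.

No comparator tree, no sums over paths, no count of bad windows.
-/

set_option autoImplicit false

namespace Crest.Agent.R288.PotF245

universe u v

/-- displacement spread of a list of pieces against the slope `θ` -/
noncomputable def En {α : Type*} (F a : α → ℝ) (θ : ℝ) (l : List α) : ℝ :=
  (l.map fun y => F y * (a y / F y - θ) ^ 2).sum

/-- the potential -/
noncomputable def Phi {α : Type*} (F a : α → ℝ) (y : α) : ℝ := a y ^ 2 / F y + 2 * F y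

section lists

variable {α : Type*} {F a : α → ℝ}

theorem En_nonneg (hF : ∀ y, 0 ≤ F y) (θ : ℝ) (l : List α) : 0 ≤ En F a θ l := by
  unfold En
  refine List.sum_nonneg ?_
  intro x hx
  obtain ⟨y, -, rfl⟩ := List.mem_map.1 hx
  exact mul_nonneg (hF y) (sq_nonneg _)

theorem En_eq (hFa : ∀ y, |a y| ≤ F y) (θ : ℝ) (l : List α) :
    En F a θ l = (l.map fun y => a y ^ 2 / F y).sum - 2 * θ * (l.map a).sum
      + θ ^ 2 * (l.map F).sum := by
  unfold En
  induction l with
  | nil => simp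
  | cons y l ih =>
    simp only [List.map_cons, List.sum_cons, ih]
    have h : F y * (a y / F y - θ) ^ 2 = a y ^ 2 / F y - 2 * θ * a y + θ ^ 2 * F y := by
      rcases eq_or_ne (F y) 0 with h0 | h0
      · have : a y = 0 := by
          have := hFa y
          rw [h0] at this
          exact abs_eq_zero.1 (le_antisymm this (abs_nonneg _))
        simp [h0, this]
      · field_simp
        ring
    rw [h]
    ring

theorem Phi_nonneg (hFa : ∀ y, |a y| ≤ F y) (y : α) : 0 ≤ Phi F a y := by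
  have h0 : 0 ≤ F y := (abs_nonneg _).trans (hFa y)
  exact add_nonneg (div_nonneg (sq_nonneg _) h0) (by linarith)

theorem Phi_le (hFa : ∀ y, |a y| ≤ F y) (y : α) : Phi F a y ≤ 3 * F y := by
  have h0 : 0 ≤ F y := (abs_nonneg _).trans (hFa y)
  have h1 : a y ^ 2 / F y ≤ F y := by
    rcases h0.eq_or_lt with h | h
    · rw [← h]; simp
    · rw [div_le_iff₀ h, ← sq_abs]
      nlinarith [hFa y, abs_nonneg (a y)]
  unfold Phi
  linarith

theorem sum_Phi (l : List α) :
    (l.map (Phi F a)).sum = (l.map fun y => a y ^ 2 / F y).sum + 2 * (l.map F).sum := by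
  induction l with
  | nil => simp
  | cons y l ih =>
    simp only [List.map_cons, List.sum_cons, ih, Phi]
    ring

/-- **the potential grows along every move** (`A = v-u`, `Fx = F(x)` of the parent) -/
theorem Phi_step (hFa : ∀ y, |a y| ≤ F y) {A Fx k : ℝ} (hA : |A| ≤ Fx) (hx : 0 < Fx) (hk : 0 ≤ k)
    (l : List α) (hsum : (l.map a).sum = A) (hd : Fx ≤ (l.map F).sum + k * Fx) :
    A ^ 2 / Fx + 2 * Fx + En F a (A / Fx) l + max ((l.map F).sum - Fx) 0 - 2 * (k * Fx)
      ≤ (l.map (Phi F a)).sum := by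
  rw [sum_Phi, En_eq hFa, hsum]
  set D : ℝ := (l.map F).sum - Fx with hD
  have hDs : (l.map F).sum = Fx + D := by rw [hD]; ring
  rw [hDs]
  have hθ : (A / Fx) ^ 2 ≤ 1 := by
    rw [div_pow, div_le_one (by positivity), ← sq_abs]
    exact pow_le_pow_left₀ (abs_nonneg _) hA 2
  have hθ0 : 0 ≤ (A / Fx) ^ 2 := sq_nonneg _
  have e1 : A ^ 2 / Fx = (A / Fx) ^ 2 * Fx := by field_simp
  have e2 : 2 * (A / Fx) * A = 2 * ((A / Fx) ^ 2 * Fx) := by field_simp
  rw [e1, e2]
  have hD' : -(k * Fx) ≤ D := by linarith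
  have key : (A / Fx) ^ 2 * D + max D 0 - 2 * (k * Fx) ≤ 2 * D := by
    rcases le_total 0 D with h | h
    · rw [max_eq_left h]
      nlinarith [mul_nonneg hk hx.le]
    · rw [max_eq_right h]
      nlinarith [mul_nonneg hθ0 (neg_nonneg.2 h)]
  nlinarith

end lists

/-- **closure at one state**: near moves lose `κ' Fx`, all moves lose `k1 Fx`; then with
`lam = k1/s²` every move loses only `(κ' + 2 lam k) Fx` for `R + lam Φ` -/
theorem closure {α : Type*} {F a R : α → ℝ} (hFa : ∀ y, |a y| ≤ F y) {A Fx Rx k k1 κ s lam : ℝ}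
    (hA : |A| ≤ Fx) (hx : 0 < Fx) (hk : 0 ≤ k) (hk1 : 0 ≤ k1) (hκ : 0 ≤ κ) (hs : 0 < s)
    (hs1 : s ≤ 1) (hlam : k1 ≤ lam * s ^ 2)
    (l : List α) (hsum : (l.map a).sum = A) (hd : Fx ≤ (l.map F).sum + k * Fx)
    (hnear : En F a (A / Fx) l ≤ s ^ 2 * Fx → (l.map F).sum - Fx ≤ s * Fx →
      Rx ≤ (l.map R).sum + κ * Fx)
    (hall : Rx ≤ (l.map R).sum + k1 * Fx) :
    Rx + lam * (A ^ 2 / Fx + 2 * Fx)
      ≤ (l.map fun y => R y + lam * Phi F a y).sum + (κ + 2 * lam * k) * Fx := by
  have hlam0 : 0 ≤ lam := by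
    by_contra h
    push Not at h
    nlinarith [mul_neg_of_neg_of_pos h (pow_pos hs 2)]
  have hs2 : s ^ 2 ≤ s := by nlinarith
  have hsplit : (l.map fun y => R y + lam * Phi F a y).sum
      = (l.map R).sum + lam * (l.map (Phi F a)).sum := by
    clear hsum hd hnear hall
    induction l with
    | nil => simp
    | cons y l ih =>
      simp only [List.map_cons, List.sum_cons, ih]
      ring
  have hP := Phi_step hFa hA hx hk l hsum hd
  have hE := En_nonneg (F := F) (a := a) (fun y => (abs_nonneg _).trans (hFa y)) (A / Fx) l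
  have hP' := mul_le_mul_of_nonneg_left hP hlam0
  rw [hsplit]
  have hm : 0 ≤ max ((l.map F).sum - Fx) 0 := le_max_right _ _
  by_cases hn : En F a (A / Fx) l ≤ s ^ 2 * Fx ∧ (l.map F).sum - Fx ≤ s * Fx
  · have h1 := hnear hn.1 hn.2
    nlinarith [mul_nonneg hlam0 hE, mul_nonneg hlam0 hm]
  · have h2 : s ^ 2 * Fx ≤ En F a (A / Fx) l + max ((l.map F).sum - Fx) 0 := by
      by_contra hc
      push Not at hc
      apply hn
      constructor
      · linarith
      · have h3 : (l.map F).sum - Fx ≤ max ((l.map F).sum - Fx) 0 := le_max_left _ _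
        nlinarith
    have h4 : k1 * Fx ≤ lam * (En F a (A / Fx) l + max ((l.map F).sum - Fx) 0) := by
      calc k1 * Fx ≤ lam * s ^ 2 * Fx := mul_le_mul_of_nonneg_right hlam hx.le
        _ = lam * (s ^ 2 * Fx) := by ring
        _ ≤ _ := mul_le_mul_of_nonneg_left h2 hlam0
    nlinarith [mul_nonneg hκ hx.le]

section tree

variable {S : ℕ → Type u} {M : ∀ h, S (h + 1) → Type v}

/-- **the macro induction**: `R + lam Φ ≤ (1 + c + κ₁ h) V` -/
theorem macro_bound (pc : ∀ h (x : S (h + 1)), M h x → List (S h)) {F a R V : ∀ h, S h → ℝ}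
    {k k1 κ s lam c CF κ₁ : ℝ}
    (hFa : ∀ h y, |a h y| ≤ F h y) (hV0 : ∀ h y, 0 ≤ V h y)
    (hk : 0 ≤ k) (hk1 : 0 ≤ k1) (hκ : 0 ≤ κ) (hs : 0 < s) (hs1 : s ≤ 1) (hc : 0 ≤ c)
    (hlam : k1 ≤ lam * s ^ 2) (hκ₁ : (κ + 2 * lam * k) * CF ≤ κ₁) (hκ₁0 : 0 ≤ κ₁)
    (hleaf : ∀ x, R 0 x + lam * Phi (F 0) (a 0) x ≤ (1 + c) * V 0 x)
    (hstep : ∀ h (x : S (h + 1)),
      R (h + 1) x + lam * Phi (F (h + 1)) (a (h + 1)) x ≤ (1 + c) * V (h + 1) x ∨
      ∃ m : M h x, ((pc h x m).map (V h)).sum ≤ V (h + 1) x ∧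
        0 < F (h + 1) x ∧ F (h + 1) x ≤ CF * V (h + 1) x ∧
        ((pc h x m).map (a h)).sum = a (h + 1) x ∧
        F (h + 1) x ≤ ((pc h x m).map (F h)).sum + k * F (h + 1) x ∧
        (En (F h) (a h) (a (h + 1) x / F (h + 1) x) (pc h x m) ≤ s ^ 2 * F (h + 1) x →
          ((pc h x m).map (F h)).sum - F (h + 1) x ≤ s * F (h + 1) x →
          R (h + 1) x ≤ ((pc h x m).map (R h)).sum + κ * F (h + 1) x) ∧
        R (h + 1) x ≤ ((pc h x m).map (R h)).sum + k1 * F (h + 1) x) :
    ∀ h (x : S h), R h x + lam * Phi (F h) (a h) x ≤ (1 + c + κ₁ * h) * V h x := by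
  have hlam0 : 0 ≤ lam := by
    by_contra h
    push Not at h
    nlinarith [mul_neg_of_neg_of_pos h (pow_pos hs 2)]
  have hκF : 0 ≤ κ + 2 * lam * k := by positivity
  intro h
  induction h with
  | zero => intro x; simpa using hleaf x
  | succ h ih =>
    intro x
    have hV := hV0 (h + 1) x
    have hcast : ((h + 1 : ℕ) : ℝ) = h + 1 := by push_cast; ring
    rcases hstep h x with h1 | ⟨m, hVm, hF0, hFV, hsum, hd, hnear, hall⟩
    · have : 0 ≤ κ₁ * ((h + 1 : ℕ) : ℝ) * V (h + 1) x :=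
        mul_nonneg (mul_nonneg hκ₁0 (Nat.cast_nonneg _)) hV
      nlinarith
    · have hcl := closure (R := R h) (hFa h) (Rx := R (h + 1) x) (k1 := k1) (κ := κ) (s := s)
        (lam := lam) (hFa (h + 1) x) hF0 hk hk1 hκ hs hs1 hlam (pc h x m) hsum hd hnear hall
      have h2 : ((pc h x m).map fun y => R h y + lam * Phi (F h) (a h) y).sum
          ≤ (1 + c + κ₁ * h) * ((pc h x m).map (V h)).sum := by
        generalize pc h x m = l
        induction l with
        | nil => simp
        | cons y l ihl =>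
          simp only [List.map_cons, List.sum_cons]
          have := ih y
          nlinarith
      have h3 : 0 ≤ 1 + c + κ₁ * (h : ℝ) := by positivity
      have h4 := mul_le_mul_of_nonneg_left hVm h3
      have h5 : (κ + 2 * lam * k) * F (h + 1) x ≤ κ₁ * V (h + 1) x := by
        calc (κ + 2 * lam * k) * F (h + 1) x ≤ (κ + 2 * lam * k) * (CF * V (h + 1) x) :=
              mul_le_mul_of_nonneg_left hFV hκF
          _ = (κ + 2 * lam * k) * CF * V (h + 1) x := by ring
          _ ≤ _ := mul_le_mul_of_nonneg_right hκ₁ hV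
      have h6 : Phi (F (h + 1)) (a (h + 1)) x
          = a (h + 1) x ^ 2 / F (h + 1) x + 2 * F (h + 1) x := rfl
      rw [h6, hcast]
      nlinarith

end tree

end Crest.Agent.R288.PotF245
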