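import Mathlib

/-!
# R288 / PotF_948 : POTENTIAL, version for #4274 / #4323 (post #4288 and its v2)

Only ONE function `F` (`F ≥ |v-u|`, near-subsolution) is used.  `D = v - u`, `θ = D/F`,
`En = Σ F_j (D_j/F_j - θ)²`, `drift = Σ F_j - F`, `Φ = D²/F + 2 F`.

* `En_identity` : `En = Σ Ψ_j - Ψ + θ² drift`, `Ψ = D²/F`.
* `potential` : `En + drift⁺ ≤ Σ Φ_j - Φ + 2 κ` if `F ≤ Σ F_j + κ`.
* `closure_window` : `R + lam Φ` has defect `kp F + 2 lam κ` for a staircase which has defect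
  `kp F` when it is good and `k (F + Σ F_j)` when it is not; `lam = 3k/sg²`.
* `mean_le` : induction over the macro height: `R ≤ R + lam Φ ≤ (g + h e) V`.
-/

namespace Crest.Agent.R288.PotF948

open Finset

/-- `D²/F + 2F` -/
noncomputable def phi (D F : ℝ) : ℝ := D ^ 2 / F + 2 * F

/-- energy of the staircase around the slope of `x` -/
noncomputable def En {ι : Type*} (s : Finset ι) (D0 F0 : ℝ) (D F : ι → ℝ) : ℝ :=
  ∑ j ∈ s, F j * (D j / F j - D0 / F0) ^ 2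

theorem piece_id {f d : ℝ} (a : ℝ) (hd : |d| ≤ f) :
    f * (d / f - a) ^ 2 = d ^ 2 / f - 2 * a * d + a ^ 2 * f := by
  rcases eq_or_ne f 0 with h | h
  · subst h
    have : d = 0 := abs_nonpos_iff.mp hd
    subst this
    simp
  · field_simp
    ring

theorem phi_nonneg {D F : ℝ} (hF : 0 ≤ F) : 0 ≤ phi D F := by
  unfold phi; positivity

theorem psi_le {D F : ℝ} (hD : |D| ≤ F) : D ^ 2 / F ≤ F := by
  have hF : 0 ≤ F := (abs_nonneg D).trans hD
  rcases hF.eq_or_lt with h | h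
  · subst h; simp
  · rw [div_le_iff₀ h]
    have := sq_abs D
    nlinarith [abs_nonneg D]

/-- `phi ≤ 3 F` -/
theorem phi_le {D F : ℝ} (hD : |D| ≤ F) : phi D F ≤ 3 * F := by
  have := psi_le hD
  unfold phi; linarith

theorem En_nonneg {ι : Type*} (s : Finset ι) (D0 F0 : ℝ) {D F : ι → ℝ} (hF : ∀ j ∈ s, 0 ≤ F j) :
    0 ≤ En s D0 F0 D F :=
  Finset.sum_nonneg fun j hj => mul_nonneg (hF j hj) (sq_nonneg _)

/-- exact energy identity (744) -/
theorem En_identity {ι : Type*} (s : Finset ι) {D0 F0 : ℝ} {D F : ι → ℝ} (hF0 : 0 < F0)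
    (hD : ∀ j ∈ s, |D j| ≤ F j) (hsum : ∑ j ∈ s, D j = D0) :
    En s D0 F0 D F = ∑ j ∈ s, D j ^ 2 / F j - D0 ^ 2 / F0
      + (D0 / F0) ^ 2 * (∑ j ∈ s, F j - F0) := by
  unfold En
  rw [Finset.sum_congr rfl fun j hj => piece_id (D0 / F0) (hD j hj)]
  simp only [Finset.sum_add_distrib, Finset.sum_sub_distrib, ← Finset.mul_sum]
  rw [hsum]
  generalize ∑ j ∈ s, D j ^ 2 / F j = S1
  generalize ∑ j ∈ s, F j = S2
  have h0 : F0 ≠ 0 := hF0.ne'
  field_simp
  ring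

theorem slope_sq_le {D0 F0 : ℝ} (hF0 : 0 < F0) (hD0 : |D0| ≤ F0) : (D0 / F0) ^ 2 ≤ 1 := by
  have : |D0 / F0| ≤ 1 := by
    rw [abs_div, abs_of_pos hF0, div_le_one hF0]; exact hD0
  exact (sq_le_one_iff_abs_le_one (D0 / F0)).mpr this

/-- **potential inequality** -/
theorem potential {ι : Type*} (s : Finset ι) {D0 F0 κ : ℝ} {D F : ι → ℝ} (hF0 : 0 < F0)
    (hD0 : |D0| ≤ F0) (hD : ∀ j ∈ s, |D j| ≤ F j) (hsum : ∑ j ∈ s, D j = D0) (hκ : 0 ≤ κ)
    (hFsub : F0 ≤ ∑ j ∈ s, F j + κ) :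
    En s D0 F0 D F + max (∑ j ∈ s, F j - F0) 0 ≤
      ∑ j ∈ s, phi (D j) (F j) - phi D0 F0 + 2 * κ := by
  have h1 := En_identity s hF0 hD hsum
  have h2 : ∑ j ∈ s, phi (D j) (F j) = ∑ j ∈ s, D j ^ 2 / F j + 2 * ∑ j ∈ s, F j := by
    unfold phi; rw [Finset.sum_add_distrib, Finset.mul_sum]
  rw [h1, h2]
  unfold phi
  have ha := slope_sq_le hF0 hD0
  have ha0 := sq_nonneg (D0 / F0)
  set d := ∑ j ∈ s, F j - F0 with hd
  have hd' : ∑ j ∈ s, F j = d + F0 := by rw [hd]; ring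
  rw [hd']
  have hdk : -κ ≤ d := by rw [hd]; linarith
  rcases le_total 0 d with h | h
  · rw [max_eq_left h]
    nlinarith
  · rw [max_eq_right h]
    nlinarith

/-- **closure, one window** -/
theorem closure_window {ι : Type*} (s : Finset ι) {D0 F0 κ R0 k kp sg : ℝ} {D F R : ι → ℝ}
    (hF0 : 0 < F0)
    (hD0 : |D0| ≤ F0) (hD : ∀ j ∈ s, |D j| ≤ F j) (hsum : ∑ j ∈ s, D j = D0) (hκ : 0 ≤ κ)
    (hFsub : F0 ≤ ∑ j ∈ s, F j + κ) (hk : 0 ≤ k) (hkp : 0 ≤ kp) (hsg : 0 < sg) (hsg1 : sg ≤ 1)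
    (hgood : En s D0 F0 D F ≤ sg ^ 2 * F0 → ∑ j ∈ s, F j - F0 ≤ sg * F0 →
      R0 ≤ ∑ j ∈ s, R j + kp * F0)
    (hany : R0 ≤ ∑ j ∈ s, R j + k * (F0 + ∑ j ∈ s, F j)) :
    R0 + 3 * k / sg ^ 2 * phi D0 F0 ≤
      ∑ j ∈ s, (R j + 3 * k / sg ^ 2 * phi (D j) (F j)) + kp * F0
        + 2 * (3 * k / sg ^ 2) * κ := by
  have hp := potential s hF0 hD0 hD hsum hκ hFsub
  have he := En_nonneg s D0 F0 (D := D) fun j hj => (abs_nonneg (D j)).trans (hD j hj)
  have hs2 : 0 < sg ^ 2 := by positivity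
  set lam := 3 * k / sg ^ 2 with hlam
  have hlam0 : 0 ≤ lam := div_nonneg (by linarith) hs2.le
  have hls : lam * sg ^ 2 = 3 * k := by rw [hlam]; field_simp
  rw [Finset.sum_add_distrib, ← Finset.mul_sum]
  set E := En s D0 F0 D F with hE
  set d := ∑ j ∈ s, F j - F0 with hd
  have hd0 : 0 ≤ max d 0 := le_max_right _ _
  have hdd : d ≤ max d 0 := le_max_left _ _
  have hp' := mul_le_mul_of_nonneg_left hp hlam0
  by_cases hg : E ≤ sg ^ 2 * F0 ∧ d ≤ sg * F0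
  · have h1 := hgood hg.1 hg.2
    have h2 : 0 ≤ lam * (E + max d 0) := mul_nonneg hlam0 (by linarith)
    nlinarith
  · -- bad: `E + d⁺ ≥ sg² F0`
    have hb : sg ^ 2 * F0 ≤ E + max d 0 := by
      rw [not_and_or, not_le, not_le] at hg
      rcases hg with h | h
      · linarith
      · have h7 : sg ^ 2 ≤ sg := by nlinarith
        have : sg ^ 2 * F0 ≤ sg * F0 := mul_le_mul_of_nonneg_right h7 hF0.le
        linarith
    have hsg2 : sg ^ 2 ≤ 1 := by nlinarith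
    have hlk : 3 * k ≤ lam := by nlinarith
    have h3 : k * (F0 + ∑ j ∈ s, F j) ≤ lam * (E + max d 0) := by
      have e1 : k * (F0 + ∑ j ∈ s, F j) = 2 * (k * F0) + k * d := by rw [hd]; ring
      have e2 : k * d ≤ k * max d 0 := mul_le_mul_of_nonneg_left hdd hk
      -- 2/3 of lam (E + d⁺) pays 2 k F0, 1/3 pays k d⁺
      have e3 : 3 * (k * F0) ≤ lam * (E + max d 0) := by
        have := mul_le_mul_of_nonneg_left hb hlam0
        nlinarith
      have e4 : 3 * (k * max d 0) ≤ lam * (E + max d 0) := by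
        have h5 : 3 * k * max d 0 ≤ lam * max d 0 := mul_le_mul_of_nonneg_right hlk hd0
        have h6 : 0 ≤ lam * E := mul_nonneg hlam0 he
        nlinarith
      linarith
    have h4 : 0 ≤ kp * F0 := mul_nonneg hkp hF0.le
    nlinarith

/-- the pointwise statement at one macro level used in `mean_le` -/
structure Good {S ι : Type*} [Fintype ι] (D F V R : ℕ → S → ℝ) (k kp kF sg : ℝ) (h : ℕ) (x : S)
    (y : ι → S) : Prop where
  hD : ∑ j, D h (y j) = D (h + 1) x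
  hV : ∑ j, V h (y j) ≤ V (h + 1) x
  hF : F (h + 1) x ≤ ∑ j, F h (y j) + kF * F (h + 1) x
  good : En univ (D (h + 1) x) (F (h + 1) x) (fun j => D h (y j)) (fun j => F h (y j))
      ≤ sg ^ 2 * F (h + 1) x → ∑ j, F h (y j) - F (h + 1) x ≤ sg * F (h + 1) x →
      R (h + 1) x ≤ ∑ j, R h (y j) + kp * F (h + 1) x
  any : R (h + 1) x ≤ ∑ j, R h (y j) + k * (F (h + 1) x + ∑ j, F h (y j))

/-- **[EN]+[TL]+[SUM] in one induction over the macro height.**  At every state either we stop /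
retire (`R + 3 lam F ≤ g V`) or the optimal staircase of `V` is `Good`.  Then
`R + lam Φ ≤ (g + h e) V`, `lam = 3k/sg²`, `e = (kp + 2 lam kF) cF`, `F ≤ cF V`. -/
theorem mean_le {S ι : Type*} [Fintype ι] {D F V R : ℕ → S → ℝ} {k kp kF sg g cF : ℝ}
    (hk : 0 ≤ k) (hkp : 0 ≤ kp) (hkF : 0 ≤ kF) (hsg : 0 < sg) (hsg1 : sg ≤ 1)
    (hDF : ∀ h x, |D h x| ≤ F h x) (hFV : ∀ h x, F h x ≤ cF * V h x)
    (h0 : ∀ x, R 0 x + 3 * (3 * k / sg ^ 2) * F 0 x ≤ g * V 0 x)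
    (hstep : ∀ h x, R (h + 1) x + 3 * (3 * k / sg ^ 2) * F (h + 1) x ≤ g * V (h + 1) x ∨
      0 < F (h + 1) x ∧ ∃ y : ι → S, Good D F V R k kp kF sg h x y)
    (hg : 0 ≤ g) (hcF : 0 ≤ cF) (hV0 : ∀ h x, 0 ≤ V h x) :
    ∀ h x, R h x + 3 * k / sg ^ 2 * phi (D h x) (F h x)
      ≤ (g + h * ((kp + 2 * (3 * k / sg ^ 2) * kF) * cF)) * V h x := by
  set lam := 3 * k / sg ^ 2 with hlam
  have hlam0 : 0 ≤ lam := div_nonneg (by linarith) (by positivity)
  set e := (kp + 2 * lam * kF) * cF with he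
  have he0 : 0 ≤ e := by rw [he]; positivity
  have hstop : ∀ h x, R h x + 3 * lam * F h x ≤ g * V h x →
      R h x + lam * phi (D h x) (F h x) ≤ (g + h * e) * V h x := by
    intro h x hs
    have h1 := mul_le_mul_of_nonneg_left (phi_le (hDF h x)) hlam0
    have h2 : 0 ≤ (h : ℝ) * e * V h x := mul_nonneg (by positivity) (hV0 h x)
    nlinarith
  intro h
  induction h with
  | zero => intro x; exact hstop 0 x (h0 x)
  | succ h ih =>
    intro x
    rcases hstep h x with hs | ⟨hp, y, G⟩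
    · exact hstop (h + 1) x hs
    · have hw := closure_window (univ : Finset ι) (D0 := D (h + 1) x) (F0 := F (h + 1) x)
        (κ := kF * F (h + 1) x) (R0 := R (h + 1) x) (k := k) (kp := kp) (sg := sg)
        (D := fun j => D h (y j)) (F := fun j => F h (y j)) (R := fun j => R h (y j))
        hp (hDF _ _) (fun j _ => hDF _ _) G.hD (mul_nonneg hkF hp.le) G.hF hk hkp hsg hsg1
        G.good G.any
      rw [← hlam] at hw
      have h1 : ∑ j, (R h (y j) + lam * phi (D h (y j)) (F h (y j)))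
          ≤ ∑ j, (g + h * e) * V h (y j) := Finset.sum_le_sum fun j _ => ih (y j)
      rw [← Finset.mul_sum] at h1
      have h2 : (g + h * e) * ∑ j, V h (y j) ≤ (g + h * e) * V (h + 1) x :=
        mul_le_mul_of_nonneg_left G.hV (by positivity)
      have h3 : (kp + 2 * lam * kF) * F (h + 1) x ≤ e * V (h + 1) x := by
        have h4 : (kp + 2 * lam * kF) * F (h + 1) x
            ≤ (kp + 2 * lam * kF) * (cF * V (h + 1) x) :=
          mul_le_mul_of_nonneg_left (hFV _ _) (by positivity)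
        calc _ ≤ _ := h4
          _ = e * V (h + 1) x := by rw [he]; ring
      push_cast
      nlinarith

/-- the mean itself -/
theorem mean_le' {S ι : Type*} [Fintype ι] {D F V R : ℕ → S → ℝ} {k kp kF sg g cF : ℝ}
    (hk : 0 ≤ k) (hkp : 0 ≤ kp) (hkF : 0 ≤ kF) (hsg : 0 < sg) (hsg1 : sg ≤ 1)
    (hDF : ∀ h x, |D h x| ≤ F h x) (hFV : ∀ h x, F h x ≤ cF * V h x)
    (h0 : ∀ x, R 0 x + 3 * (3 * k / sg ^ 2) * F 0 x ≤ g * V 0 x)
    (hstep : ∀ h x, R (h + 1) x + 3 * (3 * k / sg ^ 2) * F (h + 1) x ≤ g * V (h + 1) x ∨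
      0 < F (h + 1) x ∧ ∃ y : ι → S, Good D F V R k kp kF sg h x y)
    (hg : 0 ≤ g) (hcF : 0 ≤ cF) (hV0 : ∀ h x, 0 ≤ V h x) (h : ℕ) (x : S) :
    R h x ≤ (g + h * ((kp + 2 * (3 * k / sg ^ 2) * kF) * cF)) * V h x := by
  have h1 := mean_le hk hkp hkF hsg hsg1 hDF hFV h0 hstep hg hcF hV0 h x
  have h2 : 0 ≤ 3 * k / sg ^ 2 * phi (D h x) (F h x) :=
    mul_nonneg (div_nonneg (by linarith) (by positivity))
      (phi_nonneg ((abs_nonneg _).trans (hDF h x)))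
  linarith

end Crest.Agent.R288.PotF948
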