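import Crest.Agent.R288.PotP_245

/-!
# R288: one epoch of the scheme "from above", values at the ROUNDED state (helper257)

In `Alg45` the window of a state `x` is the window of the pair `(κ, x^)`, `κ = cls F x`,
`x^ = rdn κ x`: the pieces telescope to `a(x^)` (not to `a(x)`), unit, plan and kernels use `F(x^)`,
and the pieces are re-rounded one macro level lower. So the additivity hypothesis of
`PotP245.epoch_bound_rho` is only true at `x^`. Here the second alternative of `hstep` has the numbers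
`Fx ax Rx` (values at `x^`) and an error `e` with `R x ≤ Rx + e`, `|a x - ax| ≤ e`, `|F x - Fx| ≤ e`.

* `q_lip` : `a²/F ≤ a'²/F' + 2 |a - a'| + |F - F'|` if `|a| ≤ F`, `|a'| ≤ F'`.
* `Phi_lip` : `Φ(x) ≤ a'²/F' + 2 F' + 5 e`.
* `closure_mem` : `PotA245.closure'` for lists whose members satisfy `|a| ≤ F`.
* `epoch_bound_hat` : **`R + λΦ ≤ (1+ρ)^h (1 + c + κ₁ h) V`** at every `Ok` state,
  `κ₁ ≥ κ CF + (2λ + k1/s) kd + (1 + 5λ) ke`.
* `epoch_bound_hat_R` : the same for `R` alone.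
-/

set_option autoImplicit false

namespace Crest.Agent.R288.PotH257

open Crest.Agent.R288.PotF245 Crest.Agent.R288.PotA245

universe u v

/-- `a²/F` is Lipschitz on the cone `|a| ≤ F` -/
theorem q_lip {a F a' F' : ℝ} (h : |a| ≤ F) (h' : |a'| ≤ F') :
    a ^ 2 / F ≤ a' ^ 2 / F' + 2 * |a - a'| + |F - F'| := by
  have hF : 0 ≤ F := (abs_nonneg _).trans h
  have hF' : 0 ≤ F' := (abs_nonneg _).trans h'
  have hq : 0 ≤ a' ^ 2 / F' := div_nonneg (sq_nonneg _) hF'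
  rcases hF.eq_or_lt with h0 | h0
  · rw [← h0]
    simp only [div_zero]
    positivity
  · -- the supporting plane at `t = a / F`
    set t : ℝ := a / F with ht
    have hta : a = t * F := by rw [ht, div_mul_cancel₀ _ h0.ne']
    have ht1 : |t| ≤ 1 := by
      rw [ht, abs_div, abs_of_pos h0, div_le_one h0]
      exact h
    have ht2 : t ^ 2 ≤ 1 := by
      have := abs_le.1 ht1
      nlinarith
    have e1 : a ^ 2 / F = 2 * t * a - t ^ 2 * F := by
      rw [hta]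
      field_simp
      ring
    have e2 : 2 * t * a' - t ^ 2 * F' ≤ a' ^ 2 / F' := by
      rcases hF'.eq_or_lt with g0 | g0
      · have ha' : a' = 0 := abs_eq_zero.1 (le_antisymm (by rw [g0]; exact h') (abs_nonneg _))
        rw [← g0, ha']
        simp
      · rw [le_div_iff₀ g0]
        nlinarith [sq_nonneg (a' - t * F')]
    have e3 : 2 * t * (a - a') ≤ 2 * |a - a'| := by
      have h1 : t * (a - a') ≤ |t * (a - a')| := le_abs_self _
      rw [abs_mul] at h1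
      have h2 : |t| * |a - a'| ≤ 1 * |a - a'| := mul_le_mul_of_nonneg_right ht1 (abs_nonneg _)
      linarith
    have e4 : -(t ^ 2 * (F - F')) ≤ |F - F'| := by
      have h1 : -(t ^ 2 * (F - F')) ≤ |t ^ 2 * (F - F')| := neg_le_abs _
      rw [abs_mul, abs_of_nonneg (sq_nonneg t)] at h1
      have h2 : t ^ 2 * |F - F'| ≤ 1 * |F - F'| := mul_le_mul_of_nonneg_right ht2 (abs_nonneg _)
      linarith
    rw [e1]
    nlinarith

/-- the potential is 5-Lipschitz -/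
theorem Phi_lip {a F a' F' e : ℝ} (h : |a| ≤ F) (h' : |a'| ≤ F') (ha : |a - a'| ≤ e)
    (h1 : F ≤ F' + e) (h2 : F' ≤ F + e) : a ^ 2 / F + 2 * F ≤ a' ^ 2 / F' + 2 * F' + 5 * e := by
  have h3 := q_lip h h'
  have h4 : |F - F'| ≤ e := abs_le.2 ⟨by linarith, by linarith⟩
  linarith

section lists

variable {α : Type*}

theorem map_attach_sum (l : List α) (f : α → ℝ) :
    (l.attach.map fun y => f y.1).sum = (l.map f).sum := by
  rw [List.attach_map_val]

theorem En_attach (F a : α → ℝ) (θ : ℝ) (l : List α) :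
    En (fun y : {x // x ∈ l} => F y.1) (fun y => a y.1) θ l.attach = En F a θ l :=
  map_attach_sum l fun y => F y * (a y / F y - θ) ^ 2

/-- `PotA245.closure'` when `|a| ≤ F` is only known on the list -/
theorem closure_mem {F a R : α → ℝ} {A Fx Rx d k1 κ s lam : ℝ} (l : List α)
    (hFa : ∀ y ∈ l, |a y| ≤ F y)
    (hA : |A| ≤ Fx) (hx : 0 < Fx) (hd0 : 0 ≤ d) (hk1 : 0 ≤ k1) (hκ : 0 ≤ κ) (hs : 0 < s)
    (hs1 : s ≤ 1) (hlam : k1 * (1 + s ^ 2) ≤ lam * s ^ 2)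
    (hsum : (l.map a).sum = A) (hd : Fx ≤ (l.map F).sum + d)
    (hnear : En F a (A / Fx) l ≤ s ^ 2 * Fx → (l.map F).sum - Fx ≤ s * Fx → d ≤ s * Fx →
      Rx ≤ (l.map R).sum + κ * Fx)
    (hall : Rx ≤ (l.map R).sum + k1 * (Fx + max ((l.map F).sum - Fx) 0)) :
    Rx + lam * (A ^ 2 / Fx + 2 * Fx)
      ≤ (l.map fun y => R y + lam * Phi F a y).sum + (κ * Fx + (2 * lam + k1 / s) * d) := by
  have h := closure' (F := fun y : {x // x ∈ l} => F y.1) (a := fun y => a y.1)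
    (R := fun y => R y.1) (fun y => hFa y.1 y.2) (Rx := Rx) hA hx hd0 hk1 hκ hs hs1 hlam l.attach
    (by rw [map_attach_sum]; exact hsum) (by rw [map_attach_sum]; exact hd)
    (by rw [En_attach, map_attach_sum, map_attach_sum]; exact hnear)
    (by rw [map_attach_sum, map_attach_sum]; exact hall)
  have e : (l.attach.map fun y => R y.1 + lam * Phi (fun y : {x // x ∈ l} => F y.1)
      (fun y => a y.1) y).sum = (l.map fun y => R y + lam * Phi F a y).sum :=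
    map_attach_sum l fun y => R y + lam * Phi F a y
  rwa [e] at h

end lists

section tree

variable {S : ℕ → Type u} {M : ∀ h, S (h + 1) → Type v}

/-- **one epoch, pointwise at every `Ok` state, window inequality at a rounded state** -/
theorem epoch_bound_hat (pc : ∀ h (x : S (h + 1)), M h x → List (S h)) {Ok : ∀ h, S h → Prop}
    {F a R V : ∀ h, S h → ℝ} {k1 κ s lam c CF kd ke κ₁ ρ : ℝ}
    (hFa : ∀ h y, Ok h y → |a h y| ≤ F h y) (hV0 : ∀ h y, Ok h y → 0 ≤ V h y)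
    (hk1 : 0 ≤ k1) (hκ : 0 ≤ κ) (hs : 0 < s) (hs1 : s ≤ 1) (hc : 0 ≤ c) (hρ : 0 ≤ ρ)
    (hlam : k1 * (1 + s ^ 2) ≤ lam * s ^ 2)
    (hκ₁ : κ * CF + (2 * lam + k1 / s) * kd + (1 + 5 * lam) * ke ≤ κ₁) (hκ₁0 : 0 ≤ κ₁)
    (hleaf : ∀ x, Ok 0 x → R 0 x + lam * Phi (F 0) (a 0) x ≤ (1 + c) * V 0 x)
    (hstep : ∀ h (x : S (h + 1)), Ok (h + 1) x →
      R (h + 1) x + lam * Phi (F (h + 1)) (a (h + 1)) x ≤ (1 + c) * V (h + 1) x ∨
      ∃ m : M h x, ∃ d e Fx ax Rx : ℝ, (∀ y ∈ pc h x m, Ok h y) ∧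
        ((pc h x m).map (V h)).sum ≤ (1 + ρ) * V (h + 1) x ∧
        0 < Fx ∧ |ax| ≤ Fx ∧ Fx ≤ CF * V (h + 1) x ∧
        0 ≤ d ∧ d ≤ kd * V (h + 1) x ∧ 0 ≤ e ∧ e ≤ ke * V (h + 1) x ∧
        R (h + 1) x ≤ Rx + e ∧ |a (h + 1) x - ax| ≤ e ∧ F (h + 1) x ≤ Fx + e ∧
        Fx ≤ F (h + 1) x + e ∧
        ((pc h x m).map (a h)).sum = ax ∧
        Fx ≤ ((pc h x m).map (F h)).sum + d ∧
        (En (F h) (a h) (ax / Fx) (pc h x m) ≤ s ^ 2 * Fx →
          ((pc h x m).map (F h)).sum - Fx ≤ s * Fx → d ≤ s * Fx →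
          Rx ≤ ((pc h x m).map (R h)).sum + κ * Fx) ∧
        Rx ≤ ((pc h x m).map (R h)).sum
          + k1 * (Fx + max (((pc h x m).map (F h)).sum - Fx) 0)) (h : ℕ)
    (x : S h) (hx : Ok h x) :
    R h x + lam * Phi (F h) (a h) x ≤ (1 + ρ) ^ h * (1 + c + κ₁ * h) * V h x := by
  have hs2 : (0 : ℝ) < s ^ 2 := by positivity
  have hlk : k1 ≤ lam := by
    by_contra h
    push Not at h
    nlinarith [mul_lt_mul_of_pos_right h hs2]
  have hlam0 : 0 ≤ lam := hk1.trans hlk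
  have hq : 0 ≤ 2 * lam + k1 / s := add_nonneg (by linarith) (div_nonneg hk1 hs.le)
  have hρ1 : (1 : ℝ) ≤ 1 + ρ := by linarith
  induction h with
  | zero => simpa using hleaf x hx
  | succ h ih =>
    have hV := hV0 (h + 1) x hx
    have hcast : ((h + 1 : ℕ) : ℝ) = h + 1 := by push_cast; ring
    have hpow : (1 : ℝ) ≤ (1 + ρ) ^ (h + 1) := one_le_pow₀ hρ1
    have hpow' : (1 : ℝ) ≤ (1 + ρ) ^ h := one_le_pow₀ hρ1
    have hcc : 0 ≤ 1 + c + κ₁ * ((h : ℝ) + 1) := by positivity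
    rcases hstep h x hx with h1 | ⟨m, d, e, Fx, ax, Rx, hok, hVm, hF0, hax, hFV, hd0, hdV, he0,
      heV, hR, ha, hF1, hF2, hsum, hd, hnear, hall⟩
    · have h2 : (1 + c) * V (h + 1) x ≤ (1 + c + κ₁ * ((h : ℝ) + 1)) * V (h + 1) x := by
        have : 0 ≤ κ₁ * ((h : ℝ) + 1) * V (h + 1) x := by positivity
        nlinarith
      have h3 : (1 + c + κ₁ * ((h : ℝ) + 1)) * V (h + 1) x
          ≤ (1 + ρ) ^ (h + 1) * ((1 + c + κ₁ * ((h : ℝ) + 1)) * V (h + 1) x) :=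
        le_mul_of_one_le_left (mul_nonneg hcc hV) hpow
      rw [hcast]
      calc _ ≤ _ := h1
        _ ≤ _ := h2
        _ ≤ _ := h3
        _ = _ := by ring
    · have hcl := closure_mem (F := F h) (a := a h) (R := R h) (Rx := Rx) (d := d) (k1 := k1)
        (κ := κ) (s := s) (lam := lam) (pc h x m) (fun y hy => hFa h y (hok y hy)) hax hF0 hd0 hk1
        hκ hs hs1 hlam hsum hd hnear hall
      have hP := Phi_lip (hFa (h + 1) x hx) hax ha hF1 hF2
      have h3 : 0 ≤ (1 + ρ) ^ h * (1 + c + κ₁ * (h : ℝ)) := by positivity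
      have h2 : ((pc h x m).map fun y => R h y + lam * Phi (F h) (a h) y).sum
          ≤ (1 + ρ) ^ h * (1 + c + κ₁ * h) * ((pc h x m).map (V h)).sum := by
        revert hok
        generalize pc h x m = l
        intro hok
        induction l with
        | nil => simp
        | cons y l ihl =>
          simp only [List.map_cons, List.sum_cons]
          have h5 := ih y (hok y (by simp))
          have h6 := ihl fun z hz => hok z (by simp [hz])
          nlinarith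
      have h4 := mul_le_mul_of_nonneg_left hVm h3
      have hP' := mul_le_mul_of_nonneg_left hP hlam0
      have h5 : κ * Fx + (2 * lam + k1 / s) * d + (1 + 5 * lam) * e ≤ κ₁ * V (h + 1) x := by
        have hq5 : 0 ≤ 1 + 5 * lam := by linarith
        calc κ * Fx + (2 * lam + k1 / s) * d + (1 + 5 * lam) * e
            ≤ κ * (CF * V (h + 1) x) + (2 * lam + k1 / s) * (kd * V (h + 1) x)
              + (1 + 5 * lam) * (ke * V (h + 1) x) :=
              add_le_add (add_le_add (mul_le_mul_of_nonneg_left hFV hκ)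
                (mul_le_mul_of_nonneg_left hdV hq)) (mul_le_mul_of_nonneg_left heV hq5)
          _ = (κ * CF + (2 * lam + k1 / s) * kd + (1 + 5 * lam) * ke) * V (h + 1) x := by ring
          _ ≤ _ := mul_le_mul_of_nonneg_right hκ₁ hV
      have h5' : κ₁ * V (h + 1) x ≤ (1 + ρ) ^ (h + 1) * (κ₁ * V (h + 1) x) :=
        le_mul_of_one_le_left (mul_nonneg hκ₁0 hV) hpow
      have h6 : Phi (F (h + 1)) (a (h + 1)) x
          = a (h + 1) x ^ 2 / F (h + 1) x + 2 * F (h + 1) x := rfl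
      have h7 : (1 + ρ) ^ h * (1 + c + κ₁ * (h : ℝ)) * ((1 + ρ) * V (h + 1) x)
          = (1 + ρ) ^ (h + 1) * (1 + c + κ₁ * (h : ℝ)) * V (h + 1) x := by ring
      rw [h6, hcast]
      calc _ ≤ (1 + ρ) ^ h * (1 + c + κ₁ * (h : ℝ)) * ((1 + ρ) * V (h + 1) x)
            + (1 + ρ) ^ (h + 1) * (κ₁ * V (h + 1) x) := by linarith
        _ = _ := by ring

/-- the same for `R` alone -/
theorem epoch_bound_hat_R (pc : ∀ h (x : S (h + 1)), M h x → List (S h)) {Ok : ∀ h, S h → Prop}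
    {F a R V : ∀ h, S h → ℝ} {k1 κ s lam c CF kd ke κ₁ ρ : ℝ}
    (hFa : ∀ h y, Ok h y → |a h y| ≤ F h y) (hV0 : ∀ h y, Ok h y → 0 ≤ V h y)
    (hk1 : 0 ≤ k1) (hκ : 0 ≤ κ) (hs : 0 < s) (hs1 : s ≤ 1) (hc : 0 ≤ c) (hρ : 0 ≤ ρ)
    (hlam : k1 * (1 + s ^ 2) ≤ lam * s ^ 2)
    (hκ₁ : κ * CF + (2 * lam + k1 / s) * kd + (1 + 5 * lam) * ke ≤ κ₁) (hκ₁0 : 0 ≤ κ₁)
    (hleaf : ∀ x, Ok 0 x → R 0 x + lam * Phi (F 0) (a 0) x ≤ (1 + c) * V 0 x)
    (hstep : ∀ h (x : S (h + 1)), Ok (h + 1) x →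
      R (h + 1) x + lam * Phi (F (h + 1)) (a (h + 1)) x ≤ (1 + c) * V (h + 1) x ∨
      ∃ m : M h x, ∃ d e Fx ax Rx : ℝ, (∀ y ∈ pc h x m, Ok h y) ∧
        ((pc h x m).map (V h)).sum ≤ (1 + ρ) * V (h + 1) x ∧
        0 < Fx ∧ |ax| ≤ Fx ∧ Fx ≤ CF * V (h + 1) x ∧
        0 ≤ d ∧ d ≤ kd * V (h + 1) x ∧ 0 ≤ e ∧ e ≤ ke * V (h + 1) x ∧
        R (h + 1) x ≤ Rx + e ∧ |a (h + 1) x - ax| ≤ e ∧ F (h + 1) x ≤ Fx + e ∧
        Fx ≤ F (h + 1) x + e ∧
        ((pc h x m).map (a h)).sum = ax ∧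
        Fx ≤ ((pc h x m).map (F h)).sum + d ∧
        (En (F h) (a h) (ax / Fx) (pc h x m) ≤ s ^ 2 * Fx →
          ((pc h x m).map (F h)).sum - Fx ≤ s * Fx → d ≤ s * Fx →
          Rx ≤ ((pc h x m).map (R h)).sum + κ * Fx) ∧
        Rx ≤ ((pc h x m).map (R h)).sum
          + k1 * (Fx + max (((pc h x m).map (F h)).sum - Fx) 0)) (h : ℕ)
    (x : S h) (hx : Ok h x) :
    R h x ≤ (1 + ρ) ^ h * (1 + c + κ₁ * h) * V h x := by
  have hs2 : (0 : ℝ) < s ^ 2 := by positivity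
  have hlk : k1 ≤ lam := by
    by_contra h
    push Not at h
    nlinarith [mul_lt_mul_of_pos_right h hs2]
  have h1 := epoch_bound_hat pc hFa hV0 hk1 hκ hs hs1 hc hρ hlam hκ₁ hκ₁0 hleaf hstep h x hx
  have h2 : 0 ≤ Phi (F h) (a h) x := by
    have h0 : 0 ≤ F h x := (abs_nonneg _).trans (hFa h x hx)
    exact add_nonneg (div_nonneg (sq_nonneg _) h0) (by linarith)
  have h3 := mul_nonneg (hk1.trans hlk) h2
  linarith

end tree

end Crest.Agent.R288.PotH257
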