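import Crest.Agent.R288.PotA_245

/-!
# R288: one epoch of the scheme "from above", PAIRED induction (posts 4352, 4598)

The play at `x` can only use the cuts of its menu, the comparator is the optimal integer staircase of a
state `x*` of the same node. `Rel h x x*` = "same node", `dd` = distance, the staircase of `x` is the
rounded staircase of `x*`, the total distance of the pieces is at most `dd x x* + r F(x)`.

* `paired` : with `X = R + λ Φ`, `B ≥ κ'' + (3 + k0 + H B) r`: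
  **`X(x) ≤ A G(x*) + 3 d + (k0 + h B)(β G(x*) + d)`**, `d = dd x x*`, `h ≤ H`, if at each pair either
  the claim holds with `h = 0` (leaf, retired, expensive), or there is a move with
  `X(x) ≤ ∑ X(y_j) + κ'' f(x)`, `F(x) ≤ f(x) ≤ β G(x*) + d`.
* `paired_epoch` : the same with the one-window hypotheses (near / all) of `PotA245.closure'`.
* `epoch_bound_rho` : version without pairs, menu staircases with `∑ V(y_j) ≤ (1+ρ) V(x)`:
  `R ≤ (1+ρ)^h (1 + c + κ₁ h) V`.
-/

set_option autoImplicit false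

namespace Crest.Agent.R288.PotP245

open Crest.Agent.R288.PotF245 Crest.Agent.R288.PotA245

universe u v

variable {S : ℕ → Type u} {M : ∀ h, S (h + 1) → Type v}

/-- **the paired induction**, abstract: `X` any function -/
theorem paired (pc : ∀ h (x : S (h + 1)), M h x → List (S h)) {Rel : ∀ h, S h → S h → Prop}
    {dd : ∀ h, S h → S h → ℝ} {X f G : ∀ h, S h → ℝ} {A k0 β κ r B : ℝ} {H : ℕ}
    (hA : 0 ≤ A) (hG0 : ∀ h y, 0 ≤ G h y) (hdd : ∀ h x y, 0 ≤ dd h x y) (hβ : 0 ≤ β) (hk0 : 0 ≤ k0)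
    (hκ : 0 ≤ κ) (hr : 0 ≤ r) (hB0 : 0 ≤ B) (hB : κ + (3 + k0 + H * B) * r ≤ B)
    (hleaf : ∀ x x', Rel 0 x x' →
      X 0 x ≤ A * G 0 x' + 3 * dd 0 x x' + k0 * (β * G 0 x' + dd 0 x x'))
    (hstep : ∀ h, h < H → ∀ (x x' : S (h + 1)), Rel (h + 1) x x' →
      X (h + 1) x ≤ A * G (h + 1) x' + 3 * dd (h + 1) x x'
          + k0 * (β * G (h + 1) x' + dd (h + 1) x x') ∨
      ∃ m : M h x, ∃ l : List (S h × S h), l.map Prod.fst = pc h x m ∧
        (∀ p ∈ l, Rel h p.1 p.2) ∧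
        (l.map fun p => G h p.2).sum ≤ G (h + 1) x' ∧
        (l.map fun p => dd h p.1 p.2).sum ≤ dd (h + 1) x x' + r * f (h + 1) x ∧
        f (h + 1) x ≤ β * G (h + 1) x' + dd (h + 1) x x' ∧
        X (h + 1) x ≤ ((pc h x m).map (X h)).sum + κ * f (h + 1) x) :
    ∀ h, h ≤ H → ∀ (x x' : S h), Rel h x x' →
      X h x ≤ A * G h x' + 3 * dd h x x' + (k0 + h * B) * (β * G h x' + dd h x x') := by
  intro h
  induction h with
  | zero => intro _ x x' hR; simpa using hleaf x x' hR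
  | succ h ih =>
    intro hH x x' hR
    have hGx := hG0 (h + 1) x'
    have hdx := hdd (h + 1) x x'
    have hY : 0 ≤ β * G (h + 1) x' + dd (h + 1) x x' := add_nonneg (mul_nonneg hβ hGx) hdx
    have hcast : ((h + 1 : ℕ) : ℝ) = h + 1 := by push_cast; ring
    rcases hstep h (by omega) x x' hR with h1 | ⟨m, l, hl1, hlR, hlG, hld, hf, hX⟩
    · have : 0 ≤ ((h + 1 : ℕ) : ℝ) * B * (β * G (h + 1) x' + dd (h + 1) x x') :=
        mul_nonneg (mul_nonneg (Nat.cast_nonneg _) hB0) hY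
      nlinarith
    · rw [← hl1, List.map_map] at hX
      have hc : 0 ≤ k0 + (h : ℝ) * B := add_nonneg hk0 (mul_nonneg (Nat.cast_nonneg _) hB0)
      have h2 : (l.map (X h ∘ Prod.fst)).sum
          ≤ A * (l.map fun p => G h p.2).sum + 3 * (l.map fun p => dd h p.1 p.2).sum
            + (k0 + h * B) * (β * (l.map fun p => G h p.2).sum
              + (l.map fun p => dd h p.1 p.2).sum) := by
        clear hl1 hlG hld hX
        induction l with
        | nil => simp
        | cons p l ihl =>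
          simp only [List.map_cons, List.sum_cons, Function.comp_apply]
          have h3 := ih (by omega) p.1 p.2 (hlR p (by simp))
          have h4 := ihl fun q hq => hlR q (by simp [hq])
          nlinarith
      have hAG : A * (l.map fun p => G h p.2).sum ≤ A * G (h + 1) x' :=
        mul_le_mul_of_nonneg_left hlG hA
      set SG : ℝ := (l.map fun p => G h p.2).sum with hSG
      set SD : ℝ := (l.map fun p => dd h p.1 p.2).sum with hSD
      have hhH : (h : ℝ) ≤ H := by exact_mod_cast (by omega : h ≤ H)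
      have hf0 : f (h + 1) x ≤ β * G (h + 1) x' + dd (h + 1) x x' := hf
      have hHB : (h : ℝ) * B ≤ H * B := mul_le_mul_of_nonneg_right hhH hB0
      have h5 : (3 + (k0 + h * B)) * (r * f (h + 1) x) + κ * f (h + 1) x
          ≤ B * (β * G (h + 1) x' + dd (h + 1) x x') := by
        have h6 : (3 + (k0 + h * B)) * r + κ ≤ B := by nlinarith
        have h7 : 0 ≤ (3 + (k0 + h * B)) * r + κ := by positivity
        calc (3 + (k0 + h * B)) * (r * f (h + 1) x) + κ * f (h + 1) x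
            = ((3 + (k0 + h * B)) * r + κ) * f (h + 1) x := by ring
          _ ≤ ((3 + (k0 + h * B)) * r + κ) * (β * G (h + 1) x' + dd (h + 1) x x') :=
              mul_le_mul_of_nonneg_left hf h7
          _ ≤ _ := mul_le_mul_of_nonneg_right h6 hY
      have h8 : (k0 + h * B) * (β * SG) ≤ (k0 + h * B) * (β * G (h + 1) x') :=
        mul_le_mul_of_nonneg_left (mul_le_mul_of_nonneg_left hlG hβ) hc
      have h9 : (3 + (k0 + h * B)) * SD
          ≤ (3 + (k0 + h * B)) * (dd (h + 1) x x' + r * f (h + 1) x) :=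
        mul_le_mul_of_nonneg_left hld (by linarith)
      rw [hcast]
      nlinarith

/-- **one epoch, paired form** : one-window hypotheses (near / all) for the played staircase -/
theorem paired_epoch (pc : ∀ h (x : S (h + 1)), M h x → List (S h))
    {Rel : ∀ h, S h → S h → Prop} {dd : ∀ h, S h → S h → ℝ} {F f a R G : ∀ h, S h → ℝ}
    {A k0 β k1 κ s lam j r B : ℝ} {H : ℕ}
    (hFa : ∀ h y, |a h y| ≤ F h y) (hFf : ∀ h y, F h y ≤ f h y)
    (hA : 0 ≤ A) (hG0 : ∀ h y, 0 ≤ G h y) (hdd : ∀ h x y, 0 ≤ dd h x y) (hβ : 0 ≤ β)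
    (hk0 : 0 ≤ k0) (hk1 : 0 ≤ k1) (hκ : 0 ≤ κ) (hs : 0 < s) (hs1 : s ≤ 1) (hj : 0 ≤ j)
    (hlam : k1 * (1 + s ^ 2) ≤ lam * s ^ 2) (hr : 0 ≤ r) (hB0 : 0 ≤ B)
    (hB : κ + (2 * lam + k1 / s) * j + (3 + k0 + H * B) * r ≤ B)
    (hleaf : ∀ x x', Rel 0 x x' →
      R 0 x + lam * Phi (F 0) (a 0) x
        ≤ A * G 0 x' + 3 * dd 0 x x' + k0 * (β * G 0 x' + dd 0 x x'))
    (hstep : ∀ h, h < H → ∀ (x x' : S (h + 1)), Rel (h + 1) x x' →
      R (h + 1) x + lam * Phi (F (h + 1)) (a (h + 1)) x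
        ≤ A * G (h + 1) x' + 3 * dd (h + 1) x x'
          + k0 * (β * G (h + 1) x' + dd (h + 1) x x') ∨
      ∃ m : M h x, ∃ l : List (S h × S h), l.map Prod.fst = pc h x m ∧
        (∀ p ∈ l, Rel h p.1 p.2) ∧
        (l.map fun p => G h p.2).sum ≤ G (h + 1) x' ∧
        (l.map fun p => dd h p.1 p.2).sum ≤ dd (h + 1) x x' + r * f (h + 1) x ∧
        f (h + 1) x ≤ β * G (h + 1) x' + dd (h + 1) x x' ∧
        0 < F (h + 1) x ∧
        ((pc h x m).map (a h)).sum = a (h + 1) x ∧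
        F (h + 1) x ≤ ((pc h x m).map (F h)).sum + j * f (h + 1) x ∧
        (En (F h) (a h) (a (h + 1) x / F (h + 1) x) (pc h x m) ≤ s ^ 2 * F (h + 1) x →
          ((pc h x m).map (F h)).sum - F (h + 1) x ≤ s * F (h + 1) x →
          j * f (h + 1) x ≤ s * F (h + 1) x →
          R (h + 1) x ≤ ((pc h x m).map (R h)).sum + κ * F (h + 1) x) ∧
        R (h + 1) x ≤ ((pc h x m).map (R h)).sum
          + k1 * (F (h + 1) x + max (((pc h x m).map (F h)).sum - F (h + 1) x) 0)) :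
    ∀ h, h ≤ H → ∀ (x x' : S h), Rel h x x' →
      R h x ≤ A * G h x' + 3 * dd h x x' + (k0 + h * B) * (β * G h x' + dd h x x') := by
  have hs2 : (0 : ℝ) < s ^ 2 := by positivity
  have hlk : k1 ≤ lam := by
    by_contra h
    push Not at h
    nlinarith [mul_lt_mul_of_pos_right h hs2]
  have hlam0 : 0 ≤ lam := hk1.trans hlk
  have hq : 0 ≤ 2 * lam + k1 / s := add_nonneg (by linarith) (div_nonneg hk1 hs.le)
  intro h hH x x' hR
  have key := paired (X := fun h y => R h y + lam * Phi (F h) (a h) y) (f := f) pc hA hG0 hdd hβ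
    hk0 (κ := κ + (2 * lam + k1 / s) * j) (add_nonneg hκ (mul_nonneg hq hj)) hr hB0 hB hleaf
    (fun h hh x x' hR => by
      rcases hstep h hh x x' hR with h1 | ⟨m, l, hl1, hlR, hlG, hld, hf, hF0, hsum, hd, hn, ha⟩
      · exact Or.inl h1
      · refine Or.inr ⟨m, l, hl1, hlR, hlG, hld, hf, ?_⟩
        have hf0 : 0 ≤ f (h + 1) x := hF0.le.trans (hFf _ _)
        have hcl := closure' (R := R h) (hFa h) (Rx := R (h + 1) x) (d := j * f (h + 1) x)
          (k1 := k1) (κ := κ) (s := s) (lam := lam) (hFa (h + 1) x) hF0 (mul_nonneg hj hf0) hk1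
          hκ hs hs1 hlam (pc h x m) hsum hd hn ha
        have h3 : κ * F (h + 1) x ≤ κ * f (h + 1) x := mul_le_mul_of_nonneg_left (hFf _ _) hκ
        have h4 : Phi (F (h + 1)) (a (h + 1)) x
            = a (h + 1) x ^ 2 / F (h + 1) x + 2 * F (h + 1) x := rfl
        show R (h + 1) x + lam * Phi (F (h + 1)) (a (h + 1)) x ≤ _
        rw [h4]
        linarith) h hH x x' hR
  have hP := mul_nonneg hlam0 (Phi_nonneg (hFa h) x)
  linarith

/-- version without pairs: the played (rounded) optimal staircase has `∑ V ≤ (1+ρ) V(x)` -/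
theorem epoch_bound_rho (pc : ∀ h (x : S (h + 1)), M h x → List (S h))
    {F a R V : ∀ h, S h → ℝ} {k1 κ s lam c CF kd κ₁ ρ : ℝ}
    (hFa : ∀ h y, |a h y| ≤ F h y) (hV0 : ∀ h y, 0 ≤ V h y)
    (hk1 : 0 ≤ k1) (hκ : 0 ≤ κ) (hs : 0 < s) (hs1 : s ≤ 1) (hc : 0 ≤ c) (hρ : 0 ≤ ρ)
    (hlam : k1 * (1 + s ^ 2) ≤ lam * s ^ 2) (hκ₁ : κ * CF + (2 * lam + k1 / s) * kd ≤ κ₁)
    (hκ₁0 : 0 ≤ κ₁)
    (hleaf : ∀ x, R 0 x + lam * Phi (F 0) (a 0) x ≤ (1 + c) * V 0 x)
    (hstep : ∀ h (x : S (h + 1)),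
      R (h + 1) x + lam * Phi (F (h + 1)) (a (h + 1)) x ≤ (1 + c) * V (h + 1) x ∨
      ∃ m : M h x, ∃ d : ℝ, ((pc h x m).map (V h)).sum ≤ (1 + ρ) * V (h + 1) x ∧
        0 < F (h + 1) x ∧ F (h + 1) x ≤ CF * V (h + 1) x ∧
        0 ≤ d ∧ d ≤ kd * V (h + 1) x ∧
        ((pc h x m).map (a h)).sum = a (h + 1) x ∧
        F (h + 1) x ≤ ((pc h x m).map (F h)).sum + d ∧
        (En (F h) (a h) (a (h + 1) x / F (h + 1) x) (pc h x m) ≤ s ^ 2 * F (h + 1) x →
          ((pc h x m).map (F h)).sum - F (h + 1) x ≤ s * F (h + 1) x →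
          d ≤ s * F (h + 1) x →
          R (h + 1) x ≤ ((pc h x m).map (R h)).sum + κ * F (h + 1) x) ∧
        R (h + 1) x ≤ ((pc h x m).map (R h)).sum
          + k1 * (F (h + 1) x + max (((pc h x m).map (F h)).sum - F (h + 1) x) 0)) (h : ℕ)
    (x : S h) :
    R h x + lam * Phi (F h) (a h) x ≤ (1 + ρ) ^ h * (1 + c + κ₁ * h) * V h x := by
  have hs2 : (0 : ℝ) < s ^ 2 := by positivity
  have hlk : k1 ≤ lam := by
    by_contra h
    push Not at h
    nlinarith [mul_lt_mul_of_pos_right h hs2]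
  have hlam0 : 0 ≤ lam := hk1.trans hlk
  have hq : 0 ≤ 2 * lam + k1 / s := add_nonneg (by linarith) (div_nonneg hk1 hs.le)
  have hρ1 : (1 : ℝ) ≤ 1 + ρ := by linarith
  induction h with
  | zero => simpa using hleaf x
  | succ h ih =>
    have hV := hV0 (h + 1) x
    have hcast : ((h + 1 : ℕ) : ℝ) = h + 1 := by push_cast; ring
    have hpow : (1 : ℝ) ≤ (1 + ρ) ^ (h + 1) := one_le_pow₀ hρ1
    have hpow' : (1 : ℝ) ≤ (1 + ρ) ^ h := one_le_pow₀ hρ1
    have hcc : 0 ≤ 1 + c + κ₁ * ((h : ℝ) + 1) := by positivity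
    rcases hstep h x with h1 | ⟨m, d, hVm, hF0, hFV, hd0, hdV, hsum, hd, hnear, hall⟩
    · have h2 : (1 + c) * V (h + 1) x ≤ (1 + c + κ₁ * ((h : ℝ) + 1)) * V (h + 1) x := by
        have : 0 ≤ κ₁ * ((h : ℝ) + 1) * V (h + 1) x := by positivity
        nlinarith
      have h3 : (1 + c + κ₁ * ((h : ℝ) + 1)) * V (h + 1) x
          ≤ (1 + ρ) ^ (h + 1) * ((1 + c + κ₁ * ((h : ℝ) + 1)) * V (h + 1) x) :=
        le_mul_of_one_le_left (mul_nonneg hcc hV) hpow
      rw [hcast]
      calc _ ≤ _ := h1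
        _ ≤ _ := h2
        _ ≤ _ := h3
        _ = _ := by ring
    · have hcl := closure' (R := R h) (hFa h) (Rx := R (h + 1) x) (d := d) (k1 := k1) (κ := κ)
        (s := s) (lam := lam) (hFa (h + 1) x) hF0 hd0 hk1 hκ hs hs1 hlam (pc h x m) hsum hd
        hnear hall
      have h3 : 0 ≤ (1 + ρ) ^ h * (1 + c + κ₁ * (h : ℝ)) := by positivity
      have h2 : ((pc h x m).map fun y => R h y + lam * Phi (F h) (a h) y).sum
          ≤ (1 + ρ) ^ h * (1 + c + κ₁ * h) * ((pc h x m).map (V h)).sum := by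
        generalize pc h x m = l
        induction l with
        | nil => simp
        | cons y l ihl =>
          simp only [List.map_cons, List.sum_cons]
          have := ih y
          nlinarith
      have h4 := mul_le_mul_of_nonneg_left hVm h3
      have h5 : κ * F (h + 1) x + (2 * lam + k1 / s) * d ≤ κ₁ * V (h + 1) x := by
        calc κ * F (h + 1) x + (2 * lam + k1 / s) * d
            ≤ κ * (CF * V (h + 1) x) + (2 * lam + k1 / s) * (kd * V (h + 1) x) :=
              add_le_add (mul_le_mul_of_nonneg_left hFV hκ) (mul_le_mul_of_nonneg_left hdV hq)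
          _ = (κ * CF + (2 * lam + k1 / s) * kd) * V (h + 1) x := by ring
          _ ≤ _ := mul_le_mul_of_nonneg_right hκ₁ hV
      have h5' : κ₁ * V (h + 1) x ≤ (1 + ρ) ^ (h + 1) * (κ₁ * V (h + 1) x) :=
        le_mul_of_one_le_left (mul_nonneg hκ₁0 hV) hpow
      have h6 : Phi (F (h + 1)) (a (h + 1)) x
          = a (h + 1) x ^ 2 / F (h + 1) x + 2 * F (h + 1) x := rfl
      have h7 : (1 + ρ) ^ h * (1 + c + κ₁ * (h : ℝ)) * ((1 + ρ) * V (h + 1) x)
          = (1 + ρ) ^ (h + 1) * (1 + c + κ₁ * (h : ℝ)) * V (h + 1) x := by ring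
      rw [h6, hcast]
      calc _ ≤ _ := hcl
        _ ≤ (1 + ρ) ^ h * (1 + c + κ₁ * (h : ℝ)) * ((1 + ρ) * V (h + 1) x)
            + (1 + ρ) ^ (h + 1) * (κ₁ * V (h + 1) x) := by linarith
        _ = _ := by ring

end Crest.Agent.R288.PotP245
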