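import Crest.Agent.R288.PotP_245

/-!
# R288: one epoch "from above", pointwise, with ROUNDING OF THE ARRIVAL STATE (helper644)

In ALG-U a state `x` (piece of a window) is first rounded to the grid of its own class, `x'`, and the
window is played at `x'`: so `∑ a(pieces) = a(x')`, not `a(x)`, and the value of the window is the value of
the PAIR `(class x, x')`, not the arrival value of the state `x'`. `PotP245.epoch_bound_rho` asks
`∑ a(pieces) = a(x)` literally. Here: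

* `Phi_sub_le` : `Φ x - Φ x' ≤ 2 |a x - a x'| + 3 |F x - F x'|`;
* `epoch_bound_round` : `PotP245.epoch_bound_rho` with a rounded state `x'` and a loss `e` in the step;
* `epoch_bound_dist` : the same with the loss written as `e ≤ κe V`, `|a x - a x'| ≤ r V`,
  `|F x - F x'| ≤ r V`.
-/

set_option autoImplicit false

namespace Crest.Agent.R288.PotR644

open Crest.Agent.R288.PotF245 Crest.Agent.R288.PotA245

/-- `a² / F` is jointly convex: one sided Lipschitz bound -/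
theorem sq_div_sub_le {a a' F F' : ℝ} (hF : 0 < F) (hF' : 0 < F') (ha : |a| ≤ F) :
    a ^ 2 / F - a' ^ 2 / F' ≤ 2 * |a - a'| + |F - F'| := by
  set t : ℝ := a / F with ht
  have hta : t * F = a := div_mul_cancel₀ a hF.ne'
  have ht1 : |t| ≤ 1 := by
    rw [ht, abs_div, abs_of_pos hF]
    exact (div_le_one hF).2 ha
  have h1 : a ^ 2 / F = t * a := by
    rw [ht, pow_two, mul_div_assoc, mul_comm]
  have h2 : 0 ≤ (a' - t * F') ^ 2 / F' := div_nonneg (sq_nonneg _) hF'.le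
  have h3 : (a' - t * F') ^ 2 / F' = a' ^ 2 / F' - 2 * t * a' + t ^ 2 * F' := by
    field_simp
    ring
  have h4 : a ^ 2 / F - a' ^ 2 / F' ≤ 2 * t * (a - a') - t ^ 2 * (F - F') := by
    rw [h1]
    rw [h3] at h2
    have h5 : t ^ 2 * F = t * a := by rw [pow_two, mul_assoc, hta]
    nlinarith
  have h6 : 2 * t * (a - a') ≤ 2 * |a - a'| := by
    have : t * (a - a') ≤ |t * (a - a')| := le_abs_self _
    rw [abs_mul] at this
    have h7 : |t| * |a - a'| ≤ 1 * |a - a'| := mul_le_mul_of_nonneg_right ht1 (abs_nonneg _)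
    nlinarith
  have h8 : -(t ^ 2 * (F - F')) ≤ |F - F'| := by
    have ht2 : t ^ 2 ≤ 1 := by
      rw [← sq_abs]
      nlinarith [abs_nonneg t]
    have h9 : -(F - F') ≤ |F - F'| := neg_le_abs _
    have h10 : 0 ≤ |F - F'| := abs_nonneg _
    have h11 : F - F' ≤ |F - F'| := le_abs_self _
    nlinarith [sq_nonneg t]
  linarith

theorem Phi_sub_le {α β : Type*} {F a : α → ℝ} {F' a' : β → ℝ} {x : α} {x' : β} (hF : 0 < F x)
    (hF' : 0 < F' x') (ha : |a x| ≤ F x) :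
    Phi F a x - Phi F' a' x' ≤ 2 * |a x - a' x'| + 3 * |F x - F' x'| := by
  have h := sq_div_sub_le (a' := a' x') hF hF' ha
  have h1 : F x - F' x' ≤ |F x - F' x'| := le_abs_self _
  unfold Phi
  linarith

universe u v

variable {S : ℕ → Type u} {M : ∀ h, S (h + 1) → Type v}

/-- **one epoch with rounding of the arrival state.** `x'` = the rounded state at which the window is
played, `e` = loss of the rounding (distance, noise, retired cheap pieces, ceilings). -/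
theorem epoch_bound_round (pc : ∀ h (x : S (h + 1)), M h x → List (S h))
    {F a R V : ∀ h, S h → ℝ} {k1 κ s lam c CF kd κe κ₁ ρ : ℝ}
    (hFa : ∀ h y, |a h y| ≤ F h y) (hV0 : ∀ h y, 0 ≤ V h y)
    (hk1 : 0 ≤ k1) (hκ : 0 ≤ κ) (hs : 0 < s) (hs1 : s ≤ 1) (hc : 0 ≤ c) (hρ : 0 ≤ ρ)
    (hlam : k1 * (1 + s ^ 2) ≤ lam * s ^ 2)
    (hκ₁ : κ * CF + (2 * lam + k1 / s) * kd + κe ≤ κ₁) (hκ₁0 : 0 ≤ κ₁)
    (hleaf : ∀ x, R 0 x + lam * Phi (F 0) (a 0) x ≤ (1 + c) * V 0 x)
    (hstep : ∀ h (x : S (h + 1)),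
      R (h + 1) x + lam * Phi (F (h + 1)) (a (h + 1)) x ≤ (1 + c) * V (h + 1) x ∨
      ∃ x' : S (h + 1), ∃ m : M h x', ∃ d e : ℝ,
        ((pc h x' m).map (V h)).sum ≤ (1 + ρ) * V (h + 1) x ∧
        0 < F (h + 1) x' ∧ F (h + 1) x' ≤ CF * V (h + 1) x ∧
        0 ≤ d ∧ d ≤ kd * V (h + 1) x ∧
        e + lam * (Phi (F (h + 1)) (a (h + 1)) x - Phi (F (h + 1)) (a (h + 1)) x')
          ≤ κe * V (h + 1) x ∧
        ((pc h x' m).map (a h)).sum = a (h + 1) x' ∧
        F (h + 1) x' ≤ ((pc h x' m).map (F h)).sum + d ∧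
        (En (F h) (a h) (a (h + 1) x' / F (h + 1) x') (pc h x' m) ≤ s ^ 2 * F (h + 1) x' →
          ((pc h x' m).map (F h)).sum - F (h + 1) x' ≤ s * F (h + 1) x' →
          d ≤ s * F (h + 1) x' →
          R (h + 1) x ≤ ((pc h x' m).map (R h)).sum + κ * F (h + 1) x' + e) ∧
        R (h + 1) x ≤ ((pc h x' m).map (R h)).sum
          + k1 * (F (h + 1) x' + max (((pc h x' m).map (F h)).sum - F (h + 1) x') 0) + e)
    (h : ℕ) (x : S h) :
    R h x + lam * Phi (F h) (a h) x ≤ (1 + ρ) ^ h * (1 + c + κ₁ * h) * V h x := by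
  have hs2 : (0 : ℝ) < s ^ 2 := by positivity
  have hlk : k1 ≤ lam := by
    by_contra h
    push Not at h
    nlinarith [mul_lt_mul_of_pos_right h hs2]
  have hlam0 : 0 ≤ lam := hk1.trans hlk
  have hq : 0 ≤ 2 * lam + k1 / s := add_nonneg (by linarith) (div_nonneg hk1 hs.le)
  have hρ1 : (1 : ℝ) ≤ 1 + ρ := by linarith
  induction h with
  | zero => simpa using hleaf x
  | succ h ih =>
    have hV := hV0 (h + 1) x
    have hcast : ((h + 1 : ℕ) : ℝ) = h + 1 := by push_cast; ring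
    have hpow : (1 : ℝ) ≤ (1 + ρ) ^ (h + 1) := one_le_pow₀ hρ1
    have hpow' : (1 : ℝ) ≤ (1 + ρ) ^ h := one_le_pow₀ hρ1
    have hcc : 0 ≤ 1 + c + κ₁ * ((h : ℝ) + 1) := by positivity
    rcases hstep h x with h1 | ⟨x', m, d, e, hVm, hF0, hFV, hd0, hdV, he, hsum, hd, hnear, hall⟩
    · have h2 : (1 + c) * V (h + 1) x ≤ (1 + c + κ₁ * ((h : ℝ) + 1)) * V (h + 1) x := by
        have : 0 ≤ κ₁ * ((h : ℝ) + 1) * V (h + 1) x := by positivity
        nlinarith
      have h3 : (1 + c + κ₁ * ((h : ℝ) + 1)) * V (h + 1) x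
          ≤ (1 + ρ) ^ (h + 1) * ((1 + c + κ₁ * ((h : ℝ) + 1)) * V (h + 1) x) :=
        le_mul_of_one_le_left (mul_nonneg hcc hV) hpow
      rw [hcast]
      calc _ ≤ _ := h1
        _ ≤ _ := h2
        _ ≤ _ := h3
        _ = _ := by ring
    · have hcl := closure' (R := R h) (hFa h) (Rx := R (h + 1) x - e) (d := d) (k1 := k1)
        (κ := κ) (s := s) (lam := lam) (hFa (h + 1) x') hF0 hd0 hk1 hκ hs hs1 hlam (pc h x' m)
        hsum hd (fun h1 h2 h3 => by have := hnear h1 h2 h3; linarith) (by linarith)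
      have h3 : 0 ≤ (1 + ρ) ^ h * (1 + c + κ₁ * (h : ℝ)) := by positivity
      have h2 : ((pc h x' m).map fun y => R h y + lam * Phi (F h) (a h) y).sum
          ≤ (1 + ρ) ^ h * (1 + c + κ₁ * h) * ((pc h x' m).map (V h)).sum := by
        clear hcl hVm hsum hd hnear hall
        generalize pc h x' m = l
        induction l with
        | nil => simp
        | cons y l ihl =>
          simp only [List.map_cons, List.sum_cons]
          have := ih y
          nlinarith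
      have h4 := mul_le_mul_of_nonneg_left hVm h3
      have h5 : κ * F (h + 1) x' + (2 * lam + k1 / s) * d
          + (e + lam * (Phi (F (h + 1)) (a (h + 1)) x - Phi (F (h + 1)) (a (h + 1)) x'))
          ≤ κ₁ * V (h + 1) x := by
        calc κ * F (h + 1) x' + (2 * lam + k1 / s) * d
              + (e + lam * (Phi (F (h + 1)) (a (h + 1)) x - Phi (F (h + 1)) (a (h + 1)) x'))
            ≤ κ * (CF * V (h + 1) x) + (2 * lam + k1 / s) * (kd * V (h + 1) x)
              + κe * V (h + 1) x :=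
              add_le_add (add_le_add (mul_le_mul_of_nonneg_left hFV hκ)
                (mul_le_mul_of_nonneg_left hdV hq)) he
          _ = (κ * CF + (2 * lam + k1 / s) * kd + κe) * V (h + 1) x := by ring
          _ ≤ _ := mul_le_mul_of_nonneg_right hκ₁ hV
      have h5' : κ₁ * V (h + 1) x ≤ (1 + ρ) ^ (h + 1) * (κ₁ * V (h + 1) x) :=
        le_mul_of_one_le_left (mul_nonneg hκ₁0 hV) hpow
      have h6 : Phi (F (h + 1)) (a (h + 1)) x'
          = a (h + 1) x' ^ 2 / F (h + 1) x' + 2 * F (h + 1) x' := rfl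
      have h7 : (1 + ρ) ^ h * (1 + c + κ₁ * (h : ℝ)) * ((1 + ρ) * V (h + 1) x)
          = (1 + ρ) ^ (h + 1) * (1 + c + κ₁ * (h : ℝ)) * V (h + 1) x := by ring
      rw [← h6] at hcl
      rw [hcast]
      calc R (h + 1) x + lam * Phi (F (h + 1)) (a (h + 1)) x
          = R (h + 1) x - e + lam * Phi (F (h + 1)) (a (h + 1)) x'
            + (e + lam * (Phi (F (h + 1)) (a (h + 1)) x
              - Phi (F (h + 1)) (a (h + 1)) x')) := by ring
        _ ≤ (1 + ρ) ^ h * (1 + c + κ₁ * (h : ℝ)) * ((1 + ρ) * V (h + 1) x)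
            + (1 + ρ) ^ (h + 1) * (κ₁ * V (h + 1) x) := by linarith
        _ = _ := by ring

/-- `epoch_bound_round` with the loss in terms of the distance of `x` and `x'`: `|a x - a x'| ≤ r V`,
`|F x - F x'| ≤ r V`, `e ≤ κe V`; the constant is `κ CF + (2 lam + k1 / s) kd + κe + 5 lam r`. -/
theorem epoch_bound_dist (pc : ∀ h (x : S (h + 1)), M h x → List (S h))
    {F a R V : ∀ h, S h → ℝ} {k1 κ s lam c CF kd κe r κ₁ ρ : ℝ}
    (hFa : ∀ h y, |a h y| ≤ F h y) (hV0 : ∀ h y, 0 ≤ V h y)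
    (hk1 : 0 ≤ k1) (hκ : 0 ≤ κ) (hs : 0 < s) (hs1 : s ≤ 1) (hc : 0 ≤ c) (hρ : 0 ≤ ρ)
    (hlam : k1 * (1 + s ^ 2) ≤ lam * s ^ 2)
    (hκ₁ : κ * CF + (2 * lam + k1 / s) * kd + (κe + 5 * lam * r) ≤ κ₁) (hκ₁0 : 0 ≤ κ₁)
    (hleaf : ∀ x, R 0 x + lam * Phi (F 0) (a 0) x ≤ (1 + c) * V 0 x)
    (hstep : ∀ h (x : S (h + 1)),
      R (h + 1) x + lam * Phi (F (h + 1)) (a (h + 1)) x ≤ (1 + c) * V (h + 1) x ∨
      ∃ x' : S (h + 1), ∃ m : M h x', ∃ d e : ℝ,
        ((pc h x' m).map (V h)).sum ≤ (1 + ρ) * V (h + 1) x ∧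
        0 < F (h + 1) x ∧ 0 < F (h + 1) x' ∧ F (h + 1) x' ≤ CF * V (h + 1) x ∧
        0 ≤ d ∧ d ≤ kd * V (h + 1) x ∧ e ≤ κe * V (h + 1) x ∧
        |a (h + 1) x - a (h + 1) x'| ≤ r * V (h + 1) x ∧
        |F (h + 1) x - F (h + 1) x'| ≤ r * V (h + 1) x ∧
        ((pc h x' m).map (a h)).sum = a (h + 1) x' ∧
        F (h + 1) x' ≤ ((pc h x' m).map (F h)).sum + d ∧
        (En (F h) (a h) (a (h + 1) x' / F (h + 1) x') (pc h x' m) ≤ s ^ 2 * F (h + 1) x' →
          ((pc h x' m).map (F h)).sum - F (h + 1) x' ≤ s * F (h + 1) x' →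
          d ≤ s * F (h + 1) x' →
          R (h + 1) x ≤ ((pc h x' m).map (R h)).sum + κ * F (h + 1) x' + e) ∧
        R (h + 1) x ≤ ((pc h x' m).map (R h)).sum
          + k1 * (F (h + 1) x' + max (((pc h x' m).map (F h)).sum - F (h + 1) x') 0) + e)
    (h : ℕ) (x : S h) :
    R h x + lam * Phi (F h) (a h) x ≤ (1 + ρ) ^ h * (1 + c + κ₁ * h) * V h x := by
  have hs2 : (0 : ℝ) < s ^ 2 := by positivity
  have hlk : k1 ≤ lam := by
    by_contra h
    push Not at h
    nlinarith [mul_lt_mul_of_pos_right h hs2]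
  have hlam0 : 0 ≤ lam := hk1.trans hlk
  refine epoch_bound_round pc hFa hV0 hk1 hκ hs hs1 hc hρ hlam hκ₁ hκ₁0 hleaf ?_ h x
  intro h x
  rcases hstep h x with h1 | ⟨x', m, d, e, hVm, hFx, hF0, hFV, hd0, hdV, he, har, hFr, hsum, hd,
    hnear, hall⟩
  · exact Or.inl h1
  · refine Or.inr ⟨x', m, d, e, hVm, hF0, hFV, hd0, hdV, ?_, hsum, hd, hnear, hall⟩
    have h2 := Phi_sub_le (F := F (h + 1)) (a := a (h + 1)) (F' := F (h + 1)) (a' := a (h + 1))
      (x := x) (x' := x') hFx hF0 (hFa _ _)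
    have h3 : Phi (F (h + 1)) (a (h + 1)) x - Phi (F (h + 1)) (a (h + 1)) x'
        ≤ 5 * (r * V (h + 1) x) := by linarith
    have h4 := mul_le_mul_of_nonneg_left h3 hlam0
    linarith

end Crest.Agent.R288.PotR644
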