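import Crest.Agent.R288.PotR_644

/-!
# R288: `PotR644.epoch_bound_dist` on ONE state type with a domain predicate (helper644)

`σ` = one type of states (`Alg45.St`), `Ok h y` = "`y` is a state of `Ω` of macro height `h`"; the functions
`F a R V : σ → ℝ` do not depend on the height; a move is just the list of its pieces. All hypotheses are
asked on `Ω` only.

* `epoch_ok_round`, `epoch_ok_dist` : `R x + lam Φ x ≤ (1+ρ)^h (1 + c + κ₁ h) V x` on `Ω`;
* `epoch_ok` : the same without the potential, and with `(1+ρ)^h ≤ 1 + θ` bounded uniformly, `h ≤ H`: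
  `R x ≤ ((1+θ) (1 + c + κ₁ H)) V x`.
-/

set_option autoImplicit false

namespace Crest.Agent.R288.PotS644

open Crest.Agent.R288.PotF245 Crest.Agent.R288.PotA245 Crest.Agent.R288.PotR644

variable {σ : Type*}

/-- `PotA245.closure'` with the hypothesis `|a| ≤ F` on the list only -/
theorem closure_on {F a R : σ → ℝ} {A Fx Rx d k1 κ s lam : ℝ}
    (hA : |A| ≤ Fx) (hx : 0 < Fx) (hd0 : 0 ≤ d) (hk1 : 0 ≤ k1) (hκ : 0 ≤ κ) (hs : 0 < s)
    (hs1 : s ≤ 1) (hlam : k1 * (1 + s ^ 2) ≤ lam * s ^ 2)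
    (l : List σ) (hFa : ∀ y ∈ l, |a y| ≤ F y) (hsum : (l.map a).sum = A)
    (hd : Fx ≤ (l.map F).sum + d)
    (hnear : En F a (A / Fx) l ≤ s ^ 2 * Fx → (l.map F).sum - Fx ≤ s * Fx → d ≤ s * Fx →
      Rx ≤ (l.map R).sum + κ * Fx)
    (hall : Rx ≤ (l.map R).sum + k1 * (Fx + max ((l.map F).sum - Fx) 0)) :
    Rx + lam * (A ^ 2 / Fx + 2 * Fx)
      ≤ (l.map fun y => R y + lam * Phi F a y).sum + (κ * Fx + (2 * lam + k1 / s) * d) := by
  have e1 : ∀ f : σ → ℝ, (l.attach.map fun y => f y.1).sum = (l.map f).sum := fun f => by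
    rw [List.attach_map_val]
  have e2 : En (fun y : {y // y ∈ l} => F y.1) (fun y => a y.1) (A / Fx) l.attach
      = En F a (A / Fx) l := e1 fun y => F y * (a y / F y - A / Fx) ^ 2
  have key := closure' (F := fun y : {y // y ∈ l} => F y.1) (a := fun y => a y.1)
    (R := fun y => R y.1) (fun y => hFa y.1 y.2) (A := A) (Fx := Fx) (Rx := Rx) (d := d)
    (k1 := k1) (κ := κ) (s := s) (lam := lam) hA hx hd0 hk1 hκ hs hs1 hlam l.attach
    (by rw [e1 a]; exact hsum) (by rw [e1 F]; exact hd)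
    (by rw [e2, e1 F, e1 R]; exact hnear) (by rw [e1 F, e1 R]; exact hall)
  have e3 : (l.attach.map fun y : {y // y ∈ l} =>
      R y.1 + lam * Phi (fun y : {y // y ∈ l} => F y.1) (fun y => a y.1) y).sum
        = (l.map fun y => R y + lam * Phi F a y).sum := e1 fun y => R y + lam * Phi F a y
  rw [e3] at key
  exact key

/-- `PotR644.epoch_bound_round` on one state type with a domain -/
theorem epoch_ok_round {Ok : ℕ → σ → Prop} {F a R V : σ → ℝ} {k1 κ s lam c CF kd κe κ₁ ρ : ℝ}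
    (hFa : ∀ h y, Ok h y → |a y| ≤ F y) (hV0 : ∀ h y, Ok h y → 0 ≤ V y)
    (hk1 : 0 ≤ k1) (hκ : 0 ≤ κ) (hs : 0 < s) (hs1 : s ≤ 1) (hc : 0 ≤ c) (hρ : 0 ≤ ρ)
    (hlam : k1 * (1 + s ^ 2) ≤ lam * s ^ 2)
    (hκ₁ : κ * CF + (2 * lam + k1 / s) * kd + κe ≤ κ₁) (hκ₁0 : 0 ≤ κ₁)
    (hleaf : ∀ x, Ok 0 x → R x + lam * Phi F a x ≤ (1 + c) * V x)
    (hstep : ∀ h x, Ok (h + 1) x →
      R x + lam * Phi F a x ≤ (1 + c) * V x ∨
      ∃ x' : σ, ∃ l : List σ, ∃ d e : ℝ,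
        (∀ y ∈ l, Ok h y) ∧ |a x'| ≤ F x' ∧
        (l.map V).sum ≤ (1 + ρ) * V x ∧
        0 < F x' ∧ F x' ≤ CF * V x ∧
        0 ≤ d ∧ d ≤ kd * V x ∧
        e + lam * (Phi F a x - Phi F a x') ≤ κe * V x ∧
        (l.map a).sum = a x' ∧
        F x' ≤ (l.map F).sum + d ∧
        (En F a (a x' / F x') l ≤ s ^ 2 * F x' →
          (l.map F).sum - F x' ≤ s * F x' → d ≤ s * F x' →
          R x ≤ (l.map R).sum + κ * F x' + e) ∧
        R x ≤ (l.map R).sum + k1 * (F x' + max ((l.map F).sum - F x') 0) + e)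
    (h : ℕ) (x : σ) (hx : Ok h x) :
    R x + lam * Phi F a x ≤ (1 + ρ) ^ h * (1 + c + κ₁ * h) * V x := by
  have hs2 : (0 : ℝ) < s ^ 2 := by positivity
  have hlk : k1 ≤ lam := by
    by_contra h
    push Not at h
    nlinarith [mul_lt_mul_of_pos_right h hs2]
  have hlam0 : 0 ≤ lam := hk1.trans hlk
  have hq : 0 ≤ 2 * lam + k1 / s := add_nonneg (by linarith) (div_nonneg hk1 hs.le)
  have hρ1 : (1 : ℝ) ≤ 1 + ρ := by linarith
  induction h generalizing x with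
  | zero => simpa using hleaf x hx
  | succ h ih =>
    have hV := hV0 (h + 1) x hx
    have hcast : ((h + 1 : ℕ) : ℝ) = h + 1 := by push_cast; ring
    have hpow : (1 : ℝ) ≤ (1 + ρ) ^ (h + 1) := one_le_pow₀ hρ1
    have hpow' : (1 : ℝ) ≤ (1 + ρ) ^ h := one_le_pow₀ hρ1
    have hcc : 0 ≤ 1 + c + κ₁ * ((h : ℝ) + 1) := by positivity
    rcases hstep h x hx with
      h1 | ⟨x', l, d, e, hl, hax', hVm, hF0, hFV, hd0, hdV, he, hsum, hd, hnear, hall⟩
    · have h2 : (1 + c) * V x ≤ (1 + c + κ₁ * ((h : ℝ) + 1)) * V x := by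
        have : 0 ≤ κ₁ * ((h : ℝ) + 1) * V x := by positivity
        nlinarith
      have h3 : (1 + c + κ₁ * ((h : ℝ) + 1)) * V x
          ≤ (1 + ρ) ^ (h + 1) * ((1 + c + κ₁ * ((h : ℝ) + 1)) * V x) :=
        le_mul_of_one_le_left (mul_nonneg hcc hV) hpow
      rw [hcast]
      calc _ ≤ _ := h1
        _ ≤ _ := h2
        _ ≤ _ := h3
        _ = _ := by ring
    · have hcl := closure_on (F := F) (a := a) (R := R) (Rx := R x - e) (d := d) (k1 := k1)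
        (κ := κ) (s := s) (lam := lam) hax' hF0 hd0 hk1 hκ hs hs1 hlam l
        (fun y hy => hFa h y (hl y hy)) hsum hd
        (fun h1 h2 h3 => by have := hnear h1 h2 h3; linarith) (by linarith)
      have h3 : 0 ≤ (1 + ρ) ^ h * (1 + c + κ₁ * (h : ℝ)) := by positivity
      have h2 : (l.map fun y => R y + lam * Phi F a y).sum
          ≤ (1 + ρ) ^ h * (1 + c + κ₁ * h) * (l.map V).sum := by
        clear hcl hVm hsum hd hnear hall
        induction l with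
        | nil => simp
        | cons y l ihl =>
          simp only [List.map_cons, List.sum_cons]
          have h5 := ih y (hl y (by simp))
          have h6 := ihl fun z hz => hl z (by simp [hz])
          nlinarith
      have h4 := mul_le_mul_of_nonneg_left hVm h3
      have h5 : κ * F x' + (2 * lam + k1 / s) * d + (e + lam * (Phi F a x - Phi F a x'))
          ≤ κ₁ * V x := by
        calc κ * F x' + (2 * lam + k1 / s) * d + (e + lam * (Phi F a x - Phi F a x'))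
            ≤ κ * (CF * V x) + (2 * lam + k1 / s) * (kd * V x) + κe * V x :=
              add_le_add (add_le_add (mul_le_mul_of_nonneg_left hFV hκ)
                (mul_le_mul_of_nonneg_left hdV hq)) he
          _ = (κ * CF + (2 * lam + k1 / s) * kd + κe) * V x := by ring
          _ ≤ _ := mul_le_mul_of_nonneg_right hκ₁ hV
      have h5' : κ₁ * V x ≤ (1 + ρ) ^ (h + 1) * (κ₁ * V x) :=
        le_mul_of_one_le_left (mul_nonneg hκ₁0 hV) hpow
      have h6 : Phi F a x' = a x' ^ 2 / F x' + 2 * F x' := rfl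
      rw [← h6] at hcl
      rw [hcast]
      calc R x + lam * Phi F a x
          = R x - e + lam * Phi F a x' + (e + lam * (Phi F a x - Phi F a x')) := by ring
        _ ≤ (1 + ρ) ^ h * (1 + c + κ₁ * (h : ℝ)) * ((1 + ρ) * V x)
            + (1 + ρ) ^ (h + 1) * (κ₁ * V x) := by linarith
        _ = _ := by ring

/-- `PotR644.epoch_bound_dist` on one state type with a domain -/
theorem epoch_ok_dist {Ok : ℕ → σ → Prop} {F a R V : σ → ℝ}
    {k1 κ s lam c CF kd κe r κ₁ ρ : ℝ}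
    (hFa : ∀ h y, Ok h y → |a y| ≤ F y) (hV0 : ∀ h y, Ok h y → 0 ≤ V y)
    (hk1 : 0 ≤ k1) (hκ : 0 ≤ κ) (hs : 0 < s) (hs1 : s ≤ 1) (hc : 0 ≤ c) (hρ : 0 ≤ ρ)
    (hlam : k1 * (1 + s ^ 2) ≤ lam * s ^ 2)
    (hκ₁ : κ * CF + (2 * lam + k1 / s) * kd + (κe + 5 * lam * r) ≤ κ₁) (hκ₁0 : 0 ≤ κ₁)
    (hleaf : ∀ x, Ok 0 x → R x + lam * Phi F a x ≤ (1 + c) * V x)
    (hstep : ∀ h x, Ok (h + 1) x →
      R x + lam * Phi F a x ≤ (1 + c) * V x ∨
      ∃ x' : σ, ∃ l : List σ, ∃ d e : ℝ,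
        (∀ y ∈ l, Ok h y) ∧ |a x'| ≤ F x' ∧
        (l.map V).sum ≤ (1 + ρ) * V x ∧
        0 < F x ∧ 0 < F x' ∧ F x' ≤ CF * V x ∧
        0 ≤ d ∧ d ≤ kd * V x ∧ e ≤ κe * V x ∧
        |a x - a x'| ≤ r * V x ∧ |F x - F x'| ≤ r * V x ∧
        (l.map a).sum = a x' ∧
        F x' ≤ (l.map F).sum + d ∧
        (En F a (a x' / F x') l ≤ s ^ 2 * F x' →
          (l.map F).sum - F x' ≤ s * F x' → d ≤ s * F x' →
          R x ≤ (l.map R).sum + κ * F x' + e) ∧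
        R x ≤ (l.map R).sum + k1 * (F x' + max ((l.map F).sum - F x') 0) + e)
    (h : ℕ) (x : σ) (hx : Ok h x) :
    R x + lam * Phi F a x ≤ (1 + ρ) ^ h * (1 + c + κ₁ * h) * V x := by
  have hs2 : (0 : ℝ) < s ^ 2 := by positivity
  have hlk : k1 ≤ lam := by
    by_contra h
    push Not at h
    nlinarith [mul_lt_mul_of_pos_right h hs2]
  have hlam0 : 0 ≤ lam := hk1.trans hlk
  refine epoch_ok_round hFa hV0 hk1 hκ hs hs1 hc hρ hlam hκ₁ hκ₁0 hleaf ?_ h x hx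
  intro h x hx
  rcases hstep h x hx with h1 | ⟨x', l, d, e, hl, hax', hVm, hFx, hF0, hFV, hd0, hdV, he, har,
    hFr, hsum, hd, hnear, hall⟩
  · exact Or.inl h1
  · refine Or.inr ⟨x', l, d, e, hl, hax', hVm, hF0, hFV, hd0, hdV, ?_, hsum, hd, hnear, hall⟩
    have h2 := Phi_sub_le (F := F) (a := a) (F' := F) (a' := a) (x := x) (x' := x') hFx hF0
      (hFa _ _ hx)
    have h3 : Phi F a x - Phi F a x' ≤ 5 * (r * V x) := by linarith
    have h4 := mul_le_mul_of_nonneg_left h3 hlam0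
    linarith

/-- the bound for `R` alone, uniform in `h ≤ H` -/
theorem epoch_ok {Ok : ℕ → σ → Prop} {F a R V : σ → ℝ}
    {k1 κ s lam c CF kd κe r κ₁ ρ θ : ℝ} {H : ℕ}
    (hFa : ∀ h y, Ok h y → |a y| ≤ F y) (hV0 : ∀ h y, Ok h y → 0 ≤ V y)
    (hk1 : 0 ≤ k1) (hκ : 0 ≤ κ) (hs : 0 < s) (hs1 : s ≤ 1) (hc : 0 ≤ c) (hρ : 0 ≤ ρ)
    (hlam : k1 * (1 + s ^ 2) ≤ lam * s ^ 2)
    (hκ₁ : κ * CF + (2 * lam + k1 / s) * kd + (κe + 5 * lam * r) ≤ κ₁) (hκ₁0 : 0 ≤ κ₁)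
    (hθ : (1 + ρ) ^ H ≤ 1 + θ)
    (hleaf : ∀ x, Ok 0 x → R x + lam * Phi F a x ≤ (1 + c) * V x)
    (hstep : ∀ h x, Ok (h + 1) x →
      R x + lam * Phi F a x ≤ (1 + c) * V x ∨
      ∃ x' : σ, ∃ l : List σ, ∃ d e : ℝ,
        (∀ y ∈ l, Ok h y) ∧ |a x'| ≤ F x' ∧
        (l.map V).sum ≤ (1 + ρ) * V x ∧
        0 < F x ∧ 0 < F x' ∧ F x' ≤ CF * V x ∧
        0 ≤ d ∧ d ≤ kd * V x ∧ e ≤ κe * V x ∧
        |a x - a x'| ≤ r * V x ∧ |F x - F x'| ≤ r * V x ∧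
        (l.map a).sum = a x' ∧
        F x' ≤ (l.map F).sum + d ∧
        (En F a (a x' / F x') l ≤ s ^ 2 * F x' →
          (l.map F).sum - F x' ≤ s * F x' → d ≤ s * F x' →
          R x ≤ (l.map R).sum + κ * F x' + e) ∧
        R x ≤ (l.map R).sum + k1 * (F x' + max ((l.map F).sum - F x') 0) + e)
    (h : ℕ) (hh : h ≤ H) (x : σ) (hx : Ok h x) :
    R x ≤ (1 + θ) * (1 + c + κ₁ * H) * V x := by
  have key := epoch_ok_dist hFa hV0 hk1 hκ hs hs1 hc hρ hlam hκ₁ hκ₁0 hleaf hstep h x hx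
  have hs2 : (0 : ℝ) < s ^ 2 := by positivity
  have hlk : k1 ≤ lam := by
    by_contra h
    push Not at h
    nlinarith [mul_lt_mul_of_pos_right h hs2]
  have hlam0 : 0 ≤ lam := hk1.trans hlk
  have hP : 0 ≤ Phi F a x := by
    have h0 : 0 ≤ F x := (abs_nonneg _).trans (hFa h x hx)
    exact add_nonneg (div_nonneg (sq_nonneg _) h0) (by linarith)
  have h1 : (1 + ρ) ^ h ≤ 1 + θ := (pow_le_pow_right₀ (by linarith) hh).trans hθ
  have h2 : (1 + c + κ₁ * (h : ℝ)) ≤ 1 + c + κ₁ * H := by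
    have : (h : ℝ) ≤ H := by exact_mod_cast hh
    nlinarith
  have h3 : 0 ≤ 1 + c + κ₁ * (h : ℝ) := by positivity
  have h4 : (0 : ℝ) ≤ (1 + ρ) ^ h := by positivity
  have h5 : (1 + ρ) ^ h * (1 + c + κ₁ * (h : ℝ)) ≤ (1 + θ) * (1 + c + κ₁ * H) :=
    mul_le_mul h1 h2 h3 (h4.trans h1)
  have h6 := mul_le_mul_of_nonneg_right h5 (hV0 h x hx)
  have h7 := mul_nonneg hlam0 hP
  linarith

end Crest.Agent.R288.PotS644
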