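import Crest.Agent.R288.PotP_245

/-!
# R288: the epoch theorem of ALG-U, `V = G + C0` form (directives 4672, 4813; posts 4732, 4794, 4796)

`epoch_bound_rho` of `PotP_245` with a domain predicate `Ok` (the finite closed domain of states), and
with the three kinds of states of ALG-U:

* leaf state (any macro height): `R ≤ V`; otherwise the state `x` is read through a state `x'` of the
  grid (`R x ≤ R x' + κ3 V x`, `Φ x ≤ Φ x' + κ3 V x`, `Phi_near`), and `x'` is one of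
* leaf for BODY: `R ≤ V + κ F`;
* retired: `(1 - 4δ) F ≤ |a|`, `R ≤ (1 + b) F`;
* active: a staircase `m` (pieces not rounded) with `∑ V(y_j) ≤ (1+ρ) V(x)`, `F(x) ≤ ∑ F(y_j) + d`, `d ≤ kd V(x)`,
  `near` : `En ≤ s² F → ∑ F(y_j) - F ≤ s F → d ≤ s F → R ≤ ∑ R(y_j) + κ F(x)`,
  `far`  : `R ≤ ∑ R(y_j) + k1 F(x) + kK ∑ F(y_j)`.

* `EpochV.main` : **`R + λ Φ ≤ (1+ρ)^h (1 + c + κ₁ h) V`**, `c ≥ 3 λ CF`, `1 + c ≥ (1+b+3λ)(1+5δ)`;
* `EpochV.le`   : **`R ≤ (a₀ + q1 CF + q2 kd + q3 κ3) V`** for `h ≤ H`;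
* `near_of_or` : the disjunction near / far / large defect gives the `near` line;
* `defect_add`, `sumV_le`, `Phi_near` : how to get `d`, `∑ V ≤ (1+ρ) V`, the rounding of `Φ`;
* `chainV` : `B (e+2) ≤ a + q1 B (e+1) + q2 B e`  ⟹  `B e ≤ a / (1 - q1 - q2) + (q1+q2)^(e/2) c`.
-/

set_option autoImplicit false

namespace Crest.Agent.R288.PotV245

open Crest.Agent.R288.PotF245 Crest.Agent.R288.PotA245 Crest.Agent.R288.PotP245

universe u v

section sub

variable {α : Type u} {Ok : α → Prop}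

/-- a list in the domain, as a list of the subtype -/
def toSub (l : List α) (hl : ∀ y ∈ l, Ok y) : List {y : α // Ok y} :=
  l.attach.map fun y => ⟨y.1, hl y.1 y.2⟩

theorem map_toSub {β : Type*} (l : List α) (hl : ∀ y ∈ l, Ok y) (f : α → β) :
    (toSub l hl).map (fun y => f y.1) = l.map f := by
  unfold toSub
  rw [List.map_map]
  exact List.attach_map_val (f := f)

theorem En_toSub (l : List α) (hl : ∀ y ∈ l, Ok y) (F a : α → ℝ) (θ : ℝ) :
    En (fun y : {y : α // Ok y} => F y.1) (fun y => a y.1) θ (toSub l hl) = En F a θ l := by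
  unfold En
  exact congrArg List.sum (map_toSub l hl fun y => F y * (a y / F y - θ) ^ 2)

end sub

variable {S : ℕ → Type u} {M : ∀ h, S (h + 1) → Type v}

/-- `epoch_bound_rho` with a domain predicate. -/
theorem epoch_bound_ok (pc : ∀ h (x : S (h + 1)), M h x → List (S h)) (Ok : ∀ h, S h → Prop)
    {F a R V : ∀ h, S h → ℝ} {k1 κ s lam c CF kd κ₁ ρ : ℝ}
    (hFa : ∀ h y, Ok h y → |a h y| ≤ F h y) (hV0 : ∀ h y, Ok h y → 0 ≤ V h y)
    (hk1 : 0 ≤ k1) (hκ : 0 ≤ κ) (hs : 0 < s) (hs1 : s ≤ 1) (hc : 0 ≤ c) (hρ : 0 ≤ ρ)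
    (hlam : k1 * (1 + s ^ 2) ≤ lam * s ^ 2) (hκ₁ : κ * CF + (2 * lam + k1 / s) * kd ≤ κ₁)
    (hκ₁0 : 0 ≤ κ₁)
    (hleaf : ∀ x, Ok 0 x → R 0 x + lam * Phi (F 0) (a 0) x ≤ (1 + c) * V 0 x)
    (hstep : ∀ h (x : S (h + 1)), Ok (h + 1) x →
      R (h + 1) x + lam * Phi (F (h + 1)) (a (h + 1)) x ≤ (1 + c) * V (h + 1) x ∨
      ∃ m : M h x, ∃ d : ℝ, (∀ y ∈ pc h x m, Ok h y) ∧
        ((pc h x m).map (V h)).sum ≤ (1 + ρ) * V (h + 1) x ∧
        0 < F (h + 1) x ∧ F (h + 1) x ≤ CF * V (h + 1) x ∧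
        0 ≤ d ∧ d ≤ kd * V (h + 1) x ∧
        ((pc h x m).map (a h)).sum = a (h + 1) x ∧
        F (h + 1) x ≤ ((pc h x m).map (F h)).sum + d ∧
        (En (F h) (a h) (a (h + 1) x / F (h + 1) x) (pc h x m) ≤ s ^ 2 * F (h + 1) x →
          ((pc h x m).map (F h)).sum - F (h + 1) x ≤ s * F (h + 1) x →
          d ≤ s * F (h + 1) x →
          R (h + 1) x ≤ ((pc h x m).map (R h)).sum + κ * F (h + 1) x) ∧
        R (h + 1) x ≤ ((pc h x m).map (R h)).sum
          + k1 * (F (h + 1) x + max (((pc h x m).map (F h)).sum - F (h + 1) x) 0)) (h : ℕ)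
    (x : S h) (hx : Ok h x) :
    R h x + lam * Phi (F h) (a h) x ≤ (1 + ρ) ^ h * (1 + c + κ₁ * h) * V h x := by
  have key := epoch_bound_rho (S := fun h => {x : S h // Ok h x})
    (M := fun h x => {m : M h x.1 // ∀ y ∈ pc h x.1 m, Ok h y})
    (fun h x m => toSub (pc h x.1 m.1) m.2)
    (F := fun h x => F h x.1) (a := fun h x => a h x.1) (R := fun h x => R h x.1)
    (V := fun h x => V h x.1) (k1 := k1) (κ := κ) (s := s) (lam := lam) (c := c) (CF := CF)
    (kd := kd) (κ₁ := κ₁) (ρ := ρ)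
    (fun h y => hFa h y.1 y.2) (fun h y => hV0 h y.1 y.2) hk1 hκ hs hs1 hc hρ hlam hκ₁ hκ₁0
    (fun x => hleaf x.1 x.2)
    (fun h x => by
      rcases hstep h x.1 x.2 with h1 | ⟨m, d, hok, hVm, hF0, hFV, hd0, hdV, hsum, hd, hn, ha⟩
      · exact Or.inl h1
      · refine Or.inr ⟨⟨m, hok⟩, d, ?_, hF0, hFV, hd0, hdV, ?_, ?_, ?_, ?_⟩
        · rw [map_toSub (pc h x.1 m) hok (V h)]; exact hVm
        · rw [map_toSub (pc h x.1 m) hok (a h)]; exact hsum
        · rw [map_toSub (pc h x.1 m) hok (F h)]; exact hd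
        · rw [map_toSub (pc h x.1 m) hok (F h), map_toSub (pc h x.1 m) hok (R h),
            En_toSub (pc h x.1 m) hok (F h) (a h)]
          exact hn
        · rw [map_toSub (pc h x.1 m) hok (F h), map_toSub (pc h x.1 m) hok (R h)]
          exact ha)
    h ⟨x, hx⟩
  exact key

/-- `Φ` changes by at most `2 t + 3 t'` if `a` changes by `t` and `F` by `t'`. -/
theorem Phi_near {α : Type*} {F a : α → ℝ} {x y : α} {t t' : ℝ} (hx : |a x| ≤ F x)
    (hx0 : 0 < F x) (hy0 : 0 < F y) (ht : |a x - a y| ≤ t)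
    (ht' : |F x - F y| ≤ t') : Phi F a x ≤ Phi F a y + (2 * t + 3 * t') := by
  have h1 := abs_le.1 hx
  have h3 := abs_le.1 ht
  have h4 := abs_le.1 ht'
  have e1 : a x ^ 2 / F x = (a x / F x) * a x := by ring
  set θ : ℝ := a x / F x with hθ
  have e2 : a x = θ * F x := by rw [hθ]; field_simp
  have hθ1 : θ ≤ 1 := by rw [hθ, div_le_one hx0]; exact h1.2
  have hθ2 : -1 ≤ θ := by rw [hθ, le_div_iff₀ hx0]; linarith [h1.1]
  have hθs : θ ^ 2 ≤ 1 := by nlinarith
  have e3 : 2 * θ * a y - θ ^ 2 * F y ≤ a y ^ 2 / F y := by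
    rw [le_div_iff₀ hy0]
    nlinarith [sq_nonneg (a y - θ * F y)]
  have e4 : θ * (a x - a y) ≤ t := by
    rcases le_total 0 (a x - a y) with h | h
    · nlinarith
    · nlinarith
  have e5 : θ ^ 2 * (F y - F x) ≤ t' := by
    rcases le_total 0 (F y - F x) with h | h
    · nlinarith
    · nlinarith [sq_nonneg θ]
  have e6 : θ * a x = θ ^ 2 * F x := by
    calc θ * a x = θ * (θ * F x) := by rw [← e2]
      _ = _ := by ring
  unfold Phi
  rw [e1]
  nlinarith

/-- What one epoch of ALG-U gives; window constants are relative to `F`, bounds relative to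
`V = G + C0`. A state `x` is either a leaf, or is read through a state `x'` of its grid (`x' = x`
allowed), which is a leaf for BODY, retired, or has a comparator staircase `m` (pieces not rounded). -/
structure EpochV (pc : ∀ h (x : S (h + 1)), M h x → List (S h)) (Ok : ∀ h, S h → Prop)
    (a G V F R : ∀ h, S h → ℝ) (CF kd b δ lam κ κ3 k1 kK s ρ : ℝ) : Prop where
  aG : ∀ h x, Ok h x → |a h x| ≤ G h x
  GF : ∀ h x, Ok h x → G h x ≤ F h x
  GV : ∀ h x, Ok h x → G h x ≤ V h x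
  FV : ∀ h x, Ok h x → F h x ≤ CF * V h x
  leaf : ∀ x, Ok 0 x → R 0 x ≤ V 0 x
  step : ∀ h (x : S (h + 1)), Ok (h + 1) x → R (h + 1) x ≤ V (h + 1) x ∨
    ∃ x' : S (h + 1), Ok (h + 1) x' ∧ V (h + 1) x' ≤ (1 + ρ) * V (h + 1) x ∧
      R (h + 1) x ≤ R (h + 1) x' + κ3 * V (h + 1) x ∧
      Phi (F (h + 1)) (a (h + 1)) x ≤ Phi (F (h + 1)) (a (h + 1)) x' + κ3 * V (h + 1) x ∧
      (R (h + 1) x' ≤ V (h + 1) x' + κ * F (h + 1) x' ∨
      ((1 - 4 * δ) * F (h + 1) x' ≤ |a (h + 1) x'| ∧ R (h + 1) x' ≤ (1 + b) * F (h + 1) x') ∨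
      ∃ m : M h x', ∃ d : ℝ, (∀ y ∈ pc h x' m, Ok h y) ∧
        ((pc h x' m).map (V h)).sum ≤ (1 + ρ) * V (h + 1) x ∧
        0 < F (h + 1) x' ∧ 0 ≤ d ∧ d ≤ kd * V (h + 1) x ∧
        ((pc h x' m).map (a h)).sum = a (h + 1) x' ∧
        F (h + 1) x' ≤ ((pc h x' m).map (F h)).sum + d ∧
        (En (F h) (a h) (a (h + 1) x' / F (h + 1) x') (pc h x' m) ≤ s ^ 2 * F (h + 1) x' →
          ((pc h x' m).map (F h)).sum - F (h + 1) x' ≤ s * F (h + 1) x' →
          d ≤ s * F (h + 1) x' →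
          R (h + 1) x' ≤ ((pc h x' m).map (R h)).sum + κ * F (h + 1) x') ∧
        R (h + 1) x' ≤ ((pc h x' m).map (R h)).sum + k1 * F (h + 1) x'
          + kK * ((pc h x' m).map (F h)).sum)
  hCF : 0 ≤ CF
  hkd : 0 ≤ kd
  hb : 0 ≤ b
  hδ : 0 ≤ δ
  hδ' : δ ≤ 1 / 20
  hκ : 0 ≤ κ
  hκ3 : 0 ≤ κ3
  hk1 : 0 ≤ k1
  hkK : 0 ≤ kK
  hs : 0 < s
  hs1 : s ≤ 1
  hρ : 0 ≤ ρ
  hlam : (k1 + kK) * (1 + s ^ 2) ≤ lam * s ^ 2

variable {pc : ∀ h (x : S (h + 1)), M h x → List (S h)} {Ok : ∀ h, S h → Prop}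
  {a G V F R : ∀ h, S h → ℝ} {CF kd b δ lam κ κ3 k1 kK s ρ : ℝ}

theorem EpochV.lam0 (E : EpochV pc Ok a G V F R CF kd b δ lam κ κ3 k1 kK s ρ) : 0 ≤ lam := by
  have hs2 : (0 : ℝ) < s ^ 2 := pow_pos E.hs 2
  have h1 : 0 ≤ (k1 + kK) * (1 + s ^ 2) :=
    mul_nonneg (add_nonneg E.hk1 E.hkK) (by positivity)
  by_contra h
  push Not at h
  have := mul_neg_of_neg_of_pos h hs2
  linarith [E.hlam]

/-- **The epoch theorem of ALG-U.** -/
theorem EpochV.main (E : EpochV pc Ok a G V F R CF kd b δ lam κ κ3 k1 kK s ρ) {c κ₁ : ℝ}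
    (hc1 : 3 * lam * CF ≤ c) (hc2 : (1 + b + 3 * lam) * (1 + 5 * δ) ≤ 1 + c)
    (hκ₁ : κ * CF * (1 + ρ) + (2 * lam + (k1 + kK) / s) * kd + (1 + lam) * κ3 ≤ κ₁) :
    ∀ (h : ℕ) (x : S h), Ok h x →
    R h x + lam * Phi (F h) (a h) x ≤ (1 + ρ) ^ h * (1 + c + κ₁ * h) * V h x := by
  have hl := E.lam0
  have hG0 : ∀ h x, Ok h x → 0 ≤ G h x := fun h x hx => (abs_nonneg _).trans (E.aG h x hx)
  have hV0 : ∀ h x, Ok h x → 0 ≤ V h x := fun h x hx => (hG0 h x hx).trans (E.GV h x hx)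
  have hF0 : ∀ h x, Ok h x → 0 ≤ F h x := fun h x hx => (hG0 h x hx).trans (E.GF h x hx)
  have haF : ∀ h x, Ok h x → |a h x| ≤ F h x := fun h x hx => (E.aG h x hx).trans (E.GF h x hx)
  have hPhi : ∀ h x, Ok h x → Phi (F h) (a h) x ≤ 3 * F h x := by
    intro h x hx
    have h1 := haF h x hx
    have h0 := hF0 h x hx
    unfold Phi
    rcases h0.eq_or_lt with h2 | h2
    · rw [← h2]; simp
    · have h3 : a h x ^ 2 ≤ F h x ^ 2 := by
        rw [← sq_abs]
        exact pow_le_pow_left₀ (abs_nonneg _) h1 2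
      have h4 : a h x ^ 2 / F h x ≤ F h x := by
        rw [div_le_iff₀ h2]
        nlinarith
      linarith
  have hkk : 0 ≤ k1 + kK := add_nonneg E.hk1 E.hkK
  have hρ := E.hρ
  have hκ := E.hκ
  have hκ3 := E.hκ3
  have hCF := E.hCF
  have hkd := E.hkd
  have hq : 0 ≤ 2 * lam + (k1 + kK) / s := add_nonneg (by linarith) (div_nonneg hkk E.hs.le)
  have hκ₁0 : 0 ≤ κ₁ := le_trans (by positivity) hκ₁
  have hqd : 0 ≤ (2 * lam + (k1 + kK) / s) * kd := mul_nonneg hq hkd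
  have hc : 0 ≤ c := le_trans (by positivity) hc1
  have hρ1 : (1 : ℝ) ≤ 1 + ρ := by linarith
  have hlf : ∀ h x, Ok h x → R h x ≤ V h x →
      R h x + lam * Phi (F h) (a h) x ≤ (1 + c) * V h x := by
    intro h x hx hR
    have h1 := mul_le_mul_of_nonneg_left (hPhi h x hx) hl
    have h2 : lam * (3 * F h x) ≤ lam * (3 * (CF * V h x)) :=
      mul_le_mul_of_nonneg_left (by linarith [E.FV h x hx]) hl
    have h3 : 3 * lam * CF * V h x ≤ c * V h x := mul_le_mul_of_nonneg_right hc1 (hV0 h x hx)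
    nlinarith
  -- anything below `(1+ρ)(1+c) V + κ₁ V` is fine
  have hfin : ∀ (h : ℕ) (t v : ℝ), 0 ≤ v → t ≤ (1 + ρ) * ((1 + c) * v) + κ₁ * v →
      t ≤ (1 + ρ) ^ (h + 1) * (1 + c + κ₁ * ((h + 1 : ℕ) : ℝ)) * v := by
    intro h t v hv ht
    have hp1 : (1 + ρ) ≤ (1 + ρ) ^ (h + 1) := by
      calc (1 + ρ) = (1 + ρ) ^ 1 := (pow_one _).symm
        _ ≤ _ := pow_le_pow_right₀ hρ1 (by omega)
    have hp2 : (1 : ℝ) ≤ (1 + ρ) ^ (h + 1) := one_le_pow₀ hρ1
    have h1 : (1 + ρ) * ((1 + c) * v) ≤ (1 + ρ) ^ (h + 1) * ((1 + c) * v) :=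
      mul_le_mul_of_nonneg_right hp1 (by positivity)
    have h2 : κ₁ * v ≤ (1 + ρ) ^ (h + 1) * (κ₁ * ((h + 1 : ℕ) : ℝ) * v) := by
      have h3 : κ₁ * v ≤ κ₁ * ((h + 1 : ℕ) : ℝ) * v := by
        have h4 : (1 : ℝ) ≤ ((h + 1 : ℕ) : ℝ) := by push_cast; linarith [Nat.cast_nonneg (α := ℝ) h]
        have h5 : 0 ≤ κ₁ * v := by positivity
        nlinarith
      exact h3.trans (le_mul_of_one_le_left (by positivity) hp2)
    calc t ≤ _ := ht
      _ ≤ (1 + ρ) ^ (h + 1) * ((1 + c) * v) + (1 + ρ) ^ (h + 1) * (κ₁ * ((h + 1 : ℕ) : ℝ) * v) :=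
          add_le_add h1 h2
      _ = _ := by ring
  intro h
  induction h with
  | zero =>
    intro x hx
    simpa using hlf 0 x hx (E.leaf x hx)
  | succ h ih =>
    intro x hx
    have hV := hV0 _ x hx
    rcases E.step h x hx with hR | ⟨x', hx', hVx, hRx, hPx, halt⟩
    · refine hfin h _ _ hV ((hlf _ x hx hR).trans ?_)
      have h1 : 0 ≤ (1 + c) * V (h + 1) x := by positivity
      have h2 : 0 ≤ κ₁ * V (h + 1) x := by positivity
      nlinarith
    · have hV' := hV0 _ x' hx'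
      have hF' := hF0 _ x' hx'
      have hPx' := mul_le_mul_of_nonneg_left hPx hl
      have hX : R (h + 1) x + lam * Phi (F (h + 1)) (a (h + 1)) x
          ≤ R (h + 1) x' + lam * Phi (F (h + 1)) (a (h + 1)) x' + (1 + lam) * κ3 * V (h + 1) x := by
        linarith
      have hFx' : F (h + 1) x' ≤ CF * (1 + ρ) * V (h + 1) x := by
        calc F (h + 1) x' ≤ CF * V (h + 1) x' := E.FV _ x' hx'
          _ ≤ CF * ((1 + ρ) * V (h + 1) x) := mul_le_mul_of_nonneg_left hVx hCF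
          _ = _ := by ring
      have hκF : κ * F (h + 1) x' ≤ κ * CF * (1 + ρ) * V (h + 1) x := by
        calc κ * F (h + 1) x' ≤ κ * (CF * (1 + ρ) * V (h + 1) x) :=
              mul_le_mul_of_nonneg_left hFx' hκ
          _ = _ := by ring
      have hκV := mul_le_mul_of_nonneg_right hκ₁ hV
      have hqV : 0 ≤ (2 * lam + (k1 + kK) / s) * kd * V (h + 1) x := mul_nonneg hqd hV
      rcases halt with hR | ⟨hret, hR⟩ | ⟨m, d, hok, hVm, hF, hd0, hdV, hsum, hd, hn, hf⟩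
      · refine hfin h _ _ hV (hX.trans ?_)
        have h1 := mul_le_mul_of_nonneg_left (hPhi _ x' hx') hl
        have h2 : lam * (3 * F (h + 1) x') ≤ 3 * lam * CF * ((1 + ρ) * V (h + 1) x) := by
          calc lam * (3 * F (h + 1) x') = 3 * lam * F (h + 1) x' := by ring
            _ ≤ 3 * lam * (CF * (1 + ρ) * V (h + 1) x) :=
                mul_le_mul_of_nonneg_left hFx' (by linarith)
            _ = _ := by ring
        have h3 : 3 * lam * CF * ((1 + ρ) * V (h + 1) x) ≤ c * ((1 + ρ) * V (h + 1) x) :=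
          mul_le_mul_of_nonneg_right hc1 (by positivity)
        linarith
      · refine hfin h _ _ hV (hX.trans ?_)
        have h1 := mul_le_mul_of_nonneg_left (hPhi _ x' hx') hl
        have hδ := E.hδ
        have hb := E.hb
        have h2 : (1 - 4 * δ) * F (h + 1) x' ≤ (1 + ρ) * V (h + 1) x :=
          (hret.trans ((E.aG _ x' hx').trans (E.GV _ x' hx'))).trans hVx
        have h3 : 1 ≤ (1 + 5 * δ) * (1 - 4 * δ) := by
          have := E.hδ'
          nlinarith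
        have h4 : F (h + 1) x' ≤ (1 + 5 * δ) * ((1 + ρ) * V (h + 1) x) := by
          calc F (h + 1) x' ≤ (1 + 5 * δ) * (1 - 4 * δ) * F (h + 1) x' :=
                le_mul_of_one_le_left hF' h3
            _ = (1 + 5 * δ) * ((1 - 4 * δ) * F (h + 1) x') := by ring
            _ ≤ _ := mul_le_mul_of_nonneg_left h2 (by linarith)
        have h5 : (1 + b + 3 * lam) * F (h + 1) x'
            ≤ (1 + b + 3 * lam) * (1 + 5 * δ) * ((1 + ρ) * V (h + 1) x) := by
          calc (1 + b + 3 * lam) * F (h + 1) x'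
              ≤ (1 + b + 3 * lam) * ((1 + 5 * δ) * ((1 + ρ) * V (h + 1) x)) :=
                mul_le_mul_of_nonneg_left h4 (by linarith)
            _ = _ := by ring
        have h6 : (1 + b + 3 * lam) * (1 + 5 * δ) * ((1 + ρ) * V (h + 1) x)
            ≤ (1 + c) * ((1 + ρ) * V (h + 1) x) :=
          mul_le_mul_of_nonneg_right hc2 (by positivity)
        have h7 : 0 ≤ κ * CF * (1 + ρ) * V (h + 1) x := by positivity
        linarith
      · -- active
        have hcast : ((h + 1 : ℕ) : ℝ) = h + 1 := by push_cast; ring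
        have hfar : R (h + 1) x' ≤ ((pc h x' m).map (R h)).sum
            + (k1 + kK) * (F (h + 1) x'
              + max (((pc h x' m).map (F h)).sum - F (h + 1) x') 0) := by
          have h1 : ((pc h x' m).map (F h)).sum
              ≤ F (h + 1) x' + max (((pc h x' m).map (F h)).sum - F (h + 1) x') 0 := by
            have := le_max_left (((pc h x' m).map (F h)).sum - F (h + 1) x') 0
            linarith
          have h2 := mul_le_mul_of_nonneg_left h1 E.hkK
          have h3 : 0 ≤ k1 * max (((pc h x' m).map (F h)).sum - F (h + 1) x') 0 :=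
            mul_nonneg E.hk1 (le_max_right _ _)
          linarith
        have hcl : R (h + 1) x' + lam * Phi (F (h + 1)) (a (h + 1)) x'
            ≤ ((pc h x' m).map fun y => R h y + lam * Phi (F h) (a h) y).sum
              + (κ * F (h + 1) x' + (2 * lam + (k1 + kK) / s) * d) := by
          have h9 := closure' (α := {y : S h // Ok h y}) (R := fun y => R h y.1)
            (F := fun y => F h y.1) (a := fun y => a h y.1) (fun y => haF h y.1 y.2)
            (Rx := R (h + 1) x') (d := d) (k1 := k1 + kK) (κ := κ)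
            (s := s) (lam := lam) (haF (h + 1) x' hx') hF hd0 hkk hκ E.hs E.hs1 E.hlam
            (toSub (pc h x' m) hok)
            (by rw [map_toSub (pc h x' m) hok (a h)]; exact hsum)
            (by rw [map_toSub (pc h x' m) hok (F h)]; exact hd)
            (by
              rw [map_toSub (pc h x' m) hok (F h), map_toSub (pc h x' m) hok (R h),
                En_toSub (pc h x' m) hok (F h) (a h)]
              exact hn)
            (by
              rw [map_toSub (pc h x' m) hok (F h), map_toSub (pc h x' m) hok (R h)]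
              exact hfar)
          have h10 : ((toSub (pc h x' m) hok).map fun y => R h y.1 + lam * Phi (fun y : {y : S h // Ok h y} => F h y.1)
              (fun y => a h y.1) y).sum
              = ((pc h x' m).map fun y => R h y + lam * Phi (F h) (a h) y).sum :=
            congrArg List.sum (map_toSub (pc h x' m) hok fun y => R h y + lam * Phi (F h) (a h) y)
          rw [h10] at h9
          exact h9
        have h3 : 0 ≤ (1 + ρ) ^ h * (1 + c + κ₁ * (h : ℝ)) := by positivity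
        have h2 : ((pc h x' m).map fun y => R h y + lam * Phi (F h) (a h) y).sum
            ≤ (1 + ρ) ^ h * (1 + c + κ₁ * h) * ((pc h x' m).map (V h)).sum := by
          clear hcl hfar hn hf hd hsum hVm
          generalize pc h x' m = l at hok ⊢
          induction l with
          | nil => simp
          | cons y l ihl =>
            simp only [List.map_cons, List.sum_cons]
            have h4 := ih y (hok y (by simp))
            have h5 := ihl fun z hz => hok z (by simp [hz])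
            nlinarith
        have h4 := mul_le_mul_of_nonneg_left hVm h3
        have h5 : (2 * lam + (k1 + kK) / s) * d ≤ (2 * lam + (k1 + kK) / s) * kd * V (h + 1) x := by
          calc (2 * lam + (k1 + kK) / s) * d
              ≤ (2 * lam + (k1 + kK) / s) * (kd * V (h + 1) x) := mul_le_mul_of_nonneg_left hdV hq
            _ = _ := by ring
        have h6 : κ₁ * V (h + 1) x ≤ (1 + ρ) ^ (h + 1) * (κ₁ * V (h + 1) x) :=
          le_mul_of_one_le_left (mul_nonneg hκ₁0 hV) (one_le_pow₀ hρ1)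
        have h7 : (1 + ρ) ^ h * (1 + c + κ₁ * (h : ℝ)) * ((1 + ρ) * V (h + 1) x)
            = (1 + ρ) ^ (h + 1) * (1 + c + κ₁ * (h : ℝ)) * V (h + 1) x := by ring
        rw [hcast]
        calc R (h + 1) x + lam * Phi (F (h + 1)) (a (h + 1)) x
            ≤ _ := hX
          _ ≤ (1 + ρ) ^ h * (1 + c + κ₁ * (h : ℝ)) * ((1 + ρ) * V (h + 1) x)
              + (1 + ρ) ^ (h + 1) * (κ₁ * V (h + 1) x) := by linarith
          _ = _ := by ring

/-- In particular `R ≤ B' V` on the domain, `B' = a₀ + q1 CF + q2 kd + q3 κ3`. -/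
theorem EpochV.le (E : EpochV pc Ok a G V F R CF kd b δ lam κ κ3 k1 kK s ρ) {H : ℕ}
    {a₀ q1 q2 q3 : ℝ}
    (ha : (1 + ρ) ^ H * ((1 + b + 3 * lam) * (1 + 5 * δ)) ≤ a₀)
    (hq1 : (1 + ρ) ^ H * (3 * lam + κ * (1 + ρ) * H) ≤ q1)
    (hq2 : (1 + ρ) ^ H * ((2 * lam + (k1 + kK) / s) * H) ≤ q2)
    (hq3 : (1 + ρ) ^ H * ((1 + lam) * H) ≤ q3) :
    ∀ h (x : S h), h ≤ H → Ok h x → R h x ≤ (a₀ + q1 * CF + q2 * kd + q3 * κ3) * V h x := by
  intro h x hh hx
  have hl := E.lam0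
  have hG : 0 ≤ G h x := (abs_nonneg _).trans (E.aG h x hx)
  have hV : 0 ≤ V h x := hG.trans (E.GV h x hx)
  have hF : 0 ≤ F h x := hG.trans (E.GF h x hx)
  have hb := E.hb
  have hδ := E.hδ
  have hCF := E.hCF
  have hkd := E.hkd
  have hκ := E.hκ
  have hκ3 := E.hκ3
  have hρ := E.hρ
  have hkk : 0 ≤ (k1 + kK) / s := div_nonneg (add_nonneg E.hk1 E.hkK) E.hs.le
  have h1 : 0 ≤ 3 * lam * CF := by positivity
  have h2 : 1 ≤ (1 + b + 3 * lam) * (1 + 5 * δ) := by nlinarith [mul_nonneg hl hδ, mul_nonneg hb hδ]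
  have hm := E.main (c := (1 + b + 3 * lam) * (1 + 5 * δ) - 1 + 3 * lam * CF)
    (κ₁ := κ * CF * (1 + ρ) + (2 * lam + (k1 + kK) / s) * kd + (1 + lam) * κ3)
    (by linarith) (by linarith) le_rfl h x hx
  have hP : 0 ≤ lam * Phi (F h) (a h) x :=
    mul_nonneg hl (by unfold Phi; positivity)
  have hpH : (1 + ρ) ^ h ≤ (1 + ρ) ^ H := pow_le_pow_right₀ (by linarith) hh
  have hhH : (h : ℝ) ≤ H := by exact_mod_cast hh
  have h4 : (1 + ρ) ^ h * (1 + ((1 + b + 3 * lam) * (1 + 5 * δ) - 1 + 3 * lam * CF)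
      + (κ * CF * (1 + ρ) + (2 * lam + (k1 + kK) / s) * kd + (1 + lam) * κ3) * h)
      ≤ a₀ + q1 * CF + q2 * kd + q3 * κ3 := by
    have h5 : (1 + ρ) ^ h * ((1 + b + 3 * lam) * (1 + 5 * δ)) ≤ a₀ :=
      (mul_le_mul_of_nonneg_right hpH (by linarith)).trans ha
    have h6 : (1 + ρ) ^ h * (3 * lam + κ * (1 + ρ) * h) ≤ q1 := by
      refine le_trans ?_ hq1
      gcongr
    have h7 : (1 + ρ) ^ h * ((2 * lam + (k1 + kK) / s) * h) ≤ q2 := by
      refine le_trans ?_ hq2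
      gcongr
    have h7' : (1 + ρ) ^ h * ((1 + lam) * h) ≤ q3 := by
      refine le_trans ?_ hq3
      gcongr
    have h8 := mul_le_mul_of_nonneg_right h6 hCF
    have h9 := mul_le_mul_of_nonneg_right h7 hkd
    have h9' := mul_le_mul_of_nonneg_right h7' hκ3
    calc _ = (1 + ρ) ^ h * ((1 + b + 3 * lam) * (1 + 5 * δ))
          + (1 + ρ) ^ h * (3 * lam + κ * (1 + ρ) * h) * CF
          + (1 + ρ) ^ h * ((2 * lam + (k1 + kK) / s) * h) * kd
          + (1 + ρ) ^ h * ((1 + lam) * h) * κ3 := by ring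
      _ ≤ _ := add_le_add (add_le_add (add_le_add h5 h8) h9) h9'
  have h10 := mul_le_mul_of_nonneg_right h4 hV
  linarith

/-- the three-way disjunction near / far / large defect, as the two lines of `EpochV.step`
(`k1' = k1`): if at this staircase one of
* `R ≤ ∑ R + κ F`,
* `s² F < En`, or `s F < ∑ F - F`, or `s F < d`
holds, then the `near` line holds. -/
theorem near_of_or {En' Fx SF d s Rx SR κ : ℝ}
    (h : Rx ≤ SR + κ * Fx ∨ s ^ 2 * Fx < En' ∨ s * Fx < SF - Fx ∨ s * Fx < d) :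
    En' ≤ s ^ 2 * Fx → SF - Fx ≤ s * Fx → d ≤ s * Fx → Rx ≤ SR + κ * Fx := by
  intro h1 h2 h3
  rcases h with h | h | h | h
  · exact h
  · exact absurd h (not_lt.2 h1)
  · exact absurd h (not_lt.2 h2)
  · exact absurd h (not_lt.2 h3)

/-- multiplicative (F3') of the comparator as an additive defect:
`F ≤ (1+ν)(∑ F + η S) + c4`, with `∑ F ≤ B (1+ρ) V`, `S ≤ B' V`, `c4 ≤ κ4 V`. -/
theorem defect_add {Fx SF Sx V ν η B B' ρ c4 κ4 : ℝ} (hν : 0 ≤ ν) (hη : 0 ≤ η)
    (hF : Fx ≤ (1 + ν) * (SF + η * Sx) + c4) (hSF : SF ≤ B * ((1 + ρ) * V)) (hSx : Sx ≤ B' * V)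
    (hc4 : c4 ≤ κ4 * V) :
    ∃ d, Fx ≤ SF + d ∧ d ≤ (ν * B * (1 + ρ) + (1 + ν) * η * B' + κ4) * V ∧
      d = ν * SF + (1 + ν) * η * Sx + c4 := by
  refine ⟨ν * SF + (1 + ν) * η * Sx + c4, by linarith, ?_, rfl⟩
  have h1 := mul_le_mul_of_nonneg_left hSF hν
  have h2 : (1 + ν) * η * Sx ≤ (1 + ν) * η * (B' * V) :=
    mul_le_mul_of_nonneg_left hSx (by positivity)
  linarith

/-- `∑ V ≤ (1+ρ) V(x)` for `V = G + C0` at an active state: `N` pieces, `∑ G ≤ G(x) + r`,
`r + N C0 ≤ ρ G(x)`. -/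
theorem sumV_le {α : Type*} (l : List α) (G : α → ℝ) {C0 Gx r ρ : ℝ} (hC : 0 ≤ C0) (hρ : 0 ≤ ρ)
    (hG : (l.map G).sum ≤ Gx + r) (hr : r + l.length * C0 ≤ ρ * Gx) :
    (l.map fun y => G y + C0).sum ≤ (1 + ρ) * (Gx + C0) := by
  have h1 : (l.map fun y => G y + C0).sum = (l.map G).sum + l.length * C0 := by
    clear hG hr
    induction l with
    | nil => simp
    | cons y l ih =>
      simp only [List.map_cons, List.sum_cons, ih, List.length_cons]
      push_cast
      ring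
  rw [h1]
  have h2 : 0 ≤ ρ * C0 := mul_nonneg hρ hC
  linarith

/-- two-step recursion of the factors -/
theorem chainV {B : ℕ → ℝ} {a q1 q2 c : ℝ} (h1 : 0 ≤ q1) (h2 : 0 ≤ q2) (hq : q1 + q2 < 1)
    (ha : 0 ≤ a) (hc0 : B 0 ≤ c) (hc1 : B 1 ≤ c) (hc : 0 ≤ c)
    (h : ∀ i, B (i + 2) ≤ a + q1 * B (i + 1) + q2 * B i) (i : ℕ) :
    B i ≤ a / (1 - (q1 + q2)) + (q1 + q2) ^ (i / 2) * c := by
  set κ := q1 + q2 with hκdef
  have hκ0 : 0 ≤ κ := add_nonneg h1 h2
  have hκ1 : 0 < 1 - κ := by linarith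
  have hA : 0 ≤ a / (1 - κ) := div_nonneg ha hκ1.le
  have hAe : a + κ * (a / (1 - κ)) = a / (1 - κ) := by field_simp; ring
  have key : ∀ n, B (2 * n) ≤ a / (1 - κ) + κ ^ n * c ∧
      B (2 * n + 1) ≤ a / (1 - κ) + κ ^ n * c := by
    intro n
    induction n with
    | zero => simp only [mul_zero, pow_zero, one_mul, zero_add]; constructor <;> linarith
    | succ n ih =>
      obtain ⟨i1, i2⟩ := ih
      have hz0 : 0 ≤ a / (1 - κ) + κ ^ n * c := by positivity
      have hz : a + κ * (a / (1 - κ) + κ ^ n * c) = a / (1 - κ) + κ ^ (n + 1) * c := by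
        rw [mul_add, ← add_assoc, hAe]; ring
      have hz1 : a / (1 - κ) + κ ^ (n + 1) * c ≤ a / (1 - κ) + κ ^ n * c := by
        have : κ ^ (n + 1) ≤ κ ^ n := pow_le_pow_of_le_one hκ0 (by linarith) (Nat.le_succ n)
        nlinarith
      generalize a / (1 - κ) + κ ^ n * c = z at *
      have e1 : B (2 * n + 2) ≤ a + κ * z := by
        have := h (2 * n)
        have t1 := mul_le_mul_of_nonneg_left i2 h1
        have t2 := mul_le_mul_of_nonneg_left i1 h2
        have t3 : κ * z = q1 * z + q2 * z := by rw [hκdef]; ring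
        linarith
      have e3 : B (2 * n + 3) ≤ a + κ * z := by
        have := h (2 * n + 1)
        have t1 := mul_le_mul_of_nonneg_left (e1.trans (hz.le.trans hz1)) h1
        have t2 := mul_le_mul_of_nonneg_left i2 h2
        have t3 : κ * z = q1 * z + q2 * z := by rw [hκdef]; ring
        linarith
      rw [hz] at e1 e3
      exact ⟨e1, e3⟩
  rcases Nat.even_or_odd' i with ⟨n, rfl | rfl⟩
  · have : 2 * n / 2 = n := by omega
    rw [this]
    exact (key n).1
  · have : (2 * n + 1) / 2 = n := by omega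
    rw [this]
    exact (key n).2

end Crest.Agent.R288.PotV245
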