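import Mathlib

/-!
# R288 / Pot_948 : LEMMA 288-948 "POTENTIAL" (post #4288)

One window of the relative (sparse) round.  `x` is a window start with promise `T`, difference of
the ends `D`, second function `F`; the pieces of a staircase have `T j`, `D j`, `F j`.

* `phi_sum` : exact identity for the potential `phi T D F = D²/T + F²/T + F + 27 T`.
* `potential` : the potential inequality (1).
* `closure_window` : the averaged cost plus `lam * phi` is a subsolution with defect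
  `kap' + 11 k²/sg²` (2).
* `Macro` : abstract macro tree; `Tnext_sub`, `Tnext_le`, `upper` : (3), (4).
-/

namespace Crest.Agent.R288.Pot948

open Finset

/-- the potential -/
noncomputable def phi (T D F : ℝ) : ℝ := D ^ 2 / T + F ^ 2 / T + F + 27 * T

theorem piece_id {t d c : ℝ} (a : ℝ) (hd : |d| ≤ c * t) :
    d ^ 2 / t = t * (d / t - a) ^ 2 + 2 * a * d - a ^ 2 * t := by
  rcases eq_or_ne t 0 with h | h
  · subst h
    have : d = 0 := by
      have := hd
      simp only [mul_zero] at this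
      exact abs_nonpos_iff.mp this
    subst this
    simp
  · field_simp
    ring

theorem phi_nonneg {T D F : ℝ} (hT : 0 ≤ T) (hF : 0 ≤ F) : 0 ≤ phi T D F := by
  unfold phi; positivity

/-- `phi ≤ 60 T` -/
theorem phi_le {T D F : ℝ} (hT : 0 ≤ T) (hD : |D| ≤ T) (hF : 0 ≤ F) (hF5 : F ≤ 5 * T) :
    phi T D F ≤ 60 * T := by
  unfold phi
  rcases hT.eq_or_lt with h | h
  · subst h
    have h1 : D = 0 := abs_nonpos_iff.mp hD
    have h2 : F = 0 := by linarith
    subst h1; subst h2; simp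
  · have h1 : D ^ 2 / T ≤ T := by
      rw [div_le_iff₀ h]
      have := sq_abs D
      nlinarith [abs_nonneg D]
    have h2 : F ^ 2 / T ≤ 25 * T := by
      rw [div_le_iff₀ h]
      nlinarith
    linarith

/-- the energy of a staircase `(T j, D j, F j)` below `(T0, D0, F0)` (in absolute units) -/
noncomputable def energy {ι : Type*} (s : Finset ι) (T0 D0 F0 : ℝ) (T D F : ι → ℝ) : ℝ :=
  ∑ j ∈ s, T j * (D j / T j - D0 / T0) ^ 2 + ∑ j ∈ s, T j * (F j / T j - F0 / T0) ^ 2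
    + (∑ j ∈ s, T j - T0) + max (∑ j ∈ s, F j - F0) 0

/-- exact identity -/
theorem phi_sum {ι : Type*} (s : Finset ι) {T0 D0 F0 : ℝ} {T D F : ι → ℝ}
    (hT0 : 0 < T0) (hD : ∀ j ∈ s, |D j| ≤ T j) (hF : ∀ j ∈ s, |F j| ≤ 5 * T j)
    (hsum : ∑ j ∈ s, D j = D0) :
    ∑ j ∈ s, phi (T j) (D j) (F j) = phi T0 D0 F0
      + ∑ j ∈ s, T j * (D j / T j - D0 / T0) ^ 2 + ∑ j ∈ s, T j * (F j / T j - F0 / T0) ^ 2
      + (2 * (F0 / T0) + 1) * (∑ j ∈ s, F j - F0)
      + (27 - (D0 / T0) ^ 2 - (F0 / T0) ^ 2) * (∑ j ∈ s, T j - T0) := by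
  have e1 : ∀ j ∈ s, phi (T j) (D j) (F j)
      = (T j * (D j / T j - D0 / T0) ^ 2 + 2 * (D0 / T0) * D j - (D0 / T0) ^ 2 * T j)
        + (T j * (F j / T j - F0 / T0) ^ 2 + 2 * (F0 / T0) * F j - (F0 / T0) ^ 2 * T j)
        + F j + 27 * T j := by
    intro j hj
    unfold phi
    rw [piece_id (c := 1) (D0 / T0) (by simpa using hD j hj),
      piece_id (c := 5) (F0 / T0) (hF j hj)]
  rw [Finset.sum_congr rfl e1]
  simp only [Finset.sum_add_distrib, Finset.sum_sub_distrib, ← Finset.mul_sum]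
  rw [hsum]
  unfold phi
  have h0 : T0 ≠ 0 := hT0.ne'
  generalize ∑ j ∈ s, T j * (D j / T j - D0 / T0) ^ 2 = S1
  generalize ∑ j ∈ s, T j * (F j / T j - F0 / T0) ^ 2 = S2
  field_simp
  ring

/-- **(1) potential inequality** -/
theorem potential {ι : Type*} (s : Finset ι) {T0 D0 F0 k : ℝ} {T D F : ι → ℝ}
    (hT0 : 0 < T0) (hD0 : |D0| ≤ T0) (hF0 : 0 ≤ F0) (hF05 : F0 ≤ 5 * T0)
    (hD : ∀ j ∈ s, |D j| ≤ T j) (hF : ∀ j ∈ s, |F j| ≤ 5 * T j)
    (hsum : ∑ j ∈ s, D j = D0) (hTsub : T0 ≤ ∑ j ∈ s, T j) (hk : 0 ≤ k)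
    (hFsub : F0 ≤ ∑ j ∈ s, F j + k * T0) :
    phi T0 D0 F0 + energy s T0 D0 F0 T D F - 11 * k * T0
      ≤ ∑ j ∈ s, phi (T j) (D j) (F j) := by
  rw [phi_sum s hT0 hD hF hsum (F0 := F0)]
  unfold energy
  set d := ∑ j ∈ s, F j - F0 with hd
  set r := ∑ j ∈ s, T j - T0 with hr
  have hr0 : 0 ≤ r := by rw [hr]; linarith
  have hdk : -(k * T0) ≤ d := by rw [hd]; linarith
  have hZ0 : 0 ≤ F0 / T0 := div_nonneg hF0 hT0.le
  have hZ5 : F0 / T0 ≤ 5 := by rw [div_le_iff₀ hT0]; linarith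
  have ha : (D0 / T0) ^ 2 ≤ 1 := by
    have : |D0 / T0| ≤ 1 := by
      rw [abs_div, abs_of_pos hT0, div_le_one hT0]; exact hD0
    have := sq_le_one_iff_abs_le_one (D0 / T0) |>.mpr this
    exact this
  have hZ2 : (F0 / T0) ^ 2 ≤ 25 := by nlinarith
  have h1 : r ≤ (27 - (D0 / T0) ^ 2 - (F0 / T0) ^ 2) * r := by
    nlinarith
  have h2 : max d 0 - 11 * k * T0 ≤ (2 * (F0 / T0) + 1) * d := by
    have hkT : 0 ≤ k * T0 := mul_nonneg hk hT0.le
    rcases le_total 0 d with h | h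
    · rw [max_eq_left h]
      nlinarith [mul_nonneg hZ0 h]
    · rw [max_eq_right h]
      have : (2 * (F0 / T0) + 1) * (-d) ≤ 11 * (k * T0) := by
        apply mul_le_mul <;> linarith
      nlinarith
  linarith

theorem energy_nonneg {ι : Type*} (s : Finset ι) {T0 D0 F0 : ℝ} {T D F : ι → ℝ}
    (hT : ∀ j ∈ s, 0 ≤ T j) (hTsub : T0 ≤ ∑ j ∈ s, T j) : 0 ≤ energy s T0 D0 F0 T D F := by
  unfold energy
  have h1 : 0 ≤ ∑ j ∈ s, T j * (D j / T j - D0 / T0) ^ 2 :=
    Finset.sum_nonneg fun j hj => mul_nonneg (hT j hj) (sq_nonneg _)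
  have h2 : 0 ≤ ∑ j ∈ s, T j * (F j / T j - F0 / T0) ^ 2 :=
    Finset.sum_nonneg fun j hj => mul_nonneg (hT j hj) (sq_nonneg _)
  have h3 := le_max_right (∑ j ∈ s, F j - F0) 0
  linarith

/-- **(2) closure, one window**: `A` is `X0 + (mu+k1) T`; near staircases (small energy) have
defect `kp * T0`, arbitrary ones `k * T0`; then `A + lam * phi`, `lam = k / sg²`, has defect
`(kp + 11 k² / sg²) T0` for ALL staircases. -/
theorem closure_window {ι : Type*} (s : Finset ι) {T0 D0 F0 A0 k kp sg : ℝ} {T D F A : ι → ℝ}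
    (hT0 : 0 < T0) (hD0 : |D0| ≤ T0) (hF0 : 0 ≤ F0) (hF05 : F0 ≤ 5 * T0)
    (hT : ∀ j ∈ s, 0 ≤ T j)
    (hD : ∀ j ∈ s, |D j| ≤ T j) (hF : ∀ j ∈ s, |F j| ≤ 5 * T j)
    (hsum : ∑ j ∈ s, D j = D0) (hTsub : T0 ≤ ∑ j ∈ s, T j) (hk : 0 ≤ k) (hkp : 0 ≤ kp)
    (hsg : 0 < sg)
    (hFsub : F0 ≤ ∑ j ∈ s, F j + k * T0)
    (hnear : energy s T0 D0 F0 T D F ≤ sg ^ 2 * T0 → A0 ≤ ∑ j ∈ s, A j + kp * T0)
    (hfar : A0 ≤ ∑ j ∈ s, A j + k * T0) :
    A0 + k / sg ^ 2 * phi T0 D0 F0
      ≤ ∑ j ∈ s, (A j + k / sg ^ 2 * phi (T j) (D j) (F j)) + (kp + 11 * k ^ 2 / sg ^ 2) * T0 := by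
  have hp := potential s hT0 hD0 hF0 hF05 hD hF hsum hTsub hk hFsub
  have he := energy_nonneg s (T0 := T0) (D0 := D0) (F0 := F0) (D := D) (F := F) hT hTsub
  have hs2 : 0 < sg ^ 2 := by positivity
  set lam := k / sg ^ 2 with hlam
  have hlam0 : 0 ≤ lam := div_nonneg hk hs2.le
  have hls : lam * sg ^ 2 = k := by rw [hlam]; field_simp
  have hkk : 11 * k ^ 2 / sg ^ 2 = 11 * lam * k := by rw [hlam]; field_simp
  rw [Finset.sum_add_distrib, ← Finset.mul_sum, hkk]
  set E := energy s T0 D0 F0 T D F with hE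
  have hp' : lam * phi T0 D0 F0 + lam * E - 11 * lam * k * T0
      ≤ lam * ∑ j ∈ s, phi (T j) (D j) (F j) := by
    have := mul_le_mul_of_nonneg_left hp hlam0
    nlinarith
  rcases le_or_gt E (sg ^ 2 * T0) with h | h
  · have := hnear h
    have : 0 ≤ lam * E := mul_nonneg hlam0 he
    nlinarith
  · have h3 : k * T0 ≤ lam * E := by
      have := mul_le_mul_of_nonneg_left h.le hlam0
      nlinarith
    have : 0 ≤ kp * T0 := mul_nonneg hkp hT0.le
    nlinarith

/-! ## the macro tree -/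

/-- `f` is a hard subsolution for the steps `step h x y` (from macro height `h+1` to `h`) -/
def IsSub {S ι : Type*} [Fintype ι] (step : ℕ → S → (ι → S) → Prop) (f : ℕ → S → ℝ) : Prop :=
  ∀ h x y, step h x y → f (h + 1) x ≤ ∑ j, f h (y j)

/-- `G` is the value: attained subsolution -/
def IsVal {S ι : Type*} [Fintype ι] (step : ℕ → S → (ι → S) → Prop) (G : ℕ → S → ℝ) : Prop :=
  ∀ h x, ∃ y, step h x y ∧ ∑ j, G h (y j) = G (h + 1) x

/-- a hard subsolution which is below `G` at the leaves is below `G` -/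
theorem IsSub.le_val {S ι : Type*} [Fintype ι] {step : ℕ → S → (ι → S) → Prop}
    {f G : ℕ → S → ℝ} (hf : IsSub step f) (hG : IsVal step G) (h0 : ∀ x, f 0 x ≤ G 0 x) :
    ∀ h x, f h x ≤ G h x := by
  intro h
  induction h with
  | zero => exact h0
  | succ h ih =>
    intro x
    obtain ⟨y, hy, e⟩ := hG h x
    calc f (h + 1) x ≤ ∑ j, f h (y j) := hf h x y hy
      _ ≤ ∑ j, G h (y j) := Finset.sum_le_sum fun j _ => ih (y j)
      _ = _ := e

theorem IsSub.max {S ι : Type*} [Fintype ι] {step : ℕ → S → (ι → S) → Prop}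
    {f g : ℕ → S → ℝ} (hf : IsSub step f) (hg : IsSub step g) :
    IsSub step (fun h x => max (f h x) (g h x)) := by
  intro h x y hy
  apply max_le
  · exact (hf h x y hy).trans (Finset.sum_le_sum fun j _ => le_max_left _ _)
  · exact (hg h x y hy).trans (Finset.sum_le_sum fun j _ => le_max_right _ _)

/-- data of one round -/
structure Round (S ι : Type*) [Fintype ι] where
  step : ℕ → S → (ι → S) → Prop
  /-- promise, difference of ends, second function, averaged cost of the last group (with the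
  summand `(mu+k1) T` included), value -/
  (T D F A G : ℕ → S → ℝ)
  Ret : ℕ → S → Prop
  (k kp sg c : ℝ)
  hT : ∀ h x, 0 ≤ T h x
  hTsub : IsSub step T
  hD : ∀ h x, |D h x| ≤ T h x
  hDsum : ∀ h x y, step h x y → ∑ j, D h (y j) = D (h + 1) x
  hF0 : ∀ h x, 0 ≤ F h x
  hF5 : ∀ h x, F h x ≤ 5 * T h x
  hFsub : ∀ h x y, step h x y → F (h + 1) x ≤ ∑ j, F h (y j) + k * T (h + 1) x
  hk : 0 ≤ k
  hkp : 0 ≤ kp
  hsg : 0 < sg
  hTA : ∀ h x, T h x ≤ A h x
  near : ∀ h x y, ¬ Ret (h + 1) x → 0 < T (h + 1) x → step h x y →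
    energy univ (T (h + 1) x) (D (h + 1) x) (F (h + 1) x) (fun j => T h (y j))
      (fun j => D h (y j)) (fun j => F h (y j)) ≤ sg ^ 2 * T (h + 1) x →
    A (h + 1) x ≤ ∑ j, A h (y j) + kp * T (h + 1) x
  far : ∀ h x y, ¬ Ret (h + 1) x → 0 < T (h + 1) x → step h x y →
    A (h + 1) x ≤ ∑ j, A h (y j) + k * T (h + 1) x
  hc0 : 0 ≤ c
  /-- at retired states (and at states with promise `0`) the cost is close to the promise -/
  ret : ∀ h x, Ret h x ∨ T h x = 0 → c * (A h x + k / sg ^ 2 * phi (T h x) (D h x) (F h x)) ≤ T h x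
  hval : IsVal step G
  leafT : ∀ x, T 0 x ≤ G 0 x
  leafA : ∀ x, c * (A 0 x + k / sg ^ 2 * phi (T 0 x) (D 0 x) (F 0 x)) ≤ G 0 x

namespace Round

variable {S ι : Type*} [Fintype ι] (R : Round S ι)

/-- the small coefficient -/
noncomputable def lam : ℝ := R.k / R.sg ^ 2

/-- averaged cost plus potential -/
noncomputable def X (h : ℕ) (x : S) : ℝ :=
  R.A h x + R.lam * phi (R.T h x) (R.D h x) (R.F h x)

/-- the defect -/
noncomputable def kq : ℝ := R.kp + 11 * R.k ^ 2 / R.sg ^ 2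

theorem lam_nonneg : 0 ≤ R.lam := div_nonneg R.hk (by have := R.hsg; positivity)

theorem kq_nonneg : 0 ≤ R.kq := by
  have := R.hkp; have := R.hk; have := R.hsg
  unfold kq; positivity

theorem T_le_X (h : ℕ) (x : S) : R.T h x ≤ R.X h x := by
  have h1 := R.hTA h x
  have h2 := mul_nonneg R.lam_nonneg (phi_nonneg (D := R.D h x) (R.hT h x) (R.hF0 h x))
  unfold X; linarith

theorem A_le_X (h : ℕ) (x : S) : R.A h x ≤ R.X h x := by
  have h2 := mul_nonneg R.lam_nonneg (phi_nonneg (D := R.D h x) (R.hT h x) (R.hF0 h x))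
  unfold X; linarith

theorem X_le (h : ℕ) (x : S) : R.X h x ≤ R.A h x + 60 * R.lam * R.T h x := by
  have h2 := mul_le_mul_of_nonneg_left (phi_le (R.hT h x) (R.hD h x) (R.hF0 h x) (R.hF5 h x))
    R.lam_nonneg
  unfold X; linarith

/-- **(2)** for every staircase -/
theorem X_step {h : ℕ} {x : S} {y : ι → S} (hR : ¬ R.Ret (h + 1) x) (hp : 0 < R.T (h + 1) x)
    (hy : R.step h x y) :
    R.X (h + 1) x ≤ ∑ j, R.X h (y j) + R.kq * R.T (h + 1) x := by
  have h1 := closure_window (univ : Finset ι) (T0 := R.T (h + 1) x) (D0 := R.D (h + 1) x)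
    (F0 := R.F (h + 1) x) (A0 := R.A (h + 1) x) (k := R.k) (kp := R.kp) (sg := R.sg)
    (T := fun j => R.T h (y j)) (D := fun j => R.D h (y j)) (F := fun j => R.F h (y j))
    (A := fun j => R.A h (y j)) hp (R.hD _ _) (R.hF0 _ _) (R.hF5 _ _)
    (fun j _ => R.hT _ _) (fun j _ => R.hD _ _)
    (fun j _ => by rw [abs_of_nonneg (R.hF0 _ _)]; exact R.hF5 _ _)
    (R.hDsum h x y hy) (R.hTsub h x y hy) R.hk R.hkp R.hsg (R.hFsub h x y hy)
    (R.near h x y hR hp hy) (R.far h x y hR hp hy)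
  exact h1

/-- the next promise before `max |u-v|` -/
noncomputable def Y (q : ℝ) (h : ℕ) (x : S) : ℝ :=
  if h = 0 then R.G 0 x else q ^ h * max (R.T h x) (R.c * R.X h x)

/-- `q` : any number in `[0,1]` with `q ≤ 1 - kq` -/
theorem Y_sub {q : ℝ} (hq0 : 0 ≤ q) (hq : q ≤ 1 - R.kq) : IsSub R.step (R.Y q) := by
  have hk0 := R.kq_nonneg
  have hq1 : q ≤ 1 := by linarith
  -- comparison with the uniform formula at height `h`
  have key : ∀ h x, q ^ h * max (R.T h x) (R.c * R.X h x) ≤ R.Y q h x := by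
    intro h x
    unfold Y
    split_ifs with h0
    · subst h0
      simp only [pow_zero, one_mul]
      exact max_le (R.leafT x) (R.leafA x)
    · exact le_refl _
  intro h x y hy
  have e : R.Y q (h + 1) x = q ^ (h + 1) * max (R.T (h + 1) x) (R.c * R.X (h + 1) x) := by
    unfold Y; simp
  rw [e]
  refine le_trans ?_ (Finset.sum_le_sum fun j _ => key h (y j))
  rw [← Finset.mul_sum]
  have hqh : 0 ≤ q ^ h := pow_nonneg hq0 h
  have hT1 : R.T (h + 1) x ≤ ∑ j, max (R.T h (y j)) (R.c * R.X h (y j)) :=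
    (R.hTsub h x y hy).trans (Finset.sum_le_sum fun j _ => le_max_left _ _)
  have hTq : q ^ (h + 1) * R.T (h + 1) x
      ≤ q ^ h * ∑ j, max (R.T h (y j)) (R.c * R.X h (y j)) := by
    rw [pow_succ, mul_assoc]
    apply mul_le_mul_of_nonneg_left _ hqh
    have := R.hT (h + 1) x
    nlinarith
  by_cases hR : R.Ret (h + 1) x ∨ R.T (h + 1) x = 0
  · have h1 := R.ret (h + 1) x hR
    have h2 : max (R.T (h + 1) x) (R.c * R.X (h + 1) x) = R.T (h + 1) x := by
      apply max_eq_left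
      unfold X lam; exact h1
    rw [h2]; exact hTq
  · push Not at hR
    have hp : 0 < R.T (h + 1) x := lt_of_le_of_ne (R.hT _ _) (Ne.symm hR.2)
    have hX := R.X_step hR.1 hp hy
    have hTX := R.T_le_X (h + 1) x
    rw [mul_max_of_nonneg _ _ (pow_nonneg hq0 _)]
    apply max_le hTq
    rw [pow_succ, mul_assoc]
    apply mul_le_mul_of_nonneg_left _ hqh
    have hXpos : 0 ≤ R.X (h + 1) x := by have := R.hT (h + 1) x; linarith
    have h3 : q * R.X (h + 1) x ≤ ∑ j, R.X h (y j) := by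
      have : R.kq * R.T (h + 1) x ≤ R.kq * R.X (h + 1) x := mul_le_mul_of_nonneg_left hTX hk0
      nlinarith
    calc q * (R.c * R.X (h + 1) x) = R.c * (q * R.X (h + 1) x) := by ring
      _ ≤ R.c * ∑ j, R.X h (y j) := mul_le_mul_of_nonneg_left h3 R.hc0
      _ = ∑ j, R.c * R.X h (y j) := by rw [Finset.mul_sum]
      _ ≤ _ := Finset.sum_le_sum fun j _ => le_max_right _ _

/-- `|D|` is a subsolution -/
theorem absD_sub : IsSub R.step (fun h x => |R.D h x|) := by
  intro h x y hy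
  show |R.D (h + 1) x| ≤ ∑ j, |R.D h (y j)|
  rw [← R.hDsum h x y hy]
  exact Finset.abs_sum_le_sum_abs _ _

/-- **the next promise** -/
noncomputable def Tnext (q : ℝ) (h : ℕ) (x : S) : ℝ := max (R.Y q h x) |R.D h x|

theorem Tnext_sub {q : ℝ} (hq0 : 0 ≤ q) (hq : q ≤ 1 - R.kq) : IsSub R.step (R.Tnext q) :=
  (R.Y_sub hq0 hq).max R.absD_sub

theorem Tnext_leaf (q : ℝ) (x : S) : R.Tnext q 0 x = R.G 0 x := by
  unfold Tnext Y
  simp only [if_true]
  exact max_eq_left ((R.hD 0 x).trans (R.leafT x))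

/-- **(4)** `Tnext ≤ G` -/
theorem Tnext_le {q : ℝ} (hq0 : 0 ≤ q) (hq : q ≤ 1 - R.kq) (h : ℕ) (x : S) :
    R.Tnext q h x ≤ R.G h x :=
  (R.Tnext_sub hq0 hq).le_val R.hval (fun x => (R.Tnext_leaf q x).le) h x

/-- lower bound by the averaged cost -/
theorem le_Tnext {q : ℝ} (hq0 : 0 ≤ q) (h : ℕ) (x : S) (hh : h ≠ 0) :
    q ^ h * (R.c * R.A h x) ≤ R.Tnext q h x := by
  unfold Tnext
  refine le_trans ?_ (le_max_left _ _)
  unfold Y
  rw [if_neg hh]
  apply mul_le_mul_of_nonneg_left _ (pow_nonneg hq0 h)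
  exact (mul_le_mul_of_nonneg_left (R.A_le_X h x) R.hc0).trans (le_max_right _ _)

/-- if the averaged cost is at least `b G` (honesty) then `Tnext ≥ q^h c b G`, also at leaves -/
theorem Tnext_lower {q b : ℝ} (hq0 : 0 ≤ q) (hcb : R.c * b ≤ 1)
    (hG : ∀ h x, 0 ≤ R.G h x) (hA : ∀ h x, b * R.G h x ≤ R.A h x) (h : ℕ) (x : S) :
    q ^ h * (R.c * b) * R.G h x ≤ R.Tnext q h x := by
  rcases eq_or_ne h 0 with h0 | h0
  · subst h0
    rw [R.Tnext_leaf]
    have := hG 0 x
    simp only [pow_zero, one_mul]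
    nlinarith
  · refine le_trans ?_ (R.le_Tnext hq0 h x h0)
    have h1 := mul_le_mul_of_nonneg_left (hA h x) R.hc0
    have h2 := mul_le_mul_of_nonneg_left h1 (pow_nonneg hq0 h)
    calc q ^ h * (R.c * b) * R.G h x = q ^ h * (R.c * (b * R.G h x)) := by ring
      _ ≤ _ := h2

/-- `|D| ≤ Tnext` -/
theorem absD_le_Tnext (q : ℝ) (h : ℕ) (x : S) : |R.D h x| ≤ R.Tnext q h x := le_max_right _ _

/-- `Tnext` is `1`-Lipschitz for any symmetric cost `dist` of moving the ends, if `T`, `|D|`, the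
leaf values are, and `c * X` is. -/
theorem Tnext_lip {q : ℝ} (hq0 : 0 ≤ q) (hq1 : q ≤ 1) (dist : S → S → ℝ)
    (hd0 : ∀ x x', 0 ≤ dist x x')
    (hT : ∀ h x x', R.T h x ≤ R.T h x' + dist x x')
    (hDl : ∀ h x x', |R.D h x| ≤ |R.D h x'| + dist x x')
    (hGl : ∀ x x', R.G 0 x ≤ R.G 0 x' + dist x x')
    (hX : ∀ h x x', R.c * R.X h x ≤ R.c * R.X h x' + dist x x') (h : ℕ) (x x' : S) :
    R.Tnext q h x ≤ R.Tnext q h x' + dist x x' := by
  unfold Tnext
  apply max_le
  · have : R.Y q h x ≤ R.Y q h x' + dist x x' := by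
      unfold Y
      split_ifs with h0
      · exact hGl x x'
      · have hqh0 : 0 ≤ q ^ h := pow_nonneg hq0 h
        have hqh1 : q ^ h ≤ 1 := pow_le_one₀ hq0 hq1
        have h1 : max (R.T h x) (R.c * R.X h x)
            ≤ max (R.T h x') (R.c * R.X h x') + dist x x' := by
          apply max_le
          · exact (hT h x x').trans (by gcongr; exact le_max_left _ _)
          · exact (hX h x x').trans (by gcongr; exact le_max_right _ _)
        have h2 := mul_le_mul_of_nonneg_left h1 hqh0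
        have h3 := hd0 x x'
        nlinarith
    exact this.trans (by gcongr; exact le_max_left _ _)
  · exact (hDl h x x').trans (by gcongr; exact le_max_right _ _)

/-- **(3) upper bound without comparator statistics**: if `W ≥ 0` is a supersolution-type
comparator value — at every non retired state with positive promise either `W` is attained by a
staircase or `W ≥ A`-type stop — then `X ≤ g * W + kq * (number of windows) * M` where
`M h x` bounds the `T`-mass. -/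
theorem upper {g : ℝ} {W M : ℕ → S → ℝ}
    (hstop : ∀ h x, (R.Ret h x ∨ R.T h x = 0 ∨ h = 0) → R.X h x ≤ g * W h x)
    (hM : ∀ h x, R.T h x ≤ M h x)
    (hW : ∀ h x, R.X (h + 1) x ≤ g * W (h + 1) x ∨
      ∃ y, R.step h x y ∧ ∑ j, W h (y j) ≤ W (h + 1) x ∧ ∑ j, M h (y j) ≤ M (h + 1) x)
    (hg : 0 ≤ g) (hM0 : ∀ h x, 0 ≤ M h x) :
    ∀ h x, R.X h x ≤ g * W h x + R.kq * h * M h x := by
  have hk0 := R.kq_nonneg
  intro h
  induction h with
  | zero =>
    intro x
    have := hstop 0 x (Or.inr (Or.inr rfl))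
    simpa using this
  | succ h ih =>
    intro x
    have hpos : 0 ≤ R.kq * ((h + 1 : ℕ) : ℝ) * M (h + 1) x := by
      have := hM0 (h + 1) x
      positivity
    by_cases hR : R.Ret (h + 1) x ∨ R.T (h + 1) x = 0
    · have := hstop (h + 1) x (by tauto)
      linarith
    · push Not at hR
      have hp : 0 < R.T (h + 1) x := lt_of_le_of_ne (R.hT _ _) (Ne.symm hR.2)
      rcases hW h x with h1 | ⟨y, hy, hWy, hMy⟩
      · linarith
      · have hX := R.X_step hR.1 hp hy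
        have h2 : ∑ j, R.X h (y j) ≤ ∑ j, (g * W h (y j) + R.kq * h * M h (y j)) :=
          Finset.sum_le_sum fun j _ => ih (y j)
        rw [Finset.sum_add_distrib, ← Finset.mul_sum, ← Finset.mul_sum] at h2
        have h3 := mul_le_mul_of_nonneg_left hWy hg
        have h4 : R.kq * h * ∑ j, M h (y j) ≤ R.kq * h * M (h + 1) x :=
          mul_le_mul_of_nonneg_left hMy (by positivity)
        have h5 : R.kq * R.T (h + 1) x ≤ R.kq * M (h + 1) x :=
          mul_le_mul_of_nonneg_left (hM _ _) hk0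
        push_cast
        nlinarith

end Round

end Crest.Agent.R288.Pot948
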