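import Crest.Agent.R288.PtK_966

/-!
# R288: the spawned numbers as a total certified function (helper966)

`spw'` = `spw`, `0` outside the spawned classes; certified as a function of (context, q, κ', z);
`bodyNum`, `modal`, `calm`, `numSt` do not see the difference.
-/

set_option autoImplicit false

namespace Crest.Agent.R288.PtS966

open Crest.Agent.Lib.PT Crest.Agent.R288.Alg45 Crest.Agent.R288.PtX949
  Crest.Agent.R288.StPT569 Crest.Agent.R288.PtSt966 Crest.Agent.R288.PtK966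

variable {γ : Type} [PTCode γ]

/-- `spw`, zero above the spawned classes -/
def spw' (P : Par) (κ : ℕ) (ks : List Key) (res : List (List ℕ)) (q κ' : ℕ) (z : St) : ℕ :=
  if κ' ≤ κ + P.du then spw P κ ks res q κ' z else 0

theorem spw'_of_le {P : Par} {κ : ℕ} {ks : List Key} {res : List (List ℕ)} {q κ' : ℕ} {z : St}
    (h : κ' ≤ κ + P.du) : spw' P κ ks res q κ' z = spw P κ ks res q κ' z := if_pos h

theorem ptf_spw' {P : γ → Par} {ks : γ → List Key} {res : γ → List (List ℕ)} {κ : γ → ℕ}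
    (hP : PTF P) (hκ : PTU κ) (hks : PTF ks) (hres : PTF res) :
    PTF (fun p : γ × ℕ × ℕ × St =>
      spw' (P p.1) (κ p.1) (ks p.1) (res p.1) p.2.1 p.2.2.1 p.2.2.2) := by
  have hk : PTU (fun p : γ × ℕ × ℕ × St => min p.2.2.1 (κ p.1 + (P p.1).du)) := by
    have h1 : PTU (fun p : γ × ℕ × ℕ × St => κ p.1 + (P p.1).du) := by fun_prop
    exact PtX949.ptu_min_left (by fun_prop) h1
  have h := ptf_spw (γ := γ × ℕ × ℕ × St) (P := fun p => P p.1) (ks := fun p => ks p.1)
    (res := fun p => res p.1) (q := fun p => p.2.1) (κ := fun p => κ p.1)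
    (κ' := fun p => min p.2.2.1 (κ p.1 + (P p.1).du)) (z := fun p => p.2.2.2)
    (by fun_prop) (by fun_prop) (by fun_prop) (by fun_prop) (by fun_prop) hk (by fun_prop)
    (fun p => min_le_right _ _)
  have h2 : PTPred (fun p : γ × ℕ × ℕ × St => p.2.2.1 ≤ κ p.1 + (P p.1).du) := by
    have := hκ.toPTF
    fun_prop
  refine PTF.of_eq (PTF.ite h2 h (PTF.const 0)) fun p => ?_
  unfold spw'
  by_cases h3 : p.2.2.1 ≤ κ p.1 + (P p.1).du
  · rw [if_pos h3, if_pos h3, min_eq_left h3]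
  · rw [if_neg h3, if_neg h3]

theorem numSt_congr {P : Par} {F : St → ℕ} {κ : ℕ} {f f' : ℕ → St → ℕ}
    (h : ∀ κ' z, κ' ≤ κ + P.du → f κ' z = f' κ' z) (y : St) :
    numSt P F κ f y = numSt P F κ f' y := by
  unfold numSt
  split_ifs with h1
  · rfl
  · rw [h _ _ (by omega)]

theorem calm_congr {P : Par} {F : St → ℕ} {X : ℕ → ℕ → St → ℕ} {k κ : ℕ}
    {S S' : ℕ → ℕ → St → ℕ} (h : ∀ q κ' z, κ' ≤ κ + P.du → S q κ' z = S' q κ' z) (x : St) (i : ℕ) :
    calm P F X k S κ x i = calm P F X k S' κ x i := by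
  unfold calm
  have e : (fun i q a b => numSt P F κ (if i < k then X i else S q) (npiece P F κ x q a b)) =
      fun i q a b => numSt P F κ (if i < k then X i else S' q) (npiece P F κ x q a b) := by
    funext i q a b
    split_ifs
    · rfl
    · exact numSt_congr (h q) _
  rw [e]

theorem modal_congr {P : Par} {F : St → ℕ} {X : ℕ → ℕ → St → ℕ} {k κ : ℕ}
    {S S' : ℕ → ℕ → St → ℕ} (h : ∀ q κ' z, κ' ≤ κ + P.du → S q κ' z = S' q κ' z) (x : St) :
    modal P F X k S κ x = modal P F X k S' κ x := by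
  unfold modal
  have e : (fun i z => if z = 0 then calm P F X k S κ x i else wild P F X κ x i) =
      fun i z => if z = 0 then calm P F X k S' κ x i else wild P F X κ x i := by
    funext i z
    rw [calm_congr h]
  rw [e]

theorem bodyNum_congr {P : Par} {leaf : St → Option ℕ} {F : St → ℕ} {X : ℕ → ℕ → St → ℕ}
    {k κ : ℕ} {S S' : ℕ → ℕ → St → ℕ} (h : ∀ q κ' z, κ' ≤ κ + P.du → S q κ' z = S' q κ' z)
    (x : St) : bodyNum P leaf F X k S κ x = bodyNum P leaf F X k S' κ x := by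
  unfold bodyNum
  rw [modal_congr h]

/-- the body value does not see the difference of `spw` and `spw'` -/
theorem bodyNum_spw' (P : Par) (leaf : St → Option ℕ) (F : St → ℕ) (X : ℕ → ℕ → St → ℕ)
    (k κ : ℕ) (ks : List Key) (res : List (List ℕ)) (x : St) :
    bodyNum P leaf F X k (spw P κ ks res) κ x = bodyNum P leaf F X k (spw' P κ ks res) κ x :=
  bodyNum_congr (fun _ _ _ h => (spw'_of_le h).symm) x

/-! ### the residues of `bodyT` -/

/-- residues of `bodyT` from the words `rs` -/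
def resF (P : Par) (κ : ℕ) (rs : List ℕ) (q κ' : ℕ) : ℕ :=
  rs.getD (q * (P.dl + P.du + 1) + (κ' + P.dl - κ)) 0 % modu P κ κ'

theorem modu_of_le {P : Par} {κ κ' : ℕ} (h : κ ≤ κ') : modu P κ κ' = 1 := by
  unfold modu
  rw [Nat.sub_eq_zero_of_le (by omega), pow_zero]

theorem resF_of_le {P : Par} {κ κ' : ℕ} (rs : List ℕ) (q : ℕ) (h : κ ≤ κ') :
    resF P κ rs q κ' = 0 := by
  unfold resF
  rw [modu_of_le h, Nat.mod_one]

/-- the residues as a total certified function -/
theorem ptf_resF {P : γ → Par} {κ : γ → ℕ} {rs : γ → List ℕ} (hP : PTF P) (hκ : PTU κ)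
    (hrs : PTF rs) :
    PTF (fun p : γ × ℕ × ℕ => resF (P p.1) (κ p.1) (rs p.1) p.2.1 p.2.2) := by
  have hk : PTU (fun p : γ × ℕ × ℕ => min p.2.2 (κ p.1)) := by
    have h1 : PTU (fun p : γ × ℕ × ℕ => κ p.1) := by fun_prop
    exact PtX949.ptu_min_left (by fun_prop) h1
  have h2 := ptf_modu (P := fun p : γ × ℕ × ℕ => P p.1) (κ := fun p => κ p.1) (by fun_prop)
    (by fun_prop) hk
  have h3 := hκ.toPTF
  have h4 : PTF (fun p : γ × ℕ × ℕ =>
      (rs p.1).getD (p.2.1 * ((P p.1).dl + (P p.1).du + 1) + (p.2.2 + (P p.1).dl - κ p.1)) 0 %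
        modu (P p.1) (κ p.1) (min p.2.2 (κ p.1))) := PTF.natMod (by fun_prop) h2
  refine PTF.of_eq h4 fun p => ?_
  unfold resF
  rcases le_total p.2.2 (κ p.1) with h | h
  · rw [min_eq_left h]
  · rw [min_eq_right h, modu_of_le h, modu_of_le le_rfl]

/-- the request list of `bodyT` as a function of the words -/
theorem ptf_bkeys_resF {P : γ → Par} {κ : γ → ℕ} {m : γ → ℤ} {rs : γ → List ℕ} (hP : PTF P)
    (hκ : PTU κ) (hm : PTF m) (hrs : PTF rs) :
    PTF (fun c => bkeys (P c) (κ c) (m c) (resF (P c) (κ c) (rs c))) :=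
  ptf_bkeys hP hκ hm (ptf_resF hP hκ hrs)

end Crest.Agent.R288.PtS966
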