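import Crest.Agent.R288.PtaF_569
import Crest.Agent.R288.PtbD_964
import Crest.Agent.R288.PtS_966
import Crest.Agent.R288.PgB_172
import Crest.Agent.R288.DeltaE_72

/-!
# R288, [PROG] certificates: BODY (helper949)

* `ptf_bodyTab`: the table of `bodyNum` over a cell, with the spawned numbers `spw`, is `PTF`; `F`,
  `leaf`, `X` are arbitrary certified functions of the context (look-ups in the frame).
* the functions of `DeltaE_72`: `ptf_nwd`, `ptu_nwd`, `ptf_bres`, `ptf_bkeysOf`, `ptf_bcel`, `ptf_tbl`,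
  `ptf_fTb`, `ptf_xkeys`, **`ptf_bodyFin`**.
-/

set_option autoImplicit false

namespace Crest.Agent.R288.PtFB949

open Crest.Agent.Lib.PT Crest.Agent.R288.Alg45 Crest.Agent.R288.PtX949
  Crest.Agent.R288.StPT569 Crest.Agent.R288.PtSt966 Crest.Agent.R288.PtS966
  Crest.Agent.R288.Pta569 Crest.Agent.R288.PtbC964

variable {γ : Type} [PTCode γ] {P : γ → Par}

/-- the table of a body call -/
theorem ptf_bodyTab {x : γ → Cel} {leaf : γ → St → Option ℕ} {F : γ → St → ℕ}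
    {X : γ → ℕ → ℕ → St → ℕ} {k : γ → ℕ} {ks : γ → List Key} {res : γ → List (List ℕ)}
    (hP : PTF P) (hκ : PTU (fun c => (x c).κ)) (hx : PTF x)
    (hF : PTF (fun p : γ × St => F p.1 p.2)) (hL : PTF (fun p : γ × St => leaf p.1 p.2))
    (hX : PTF (fun q : γ × ℕ × ℕ × St => X q.1 q.2.1 q.2.2.1 q.2.2.2))
    (hk : PTU k) (hks : PTF ks) (hres : PTF res) :
    PTF (fun c => tabC (P c) (x c) fun z =>
      bodyNum (P c) (leaf c) (F c) (X c) (k c) (spw (P c) (x c).κ (ks c) (res c)) (x c).κ z) := by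
  have hSp := ptf_spw' hP hκ hks hres
  have hH : PTF (fun q : (γ × ℕ) × St => hull (P q.1.1) (F q.1.1) (X q.1.1 q.1.2) q.2) := by
    refine PtbD964.ptf_hull (γ := (γ × ℕ) × St) (P := fun q => P q.1.1) (F := fun q => F q.1.1)
      (f := fun q => X q.1.1 q.1.2) (y := fun q => q.2) (PTF.comp hP (by fun_prop)) ?_ ?_
      (by fun_prop)
    · exact PTF.comp (g := fun p : γ × St => F p.1 p.2)
        (f := fun q : (γ × ℕ) × St => (q.1.1, q.2)) hF (by fun_prop)
    · exact PTF.comp (g := fun q : γ × ℕ × ℕ × St => X q.1 q.2.1 q.2.2.1 q.2.2.2)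
        (f := fun q : ((γ × ℕ) × St) × ℕ × St => (q.1.1.1, q.1.1.2, q.2.1, q.2.2)) hX
        (by fun_prop)
  have key : PTF (fun c => tabC (P c) (x c) fun z =>
      bodyNum (P c) (leaf c) (F c) (X c) (k c) (spw' (P c) (x c).κ (ks c) (res c)) (x c).κ z) := by
    refine ptf_tabC hP hκ hx ?_
    refine ptf_bodyNum (γ := γ × St) (P := fun p => P p.1) (F := fun p => F p.1)
      (κ := fun p => (x p.1).κ) (x := fun p => p.2) (leaf := fun p => leaf p.1)
      (X := fun p => X p.1) (S := fun p => spw' (P p.1) (x p.1).κ (ks p.1) (res p.1))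
      (k := fun p => k p.1) (PTF.comp hP PTF.fst)
      (PTU.comp (n := fun c => (x c).κ) hκ PTF.fst) PTF.snd ?_ ?_ ?_ ?_ ?_ (PTU.comp hk PTF.fst)
    · exact PTF.comp (g := fun p : γ × St => F p.1 p.2) (f := fun q : (γ × St) × St => (q.1.1, q.2))
        hF (by fun_prop)
    · exact PTF.comp (g := fun p : γ × St => leaf p.1 p.2)
        (f := fun q : (γ × St) × St => (q.1.1, q.2)) hL (by fun_prop)
    · exact PTF.comp (g := fun q : γ × ℕ × ℕ × St => X q.1 q.2.1 q.2.2.1 q.2.2.2)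
        (f := fun q : (γ × St) × ℕ × ℕ × St => (q.1.1, q.2)) hX (by fun_prop)
    · exact PTF.comp (g := fun q : (γ × ℕ) × St =>
          hull (P q.1.1) (F q.1.1) (X q.1.1 q.1.2) q.2)
        (f := fun q : ((γ × St) × ℕ) × St => ((q.1.1.1, q.1.2), q.2)) hH (by fun_prop)
    · exact PTF.comp (g := fun p : γ × ℕ × ℕ × St =>
          spw' (P p.1) (x p.1).κ (ks p.1) (res p.1) p.2.1 p.2.2.1 p.2.2.2)
        (f := fun q : (γ × St) × ℕ × ℕ × St => (q.1.1, q.2)) hSp (by fun_prop)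
  refine key.of_eq fun c => ?_
  unfold tabC
  refine List.map_congr_left fun t _ => ?_
  exact (bodyNum_spw' (P c) (leaf c) (F c) (X c) (k c) (x c).κ (ks c) (res c) _).symm

/-! ### the functions of `DeltaE_72` -/

@[fun_prop]
theorem ptu_nwd (hP : PTF P) : PTU (fun c => Delta72.nwd (P c)) := by
  unfold Delta72.nwd
  fun_prop

@[fun_prop]
theorem ptf_nwd (hP : PTF P) : PTF (fun c => Delta72.nwd (P c)) := (ptu_nwd hP).toPTF

/-- the residues, a total certified function of the end and the class -/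
theorem ptf_bres {x : γ → Cel} {ws : γ → List (List ℕ)} (hP : PTF P)
    (hκ : PTU (fun c => (x c).κ)) (hx : PTF x) (hws : PTF ws) :
    PTF (fun p : γ × ℕ × ℕ => Delta72.bres (P p.1) (x p.1) (ws p.1) p.2.1 p.2.2) := by
  have hκ1 : PTU (fun p : γ × ℕ × ℕ => (x p.1).κ) :=
    PTU.comp (n := fun c => (x c).κ) hκ PTF.fst
  have hk : PTU (fun p : γ × ℕ × ℕ => min p.2.2 (x p.1).κ) := PtX949.ptu_min_left (by fun_prop) hκ1
  have h2 : PTF (fun p : γ × ℕ × ℕ => modu (P p.1) (x p.1).κ (min p.2.2 (x p.1).κ)) :=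
    PtK966.ptf_modu (P := fun p : γ × ℕ × ℕ => P p.1) (κ := fun p => (x p.1).κ) (by fun_prop)
      hκ1 hk
  have h3 := hκ1.toPTF
  have h5 : PTF (fun p : γ × ℕ × ℕ =>
      p.2.1 * ((P p.1).dl + (P p.1).du + 1) + (p.2.2 + (P p.1).dl - (x p.1).κ)) := by fun_prop
  have h4 : PTF (fun p : γ × ℕ × ℕ =>
      Delta222.hd1 (ws p.1)
          (p.2.1 * ((P p.1).dl + (P p.1).du + 1) + (p.2.2 + (P p.1).dl - (x p.1).κ)) %
        modu (P p.1) (x p.1).κ (min p.2.2 (x p.1).κ)) :=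
    PTF.natMod (PtbD964.ptf_hd1 (PTF.comp hws PTF.fst) h5) h2
  refine PTF.of_eq h4 fun p => ?_
  unfold Delta72.bres
  rcases le_total p.2.2 (x p.1).κ with h | h
  · rw [min_eq_left h]
  · rw [min_eq_right h, modu_of_le h, modu_of_le le_rfl]

/-- the keys of the arrival calls -/
theorem ptf_bkeysOf {x : γ → Cel} {ws : γ → List (List ℕ)} (hP : PTF P)
    (hκ : PTU (fun c => (x c).κ)) (hx : PTF x) (hws : PTF ws) :
    PTF (fun c => Delta72.bkeysOf (P c) (x c) (ws c)) := by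
  unfold Delta72.bkeysOf
  exact PtK966.ptf_bkeys (κ := fun c => (x c).κ) (m := fun c => (x c).m) hP hκ (ptf_celM hx)
    (ptf_bres hP hκ hx hws)

@[fun_prop]
theorem ptf_bcel {x : γ → Cel} {key : γ → Key} (hP : PTF P) (hx : PTF x) (hk : PTF key) :
    PTF (fun c => Delta72.bcel (P c) (x c) (key c)) := by
  unfold Delta72.bcel
  exact ptf_celMk (PTF.natSub (ptf_celI hx) (PTF.const 1))
    (PTF.natAdd (PTF.natMul (ptf_N hP) (ptf_celJ hx)) (ptf_keyQ hk)) (ptf_keyκ hk) (ptf_keyM hk)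

@[fun_prop]
theorem ptf_tbl {α : Type} [PTCode α] {ks : γ → List α} {us : γ → List (List ℕ)} (hks : PTF ks)
    (hus : PTF us) : PTF (fun c => Delta72.tbl (ks c) (us c)) := by
  unfold Delta72.tbl
  fun_prop

/-- the unit function of the frame -/
theorem ptf_fTb {x : γ → Cel} {fs : γ → List (List ℕ)} {y : γ → St} (hP : PTF P)
    (hκ : PTU (fun c => (x c).κ)) (hx : PTF x) (hfs : PTF fs) (hy : PTF y) :
    PTF (fun c => Delta72.fTb (P c) (x c) (fs c) (y c)) := by
  unfold Delta72.fTb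
  exact PgB172.ptf_getT (ptf_tbl (PgB172.ptf_bst hP hκ hx) hfs) hy

theorem ptf_fTb' {x : γ → Cel} {fs : γ → List (List ℕ)} (hP : PTF P)
    (hκ : PTU (fun c => (x c).κ)) (hx : PTF x) (hfs : PTF fs) :
    PTF (fun p : γ × St => Delta72.fTb (P p.1) (x p.1) (fs p.1) p.2) :=
  ptf_fTb (γ := γ × St) (P := fun p => P p.1) (x := fun p => x p.1) (fs := fun p => fs p.1)
    (y := fun p => p.2) (PTF.comp hP PTF.fst) (PTU.comp (n := fun c => (x c).κ) hκ PTF.fst)
    (PTF.comp hx PTF.fst) (PTF.comp hfs PTF.fst) PTF.snd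

/-- the keys of the pair numbers -/
theorem ptf_xkeys {x : γ → Cel} {k : γ → ℕ} {fs : γ → List (List ℕ)} (hP : PTF P)
    (hκ : PTU (fun c => (x c).κ)) (hx : PTF x) (hk : PTU k) (hfs : PTF fs) :
    PTF (fun c => Delta72.xkeys (P c) (x c) (k c) (fs c)) := by
  unfold Delta72.xkeys
  exact PgB172.ptf_rpr hk (PgB172.ptf_bpr (F := fun c => Delta72.fTb (P c) (x c) (fs c)) hP hκ hx
    (ptf_fTb' hP hκ hx hfs))

/-- **the end of BODY** -/
theorem ptf_bodyFin {x : γ → Cel} {lf : γ → ℕ → St → Option ℕ} {k : γ → ℕ}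
    {ws us fs gs xs : γ → List (List ℕ)} (hP : PTF P) (hκ : PTU (fun c => (x c).κ)) (hx : PTF x)
    (hlf : PTF (fun q : γ × ℕ × St => lf q.1 q.2.1 q.2.2)) (hk : PTU k) (hws : PTF ws)
    (hus : PTF us) (hfs : PTF fs) (hgs : PTF gs) (hxs : PTF xs) :
    PTF (fun c => Delta72.bodyFin (P c) (lf c) (x c) (k c) (ws c) (us c) (fs c) (gs c) (xs c)) := by
  unfold Delta72.bodyFin
  have hC := PgB172.ptf_cells hP hκ hx
  have hK := ptf_xkeys hP hκ hx hk hfs
  refine ptf_bodyTab (x := x)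
    (leaf := fun c y => lf c (PgA172.getT (Delta72.tbl (PgA172.cells (P c) (x c)) (gs c)) y) y)
    (F := fun c => Delta72.fTb (P c) (x c) (fs c))
    (X := fun c => PgA172.getX (Delta72.tbl (Delta72.xkeys (P c) (x c) (k c) (fs c)) (xs c)))
    (k := k) (ks := fun c => Delta72.bkeysOf (P c) (x c) (ws c)) (res := us) hP hκ hx
    (ptf_fTb' hP hκ hx hfs) ?_ ?_ hk (ptf_bkeysOf hP hκ hx hws) hus
  · have h1 : PTF (fun p : γ × St =>
        PgA172.getT (Delta72.tbl (PgA172.cells (P p.1) (x p.1)) (gs p.1)) p.2) :=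
      PgB172.ptf_getT (PTF.comp (g := fun c => Delta72.tbl (PgA172.cells (P c) (x c)) (gs c))
        (ptf_tbl hC hgs) PTF.fst) PTF.snd
    exact PTF.comp (g := fun q : γ × ℕ × St => lf q.1 q.2.1 q.2.2)
      (f := fun p : γ × St =>
        (p.1, PgA172.getT (Delta72.tbl (PgA172.cells (P p.1) (x p.1)) (gs p.1)) p.2, p.2)) hlf
      (PTF.prodMk PTF.fst (PTF.prodMk h1 PTF.snd))
  · exact PgB172.ptf_getX (PTF.comp
      (g := fun c => Delta72.tbl (Delta72.xkeys (P c) (x c) (k c) (fs c)) (xs c))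
      (ptf_tbl hK hxs) PTF.fst) (by fun_prop) (by fun_prop) (by fun_prop)

end Crest.Agent.R288.PtFB949
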