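import Crest.Agent.R288.PgC_578
import Crest.Agent.R288.PtFB_949
import Crest.Agent.R288.ArrP_222
import Crest.Agent.R288.PtfX_333
import Crest.Agent.R288.ParX_901

/-!
# R288, [PROG] certificates of the text of `PgC_578` (helper949)

* `ptf_phB` : BODY (tag 6, text of `PgBo_72`), for unary class;
* **`ptf_phAll_of`** : the whole text, from certificates of `PK`, `b`, `la`, `lf`;
* `PKO k` = the parameters of the program with `K` replaced by `max 1 K`: `ptf_PKO`, `PKO_pos`,
  `PKO_konO`.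
-/

set_option autoImplicit false

namespace Crest.Agent.R288.PtC949

open Crest.Agent.Lib.PT Crest.Agent.R288.Alg45 Crest.Agent.R288.PtX949 Crest.Agent.R288.StPT569
  Crest.Agent.R288.PtSt966 Crest.Agent.R288.PtbD964 Crest.Agent.R288.PtFB949
  Crest.Agent.R288.Pgc578 Crest.Agent.R288.PrK690 Crest.Agent.R288.Pgb578
open Crest.Agent.R288.PgY583 (arS arC ent qU qX qF qA qB phX phF)
open Crest.Agent.R288.Delta222 (cOf phA)
open Crest.Agent.R288.Delta72 (nwd bkeysOf xkeys bcel bodyEnd bodyFin kOf rqB0 rqB1 phB)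
open Crest.Agent.R288.PtfX333 (capA ptf_capA ptu_capA)

variable {γ : Type} [PTCode γ]

section body

variable {P : γ → Par} {ar : γ → PgY583.Ar} {la : γ → St → List ℕ} {lf : γ → ℕ → St → Option ℕ}

@[fun_prop]
theorem ptf_ep {l : γ → ℕ} (hP : PTF P) (hl : PTF l) : PTF (fun c => ep (P c) (l c)) :=
  PTF.natDiv (PTF.natSub hl (PTF.const 1)) (ptf_K hP)

/-- the rank (cut at `K`) is unary -/
@[fun_prop]
theorem ptu_kOf {l : γ → ℕ} (hP : PTF P) (hl : PTF l) : PTU (fun c => kOf (P c) (l c)) := by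
  have h1 : PTF (fun c => (P c).K) := ptf_K hP
  unfold kOf
  exact PtX949.ptu_min_left (by fun_prop) (ptu_K hP)

theorem ptf_idx {e i : γ → ℕ} (hP : PTF P) (he : PTF e) (hi : PTF i) :
    PTF (fun c => idx (P c) (e c) (i c)) := by
  unfold idx
  have hK : PTF (fun c => (P c).K) := ptf_K hP
  fun_prop

theorem ptf_rqB0 (hP : PTF P) (hκ : PTU (fun c => (cOf (ar c)).κ)) (har : PTF ar) :
    PTF (fun c => rqB0 (P c) (ar c)) := by
  have hx : PTF (fun c => cOf (ar c)) := Delta222.ptf_cOf har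
  have h1 : PTF (fun c => (ar c).1) := PTF.comp PTF.fst har
  have he : PTF (fun c => ((ar c).1 - 1) / (P c).K) :=
    PTF.natDiv (PTF.natSub h1 (PTF.const 1)) (ptf_K hP)
  unfold rqB0
  exact PTF.append
    (PTF.map (f := fun _ _ => [0]) (PTF.range (ptu_nwd hP)) (PTF.const _))
    (PTF.map (f := fun c y => qF (((ar c).1 - 1) / (P c).K) y) (PgB172.ptf_bst hP hκ hx)
      (Delta222.ptf_qF (PTF.comp he PTF.fst) PTF.snd))

theorem ptf_rqB1 {u0 : γ → List (List ℕ)} (hP : PTF P)
    (hκ : PTU (fun c => (cOf (ar c)).κ)) (har : PTF ar)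
    (hla : PTF (fun q : γ × St => la q.1 q.2)) (hu : PTF u0) :
    PTF (fun c => rqB1 (P c) (la c) (ar c) (u0 c)) := by
  have hx : PTF (fun c => cOf (ar c)) := Delta222.ptf_cOf har
  have h1 : PTF (fun c => (ar c).1) := PTF.comp PTF.fst har
  have he : PTF (fun c => ((ar c).1 - 1) / (P c).K) :=
    PTF.natDiv (PTF.natSub h1 (PTF.const 1)) (ptf_K hP)
  have hn := ptu_nwd hP
  have hA : PTF (fun c => (bkeysOf (P c) (cOf (ar c)) ((u0 c).take (nwd (P c)))).map
      (fun key => qA (ar c).1 (bcel (P c) (cOf (ar c)) key))) :=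
    PTF.map (f := fun c key => qA (ar c).1 (bcel (P c) (cOf (ar c)) key))
      (ptf_bkeysOf hP hκ hx (PTF.take hn hu))
      (Delta222.ptf_qA (PTF.comp (g := fun c => (ar c).1) h1 PTF.fst)
        (ptf_bcel (P := fun q : γ × Key => P q.1) (x := fun q => cOf (ar q.1))
          (PTF.comp hP PTF.fst)
          (PTF.comp (g := fun c => cOf (ar c)) hx PTF.fst) PTF.snd))
  have hX : PTF (fun c => (xkeys (P c) (cOf (ar c)) (kOf (P c) (ar c).1)
      ((u0 c).drop (nwd (P c)))).map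
        (fun a => qX (idx (P c) (((ar c).1 - 1) / (P c).K) a.1) a.2.1 a.2.2)) := by
    refine PTF.map (f := fun c a => qX (idx (P c) (((ar c).1 - 1) / (P c).K) a.1) a.2.1 a.2.2)
      (ptf_xkeys hP hκ hx (ptu_kOf hP h1) (PTF.drop hn hu)) ?_
    refine Delta222.ptf_qX ?_ (by fun_prop) (by fun_prop)
    exact ptf_idx (P := fun q : γ × ℕ × ℕ × St => P q.1) (PTF.comp hP PTF.fst)
      (PTF.comp he PTF.fst) (by fun_prop)
  have hL : PTF (fun c => (PgA172.cells (P c) (cOf (ar c))).map (Delta222.qL (la c))) := by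
    refine PTF.map (f := fun c y => Delta222.qL (la c) y) (PgB172.ptf_cells hP hκ hx) ?_
    unfold Delta222.qL
    exact PTF.listCons (PTF.const 3) hla
  unfold rqB1
  exact PTF.append hA (PTF.append hX hL)

theorem ptf_bodyEnd {x : γ → Cel} {k : γ → ℕ} {u0 u1 : γ → List (List ℕ)} (hP : PTF P)
    (hκ : PTU (fun c => (x c).κ)) (hx : PTF x)
    (hlf : PTF (fun q : γ × ℕ × St => lf q.1 q.2.1 q.2.2)) (hk : PTU k) (hu : PTF u0)
    (hv : PTF u1) : PTF (fun c => bodyEnd (P c) (lf c) (x c) (k c) (u0 c) (u1 c)) := by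
  have hn := ptu_nwd hP
  have hws : PTF (fun c => (u0 c).take (nwd (P c))) := PTF.take hn hu
  have hfs : PTF (fun c => (u0 c).drop (nwd (P c))) := PTF.drop hn hu
  have hb : PTU (fun c => (bkeysOf (P c) (x c) ((u0 c).take (nwd (P c)))).length) :=
    PTU.length (ptf_bkeysOf hP hκ hx hws)
  have hxk : PTU (fun c => (xkeys (P c) (x c) (k c) ((u0 c).drop (nwd (P c)))).length) :=
    PTU.length (ptf_xkeys hP hκ hx hk hfs)
  unfold bodyEnd
  exact ptf_bodyFin hP hκ hx hlf hk hws (PTF.take hb hv) hfs (PTF.drop (PTU.add hb hxk) hv)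
    (PTF.take hxk (PTF.drop hb hv))

/-- **certificate of the text of BODY** -/
theorem ptf_phB {sv : γ → PgY583.Svd} (hP : PTF P)
    (hκ : PTU (fun c => (cOf (ar c)).κ)) (har : PTF ar)
    (hla : PTF (fun q : γ × St => la q.1 q.2))
    (hlf : PTF (fun q : γ × ℕ × St => lf q.1 q.2.1 q.2.2)) (hsv : PTF sv) :
    PTF (fun c => phB (P c) (la c) (lf c) (ar c) (sv c)) := by
  have hx : PTF (fun c => cOf (ar c)) := Delta222.ptf_cOf har
  have h1 : PTF (fun c => (ar c).1) := PTF.comp PTF.fst har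
  have hl : PTF (fun c => (sv c).length) := PTU.toPTF (PTU.length hsv)
  have g0 : PTF (fun c => (sv c).getD 0 []) := PTF.getD (PTU.const 0) hsv (PTF.const [])
  have g1 : PTF (fun c => (sv c).getD 1 []) := PTF.getD (PTU.const 1) hsv (PTF.const [])
  unfold phB
  exact PTF.ite (PTPred.natEq hl (PTF.const 0)) (PTF.inr (ptf_rqB0 hP hκ har))
    (PTF.ite (PTPred.natEq hl (PTF.const 1)) (PTF.inr (ptf_rqB1 hP hκ har hla g0))
      (PTF.inl (ptf_bodyEnd hP hκ hx hlf (ptu_kOf hP h1) g0 g1)))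

end body

/-! ### the whole text -/

/-- **certificate of the text of the program** -/
theorem ptf_phAll_of {D : Txt} (hP : PTF D.PK) (hb : PTU D.b)
    (hla : PTF (fun q : KN × St => D.la q.1 q.2))
    (hlf : PTF (fun q : KN × ℕ × St => D.lf q.1 q.2.1 q.2.2)) :
    PTF (fun p : KN × ℕ × Ar × Svd => phAll D p.1 p.2.1 p.2.2.1 p.2.2.2) := by
  have hP1 : PTF (fun p : KN × Ar × Svd => D.PK p.1) := PTF.comp hP PTF.fst
  have hb1 : PTU (fun p : KN × Ar × Svd => D.b p.1) := PTU.comp hb PTF.fst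
  have ha : PTF (fun p : KN × Ar × Svd => p.2.1) := by fun_prop
  have hs : PTF (fun p : KN × Ar × Svd => p.2.2) := by fun_prop
  have hc : PTF (fun p : KN × Ar × Svd => capA (D.b p.1) p.2.1) := ptf_capA hb1.toPTF ha
  have hκ : PTU (fun p : KN × Ar × Svd => (cOf (capA (D.b p.1) p.2.1)).κ) := ptu_capA hb1 ha
  have hla1 : PTF (fun q : (KN × Ar × Svd) × St => D.la q.1.1 q.2) :=
    PTF.comp (g := fun q : KN × St => D.la q.1 q.2)
      (f := fun q : (KN × Ar × Svd) × St => (q.1.1, q.2)) hla (by fun_prop)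
  have hlf1 : PTF (fun q : (KN × Ar × Svd) × ℕ × St => D.lf q.1.1 q.2.1 q.2.2) :=
    PTF.comp (g := fun q : KN × ℕ × St => D.lf q.1 q.2.1 q.2.2)
      (f := fun q : (KN × Ar × Svd) × ℕ × St => (q.1.1, q.2.1, q.2.2)) hlf (by fun_prop)
  refine ptf_phAll D (PtfX333.ptf_phX_cap hP1 hb1 ha hs) (PtfX333.ptf_phF hP1 hc hs) ?_ ?_
  · exact Delta222.ptf_phA (P := fun p : KN × Ar × Svd => D.PK p.1)
      (ar := fun p => capA (D.b p.1) p.2.1) (la := fun p => D.la p.1) (lf := fun p => D.lf p.1)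
      hP1 hκ hc hla1 hlf1 hs
  · exact ptf_phB (P := fun p : KN × Ar × Svd => D.PK p.1)
      (ar := fun p => capA (D.b p.1) p.2.1) (la := fun p => D.la p.1) (lf := fun p => D.lf p.1)
      hP1 hκ hc hla1 hlf1 hs

/-! ### the parameters of the program -/

/-- parameters with a positive `K` -/
def posK (P : Par) : Par := { P with K := max 1 P.K }

theorem posK_of_pos {P : Par} (h : 0 < P.K) : posK P = P := by
  unfold posK
  rw [max_eq_right (Nat.succ_le_of_lt h)]

theorem posK_pos (P : Par) : 0 < (posK P).K := lt_of_lt_of_le Nat.one_pos (le_max_left 1 P.K)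

@[fun_prop]
theorem ptf_posK {P : γ → Par} (hP : PTF P) : PTF (fun c => posK (P c)) := by
  refine PtSt966.ptf_Par ?_ ?_ ?_ ?_ ?_ ?_ ?_ ?_ ?_ ?_ ?_ ?_ ?_ ?_ ?_ ?_ ?_ ?_ ?_ ?_ ?_ ?_ ?_ ?_ ?_
  · exact (show PTU (fun c => 2 ^ (P c).n) from ptu_two_n hP)
  · exact (show PTU (fun c => 2 ^ (P c).pb) from ptu_two_pb hP)
  · exact (show PTU (fun c => (P c).r) from ptu_r hP)
  · exact (show PTU (fun c => (P c).g) from ptu_g hP)
  · exact (show PTU (fun c => (P c).sb) from ptu_sb hP)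
  · exact (show PTU (fun c => 2 ^ (P c).a1) from ptu_two_a1 hP)
  · exact (show PTU (fun c => 2 ^ (P c).a2) from ptu_two_a2 hP)
  · exact (show PTU (fun c => (P c).bb) from ptu_bb hP)
  · exact (show PTU (fun c => 2 ^ (P c).dl) from ptu_two_dl hP)
  · exact (show PTU (fun c => 2 ^ (P c).du) from ptu_two_du hP)
  · exact (show PTU (fun c => 2 ^ (P c).c0) from ptu_two_c0 hP)
  · exact (show PTU (fun c => (P c).gJ) from ptu_gJ hP)
  · exact (show PTU (fun c => (P c).mJ) from ptu_mJ hP)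
  · exact (show PTU (fun c => (P c).gX) from ptu_gX hP)
  · exact (show PTU (fun c => (P c).mX) from ptu_mX hP)
  · exact (show PTU (fun c => (P c).nb) from ptu_nb hP)
  · exact (show PTU (fun c => max 1 (P c).K) from PtX949.ptu_max (PTU.const 1) (ptu_K hP))
  · exact (show PTU (fun c => (P c).E) from ptu_E hP)
  · exact (show PTU (fun c => 2 ^ (P c).al) from ptu_two_al hP)
  · exact (show PTF (fun c => (P c).Dm) from ptf_Dm hP)
  · exact (show PTF (fun c => (P c).γ) from ptf_γ hP)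
  · exact (show PTF (fun c => (P c).um) from ptf_um hP)
  · exact (show PTF (fun c => (P c).pm) from ptf_pm hP)
  · exact (show PTF (fun c => (P c).Creg) from ptf_Creg hP)
  · exact (show PTF (fun c => (P c).δi) from ptf_δi hP)

/-- **the parameters which the text reads from the constants** -/
def PKO (k : KN) : Par := posK (ParX901.parKO k)

theorem ptf_PKO : PTF PKO := ptf_posK (P := ParX901.parKO) (ParX901.ptf_parKO PTF.id)

theorem PKO_pos (k : KN) : 0 < (PKO k).K := posK_pos _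

theorem PKO_konO {v : List ℕ}
    (h : ParK901.Fit (ParO331.parOf (ParP901.hE v)) (PadK901.cPad (ParP901.hE v)))
    (hK : 0 < (ParO331.parOf (ParP901.hE v)).K) :
    PKO (PadK901.konO v) = ParO331.parOf (ParP901.hE v) := by
  rw [PKO, ParX901.parKO_konO h, posK_of_pos hK]

end Crest.Agent.R288.PtC949
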