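import Crest.Agent.R288.PgC_578
import Crest.Agent.R288.InitK_663
import Crest.Agent.R288.ParX_901
import Crest.Agent.R288.LeafP_444
import Crest.Agent.R288.AsmD_331
import Crest.Agent.R288.PtC_949
import Crest.Agent.R288.ArrP_222

/-!
# R288, [PROG]: the program of the phase engine as ONE object (helper966)

* `txtO : Txt` : parameters `parKO`, class cut at the pad, leaf request and value; `ptf_txtO`;
* `phG pU` : the family of all tags `≠ 1` (tag 2 = the family `pU` of the start unit);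
* `dlG pU` : step function (tag 1 = the estimator `hE 1`), `bsG` : start of the tape of a call;
* **`prgO pU hU : Prg`**, `aT = 15`, `X3 = x3`; `has_U`, `has_all`, `wr_prg`, `dlG_frE`, `base_X`,
  `base_ne`;
* the constants of an input: `txtO` at `konO (v0 x y ε)` is `cfgO x y ε`.
-/

set_option autoImplicit false

namespace Crest.Agent.R288.PrgI966

open Crest.Agent.Lib.PT Crest.Agent.R295.Pt949 Crest.Agent.R288.PtY949
open Crest.Agent.R295.Rnd627 Crest.Agent.R288.Alg45 Crest.Agent.R288.PrK690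
open Crest.Agent.R288.Pgb578 Crest.Agent.R288.Pgc578 Crest.Agent.R288.Delta222
open Crest.Agent.R288.Delta72 Crest.Agent.R288.PtfX333 Crest.Agent.R288.LeafO690
open Crest.Agent.R288.Par806 (nn lam II EE KK) 
open Crest.Agent.R288.ParO331 (parOf)
open Crest.Agent.R288.PadK901 Crest.Agent.R288.ParX901 Crest.Agent.R288.ParP901
open Crest.Agent.R288.PgY583 (ent arS arC zOf qU qX qF qA qB phX phF)
open Crest.Agent.R288.Phe940 (Prg Wld Rz Rq Rqs x3)
open Crest.Agent.R288.InitK663 Crest.Agent.R288.InitR663 Crest.Agent.R288.InitS663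

/-! ### what the texts read from the constants -/

/-- `|x|` read off the constants -/
def nxK (K : KN) : ℕ := K.1.getD 1 0
/-- `|y|` read off the constants -/
def nyK (K : KN) : ℕ := K.1.getD 2 0

/-- **the data of the texts** -/
def txtO : Txt where
  PK := parKO
  b := fun K => K.2.length
  la := fun K => leafArg (nxK K) (nyK K) (nn (hK K)) (2 ^ lam (hK K))
  lf := fun K => leafP (nxK K) (nyK K) (nn (hK K)) (2 ^ lam (hK K))

theorem txtO_b (K : KN) : txtO.b K = K.2.length := rfl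

section ptf

variable {γ : Type} [PTCode γ] {K : γ → KN}

@[fun_prop]
theorem ptf_nxK (hK' : PTF K) : PTF (fun c => nxK (K c)) := by
  unfold nxK
  fun_prop

@[fun_prop]
theorem ptf_nyK (hK' : PTF K) : PTF (fun c => nyK (K c)) := by
  unfold nyK
  fun_prop

@[fun_prop]
theorem ptf_nnK (hK' : PTF K) : PTF (fun c => nn (hK (K c))) := (ptu_nn (ptu_hK hK')).toPTF

theorem ptu_lam {h : γ → ℕ} (hh : PTU h) : PTU (fun c => lam (h c)) := by
  unfold lam
  exact PTU.mul (ptu_W hh) (ptu_Lg hh)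

@[fun_prop]
theorem ptf_lamK (hK' : PTF K) : PTF (fun c => 2 ^ lam (hK (K c))) :=
  PTF.natTwoPow (ptu_lam (ptu_hK hK'))

end ptf

/-! ### certificates of the texts with the constants of the frame -/

theorem ptu_padK : PTU (fun p : KN × Ar × Svd => txtO.b p.1) :=
  PTU.length (l := fun p : KN × Ar × Svd => p.1.2) (by fun_prop)

theorem ptf_parK' {γ : Type} [PTCode γ] {K : γ → KN} (hK' : PTF K) :
    PTF (fun c => txtO.PK (K c)) := ptf_parKO hK'

theorem ptf_phX' : PTF (fun p : KN × Ar × Svd =>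
    phX (txtO.PK p.1) (capA (txtO.b p.1) p.2.1) p.2.2) :=
  ptf_phX_cap (P := fun p : KN × Ar × Svd => parKO p.1) (b := fun p => txtO.b p.1)
    (ar := fun p => p.2.1) (sv := fun p => p.2.2) (ptf_parKO PTF.fst)
    ptu_padK (by fun_prop) (by fun_prop)

theorem ptf_capO : PTF (fun p : KN × Ar × Svd => capA (txtO.b p.1) p.2.1) :=
  ptf_capA ptu_padK.toPTF (by fun_prop)

theorem ptf_phF' : PTF (fun p : KN × Ar × Svd =>
    phF (txtO.PK p.1) (capA (txtO.b p.1) p.2.1) p.2.2) :=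
  ptf_phF (P := fun p : KN × Ar × Svd => parKO p.1) (ar := fun p => capA (txtO.b p.1) p.2.1)
    (sv := fun p => p.2.2) (ptf_parKO PTF.fst) ptf_capO (by fun_prop)

theorem ptu_capκ : PTU (fun p : KN × Ar × Svd => (cOf (capA (txtO.b p.1) p.2.1)).κ) :=
  ptu_capA (b := fun p : KN × Ar × Svd => txtO.b p.1) (ar := fun p => p.2.1) ptu_padK (by fun_prop)

theorem ptf_laO : PTF (fun q : (KN × Ar × Svd) × St => txtO.la q.1.1 q.2) :=
  LeafP444.ptf_leafArg (n := fun q : (KN × Ar × Svd) × St => nxK q.1.1)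
    (m := fun q => nyK q.1.1) (k := fun q => nn (hK q.1.1)) (Lam := fun q => 2 ^ lam (hK q.1.1))
    (s := fun q => q.2) (by fun_prop) (by fun_prop) (by fun_prop) (by fun_prop) (by fun_prop)

theorem ptf_lfO : PTF (fun q : (KN × Ar × Svd) × ℕ × St => txtO.lf q.1.1 q.2.1 q.2.2) :=
  LeafP444.ptf_leafP (n := fun q : (KN × Ar × Svd) × ℕ × St => nxK q.1.1)
    (m := fun q => nyK q.1.1) (k := fun q => nn (hK q.1.1)) (Lam := fun q => 2 ^ lam (hK q.1.1))
    (g := fun q => q.2.1) (s := fun q => q.2.2) (by fun_prop) (by fun_prop) (by fun_prop)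
    (by fun_prop) (by fun_prop) (by fun_prop)

theorem ptf_phA' : PTF (fun p : KN × Ar × Svd =>
    phA (txtO.PK p.1) (txtO.la p.1) (txtO.lf p.1) (capA (txtO.b p.1) p.2.1) p.2.2) :=
  Delta222.ptf_phA (P := fun p : KN × Ar × Svd => parKO p.1) (la := fun p => txtO.la p.1)
    (lf := fun p => txtO.lf p.1) (ar := fun p => capA (txtO.b p.1) p.2.1) (sv := fun p => p.2.2)
    (ptf_parKO PTF.fst) ptu_capκ ptf_capO ptf_laO ptf_lfO (by fun_prop)

theorem ptf_phB' : PTF (fun p : KN × Ar × Svd =>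
    phB (txtO.PK p.1) (txtO.la p.1) (txtO.lf p.1) (capA (txtO.b p.1) p.2.1) p.2.2) :=
  PtC949.ptf_phB (P := fun p : KN × Ar × Svd => parKO p.1) (la := fun p => txtO.la p.1)
    (lf := fun p => txtO.lf p.1) (ar := fun p => capA (txtO.b p.1) p.2.1) (sv := fun p => p.2.2)
    (ptf_parKO PTF.fst) ptu_capκ ptf_capO ptf_laO ptf_lfO (by fun_prop)

/-- **certificate of the text of tags 3, 4, 5, 6** -/
theorem ptf_phAllO : PTF (fun p : KN × ℕ × Ar × Svd => phAll txtO p.1 p.2.1 p.2.2.1 p.2.2.2) :=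
  ptf_phAll txtO ptf_phX' ptf_phF' ptf_phA' ptf_phB'

/-! ### the program -/

/-- the family of all tags `≠ 1`; tag 2 = `pU` -/
def phG (pU : Ph) : Ph := fun K tg ar sv =>
  if tg = 2 then pU K tg ar sv else phAll txtO K tg ar sv

theorem ptf_phG' {pU : Ph} (hU : PTF (fun p : KN × ℕ × Ar × Svd => pU p.1 p.2.1 p.2.2.1 p.2.2.2)) :
    PTF (fun p : KN × ℕ × Ar × Svd => phG pU p.1 p.2.1 p.2.2.1 p.2.2.2) := by
  have h := ptf_phAllO
  unfold phG
  fun_prop

/-- the step function of the program -/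
def dlG (pU : Ph) (K : KN) (g : List ℕ) (rs : List (List ℕ)) : List ℕ × List (List ℕ) :=
  if g.headD 0 = 1 then hE 1 K g rs else dlp (phG pU) K g rs

theorem ptf_dlG {pU : Ph} (hU : PTF (fun p : KN × ℕ × Ar × Svd => pU p.1 p.2.1 p.2.2.1 p.2.2.2)) :
    PTF (fun p : KN × List ℕ × List (List ℕ) => dlG pU p.1 p.2.1 p.2.2) := by
  have h1 := ptf_hE 1
  have h2 := ptf_dlp (ptf_phG' hU)
  unfold dlG
  fun_prop

/-- first word of the tape of a call: pair numbers (tag 3) start at the block of their index -/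
noncomputable def bsG (K : KN) (g : List ℕ) : ℕ :=
  if g.headD 0 = 3 then (dA g).1 * PgW155.nW Asm331.rW (hK K) else 0

theorem ptf_bsG : PTF (fun p : KN × List ℕ => bsG p.1 p.2) := by
  have h1 : PTF (fun p : KN × List ℕ => PgW155.nW Asm331.rW (hK p.1)) :=
    ptf_nW Asm331.rW (ptu_hK PTF.fst)
  have h2 : PTF (fun p : KN × List ℕ => (dA p.2).1) := by fun_prop
  unfold bsG
  fun_prop

/-- **the program of the phase engine** -/
noncomputable def prgO (pU : Ph)
    (hU : PTF (fun p : KN × ℕ × Ar × Svd => pU p.1 p.2.1 p.2.2.1 p.2.2.2)) : Prg where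
  δ := wrapK (dlG pU)
  base := wrapB bsG
  hδ := ptf_wrapK (ptf_dlG hU)
  hb := ptf_wrapB ptf_bsG
  aT := 15
  a1 := 0
  a2 := 0
  hT := by norm_num
  h1 := by norm_num
  h2 := by norm_num
  X3 := x3

section prg

variable {pU : Ph} {hU : PTF (fun p : KN × ℕ × Ar × Svd => pU p.1 p.2.1 p.2.2.1 p.2.2.2)}

@[simp] theorem prgO_aT : (prgO pU hU).aT = 15 := rfl
@[simp] theorem prgO_a1 : (prgO pU hU).a1 = 0 := rfl
@[simp] theorem prgO_a2 : (prgO pU hU).a2 = 0 := rfl
@[simp] theorem prgO_X3 : (prgO pU hU).X3 = x3 := rfl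
theorem prgO_δ : (prgO pU hU).δ = wrapK (dlG pU) := rfl
theorem prgO_base : (prgO pU hU).base = wrapB bsG := rfl

theorem dlG_fr0 {K : KN} {tg : ℕ} (h : tg ≠ 1) (a : Ar) (sv : Svd) (rs : List (List ℕ)) :
    dlG pU K (fr0 tg a sv) rs = dlp (phG pU) K (fr0 tg a sv) rs :=
  if_neg h

/-- the family at all tags `≠ 1` -/
theorem has_phG (K : KN) {tg : ℕ} (h : tg ≠ 1) : Has (prgO pU hU) K (phG pU) tg :=
  has_of_wrap prgO_δ fun a sv rs => dlG_fr0 h a sv rs

/-- tag 2 -/
theorem has_U (K : KN) : Has (prgO pU hU) K pU 2 := has_phG K (by norm_num)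

/-- tags 3, 4, 5, 6 -/
theorem has_all (K : KN) {tg : ℕ} (h1 : tg ≠ 1) (h2 : tg ≠ 2) :
    Has (prgO pU hU) K (phAll txtO) tg := by
  intro a sv rs
  have h := has_phG (pU := pU) (hU := hU) K h1 a sv rs
  have e : phG pU K tg a (upd sv rs) = phAll txtO K tg a (upd sv rs) := if_neg h2
  rw [e] at h
  exact h

/-- tag 1 -/
theorem dlG_frE (K : KN) (ph : ℕ) (a : AE) (L : LE) (rs : List (List ℕ)) :
    dlG pU K (frE 1 ph a L) rs = dE 1 (kiH K) (ph, a, L) rs := by
  have h : (frE 1 ph a L).headD 0 = 1 := rfl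
  unfold dlG
  rw [if_pos h, hE_frE]

/-- the wrapper, for the theorems on the estimator -/
theorem wr_prg {W : Wld} {k : KN} (h1 : ∀ a ∈ k.1, a < W.M) (h2 : ∀ a ∈ k.2, a < W.M)
    (h3 : k.1.length < W.M) (h4 : k.2.length < W.M) :
    Wr (prgO pU hU) W (jn k) (klen k) (dlG pU k) := wr_of prgO_δ h1 h2 h3 h4

theorem base_X (K : KN) (a : Ar) (sv : Svd) :
    (prgO pU hU).base (fr K 3 a sv) = a.1 * PgW155.nW Asm331.rW (hK K) := by
  have h : (fr0 3 a sv).headD 0 = 3 := rfl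
  rw [prgO_base, fr, wrapB_jn, bsG, if_pos h, dA_mk]

theorem base_ne (K : KN) {tg : ℕ} (h : tg ≠ 3) (a : Ar) (sv : Svd) :
    (prgO pU hU).base (fr K tg a sv) = 0 := by
  have h1 : (fr0 tg a sv).headD 0 = tg := rfl
  rw [prgO_base, fr, wrapB_jn, bsG, if_neg (by rw [h1]; exact h)]

end prg

/-! ### the constants of an input -/

section inp

open Crest.Agent.R288.PltT365 (v0)
open Crest.Agent.R288.Asm331

variable {x y : List ℕ} {ε : ℚ}

@[simp] theorem nxK_konO : nxK (konO (v0 x y ε)) = x.length := rfl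
@[simp] theorem nyK_konO : nyK (konO (v0 x y ε)) = y.length := rfl

/-- the height of the input -/
theorem hK_v0 : hK (konO (v0 x y ε)) = Asm12.hh x y ε := by
  rw [hK, konO_v0]
  rfl

/-- `|x|`, `|y|` in the constants -/
theorem la_konO : txtO.la (konO (v0 x y ε)) =
    leafArg x.length y.length (nn (Asm12.hh x y ε)) (2 ^ lam (Asm12.hh x y ε)) := by
  show leafArg (nxK _) (nyK _) (nn (hK _)) (2 ^ lam (hK _)) = _
  rw [hK_v0, nxK_konO, nyK_konO]

theorem lf_konO : txtO.lf (konO (v0 x y ε)) =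
    leafP x.length y.length (nn (Asm12.hh x y ε)) (2 ^ lam (Asm12.hh x y ε)) := by
  show leafP (nxK _) (nyK _) (nn (hK _)) (2 ^ lam (hK _)) = _
  rw [hK_v0, nxK_konO, nyK_konO]

/-- the leaf function of the configuration from the leaf command -/
theorem leaf_konO (h : 2 ^ lam (Asm12.hh x y ε) ≤ Shell12.D0 (x.length + y.length)) (s : St) :
    (cfgO x y ε).leaf s = txtO.lf (konO (v0 x y ε))
      (LeafX222.leafF x y (txtO.la (konO (v0 x y ε)) s)) s := by
  rw [la_konO, lf_konO]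
  exact leafO_eq h s

theorem hE_v0 : hE (v0 x y ε) = Asm12.hh x y ε := hK_v0

theorem b_konO : txtO.b (konO (v0 x y ε)) = 2 ^ cPad (Asm12.hh x y ε) := by
  rw [txtO_b, konO_len, hE_v0]

theorem PK_konO (h : ParK901.Fit (parOf (Asm12.hh x y ε)) (cPad (Asm12.hh x y ε))) :
    txtO.PK (konO (v0 x y ε)) = (cfgO x y ε).P := by
  have h2 : parKO (konO (v0 x y ε)) = parOf (hE (v0 x y ε)) :=
    parKO_konO (by rw [hE_v0]; exact h)
  rw [hE_v0] at h2
  exact h2

theorem base_konO {pU : Ph}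
    {hU : PTF (fun p : KN × ℕ × Ar × Svd => pU p.1 p.2.1 p.2.2.1 p.2.2.2)} (l κ : ℕ) (z : St) :
    (prgO pU hU).base (fr (konO (v0 x y ε)) 3 (arS l κ z) []) = (cfgO x y ε).o l := by
  rw [base_X, hK_v0]
  rfl

end inp

end Crest.Agent.R288.PrgI966
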