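import Crest.Agent.R288.AsmC_331
import Crest.Agent.R288.GoodI_829

/-!
# R288, [PROB] (helper20): partial good histories extend to complete ones; the block [PROB] of a `Cfg`

* `Sys.extend`: a history that is good up to the index `l ≥ 1` agrees below `l` with a history that is
  good up to `Λ` (the value `⌈R⌉` is always good);
* `extend`: the same for a `Cfg`: `AllGood l C.Om Gd X ⊢ ∃ X', C.Good X' ∧ ∀ i < l, X' i = X i`;
* `hV_of_good`: the hypothesis `hV` of `Asm331.ofSys_prob` from a statement about COMPLETE good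
  histories, in 45's names;
* **`probBlock_of`**: `C.ProbBlock`.
-/

set_option autoImplicit false

namespace Crest.Agent.R288.ProbE20

open Finset
open Crest.Agent.R295 Crest.Agent.R295.Rnd627 Crest.Agent.R288.Tape829
open Crest.Agent.R288.Good829 Crest.Agent.R288.Asm331 Crest.Agent.R288.Alg45
open Crest.Agent.R288.Dom20

universe u

section sys

variable {σ : Type u} {A : Sys σ} {M : ℕ} {Ω : ℕ → Finset σ} {GU : σ → ℕ → Prop} {c : σ → ℝ}
  {eU : ℝ}

/-- **extension of a partial good history** -/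
theorem sys_extend (hc : ∀ x, 0 ≤ c x) (heU : 0 ≤ eU) (hsh : ∀ x, 1 ≤ A.sh x) {l : ℕ} (hl : 1 ≤ l)
    {X : ℕ → σ → ℕ} (h : AllGood l Ω (A.Gd M GU c eU) X) (Λ : ℕ) :
    ∃ X' : ℕ → σ → ℕ, AllGood Λ Ω (A.Gd M GU c eU) X' ∧ ∀ i < l, X' i = X i := by
  classical
  induction Λ with
  | zero => exact ⟨X, fun i hi => absurd hi (Nat.not_lt_zero i), fun _ _ => rfl⟩
  | succ Λ ih =>
    rcases Nat.lt_or_ge Λ l with hΛ | hΛ
    · exact ⟨X, fun i hi => h i (by omega), fun _ _ => rfl⟩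
    · obtain ⟨X', h1, h2⟩ := ih
      obtain ⟨n, rfl⟩ : ∃ n, Λ = n + 1 := ⟨Λ - 1, by omega⟩
      let f : σ → ℕ := fun x => if A.adm (n + 1) (lo (n + 1) X') x = true
        then ⌈A.R M (n + 1) (lo (n + 1) X') x⌉₊ else A.alt (n + 1) (lo (n + 1) X') x
      have e1 : ∀ i < n + 1, Function.update X' (n + 1) f i = X' i := fun i hi =>
        Function.update_of_ne (by omega) _ _
      refine ⟨Function.update X' (n + 1) f, fun i hi x hx => ?_, fun i hi => ?_⟩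
      · rcases Nat.lt_succ_iff_lt_or_eq.1 hi with h3 | rfl
        · have := AllGood.congr (fun i hi => (e1 i hi).symm) h1
          exact this i h3 x hx
        · have e2 : lo (n + 1) (Function.update X' (n + 1) f) = lo (n + 1) X' := lo_congr e1
          rw [e2, Function.update_self]
          have hR : 0 ≤ A.R M (n + 1) (lo (n + 1) X') x :=
            RT.Ev_nonneg fun a => Nat.cast_nonneg a
          refine ⟨fun ha => ?_, fun ha => ?_⟩
          · have e3 : f x = ⌈A.R M (n + 1) (lo (n + 1) X') x⌉₊ := if_pos ha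
            rw [e3]
            refine ⟨Nat.le_ceil _, ?_⟩
            have h4 := (Nat.ceil_lt_add_one hR).le
            have h5 : (1 : ℝ) ≤ (A.sh x : ℕ) := by exact_mod_cast hsh x
            have h6 := hc x
            linarith
          · exact if_neg (by rw [ha]; decide)
      · rw [Function.update_of_ne (by omega)]
        exact h2 i hi

end sys

variable {C : Cfg}

theorem dev_pos (s : ℕ × St) : 0 < C.dev s := by unfold Cfg.dev; positivity

/-- **every partial good history extends to a good one** -/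
theorem extend {l : ℕ} (hl : 1 ≤ l) {X : ℕ → ℕ × St → ℕ}
    (h : AllGood l C.Om ((sysU C.P C.leaf C.U).Gd (2 ^ C.W) (fun s b => C.GU s.2 b) C.dev 0) X) :
    ∃ X', C.Good X' ∧ ∀ i < l, X' i = X i :=
  sys_extend (fun x => (dev_pos x).le) le_rfl (fun _ => Nat.le_add_left 1 _) hl h _

/-- **`hV` of `ofSys_prob` from complete good histories** -/
theorem hV_of_good
    (hV : ∀ X, C.Good X → ∀ e k, e < C.P.E → k < C.P.K → ∀ κ z,
      (κ, z) ∈ OmP C.P.N C.I C.P.Dm C.K0 → adm C.P (FE C.P X e) κ z = true →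
      3 * ((lanePair C.P C.leaf (FE C.P X e) (Xe C.P X e) k κ z).Ev (2 ^ C.W)
        fun a : ℕ => (a : ℝ) ^ 2) ≤ C.P.mX * ((2 : ℝ) ^ κ / 2 ^ C.P.nb) ^ 2) :
    ∀ l < C.P.E * C.P.K, ∀ X,
      AllGood (l + 1) C.Om ((sysU C.P C.leaf C.U).Gd (2 ^ C.W) (fun s b => C.GU s.2 b) C.dev 0) X →
      ∀ x ∈ C.Om (l + 1), (sysU C.P C.leaf C.U).adm (l + 1) (lo (l + 1) X) x = true →
      3 * (((sysU C.P C.leaf C.U).lane (l + 1) (lo (l + 1) X) x).Ev (2 ^ C.W)
        fun a : ℕ => (a : ℝ) ^ 2) ≤ (sysU C.P C.leaf C.U).m * C.dev x ^ 2 := by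
  intro l hl X hX x hx ha
  obtain ⟨X', hG, hag⟩ := extend (Nat.succ_pos l) hX
  have e0 : lo (l + 1) X = lo (l + 1) X' := lo_congr fun i hi => (hag i hi).symm
  rw [e0] at ha ⊢
  have hK : 0 < C.P.K := by
    rcases Nat.eq_zero_or_pos C.P.K with h | h
    · rw [h, Nat.mul_zero] at hl; omega
    · exact h
  have hk : l % C.P.K < C.P.K := Nat.mod_lt _ hK
  have he : l / C.P.K < C.P.E := Nat.div_lt_of_lt_mul (by rw [Nat.mul_comm]; exact hl)
  have hi : idx C.P (l / C.P.K) (l % C.P.K) = l + 1 := idx_surj l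
  have hle : 1 + l / C.P.K * C.P.K ≤ l + 1 := by
    have := Nat.div_mul_le_self l C.P.K
    omega
  obtain ⟨κ, z⟩ := x
  have hep : epo C.P (l + 1) = l / C.P.K := rfl
  have hrk : rnk C.P (l + 1) = l % C.P.K := rfl
  have eF : FE C.P (lo (l + 1) X') (l / C.P.K) = FE C.P X' (l / C.P.K) := Asm331.FE_lo hle
  have ha' : adm C.P (FE C.P X' (l / C.P.K)) κ z = true := by
    rw [← eF]
    exact ha
  have e1 : (sysU C.P C.leaf C.U).lane (l + 1) (lo (l + 1) X') (κ, z) =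
      lanePair C.P C.leaf (FE C.P X' (l / C.P.K)) (Xe C.P X' (l / C.P.K)) (l % C.P.K) κ z := by
    show lanePair C.P C.leaf (FE C.P (lo (l + 1) X') (epo C.P (l + 1)))
      (Xe C.P (lo (l + 1) X') (epo C.P (l + 1))) (rnk C.P (l + 1)) κ z = _
    rw [hep, hrk, eF]
    refine lanePair_congr C.P (fun i hi' => ?_) κ z
    rw [← hi]
    exact Xe_lo hi'
  rw [e1]
  exact hV X' hG _ _ he hk κ z hx ha'

/-- **the block [PROB]** -/
theorem probBlock_of (hG : C.P.gX = 12 * C.s + 1) (hm : 0 < C.P.mX)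
    (ho : ∀ l < C.P.E * C.P.K + 1, C.o l ≤ C.o (l + 1))
    (hS : ∀ l < C.P.E * C.P.K + 1, ∀ X, ∀ x ∈ C.Om l,
      ((sysU C.P C.leaf C.U).tRT l (lo l X) x).cnt.All (2 ^ C.W)
        fun y => C.o l + y.2 ≤ C.o (l + 1))
    (hδ₀ : 0 ≤ C.δ₀)
    (hU : ∀ κ z, (κ, z) ∈ OmP C.P.N C.I C.P.Dm C.K0 →
      (C.U z).Pr (2 ^ C.W) (fun b => ¬ C.GU z b) ≤ C.δ₀)
    (hV : ∀ X, C.Good X → ∀ e k, e < C.P.E → k < C.P.K → ∀ κ z,
      (κ, z) ∈ OmP C.P.N C.I C.P.Dm C.K0 → adm C.P (FE C.P X e) κ z = true →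
      3 * ((lanePair C.P C.leaf (FE C.P X e) (Xe C.P X e) k κ z).Ev (2 ^ C.W)
        fun a : ℕ => (a : ℝ) ^ 2) ≤ C.P.mX * ((2 : ℝ) ^ κ / 2 ^ C.P.nb) ^ 2)
    (hsum : ((OmP C.P.N C.I C.P.Dm C.K0).card : ℝ) * C.δ₀ +
      (C.P.E * C.P.K : ℕ) * (((OmP C.P.N C.I C.P.Dm C.K0).card : ℝ) * (1 / 2 : ℝ) ^ C.s) ≤ 1 / 3) :
    C.ProbBlock := by
  have hq := q_floor hm
  refine ofSys_prob (A := sysU C.P C.leaf C.U) (eL := 1) (Nat.two_pow_pos _) hG hm hq.1 hq.2
    (fun x => dev_pos x) (fun x => ?_) ho hS hδ₀ (fun x hx => hU x.1 x.2 hx) (hV_of_good hV) ?_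
  · have h1 := (cdiv_bounds (2 ^ x.1) (Nat.two_pow_pos C.P.nb)).1
    show (2 : ℝ) ^ x.1 / 2 ^ C.P.nb + 1 ≤ ((cdiv (2 ^ x.1) (2 ^ C.P.nb) + 1 : ℕ) : ℝ)
    push_cast at h1 ⊢
    linarith
  · have h1 : ∑ l ∈ range (C.P.E * C.P.K), ((C.Om (l + 1)).card : ℝ) * (1 / 2 : ℝ) ^ C.s =
        (C.P.E * C.P.K : ℕ) * (((OmP C.P.N C.I C.P.Dm C.K0).card : ℝ) * (1 / 2 : ℝ) ^ C.s) := by
      rw [← nsmul_eq_mul, ← card_range (C.P.E * C.P.K), ← sum_const, card_range]
      rfl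
    rw [h1]
    exact hsum

end Crest.Agent.R288.ProbE20
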