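import Crest.Agent.R288.AsmD_331
import Crest.Agent.R288.AsmS_12
import Crest.Agent.R288.ProbE_20
import Crest.Agent.R288.PgWb_155

/-!
# R288 (S0433), [ASM]/[PROB] part O (helper12): the block [PROB] of the concrete configuration

Everything in `Asm331.ProbStm` except the second moment of the lanes:
* `Offs r`: the tape offsets are 155's (`fW h = nW r h`, enough words for every index);
* `hU_cfgO`: failure of INIT (772); `sum_cfgO`: the union bound;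
* **`prob_of_sq`**: `ProbStm` from: on a complete good history the second moment of every lane is
  `≤ v h * 4 ^ κ`, with `3 * v h ≤ 2 ^ (W h * Lg h)`.
-/

set_option autoImplicit false

namespace Crest.Agent.R288.ProbO12

open Filter Crest.GraphRAM Crest.Agent.R295.Rnd627
open Crest.Agent.R288.Alg45 Crest.Agent.R288.Dom20 Crest.Agent.R288.Asm331
open Crest.Agent.R288.Par806 Crest.Agent.R288.ParO331 Crest.Agent.R288.Asm12
open Crest.Agent.R288.PltT365 Crest.Agent.R288.Tape829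
open Crest.Agent.R288.Asy720 Crest.Agent.R288.Shell12

variable {x y : List ℕ} {ε : ℚ}

theorem ev_lamO : ∀ᶠ h : ℕ in atTop, gI h ≤ (h - 1) / 2 := ev_lam

/-- `2 ^ gI` divides the number of values of a word -/
theorem two_pow_gI_dvd (hN : Num x y ε) (h1 : gI (hh x y ε) ≤ (hh x y ε - 1) / 2) :
    2 ^ gI (hh x y ε) ∣ 2 ^ tapeW x y ε := by
  refine pow_dvd_pow 2 ?_
  have h2 := hN.le_size
  unfold tapeW
  omega

theorem le_Lg_of {h k : ℕ} (hk : 2 ^ k ≤ h) : k < Lg h :=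
  (Nat.pow_lt_pow_iff_right (by norm_num)).1 (hk.trans_lt (lt_two_pow_Lg h))

/-- the numbers of INIT -/
structure IniP (h : ℕ) : Prop where
  m : 2 * gI h + 2 * DI h + 12 ≤ mI h
  g : 1 ≤ gI h
  p : 4 ≤ pI h
  D : 32 * (nn h * II h + 2) * pI h ≤ 2 ^ DI h

theorem ev_iniP : ∀ᶠ h : ℕ in atTop, IniP h := by
  filter_upwards [ev_W_ge 2, Asm12.ev_nn_le, (sm_poly 1 1 0).mul_le 100, eventually_ge_atTop 256]
    with h hW hn h1 h3
  have hL := Lg_pos h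
  have hW0 := W_pos h
  have hh := lt_two_pow_Lg h
  simp only [pow_one, pow_zero, mul_one, il_zero] at h1
  have hg : gI h = W h * Lg h := rfl
  have hgp : 1 ≤ gI h := Nat.mul_pos hW0 hL
  have hL8 : 8 < Lg h := le_Lg_of (by omega)
  have hLW : Lg h ≤ W h * Lg h := Nat.le_mul_of_pos_left _ hW0
  refine ⟨?_, hgp, ?_, ?_⟩
  · have h6 : h ≤ mI h := Nat.le_mul_of_pos_left h hW0
    unfold DI
    rw [hg]
    omega
  · unfold pI
    calc 4 = 2 ^ 2 := by norm_num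
      _ ≤ 2 ^ (8 * Lg h) := Nat.pow_le_pow_right (by norm_num) (by omega)
  · unfold pI DI
    have h6 : (nn h * II h + 2) ≤ 4 * 2 ^ Lg h := by
      have := nn_II_le h
      have : 1 ≤ 2 ^ Lg h := Nat.one_le_two_pow
      omega
    calc 32 * (nn h * II h + 2) * 2 ^ (8 * Lg h) ≤ 32 * (4 * 2 ^ Lg h) * 2 ^ (8 * Lg h) := by
          gcongr
      _ = 2 ^ (9 * Lg h + 7) := by
          rw [show 9 * Lg h + 7 = 7 + (Lg h + 8 * Lg h) by ring, pow_add, pow_add]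
          ring
      _ ≤ 2 ^ (10 * Lg h) := Nat.pow_le_pow_right (by norm_num) (by omega)

/-- **INIT at the concrete configuration** -/
theorem hU_cfgO (hN : Num x y ε) (h1 : gI (hh x y ε) ≤ (hh x y ε - 1) / 2)
    (h2 : IniP (hh x y ε)) (s : St) (hs : s.i ≤ II (hh x y ε)) :
    ((cfgO x y ε).U s).Pr (2 ^ (cfgO x y ε).W) (fun b => ¬ (cfgO x y ε).GU s b) ≤
      (cfgO x y ε).δ₀ := by
  have h3 : 32 * (nn (hh x y ε) * s.i + 2) * pI (hh x y ε) ≤ 2 ^ DI (hh x y ε) :=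
    le_trans (Nat.mul_le_mul_right _ (Nat.mul_le_mul_left _
      (Nat.add_le_add_right (Nat.mul_le_mul_left _ hs) 2))) h2.D
  refine (Init772.iniU_par (x := x) (y := y) (Nat.two_pow_pos _) (two_pow_gI_dvd hN h1) h2.m h2.g
    h2.p h3).trans ?_
  show _ ≤ ((nn (hh x y ε) * II (hh x y ε) + 3 : ℕ) : ℝ) * (1 / 2) ^ mI (hh x y ε)
  refine mul_le_mul_of_nonneg_right ?_ (by positivity)
  exact_mod_cast Nat.add_le_add_right (Nat.mul_le_mul_left _ hs) 3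

theorem delta_nonneg : 0 ≤ (cfgO x y ε).δ₀ := by
  show 0 ≤ ((nn (hh x y ε) * II (hh x y ε) + 3 : ℕ) : ℝ) * (1 / 2) ^ mI (hh x y ε)
  positivity

/-- the union bound at one height -/
def SumP (h : ℕ) : Prop := ∀ K0 : ℕ, K0 < 2 ^ (nn h * II h + 1) →
    ((OmP (2 ^ nn h) (II h) (2 ^ (nn h * II h + 1)) K0).card : ℝ) *
      (((nn h * II h + 3 : ℕ) : ℝ) * (1 / 2 : ℝ) ^ (W h * h)) +
    ((EE h * KK h : ℕ) : ℝ) *
      (((OmP (2 ^ nn h) (II h) (2 ^ (nn h * II h + 1)) K0).card : ℝ) * (1 / 2 : ℝ) ^ (W h * h)) ≤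
      1 / 3

theorem ev_K0O : ∀ᶠ h : ℕ in atTop, K0O h < 2 ^ (nn h * II h + 1) := by
  filter_upwards [(sm_poly 1 1 0).mul_le 100, eventually_ge_atTop 256] with h h1 h2
  simp only [pow_one, pow_zero, mul_one, il_zero] at h1
  have h3 : h ≤ nn h * II h := h_le_nn_II h
  have h4 : ∀ k : ℕ, 8 ≤ k → 4 * k < 2 ^ (k + 1) := by
    intro k hk
    induction k, hk using Nat.le_induction with
    | base => norm_num
    | succ k hk ih => rw [pow_succ]; omega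
  have hLW : Lg h ≤ W h * Lg h := Nat.le_mul_of_pos_left _ (W_pos h)
  have hgI : gI h = W h * Lg h := rfl
  refine lt_of_le_of_lt ?_ (h4 (nn h * II h) (by omega))
  unfold K0O HH
  omega

theorem sum_cfgO (h1 : SumP (hh x y ε))
    (h2 : K0O (hh x y ε) < 2 ^ (nn (hh x y ε) * II (hh x y ε) + 1)) :
    ((OmP (cfgO x y ε).P.N (cfgO x y ε).I (cfgO x y ε).P.Dm (cfgO x y ε).K0).card : ℝ) *
        (cfgO x y ε).δ₀ +
      ((cfgO x y ε).P.E * (cfgO x y ε).P.K : ℕ) *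
        (((OmP (cfgO x y ε).P.N (cfgO x y ε).I (cfgO x y ε).P.Dm (cfgO x y ε).K0).card : ℝ) *
          (1 / 2 : ℝ) ^ (cfgO x y ε).s) ≤ 1 / 3 := h1 _ h2

/-! ### draws -/

theorem mI_le (h : ℕ) : mI h ≤ 2 ^ (200 * Lg h) := by
  have h1 : W h ≤ Lg h := W_le_Lg h
  have h2 : Lg h < 2 ^ Lg h := Nat.lt_two_pow_self
  have h3 := lt_two_pow_Lg h
  calc mI h = W h * h := rfl
    _ ≤ 2 ^ Lg h * 2 ^ Lg h := Nat.mul_le_mul (h1.trans h2.le) h3.le
    _ = 2 ^ (2 * Lg h) := by rw [← pow_add]; congr 1; ring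
    _ ≤ 2 ^ (200 * Lg h) := Nat.pow_le_pow_right (by norm_num) (by omega)

/-- `ho` and `hS` at the concrete configuration -/
theorem draws_cfgO (hw : PgW155.PwI 200 rW (hh x y ε)) (hS : PgW155.Szs 200 (hh x y ε)
    (parOf (hh x y ε))) (h0 : 1 ≤ hh x y ε) :
    (∀ l < (cfgO x y ε).P.E * (cfgO x y ε).P.K + 1, (cfgO x y ε).o l ≤ (cfgO x y ε).o (l + 1)) ∧
    ∀ l < (cfgO x y ε).P.E * (cfgO x y ε).P.K + 1, ∀ X, ∀ z ∈ (cfgO x y ε).Om l,
      ((sysU (cfgO x y ε).P (cfgO x y ε).leaf (cfgO x y ε).U).tRT l (lo l X) z).cnt.All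
        (2 ^ (cfgO x y ε).W) fun t => (cfgO x y ε).o l + t.2 ≤ (cfgO x y ε).o (l + 1) := by
  refine PgW155.draws_of (cfgO x y ε) hw hS (D := DI (hh x y ε)) (m := mI (hh x y ε))
    (p := pI (hh x y ε)) (x := x) (y := y) ?_ ?_ (mI_le _) rfl rfl (fun _ => rfl)
  · unfold DI
    omega
  · exact (Nat.mul_pos (W_pos _) h0).ne'

/-! ### the block -/

/-- **[PROB] from the second moments on complete good histories** -/
theorem prob_of_hV (hSz : ∀ᶠ h : ℕ in atTop, PgW155.Szs 200 h (parOf h))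
    (hV : Ev fun x y ε => ∀ X, (cfgO x y ε).Good X → ∀ e k, e < (cfgO x y ε).P.E →
      k < (cfgO x y ε).P.K → ∀ κ z, (κ, z) ∈ OmP (cfgO x y ε).P.N (cfgO x y ε).I
        (cfgO x y ε).P.Dm (cfgO x y ε).K0 →
      adm (cfgO x y ε).P (FE (cfgO x y ε).P X e) κ z = true →
      3 * ((lanePair (cfgO x y ε).P (cfgO x y ε).leaf (FE (cfgO x y ε).P X e)
        (Xe (cfgO x y ε).P X e) k κ z).Ev (2 ^ (cfgO x y ε).W) fun a : ℕ => (a : ℝ) ^ 2) ≤
        (cfgO x y ε).P.mX * ((2 : ℝ) ^ κ / 2 ^ (cfgO x y ε).P.nb) ^ 2) : ProbStm := by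
  have h0 : ∀ᶠ h : ℕ in atTop, gI h ≤ (h - 1) / 2 ∧ IniP h ∧ SumP h ∧
      K0O h < 2 ^ (nn h * II h + 1) ∧ PgW155.PwI 200 rW h ∧ PgW155.Szs 200 h (parOf h) ∧ 1 ≤ h := by
    filter_upwards [ev_lamO, ev_iniP, ev_sum, ev_K0O, rW_spec, hSz, eventually_ge_atTop 1] with
      h h1 h2 h3 h4 h5 h6 h7
    exact ⟨h1, h2, h3, h4, h5, h6, h7⟩
  filter_upwards [h0, hV] with h hp hV x y ε e hN
  subst e
  obtain ⟨h1, h2, h3, h4, h5, h6, h7⟩ := hp
  obtain ⟨ho, hS⟩ := draws_cfgO (x := x) (y := y) (ε := ε) h5 h6 h7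
  refine ProbE20.probBlock_of rfl (Nat.two_pow_pos _) ho hS delta_nonneg (fun κ z hz => ?_)
    (hV x y ε rfl hN) (sum_cfgO h3 h4)
  have hN0 : 0 < (cfgO x y ε).P.N := Nat.two_pow_pos _
  exact hU_cfgO hN h1 h2 z ((mem_OmP hN0).1 hz).2.1

/-- **[PROB] from second moments `≤ v 4 ^ κ`, `v` a constant** -/
theorem prob_of_sq (hSz : ∀ᶠ h : ℕ in atTop, PgW155.Szs 200 h (parOf h)) {v : ℝ}
    (hV : Ev fun x y ε => ∀ X, (cfgO x y ε).Good X → ∀ e k, e < (cfgO x y ε).P.E →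
      k < (cfgO x y ε).P.K → ∀ κ z, Dom (cfgO x y ε).P (cfgO x y ε).I z →
      adm (cfgO x y ε).P (FE (cfgO x y ε).P X e) κ z = true →
      ((lanePair (cfgO x y ε).P (cfgO x y ε).leaf (FE (cfgO x y ε).P X e)
        (Xe (cfgO x y ε).P X e) k κ z).Ev (2 ^ (cfgO x y ε).W) fun a : ℕ => (a : ℝ) ^ 2) ≤
        v * 4 ^ κ) : ProbStm := by
  refine prob_of_hV hSz ?_
  have h0 : ∀ᶠ h : ℕ in atTop, 3 * v ≤ 2 ^ (W h * Lg h) := by
    obtain ⟨n, hn⟩ := exists_nat_ge (3 * v)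
    filter_upwards [ev_W_ge n] with h h1
    have h2 : n ≤ W h * Lg h := h1.trans (Nat.le_mul_of_pos_right _ (Lg_pos h))
    have h3 : n < 2 ^ n := Nat.lt_two_pow_self
    calc 3 * v ≤ n := hn
      _ ≤ 2 ^ n := by exact_mod_cast h3.le
      _ ≤ 2 ^ (W h * Lg h) := pow_le_pow_right₀ (by norm_num) h2
  filter_upwards [h0, hV] with h h1 hV x y ε e hN X hX e' k he hk κ z hz ha
  subst e
  have hN0 : 0 < (cfgO x y ε).P.N := Nat.two_pow_pos _
  have h2 := hV x y ε rfl hN X hX e' k he hk κ z ((mem_OmP hN0).1 hz).2 ha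
  have h3 : (((cfgO x y ε).P.mX : ℕ) : ℝ) * ((2 : ℝ) ^ κ / 2 ^ (cfgO x y ε).P.nb) ^ 2 =
      2 ^ (W (hh x y ε) * Lg (hh x y ε)) * 4 ^ κ := by
    show ((2 ^ (2 * nb (hh x y ε) + W (hh x y ε) * Lg (hh x y ε)) : ℕ) : ℝ) *
      ((2 : ℝ) ^ κ / 2 ^ nb (hh x y ε)) ^ 2 = _
    push_cast
    rw [div_pow, ← pow_mul, ← pow_mul, show (4 : ℝ) = 2 ^ 2 by norm_num, ← pow_mul, pow_add,
      Nat.mul_comm 2 κ, Nat.mul_comm 2 (nb _)]
    field_simp
  rw [h3]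
  have h4 : 3 * v * 4 ^ κ ≤ 2 ^ (W (hh x y ε) * Lg (hh x y ε)) * 4 ^ κ :=
    mul_le_mul_of_nonneg_right h1 (by positivity)
  linarith

end Crest.Agent.R288.ProbO12
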