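import Crest.Agent.R288.ProbZ_12
import Crest.Agent.R288.PgWc_155
import Crest.Agent.R288.SndO_734
import Crest.Agent.R288.LipO_364
import Crest.Agent.R288.LanePar_806

/-!
# R288 (S0433): **[PROB], complete** (helper12)

`lane_stm : LaneStm` and **`prob_block : Asm331.ProbStm`**.
-/

set_option autoImplicit false

namespace Crest.Agent.R288.ProbO12

open Filter Crest.GraphRAM Crest.Agent.R295.Rnd627
open Crest.Agent.R288.Alg45 Crest.Agent.R288.Dom20 Crest.Agent.R288.Asm331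
open Crest.Agent.R288.Par806 Crest.Agent.R288.ParO331 Crest.Agent.R288.Asm12
open Crest.Agent.R288.PltT365 Crest.Agent.R288.LaneLaw944 Crest.Agent.R288.LanePar806
open Crest.Agent.R288.Asy720 Crest.Agent.R288.Shell12 Crest.Agent.R288.StmF616

/-- number of entries of a joint draw against `2 ^ sJ` -/
theorem ev_ent (d : ℕ) : ∀ᶠ h : ℕ in atTop, (eL (parOf h) + 1) * d ≤ 2 ^ sJ h := by
  filter_upwards [ev_nJ, ev_le_W (60 + d), ev_const_Lg 10] with h h1 h2 h3
  have hW := W_pos h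
  have hL := Lg_pos h
  have hM : Mg h ≤ Lg h := Mg_le_Lg h
  have hLW : Lg h ≤ W h * Lg h := Nat.le_mul_of_pos_left _ hW
  have hWL : W h ≤ W h * Lg h := Nat.le_mul_of_pos_right _ hL
  have e4 : (18 * 4 ^ (parOf h).pb) ≤ 2 ^ (5 + 32 * (W h * Lg h)) := by
    have e1 : (parOf h).pb = 16 * (W h * Lg h) := by
      show pb h = _
      unfold Par806.pb
      ring
    rw [e1, pow_add, show (4 : ℕ) = 2 ^ 2 by norm_num, ← pow_mul]
    have : 2 * (16 * (W h * Lg h)) = 32 * (W h * Lg h) := by ring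
    rw [this]
    exact Nat.mul_le_mul_right _ (by norm_num)
  have e5 : eL (parOf h) + 1 ≤ 2 ^ (15 * Mg h + (5 + 32 * (W h * Lg h)) + 1) := by
    have h5 : eL (parOf h) ≤ 2 ^ (15 * Mg h + (5 + 32 * (W h * Lg h))) := by
      rw [pow_add]
      exact Nat.mul_le_mul h1 e4
    have h6 : 1 ≤ 2 ^ (15 * Mg h + (5 + 32 * (W h * Lg h))) := Nat.one_le_two_pow
    rw [pow_succ]
    omega
  have e6 : d ≤ 2 ^ d := Nat.lt_two_pow_self.le
  calc (eL (parOf h) + 1) * d ≤ 2 ^ (15 * Mg h + (5 + 32 * (W h * Lg h)) + 1) * 2 ^ d :=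
        Nat.mul_le_mul e5 e6
    _ = 2 ^ (15 * Mg h + (5 + 32 * (W h * Lg h)) + 1 + d) := by rw [← pow_add]
    _ ≤ 2 ^ sJ h := by
        refine Nat.pow_le_pow_right (by norm_num) ?_
        have e : sJ h = W h * (W h * Lg h) := by unfold sJ; ring
        have a1 : (60 + d) * (W h * Lg h) ≤ W h * (W h * Lg h) := Nat.mul_le_mul_right _ h2
        have a2 : (60 + d) * (W h * Lg h) = 60 * (W h * Lg h) + d * (W h * Lg h) := by ring
        have a3 : d ≤ d * (W h * Lg h) := Nat.le_mul_of_pos_right _ (by positivity)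
        rw [e]
        omega

/-- **R6** -/
theorem lane_stm : LaneStm := by
  refine Ev.of (P := fun h => LaneN h ∧ dl h + 2 ≤ 2 * h ∧ GrdOK (parOf h) (K0O h + 1) ∧
    3 * wL (parOf h) * 4 ^ ((parOf h).a2 + (parOf h).bb + 2) ≤ (parOf h).mJ ∧
    (eL (parOf h) + 1) * dL (parOf h) ≤ 2 ^ sJ h) ?_ ?_
  · filter_upwards [ev_LaneN, SndO734.ev_dl, SndO734.ev_grdOK1, ev_mJ (3 * (wL (parOf 0) : ℕ)),
      ev_ent (dL (parOf 0))] with h h1 h2 h3 h4 h5
    refine ⟨h1, h2, h3, ?_, h5⟩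
    have h6 : (3 * ((wL (parOf h) : ℕ) : ℝ)) * 4 ^ ((parOf h).a2 + (parOf h).bb + 2) ≤
        ((parOf h).mJ : ℕ) := h4
    exact_mod_cast h6
  · rintro x y ε hN ⟨h1, h2, h3, h4, h5⟩
    refine
      { W0 := Nat.two_pow_pos _
        dl := pow_dvd_pow 2 ?_
        g := h1.g
        um := h1.um
        pm := h1.pm
        r := le_trans (by norm_num) h1.r
        Creg := by show 1 ≤ 8; norm_num
        pb := h1.pb
        N := h1.Λ_N
        tiny := ?_
        c0 := ?_
        gJ := ?_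
        mJ := h4
        ent := h5
        grid := ?_ }
    · have h6 := hN.le_size
      show dl (hh x y ε) ≤ 2 * Nat.size (x.length + y.length)
      omega
    · refine le_trans ?_ h1.Λ_bb
      show 4 * 2 ^ (bb (hh x y ε) + 1 + 8) ≤ 2 ^ (bb (hh x y ε) + 8 + 8)
      rw [show 4 = 2 ^ 2 by norm_num, ← pow_add]
      exact Nat.pow_le_pow_right (by norm_num) (by omega)
    · refine le_trans (le_of_eq ?_) h1.c0
      show 2 * 4 ^ 8 * (16 * 8) = 32 * 4 ^ 8 * 8
      norm_num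
    · show 12 * sJ (hh x y ε) + 1 = 2 * (6 * sJ (hh x y ε)) + 1
      ring
    · have h6 : K0O (hh x y ε) - 8 + 1 + 8 = K0O (hh x y ε) + 1 := by
        have : 32 ≤ K0O (hh x y ε) := Nat.le_add_left _ _
        omega
      show GrdOK (parOf (hh x y ε)) (K0O (hh x y ε) - 8 + 1 + 8)
      rw [h6]
      exact h3

/-- **[PROB]** -/
theorem prob_block : ProbStm :=
  prob_block_of PgW155.ev_szs LipO364.lipStm (SndO734.soundStm LipO364.lipStm) lane_stm

end Crest.Agent.R288.ProbO12
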