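import Crest.Agent.R288.ProbO_12
import Crest.Agent.R288.PgWc_155
import Crest.Agent.R288.LaneLaw_944
import Crest.Agent.R288.SoundB_829
import Crest.Agent.R288.LipO_364
import Crest.Agent.R288.LanePar_806

/-!
# R288, block [PROB] (helper829): `prob_block : Asm331.ProbStm`

* `laneNum_parOf` : the numbers of the lane law for `parOf h`;
* `sOkO`, `fokO` : soundness and `FOk` of the unit functions of a good history of `cfgO`;
* `laneO` : first and second moments of every lane of a good history of `cfgO`;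
* **`prob_block`** : [PROB].
-/

set_option autoImplicit false

namespace Crest.Agent.R288.ProbZ829

open Filter Crest.GraphRAM Crest.Agent.R295.Rnd627
open Crest.Agent.R288.Alg45 Crest.Agent.R288.Dom20 Crest.Agent.R288.Asm331
open Crest.Agent.R288.Par806 Crest.Agent.R288.ParO331 Crest.Agent.R288.Asm12
open Crest.Agent.R288.PltT365 Crest.Agent.R288.LaneLaw944 Crest.Agent.R288.Asy720
open Crest.Agent.R288.LipO364 Crest.Agent.R288.LanePar806 Crest.Agent.R288.AdmR944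

variable {x y : List ℕ} {ε : ℚ}

/-! ### the constants -/

theorem bL_parOf (h : ℕ) : bL (parOf h) = bL (parOf 0) := by unfold bL; rfl

theorem dL_parOf (h : ℕ) : dL (parOf h) = dL (parOf 0) := by
  unfold dL; rw [bL_parOf h]; rfl

theorem vL_parOf (h : ℕ) : vL (parOf h) = vL (parOf 0) := by
  unfold vL; rw [dL_parOf h, bL_parOf h]; rfl

theorem wL_parOf (h : ℕ) : wL (parOf h) = wL (parOf 0) := by
  unfold wL; rw [vL_parOf h, bL_parOf h]

/-! ### numbers -/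

theorem ev_eL : ∀ᶠ h : ℕ in atTop, eL (parOf h) + 1 ≤ 2 ^ (33 * (W h * Lg h)) := by
  filter_upwards [ev_nJ, ev_exp_le_Lg 6 0 15] with h h1 h2
  have e1 : (4 : ℕ) ^ (parOf h).pb = 2 ^ (32 * (W h * Lg h)) := by
    show (4 : ℕ) ^ pb h = _
    rw [show (4 : ℕ) = 2 ^ 2 by norm_num, ← pow_mul]
    congr 1
    unfold pb
    ring
  have h4 : eL (parOf h) ≤ 2 ^ (15 * Mg h) * (18 * 2 ^ (32 * (W h * Lg h))) := by
    unfold eL
    rw [e1]
    exact Nat.mul_le_mul_right _ h1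
  have h5 : 15 * Mg h + 6 ≤ W h * Lg h := by
    have : Lg h ≤ W h * Lg h := Nat.le_mul_of_pos_left _ (W_pos h)
    omega
  have h6 : ∀ A B : ℕ, 1 ≤ A → 1 ≤ B → A * (18 * B) + 1 ≤ 64 * (A * B) := by
    intro A B hA hB
    have a1 : 1 ≤ A * B := Nat.mul_pos hA hB
    have a2 : A * (18 * B) = 18 * (A * B) := by ring
    omega
  have h7 : 64 * (2 ^ (15 * Mg h) * 2 ^ (32 * (W h * Lg h))) =
      2 ^ (6 + (15 * Mg h + 32 * (W h * Lg h))) := by
    rw [pow_add 2 6, pow_add 2 (15 * Mg h)]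
    norm_num
  calc eL (parOf h) + 1
      ≤ 2 ^ (15 * Mg h) * (18 * 2 ^ (32 * (W h * Lg h))) + 1 := Nat.add_le_add_right h4 1
    _ ≤ 64 * (2 ^ (15 * Mg h) * 2 ^ (32 * (W h * Lg h))) :=
        h6 _ _ Nat.one_le_two_pow Nat.one_le_two_pow
    _ = 2 ^ (6 + (15 * Mg h + 32 * (W h * Lg h))) := h7
    _ ≤ 2 ^ (33 * (W h * Lg h)) := Nat.pow_le_pow_right (by norm_num) (by omega)

theorem ev_ent : ∀ᶠ h : ℕ in atTop, (eL (parOf h) + 1) * dL (parOf h) ≤ 2 ^ sJ h := by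
  filter_upwards [ev_eL, ev_le_W 34, ev_const_Lg (dL (parOf 0))] with h h1 h2 h3
  rw [dL_parOf h]
  have h4 : dL (parOf 0) ≤ 2 ^ (W h * Lg h) := by
    have h5 : dL (parOf 0) ≤ W h * Lg h :=
      h3.trans (Nat.le_mul_of_pos_left _ (W_pos h))
    exact h5.trans Nat.lt_two_pow_self.le
  have h6 : 33 * (W h * Lg h) + W h * Lg h ≤ sJ h := by
    have e : sJ h = W h * (W h * Lg h) := by unfold sJ; ring
    rw [e]
    have a1 : 34 * (W h * Lg h) ≤ W h * (W h * Lg h) := Nat.mul_le_mul_right _ h2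
    omega
  calc (eL (parOf h) + 1) * dL (parOf 0) ≤ 2 ^ (33 * (W h * Lg h)) * 2 ^ (W h * Lg h) :=
        Nat.mul_le_mul h1 h4
    _ = 2 ^ (33 * (W h * Lg h) + W h * Lg h) := by rw [pow_add]
    _ ≤ 2 ^ sJ h := Nat.pow_le_pow_right (by norm_num) h6

theorem ev_grd1 : ∀ᶠ h : ℕ in atTop, GrdOK (parOf h) (K0O h + 1) := by
  filter_upwards [ev_W_ge 32, ev_const_Lg 32] with h h1 h2
  refine grdOK_of_pow (H := nn h * II h + 1) (parOf h) rfl ?_
  show K0O h + 1 ≤ pb h + (nn h * II h + 1)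
  have h3 := Lg_pos h
  have h4 : gI h = W h * Lg h := rfl
  have h5 : pb h = 16 * (W h * Lg h) := by unfold pb; ring
  have h6 : 32 * Lg h ≤ W h * Lg h := Nat.mul_le_mul_right _ h1
  unfold K0O HH
  omega

/-- what is needed of `h` -/
structure PrP (h : ℕ) : Prop where
  L : LaneN h
  N : ParN h
  O : ParOK 1 h
  ent : (eL (parOf h) + 1) * dL (parOf h) ≤ 2 ^ sJ h
  grd : GrdOK (parOf h) (K0O h + 1)
  mJ : ((3 * wL (parOf 0) : ℕ) : ℝ) * 4 ^ ((parOf h).a2 + (parOf h).bb + 2) ≤ (parOf h).mJ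

theorem ev_PrP : ∀ᶠ h : ℕ in atTop, PrP h := by
  filter_upwards [ev_LaneN, ev_ParN, ev_ParOK 1, ev_ent, ev_grd1,
    LanePar806.ev_mJ ((3 * wL (parOf 0) : ℕ) : ℝ)] with h h1 h2 h3 h4 h5 h6
  exact ⟨h1, h2, h3, h4, h5, h6⟩

theorem PrP.dl_le {h : ℕ} (H : PrP h) : dl h ≤ h := by
  have := H.O.len_le
  omega

/-- **the numbers of the lane law** -/
theorem laneNum_parOf {h w : ℕ} (H : PrP h) (hw : dl h ≤ w) :
    LaneNum (parOf h) (2 ^ w) (2 ^ lam h) (sJ h) (K0O h - 8) where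
  W0 := Nat.two_pow_pos _
  dl := pow_dvd_pow 2 hw
  g := H.L.g
  um := H.L.um
  pm := H.L.pm
  r := le_trans (by norm_num) H.L.r
  Creg := by rw [H.L.Creg]; norm_num
  pb := H.L.pb
  N := H.L.Λ_N
  tiny := by
    refine le_trans ?_ H.L.Λ_bb
    have h1 : ∀ a b : ℕ, 4 * 2 ^ (a + 1 + b) ≤ 2 ^ (a + b + 8) := by
      intro a b
      rw [show a + b + 8 = (a + 1 + b) + 7 by ring, pow_add 2 (a + 1 + b) 7, mul_comm 4]
      exact Nat.mul_le_mul_left _ (by norm_num)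
    exact h1 _ _
  c0 := by
    refine le_trans (le_of_eq ?_) H.L.c0
    ring
  gJ := by rw [H.L.gJ]; ring
  mJ := by
    have h1 := H.mJ
    rw [wL_parOf h]
    exact_mod_cast h1
  ent := H.ent
  grid := by
    have h1 : K0O h - 8 + 1 + (parOf h).a2 = K0O h + 1 := by
      rw [H.L.a2]
      unfold K0O
      omega
    rw [h1]
    exact H.grd

/-! ### soundness of a good history of `cfgO` -/

theorem dl_le_tapeW (hN : Num x y ε) (H : PrP (hh x y ε)) :
    dl (hh x y ε) ≤ tapeW x y ε := by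
  have h1 := H.dl_le
  have h2 := hN.le_size
  have h3 : 1 ≤ W (hh x y ε) * Lg (hh x y ε) := Nat.mul_pos (W_pos _) (Lg_pos _)
  have h4 : dl (hh x y ε) = 8 * (W (hh x y ε) * Lg (hh x y ε)) := by unfold dl; ring
  unfold tapeW
  omega

/-- `Sound829.SOk` at `cfgO` -/
theorem sOkO (hN : Num x y ε) (H : PrP (hh x y ε)) :
    Sound829.SOk (cfgO x y ε) x y (2 ^ lam (hh x y ε)) where
  gd := H.grd
  r := le_trans (by norm_num) H.L.r
  pb := H.L.pb
  g := H.L.g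
  um := H.L.um
  dl := dl_le_tapeW hN H
  leaf := fun _ _ => rfl

/-- everything at an input -/
theorem fokO' (hN : Num x y ε) (H : PrP (hh x y ε)) {X : ℕ → ℕ × St → ℕ}
    (hX : (cfgO x y ε).Good X) {e : ℕ} (he : e ≤ (cfgO x y ε).P.E) :
    FOk (cfgO x y ε).leaf (FE (cfgO x y ε).P X e) (Dom (cfgO x y ε).P (cfgO x y ε).I)
      (2 ^ lam (hh x y ε)) :=
  Sound829.fok hX (lipOk hN H.N H.O.KK_pos) (sOkO hN H) (ζO_le H.N.Lg16) he

theorem cls_leO (hN : Num x y ε) (H : PrP (hh x y ε)) {X : ℕ → ℕ × St → ℕ}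
    (hX : (cfgO x y ε).Good X) (e : ℕ) {s : St} (hs : Dom (cfgO x y ε).P (cfgO x y ε).I s) :
    cls (FE (cfgO x y ε).P X e) s ≤ K0O (hh x y ε) - 8 := by
  have h1 : cls (FE (cfgO x y ε).P X e) s + 8 ≤ K0O (hh x y ε) :=
    AnaLip364.cls_le hX (lipOk hN H.N H.O.KK_pos) e hs
  omega

/-- **the lane law at `cfgO`** -/
theorem laneO' (hN : Num x y ε) (H : PrP (hh x y ε)) {X : ℕ → ℕ × St → ℕ}
    (hX : (cfgO x y ε).Good X) {e : ℕ} (he : e ≤ (cfgO x y ε).P.E) (k κ : ℕ) (z : St)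
    (hz : Dom (cfgO x y ε).P (cfgO x y ε).I z)
    (ha : adm (cfgO x y ε).P (FE (cfgO x y ε).P X e) κ z = true) :
    ((lanePair (cfgO x y ε).P (cfgO x y ε).leaf (FE (cfgO x y ε).P X e)
        (Xe (cfgO x y ε).P X e) k κ z).Ev (2 ^ (cfgO x y ε).W) fun a : ℕ => (a : ℝ)) ≤
      7 * 2 ^ κ ∧
    ((lanePair (cfgO x y ε).P (cfgO x y ε).leaf (FE (cfgO x y ε).P X e)
        (Xe (cfgO x y ε).P X e) k κ z).Ev (2 ^ (cfgO x y ε).W) fun a : ℕ => (a : ℝ) ^ 2) ≤
      vL (parOf 0) * 4 ^ κ := by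
  have h1 := (laneNum_parOf (w := (cfgO x y ε).W) H (dl_le_tapeW hN H)).lane_sq
    (X := Xe (cfgO x y ε).P X e) (k := k) (fokO' hN H hX he)
    (fun _ hs => cls_leO hN H hX e hs) κ z hz ha
  refine ⟨h1.1, h1.2.trans (le_of_eq ?_)⟩
  rw [vL_parOf]

/-- **[PROB]** -/
theorem prob_block : ProbStm := by
  refine ProbO12.prob_of_sq (v := (vL (parOf 0) : ℝ)) PgW155.ev_szs ?_
  refine Ev.of ev_PrP fun x y ε hN H X hX e k he hk κ z hz ha => ?_
  exact (laneO' hN H hX he.le k κ z hz ha).2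

end Crest.Agent.R288.ProbZ829
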