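import Mathlib

/-!
# R288: product weights with a greedy flag (REMARK 288-504)

One state, letters in a finset `S` of any type, `x k z ∈ [0,o]` the excess of the letter `z` at rank
`k` over a lower bound of all letters, weights `pw π γ x k z = π z * ∏_{i<k} (1 - γ x i z)`
(no exponential, no logarithm in the program), `ker = pw / tot`.

* `small_loss` : `∑_k <ker k, x k> ≤ (1 + γ o) ∑_k x k z + log (1/π z)/γ`   (`γ o ≤ 1/2`)
* `prod_greedy`: `γ o ≤ q ≤ 1`: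
  `r k ≤ (1-q) <ker k, u k> + q b k + e k`, `b k ≤ u k ≤ b k + o`  ⟹
  `∑ r ≤ ∑ u k z + log (1/π z)/γ + ∑ e`            (lemma (B) of #3987 without exp/ln/LSE)
* `ker_noise`, `mean_noise`: kernels computed from estimates `|x' i z - x i z| ≤ d`, `γ o ≤ 1/2`:
  factor `exp (4 γ k d)`.
* `fw`: the fixed point loop `w ↦ w * (D - X) / D` (floor), `fw_le`, `le_fw`: `0 ≤ W·pw - fw ≤ k`.
* `prod_mode`: two options, prior `(1-μ, μ)`: regret against the first `≤ 2μ/γ`, against the second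
  `≤ log (1/μ)/γ`.
-/

set_option autoImplicit false

namespace Crest.Agent.R288.ProdG504

open Finset

variable {Z : Type*}

/-- product weights -/
noncomputable def pw (π : Z → ℝ) (γ : ℝ) (x : ℕ → Z → ℝ) (k : ℕ) (z : Z) : ℝ :=
  π z * ∏ i ∈ range k, (1 - γ * x i z)

/-- total weight -/
noncomputable def tot (S : Finset Z) (π : Z → ℝ) (γ : ℝ) (x : ℕ → Z → ℝ) (k : ℕ) : ℝ :=
  ∑ z ∈ S, pw π γ x k z

/-- the kernel -/
noncomputable def ker (S : Finset Z) (π : Z → ℝ) (γ : ℝ) (x : ℕ → Z → ℝ) (k : ℕ) (z : Z) : ℝ :=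
  pw π γ x k z / tot S π γ x k

@[simp] theorem pw_zero (π : Z → ℝ) (γ : ℝ) (x : ℕ → Z → ℝ) (z : Z) : pw π γ x 0 z = π z := by
  simp [pw]

theorem pw_succ (π : Z → ℝ) (γ : ℝ) (x : ℕ → Z → ℝ) (k : ℕ) (z : Z) :
    pw π γ x (k + 1) z = pw π γ x k z * (1 - γ * x k z) := by
  simp only [pw, prod_range_succ]; ring

/-- `exp(-(1+a) y) ≤ 1 - y` for `0 ≤ y ≤ a ≤ 1/2` -/
theorem exp_neg_le {a y : ℝ} (h0 : 0 ≤ y) (ha : y ≤ a) (h2 : a ≤ 1 / 2) :
    Real.exp (-((1 + a) * y)) ≤ 1 - y := by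
  have hy : y ≤ 1 / 2 := ha.trans h2
  have h1 : (0 : ℝ) < 1 - y := by linarith
  have h3 := Real.quadratic_le_exp_of_nonneg (x := y + y ^ 2) (by positivity)
  have h6 : y ^ 2 ≤ 1 / 4 := by nlinarith
  have h7 : y ^ 3 ≤ 1 / 8 := by
    have : y ^ 3 = y * y ^ 2 := by ring
    rw [this]; nlinarith [sq_nonneg y]
  have h4 : 1 ≤ (1 + (y + y ^ 2) + (y + y ^ 2) ^ 2 / 2) * (1 - y) := by
    have e : (1 + (y + y ^ 2) + (y + y ^ 2) ^ 2 / 2) * (1 - y)
        = 1 + y ^ 2 / 2 * (1 - y - y ^ 2 - y ^ 3) := by ring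
    rw [e]
    have : 0 ≤ y ^ 2 / 2 * (1 - y - y ^ 2 - y ^ 3) :=
      mul_nonneg (by positivity) (by linarith)
    linarith
  have h5 : 1 ≤ Real.exp (y + y ^ 2) * (1 - y) :=
    h4.trans (mul_le_mul_of_nonneg_right h3 h1.le)
  have h8 : -((1 + a) * y) ≤ -(y + y ^ 2) := by nlinarith
  calc Real.exp (-((1 + a) * y)) ≤ Real.exp (-(y + y ^ 2)) := Real.exp_le_exp.mpr h8
    _ = Real.exp (-(y + y ^ 2)) * 1 := (mul_one _).symm
    _ ≤ Real.exp (-(y + y ^ 2)) * (Real.exp (y + y ^ 2) * (1 - y)) :=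
        mul_le_mul_of_nonneg_left h5 (Real.exp_pos _).le
    _ = 1 - y := by rw [← mul_assoc, ← Real.exp_add]; simp

section basic

variable {S : Finset Z} {π : Z → ℝ} {γ o : ℝ} {x : ℕ → Z → ℝ} {K : ℕ}

theorem pw_nonneg (hπ : ∀ z ∈ S, 0 ≤ π z) (hγ : 0 ≤ γ) (ho : γ * o ≤ 1 / 2)
    (hx : ∀ k < K, ∀ z ∈ S, 0 ≤ x k z ∧ x k z ≤ o) {k : ℕ} (hk : k ≤ K) {z : Z} (hz : z ∈ S) :
    0 ≤ pw π γ x k z := by
  refine mul_nonneg (hπ z hz) (prod_nonneg fun i hi => ?_)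
  have h := hx i (lt_of_lt_of_le (mem_range.mp hi) hk) z hz
  have := mul_le_mul_of_nonneg_left h.2 hγ
  linarith

/-- lower bound of the weight of a letter -/
theorem le_pw (hπ : ∀ z ∈ S, 0 ≤ π z) (hγ : 0 ≤ γ) (ho : γ * o ≤ 1 / 2)
    (hx : ∀ k < K, ∀ z ∈ S, 0 ≤ x k z ∧ x k z ≤ o) {k : ℕ} (hk : k ≤ K) {z : Z} (hz : z ∈ S) :
    π z * Real.exp (-((1 + γ * o) * γ * ∑ i ∈ range k, x i z)) ≤ pw π γ x k z := by
  induction k with
  | zero => simp
  | succ k ih =>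
    have hk' : k < K := hk
    have h := hx k hk' z hz
    rw [pw_succ, sum_range_succ]
    have e1 : Real.exp (-((1 + γ * o) * γ * (∑ i ∈ range k, x i z + x k z)))
        = Real.exp (-((1 + γ * o) * γ * ∑ i ∈ range k, x i z))
          * Real.exp (-((1 + γ * o) * (γ * x k z))) := by
      rw [← Real.exp_add]; congr 1; ring
    rw [e1, ← mul_assoc]
    have h2 := exp_neg_le (mul_nonneg hγ h.1) (mul_le_mul_of_nonneg_left h.2 hγ) ho
    exact mul_le_mul (ih hk'.le) h2 (Real.exp_pos _).le (pw_nonneg hπ hγ ho hx hk'.le hz)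

theorem tot_pos (hπ : ∀ z ∈ S, 0 ≤ π z) (h1 : ∑ z ∈ S, π z = 1) (hγ : 0 ≤ γ) (ho : γ * o ≤ 1 / 2)
    (hx : ∀ k < K, ∀ z ∈ S, 0 ≤ x k z ∧ x k z ≤ o) {k : ℕ} (hk : k ≤ K) : 0 < tot S π γ x k := by
  obtain ⟨z, hz, hp⟩ : ∃ z ∈ S, 0 < π z := by
    by_contra hcon
    push Not at hcon
    have : ∑ z ∈ S, π z ≤ 0 := sum_nonpos hcon
    linarith
  refine sum_pos' (fun _ hy => pw_nonneg hπ hγ ho hx hk hy) ⟨z, hz, ?_⟩
  exact lt_of_lt_of_le (mul_pos hp (Real.exp_pos _)) (le_pw hπ hγ ho hx hk hz)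

theorem ker_nonneg (hπ : ∀ z ∈ S, 0 ≤ π z) (hγ : 0 ≤ γ)
    (ho : γ * o ≤ 1 / 2) (hx : ∀ k < K, ∀ z ∈ S, 0 ≤ x k z ∧ x k z ≤ o) {k : ℕ} (hk : k ≤ K)
    {z : Z} (hz : z ∈ S) : 0 ≤ ker S π γ x k z :=
  div_nonneg (pw_nonneg hπ hγ ho hx hk hz)
    (sum_nonneg fun _ hy => pw_nonneg hπ hγ ho hx hk hy)

theorem ker_sum (hπ : ∀ z ∈ S, 0 ≤ π z) (h1 : ∑ z ∈ S, π z = 1) (hγ : 0 ≤ γ)
    (ho : γ * o ≤ 1 / 2) (hx : ∀ k < K, ∀ z ∈ S, 0 ≤ x k z ∧ x k z ≤ o) {k : ℕ} (hk : k ≤ K) :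
    ∑ z ∈ S, ker S π γ x k z = 1 := by
  have h := tot_pos hπ h1 hγ ho hx hk
  simp only [ker, ← sum_div]
  exact div_self h.ne'

/-- one step of the total weight -/
theorem tot_succ (hπ : ∀ z ∈ S, 0 ≤ π z) (h1 : ∑ z ∈ S, π z = 1) (hγ : 0 ≤ γ)
    (ho : γ * o ≤ 1 / 2) (hx : ∀ k < K, ∀ z ∈ S, 0 ≤ x k z ∧ x k z ≤ o) {k : ℕ} (hk : k ≤ K) :
    tot S π γ x (k + 1)
      = tot S π γ x k * (1 - γ * ∑ z ∈ S, ker S π γ x k z * x k z) := by
  have h := (tot_pos hπ h1 hγ ho hx hk).ne'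
  have e1 : tot S π γ x k * ∑ z ∈ S, ker S π γ x k z * x k z = ∑ z ∈ S, pw π γ x k z * x k z := by
    rw [mul_sum]
    refine sum_congr rfl fun z _ => ?_
    unfold ker
    field_simp
  have e2 : tot S π γ x (k + 1) = tot S π γ x k - γ * ∑ z ∈ S, pw π γ x k z * x k z := by
    simp only [tot, pw_succ, mul_sum, ← sum_sub_distrib]
    exact sum_congr rfl fun z _ => by ring
  rw [e2, ← e1]; ring

/-- **small loss bound** for the product weights -/
theorem small_loss (hπ : ∀ z ∈ S, 0 ≤ π z) (h1 : ∑ z ∈ S, π z = 1) (hγ : 0 < γ)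
    (ho : γ * o ≤ 1 / 2) (hx : ∀ k < K, ∀ z ∈ S, 0 ≤ x k z ∧ x k z ≤ o) {z : Z} (hz : z ∈ S)
    (hp : 0 < π z) :
    ∑ k ∈ range K, ∑ y ∈ S, ker S π γ x k y * x k y
      ≤ (1 + γ * o) * ∑ k ∈ range K, x k z + Real.log (1 / π z) / γ := by
  have key : ∀ k ≤ K, tot S π γ x k
      ≤ Real.exp (-(γ * ∑ i ∈ range k, ∑ y ∈ S, ker S π γ x i y * x i y)) := by
    intro k
    induction k with
    | zero => intro _; simp [tot, h1]
    | succ k ih =>
      intro hk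
      have hk' : k ≤ K := Nat.le_of_succ_le hk
      rw [tot_succ hπ h1 hγ.le ho hx hk', sum_range_succ]
      have e1 : Real.exp (-(γ * (∑ i ∈ range k, ∑ y ∈ S, ker S π γ x i y * x i y
            + ∑ y ∈ S, ker S π γ x k y * x k y)))
          = Real.exp (-(γ * ∑ i ∈ range k, ∑ y ∈ S, ker S π γ x i y * x i y))
            * Real.exp (-(γ * ∑ y ∈ S, ker S π γ x k y * x k y)) := by
        rw [← Real.exp_add]; congr 1; ring
      rw [e1]
      have h2 : 1 - γ * ∑ y ∈ S, ker S π γ x k y * x k y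
          ≤ Real.exp (-(γ * ∑ y ∈ S, ker S π γ x k y * x k y)) := by
        have := Real.add_one_le_exp (-(γ * ∑ y ∈ S, ker S π γ x k y * x k y))
        linarith
      calc tot S π γ x k * (1 - γ * ∑ y ∈ S, ker S π γ x k y * x k y)
          ≤ tot S π γ x k * Real.exp (-(γ * ∑ y ∈ S, ker S π γ x k y * x k y)) :=
            mul_le_mul_of_nonneg_left h2 (tot_pos hπ h1 hγ.le ho hx hk').le
        _ ≤ _ := mul_le_mul_of_nonneg_right (ih hk') (Real.exp_pos _).le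
  have h3 : pw π γ x K z ≤ tot S π γ x K :=
    single_le_sum (f := fun z => pw π γ x K z)
      (fun y hy => pw_nonneg hπ hγ.le ho hx le_rfl hy) hz
  have h4 := (le_pw hπ hγ.le ho hx le_rfl hz).trans (h3.trans (key K le_rfl))
  have h5 := Real.log_le_log (mul_pos hp (Real.exp_pos _)) h4
  rw [Real.log_mul hp.ne' (Real.exp_pos _).ne', Real.log_exp, Real.log_exp] at h5
  have e6 : Real.log (1 / π z) = -Real.log (π z) := by
    rw [one_div, Real.log_inv]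
  rw [e6]
  set P := ∑ k ∈ range K, ∑ y ∈ S, ker S π γ x k y * x k y with hP
  set Q := ∑ k ∈ range K, x k z with hQ
  have h7 : γ * P ≤ γ * ((1 + γ * o) * Q + -Real.log (π z) / γ) := by
    have : γ * ((1 + γ * o) * Q + -Real.log (π z) / γ) = (1 + γ * o) * γ * Q - Real.log (π z) := by
      field_simp
      ring
    rw [this]; linarith
  exact le_of_mul_le_mul_left h7 hγ

/-- the greedy fraction pays for the second order term: `(1-q) P ≤ Q + log(1/π)/γ` -/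
theorem prod_core (hπ : ∀ z ∈ S, 0 ≤ π z) (h1 : ∑ z ∈ S, π z = 1) (hγ : 0 < γ)
    (ho : γ * o ≤ 1 / 2) {q : ℝ} (hq0 : 0 ≤ q) (hq1 : q ≤ 1) (hoq : γ * o ≤ q)
    (hx : ∀ k < K, ∀ z ∈ S, 0 ≤ x k z ∧ x k z ≤ o) {z : Z} (hz : z ∈ S) (hp : 0 < π z) :
    (1 - q) * ∑ k ∈ range K, ∑ y ∈ S, ker S π γ x k y * x k y
      ≤ ∑ k ∈ range K, x k z + Real.log (1 / π z) / γ := by
  have h := small_loss hπ h1 hγ ho hx hz hp
  have hQ : 0 ≤ ∑ k ∈ range K, x k z :=
    sum_nonneg fun k hk => (hx k (mem_range.mp hk) z hz).1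
  have hple : π z ≤ 1 := by
    rw [← h1]; exact single_le_sum (f := π) hπ hz
  have hL : 0 ≤ Real.log (1 / π z) / γ := by
    refine div_nonneg (Real.log_nonneg ?_) hγ.le
    rw [le_div_iff₀ hp]; linarith
  have h2 := mul_le_mul_of_nonneg_left h (sub_nonneg.mpr hq1)
  have h3 : (1 - q) * (1 + γ * o) ≤ 1 := by nlinarith
  have h4 := mul_le_mul_of_nonneg_right h3 hQ
  have h5 : (1 - q) * (Real.log (1 / π z) / γ) ≤ Real.log (1 / π z) / γ := by nlinarith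
  nlinarith

/-- **(B) of #3987 with product weights**: one state, all ranks, greedy with probability `q`. -/
theorem prod_greedy {u : ℕ → Z → ℝ} {b e r : ℕ → ℝ}
    (hπ : ∀ z ∈ S, 0 ≤ π z) (h1 : ∑ z ∈ S, π z = 1) (hγ : 0 < γ)
    (ho : γ * o ≤ 1 / 2) {q : ℝ} (hq0 : 0 ≤ q) (hq1 : q ≤ 1) (hoq : γ * o ≤ q)
    (hu : ∀ k < K, ∀ z ∈ S, b k ≤ u k z ∧ u k z ≤ b k + o)
    (hr : ∀ k < K, r k ≤ (1 - q) * ∑ y ∈ S, ker S π γ (fun i z => u i z - b i) k y * u k y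
      + q * b k + e k)
    {z : Z} (hz : z ∈ S) (hp : 0 < π z) :
    ∑ k ∈ range K, r k ≤ ∑ k ∈ range K, u k z + Real.log (1 / π z) / γ + ∑ k ∈ range K, e k := by
  have hx : ∀ k < K, ∀ z ∈ S, 0 ≤ (fun i z => u i z - b i) k z ∧ (fun i z => u i z - b i) k z ≤ o :=
    fun k hk z hz => ⟨by simpa using (hu k hk z hz).1, by
      have := (hu k hk z hz).2
      simp only; linarith⟩
  have h := prod_core hπ h1 hγ ho hq0 hq1 hoq hx hz hp
  have h2 : ∀ k ∈ range K, r k ≤ b k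
      + (1 - q) * ∑ y ∈ S, ker S π γ (fun i z => u i z - b i) k y * (u k y - b k) + e k := by
    intro k hk
    have hk' := mem_range.mp hk
    refine (hr k hk').trans (le_of_eq ?_)
    have e1 : ∑ y ∈ S, ker S π γ (fun i z => u i z - b i) k y * (u k y - b k)
        = ∑ y ∈ S, ker S π γ (fun i z => u i z - b i) k y * u k y - b k := by
      simp only [mul_sub, sum_sub_distrib, ← sum_mul]
      rw [ker_sum hπ h1 hγ.le ho hx hk'.le, one_mul]
    rw [e1]; ring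
  have h3 := sum_le_sum h2
  simp only [sum_add_distrib, ← mul_sum] at h3
  have e4 : ∑ k ∈ range K, (u k z - b k) = ∑ k ∈ range K, u k z - ∑ k ∈ range K, b k := by
    rw [sum_sub_distrib]
  rw [e4] at h
  linarith

/-- plain version (no greedy fraction): the second order term stays -/
theorem prod_plain {u : ℕ → Z → ℝ} {b e r : ℕ → ℝ}
    (hπ : ∀ z ∈ S, 0 ≤ π z) (h1 : ∑ z ∈ S, π z = 1) (hγ : 0 < γ) (ho0 : 0 ≤ o)
    (ho : γ * o ≤ 1 / 2)
    (hu : ∀ k < K, ∀ z ∈ S, b k ≤ u k z ∧ u k z ≤ b k + o)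
    (hr : ∀ k < K, r k ≤ ∑ y ∈ S, ker S π γ (fun i z => u i z - b i) k y * u k y + e k)
    {z : Z} (hz : z ∈ S) (hp : 0 < π z) :
    ∑ k ∈ range K, r k ≤ ∑ k ∈ range K, u k z + Real.log (1 / π z) / γ + K * (γ * o ^ 2)
      + ∑ k ∈ range K, e k := by
  have hx : ∀ k < K, ∀ z ∈ S, 0 ≤ (fun i z => u i z - b i) k z ∧ (fun i z => u i z - b i) k z ≤ o :=
    fun k hk z hz => ⟨by simpa using (hu k hk z hz).1, by
      have := (hu k hk z hz).2
      simp only; linarith⟩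
  have h := small_loss hπ h1 hγ ho hx hz hp
  have h2 : ∀ k ∈ range K, r k ≤ b k
      + ∑ y ∈ S, ker S π γ (fun i z => u i z - b i) k y * (u k y - b k) + e k := by
    intro k hk
    have hk' := mem_range.mp hk
    refine (hr k hk').trans (le_of_eq ?_)
    have e1 : ∑ y ∈ S, ker S π γ (fun i z => u i z - b i) k y * (u k y - b k)
        = ∑ y ∈ S, ker S π γ (fun i z => u i z - b i) k y * u k y - b k := by
      simp only [mul_sub, sum_sub_distrib, ← sum_mul]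
      rw [ker_sum hπ h1 hγ.le ho hx hk'.le, one_mul]
    rw [e1]; ring
  have h3 := sum_le_sum h2
  simp only [sum_add_distrib] at h3
  have hQ : ∑ k ∈ range K, (u k z - b k) ≤ K * o := by
    calc ∑ k ∈ range K, (u k z - b k) ≤ ∑ k ∈ range K, o :=
          sum_le_sum fun k hk => (hx k (mem_range.mp hk) z hz).2
      _ = K * o := by simp
  have e4 : ∑ k ∈ range K, (u k z - b k) = ∑ k ∈ range K, u k z - ∑ k ∈ range K, b k := by
    rw [sum_sub_distrib]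
  have h5 : γ * o * ∑ k ∈ range K, (u k z - b k) ≤ K * (γ * o ^ 2) := by
    have := mul_le_mul_of_nonneg_left hQ (mul_nonneg hγ.le ho0)
    nlinarith
  nlinarith

end basic

/-! ### two options with a special first one (`mode`) -/

/-- prior `(1-μ, μ)` on `Bool` (`false` = special option) -/
noncomputable def pr2 (μ : ℝ) (z : Bool) : ℝ := bif z then μ else 1 - μ

theorem log_inv_le {μ : ℝ} (h0 : 0 ≤ μ) (h2 : μ ≤ 1 / 2) : Real.log (1 / (1 - μ)) ≤ 2 * μ := by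
  have h1 : (0 : ℝ) < 1 - μ := by linarith
  have := Real.add_one_le_exp (2 * μ)
  rw [Real.log_le_iff_le_exp (by positivity)]
  calc 1 / (1 - μ) ≤ 1 + 2 * μ := by rw [div_le_iff₀ h1]; nlinarith
    _ ≤ _ := by linarith

/-- the mode decision: regret `≤ 2μ/γ` against the special option `false`,
`≤ log(1/μ)/γ` against the option `true` -/
theorem prod_mode {γ o μ : ℝ} {K : ℕ} {u : ℕ → Bool → ℝ} {b e r : ℕ → ℝ} (hγ : 0 < γ)
    (hμ : 0 < μ) (hμ2 : μ ≤ 1 / 2)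
    (ho : γ * o ≤ 1 / 2) {q : ℝ} (hq0 : 0 ≤ q) (hq1 : q ≤ 1) (hoq : γ * o ≤ q)
    (hu : ∀ k < K, ∀ z, b k ≤ u k z ∧ u k z ≤ b k + o)
    (hr : ∀ k < K, r k ≤ (1 - q) * ∑ y, ker univ (pr2 μ) γ (fun i z => u i z - b i) k y * u k y
      + q * b k + e k) :
    ∑ k ∈ range K, r k ≤ ∑ k ∈ range K, u k false + 2 * μ / γ + ∑ k ∈ range K, e k ∧
    ∑ k ∈ range K, r k ≤ ∑ k ∈ range K, u k true + Real.log (1 / μ) / γ + ∑ k ∈ range K, e k := by
  have hπ : ∀ z ∈ (univ : Finset Bool), 0 ≤ pr2 μ z := by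
    intro z _; cases z <;> simp [pr2] <;> linarith
  have h1 : ∑ z ∈ (univ : Finset Bool), pr2 μ z = 1 := by simp [pr2]
  constructor
  · have h := prod_greedy hπ h1 hγ ho hq0 hq1 hoq (fun k hk z _ => hu k hk z) hr
      (mem_univ false) (by simp [pr2]; linarith)
    have h3 : Real.log (1 / pr2 μ false) / γ ≤ 2 * μ / γ :=
      div_le_div_of_nonneg_right (by simpa [pr2] using log_inv_le hμ.le hμ2) hγ.le
    linarith
  · simpa [pr2] using prod_greedy hπ h1 hγ ho hq0 hq1 hoq (fun k hk z _ => hu k hk z) hr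
      (mem_univ true) (by simpa [pr2] using hμ)

/-! ### noise in the estimates -/

section noise

variable {S : Finset Z} {π : Z → ℝ} {γ o d : ℝ} {x x' : ℕ → Z → ℝ} {K : ℕ}

theorem pw_noise (hπ : ∀ z ∈ S, 0 ≤ π z) (hγ : 0 ≤ γ) (ho : γ * o ≤ 1 / 2)
    (hx : ∀ k < K, ∀ z ∈ S, 0 ≤ x k z ∧ x k z ≤ o)
    (hx' : ∀ k < K, ∀ z ∈ S, 0 ≤ x' k z ∧ x' k z ≤ o)
    (hd : ∀ k < K, ∀ z ∈ S, |x' k z - x k z| ≤ d) {k : ℕ} (hk : k ≤ K) {z : Z} (hz : z ∈ S) :
    pw π γ x' k z ≤ Real.exp (2 * γ * k * d) * pw π γ x k z := by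
  induction k with
  | zero => simp
  | succ k ih =>
    have hk' : k < K := hk
    rw [pw_succ, pw_succ]
    have a := hx k hk' z hz
    have a' := hx' k hk' z hz
    have hd' := hd k hk' z hz
    have h2 : 1 - γ * x' k z ≤ Real.exp (2 * γ * d) * (1 - γ * x k z) := by
      have h3 : (1 : ℝ) / 2 ≤ 1 - γ * x k z := by
        have := mul_le_mul_of_nonneg_left a.2 hγ; linarith
      have h4 : 1 - γ * x' k z ≤ (1 - γ * x k z) + γ * d := by
        have h5 : x k z - x' k z ≤ d := by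
          have := (abs_le.mp hd').1; linarith
        nlinarith
      have hd0 : 0 ≤ d := (abs_nonneg _).trans hd'
      have h5 : γ * d ≤ (2 * γ * d) * (1 - γ * x k z) := by
        nlinarith [mul_nonneg hγ hd0]
      have h6 := Real.add_one_le_exp (2 * γ * d)
      nlinarith
    have e1 : Real.exp (2 * γ * ((k + 1 : ℕ) : ℝ) * d)
        = Real.exp (2 * γ * k * d) * Real.exp (2 * γ * d) := by
      rw [← Real.exp_add]; congr 1; push_cast; ring
    rw [e1]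
    have h7 : 0 ≤ 1 - γ * x' k z := by
      have := mul_le_mul_of_nonneg_left a'.2 hγ; linarith
    calc pw π γ x' k z * (1 - γ * x' k z)
        ≤ (Real.exp (2 * γ * k * d) * pw π γ x k z)
          * (Real.exp (2 * γ * d) * (1 - γ * x k z)) :=
          mul_le_mul (ih hk'.le) h2 h7
            (mul_nonneg (Real.exp_pos _).le (pw_nonneg hπ hγ ho hx hk'.le hz))
      _ = _ := by ring

/-- kernels computed from estimates of precision `d` -/
theorem ker_noise (hπ : ∀ z ∈ S, 0 ≤ π z) (h1 : ∑ z ∈ S, π z = 1) (hγ : 0 ≤ γ)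
    (ho : γ * o ≤ 1 / 2) (hx : ∀ k < K, ∀ z ∈ S, 0 ≤ x k z ∧ x k z ≤ o)
    (hx' : ∀ k < K, ∀ z ∈ S, 0 ≤ x' k z ∧ x' k z ≤ o)
    (hd : ∀ k < K, ∀ z ∈ S, |x' k z - x k z| ≤ d) {k : ℕ} (hk : k ≤ K) {z : Z} (hz : z ∈ S) :
    ker S π γ x' k z ≤ Real.exp (4 * γ * k * d) * ker S π γ x k z := by
  have ht := tot_pos hπ h1 hγ ho hx hk
  have ht' := tot_pos hπ h1 hγ ho hx' hk
  have h2 := pw_noise hπ hγ ho hx hx' hd hk hz
  have hd2 : ∀ k < K, ∀ z ∈ S, |x k z - x' k z| ≤ d := fun k hk z hz => by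
    rw [abs_sub_comm]; exact hd k hk z hz
  have h3 : tot S π γ x k ≤ Real.exp (2 * γ * k * d) * tot S π γ x' k := by
    rw [tot, tot, mul_sum]
    exact sum_le_sum fun y hy => pw_noise hπ hγ ho hx' hx hd2 hk hy
  unfold ker
  rw [div_le_iff₀ ht']
  have e1 : Real.exp (4 * γ * k * d) = Real.exp (2 * γ * k * d) * Real.exp (2 * γ * k * d) := by
    rw [← Real.exp_add]; congr 1; ring
  have hp := pw_nonneg hπ hγ ho hx hk hz
  calc pw π γ x' k z ≤ Real.exp (2 * γ * k * d) * pw π γ x k z := h2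
    _ = Real.exp (2 * γ * k * d) * (pw π γ x k z / tot S π γ x k) * tot S π γ x k := by
        field_simp
    _ ≤ Real.exp (2 * γ * k * d) * (pw π γ x k z / tot S π γ x k)
        * (Real.exp (2 * γ * k * d) * tot S π γ x' k) :=
        mul_le_mul_of_nonneg_left h3
          (mul_nonneg (Real.exp_pos _).le (div_nonneg hp ht.le))
    _ = _ := by rw [e1]; ring

/-- mean of `f ∈ [b, b+o']` under the noisy kernel -/
theorem mean_noise (hπ : ∀ z ∈ S, 0 ≤ π z) (h1 : ∑ z ∈ S, π z = 1) (hγ : 0 ≤ γ)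
    (ho : γ * o ≤ 1 / 2) (hx : ∀ k < K, ∀ z ∈ S, 0 ≤ x k z ∧ x k z ≤ o)
    (hx' : ∀ k < K, ∀ z ∈ S, 0 ≤ x' k z ∧ x' k z ≤ o)
    (hd : ∀ k < K, ∀ z ∈ S, |x' k z - x k z| ≤ d) {k : ℕ} (hk : k ≤ K) {f : Z → ℝ} {b o' : ℝ}
    (hd0 : 0 ≤ d) (hf : ∀ z ∈ S, b ≤ f z ∧ f z ≤ b + o') :
    ∑ z ∈ S, ker S π γ x' k z * f z
      ≤ ∑ z ∈ S, ker S π γ x k z * f z + (Real.exp (4 * γ * k * d) - 1) * o' := by
  have hs := ker_sum hπ h1 hγ ho hx hk
  have hs' := ker_sum hπ h1 hγ ho hx' hk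
  have e1 : ∑ z ∈ S, ker S π γ x' k z * f z
      = b + ∑ z ∈ S, ker S π γ x' k z * (f z - b) := by
    simp only [mul_sub, sum_sub_distrib, ← sum_mul, hs']; ring
  have e2 : ∑ z ∈ S, ker S π γ x k z * f z
      = b + ∑ z ∈ S, ker S π γ x k z * (f z - b) := by
    simp only [mul_sub, sum_sub_distrib, ← sum_mul, hs]; ring
  have hE : 1 ≤ Real.exp (4 * γ * k * d) := Real.one_le_exp (by positivity)
  have h3 : ∑ z ∈ S, ker S π γ x' k z * (f z - b)
      ≤ Real.exp (4 * γ * k * d) * ∑ z ∈ S, ker S π γ x k z * (f z - b) := by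
    rw [mul_sum]
    refine sum_le_sum fun z hz => ?_
    have := mul_le_mul_of_nonneg_right (ker_noise hπ h1 hγ ho hx hx' hd hk hz)
      (sub_nonneg.mpr (hf z hz).1)
    linarith
  have h4 : ∑ z ∈ S, ker S π γ x k z * (f z - b) ≤ o' := by
    calc ∑ z ∈ S, ker S π γ x k z * (f z - b) ≤ ∑ z ∈ S, ker S π γ x k z * o' :=
          sum_le_sum fun z hz => mul_le_mul_of_nonneg_left (by linarith [(hf z hz).2])
            (ker_nonneg hπ hγ ho hx hk hz)
      _ = o' := by rw [← sum_mul, hs, one_mul]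
  rw [e1, e2]
  nlinarith [mul_le_mul_of_nonneg_left h4 (sub_nonneg.mpr hE)]

end noise

/-! ### the fixed point loop -/

/-- the loop of the program: `w ↦ w * (D - X) / D` with floor -/
def fw (w : Z → ℕ) (D : ℕ) (X : ℕ → Z → ℕ) : ℕ → Z → ℕ
  | 0, z => w z
  | k + 1, z => fw w D X k z * (D - X k z) / D

theorem fw_bounds {w : Z → ℕ} {D : ℕ} {X : ℕ → Z → ℕ} (hD : 0 < D) (K : ℕ) (z : Z)
    (hX : ∀ k < K, X k z ≤ D) :
    (fw w D X K z : ℝ) ≤ pw (fun z => (w z : ℝ)) 1 (fun i z => (X i z : ℝ) / D) K z ∧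
    pw (fun z => (w z : ℝ)) 1 (fun i z => (X i z : ℝ) / D) K z - K ≤ fw w D X K z := by
  have hD' : (0 : ℝ) < D := by exact_mod_cast hD
  induction K with
  | zero => simp [fw]
  | succ K ih =>
    obtain ⟨h1, h2⟩ := ih fun k hk => hX k (Nat.lt_succ_of_lt hk)
    have hXK := hX K (Nat.lt_succ_self K)
    have e1 : ((D - X K z : ℕ) : ℝ) = D - X K z := by rw [Nat.cast_sub hXK]
    set y : ℝ := (X K z : ℝ) / D with hy
    have hy0 : 0 ≤ y := by positivity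
    have hy1 : y ≤ 1 := by rw [hy, div_le_one hD']; exact_mod_cast hXK
    have e2 : ((fw w D X K z * (D - X K z) : ℕ) : ℝ) / D = fw w D X K z * (1 - y) := by
      push_cast
      rw [e1, hy]; field_simp
    have h3 : ((fw w D X K z * (D - X K z) / D : ℕ) : ℝ) ≤ fw w D X K z * (1 - y) := by
      rw [← e2]; exact Nat.cast_div_le
    have h4 : (fw w D X K z : ℝ) * (1 - y) - 1 ≤ ((fw w D X K z * (D - X K z) / D : ℕ) : ℝ) := by
      rw [← e2]
      have := Nat.lt_div_mul_add (a := fw w D X K z * (D - X K z)) hD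
      have h5 : ((fw w D X K z * (D - X K z) : ℕ) : ℝ)
          < ((fw w D X K z * (D - X K z) / D * D + D : ℕ) : ℝ) := by exact_mod_cast this
      have h6 : ((fw w D X K z * (D - X K z) : ℕ) : ℝ) / D
          < ((fw w D X K z * (D - X K z) / D : ℕ) : ℝ) + 1 := by
        rw [div_lt_iff₀ hD']
        push_cast at h5 ⊢
        linarith
      linarith
    have hpw : pw (fun z => (w z : ℝ)) 1 (fun i z => (X i z : ℝ) / D) (K + 1) z
        = pw (fun z => (w z : ℝ)) 1 (fun i z => (X i z : ℝ) / D) K z * (1 - y) := by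
      rw [pw_succ, one_mul]
    rw [hpw]
    have hstep : (fw w D X (K + 1) z : ℝ) = ((fw w D X K z * (D - X K z) / D : ℕ) : ℝ) := rfl
    rw [hstep]
    have hy2 : 0 ≤ 1 - y := by linarith
    constructor
    · exact h3.trans (mul_le_mul_of_nonneg_right h1 hy2)
    · have h7 := mul_le_mul_of_nonneg_right h2 hy2
      push_cast
      nlinarith

theorem fw_le_init {w : Z → ℕ} {D : ℕ} {X : ℕ → Z → ℕ} (k : ℕ) (z : Z) : fw w D X k z ≤ w z := by
  induction k with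
  | zero => exact le_rfl
  | succ k ih =>
    refine le_trans ?_ ih
    show fw w D X k z * (D - X k z) / D ≤ fw w D X k z
    rcases Nat.eq_zero_or_pos D with h | h
    · subst h; simp
    · calc fw w D X k z * (D - X k z) / D ≤ fw w D X k z * D / D :=
          Nat.div_le_div_right (Nat.mul_le_mul_left _ (Nat.sub_le _ _))
        _ = fw w D X k z := Nat.mul_div_cancel _ h

end Crest.Agent.R288.ProdG504
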