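import Crest.Agent.R288.GluE_365
import Crest.Agent.R288.PadK_901
import Crest.Agent.R288.PgB_578

/-!
# R288, leaf PROG.P12 (helper690): from the root procedure to `RunPL`

* `Rn.okv`, `Rz.okv` : the result of a realised frame is a list of words.
* `kfit` : the constants `konO (v0 x y ε)` in every machine environment of an input;
  **`envO`** : `Env` for these constants.
* **`runPL_root`** : `PltT365.RunPL` of the program `mainS mnK hq` from one `Cz` of the root frame.
-/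

set_option autoImplicit false

namespace Crest.Agent.R288.ProgS690

open Crest.Agent.Lib.PT Crest.Agent.R295 Crest.Agent.R295.Pt949
open Crest.Agent.R295.HL hiding Env
open Crest.Agent.R295.Rnd627
open Crest.Agent.R288.Pl726 Crest.Agent.R288.Phe940 Crest.Agent.R288.Pgb578
open Crest.Agent.R288.PrK690 Crest.Agent.R288.PadK901 Crest.Agent.R288.GluE365
open Crest.Agent.R288.Top791 Crest.Agent.R288.Shell12
open Crest.Agent.R288.Asm12 hiding v0
open Crest.Agent.R288.PltT365 (v0)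

/-! ### the result of a frame -/

theorem okv_sem {P : Prg} {W : Wld} (n : ℕ) : ∀ {f : List ℕ} {rs : List (List ℕ)} {p : ℕ}
    {u : List ℕ} {p' c : ℕ}, Run W (sem P W n f rs) p u p' c → W.okv u := by
  induction n with
  | zero =>
    intro f rs p u p' c h
    obtain ⟨ok, h1, h2⟩ := h
    rw [sem, RT.run_ret] at h1
    simp only [Prod.mk.injEq] at h1
    obtain ⟨⟨-, -, rfl⟩, -⟩ := h1
    exact h2.elim
  | succ n ih =>
    intro f rs p u p' c h
    rw [sem] at h
    split at h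
    · obtain ⟨ok, h1, h2⟩ := h
      rw [RT.run_ret] at h1
      simp only [Prod.mk.injEq] at h1
      obtain ⟨⟨rfl, -, rfl⟩, -⟩ := h1
      exact h2
    · obtain ⟨ok, h1, h2⟩ := h.bind
      set y := (lps P W (fun q => sem P W n q []) (P.δ f rs).1 (P.δ f rs).2 []).run W.N W.Z p
        with hy
      rw [RT.run_bind] at h1
      set z := (sem P W n (P.δ f rs).1 y.1.1).run W.N W.Z y.2 with hz
      simp only [RT.run_ret, Prod.mk.injEq] at h1
      obtain ⟨⟨rfl, rfl, rfl⟩, rfl⟩ := h1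
      exact ih (⟨z.1.2.2, rfl, h2.2⟩ : Run W (sem P W n (P.δ f rs).1 y.1.1) y.2 z.1.1 z.2 z.1.2.1)

theorem rn_okv {P : Prg} {W : Wld} {n : ℕ} {f : List ℕ} {rs : List (List ℕ)} {p : ℕ}
    {u : List ℕ} {p' c : ℕ} (h : Rn P W n f rs p u p' c) : W.okv u := okv_sem n h

/-- the value of a realised computation is a list of words -/
theorem rz_okv {P : Prg} {W : Wld} {n : ℕ} {f : List ℕ} {rs : List (List ℕ)}
    {t : RT (List ℕ)} {C p : ℕ} (h : Rz P W n f rs t C) (hp : t.nxt W.N W.Z p ≤ W.Pm) :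
    W.okv (t.val W.N W.Z p) := by
  obtain ⟨c, -, h1⟩ := h p hp
  exact rn_okv h1

/-! ### the constants in a machine environment -/

/-- everything about `konO (v0 x y ε)` in an environment of the input -/
structure KFit (x y : List ℕ) (ε : ℚ) (pe : PEnv) : Prop where
  /-- room for frames around the pad -/
  room : 16 * 2 ^ cPad (hh x y ε) ≤ pe.S
  pad : 64 ≤ 2 ^ cPad (hh x y ε)
  SB : pe.S < pe.B
  S_le : pe.S ≤ (inp x y ε).length
  wd : ∀ a ∈ (konO (v0 x y ε)).1, a < pe.B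
  L0 : 0 < pe.L

theorem kfit {cS kS rS : ℕ} (hc : 1 ≤ cS) (hr : 1 ≤ rS) {x y : List ℕ} {ε : ℚ} {pe : PEnv}
    (hin : PIn x y ε pe) (hS : pe.S = og cS kS rS 3 (inp x y ε).length)
    (hSL : og cS kS rS 3 (inp x y ε).length ≤ (inp x y ε).length) (hp : PadOk (hh x y ε)) :
    KFit x y ε pe := by
  have hL := inp_length x y ε
  have h0 := mnK_num hc hr hS hp hin.B
  change _ ∧ hh x y ε < pe.B ∧ 2 ^ cPad (hh x y ε) < pe.B ∧ _ ∧ _ at h0
  obtain ⟨h1, h2, h3, h4, h5⟩ := h0
  have h6 : 2 ^ (cPad (hh x y ε) + 4) ≤ og cS kS rS 3 (inp x y ε).length :=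
    PadOk.two_pow (c := cS) (k := kS) (r := rS) hc hr hp
  rw [← hS, pow_add] at h6
  refine ⟨by omega, ?_, ?_, hS ▸ hSL, ?_, ?_⟩
  · have h7 : 6 ≤ cPad (hh x y ε) := by
      unfold cPad
      have h8 := Par806.W_pos (hh x y ε)
      have h9 := Par806.Lg_pos (hh x y ε)
      have h10 : 1 ≤ Par806.W (hh x y ε) * Par806.Lg (hh x y ε) := Nat.mul_pos h8 h9
      rw [mul_assoc]
      omega
    calc (64 : ℕ) = 2 ^ 6 := by norm_num
      _ ≤ _ := Nat.pow_le_pow_right (by norm_num) h7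
  · exact (hS ▸ hSL).trans_lt h1
  · intro a ha
    rw [konO_v0] at ha
    simp only [List.mem_cons, List.not_mem_nil, or_false] at ha
    rcases ha with ha | ha | ha | ha
    · rw [ha]; exact h2
    · rw [ha]; omega
    · rw [ha]; omega
    · rw [ha]; exact h1
  · rw [hin.L]
    positivity

variable {x y : List ℕ} {ε : ℚ} {pe : PEnv}

theorem KFit.wd2 (h : KFit x y ε pe) : ∀ a ∈ (konO (v0 x y ε)).2, a < pe.B := by
  intro a ha
  rw [konO_v0] at ha
  simp only [List.mem_replicate] at ha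
  have h1 := ha.2
  have h2 := h.SB
  omega

@[simp] theorem konO_fst_len : (konO (v0 x y ε)).1.length = 4 := rfl

@[simp] theorem konO_snd_len : (konO (v0 x y ε)).2.length = 2 ^ cPad (hh x y ε) := by
  rw [konO_v0]
  simp

/-- **`Env` for the constants of an input** -/
theorem envO (h : KFit x y ε pe) (hin : PIn x y ε pe) {N a1 a2 Pm Z : ℕ} {τ : ℕ → ℕ}
    (ha1 : a1 < 50) (hZ : 16 * (Z + 2) ^ 2 ≤ pe.S) (hp : 2 ^ cPad (hh x y ε) ≤ Z) :
    Env (wld pe N τ a1 a2 Pm) (konO (v0 x y ε)) Z := by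
  have h1 := h.pad
  refine ⟨hZ, h.SB, h.L0, hin.word a1 0 ha1, by omega, ⟨?_, h.wd⟩, ⟨?_, h.wd2⟩⟩
  · rw [konO_fst_len]
    omega
  · rw [konO_snd_len]
    exact hp

/-! ### the root frame -/

theorem tow_kon_length (K : KN) : (tow K).length = K.1.length + K.2.length + 2 := by
  obtain ⟨a, b⟩ := K
  simp only [tow_prod, tow_list, List.length_append, List.length_cons]
  omega

theorem tow_kon_lt {K : KN} {B : ℕ} (h1 : ∀ a ∈ K.1, a < B) (h2 : ∀ a ∈ K.2, a < B)
    (h3 : K.1.length < B) (h4 : K.2.length < B) : ∀ a ∈ tow K, a < B := by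
  obtain ⟨u, v⟩ := K
  intro a ha
  simp only [tow_prod, tow_list, List.mem_append, List.mem_cons] at ha
  rcases ha with (rfl | ha) | (rfl | ha)
  · exact h3
  · exact h1 a ha
  · exact h4
  · exact h2 a ha

theorem tow_svd_nil : (tow ([] : Svd)) = [0] := rfl

theorem fr_nil_length (K : KN) (tg : ℕ) (a : Ar) :
    (fr K tg a []).length = K.1.length + K.2.length + 13 := by
  rw [fr_length, tow_svd_nil]
  rfl

theorem fr_nil_lt {K : KN} {tg B : ℕ} {a : Ar} (h1 : ∀ a ∈ K.1, a < B) (h2 : ∀ a ∈ K.2, a < B)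
    (h3 : K.1.length < B) (h4 : K.2.length < B) (hB : 10 < B) (ha : ArOk B tg a) :
    ∀ a' ∈ fr K tg a [], a' < B := by
  have hl : (fr0 tg a []).length = 10 := by
    rw [fr0, List.length_cons, show tow ((a, ([] : Svd)) : Ar × Svd) = tow a ++ tow ([] : Svd)
      from rfl, List.length_append, tow_ar_length, tow_svd_nil]
    rfl
  refine jn_lt h1 h2 h3 h4 (by omega) fun b hb => ?_
  rw [fr0, show tow ((a, ([] : Svd)) : Ar × Svd) = tow a ++ tow ([] : Svd) from rfl,
    List.mem_cons, List.mem_append, tow_svd_nil, List.mem_singleton] at hb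
  rcases hb with rfl | hb | rfl
  · exact ha.tg
  · exact ha.lt (by omega) b hb
  · omega

/-- **`RunPL` from the root procedure**: `tg`, `a` = tag and arguments of the root -/
theorem runPL_root {c k r cS kS rS : ℕ} {fR : List ℕ → ℕ} {G : Prg} (hT : G.aT = 15)
    (hX : G.X3 = x3) {q0 : List ℕ → List ℕ} (hq : PTF q0) (hcS : 1 ≤ cS) (hrS : 1 ≤ rS)
    {τ : ℕ → ℕ} {res tg : ℕ} {a : Ar} (hp : PadOk (hh x y ε))
    (hS : og cS kS rS 3 (inp x y ε).length ≤ (inp x y ε).length)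
    (hR : fR (v0 x y ε) ≤ ((inp x y ε).length + 2) ^ 2)
    (hq0 : q0 (tow (konO (v0 x y ε))) = fr (konO (v0 x y ε)) tg a [])
    (ha : ∀ B, ((inp x y ε).length + 2) ^ 3 ≤ B → ArOk B tg a)
    (H : ∀ pe : PEnv, PIn x y ε pe → pe.S = og cS kS rS 3 (inp x y ε).length →
      ∃ n C, Cz G (wld pe (2 ^ tw x y) τ G.a1 G.a2 (fR (v0 x y ε))) (konO (v0 x y ε)) tg n a []
          (.ret [res]) C ∧
        2 * cPad (hh x y ε) + 40 * C + 30 ≤ fuc c k r 3 (inp x y ε).length ∧
        n + 1 ≤ (inp x y ε).length) :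
    PltT365.RunPL 3 c k r cS kS rS fR [G.proc] (mainS mnK hq) x y ε τ res := by
  refine runPLT_of hT hX hq hS hR fun pe hpe hSe => ?_
  obtain ⟨n, C, hz, hC, hn⟩ := H pe hpe hSe
  have hf := kfit hcS hrS hpe hSe hS hp
  have hroom := hf.room
  have hpad := hf.pad
  have hSB := hf.SB
  have hl1 : (tow (konO (v0 x y ε))).length = 2 ^ cPad (hh x y ε) + 6 := by
    rw [tow_kon_length, konO_fst_len, konO_snd_len]
    omega
  have hl2 : (fr (konO (v0 x y ε)) tg a []).length = 2 ^ cPad (hh x y ε) + 17 := by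
    rw [fr_nil_length, konO_fst_len, konO_snd_len]
    omega
  have hK1 : (konO (v0 x y ε)).1.length < pe.B := by rw [konO_fst_len]; omega
  have hK2 : (konO (v0 x y ε)).2.length < pe.B := by rw [konO_snd_len]; omega
  have hrz : Rz G (wld pe (2 ^ tw x y) τ G.a1 G.a2 (fR (v0 x y ε))) n
      (fr (konO (v0 x y ε)) tg a []) [] (.ret [res]) C := hz [] [] rfl
  have hok := rz_okv (p := 0) hrz (by
    show (0 : ℕ) ≤ fR (v0 x y ε)
    exact Nat.zero_le _)
  have hv : (RT.ret [res] : RT (List ℕ)).val (2 ^ tw x y) τ 0 = [res] := rfl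
  refine ⟨tow (konO (v0 x y ε)), 2 * cPad (hh x y ε) + 5, n, C, .ret [res], ?_⟩
  refine ⟨fun i => mnK_run hcS hrS hpe hSe hp i, ?_, ?_, ?_, ?_, ?_, ?_, ?_, ?_, ?_, ?_, hn⟩
  · rw [hq0, hl1, hl2]
    omega
  · exact tow_kon_lt hf.wd hf.wd2 hK1 hK2
  · rw [hq0]
    exact fr_nil_lt hf.wd hf.wd2 hK1 hK2 (by omega) (ha _ hpe.B)
  · rw [hq0]
    exact hrz
  · exact Nat.zero_le _
  · rw [hv, hl1]
    simp only [List.length_cons, List.length_nil]
    omega
  · rw [hv]
    exact hok.2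
  · rw [hv]
    simp
  · rw [hv]
    rfl
  · omega

end Crest.Agent.R288.ProgS690
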