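import Crest.Agent.R288.ProgTop_901
import Crest.Agent.R288.PgM_726
import Crest.Agent.R288.RootNum_589
import Crest.Agent.R288.HypL_200
import Crest.Agent.R288.HypA_275

/-!
# R288, [PROG] the block (helper578): `ProgStm` from the hypotheses of the run

* `cx x y ε τ : Cx`, `wl G x y ε τ pe : Wld` : data and world of the run on the tape `τ`;
* `Run G D N Zf cS kS rS` : `Hyp`, `Nm`, `InitOk` on every good tape in every environment;
* **`prog_block_of`** : `Run` gives `ProgStm`.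
-/

set_option autoImplicit false

namespace Crest.Agent.R288.ProgZ578

open Filter
open Crest.Agent.R295 HL Pt949 Crest.Agent.R295.Rnd627 Crest.Agent.R288.Pl726
open Crest.Agent.R288.Phe940 Crest.Agent.R288.Top791 Crest.Agent.R288.Front327
open Crest.Agent.R288.Shell12 Crest.Agent.R288.Asm12 Crest.Agent.R288.Alg45
open Crest.Agent.R288.Pgb578 (Ar Svd fr fr0 Cz)
open Crest.Agent.R288.PadK901 Crest.Agent.R288.Main901 Crest.Agent.R288.Asm331
open Crest.Agent.R288.PltT365 (tapeW tapeD RunPL)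
open Crest.Agent.R288.ProgTop901 (fR RootClaim prog_of_root)
open Crest.Agent.R288.PgY583 (arS)
open Crest.Agent.R288.Pgc578 (Cx Txt Hyp)
open Crest.Agent.R288.PgK726 (Nm InitOk root_cz)
open Crest.Agent.R288.HypA275 (cxOf)
open Crest.Agent.R288.HypL200 (laN lfN lgN lcO)
open Crest.Agent.R288.RootNum589 (cpN pN b0N Zc root_numO)
open Crest.Agent.R288.Par806 Crest.Agent.R288.ParO331

/-- the data of the run -/
noncomputable def cx (x y : List ℕ) (ε : ℚ) (τ : ℕ → ℕ) : Cx :=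
  cxOf (cfgO x y ε) (laN x y (hh x y ε)) (lfN x y (hh x y ε)) (lgN x y (hh x y ε)) τ

/-- the world of the run -/
noncomputable def wl (G : Prg) (x y : List ℕ) (ε : ℚ) (τ : ℕ → ℕ) (pe : PEnv) : Wld :=
  wld pe (2 ^ tapeW x y ε) τ G.a1 G.a2 (tapeD fR x y ε)

/-- the root call has the arguments of `F (E, root)` -/
theorem rootA_eq (x y : List ℕ) (ε : ℚ) :
    rootA (konO (PltT365.v0 x y ε)) = arS (cfgO x y ε).P.E 0 (cfgO x y ε).root := rfl

/-- **the hypotheses of the run** -/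
def Run (G : Prg) (D : Txt) (N : ℕ) (Zf : ℕ → ℕ) (cS kS rS : ℕ) : Prop :=
  Ev fun x y ε => ∀ τ, (cfgO x y ε).Good ((cfgO x y ε).X τ) → ∀ pe, PIn x y ε pe →
    pe.S = og cS kS rS 3 (inp x y ε).length →
      Hyp (cx x y ε τ) D G (wl G x y ε τ pe) (konO (PltT365.v0 x y ε)) (Zf (hh x y ε))
        (lcO (hh x y ε)) ∧
      Nm (cx x y ε τ) (Zc (hh x y ε)) 16 (II (hh x y ε)) (pN N (hh x y ε)) ∧
      InitOk (cx x y ε τ) G (wl G x y ε τ pe) (konO (PltT365.v0 x y ε)) (b0N N (hh x y ε))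
        ((cpN N 16 (hh x y ε)).dX (pN N (hh x y ε)) 0) (cpN N 16 (hh x y ε)).Y

/-- **[PROG] from the hypotheses of the run** -/
theorem prog_block_of {G : Prg} (hT : G.aT = 15) (hX : G.X3 = x3) {D : Txt} {N : ℕ} {Zf : ℕ → ℕ}
    {cS kS rS : ℕ} (hcS : 4 ≤ cS) (hkS : 1 ≤ kS) (hrS : 1 ≤ rS) (H : Run G D N Zf cS kS rS) :
    ProgStm := by
  obtain ⟨c, r, hn⟩ := root_numO N 16
  refine prog_of_root (c := c) (k := 0) (r := r) hcS hkS hrS G hT hX ?_
  refine (Ev.and H (hn c r 0 le_rfl le_rfl)).mono ?_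
  rintro x y ε hN ⟨h1, h2, h3⟩ τ hτ pe hpe hS
  obtain ⟨a, b, d⟩ := h1 τ hτ pe hpe hS
  have hr : (cx x y ε τ).DS (cfgO x y ε).root := root_InD hN
  have key := root_cz a b d hr
  refine ⟨_, _, key.congr ?_, ?_, h2, h3⟩
  · rfl
  · exact a.vF _ le_rfl _ hr

end Crest.Agent.R288.ProgZ578
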