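import Crest.Agent.R288.ProgTop_901
import Crest.Agent.R288.PgM_726
import Crest.Agent.R288.RootNum_589
import Crest.Agent.R288.HypL_200
import Crest.Agent.R288.HypA_275
import Crest.Agent.R288.PrgG_966
import Crest.Agent.R288.PuV_772
import Crest.Agent.R288.InitHE_663
import Crest.Agent.R288.HypY_692

/-!
# R288, [PROG] the block (helper578): **`prog_block : ProgStm`**

* `cx x y ε τ : Cx`, `wl x y ε τ pe : Wld`, `kO x y ε : KN` : data, world, constants of the run of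
  `progG` (966) on the tape `τ`;
* `init_aux`, `init_O` : index `0` (tag 2) by 772's `rx_cfg`, 663's `he_cfg`, 589's `index0`;
* `nm_cx` : the numbers; `Hyp` = 692's `hypO`; induction = 726's `allF`; top = 901's `prog_of_root`.
-/

set_option autoImplicit false

namespace Crest.Agent.R288.ProgZb578

open Filter
open Crest.Agent.R295 HL Pt949 Crest.Agent.R295.Rnd627 Crest.Agent.R288.Pl726
open Crest.Agent.R288.Phe940 Crest.Agent.R288.Top791 Crest.Agent.R288.Front327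
open Crest.Agent.R288.Shell12 Crest.Agent.R288.Asm12 Crest.Agent.R288.Alg45
open Crest.Agent.R288.Pgb578 (Ar Svd fr fr0 Cz Env)
open Crest.Agent.R288.PadK901 Crest.Agent.R288.Main901 Crest.Agent.R288.Asm331
open Crest.Agent.R288.PltT365 (tapeW tapeD RunPL)
open Crest.Agent.R288.ProgTop901 (fR RootClaim prog_of_root)
open Crest.Agent.R288.PgY583 (arS qU)
open Crest.Agent.R288.Pgc578 (Cx Txt Hyp)
open Crest.Agent.R288.PgK726 (Nm allF)
open Crest.Agent.R288.HypA275 (cxOf)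
open Crest.Agent.R288.HypL200 (laN lfN lgN lcO)
open Crest.Agent.R288.RootNum589 (cpN pN b0N Zc root_numO index0 six_le_pN)
open Crest.Agent.R288.PrgG966 (progG dlP)
open Crest.Agent.R288.PrgI966 (txtO)
open Crest.Agent.R288.PrK690 (KN jn klen wrapQ)
open Crest.Agent.R288.InitZ663 (HE CE fu)
open Crest.Agent.R288.InitK663 (kiH)
open Crest.Agent.R288.Par806 Crest.Agent.R288.ParO331

/-- the data of the run -/
noncomputable def cx (x y : List ℕ) (ε : ℚ) (τ : ℕ → ℕ) : Cx :=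
  cxOf (cfgO x y ε) (laN x y (hh x y ε)) (lfN x y (hh x y ε)) (lgN x y (hh x y ε)) τ

/-- the world of the run -/
noncomputable def wl (x y : List ℕ) (ε : ℚ) (τ : ℕ → ℕ) (pe : PEnv) : Wld :=
  wld pe (2 ^ tapeW x y ε) τ progG.a1 progG.a2 (tapeD fR x y ε)

/-- the constants of the run -/
def kO (x y : List ℕ) (ε : ℚ) : KN := konO (PltT365.v0 x y ε)

/-- the root call has the arguments of `F (E, root)` -/
theorem rootA_eq (x y : List ℕ) (ε : ℚ) :
    rootA (konO (PltT365.v0 x y ε)) = arS (cfgO x y ε).P.E 0 (cfgO x y ε).root := rfl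

/-- **`Hyp` at the configuration** -/
def HypStm (Zf : ℕ → ℕ) (cS kS rS : ℕ) : Prop :=
  Ev fun x y ε => ∀ τ, (cfgO x y ε).Good ((cfgO x y ε).X τ) → ∀ pe, PIn x y ε pe →
    pe.S = og cS kS rS 3 (inp x y ε).length →
      Hyp (cx x y ε τ) txtO progG (wl x y ε τ pe) (kO x y ε) (Zf (hh x y ε)) (lcO (hh x y ε))

/-- the numbers -/
theorem nm_cx (x y : List ℕ) (ε : ℚ) (τ : ℕ → ℕ) (N : ℕ) :
    Nm (cx x y ε τ) (Zc (hh x y ε)) 16 (II (hh x y ε)) (pN N (hh x y ε)) where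
  ZP := RootNum589.ZP_le_Zc _
  t0 := by norm_num
  p := six_le_pN _ _
  H := fun _ hy => Dom20.Dom.i_le hy

/-- `0 < N` of the domain -/
theorem N_pos (x y : List ℕ) (ε : ℚ) : 0 < (cfgO x y ε).P.N :=
  Nat.two_pow_pos _

section

variable {x y : List ℕ} {ε : ℚ} {pe : PEnv} {τ : ℕ → ℕ} {Z : ℕ}

/-- **tag 1 at the configuration** -/
theorem he_O (hN : Num x y ε) (hin : PIn x y ε pe) (hH : InitHE663.HEN (hh x y ε))
    (hE : Env (wl x y ε τ pe) (kO x y ε) Z) (h0 : 0 < (wl x y ε τ pe).N)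
    (h1 : (wl x y ε τ pe).N ≤ pe.B) :
    HE progG (wl x y ε τ pe) (jn (kO x y ε)) (klen (kO x y ε)) (dlP (kO x y ε)) 1
      (kiH (kO x y ε)) x y (HH (hh x y ε) + 3) (2 ^ HH (hh x y ε))
      ((HH (hh x y ε) + 3) * 2 ^ (HH (hh x y ε) + 3)) (lcO (hh x y ε)) :=
  InitHE663.he_cfg hN hin hH PrgG966.progG_δ (fun _ _ _ _ => rfl) hE h0 h1

theorem cx_X : (cx x y ε τ).X = (cfgO x y ε).X τ := rfl

theorem wl_eq : wl x y ε τ pe = wld pe (2 ^ tapeW x y ε) τ progG.a1 progG.a2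
    (tapeD (PgW155.fW rW) x y ε) := rfl

/-- **index `0`** with any fuel and cost -/
theorem init_aux (hN : Num x y ε) (hin : PIn x y ε pe) (hH : InitHE663.HEN (hh x y ε))
    (hU : PuV772.UHN (hh x y ε)) (hW : PgW155.WOk (hh x y ε))
    (hE : Env (wl x y ε τ pe) (kO x y ε) Z) (h0 : 0 < (wl x y ε τ pe).N)
    (h1 : (wl x y ε τ pe).N ≤ pe.B) {n : ℕ} {c : ℕ → ℕ}
    (hn : ∀ i ≤ II (hh x y ε), PuV772.fuI (kO x y ε) i ≤ n)
    (hc : ∀ i ≤ II (hh x y ε), PuV772.coI (kO x y ε) (lcO (hh x y ε)) i ≤ c i) {z : St}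
    (hz : (cx x y ε τ).DS z) :
    Rq progG (wl x y ε τ pe) n (wrapQ (kO x y ε) (qU z)) (.ret [(cx x y ε τ).X 0 (0, z)])
      (c z.i) := by
  have g1 := he_O hN hin hH hE h0 h1
  have g2 := PuV772.rx_cfg hin hU hW hE g1 (PrgG966.has_U _)
    (fun _ => PrgG966.base_ne _ (by norm_num) _ _) hn hc
  have hz' : Dom20.InD (cfgO x y ε).P.N (cfgO x y ε).I (cfgO x y ε).P.Dm z := hz
  have g3 : ((0, z) : ℕ × St) ∈ Dom20.OmP (cfgO x y ε).P.N (cfgO x y ε).I (cfgO x y ε).P.Dm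
      (cfgO x y ε).K0 := (Dom20.mem_OmP (N_pos x y ε)).2 ⟨Nat.zero_le _, hz'⟩
  have g4 := g2 0 z g3
  have e : PgY583.qX 0 0 z = qU z := if_pos rfl
  rw [e] at g4
  rw [cx_X, wl_eq, kO]
  exact g4

/-- **index `0`** with the fuel and the cost of the induction -/
theorem init_O (hN : Num x y ε) (hin : PIn x y ε pe) (hH : InitHE663.HEN (hh x y ε))
    (hU : PuV772.UHN (hh x y ε)) (hW : PgW155.WOk (hh x y ε))
    (h4 : ∀ K : InitS663.KI,
      InitS663.parK K = InitN775.par (gI (hh x y ε)) (DI (hh x y ε)) (mI (hh x y ε)) →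
      ∀ i d : ℕ, i ≤ II (hh x y ε) → d ≤ nn (hh x y ε) * i / gI (hh x y ε) + 1 →
        (nn (hh x y ε) * i + 4) * (CE K (lcO (hh x y ε)) d + 1) + 2 ≤
          (cpN 2 16 (hh x y ε)).cX 0 i ∧
        fu K d + 2 ≤ (cpN 2 16 (hh x y ε)).dX (pN 2 (hh x y ε)) 0)
    (hE : Env (wl x y ε τ pe) (kO x y ε) Z) (h0 : 0 < (wl x y ε τ pe).N)
    (h1 : (wl x y ε τ pe).N ≤ pe.B) {z : St} (hz : (cx x y ε τ).DS z) :
    Rq progG (wl x y ε τ pe) ((cpN 2 16 (hh x y ε)).dX (pN 2 (hh x y ε)) 0)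
      (wrapQ (kO x y ε) (qU z)) (.ret [(cx x y ε τ).X 0 (0, z)])
      ((cpN 2 16 (hh x y ε)).cX 0 z.i) := by
  have hK : hK (kO x y ε) = hh x y ε := PrgI966.hK_v0
  have hd : ∀ i, (nn (hh x y ε) * i - 1) / gI (hh x y ε) + 1 ≤
      nn (hh x y ε) * i / gI (hh x y ε) + 1 := fun i =>
    Nat.succ_le_succ (Nat.div_le_div_right (Nat.sub_le _ _))
  refine init_aux (c := (cpN 2 16 (hh x y ε)).cX 0) hN hin hH hU hW hE h0 h1
    (fun i hi => ?_) (fun i hi => ?_) hz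
  · unfold PuV772.fuI
    rw [hK]
    exact (h4 (kiH (kO x y ε)) rfl i _ hi (hd i)).2
  · unfold PuV772.coI
    rw [hK]
    exact (h4 (kiH (kO x y ε)) rfl i _ hi (hd i)).1

end

/-- **[PROG]** -/
theorem prog_block : ProgStm := by
  obtain ⟨r0, hY⟩ := HypY692.hypO
  obtain ⟨c, r, hn⟩ := root_numO 2 16
  refine prog_of_root (c := c) (k := 0) (r := r) (cS := 4) (kS := 1) (rS := r0 + 1) le_rfl le_rfl
    (Nat.succ_le_succ (Nat.zero_le _)) progG rfl rfl ?_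
  refine ((hY 4 1 (r0 + 1) (by norm_num) (Nat.le_succ _)).and
    ((hn c r 0 le_rfl le_rfl).and (Ev.of (InitHE663.ev_HEN.and (PuV772.ev_UHN.and
      (PgW155.ev_WOk.and (index0 2 16)))) fun x y ε _ h => h))).mono ?_
  rintro x y ε hN ⟨hy, ⟨h2, h3⟩, g1, g2, g3, g4⟩ τ hτ pe hpe hS
  have a : Hyp (cx x y ε τ) txtO progG (wl x y ε τ pe) (kO x y ε) (HypY692.zN (hh x y ε))
      (lcO (hh x y ε)) := hy τ hτ pe hpe hS
  have hr : (cx x y ε τ).DS (cfgO x y ε).root := root_InD hN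
  have key := allF a (nm_cx x y ε τ 2)
    (fun z hz => init_O hN hpe g1 g2 g3 g4 a.env a.N a.NM hz) le_rfl hr
  exact ⟨_, _, key, a.vF _ le_rfl _ hr, h2, h3⟩

end Crest.Agent.R288.ProgZb578
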