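import Crest.Agent.R288.InitO_726
import Crest.Agent.R288.Hyp_53
import Crest.Agent.R288.NmO_200

/-!
# R288, [PROG] the block (helper726): **`prog_block : ProgStm`**

`prog_block_of` (helper578) at `progG` (helper966) from `hyp_cfg` (helper53), `nmO` (helper200),
`initO` (`InitO_726`).
-/

set_option autoImplicit false
set_option maxHeartbeats 400000

namespace Crest.Agent.R288.ProgZc726

open Filter
open Crest.Agent.R288.Pl726 Crest.Agent.R288.Asm331 Crest.Agent.R288.ProgZ578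
open Crest.Agent.R288.Top791 (inp)
open Crest.Agent.R288.HypN53 (Zn ev_Nums)
open Crest.Agent.R288.Asm12 (hh)

/-- the hypotheses of the run -/
theorem run : ∃ rS : ℕ, 1 ≤ rS ∧ Run PrgG966.progG PrgI966.txtO 2 Zn 4 1 rS := by
  obtain ⟨r0, h0⟩ := Hyp53.hyp_cfg
  obtain ⟨r1, h1⟩ := ev_Nums 1
  have hr0 : r0 ≤ max (max r0 r1) 1 := (le_max_left _ _).trans (le_max_left _ _)
  have hr1 : r1 ≤ max (max r0 r1) 1 := (le_max_right _ _).trans (le_max_left _ _)
  refine ⟨max (max r0 r1) 1, le_max_right _ _, ?_⟩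
  have hS : ∀ᶠ h : ℕ in atTop, ∀ L : ℕ, Nat.clog 2 L = h →
      16 * (Zn h + 2) ^ 2 ≤ og 4 1 (max (max r0 r1) 1) 3 L ∧
        og 4 1 (max (max r0 r1) 1) 3 L ≤ L := by
    filter_upwards [h1, PgG8155.og_le 4 1 (max (max r0 r1) 1)] with h a1 a2 L hL
    refine ⟨?_, a2 L hL⟩
    have a3 := (a1 L hL).S
    rw [one_mul] at a3
    exact a3.trans (Pl726.og_mono (by norm_num) (Nat.zero_le _) hr1 _ _)
  have hH := h0 4 1 (max (max r0 r1) 1) (by norm_num) hr0
  have hI := InitO726.initO (N := 2) le_rfl hS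
  refine (Ev.and hH hI).mono ?_
  rintro x y ε - ⟨⟨-, b1⟩, b2⟩ τ hG pe hin hpS
  exact ⟨b1 τ hG pe hin hpS, NmO200.nmO 2 x y ε _ _ _ τ, b2 τ pe hin hpS⟩

/-- **[PROG]** -/
theorem prog_block : ProgStm := by
  obtain ⟨rS, h1, h2⟩ := run
  exact prog_block_of PrgG966.progG_aT PrgG966.progG_X3 le_rfl le_rfl h1 h2

end Crest.Agent.R288.ProgZc726
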