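import Crest.Agent.Lib.PT.ArithMore
import Crest.Agent.Lib.PT.ListFns2

/-!
# R288, PTF toolkit for table functions (helper115)

Everything a dynamic program on lists of naturals needs, with certificates that do not require any
bound on the sizes of the intermediate tables (tables are clipped to a length and a value cap,
`clip`, which is the identity on tables that respect them).

* `PTF.getB` : `l.getD i d` with a BINARY index.
* `minR n f d`, `maxR n f d`, `argR n f` : minimum / maximum / first minimiser of `f` on `i < n`.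
* `tab n f` = `(List.range n).map f`, `get t i` = `t.getD i 0`, `get_tab`; two and three indices by
  `i * W + j` (`tab2`, `get2`, `get2_tab2`), (`tab3`, `get3`, `get3_tab3`).
* `clip W cap t`, `dp W cap n b s` (`r 0 = clip b`, `r (i+1) = clip (s i (r i))`), `PTF.dp`,
  `dp_eq` (no clipping happens), `dpG` = the same for a pair/any coded state with `clip`-like
  projection.
-/

set_option autoImplicit false
set_option linter.dupNamespace false

namespace Crest.Agent.R288.PtDp115

open Crest.Agent.Lib.PT Crest.Agent.Lib.PT.Arith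

variable {α β γ : Type} [PTCode α] [PTCode β] [PTCode γ]

/-! ### reading at a binary index -/

theorem getD_min {β : Type} (l : List β) (i : ℕ) (d : β) :
    l.getD (min i l.length) d = l.getD i d := by
  rcases le_total i l.length with h | h
  · rw [min_eq_left h]
  · rw [min_eq_right h, List.getD_eq_default _ _ le_rfl, List.getD_eq_default _ _ h]

theorem ptf_getB {l : α → List β} {i : α → ℕ} {d : α → β} (hl : PTF l) (hi : PTF i) (hd : PTF d) :
    PTF (fun a => (l a).getD (i a) (d a)) :=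
  PTF.of_eq (PTF.getD (PTF.natMinUn hi (PTU.length hl)) hl hd) (fun _ => getD_min _ _ _)

/-! ### minimum, maximum, first minimiser over a range -/

/-- `min d (min_{i < n} f i)` -/
def minR (n : ℕ) (f : ℕ → ℕ) (d : ℕ) : ℕ := (List.range n).foldl (fun m i => min m (f i)) d

/-- `max d (max_{i < n} f i)` -/
def maxR (n : ℕ) (f : ℕ → ℕ) (d : ℕ) : ℕ := (List.range n).foldl (fun m i => max m (f i)) d

theorem minR_zero (f : ℕ → ℕ) (d : ℕ) : minR 0 f d = d := rfl

theorem minR_succ (n : ℕ) (f : ℕ → ℕ) (d : ℕ) : minR (n + 1) f d = min (minR n f d) (f n) := by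
  unfold minR
  rw [List.range_succ, List.foldl_append]
  rfl

theorem maxR_zero (f : ℕ → ℕ) (d : ℕ) : maxR 0 f d = d := rfl

theorem maxR_succ (n : ℕ) (f : ℕ → ℕ) (d : ℕ) : maxR (n + 1) f d = max (maxR n f d) (f n) := by
  unfold maxR
  rw [List.range_succ, List.foldl_append]
  rfl

theorem minR_le_d (n : ℕ) (f : ℕ → ℕ) (d : ℕ) : minR n f d ≤ d := by
  induction n with
  | zero => exact le_rfl
  | succ n ih => rw [minR_succ]; exact (min_le_left _ _).trans ih

theorem minR_le (n : ℕ) (f : ℕ → ℕ) (d : ℕ) {i : ℕ} (hi : i < n) : minR n f d ≤ f i := by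
  induction n with
  | zero => omega
  | succ n ih =>
    rw [minR_succ]
    rcases Nat.lt_succ_iff_lt_or_eq.1 hi with h | h
    · exact (min_le_left _ _).trans (ih h)
    · subst h; exact min_le_right _ _

theorem le_minR (n : ℕ) (f : ℕ → ℕ) (d : ℕ) {c : ℕ} (hd : c ≤ d) (h : ∀ i, i < n → c ≤ f i) :
    c ≤ minR n f d := by
  induction n with
  | zero => exact hd
  | succ n ih =>
    rw [minR_succ]
    exact le_min (ih (fun i hi => h i (by omega))) (h n (by omega))

theorem minR_att (n : ℕ) (f : ℕ → ℕ) (d : ℕ) : minR n f d = d ∨ ∃ i, i < n ∧ minR n f d = f i := by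
  induction n with
  | zero => exact Or.inl rfl
  | succ n ih =>
    rw [minR_succ]
    rcases le_total (minR n f d) (f n) with h | h
    · rw [min_eq_left h]
      rcases ih with h1 | ⟨i, h1, h2⟩
      · exact Or.inl h1
      · exact Or.inr ⟨i, by omega, h2⟩
    · rw [min_eq_right h]
      exact Or.inr ⟨n, by omega, rfl⟩

theorem le_maxR_d (n : ℕ) (f : ℕ → ℕ) (d : ℕ) : d ≤ maxR n f d := by
  induction n with
  | zero => exact le_rfl
  | succ n ih => rw [maxR_succ]; exact ih.trans (le_max_left _ _)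

theorem le_maxR (n : ℕ) (f : ℕ → ℕ) (d : ℕ) {i : ℕ} (hi : i < n) : f i ≤ maxR n f d := by
  induction n with
  | zero => omega
  | succ n ih =>
    rw [maxR_succ]
    rcases Nat.lt_succ_iff_lt_or_eq.1 hi with h | h
    · exact (ih h).trans (le_max_left _ _)
    · subst h; exact le_max_right _ _

theorem maxR_le (n : ℕ) (f : ℕ → ℕ) (d : ℕ) {c : ℕ} (hd : d ≤ c) (h : ∀ i, i < n → f i ≤ c) :
    maxR n f d ≤ c := by
  induction n with
  | zero => exact hd
  | succ n ih =>
    rw [maxR_succ]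
    exact max_le (ih (fun i hi => h i (by omega))) (h n (by omega))

/-- first minimiser on `i < n` (`0` if `n = 0`) -/
def argR (n : ℕ) (f : ℕ → ℕ) : ℕ :=
  (List.range n).foldl (fun m i => if f i < f m then i else m) 0

theorem argR_succ (n : ℕ) (f : ℕ → ℕ) :
    argR (n + 1) f = if f n < f (argR n f) then n else argR n f := by
  unfold argR
  rw [List.range_succ, List.foldl_append]
  rfl

theorem argR_lt {n : ℕ} (f : ℕ → ℕ) (h : 0 < n) : argR n f < n := by
  induction n with
  | zero => omega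
  | succ n ih =>
    rw [argR_succ]
    split
    · omega
    · rcases Nat.eq_zero_or_pos n with h0 | h0
      · subst h0; exact Nat.zero_lt_one
      · exact (ih h0).trans (Nat.lt_succ_self n)

theorem argR_min {n : ℕ} (f : ℕ → ℕ) {i : ℕ} (hi : i < n) : f (argR n f) ≤ f i := by
  induction n with
  | zero => omega
  | succ n ih =>
    rw [argR_succ]
    rcases Nat.lt_succ_iff_lt_or_eq.1 hi with h | h
    · split
      · rename_i h1; exact h1.le.trans (ih h)
      · exact ih h
    · subst h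
      split
      · exact le_rfl
      · rename_i h1; exact not_lt.1 h1

theorem argR_le_n (n : ℕ) (f : ℕ → ℕ) : argR n f ≤ n := by
  rcases Nat.eq_zero_or_pos n with h | h
  · subst h; exact le_rfl
  · exact (argR_lt f h).le

theorem f_argR {n : ℕ} (f : ℕ → ℕ) (h : 0 < n) (d : ℕ) :
    min d (f (argR n f)) = minR n f d := by
  apply le_antisymm
  · refine le_minR n f d (min_le_left _ _) (fun i hi => (min_le_right _ _).trans (argR_min f hi))
  · exact le_min (minR_le_d _ _ _) (minR_le _ _ _ (argR_lt f h))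

theorem ptf_minR {n : α → ℕ} {f : α → ℕ → ℕ} {d : α → ℕ} (hn : PTU n)
    (hf : PTF (fun p : α × ℕ => f p.1 p.2)) (hd : PTF d) :
    PTF (fun a => minR (n a) (f a) (d a)) := by
  refine ptf_natRec (r := fun a i => minR i (f a) (d a)) (s := fun a i t => min t (f a i))
    hn hd ?_ (fun a => rfl) (fun a i _ => minR_succ _ _ _)
    (B := fun a => sz (d a)) hd.sz (fun a i _ => ?_)
  · exact PTF.natMin (by fun_prop) (PTF.comp (g := fun p : α × ℕ => f p.1 p.2)
      (f := fun p : α × ℕ × ℕ => (p.1, p.2.1)) hf (by fun_prop))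
  · rw [sz_nat, sz_nat]
    exact Nat.size_le_size (minR_le_d _ _ _)

theorem ptf_maxR {n : α → ℕ} {f : α → ℕ → ℕ} {d : α → ℕ} (hn : PTU n)
    (hf : PTF (fun p : α × ℕ => f p.1 p.2)) (hd : PTF d) :
    PTF (fun a => maxR (n a) (f a) (d a)) := by
  obtain ⟨B, hB, hBd⟩ := pb_index hn hf
  refine ptf_natRec (r := fun a i => maxR i (f a) (d a)) (s := fun a i t => max t (f a i))
    hn hd ?_ (fun a => rfl) (fun a i _ => maxR_succ _ _ _)
    (B := fun a => sz (d a) + B a) (by have := hd.sz; fun_prop) (fun a i hi => ?_)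
  · exact PTF.natMax (by fun_prop) (PTF.comp (g := fun p : α × ℕ => f p.1 p.2)
      (f := fun p : α × ℕ × ℕ => (p.1, p.2.1)) hf (by fun_prop))
  · rw [sz_nat, sz_nat]
    have h1 : maxR i (f a) (d a) ≤ 2 ^ ((d a).size + B a) - 1 := by
      have h2 : ∀ x : ℕ, x.size ≤ (d a).size + B a → x ≤ 2 ^ ((d a).size + B a) - 1 := by
        intro x hx
        have := Nat.size_le.1 hx
        omega
      refine maxR_le _ _ _ (h2 _ (by omega)) (fun j hj => h2 _ ?_)
      have := hBd a j (by omega)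
      rw [sz_nat] at this
      omega
    rw [Nat.size_le]
    have : 0 < 2 ^ ((d a).size + B a) := by positivity
    omega

theorem ptf_argR {n : α → ℕ} {f : α → ℕ → ℕ} (hn : PTU n)
    (hf : PTF (fun p : α × ℕ => f p.1 p.2)) : PTF (fun a => argR (n a) (f a)) := by
  refine ptf_natRec (r := fun a i => argR i (f a))
    (s := fun a i t => if f a i < f a t then i else t)
    hn (PTF.const 0) ?_ (fun a => rfl) (fun a i _ => argR_succ _ _)
    (B := fun a => n a) hn.pb (fun a i hi => ?_)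
  · have h1 : PTF (fun p : α × ℕ × ℕ => f p.1 p.2.1) :=
      PTF.comp (g := fun p : α × ℕ => f p.1 p.2) (f := fun p : α × ℕ × ℕ => (p.1, p.2.1)) hf
        (by fun_prop)
    have h2 : PTF (fun p : α × ℕ × ℕ => f p.1 p.2.2) :=
      PTF.comp (g := fun p : α × ℕ => f p.1 p.2) (f := fun p : α × ℕ × ℕ => (p.1, p.2.2)) hf
        (by fun_prop)
    exact PTF.ite (PTPred.natLt h1 h2) (by fun_prop) (by fun_prop)
  · rw [sz_nat]
    refine (Nat.size_le_size ((argR_le_n i (f a)).trans hi)).trans ?_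
    exact Nat.size_le.2 Nat.lt_two_pow_self

/-! ### tables -/

/-- the table of `f` on `i < n` -/
def tab (n : ℕ) (f : ℕ → ℕ) : List ℕ := (List.range n).map f

/-- total reading -/
def get (t : List ℕ) (i : ℕ) : ℕ := t.getD i 0

theorem length_tab (n : ℕ) (f : ℕ → ℕ) : (tab n f).length = n := by simp [tab]

theorem get_tab {n : ℕ} (f : ℕ → ℕ) {i : ℕ} (h : i < n) : get (tab n f) i = f i := by
  simp [get, tab, List.getD_eq_getElem?_getD, h]

theorem get_tab_ge {n : ℕ} (f : ℕ → ℕ) {i : ℕ} (h : n ≤ i) : get (tab n f) i = 0 := by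
  unfold get
  exact List.getD_eq_default _ _ (by rw [length_tab]; exact h)

theorem mem_tab {n : ℕ} {f : ℕ → ℕ} {x : ℕ} : x ∈ tab n f ↔ ∃ i, i < n ∧ f i = x := by
  simp [tab]

theorem tab_congr {n : ℕ} {f g : ℕ → ℕ} (h : ∀ i, i < n → f i = g i) : tab n f = tab n g := by
  apply List.map_congr_left
  intro i hi
  exact h i (List.mem_range.1 hi)

theorem ptf_get {t : α → List ℕ} {i : α → ℕ} (ht : PTF t) (hi : PTF i) :
    PTF (fun a => get (t a) (i a)) := ptf_getB ht hi (PTF.const 0)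

theorem ptf_tab {n : α → ℕ} {f : α → ℕ → ℕ} (hn : PTU n)
    (hf : PTF (fun p : α × ℕ => f p.1 p.2)) : PTF (fun a => tab (n a) (f a)) :=
  PTF.tabulate hn hf

/-- the table of `f i j`, `i < n`, `j < W`, at `i * W + j` -/
def tab2 (n W : ℕ) (f : ℕ → ℕ → ℕ) : List ℕ := tab (n * W) (fun k => f (k / W) (k % W))

/-- reading of a table with rows of length `W` -/
def get2 (t : List ℕ) (W i j : ℕ) : ℕ := get t (i * W + j)

theorem length_tab2 (n W : ℕ) (f : ℕ → ℕ → ℕ) : (tab2 n W f).length = n * W := length_tab _ _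

theorem idx_lt {n W i j : ℕ} (hi : i < n) (hj : j < W) : i * W + j < n * W := by
  have h1 : (i + 1) * W ≤ n * W := Nat.mul_le_mul_right W hi
  have h2 : (i + 1) * W = i * W + W := by ring
  omega

theorem idx_div {W i j : ℕ} (hj : j < W) : (i * W + j) / W = i := by
  rw [mul_comm, Nat.mul_add_div (by omega), Nat.div_eq_of_lt hj, Nat.add_zero]

theorem idx_mod {W i j : ℕ} (hj : j < W) : (i * W + j) % W = j := by
  rw [mul_comm, Nat.mul_add_mod, Nat.mod_eq_of_lt hj]

theorem get2_tab2 {n W : ℕ} (f : ℕ → ℕ → ℕ) {i j : ℕ} (hi : i < n) (hj : j < W) :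
    get2 (tab2 n W f) W i j = f i j := by
  unfold get2 tab2
  rw [get_tab _ (idx_lt hi hj), idx_div hj, idx_mod hj]

theorem ptf_get2 {t : α → List ℕ} {W i j : α → ℕ} (ht : PTF t) (hW : PTF W) (hi : PTF i)
    (hj : PTF j) : PTF (fun a => get2 (t a) (W a) (i a) (j a)) :=
  ptf_get ht (PTF.natAdd (PTF.natMul hi hW) hj)

theorem ptf_tab2 {n W : α → ℕ} {f : α → ℕ → ℕ → ℕ} (hn : PTU n) (hW : PTU W)
    (hf : PTF (fun p : α × ℕ × ℕ => f p.1 p.2.1 p.2.2)) :
    PTF (fun a => tab2 (n a) (W a) (f a)) := by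
  refine ptf_tab (f := fun a k => f a (k / W a) (k % W a)) (PTU.mul hn hW) ?_
  have hW' : PTF (fun p : α × ℕ => W p.1) := PTF.comp (g := W) hW.toPTF PTF.fst
  exact PTF.comp (g := fun p : α × ℕ × ℕ => f p.1 p.2.1 p.2.2)
    (f := fun p : α × ℕ => (p.1, p.2 / W p.1, p.2 % W p.1)) hf
    (PTF.prodMk PTF.fst (PTF.prodMk (PTF.natDiv PTF.snd hW') (PTF.natMod PTF.snd hW')))

/-- the table of `f i j k`, `i < n`, `j < V`, `k < W`, at `(i * V + j) * W + k` -/
def tab3 (n V W : ℕ) (f : ℕ → ℕ → ℕ → ℕ) : List ℕ :=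
  tab2 (n * V) W (fun q k => f (q / V) (q % V) k)

/-- reading of a table with three indices -/
def get3 (t : List ℕ) (V W i j k : ℕ) : ℕ := get2 t W (i * V + j) k

theorem length_tab3 (n V W : ℕ) (f : ℕ → ℕ → ℕ → ℕ) : (tab3 n V W f).length = n * V * W :=
  length_tab2 _ _ _

theorem get3_tab3 {n V W : ℕ} (f : ℕ → ℕ → ℕ → ℕ) {i j k : ℕ} (hi : i < n) (hj : j < V)
    (hk : k < W) : get3 (tab3 n V W f) V W i j k = f i j k := by
  unfold get3 tab3
  rw [get2_tab2 _ (idx_lt hi hj) hk, idx_div hj, idx_mod hj]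

theorem ptf_get3 {t : α → List ℕ} {V W i j k : α → ℕ} (ht : PTF t) (hV : PTF V) (hW : PTF W)
    (hi : PTF i) (hj : PTF j) (hk : PTF k) :
    PTF (fun a => get3 (t a) (V a) (W a) (i a) (j a) (k a)) :=
  ptf_get2 ht hW (PTF.natAdd (PTF.natMul hi hV) hj) hk

theorem ptf_tab3 {n V W : α → ℕ} {f : α → ℕ → ℕ → ℕ → ℕ} (hn : PTU n) (hV : PTU V) (hW : PTU W)
    (hf : PTF (fun p : α × ℕ × ℕ × ℕ => f p.1 p.2.1 p.2.2.1 p.2.2.2)) :
    PTF (fun a => tab3 (n a) (V a) (W a) (f a)) := by
  refine ptf_tab2 (f := fun a q k => f a (q / V a) (q % V a) k) (PTU.mul hn hV) hW ?_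
  have hV' : PTF (fun p : α × ℕ × ℕ => V p.1) := PTF.comp (g := V) hV.toPTF PTF.fst
  exact PTF.comp (g := fun p : α × ℕ × ℕ × ℕ => f p.1 p.2.1 p.2.2.1 p.2.2.2)
    (f := fun p : α × ℕ × ℕ => (p.1, p.2.1 / V p.1, p.2.1 % V p.1, p.2.2)) hf
    (PTF.prodMk PTF.fst (PTF.prodMk (PTF.natDiv (by fun_prop) hV')
      (PTF.prodMk (PTF.natMod (by fun_prop) hV') (by fun_prop))))

/-! ### clipped dynamic programs -/

/-- clip a table to length `W` and values `≤ cap` -/
def clip (W cap : ℕ) (t : List ℕ) : List ℕ := (t.take W).map (fun x => min x cap)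

theorem clip_eq {W cap : ℕ} {t : List ℕ} (h1 : t.length ≤ W) (h2 : ∀ x ∈ t, x ≤ cap) :
    clip W cap t = t := by
  unfold clip
  rw [List.take_of_length_le h1]
  conv_rhs => rw [← List.map_id t]
  exact List.map_congr_left (fun x hx => min_eq_left (h2 x hx))

theorem length_clip_le (W cap : ℕ) (t : List ℕ) : (clip W cap t).length ≤ W := by
  simp [clip]

theorem clip_le {W cap : ℕ} {t : List ℕ} {x : ℕ} (h : x ∈ clip W cap t) : x ≤ cap := by
  unfold clip at h
  obtain ⟨y, _, rfl⟩ := List.mem_map.1 h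
  exact min_le_right _ _

theorem clip_clip (W cap : ℕ) (t : List ℕ) : clip W cap (clip W cap t) = clip W cap t :=
  clip_eq (length_clip_le _ _ _) (fun _ hx => clip_le hx)

theorem sz_clip_le (W cap : ℕ) (t : List ℕ) : sz (clip W cap t) ≤ W * (2 * cap.size + 1) := by
  have h1 := sz_list_le (l := clip W cap t) (m := cap.size) (fun a ha => by
    rw [sz_nat]; exact Nat.size_le_size (clip_le ha))
  exact h1.trans (Nat.mul_le_mul_right _ (length_clip_le _ _ _))

theorem ptf_clip {W cap : α → ℕ} {t : α → List ℕ} (hW : PTU W) (hc : PTF cap) (ht : PTF t) :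
    PTF (fun a => clip (W a) (cap a) (t a)) := by
  unfold clip
  refine PTF.map (f := fun a x => min x (cap a)) (PTF.take hW ht) ?_
  exact PTF.natMin PTF.snd (PTF.comp (g := cap) hc PTF.fst)

/-- clipped recursion: `r 0 = clip b`, `r (i + 1) = clip (s i (r i))` -/
def dp (W cap : ℕ) (b : List ℕ) (s : ℕ → List ℕ → List ℕ) : ℕ → List ℕ
  | 0 => clip W cap b
  | n + 1 => clip W cap (s n (dp W cap b s n))

theorem dp_zero (W cap : ℕ) (b : List ℕ) (s : ℕ → List ℕ → List ℕ) :
    dp W cap b s 0 = clip W cap b := rfl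

theorem dp_succ (W cap : ℕ) (b : List ℕ) (s : ℕ → List ℕ → List ℕ) (n : ℕ) :
    dp W cap b s (n + 1) = clip W cap (s n (dp W cap b s n)) := rfl

/-- if the unclipped recursion `r` respects the clip then the clipped one is the same -/
theorem dp_eq {W cap : ℕ} {b : List ℕ} {s : ℕ → List ℕ → List ℕ} {r : ℕ → List ℕ} {n : ℕ}
    (h0 : r 0 = b) (h1 : ∀ i, i < n → r (i + 1) = s i (r i))
    (h2 : ∀ i, i ≤ n → (r i).length ≤ W ∧ ∀ x ∈ r i, x ≤ cap) :
    ∀ i, i ≤ n → dp W cap b s i = r i := by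
  intro i
  induction i with
  | zero =>
    intro _
    rw [dp_zero, ← h0]
    exact clip_eq (h2 0 (Nat.zero_le _)).1 (h2 0 (Nat.zero_le _)).2
  | succ i ih =>
    intro hi
    rw [dp_succ, ih (by omega), ← h1 i (by omega)]
    exact clip_eq (h2 _ hi).1 (h2 _ hi).2

theorem ptf_dp {W cap n : α → ℕ} {b : α → List ℕ} {s : α → ℕ → List ℕ → List ℕ} (hW : PTU W)
    (hc : PTF cap) (hn : PTU n) (hb : PTF b)
    (hs : PTF (fun p : α × ℕ × List ℕ => s p.1 p.2.1 p.2.2)) :
    PTF (fun a => dp (W a) (cap a) (b a) (s a) (n a)) := by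
  refine ptf_natRec (r := fun a i => dp (W a) (cap a) (b a) (s a) i)
    (s := fun a i t => clip (W a) (cap a) (s a i t)) hn
    (ptf_clip hW hc hb) ?_ (fun a => rfl) (fun a i _ => rfl)
    (B := fun a => W a * (2 * (cap a).size + 1)) ?_ (fun a i _ => ?_)
  · exact ptf_clip (W := fun p : α × ℕ × List ℕ => W p.1) (cap := fun p => cap p.1)
      (PTU.comp hW PTF.fst) (PTF.comp (g := cap) hc PTF.fst) hs
  · have h1 := hW.pb
    have h2 := (PTF.natSizeUn hc).pb
    fun_prop
  · cases i with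
    | zero => exact sz_clip_le _ _ _
    | succ i => exact sz_clip_le _ _ _

/-! ### the same for a list of tables -/

/-- clip a list of tables -/
def clip2 (V W cap : ℕ) (t : List (List ℕ)) : List (List ℕ) := (t.take V).map (clip W cap)

theorem clip2_eq {V W cap : ℕ} {t : List (List ℕ)} (h0 : t.length ≤ V)
    (h1 : ∀ l ∈ t, l.length ≤ W ∧ ∀ x ∈ l, x ≤ cap) : clip2 V W cap t = t := by
  unfold clip2
  rw [List.take_of_length_le h0]
  conv_rhs => rw [← List.map_id t]
  exact List.map_congr_left (fun l hl => clip_eq (h1 l hl).1 (h1 l hl).2)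

theorem sz_clip2_le (V W cap : ℕ) (t : List (List ℕ)) :
    sz (clip2 V W cap t) ≤ V * (2 * (W * (2 * cap.size + 1)) + 1) := by
  have h1 := sz_list_le (l := clip2 V W cap t) (m := W * (2 * cap.size + 1)) (fun a ha => by
    unfold clip2 at ha
    obtain ⟨y, _, rfl⟩ := List.mem_map.1 ha
    exact sz_clip_le _ _ _)
  refine h1.trans (Nat.mul_le_mul_right _ ?_)
  simp [clip2]

theorem ptf_clip2 {V W cap : α → ℕ} {t : α → List (List ℕ)} (hV : PTU V) (hW : PTU W)
    (hc : PTF cap) (ht : PTF t) : PTF (fun a => clip2 (V a) (W a) (cap a) (t a)) := by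
  unfold clip2
  refine PTF.map (f := fun a x => clip (W a) (cap a) x) (PTF.take hV ht) ?_
  exact ptf_clip (W := fun p : α × List ℕ => W p.1) (cap := fun p => cap p.1)
    (PTU.comp hW PTF.fst) (PTF.comp (g := cap) hc PTF.fst) PTF.snd

/-- clipped recursion on lists of tables -/
def dp2 (V W cap : ℕ) (b : List (List ℕ)) (s : ℕ → List (List ℕ) → List (List ℕ)) :
    ℕ → List (List ℕ)
  | 0 => clip2 V W cap b
  | n + 1 => clip2 V W cap (s n (dp2 V W cap b s n))

theorem dp2_zero (V W cap : ℕ) (b : List (List ℕ)) (s : ℕ → List (List ℕ) → List (List ℕ)) :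
    dp2 V W cap b s 0 = clip2 V W cap b := rfl

theorem dp2_succ (V W cap : ℕ) (b : List (List ℕ)) (s : ℕ → List (List ℕ) → List (List ℕ))
    (n : ℕ) : dp2 V W cap b s (n + 1) = clip2 V W cap (s n (dp2 V W cap b s n)) := rfl

theorem dp2_eq {V W cap : ℕ} {b : List (List ℕ)} {s : ℕ → List (List ℕ) → List (List ℕ)}
    {r : ℕ → List (List ℕ)} {n : ℕ} (h0 : r 0 = b) (h1 : ∀ i, i < n → r (i + 1) = s i (r i))
    (h2 : ∀ i, i ≤ n → (r i).length ≤ V ∧ ∀ l ∈ r i, l.length ≤ W ∧ ∀ x ∈ l, x ≤ cap) :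
    ∀ i, i ≤ n → dp2 V W cap b s i = r i := by
  intro i
  induction i with
  | zero =>
    intro _
    rw [dp2_zero, ← h0]
    exact clip2_eq (h2 0 (Nat.zero_le _)).1 (h2 0 (Nat.zero_le _)).2
  | succ i ih =>
    intro hi
    rw [dp2_succ, ih (by omega), ← h1 i (by omega)]
    exact clip2_eq (h2 _ hi).1 (h2 _ hi).2

theorem ptf_dp2 {V W cap n : α → ℕ} {b : α → List (List ℕ)}
    {s : α → ℕ → List (List ℕ) → List (List ℕ)} (hV : PTU V) (hW : PTU W)
    (hc : PTF cap) (hn : PTU n) (hb : PTF b)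
    (hs : PTF (fun p : α × ℕ × List (List ℕ) => s p.1 p.2.1 p.2.2)) :
    PTF (fun a => dp2 (V a) (W a) (cap a) (b a) (s a) (n a)) := by
  refine ptf_natRec (r := fun a i => dp2 (V a) (W a) (cap a) (b a) (s a) i)
    (s := fun a i t => clip2 (V a) (W a) (cap a) (s a i t)) hn
    (ptf_clip2 hV hW hc hb) ?_ (fun a => rfl) (fun a i _ => rfl)
    (B := fun a => V a * (2 * (W a * (2 * (cap a).size + 1)) + 1)) ?_ (fun a i _ => ?_)
  · exact ptf_clip2 (V := fun p : α × ℕ × List (List ℕ) => V p.1) (W := fun p => W p.1)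
      (cap := fun p => cap p.1) (PTU.comp hV PTF.fst) (PTU.comp hW PTF.fst)
      (PTF.comp (g := cap) hc PTF.fst) hs
  · have h0 := hV.pb
    have h1 := hW.pb
    have h2 := (PTF.natSizeUn hc).pb
    fun_prop
  · cases i with
    | zero => exact sz_clip2_le _ _ _ _
    | succ i => exact sz_clip2_le _ _ _ _

/-! ### sums -/

/-- `∑_{i < n} f i` as a list fold, equal to the `Finset` sum -/
def sumR (n : ℕ) (f : ℕ → ℕ) : ℕ := ∑ i ∈ Finset.range n, f i

theorem ptf_sumR {n : α → ℕ} {f : α → ℕ → ℕ} (hn : PTU n)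
    (hf : PTF (fun p : α × ℕ => f p.1 p.2)) : PTF (fun a => sumR (n a) (f a)) :=
  ptf_sumRange hn hf

end Crest.Agent.R288.PtDp115
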