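import Crest.Agent.R288.PtS_966
import Crest.Agent.R288.DeltaE_72

/-!
# R288: certificates of the request lists of BODY (names of DeltaE_72) (helper966)

`hd1`, `nwd`, `bres`, `bkeysOf`, `bcel`, `tbl`, the list of the cells of the arrival calls.
-/

set_option autoImplicit false

namespace Crest.Agent.R288.PtE966

open Crest.Agent.Lib.PT Crest.Agent.R288.Alg45 Crest.Agent.R288.PtX949
  Crest.Agent.R288.StPT569 Crest.Agent.R288.PtSt966 Crest.Agent.R288.PtK966
  Crest.Agent.R288.PtS966 Crest.Agent.R288.Delta72 Crest.Agent.R288.Delta222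

variable {γ : Type} [PTCode γ] {P : γ → Par}

@[fun_prop]
theorem ptf_hd1 {l : γ → List (List ℕ)} {t : γ → ℕ} (hl : PTF l) (ht : PTF t) :
    PTF (fun c => hd1 (l c) (t c)) := by
  unfold hd1
  fun_prop

@[fun_prop]
theorem ptu_nwd (hP : PTF P) : PTU (fun c => nwd (P c)) := by
  unfold nwd
  fun_prop

@[fun_prop]
theorem ptf_nwd (hP : PTF P) : PTF (fun c => nwd (P c)) := (ptu_nwd hP).toPTF

/-- the residues as a total certified function -/
theorem ptf_bres {x : γ → Cel} {ws : γ → List (List ℕ)} (hP : PTF P) (hx : PTF x)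
    (hκ : PTU (fun c => (x c).κ)) (hws : PTF ws) :
    PTF (fun p : γ × ℕ × ℕ => bres (P p.1) (x p.1) (ws p.1) p.2.1 p.2.2) := by
  have hk0 : PTU (fun p : γ × ℕ × ℕ => (x p.1).κ) :=
    PTU.comp (f := fun p : γ × ℕ × ℕ => p.1) hκ (by fun_prop)
  have hk : PTU (fun p : γ × ℕ × ℕ => min p.2.2 (x p.1).κ) :=
    PtX949.ptu_min_left (by fun_prop) hk0
  have h2 := ptf_modu (P := fun p : γ × ℕ × ℕ => P p.1) (κ := fun p => (x p.1).κ) (by fun_prop)
    hk0 hk
  have h3 := hk0.toPTF
  have h4 : PTF (fun p : γ × ℕ × ℕ =>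
      hd1 (ws p.1) (p.2.1 * ((P p.1).dl + (P p.1).du + 1) + (p.2.2 + (P p.1).dl - (x p.1).κ)) %
        modu (P p.1) (x p.1).κ (min p.2.2 (x p.1).κ)) := by
    refine PTF.natMod (ptf_hd1 (by fun_prop) ?_) h2
    exact PTF.natAdd (by fun_prop) (PTF.natSub (by fun_prop) h3)
  refine PTF.of_eq h4 fun p => ?_
  unfold bres
  rcases le_total p.2.2 (x p.1).κ with h | h
  · rw [min_eq_left h]
  · rw [min_eq_right h, modu_of_le h, modu_of_le le_rfl]

/-- the keys of the arrival calls -/
theorem ptf_bkeysOf {x : γ → Cel} {ws : γ → List (List ℕ)} (hP : PTF P) (hx : PTF x)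
    (hκ : PTU (fun c => (x c).κ)) (hws : PTF ws) :
    PTF (fun c => bkeysOf (P c) (x c) (ws c)) := by
  unfold bkeysOf
  exact ptf_bkeys hP hκ (by fun_prop) (ptf_bres hP hx hκ hws)

@[fun_prop]
theorem ptf_bcel {x : γ → Cel} {key : γ → Key} (hP : PTF P) (hx : PTF x) (hk : PTF key) :
    PTF (fun c => bcel (P c) (x c) (key c)) := by
  unfold bcel
  fun_prop

/-- the cells of the arrival calls -/
theorem ptf_bcells {x : γ → Cel} {ws : γ → List (List ℕ)} (hP : PTF P) (hx : PTF x)
    (hκ : PTU (fun c => (x c).κ)) (hws : PTF ws) :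
    PTF (fun c => (bkeysOf (P c) (x c) (ws c)).map (bcel (P c) (x c))) :=
  PtX949.map (f := fun c key => bcel (P c) (x c) key) (ptf_bkeysOf hP hx hκ hws) (by fun_prop)

/-- requests for a list of typed arguments: `g` = code of the request -/
theorem ptf_reqs {α : Type} [PTCode α] {l : γ → List α} {g : γ → α → List ℕ} (hl : PTF l)
    (hg : PTF (fun p : γ × α => g p.1 p.2)) : PTF (fun c => (l c).map (g c)) :=
  PtX949.map hl hg

@[fun_prop]
theorem ptf_tbl {α : Type} [PTCode α] {ks : γ → List α} {us : γ → List (List ℕ)} (hks : PTF ks)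
    (hus : PTF us) : PTF (fun c => tbl (ks c) (us c)) := by
  unfold tbl
  fun_prop

end Crest.Agent.R288.PtE966
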