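import Crest.Agent.R288.PtE_966
import Crest.Agent.R288.PgB_172

/-!
# R288: certificates of the unit table and the pair numbers of BODY (helper966)

`fTb P c fs` (unit function from its answers), `xkeys P c k fs` (keys of the pair numbers).
-/

set_option autoImplicit false

namespace Crest.Agent.R288.PtF966

open Crest.Agent.Lib.PT Crest.Agent.R288.Alg45 Crest.Agent.R288.PtX949
  Crest.Agent.R288.StPT569 Crest.Agent.R288.PtSt966 Crest.Agent.R288.PtK966
  Crest.Agent.R288.PtS966 Crest.Agent.R288.PtE966 Crest.Agent.R288.Delta72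
  Crest.Agent.R288.Delta222 Crest.Agent.R288.PgA172 Crest.Agent.R288.PgB172

variable {γ : Type} [PTCode γ] {P : γ → Par} {x : γ → Cel} {fs : γ → List (List ℕ)}

/-- the unit function from its answers -/
theorem ptf_fTb (hP : PTF P) (hκ : PTU (fun c => (x c).κ)) (hx : PTF x) (hfs : PTF fs) :
    PTF (fun p : γ × St => fTb (P p.1) (x p.1) (fs p.1) p.2) := by
  unfold fTb
  have h1 : PTF (fun c => tbl (bst (P c) (x c)) (fs c)) :=
    ptf_tbl (ptf_bst hP hκ hx) hfs
  have h2 : PTF (fun p : γ × St => tbl (bst (P p.1) (x p.1)) (fs p.1)) :=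
    PTF.comp (g := fun c => tbl (bst (P c) (x c)) (fs c)) (f := fun p : γ × St => p.1) h1
      (by fun_prop)
  exact ptf_getT h2 (by fun_prop)

/-- the keys of the pair numbers -/
theorem ptf_xkeys {k : γ → ℕ} (hP : PTF P) (hκ : PTU (fun c => (x c).κ)) (hx : PTF x)
    (hk : PTU k) (hfs : PTF fs) : PTF (fun c => xkeys (P c) (x c) (k c) (fs c)) := by
  unfold xkeys
  exact ptf_rpr hk (ptf_bpr (F := fun c => fTb (P c) (x c) (fs c)) hP hκ hx
    (ptf_fTb hP hκ hx hfs))

end Crest.Agent.R288.PtF966
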