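import Crest.Agent.R288.WDPb_569

/-!
# R288 [WDP], part 3: the dynamic programs of a window on nested lists, PTF certificates

* `tb3 m A f`, `tb4 m A f`, `tb5 n N A f`: tables.
* `lv A N KL RL t`: level `t` of the play with kernel list `KL`, end table `RL`; entries `hv`.
* `olv A N RL t`: level `t` of the optimum; entries `ov`;  `okL`: its kernel list.
-/

set_option autoImplicit false

namespace Crest.Agent.R288.WDP569

open Crest.Agent.Lib.PT Finset

/-! ### sizes of entries -/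

section sizes

variable {α : Type} [PTCode α]

theorem sz_getD_le (l : List α) (i : ℕ) {d : α} (hd : sz d = 0) : sz (l.getD i d) ≤ sz l := by
  rcases lt_or_ge i l.length with h | h
  · rw [List.getD_eq_getElem _ _ h]; exact sz_mem_le (List.getElem_mem h)
  · rw [List.getD_eq_default _ _ h, hd]; exact Nat.zero_le _

theorem size_g1_le (l : List ℕ) (a : ℕ) : (g1 l a).size ≤ sz l := by
  have := sz_getD_le l a (d := 0) (by rw [sz_nat]; simp)
  rwa [sz_nat] at this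

theorem size_g2_le (l : List (List ℕ)) (a b : ℕ) : (g2 l a b).size ≤ sz l :=
  (size_g1_le _ _).trans (sz_getD_le l a rfl)

theorem size_g3_le (l : List (List (List ℕ))) (p a b : ℕ) : (g3 l p a b).size ≤ sz l :=
  (size_g2_le _ _ _).trans (sz_getD_le l p rfl)

theorem size_g4_le (l : List (List (List (List ℕ)))) (p a b c : ℕ) : (g4 l p a b c).size ≤ sz l :=
  (size_g3_le _ _ _ _).trans (sz_getD_le l p rfl)

theorem size_g5_le (l : List (List (List (List (List ℕ))))) (t p a b c : ℕ) :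
    (g5 l t p a b c).size ≤ sz l :=
  (size_g4_le _ _ _ _ _).trans (sz_getD_le l t rfl)

theorem lt_two_pow_of_size {x s : ℕ} (h : x.size ≤ s) : x < 2 ^ s := Nat.size_le.1 h

end sizes

/-! ### tables -/

/-- table of a function of three indices -/
def tb3 (m A : ℕ) (f : ℕ → ℕ → ℕ → ℕ) : List (List (List ℕ)) :=
  tab m fun p => tab A fun a => tab A fun b => f p a b

/-- table of a function of four indices -/
def tb4 (m A : ℕ) (f : ℕ → ℕ → ℕ → ℕ → ℕ) : List (List (List (List ℕ))) :=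
  tab m fun p => tab A fun a => tab A fun b => tab A fun z => f p a b z

/-- table over the inner nodes of the binary tree -/
def tb5 (n N A : ℕ) (f : ℕ → ℕ → ℕ → ℕ → ℕ → ℕ) : List (List (List (List (List ℕ)))) :=
  tab n fun t => tb4 (N / 2 ^ (t + 1)) A (f t)

theorem g3_tb3 {m A : ℕ} {f : ℕ → ℕ → ℕ → ℕ} {p a b : ℕ} (hp : p < m) (ha : a < A) (hb : b < A) :
    g3 (tb3 m A f) p a b = f p a b := g3_tab hp ha hb

theorem g4_tb4 {m A : ℕ} {f : ℕ → ℕ → ℕ → ℕ → ℕ} {p a b z : ℕ} (hp : p < m) (ha : a < A)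
    (hb : b < A) (hz : z < A) : g4 (tb4 m A f) p a b z = f p a b z := by
  unfold g4 tb4
  rw [tab_getD _ hp, g3_tab (f := fun a b z => f p a b z) ha hb hz]

theorem g5_tb5 {n N A : ℕ} {f : ℕ → ℕ → ℕ → ℕ → ℕ → ℕ} {t p a b z : ℕ} (ht : t < n)
    (hp : p < N / 2 ^ (t + 1)) (ha : a < A) (hb : b < A) (hz : z < A) :
    g5 (tb5 n N A f) t p a b z = f t p a b z := by
  unfold g5 tb5
  rw [tab_getD _ ht, g4_tb4 hp ha hb hz]

theorem tb3_congr {m A : ℕ} {f g : ℕ → ℕ → ℕ → ℕ}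
    (h : ∀ p < m, ∀ a < A, ∀ b < A, f p a b = g p a b) : tb3 m A f = tb3 m A g :=
  tab_congr fun p hp => tab_congr fun a ha => tab_congr fun b hb => h p hp a ha b hb

theorem tb4_congr {m A : ℕ} {f g : ℕ → ℕ → ℕ → ℕ → ℕ}
    (h : ∀ p < m, ∀ a < A, ∀ b < A, ∀ z < A, f p a b z = g p a b z) : tb4 m A f = tb4 m A g :=
  tab_congr fun p hp => tab_congr fun a ha => tab_congr fun b hb => tab_congr fun z hz =>
    h p hp a ha b hb z hz

theorem tb5_congr {n N A : ℕ} {f g : ℕ → ℕ → ℕ → ℕ → ℕ → ℕ}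
    (h : ∀ t < n, ∀ p < N / 2 ^ (t + 1), ∀ a < A, ∀ b < A, ∀ z < A, f t p a b z = g t p a b z) :
    tb5 n N A f = tb5 n N A g :=
  tab_congr fun t ht => tb4_congr (h t ht)

/-- size of a table of type `tb3` -/
def P3 (m A s : ℕ) : ℕ := m * (2 * (A * (2 * (A * (2 * s + 1)) + 1)) + 1)

/-- size of a table of type `tb5` -/
def P5 (n m A s : ℕ) : ℕ := n * (2 * (m * (2 * (A * (2 * (A * (2 * (A * (2 * s + 1)) + 1)) + 1)) + 1)) + 1)

theorem P3_mono {m m' A s s' : ℕ} (hm : m ≤ m') (hs : s ≤ s') : P3 m A s ≤ P3 m' A s' := by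
  unfold P3; gcongr

theorem sz_tb3_le {m A s : ℕ} {f : ℕ → ℕ → ℕ → ℕ}
    (h : ∀ p < m, ∀ a < A, ∀ b < A, (f p a b).size ≤ s) : sz (tb3 m A f) ≤ P3 m A s := by
  refine sz_tab_le fun p hp => sz_tab_le fun a ha => sz_tab_le fun b hb => ?_
  rw [sz_nat]; exact h p hp a ha b hb

theorem sz_tb5_le {n N A s : ℕ} {f : ℕ → ℕ → ℕ → ℕ → ℕ → ℕ}
    (h : ∀ t < n, ∀ p < N / 2 ^ (t + 1), ∀ a < A, ∀ b < A, ∀ z < A, (f t p a b z).size ≤ s) :
    sz (tb5 n N A f) ≤ P5 n N A s := by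
  refine sz_tab_le fun t ht => ?_
  refine (sz_tab_le (m := 0 + (A * (2 * (A * (2 * (A * (2 * s + 1)) + 1)) + 1)))
    fun p hp => ?_).trans ?_
  · rw [Nat.zero_add]
    refine sz_tab_le fun a ha => sz_tab_le fun b hb => sz_tab_le fun z hz => ?_
    rw [sz_nat]; exact h t ht p hp a ha b hb z hz
  · rw [Nat.zero_add]
    exact Nat.mul_le_mul_right _ (Nat.div_le_self _ _)

section ptf

variable {γ : Type} [PTCode γ]

theorem pb_P3 {m A s : γ → ℕ} (hm : PB m) (hA : PB A) (hs : PB s) :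
    PB (fun c => P3 (m c) (A c) (s c)) := by
  unfold P3; fun_prop

theorem pb_P5 {n m A s : γ → ℕ} (hn : PB n) (hm : PB m) (hA : PB A) (hs : PB s) :
    PB (fun c => P5 (n c) (m c) (A c) (s c)) := by
  unfold P5; fun_prop

theorem ptf_tb3 {m A : γ → ℕ} {f : γ → ℕ → ℕ → ℕ → ℕ} (hm : PTU m) (hA : PTU A)
    (hf : PTF (fun q : γ × ℕ × ℕ × ℕ => f q.1 q.2.1 q.2.2.1 q.2.2.2)) :
    PTF (fun c => tb3 (m c) (A c) (f c)) := by
  unfold tb3
  refine ptf_tab hm ?_
  refine ptf_tab (γ := γ × ℕ) (n := fun q => A q.1) (f := fun q a => tab (A q.1) fun b => f q.1 q.2 a b)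
    (PTU.comp hA PTF.fst) ?_
  refine ptf_tab (γ := (γ × ℕ) × ℕ) (n := fun q => A q.1.1) (f := fun q b => f q.1.1 q.1.2 q.2 b)
    (PTU.comp hA (PTF.comp PTF.fst PTF.fst)) ?_
  exact PTF.comp (g := fun q : γ × ℕ × ℕ × ℕ => f q.1 q.2.1 q.2.2.1 q.2.2.2)
    (f := fun q : ((γ × ℕ) × ℕ) × ℕ => (q.1.1.1, q.1.1.2, q.1.2, q.2)) hf (by fun_prop)

theorem ptf_tb4 {m A : γ → ℕ} {f : γ → ℕ → ℕ → ℕ → ℕ → ℕ} (hm : PTU m) (hA : PTU A)
    (hf : PTF (fun q : γ × ℕ × ℕ × ℕ × ℕ => f q.1 q.2.1 q.2.2.1 q.2.2.2.1 q.2.2.2.2)) :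
    PTF (fun c => tb4 (m c) (A c) (f c)) := by
  unfold tb4
  refine ptf_tab hm ?_
  refine PTF.of_eq (ptf_tb3 (γ := γ × ℕ) (m := fun q => A q.1) (A := fun q => A q.1)
    (f := fun q a b z => f q.1 q.2 a b z) (PTU.comp hA PTF.fst) (PTU.comp hA PTF.fst) ?_)
    (fun _ => rfl)
  exact PTF.comp (g := fun q : γ × ℕ × ℕ × ℕ × ℕ => f q.1 q.2.1 q.2.2.1 q.2.2.2.1 q.2.2.2.2)
    (f := fun q : (γ × ℕ) × ℕ × ℕ × ℕ => (q.1.1, q.1.2, q.2)) hf (by fun_prop)

/-- number of nodes at a level with a bounded index -/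
theorem ptu_nodes {N n i : γ → ℕ} (hN : PTU N) (hn : PTU n) (hi : PTF i) :
    PTU (fun c => N c / 2 ^ (min (i c) (n c) + 1)) := by
  have h1 : PTU (fun c => min (i c) (n c)) := PTF.natMinUn hi hn
  have h2 : PTF (fun c => N c / 2 ^ (min (i c) (n c) + 1)) :=
    PTF.natDiv hN.toPTF (PTF.natTwoPow (PTU.succ h1))
  refine PTU.of_eq (PTF.natMinUn h2 hN) fun c => min_eq_left (Nat.div_le_self _ _)

theorem ptf_tb5 {n N A : γ → ℕ} {f : γ → ℕ → ℕ → ℕ → ℕ → ℕ → ℕ} (hn : PTU n) (hN : PTU N)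
    (hA : PTU A)
    (hf : PTF (fun q : γ × ℕ × ℕ × ℕ × ℕ × ℕ =>
      f q.1 q.2.1 q.2.2.1 q.2.2.2.1 q.2.2.2.2.1 q.2.2.2.2.2)) :
    PTF (fun c => tb5 (n c) (N c) (A c) (f c)) := by
  have h1 : PTF (fun c => tab (n c) fun t => tb4 (N c / 2 ^ (min t (n c) + 1)) (A c) (f c t)) := by
    refine ptf_tab hn ?_
    refine ptf_tb4 (γ := γ × ℕ) (m := fun q => N q.1 / 2 ^ (min q.2 (n q.1) + 1))
      (A := fun q => A q.1) (f := fun q => f q.1 q.2)
      (ptu_nodes (PTU.comp hN PTF.fst) (PTU.comp hn PTF.fst) PTF.snd) (PTU.comp hA PTF.fst) ?_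
    exact PTF.comp (g := fun q : γ × ℕ × ℕ × ℕ × ℕ × ℕ =>
        f q.1 q.2.1 q.2.2.1 q.2.2.2.1 q.2.2.2.2.1 q.2.2.2.2.2)
      (f := fun q : (γ × ℕ) × ℕ × ℕ × ℕ × ℕ => (q.1.1, q.1.2, q.2)) hf (by fun_prop)
  refine PTF.of_eq h1 fun c => ?_
  unfold tb5
  exact tab_congr fun t ht => by rw [min_eq_left ht.le]

theorem ptf_wav {A : γ → ℕ} {w f : γ → ℕ → ℕ} (hA : PTU A) (hw : PTF₂ w) (hf : PTF₂ f) :
    PTF (fun c => wav (A c) (w c) (f c)) := by
  unfold wav
  have h := PTF.natSumRange hA hw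
  exact PTF.natDiv (PTF.natAdd (PTF.natSumRange hA (PTF.natMul hw hf))
    (PTF.natSub h (PTF.const 1))) h

end ptf

/-! ### the play -/

theorem hv_lt {A : ℕ} {K : ℕ → ℕ → ℕ → ℕ → ℕ → ℕ} {R : ℕ → ℕ → ℕ → ℕ} {M : ℕ} (hM : 0 < M)
    (h : ∀ p a b, R p a b < M) (t p a b : ℕ) : hv A K R t p a b < M * 2 ^ t := by
  induction t generalizing p a b with
  | zero => rw [hv_zero, pow_zero, mul_one]; exact h p a b
  | succ t ih =>
    rw [hv_succ]
    refine wav_lt (by positivity) fun z _ => ?_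
    have := ih (2 * p) a z
    have := ih (2 * p + 1) z b
    have e : M * 2 ^ (t + 1) = M * 2 ^ t + M * 2 ^ t := by rw [pow_succ]; ring
    unfold uv
    omega

/-- level `t` of the play, as a list -/
def lv (A N : ℕ) (KL : List (List (List (List (List ℕ))))) (RL : List (List (List ℕ))) :
    ℕ → List (List (List ℕ))
  | 0 => tb3 N A (g3 RL)
  | t + 1 => tb3 (N / 2 ^ (t + 1)) A fun p a b => wav A (g5 KL t p a b)
      fun z => g3 (lv A N KL RL t) (2 * p) a z + g3 (lv A N KL RL t) (2 * p + 1) z b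

theorem nodes_child {N t p : ℕ} (hp : p < N / 2 ^ (t + 1)) : 2 * p + 1 < N / 2 ^ t := by
  have h3 : N / 2 ^ (t + 1) = N / 2 ^ t / 2 := by rw [pow_succ, Nat.div_div_eq_div_mul]
  rw [h3] at hp
  omega

theorem g3_lv {A N : ℕ} (KL : List (List (List (List (List ℕ))))) (RL : List (List (List ℕ)))
    {t p a b : ℕ} (hp : p < N / 2 ^ t) (ha : a < A) (hb : b < A) :
    g3 (lv A N KL RL t) p a b = hv A (g5 KL) (g3 RL) t p a b := by
  induction t generalizing p a b with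
  | zero => rw [lv, g3_tb3 (by simpa using hp) ha hb]; rfl
  | succ t ih =>
    rw [lv, g3_tb3 hp ha hb, hv_succ]
    refine wav_congr (fun z _ => rfl) fun z hz => ?_
    have := nodes_child hp
    rw [ih (by omega) ha hz, ih this hz hb]; rfl

theorem size_hv_le {A : ℕ} (K : ℕ → ℕ → ℕ → ℕ → ℕ → ℕ) (RL : List (List (List ℕ)))
    (t p a b : ℕ) : (hv A K (g3 RL) t p a b).size ≤ sz RL + t := by
  rw [Nat.size_le, pow_add]
  exact hv_lt (by positivity) (fun p a b => lt_two_pow_of_size (size_g3_le RL p a b)) t p a b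

theorem sz_lv_le (A N : ℕ) (KL : List (List (List (List (List ℕ))))) (RL : List (List (List ℕ)))
    (t : ℕ) : sz (lv A N KL RL t) ≤ P3 N A (sz RL + t) := by
  have key : ∀ p < N / 2 ^ t, ∀ a < A, ∀ b < A,
      (g3 (lv A N KL RL t) p a b).size ≤ sz RL + t := by
    intro p hp a ha b hb
    rw [g3_lv KL RL hp ha hb]
    exact size_hv_le _ _ _ _ _ _
  cases t with
  | zero =>
    refine sz_tb3_le fun p hp a ha b hb => ?_
    have := key p (by simpa using hp) a ha b hb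
    rwa [lv, g3_tb3 hp ha hb] at this
  | succ t =>
    refine (sz_tb3_le (s := sz RL + (t + 1)) fun p hp a ha b hb => ?_).trans
      (P3_mono (Nat.div_le_self _ _) le_rfl)
    have := key p hp a ha b hb
    rwa [lv, g3_tb3 hp ha hb] at this

/-! ### the optimum -/

theorem ov_congr {A : ℕ} {R R' : ℕ → ℕ → ℕ → ℕ} {N : ℕ}
    (hR : ∀ p < N, ∀ a < A, ∀ b < A, R p a b = R' p a b) (t : ℕ) :
    ∀ p < N / 2 ^ t, ∀ a < A, ∀ b < A, ov A R t p a b = ov A R' t p a b := by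
  induction t with
  | zero => intro p hp a ha b hb; exact hR p (by simpa using hp) a ha b hb
  | succ t ih =>
    intro p hp a ha b hb
    have h2 := nodes_child hp
    rw [ov_succ, ov_succ]
    refine mn_congr (by omega) fun z hz => ?_
    rw [ih _ (by omega) a ha z hz, ih _ h2 z hz b hb]

theorem ov_lt {A : ℕ} (hA : 0 < A) {R : ℕ → ℕ → ℕ → ℕ} {M : ℕ}
    (h : ∀ p a b, R p a b < M) (t p a b : ℕ) : ov A R t p a b < M * 2 ^ t := by
  induction t generalizing p a b with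
  | zero => rw [ov_zero, pow_zero, mul_one]; exact h p a b
  | succ t ih =>
    rw [ov_succ]
    refine lt_of_le_of_lt (mn_le _ hA) ?_
    have := ih (2 * p) a 0
    have := ih (2 * p + 1) 0 b
    have e : M * 2 ^ (t + 1) = M * 2 ^ t + M * 2 ^ t := by rw [pow_succ]; ring
    omega

/-- level `t` of the optimum, as a list -/
def olv (A N : ℕ) (RL : List (List (List ℕ))) : ℕ → List (List (List ℕ))
  | 0 => tb3 N A (g3 RL)
  | t + 1 => tb3 (N / 2 ^ (t + 1)) A fun p a b => mn A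
      fun z => g3 (olv A N RL t) (2 * p) a z + g3 (olv A N RL t) (2 * p + 1) z b

theorem g3_olv {A N : ℕ} (RL : List (List (List ℕ))) {t p a b : ℕ} (hp : p < N / 2 ^ t)
    (ha : a < A) (hb : b < A) : g3 (olv A N RL t) p a b = ov A (g3 RL) t p a b := by
  induction t generalizing p a b with
  | zero => rw [olv, g3_tb3 (by simpa using hp) ha hb]; rfl
  | succ t ih =>
    rw [olv, g3_tb3 hp ha hb, ov_succ]
    refine mn_congr (by omega) fun z hz => ?_
    have := nodes_child hp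
    rw [ih (by omega) ha hz, ih this hz hb]

theorem size_ov_le {A : ℕ} (hA : 0 < A) (RL : List (List (List ℕ))) (t p a b : ℕ) :
    (ov A (g3 RL) t p a b).size ≤ sz RL + t := by
  rw [Nat.size_le, pow_add]
  exact ov_lt hA (fun p a b => lt_two_pow_of_size (size_g3_le RL p a b)) t p a b

theorem sz_olv_le (A N : ℕ) (RL : List (List (List ℕ))) (t : ℕ) :
    sz (olv A N RL t) ≤ P3 N A (sz RL + t) := by
  have key : ∀ p < N / 2 ^ t, ∀ a < A, ∀ b < A,
      (g3 (olv A N RL t) p a b).size ≤ sz RL + t := by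
    intro p hp a ha b hb
    rw [g3_olv RL hp ha hb]
    exact size_ov_le (by omega) _ _ _ _ _
  cases t with
  | zero =>
    refine sz_tb3_le fun p hp a ha b hb => ?_
    have := key p (by simpa using hp) a ha b hb
    rwa [olv, g3_tb3 hp ha hb] at this
  | succ t =>
    refine (sz_tb3_le (s := sz RL + (t + 1)) fun p hp a ha b hb => ?_).trans
      (P3_mono (Nat.div_le_self _ _) le_rfl)
    have := key p hp a ha b hb
    rwa [olv, g3_tb3 hp ha hb] at this

/-- kernel list of the optimum -/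
def okL (A N n : ℕ) (RL : List (List (List ℕ))) : List (List (List (List (List ℕ)))) :=
  tb5 n N A fun t p a b z => if z = am A (fun z => g3 (olv A N RL t) (2 * p) a z +
    g3 (olv A N RL t) (2 * p + 1) z b) then 1 else 0

theorem g5_okL {A N n : ℕ} (RL : List (List (List ℕ))) {t p a b z : ℕ} (ht : t < n)
    (hp : p < N / 2 ^ (t + 1)) (ha : a < A) (hb : b < A) (hz : z < A) :
    g5 (okL A N n RL) t p a b z = okK A (g3 RL) t p a b z := by
  unfold okL okK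
  rw [g5_tb5 ht hp ha hb hz]
  have := nodes_child hp
  rw [am_congr fun z hz => by rw [g3_olv RL (by omega) ha hz, g3_olv RL this hz hb]]

section ptf

variable {γ : Type} [PTCode γ]

theorem ptf_lv {A N n : γ → ℕ} {KL : γ → List (List (List (List (List ℕ))))}
    {RL : γ → List (List (List ℕ))} (hA : PTU A) (hN : PTU N) (hn : PTU n) (hK : PTF KL)
    (hR : PTF RL) : PTF (fun c => lv (A c) (N c) (KL c) (RL c) (n c)) := by
  refine PTF.natRec (r := fun c i => lv (A c) (N c) (KL c) (RL c) i)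
    (b := fun c => tb3 (N c) (A c) (g3 (RL c)))
    (s := fun c i L => tb3 (N c / 2 ^ (min i (n c) + 1)) (A c) fun p a b =>
      wav (A c) (g5 (KL c) i p a b) fun z => g3 L (2 * p) a z + g3 L (2 * p + 1) z b)
    hn ?_ ?_ (fun _ => rfl) ?_ (B := fun c => P3 (N c) (A c) (sz (RL c) + n c)) ?_ ?_
  · refine ptf_tb3 hN hA ?_
    have : PTF (fun q : γ × ℕ × ℕ × ℕ => RL q.1) := PTF.comp hR PTF.fst
    fun_prop
  · refine ptf_tb3 (γ := γ × ℕ × List (List (List ℕ)))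
      (m := fun q => N q.1 / 2 ^ (min q.2.1 (n q.1) + 1)) (A := fun q => A q.1)
      (f := fun q p a b => wav (A q.1) (g5 (KL q.1) q.2.1 p a b)
        fun z => g3 q.2.2 (2 * p) a z + g3 q.2.2 (2 * p + 1) z b)
      (ptu_nodes (PTU.comp hN PTF.fst) (PTU.comp hn PTF.fst) (by fun_prop))
      (PTU.comp hA PTF.fst) ?_
    refine ptf_wav (γ := (γ × ℕ × List (List (List ℕ))) × ℕ × ℕ × ℕ) (A := fun q => A q.1.1)
      (w := fun q => g5 (KL q.1.1) q.1.2.1 q.2.1 q.2.2.1 q.2.2.2)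
      (f := fun q z => g3 q.1.2.2 (2 * q.2.1) q.2.2.1 z + g3 q.1.2.2 (2 * q.2.1 + 1) z q.2.2.2)
      (PTU.comp hA (by fun_prop)) ?_ ?_
    · have : PTF (fun q : ((γ × ℕ × List (List (List ℕ))) × ℕ × ℕ × ℕ) × ℕ => KL q.1.1.1) :=
        PTF.comp hK (by fun_prop)
      show PTF (fun q : ((γ × ℕ × List (List (List ℕ))) × ℕ × ℕ × ℕ) × ℕ =>
        g5 (KL q.1.1.1) q.1.1.2.1 q.1.2.1 q.1.2.2.1 q.1.2.2.2 q.2)
      fun_prop
    · show PTF (fun q : ((γ × ℕ × List (List (List ℕ))) × ℕ × ℕ × ℕ) × ℕ =>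
        g3 q.1.1.2.2 (2 * q.1.2.1) q.1.2.2.1 q.2 + g3 q.1.1.2.2 (2 * q.1.2.1 + 1) q.2 q.1.2.2.2)
      fun_prop
  · intro c i hi
    show lv (A c) (N c) (KL c) (RL c) (i + 1) = tb3 (N c / 2 ^ (min i (n c) + 1)) (A c) _
    rw [min_eq_left hi.le]; rfl
  · have := hN.pb; have := hA.pb; have := hn.pb
    exact pb_P3 (by assumption) (by assumption) (PB.add (PB.comp PB.sz hR) (by assumption))
  · intro c i hi
    exact (sz_lv_le _ _ _ _ _).trans (P3_mono le_rfl (by omega))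

theorem ptf_olv {A N n : γ → ℕ} {RL : γ → List (List (List ℕ))} (hA : PTU A) (hN : PTU N)
    (hn : PTU n) (hR : PTF RL) : PTF (fun c => olv (A c) (N c) (RL c) (n c)) := by
  refine PTF.natRec (r := fun c i => olv (A c) (N c) (RL c) i)
    (b := fun c => tb3 (N c) (A c) (g3 (RL c)))
    (s := fun c i L => tb3 (N c / 2 ^ (min i (n c) + 1)) (A c) fun p a b =>
      mn (A c) fun z => g3 L (2 * p) a z + g3 L (2 * p + 1) z b)
    hn ?_ ?_ (fun _ => rfl) ?_ (B := fun c => P3 (N c) (A c) (sz (RL c) + n c)) ?_ ?_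
  · refine ptf_tb3 hN hA ?_
    have : PTF (fun q : γ × ℕ × ℕ × ℕ => RL q.1) := PTF.comp hR PTF.fst
    fun_prop
  · refine ptf_tb3 (γ := γ × ℕ × List (List (List ℕ)))
      (m := fun q => N q.1 / 2 ^ (min q.2.1 (n q.1) + 1)) (A := fun q => A q.1)
      (f := fun q p a b => mn (A q.1)
        fun z => g3 q.2.2 (2 * p) a z + g3 q.2.2 (2 * p + 1) z b)
      (ptu_nodes (PTU.comp hN PTF.fst) (PTU.comp hn PTF.fst) (by fun_prop))
      (PTU.comp hA PTF.fst) ?_
    refine ptf_mn (γ := (γ × ℕ × List (List (List ℕ))) × ℕ × ℕ × ℕ) (n := fun q => A q.1.1)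
      (f := fun q z => g3 q.1.2.2 (2 * q.2.1) q.2.2.1 z + g3 q.1.2.2 (2 * q.2.1 + 1) z q.2.2.2)
      (PTU.comp hA (by fun_prop)) ?_
    show PTF (fun q : ((γ × ℕ × List (List (List ℕ))) × ℕ × ℕ × ℕ) × ℕ =>
        g3 q.1.1.2.2 (2 * q.1.2.1) q.1.2.2.1 q.2 + g3 q.1.1.2.2 (2 * q.1.2.1 + 1) q.2 q.1.2.2.2)
    fun_prop
  · intro c i hi
    show olv (A c) (N c) (RL c) (i + 1) = tb3 (N c / 2 ^ (min i (n c) + 1)) (A c) _
    rw [min_eq_left hi.le]; rfl
  · have := hN.pb; have := hA.pb; have := hn.pb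
    exact pb_P3 (by assumption) (by assumption) (PB.add (PB.comp PB.sz hR) (by assumption))
  · intro c i hi
    exact (sz_olv_le _ _ _ _).trans (P3_mono le_rfl (by omega))

theorem ptf_okL {A N n : γ → ℕ} {RL : γ → List (List (List ℕ))} (hA : PTU A) (hN : PTU N)
    (hn : PTU n) (hR : PTF RL) : PTF (fun c => okL (A c) (N c) (n c) (RL c)) := by
  have h1 : PTF (fun c => tb5 (n c) (N c) (A c) fun t p a b z =>
      if z = am (A c) (fun z => g3 (olv (A c) (N c) (RL c) (min t (n c))) (2 * p) a z +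
        g3 (olv (A c) (N c) (RL c) (min t (n c))) (2 * p + 1) z b) then 1 else 0) := by
    refine ptf_tb5 hn hN hA ?_
    refine PTF.ite (PTPred.natEq (by fun_prop) ?_) (PTF.const 1) (PTF.const 0)
    refine ptf_am (γ := γ × ℕ × ℕ × ℕ × ℕ × ℕ) (n := fun q => A q.1)
      (f := fun q z => g3 (olv (A q.1) (N q.1) (RL q.1) (min q.2.1 (n q.1)))
        (2 * q.2.2.1) q.2.2.2.1 z + g3 (olv (A q.1) (N q.1) (RL q.1) (min q.2.1 (n q.1)))
        (2 * q.2.2.1 + 1) z q.2.2.2.2.1) (PTU.comp hA PTF.fst) ?_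
    have h2 : PTF (fun q : (γ × ℕ × ℕ × ℕ × ℕ × ℕ) × ℕ =>
        olv (A q.1.1) (N q.1.1) (RL q.1.1) (min q.1.2.1 (n q.1.1))) :=
      ptf_olv (PTU.comp hA (by fun_prop)) (PTU.comp hN (by fun_prop))
        (PTF.natMinUn (by fun_prop) (PTU.comp hn (by fun_prop))) (PTF.comp hR (by fun_prop))
    fun_prop
  refine PTF.of_eq h1 fun c => ?_
  unfold okL
  exact tb5_congr fun t ht p _ a _ b _ z _ => by rw [min_eq_left ht.le]

end ptf

end Crest.Agent.R288.WDP569
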