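import Crest.Agent.R288.AlgA_45
import Crest.Agent.R288.WDPc_569

/-!
# R288 [PTA], part 1: PTF certificates of `Alg45`, function level: minima, sums, staircase DP

The data `T`, `F`, ... are functions of the context; memo tables appear only inside the proofs.
-/

set_option autoImplicit false

namespace Crest.Agent.R288.Pta569

open Crest.Agent.Lib.PT Crest.Agent.R288.Alg45 Crest.Agent.R288.WDP569

variable {α β γ δ : Type} [PTCode α] [PTCode β] [PTCode γ] [PTCode δ]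

/-! ### uniform size bounds -/

/-- uniform size bound of a PTF function over all arguments of bounded size -/
theorem pb_of_sz {f : γ → δ → β} (hf : PTF (fun q : γ × δ => f q.1 q.2)) {m : γ → ℕ} (hm : PB m) :
    ∃ G : γ → ℕ, PB G ∧ ∀ c d, sz d ≤ m c → sz (f c d) ≤ G c := by
  obtain ⟨p, hp⟩ := hf.bound
  refine ⟨fun c => p.eval (2 * sz c + 1 + m c), PB.eval p (by fun_prop), fun c d hd =>
    (hp (c, d)).trans (eval_mono p ?_)⟩
  rw [sz_prod]
  simp only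
  omega

theorem pb_idx2 {f : γ → ℕ → ℕ → ℕ} (hf : PTF (fun q : γ × ℕ × ℕ => f q.1 q.2.1 q.2.2))
    {n₁ n₂ : γ → ℕ} (h₁ : PB n₁) (h₂ : PB n₂) :
    ∃ G : γ → ℕ, PB G ∧ ∀ c, ∀ i ≤ n₁ c, ∀ j ≤ n₂ c, f c i j < 2 ^ G c := by
  obtain ⟨G, hG, h⟩ := pb_of_sz (γ := γ) (δ := ℕ × ℕ) (f := fun c d => f c d.1 d.2) hf
    (m := fun c => 2 * n₁ c + 1 + n₂ c) (by fun_prop)
  refine ⟨G, hG, fun c i hi j hj => ?_⟩
  have h1 := h c (i, j) (by
    rw [sz_prod]
    have := sz_nat_le i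
    have := sz_nat_le j
    simp only
    omega)
  rw [sz_nat] at h1
  exact Nat.size_le.1 h1

theorem pb_idx4 {f : γ → ℕ → ℕ → ℕ → ℕ → ℕ}
    (hf : PTF (fun q : γ × ℕ × ℕ × ℕ × ℕ => f q.1 q.2.1 q.2.2.1 q.2.2.2.1 q.2.2.2.2))
    {n₁ n₂ n₃ n₄ : γ → ℕ} (h₁ : PB n₁) (h₂ : PB n₂) (h₃ : PB n₃) (h₄ : PB n₄) :
    ∃ G : γ → ℕ, PB G ∧ ∀ c, ∀ i ≤ n₁ c, ∀ p ≤ n₂ c, ∀ a ≤ n₃ c, ∀ b ≤ n₄ c,
      f c i p a b < 2 ^ G c := by
  obtain ⟨G, hG, h⟩ := pb_of_sz (γ := γ) (δ := ℕ × ℕ × ℕ × ℕ)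
    (f := fun c d => f c d.1 d.2.1 d.2.2.1 d.2.2.2) hf
    (m := fun c => 2 * n₁ c + 1 + (2 * n₂ c + 1 + (2 * n₃ c + 1 + n₄ c))) (by fun_prop)
  refine ⟨G, hG, fun c i hi p hp a ha b hb => ?_⟩
  have h1 := h c (i, p, a, b) (by
    rw [sz_prod, sz_prod, sz_prod]
    have := sz_nat_le i
    have := sz_nat_le p
    have := sz_nat_le a
    have := sz_nat_le b
    simp only
    omega)
  rw [sz_nat] at h1
  exact Nat.size_le.1 h1

/-! ### minima and sums over ranges -/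

theorem foldl_min_le (l : List ℕ) (f : ℕ → ℕ) (m : ℕ) :
    l.foldl (fun m a => min m (f a)) m ≤ m := by
  induction l generalizing m with
  | nil => exact le_rfl
  | cons a l ih => exact (ih _).trans (min_le_left _ _)

theorem minR_le0 (n : ℕ) (f : ℕ → ℕ) : minR n f ≤ f 0 := foldl_min_le _ _ _

theorem minR_succ (n : ℕ) (f : ℕ → ℕ) : minR (n + 1) f = min (minR n f) (f n) := by
  unfold minR
  rw [List.range_succ, List.foldl_append]
  rfl

theorem minR_zero (f : ℕ → ℕ) : minR 0 f = f 0 := rfl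

theorem minR_congr {n : ℕ} {f g : ℕ → ℕ} (h0 : f 0 = g 0) (h : ∀ i < n, f i = g i) :
    minR n f = minR n g := by
  induction n with
  | zero => exact h0
  | succ n ih => rw [minR_succ, minR_succ, ih fun i hi => h i (by omega), h n (by omega)]

theorem minR_congr' {n : ℕ} {f g : ℕ → ℕ} (hn : 0 < n) (h : ∀ i < n, f i = g i) :
    minR n f = minR n g := minR_congr (h 0 hn) h

theorem argR_succ (n : ℕ) (f : ℕ → ℕ) :
    argR (n + 1) f = if f n < f (argR n f) then n else argR n f := by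
  unfold argR
  rw [List.range_succ, List.foldl_append]
  rfl

theorem argR_zero (f : ℕ → ℕ) : argR 0 f = 0 := rfl

theorem argR_le (n : ℕ) (f : ℕ → ℕ) : argR n f ≤ n := by
  induction n with
  | zero => exact le_rfl
  | succ n ih => rw [argR_succ]; split <;> omega

theorem argR_lt {n : ℕ} (f : ℕ → ℕ) (h : 0 < n) : argR n f < n := by
  induction n with
  | zero => omega
  | succ n ih =>
    rw [argR_succ]
    split
    · omega
    · rcases Nat.eq_zero_or_pos n with h0 | h0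
      · subst h0; rw [argR_zero]; omega
      · have := ih h0; omega

theorem argR_congr {n : ℕ} {f g : ℕ → ℕ} (h : ∀ i < n, f i = g i) : argR n f = argR n g := by
  induction n with
  | zero => rfl
  | succ n ih =>
    rw [argR_succ, argR_succ, ih fun i hi => h i (by omega), h n (by omega)]
    rcases Nat.eq_zero_or_pos n with h0 | h0
    · subst h0; rw [argR_zero, h 0 (by omega)]
    · rw [h _ (by have := argR_lt g h0; omega)]

theorem sumR_eq (n : ℕ) (f : ℕ → ℕ) : sumR n f = ∑ i ∈ Finset.range n, f i := by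
  unfold sumR
  induction n with
  | zero => rfl
  | succ n ih => rw [List.range_succ, List.map_append, List.sum_append, ih,
      Finset.sum_range_succ]; simp

theorem sumR_congr {n : ℕ} {f g : ℕ → ℕ} (h : ∀ i < n, f i = g i) : sumR n f = sumR n g := by
  rw [sumR_eq, sumR_eq]
  exact Finset.sum_congr rfl fun i hi => h i (Finset.mem_range.1 hi)

theorem ptf_minR {n : γ → ℕ} {f : γ → ℕ → ℕ} (hn : PTU n)
    (hf : PTF (fun q : γ × ℕ => f q.1 q.2)) : PTF (fun c => minR (n c) (f c)) := by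
  have h0 : PTF (fun c => f c 0) :=
    PTF.comp (g := fun q : γ × ℕ => f q.1 q.2) (f := fun c => (c, 0)) hf (by fun_prop)
  refine PTF.natRec (r := fun c i => minR i (f c)) (b := fun c => f c 0)
    (s := fun c i m => min m (f c i)) hn h0 ?_ (fun _ => rfl)
    (fun _ _ _ => minR_succ _ _) (B := fun c => sz (f c 0)) (PB.comp PB.sz h0) ?_
  · have h1 : PTF (fun p : γ × ℕ × ℕ => f p.1 p.2.1) :=
      PTF.comp (g := fun q : γ × ℕ => f q.1 q.2) (f := fun p : γ × ℕ × ℕ => (p.1, p.2.1)) hf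
        (by fun_prop)
    fun_prop
  · intro c i _
    rw [sz_nat, sz_nat]
    exact Nat.size_le_size (minR_le0 _ _)

theorem ptf_argR {n : γ → ℕ} {f : γ → ℕ → ℕ} (hn : PTU n)
    (hf : PTF (fun q : γ × ℕ => f q.1 q.2)) : PTF (fun c => argR (n c) (f c)) := by
  refine PTF.natRec (r := fun c i => argR i (f c)) (b := fun _ => 0)
    (s := fun c i m => if f c i < f c m then i else m) hn (PTF.const 0) ?_ (fun _ => rfl)
    (fun _ _ _ => argR_succ _ _) (B := n) hn.pb ?_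
  · have h1 : PTF (fun p : γ × ℕ × ℕ => f p.1 p.2.1) :=
      PTF.comp (g := fun q : γ × ℕ => f q.1 q.2) (f := fun p : γ × ℕ × ℕ => (p.1, p.2.1)) hf
        (by fun_prop)
    have h2 : PTF (fun p : γ × ℕ × ℕ => f p.1 p.2.2) :=
      PTF.comp (g := fun q : γ × ℕ => f q.1 q.2) (f := fun p : γ × ℕ × ℕ => (p.1, p.2.2)) hf
        (by fun_prop)
    exact PTF.ite (PTPred.natLt h1 h2) (by fun_prop) (by fun_prop)
  · intro c i hi
    exact (sz_nat_le _).trans ((argR_le _ _).trans hi)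

theorem ptf_sumR {n : γ → ℕ} {f : γ → ℕ → ℕ} (hn : PTU n)
    (hf : PTF (fun q : γ × ℕ => f q.1 q.2)) : PTF (fun c => sumR (n c) (f c)) :=
  (PTF.natSumRange hn hf).of_eq fun _ => (sumR_eq _ _).symm

/-! ### the staircase DP -/

/-- the row `j` of the DP -/
def Dl (A : ℕ) (T : ℕ → ℕ → ℕ → ℕ) (j : ℕ) : List ℕ := tab A (Alg45.D A T j)

theorem D_lt {A : ℕ} (hA : 0 < A) {T : ℕ → ℕ → ℕ → ℕ} {J M : ℕ}
    (h : ∀ j < J, ∀ b < A, T j 0 b ≤ M) : ∀ j ≤ J, ∀ b < A, Alg45.D A T j b ≤ j * M := by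
  intro j
  induction j with
  | zero => intro _ b _; rw [Alg45.D]; exact Nat.zero_le _
  | succ j ih =>
    intro hj b hb
    rw [Alg45.D]
    refine (minR_le0 _ _).trans ?_
    have h1 := ih (by omega) 0 hA
    have h2 := h j (by omega) b hb
    have h3 : (j + 1) * M = j * M + M := by ring
    omega

theorem D_step (A : ℕ) (T : ℕ → ℕ → ℕ → ℕ) (hA : 0 < A) (j b : ℕ) :
    Alg45.D A T (j + 1) b = minR A fun a => g1 (Dl A T j) a + T j a b := by
  rw [Alg45.D]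
  exact minR_congr' hA fun a ha => by rw [Dl, g1_tab ha]

theorem ptf_Dl {A J : γ → ℕ} {T : γ → ℕ → ℕ → ℕ → ℕ} (hA : PTU A) (hJ : PTU J)
    (hT : PTF (fun q : γ × ℕ × ℕ × ℕ => T q.1 q.2.1 q.2.2.1 q.2.2.2)) :
    PTF (fun c => Dl (A c) (T c) (J c)) := by
  obtain ⟨G, hG, hGb⟩ := pb_idx2 (f := fun c j b => T c j 0 b)
    (PTF.comp (g := fun q : γ × ℕ × ℕ × ℕ => T q.1 q.2.1 q.2.2.1 q.2.2.2)
      (f := fun q : γ × ℕ × ℕ => (q.1, q.2.1, 0, q.2.2)) hT (by fun_prop)) hJ.pb hA.pb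
  refine PTF.natRec (r := fun c j => Dl (A c) (T c) j) (b := fun c => tab (A c) fun _ => 0)
    (s := fun c j L => tab (A c) fun b => minR (A c) fun a => g1 L a + T c j a b)
    hJ (ptf_tab hA (PTF.const 0)) ?_ ?_ ?_
    (B := fun c => A c * (2 * (J c + G c) + 1)) (by have := hA.pb; have := hJ.pb; fun_prop) ?_
  · refine ptf_tab (γ := γ × ℕ × List ℕ) (n := fun q => A q.1)
      (f := fun q b => minR (A q.1) fun a => g1 q.2.2 a + T q.1 q.2.1 a b)
      (PTU.comp hA PTF.fst) ?_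
    refine ptf_minR (γ := (γ × ℕ × List ℕ) × ℕ) (n := fun q => A q.1.1)
      (f := fun q a => g1 q.1.2.2 a + T q.1.1 q.1.2.1 a q.2) (PTU.comp hA (by fun_prop)) ?_
    have h1 : PTF (fun q : ((γ × ℕ × List ℕ) × ℕ) × ℕ => T q.1.1.1 q.1.1.2.1 q.2 q.1.2) :=
      PTF.comp (g := fun q : γ × ℕ × ℕ × ℕ => T q.1 q.2.1 q.2.2.1 q.2.2.2)
        (f := fun q : ((γ × ℕ × List ℕ) × ℕ) × ℕ => (q.1.1.1, q.1.1.2.1, q.2, q.1.2)) hT
        (by fun_prop)
    fun_prop
  · intro c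
    exact tab_congr fun b _ => by rw [Alg45.D]
  · intro c j _
    rcases Nat.eq_zero_or_pos (A c) with h0 | h0
    · unfold Dl; rw [h0]; rfl
    · exact tab_congr fun b _ => D_step _ _ h0 _ _
  · intro c j hj
    unfold Dl
    refine (sz_tab_le (m := J c + G c) fun b hb => ?_)
    rw [sz_nat, Nat.size_le]
    have hA0 : 0 < A c := by omega
    have h1 := D_lt hA0 (T := T c) (J := J c) (M := 2 ^ G c - 1)
      (fun j hj b hb => by have := hGb c j hj.le b hb.le; omega) j hj b hb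
    have h2 : j * (2 ^ G c - 1) ≤ J c * (2 ^ G c - 1) := Nat.mul_le_mul_right _ hj
    have h3 : J c < 2 ^ J c := Nat.lt_two_pow_self
    have h4 : 0 < 2 ^ G c := by positivity
    calc Alg45.D (A c) (T c) j b ≤ J c * (2 ^ G c - 1) := h1.trans h2
      _ ≤ J c * 2 ^ G c := Nat.mul_le_mul_left _ (Nat.sub_le _ _)
      _ < 2 ^ J c * 2 ^ G c := Nat.mul_lt_mul_of_pos_right h3 h4
      _ = 2 ^ (J c + G c) := by rw [pow_add]

/-- the staircase DP (all letters of the last cut) -/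
theorem ptf_D {A J b : γ → ℕ} {T : γ → ℕ → ℕ → ℕ → ℕ} (hA : PTU A) (hA0 : ∀ c, 0 < A c)
    (hJ : PTU J) (hb : PTF b)
    (hT : PTF (fun q : γ × ℕ × ℕ × ℕ => T q.1 q.2.1 q.2.2.1 q.2.2.2)) :
    PTF (fun c => Alg45.D (A c) (T c) (J c) (b c)) := by
  have h1 : PTF (fun c => if J c = 0 then 0 else
      minR (A c) fun a => g1 (Dl (A c) (T c) (J c - 1)) a + T c (J c - 1) a (b c)) := by
    refine PTF.ite (PTPred.natEq hJ.toPTF (PTF.const 0)) (PTF.const 0) ?_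
    refine ptf_minR (n := A) (f := fun c a => g1 (Dl (A c) (T c) (J c - 1)) a +
      T c (J c - 1) a (b c)) hA ?_
    have h2 : PTF (fun c => Dl (A c) (T c) (J c - 1)) :=
      ptf_Dl hA (PTU.sub hJ (PTU.const 1)) hT
    have h3 : PTF (fun q : γ × ℕ => T q.1 (J q.1 - 1) q.2 (b q.1)) :=
      PTF.comp (g := fun q : γ × ℕ × ℕ × ℕ => T q.1 q.2.1 q.2.2.1 q.2.2.2)
        (f := fun q : γ × ℕ => (q.1, J q.1 - 1, q.2, b q.1)) hT
        (PTF.prodMk PTF.fst (PTF.prodMk (PTF.natSub (PTF.comp hJ.toPTF PTF.fst) (PTF.const 1))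
          (PTF.prodMk PTF.snd (PTF.comp hb PTF.fst))))
    have h4 : PTF (fun q : γ × ℕ => Dl (A q.1) (T q.1) (J q.1 - 1)) := PTF.comp h2 PTF.fst
    exact PTF.natAdd (ptf_g1 h4 PTF.snd) h3
  refine h1.of_eq fun c => ?_
  rcases Nat.eq_zero_or_pos (J c) with h0 | h0
  · rw [if_pos h0, h0, Alg45.D]
  · rw [if_neg (by omega)]
    obtain ⟨j, hj⟩ : ∃ j, J c = j + 1 := ⟨J c - 1, by omega⟩
    rw [hj, D_step _ _ (hA0 c)]
    rfl

theorem ptf_minSt {N A : γ → ℕ} {T : γ → ℕ → ℕ → ℕ → ℕ} (hA : PTU A) (hA0 : ∀ c, 0 < A c)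
    (hN : PTU N) (hT : PTF (fun q : γ × ℕ × ℕ × ℕ => T q.1 q.2.1 q.2.2.1 q.2.2.2)) :
    PTF (fun c => minSt (N c) (A c) (T c)) := by
  unfold minSt
  exact ptf_D hA hA0 hN (PTF.const 0) hT

end Crest.Agent.R288.Pta569
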