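import Crest.Agent.R288.PtaA_569

/-!
# R288 [PTA], part 2: a family of values on the binary tree, level by level

`V (t+1) i p a b = H t p (fun i' z => V t i' (2p) a z + V t i' (2p+1) z b) i`: the value `V n i 0 0 0`
is `PTF` although the recursion at function level is not polynomial; the levels are memoized inside
the proof.  Used for `Alg45.VV`.
-/

set_option autoImplicit false

namespace Crest.Agent.R288.Pta569

open Crest.Agent.Lib.PT Crest.Agent.R288.Alg45 Crest.Agent.R288.WDP569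

variable {α β γ δ : Type} [PTCode α] [PTCode β] [PTCode γ] [PTCode δ]

/-- level table: ranks `i ≤ k`, nodes `p < N / 2^t`, letters `a, b < B` -/
def LT (k N B : ℕ) (V : ℕ → ℕ → ℕ → ℕ → ℕ → ℕ) (t : ℕ) : List (List (List (List ℕ))) :=
  tab (k + 1) fun i => tb3 (N / 2 ^ t) B fun p a b => V t i p a b

theorem g4_LT {k N B : ℕ} {V : ℕ → ℕ → ℕ → ℕ → ℕ → ℕ} {t i p a b : ℕ} (hi : i ≤ k)
    (hp : p < N / 2 ^ t) (ha : a < B) (hb : b < B) : g4 (LT k N B V t) i p a b = V t i p a b := by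
  unfold g4 LT
  rw [tab_getD _ (by omega), g3_tb3 hp ha hb]

/-- size of a table of type `LT` -/
def P4 (k m A s : ℕ) : ℕ := (k + 1) * (2 * P3 m A s + 1)

theorem sz_LT_le {k N B s : ℕ} {V : ℕ → ℕ → ℕ → ℕ → ℕ → ℕ} {t : ℕ}
    (h : ∀ i ≤ k, ∀ p < N / 2 ^ t, ∀ a < B, ∀ b < B, V t i p a b < 2 ^ s) :
    sz (LT k N B V t) ≤ P4 k N B s := by
  refine sz_tab_le fun i hi => (sz_tb3_le (s := s) fun p hp a ha b hb =>
    Nat.size_le.2 (h i (by omega) p hp a ha b hb)).trans (P3_mono (Nat.div_le_self _ _) le_rfl)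

theorem pb_P4 {k m A s : γ → ℕ} (hk : PB k) (hm : PB m) (hA : PB A) (hs : PB s) :
    PB (fun c => P4 (k c) (m c) (A c) (s c)) := by
  unfold P4
  have := pb_P3 hm hA hs
  fun_prop

section levels

variable {n k N B : γ → ℕ} {V : γ → ℕ → ℕ → ℕ → ℕ → ℕ → ℕ}
  {H : γ → ℕ → ℕ → (ℕ → ℕ → ℕ) → ℕ → ℕ}

omit [PTCode γ] in
/-- the values of level `t` are `< M * 2^t` -/
theorem V_lt
    (hV : ∀ c t i p a b, V c (t + 1) i p a b =
      H c t p (fun i' z => V c t i' (2 * p) a z + V c t i' (2 * p + 1) z b) i)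
    (hb : ∀ c t p us i M, 0 < M → i ≤ k c → (∀ i' ≤ k c, ∀ z < B c, us i' z < M) →
      H c t p us i < M)
    {c : γ} {M : ℕ} (hM : 0 < M)
    (h0 : ∀ i ≤ k c, ∀ p < N c, ∀ a < B c, ∀ b < B c, V c 0 i p a b < M) (t : ℕ) :
    ∀ i ≤ k c, ∀ p < N c / 2 ^ t, ∀ a < B c, ∀ b < B c, V c t i p a b < M * 2 ^ t := by
  induction t with
  | zero =>
    intro i hi p hp a ha b hb
    rw [pow_zero, mul_one]
    exact h0 i hi p (by simpa using hp) a ha b hb
  | succ t ih =>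
    intro i hi p hp a ha b hb'
    rw [hV]
    have h2 := nodes_child hp
    refine hb _ _ _ _ _ _ (by positivity) hi fun i' hi' z hz => ?_
    have h3 := ih i' hi' (2 * p) (by omega) a ha z hz
    have h4 := ih i' hi' (2 * p + 1) h2 z hz b hb'
    have e : M * 2 ^ (t + 1) = M * 2 ^ t + M * 2 ^ t := by rw [pow_succ]; ring
    omega

theorem ptf_LT (hn : PTU n) (hk : PTU k) (hN : PTU N) (hB : PTU B)
    (hV : ∀ c t i p a b, V c (t + 1) i p a b =
      H c t p (fun i' z => V c t i' (2 * p) a z + V c t i' (2 * p + 1) z b) i)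
    (hH : ∀ {δ : Type} [PTCode δ] {g : δ → γ} {t p i : δ → ℕ} {us : δ → ℕ → ℕ → ℕ},
      PTF g → PTF t → PTF p → PTF i → PTF (fun q : δ × ℕ × ℕ => us q.1 q.2.1 q.2.2) →
      PTF (fun d => H (g d) (t d) (p d) (us d) (min (i d) (k (g d)))))
    (hc : ∀ c t p us us' i, i ≤ k c → (∀ i' ≤ k c, ∀ z < B c, us i' z = us' i' z) →
      H c t p us i = H c t p us' i)
    (hb : ∀ c t p us i M, 0 < M → i ≤ k c → (∀ i' ≤ k c, ∀ z < B c, us i' z < M) →
      H c t p us i < M)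
    (h0 : PTF (fun q : γ × ℕ × ℕ × ℕ × ℕ => V q.1 0 q.2.1 q.2.2.1 q.2.2.2.1 q.2.2.2.2)) :
    PTF (fun c => LT (k c) (N c) (B c) (V c) (n c)) := by
  obtain ⟨G, hG, hGb⟩ := pb_idx4 (f := fun c i p a b => V c 0 i p a b) h0 hk.pb hN.pb hB.pb hB.pb
  refine PTF.natRec (r := fun c t => LT (k c) (N c) (B c) (V c) t)
    (b := fun c => LT (k c) (N c) (B c) (V c) 0)
    (s := fun c t L => tab (k c + 1) fun i => tb3 (N c / 2 ^ (min t (n c) + 1)) (B c)
      fun p a b => H c t p (fun i' z => g4 L i' (2 * p) a z + g4 L i' (2 * p + 1) z b)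
        (min i (k c)))
    hn ?_ ?_ (fun _ => rfl) ?_ (B := fun c => P4 (k c) (N c) (B c) (G c + n c)) ?_ ?_
  · -- the bottom level
    unfold LT
    refine ptf_tab (PTU.succ hk) ?_
    have e1 : PTF (fun q : γ × ℕ => tb3 (N q.1) (B q.1) fun p a b => V q.1 0 q.2 p a b) := by
      refine ptf_tb3 (γ := γ × ℕ) (m := fun q => N q.1) (A := fun q => B q.1)
        (f := fun q p a b => V q.1 0 q.2 p a b) (PTU.comp hN PTF.fst) (PTU.comp hB PTF.fst) ?_
      exact PTF.comp (g := fun q : γ × ℕ × ℕ × ℕ × ℕ => V q.1 0 q.2.1 q.2.2.1 q.2.2.2.1 q.2.2.2.2)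
        (f := fun q : (γ × ℕ) × ℕ × ℕ × ℕ => (q.1.1, q.1.2, q.2)) h0 (by fun_prop)
    exact e1.of_eq fun q => by rw [pow_zero, Nat.div_one]
  · -- the step
    refine ptf_tab (γ := γ × ℕ × List (List (List (List ℕ)))) (n := fun q => k q.1 + 1)
      (f := fun q i => tb3 (N q.1 / 2 ^ (min q.2.1 (n q.1) + 1)) (B q.1) fun p a b =>
        H q.1 q.2.1 p (fun i' z => g4 q.2.2 i' (2 * p) a z + g4 q.2.2 i' (2 * p + 1) z b)
          (min i (k q.1))) (PTU.succ (PTU.comp hk PTF.fst)) ?_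
    refine ptf_tb3 (γ := (γ × ℕ × List (List (List (List ℕ)))) × ℕ)
      (m := fun q => N q.1.1 / 2 ^ (min q.1.2.1 (n q.1.1) + 1)) (A := fun q => B q.1.1)
      (f := fun q p a b => H q.1.1 q.1.2.1 p
        (fun i' z => g4 q.1.2.2 i' (2 * p) a z + g4 q.1.2.2 i' (2 * p + 1) z b)
          (min q.2 (k q.1.1)))
      (ptu_nodes (PTU.comp hN (by fun_prop)) (PTU.comp hn (by fun_prop)) (by fun_prop))
      (PTU.comp hB (by fun_prop)) ?_
    exact hH (δ := ((γ × ℕ × List (List (List (List ℕ)))) × ℕ) × ℕ × ℕ × ℕ)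
      (g := fun q => q.1.1.1) (t := fun q => q.1.1.2.1) (p := fun q => q.2.1)
      (i := fun q => q.1.2)
      (us := fun q i' z => g4 q.1.1.2.2 i' (2 * q.2.1) q.2.2.1 z +
        g4 q.1.1.2.2 i' (2 * q.2.1 + 1) z q.2.2.2)
      (by fun_prop) (by fun_prop) (by fun_prop) (by fun_prop) (by fun_prop)
  · intro c t ht
    unfold LT
    refine tab_congr fun i hi => ?_
    rw [min_eq_left ht.le]
    refine tb3_congr fun p hp a ha b hb' => ?_
    rw [hV, min_eq_left (show i ≤ k c by omega)]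
    have h2 := nodes_child hp
    refine hc _ _ _ _ _ _ (by omega) fun i' hi' z hz => ?_
    have e1 := g4_LT (V := V c) (t := t) (N := N c) (B := B c) hi' (p := 2 * p) (by omega) ha hz
    have e2 := g4_LT (V := V c) (t := t) (N := N c) (B := B c) hi' h2 hz hb'
    unfold LT at e1 e2
    rw [e1, e2]
  · exact pb_P4 hk.pb hN.pb hB.pb (PB.add hG hn.pb)
  · intro c t ht
    refine sz_LT_le fun i hi p hp a ha b hb' => ?_
    have h1 := V_lt (N := N) hV hb (c := c) (M := 2 ^ G c) (by positivity)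
      (fun i hi p hp a ha b hb' => hGb c i hi p hp.le a ha.le b hb'.le) t i hi p hp a ha b hb'
    refine h1.trans_le ?_
    rw [← pow_add]
    exact Nat.pow_le_pow_right (by norm_num) (by omega)

/-- the root values -/
theorem ptf_root (hn : PTU n) (hk : PTU k) (hN : PTU N) (hB : PTU B)
    (hN' : ∀ c, N c = 2 ^ n c) (hB0 : ∀ c, 0 < B c)
    (hV : ∀ c t i p a b, V c (t + 1) i p a b =
      H c t p (fun i' z => V c t i' (2 * p) a z + V c t i' (2 * p + 1) z b) i)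
    (hH : ∀ {δ : Type} [PTCode δ] {g : δ → γ} {t p i : δ → ℕ} {us : δ → ℕ → ℕ → ℕ},
      PTF g → PTF t → PTF p → PTF i → PTF (fun q : δ × ℕ × ℕ => us q.1 q.2.1 q.2.2) →
      PTF (fun d => H (g d) (t d) (p d) (us d) (min (i d) (k (g d)))))
    (hc : ∀ c t p us us' i, i ≤ k c → (∀ i' ≤ k c, ∀ z < B c, us i' z = us' i' z) →
      H c t p us i = H c t p us' i)
    (hb : ∀ c t p us i M, 0 < M → i ≤ k c → (∀ i' ≤ k c, ∀ z < B c, us i' z < M) →
      H c t p us i < M)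
    (h0 : PTF (fun q : γ × ℕ × ℕ × ℕ × ℕ => V q.1 0 q.2.1 q.2.2.1 q.2.2.2.1 q.2.2.2.2))
    {i : γ → ℕ} (hi : PTF i) :
    PTF (fun c => V c (n c) (min (i c) (k c)) 0 0 0) := by
  have h1 := ptf_LT hn hk hN hB hV hH hc hb h0
  refine (ptf_g4 h1 (PTF.natMin hi hk.toPTF) (PTF.const 0) (PTF.const 0) (PTF.const 0)).of_eq
    fun c => ?_
  rw [g4_LT (min_le_right _ _) (by rw [hN', Nat.div_self (by positivity)]; norm_num)
    (hB0 c) (hB0 c)]

end levels

end Crest.Agent.R288.Pta569
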