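import Crest.Agent.R288.PtaB_569
import Crest.Agent.R288.PtSt_966

/-!
# R288 [PTA], part 3: staircase values and the prefix plan of `Alg45`, PTF certificates

`P : γ → Par`, `κ` unary, `x : γ → St`; `F`, `f : γ → St → ℕ` are PTF functions of the context and
the state.
-/

set_option autoImplicit false

namespace Crest.Agent.R288.Pta569

open Crest.Agent.Lib.PT Crest.Agent.R288.Alg45 Crest.Agent.R288.WDP569 Crest.Agent.R288.PtSt966
open Crest.Agent.R288.StPT569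

variable {α β γ δ : Type} [PTCode α] [PTCode β] [PTCode γ] [PTCode δ]
variable {P : γ → Par} {F f : γ → St → ℕ} {κ : γ → ℕ} {x : γ → St}

theorem WA_pos (P : Par) (κ : ℕ) : 0 < WA P κ := by unfold WA; omega

/-- a function of the context at a state of the context -/
theorem ptf_at {y : δ → St} {c : δ → γ} (hf : PTF (fun p : γ × St => f p.1 p.2)) (hc : PTF c)
    (hy : PTF y) : PTF (fun d => f (c d) (y d)) :=
  PTF.comp (g := fun p : γ × St => f p.1 p.2) (f := fun d => (c d, y d)) hf (PTF.prodMk hc hy)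

theorem ptf_pieceF (hP : PTF P) (hκ : PTU κ) (hx : PTF x)
    (hf : PTF (fun p : γ × St => f p.1 p.2)) :
    PTF (fun q : γ × ℕ × ℕ × ℕ =>
      f q.1 (piece (P q.1) (κ q.1) (x q.1) q.2.1 q.2.2.1 q.2.2.2)) := by
  refine ptf_at (f := f) hf (by fun_prop) ?_
  exact ptf_piece (PTF.comp hP (by fun_prop)) (PTU.comp hκ (by fun_prop))
    (PTF.comp hx (by fun_prop)) (by fun_prop) (by fun_prop) (by fun_prop)

/-- minimum over the grid staircases -/
theorem ptf_Vst (hP : PTF P) (hκ : PTU κ) (hx : PTF x)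
    (hf : PTF (fun p : γ × St => f p.1 p.2)) :
    PTF (fun c => Vst (P c) (κ c) (x c) (f c)) := by
  unfold Vst
  exact ptf_minSt (ptu_WA hP hκ) (fun c => WA_pos _ _) (ptu_N hP) (ptf_pieceF hP hκ hx hf)

/-- the target letter of cut `j` -/
theorem ptf_tgt {j : γ → ℕ} (hP : PTF P) (hκ : PTU κ) (hx : PTF x)
    (hF : PTF (fun p : γ × St => F p.1 p.2)) (hj : PTU j) :
    PTF (fun c => tgt (P c) (F c) (κ c) (x c) (j c)) := by
  unfold tgt
  refine ptf_argR (ptu_WA hP hκ) ?_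
  have e0 : PTF (fun q : γ × ℕ => P q.1) := PTF.comp hP PTF.fst
  have e1 : PTU (fun q : γ × ℕ => κ q.1) := PTU.comp hκ PTF.fst
  have e2 : PTF (fun q : γ × ℕ => x q.1) := PTF.comp hx PTF.fst
  have e3 : PTF (fun q : γ × ℕ => F q.1 (x q.1)) := ptf_at hF PTF.fst e2
  have e4 : PTF (fun q : γ × ℕ => Alg45.D (WA (P q.1) (κ q.1))
      (fun t a b => F q.1 (piece (P q.1) (κ q.1) (x q.1) t a b)) (j q.1) q.2) := by
    refine ptf_D (γ := γ × ℕ) (A := fun q => WA (P q.1) (κ q.1)) (J := fun q => j q.1)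
      (b := fun q => q.2)
      (T := fun q t a b => F q.1 (piece (P q.1) (κ q.1) (x q.1) t a b))
      (ptu_WA e0 e1) (fun c => WA_pos _ _) (PTU.comp hj PTF.fst) PTF.snd ?_
    exact PTF.comp (g := fun q : γ × ℕ × ℕ × ℕ =>
        F q.1 (piece (P q.1) (κ q.1) (x q.1) q.2.1 q.2.2.1 q.2.2.2))
      (f := fun q : (γ × ℕ) × ℕ × ℕ × ℕ => (q.1.1, q.2)) (ptf_pieceF hP hκ hx hF)
      (by fun_prop)
  have e5 : PTF (fun q : γ × ℕ => (x q.1).u) := ptf_stU e2
  have e6 : PTF (fun q : γ × ℕ => (x q.1).v) := ptf_stV e2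
  have e7 : PTF (fun q : γ × ℕ => pos (P q.1) (κ q.1) (x q.1) q.2) := ptf_pos e0 e1 e2 PTF.snd
  exact PTF.intNatAbs (PTF.intSub (PTF.intMul (PTF.intSub e7 e5) (PTF.intNatCast e3))
    (PTF.intMul (PTF.intSub e6 e5) (PTF.intNatCast e4)))

/-- the targets of all cuts -/
def tgL (P : Par) (F : St → ℕ) (κ : ℕ) (x : St) : List ℕ := tab (P.N + 1) (tgt P F κ x)

theorem g1_tgL {P : Par} {F : St → ℕ} {κ : ℕ} {x : St} {j : ℕ} (h : j ≤ P.N) :
    g1 (tgL P F κ x) j = tgt P F κ x j := g1_tab (by omega)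

theorem ptf_tgL (hP : PTF P) (hκ : PTU κ) (hx : PTF x)
    (hF : PTF (fun p : γ × St => F p.1 p.2)) :
    PTF (fun c => tgL (P c) (F c) (κ c) (x c)) := by
  have h1 : PTF (fun c => tab ((P c).N + 1) fun j => tgt (P c) (F c) (κ c) (x c)
      (min j ((P c).N + 1))) := by
    refine ptf_tab (PTU.succ (ptu_N hP)) ?_
    have e0 : PTF (fun q : γ × ℕ => P q.1) := PTF.comp hP PTF.fst
    refine ptf_tgt (γ := γ × ℕ) (P := fun q => P q.1) (F := fun q => F q.1)
      (κ := fun q => κ q.1) (x := fun q => x q.1) (j := fun q => min q.2 ((P q.1).N + 1)) e0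
      (PTU.comp hκ PTF.fst) (PTF.comp hx PTF.fst) ?_
      (PTF.natMinUn PTF.snd (PTU.succ (ptu_N e0)))
    exact PTF.comp (g := fun p : γ × St => F p.1 p.2) (f := fun q : (γ × ℕ) × St => (q.1.1, q.2))
      hF (by fun_prop)
  refine h1.of_eq fun c => ?_
  unfold tgL
  exact tab_congr fun j hj => by rw [min_eq_left hj.le]

/-- the values of `F` at the target pieces -/
def tpL (P : Par) (F : St → ℕ) (κ : ℕ) (x : St) : List ℕ := tab P.N fun q => F (tpiece P F κ x q)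

theorem g1_tpL {P : Par} {F : St → ℕ} {κ : ℕ} {x : St} {q : ℕ} (h : q < P.N) :
    g1 (tpL P F κ x) q = F (tpiece P F κ x q) := g1_tab h

theorem ptf_tpL (hP : PTF P) (hκ : PTU κ) (hx : PTF x)
    (hF : PTF (fun p : γ × St => F p.1 p.2)) :
    PTF (fun c => tpL (P c) (F c) (κ c) (x c)) := by
  have h0 := ptf_tgL hP hκ hx hF
  have h1 : PTF (fun c => tab (P c).N fun q => F c (piece (P c) (κ c) (x c) q
      (g1 (tgL (P c) (F c) (κ c) (x c)) q) (g1 (tgL (P c) (F c) (κ c) (x c)) (q + 1)))) := by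
    refine ptf_tab (ptu_N hP) ?_
    have e0 : PTF (fun q : γ × ℕ => P q.1) := PTF.comp hP PTF.fst
    have e1 : PTU (fun q : γ × ℕ => κ q.1) := PTU.comp hκ PTF.fst
    have e2 : PTF (fun q : γ × ℕ => x q.1) := PTF.comp hx PTF.fst
    have e3 : PTF (fun q : γ × ℕ => tgL (P q.1) (F q.1) (κ q.1) (x q.1)) := PTF.comp h0 PTF.fst
    refine ptf_at hF PTF.fst ?_
    exact ptf_piece e0 e1 e2 PTF.snd (ptf_g1 e3 PTF.snd) (ptf_g1 e3 (by fun_prop))
  refine h1.of_eq fun c => ?_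
  unfold tpL
  exact tab_congr fun q hq => by rw [g1_tgL (by omega), g1_tgL (by omega)]; rfl

/-- units of the inner nodes `(t, p)`, `t ≤ n`, `p < N / 2^t` -/
def unL (P : Par) (F : St → ℕ) (κ : ℕ) (x : St) : List (List ℕ) :=
  tab (P.n + 1) fun t => tab (P.N / 2 ^ t) fun p => unt P F κ x t p

theorem g2_unL {P : Par} {F : St → ℕ} {κ : ℕ} {x : St} {t p : ℕ} (ht : t ≤ P.n)
    (hp : p < P.N / 2 ^ t) : g2 (unL P F κ x) t p = unt P F κ x t p := by
  unfold g2 unL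
  rw [tab_getD _ (by omega), g1_tab hp]

theorem ptf_unL (hP : PTF P) (hκ : PTU κ) (hx : PTF x)
    (hF : PTF (fun p : γ × St => F p.1 p.2)) :
    PTF (fun c => unL (P c) (F c) (κ c) (x c)) := by
  have h0 := ptf_tpL hP hκ hx hF
  have h1 : PTF (fun c => tab ((P c).n + 1) fun t => tab ((P c).N / 2 ^ (min t (P c).n)) fun p =>
      sumR (2 ^ (min t (P c).n)) (fun i => g1 (tpL (P c) (F c) (κ c) (x c))
        (p * 2 ^ (min t (P c).n) + i)) + F c (x c) / (P c).N + 1) := by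
    refine ptf_tab (PTU.succ (ptu_n hP)) ?_
    have e0 : PTF (fun q : γ × ℕ => P q.1) := PTF.comp hP PTF.fst
    have e4 : PTU (fun q : γ × ℕ => min q.2 (P q.1).n) := PTF.natMinUn PTF.snd (ptu_n e0)
    have e5 : PTU (fun q : γ × ℕ => 2 ^ (min q.2 (P q.1).n)) := by
      refine PTU.of_eq (PTF.natMinUn (PTF.natTwoPow e4) (ptu_N e0)) fun q => ?_
      refine min_eq_left ?_
      show 2 ^ _ ≤ 2 ^ _
      exact Nat.pow_le_pow_right (by norm_num) (min_le_right _ _)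
    have e6 : PTU (fun q : γ × ℕ => (P q.1).N / 2 ^ (min q.2 (P q.1).n)) :=
      PTU.of_eq (PTF.natMinUn (PTF.natDiv (ptu_N e0).toPTF e5.toPTF) (ptu_N e0))
        fun q => min_eq_left (Nat.div_le_self _ _)
    refine ptf_tab (γ := γ × ℕ) (n := fun q => (P q.1).N / 2 ^ (min q.2 (P q.1).n))
      (f := fun q p => sumR (2 ^ (min q.2 (P q.1).n))
        (fun i => g1 (tpL (P q.1) (F q.1) (κ q.1) (x q.1)) (p * 2 ^ (min q.2 (P q.1).n) + i)) +
        F q.1 (x q.1) / (P q.1).N + 1) e6 ?_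
    have f0 : PTF (fun q : (γ × ℕ) × ℕ => P q.1.1) := PTF.comp hP (by fun_prop)
    have f1 : PTF (fun q : (γ × ℕ) × ℕ => F q.1.1 (x q.1.1)) :=
      ptf_at hF (by fun_prop) (PTF.comp hx (by fun_prop))
    have f2 : PTU (fun q : (γ × ℕ) × ℕ => 2 ^ (min q.1.2 (P q.1.1).n)) :=
      PTU.comp (n := fun q : γ × ℕ => 2 ^ (min q.2 (P q.1).n)) (f := fun q : (γ × ℕ) × ℕ => q.1)
        e5 PTF.fst
    have f3 : PTF (fun q : (γ × ℕ) × ℕ => sumR (2 ^ (min q.1.2 (P q.1.1).n))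
        (fun i => g1 (tpL (P q.1.1) (F q.1.1) (κ q.1.1) (x q.1.1))
          (q.2 * 2 ^ (min q.1.2 (P q.1.1).n) + i))) := by
      refine ptf_sumR f2 ?_
      have g0 : PTF (fun q : ((γ × ℕ) × ℕ) × ℕ => tpL (P q.1.1.1) (F q.1.1.1) (κ q.1.1.1)
        (x q.1.1.1)) := PTF.comp h0 (by fun_prop)
      refine ptf_g1 g0 ?_
      have g1' : PTF (fun q : ((γ × ℕ) × ℕ) × ℕ => 2 ^ (min q.1.1.2 (P q.1.1.1).n)) :=
        PTF.comp (g := fun q : (γ × ℕ) × ℕ => 2 ^ (min q.1.2 (P q.1.1).n))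
          (f := fun q : ((γ × ℕ) × ℕ) × ℕ => q.1) f2.toPTF PTF.fst
      exact PTF.natAdd (PTF.natMul (by fun_prop) g1') PTF.snd
    exact PTF.natAdd (PTF.natAdd f3 (PTF.natDiv f1 (ptu_N f0).toPTF)) (PTF.const 1)
  refine h1.of_eq fun c => ?_
  unfold unL
  refine tab_congr fun t ht => ?_
  rw [min_eq_left (by omega : t ≤ (P c).n)]
  refine tab_congr fun p hp => ?_
  unfold unt
  congr 2
  refine sumR_congr fun i hi => g1_tpL ?_
  have h2 : (p + 1) * 2 ^ t ≤ (P c).N :=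
    (Nat.mul_le_mul_right _ hp).trans (Nat.div_mul_le_self _ _)
  have h3 : (p + 1) * 2 ^ t = p * 2 ^ t + 2 ^ t := by ring
  omega

end Crest.Agent.R288.Pta569
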