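import Crest.Agent.R288.PtaB_569

/-!
# R288 [PTA], part 4: product weights at one decision and the window recursion built on them

`HW B w0 fac us i`: value of rank `i` at one decision: weights `w0 z * ∏_{i' < i} fac (excess of z
for rank i')`, average of `us i`, rounded up.
-/

set_option autoImplicit false

namespace Crest.Agent.R288.Pta569

open Crest.Agent.Lib.PT Crest.Agent.R288.Alg45 Crest.Agent.R288.WDP569

variable {α β γ δ : Type} [PTCode α] [PTCode β] [PTCode γ] [PTCode δ]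

/-- weights of rank `i` at one decision -/
def MW (B : ℕ) (w0 : ℕ → ℕ) (fac : ℕ → ℕ) (us : ℕ → ℕ → ℕ) (i z : ℕ) : ℕ :=
  w0 z * ∏ i' ∈ Finset.range i, fac (us i' z - minR B (us i'))

/-- value of rank `i` at one decision -/
def HW (B : ℕ) (w0 : ℕ → ℕ) (fac : ℕ → ℕ) (us : ℕ → ℕ → ℕ) (i : ℕ) : ℕ :=
  wav B (MW B w0 fac us i) (us i)

theorem MW_zero (B : ℕ) (w0 : ℕ → ℕ) (fac : ℕ → ℕ) (us : ℕ → ℕ → ℕ) (z : ℕ) :
    MW B w0 fac us 0 z = w0 z := by simp [MW]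

theorem MW_succ (B : ℕ) (w0 : ℕ → ℕ) (fac : ℕ → ℕ) (us : ℕ → ℕ → ℕ) (i z : ℕ) :
    MW B w0 fac us (i + 1) z = MW B w0 fac us i z * fac (us i z - minR B (us i)) := by
  unfold MW
  rw [Finset.prod_range_succ, mul_assoc]

theorem wav_zero_B (w f : ℕ → ℕ) : wav 0 w f = 0 := by simp [wav]

theorem HW_congr {B : ℕ} {w0 w0' : ℕ → ℕ} {fac fac' : ℕ → ℕ} {us us' : ℕ → ℕ → ℕ} {i : ℕ}
    (hw : ∀ z < B, w0 z = w0' z) (hf : ∀ x, fac x = fac' x)
    (h : ∀ i' ≤ i, ∀ z < B, us i' z = us' i' z) : HW B w0 fac us i = HW B w0' fac' us' i := by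
  rcases Nat.eq_zero_or_pos B with h0 | h0
  · subst h0; unfold HW; rw [wav_zero_B, wav_zero_B]
  · refine wav_congr (fun z hz => ?_) (h i le_rfl)
    unfold MW
    rw [hw z hz]
    congr 1
    refine Finset.prod_congr rfl fun i' hi' => ?_
    have hi'' := (Finset.mem_range.1 hi').le
    rw [hf, h i' hi'' z hz, minR_congr' h0 fun z hz => h i' hi'' z hz]

theorem HW_lt {B : ℕ} {w0 : ℕ → ℕ} {fac : ℕ → ℕ} {us : ℕ → ℕ → ℕ} {i M : ℕ} (hM : 0 < M)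
    (h : ∀ z < B, us i z < M) : HW B w0 fac us i < M := wav_lt hM h

theorem ptf_HW {B i : γ → ℕ} {w0 fac : γ → ℕ → ℕ} {us : γ → ℕ → ℕ → ℕ} (hB : PTU B)
    (hi : PTU i) (hw : PTF (fun q : γ × ℕ => w0 q.1 q.2))
    (hf : PTF (fun q : γ × ℕ => fac q.1 q.2))
    (hu : PTF (fun q : γ × ℕ × ℕ => us q.1 q.2.1 q.2.2)) :
    PTF (fun c => HW (B c) (w0 c) (fac c) (us c) (i c)) := by
  unfold HW
  have h1 : PTF (fun q : γ × ℕ => us q.1 (i q.1) q.2) :=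
    PTF.comp (g := fun q : γ × ℕ × ℕ => us q.1 q.2.1 q.2.2)
      (f := fun q : γ × ℕ => (q.1, i q.1, q.2)) hu
      (PTF.prodMk PTF.fst (PTF.prodMk (PTF.comp hi.toPTF PTF.fst) PTF.snd))
  refine ptf_wav hB ?_ h1
  show PTF (fun q : γ × ℕ => MW (B q.1) (w0 q.1) (fac q.1) (us q.1) (i q.1) q.2)
  unfold MW
  refine PTF.natMul hw ?_
  refine PTF.natProdRange (n := fun q : γ × ℕ => i q.1)
    (f := fun q i' => fac q.1 (us q.1 i' q.2 - minR (B q.1) (us q.1 i')))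
    (PTU.comp hi PTF.fst) ?_
  have h2 : PTF (fun q : (γ × ℕ) × ℕ => minR (B q.1.1) (us q.1.1 q.2)) := by
    refine ptf_minR (γ := (γ × ℕ) × ℕ) (n := fun q => B q.1.1) (f := fun q => us q.1.1 q.2)
      (PTU.comp hB (by fun_prop)) ?_
    exact PTF.comp (g := fun q : γ × ℕ × ℕ => us q.1 q.2.1 q.2.2)
      (f := fun q : ((γ × ℕ) × ℕ) × ℕ => (q.1.1.1, q.1.2, q.2)) hu (by fun_prop)
  have h3 : PTF (fun q : (γ × ℕ) × ℕ => us q.1.1 q.2 q.1.2) :=
    PTF.comp (g := fun q : γ × ℕ × ℕ => us q.1 q.2.1 q.2.2)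
      (f := fun q : (γ × ℕ) × ℕ => (q.1.1, q.2, q.1.2)) hu (by fun_prop)
  exact PTF.comp (g := fun q : γ × ℕ => fac q.1 q.2)
    (f := fun q : (γ × ℕ) × ℕ => (q.1.1, us q.1.1 q.2 q.1.2 - minR (B q.1.1) (us q.1.1 q.2))) hf
    (PTF.prodMk (by fun_prop) (PTF.natSub h3 h2))

/-- the recursion over a window with the weights `MW`; `E i p a b` = end values, `fac t p` = factor
at the node `(t, p)` -/
def VW (B : ℕ) (w0 : ℕ → ℕ) (fac : ℕ → ℕ → ℕ → ℕ) (E : ℕ → ℕ → ℕ → ℕ → ℕ) :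
    ℕ → ℕ → ℕ → ℕ → ℕ → ℕ
  | 0, i, p, a, b => E i p a b
  | t + 1, i, p, a, b => HW B w0 (fac (t + 1) p)
      (fun i' z => VW B w0 fac E t i' (2 * p) a z + VW B w0 fac E t i' (2 * p + 1) z b) i

theorem VW_congr {B n k N : ℕ} {w0 w0' : ℕ → ℕ} {fac fac' : ℕ → ℕ → ℕ → ℕ}
    {E E' : ℕ → ℕ → ℕ → ℕ → ℕ} (hw : ∀ z < B, w0 z = w0' z)
    (hf : ∀ t < n, ∀ p < N / 2 ^ (t + 1), ∀ x, fac (t + 1) p x = fac' (t + 1) p x)
    (hE : ∀ i ≤ k, ∀ p < N, ∀ a < B, ∀ b < B, E i p a b = E' i p a b) :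
    ∀ t ≤ n, ∀ i ≤ k, ∀ p < N / 2 ^ t, ∀ a < B, ∀ b < B,
      VW B w0 fac E t i p a b = VW B w0' fac' E' t i p a b := by
  intro t
  induction t with
  | zero => intro _ i hi p hp a ha b hb; exact hE i hi p (by simpa using hp) a ha b hb
  | succ t ih =>
    intro ht i hi p hp a ha b hb
    have h2 := nodes_child hp
    rw [VW, VW]
    refine HW_congr hw (hf t (by omega) p hp) fun i' hi' z hz => ?_
    rw [ih (by omega) i' (by omega) _ (by omega) a ha z hz,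
      ih (by omega) i' (by omega) _ h2 z hz b hb]

/-- **certificate of the window recursion**: the factors come from a table of parameters `U t p` -/
theorem ptf_VW {n k N B i : γ → ℕ} {w0 : γ → ℕ → ℕ} {fac : γ → ℕ → ℕ → ℕ}
    {U : γ → List (List ℕ)} {E : γ → ℕ → ℕ → ℕ → ℕ → ℕ} (hn : PTU n) (hk : PTU k) (hN : PTU N)
    (hB : PTU B) (hN' : ∀ c, N c = 2 ^ n c) (hB0 : ∀ c, 0 < B c)
    (hw : PTF (fun q : γ × ℕ => w0 q.1 q.2))
    (hf : PTF (fun q : γ × ℕ × ℕ => fac q.1 q.2.1 q.2.2)) (hU : PTF U)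
    (hE : PTF (fun q : γ × ℕ × ℕ × ℕ × ℕ => E q.1 q.2.1 q.2.2.1 q.2.2.2.1 q.2.2.2.2))
    (hi : PTF i) :
    PTF (fun c => VW (B c) (w0 c) (fun t p => fac c (g2 (U c) t p)) (E c) (n c)
      (min (i c) (k c)) 0 0 0) := by
  refine ptf_root (V := fun c => VW (B c) (w0 c) (fun t p => fac c (g2 (U c) t p)) (E c))
    (H := fun c t p us i => HW (B c) (w0 c) (fac c (g2 (U c) (t + 1) p)) us i)
    hn hk hN hB hN' hB0 (fun c t i p a b => rfl) ?_ ?_ ?_ ?_ hi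
  · intro δ _ g t p i us hg ht hp hi hus
    refine ptf_HW (γ := δ) (B := fun d => B (g d)) (i := fun d => min (i d) (k (g d)))
      (w0 := fun d => w0 (g d)) (fac := fun d => fac (g d) (g2 (U (g d)) (t d + 1) (p d)))
      (us := us) (PTU.comp hB hg) (PTF.natMinUn hi (PTU.comp hk hg)) ?_ ?_ hus
    · exact PTF.comp (g := fun q : γ × ℕ => w0 q.1 q.2) (f := fun q : δ × ℕ => (g q.1, q.2)) hw
        (PTF.prodMk (PTF.comp hg PTF.fst) PTF.snd)
    · refine PTF.comp (g := fun q : γ × ℕ × ℕ => fac q.1 q.2.1 q.2.2)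
        (f := fun q : δ × ℕ => (g q.1, g2 (U (g q.1)) (t q.1 + 1) (p q.1), q.2)) hf ?_
      refine PTF.prodMk (PTF.comp hg PTF.fst) (PTF.prodMk ?_ PTF.snd)
      exact ptf_g2 (PTF.comp hU (PTF.comp hg PTF.fst))
        (PTF.natAdd (PTF.comp ht PTF.fst) (PTF.const 1)) (PTF.comp hp PTF.fst)
  · intro c t p us us' i hi h
    exact HW_congr (fun _ _ => rfl) (fun _ => rfl) fun i' hi' z hz => h i' (by omega) z hz
  · intro c t p us i M hM hi h
    exact HW_lt hM fun z hz => h i hi z hz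
  · exact hE

end Crest.Agent.R288.Pta569
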