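import Crest.Agent.R288.PtaC_569
import Crest.Agent.R288.PtaD_569

/-!
# R288 [PTA], part 5: near letters, wild value, calm value, root decision (ALG v2), PTF certificates

`wildH`, `modalH`, `bodyH` = `wild`, `modal`, `bodyNum` with the end tables `H i` of the wild values
as data (`H i = hull P F (X i)` in `bodyNum`; the definitions were helper72's).
-/

set_option autoImplicit false

namespace Crest.Agent.R288.Pta569

open Crest.Agent.Lib.PT Crest.Agent.R288.Alg45 Crest.Agent.R288.WDP569 Crest.Agent.R288.PtSt966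
open Crest.Agent.R288.StPT569

/-! ### `wild`, `modal`, `bodyNum` with the hull numbers as a parameter -/

section defs

variable (P : Par)

/-- `wild` with the end tables `H i` -/
def wildH (F : St → ℕ) (H : ℕ → St → ℕ) (κ : ℕ) (x : St) (i : ℕ) : ℕ :=
  Wm (F x) (fun i' => Vst P κ x (H i')) i

/-- `modal` with the end tables `H i` -/
def modalH (F : St → ℕ) (X : ℕ → ℕ → St → ℕ) (H : ℕ → St → ℕ) (k : ℕ) (S : ℕ → ℕ → St → ℕ)
    (κ : ℕ) (x : St) : ℕ :=
  hv 1 P.um 2 (F x + 1) (fun z => if z = 0 then P.pm else 1)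
    (fun i z => if z = 0 then calm P F X k S κ x i else wildH P F H κ x i) k

/-- `bodyNum` with the end tables `H i` -/
def bodyH (leaf : St → Option ℕ) (F : St → ℕ) (X : ℕ → ℕ → St → ℕ) (H : ℕ → St → ℕ) (k : ℕ)
    (S : ℕ → ℕ → St → ℕ) (κ : ℕ) (x : St) : ℕ :=
  if adm P F κ x = false then F x
  else
    match leaf x with
    | some c => c
    | none =>
      if R1 P F x ∨ ¬ regular P F κ x then wildH P F H κ x k
      else cdiv ((P.g - 1) * modalH P F X H k S κ x + wildH P F H κ x k) P.g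

theorem wild_eq (F : St → ℕ) (X : ℕ → ℕ → St → ℕ) (κ : ℕ) (x : St) (i : ℕ) :
    wild P F X κ x i = wildH P F (fun i => hull P F (X i)) κ x i := rfl

theorem modal_eq (F : St → ℕ) (X : ℕ → ℕ → St → ℕ) (k : ℕ) (S : ℕ → ℕ → St → ℕ) (κ : ℕ)
    (x : St) : modal P F X k S κ x = modalH P F X (fun i => hull P F (X i)) k S κ x := rfl

theorem bodyNum_eq (leaf : St → Option ℕ) (F : St → ℕ) (X : ℕ → ℕ → St → ℕ) (k : ℕ)
    (S : ℕ → ℕ → St → ℕ) (κ : ℕ) (x : St) :
    bodyNum P leaf F X k S κ x = bodyH P leaf F X (fun i => hull P F (X i)) k S κ x := rfl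

end defs

variable {α β γ δ : Type} [PTCode α] [PTCode β] [PTCode γ] [PTCode δ]
variable {P : γ → Par} {F f : γ → St → ℕ} {κ : γ → ℕ} {x : γ → St}

/-! ### maxima -/

theorem maxR_succ (n : ℕ) (f : ℕ → ℕ) : maxR (n + 1) f = max (maxR n f) (f n) := by
  unfold maxR
  rw [List.range_succ, List.foldl_append]
  rfl

theorem maxR_congr {n : ℕ} {f g : ℕ → ℕ} (h : ∀ i < n, f i = g i) : maxR n f = maxR n g := by
  induction n with
  | zero => rfl
  | succ n ih => rw [maxR_succ, maxR_succ, ih fun i hi => h i (by omega), h n (by omega)]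

theorem maxR_lt {n M : ℕ} {f : ℕ → ℕ} (hM : 0 < M) (h : ∀ i < n, f i < M) : maxR n f < M := by
  induction n with
  | zero => exact hM
  | succ n ih =>
    rw [maxR_succ]
    exact max_lt (ih fun i hi => h i (by omega)) (h n (by omega))

theorem pb_idx1 {f : γ → ℕ → ℕ} (hf : PTF (fun q : γ × ℕ => f q.1 q.2)) {n : γ → ℕ} (h : PB n) :
    ∃ G : γ → ℕ, PB G ∧ ∀ c, ∀ i ≤ n c, f c i < 2 ^ G c := by
  obtain ⟨G, hG, hGb⟩ := pb_of_sz (γ := γ) (δ := ℕ) (f := f) hf (m := n) h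
  refine ⟨G, hG, fun c i hi => ?_⟩
  have h1 := hGb c i ((sz_nat_le i).trans hi)
  rw [sz_nat] at h1
  exact Nat.size_le.1 h1

theorem ptf_maxR {n : γ → ℕ} {f : γ → ℕ → ℕ} (hn : PTU n)
    (hf : PTF (fun q : γ × ℕ => f q.1 q.2)) : PTF (fun c => maxR (n c) (f c)) := by
  obtain ⟨G, hG, hGb⟩ := pb_idx1 hf hn.pb
  refine PTF.natRec (r := fun c i => maxR i (f c)) (b := fun _ => 0)
    (s := fun c i m => max m (f c i)) hn (PTF.const 0) ?_ (fun _ => rfl)
    (fun _ _ _ => maxR_succ _ _) (B := G) hG ?_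
  · have h1 : PTF (fun p : γ × ℕ × ℕ => f p.1 p.2.1) :=
      PTF.comp (g := fun q : γ × ℕ => f q.1 q.2) (f := fun p : γ × ℕ × ℕ => (p.1, p.2.1)) hf
        (by fun_prop)
    fun_prop
  · intro c i hi
    rw [sz_nat, Nat.size_le]
    exact maxR_lt (by positivity) fun j hj => hGb c j (by omega)

@[fun_prop]
theorem ptf_cdiv {a b : γ → ℕ} (ha : PTF a) (hb : PTF b) : PTF (fun c => cdiv (a c) (b c)) := by
  unfold cdiv; fun_prop

/-! ### near letters -/

theorem ptf_rad (hP : PTF P) (hκ : PTU κ) (hx : PTF x)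
    (hF : PTF (fun p : γ × St => F p.1 p.2)) :
    PTF (fun c => rad (P c) (F c) (κ c) (x c)) := by
  unfold rad
  have h1 : PTF (fun c => F c (x c)) := ptf_at hF PTF.id hx
  have h2 : PTF (fun c => 2 ^ (P c).sb) := PTF.natTwoPow (ptu_sb hP)
  exact PTF.natDiv (PTF.natDiv h1 h2) (ptf_gst hP hκ)

/-- near piece read off the list of targets -/
def npL (P : Par) (tg : List ℕ) (rad : ℕ) (κ : ℕ) (x : St) (q a b : ℕ) : St :=
  piece P κ x q (min (WA P κ - 1) (g1 tg q + a - rad)) (min (WA P κ - 1) (g1 tg (q + 1) + b - rad))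

theorem npL_eq {P : Par} {F : St → ℕ} {κ : ℕ} {x : St} {q : ℕ} (hq : q < P.N) (a b : ℕ) :
    npL P (tgL P F κ x) (rad P F κ x) κ x q a b = npiece P F κ x q a b := by
  unfold npL npiece near
  rw [g1_tgL (by omega), g1_tgL (by omega)]

theorem ptf_npL {tg : γ → List ℕ} {rad q a b : γ → ℕ} (hP : PTF P) (hκ : PTU κ) (hx : PTF x)
    (ht : PTF tg) (hr : PTF rad) (hq : PTF q) (ha : PTF a) (hb : PTF b) :
    PTF (fun c => npL (P c) (tg c) (rad c) (κ c) (x c) (q c) (a c) (b c)) := by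
  unfold npL
  refine ptf_piece hP hκ hx hq ?_ ?_
  · exact PTF.natMin (PTF.natSub (ptf_WA hP hκ) (PTF.const 1))
      (PTF.natSub (PTF.natAdd (ptf_g1 ht hq) ha) hr)
  · exact PTF.natMin (PTF.natSub (ptf_WA hP hκ) (PTF.const 1))
      (PTF.natSub (PTF.natAdd (ptf_g1 ht (PTF.natAdd hq (PTF.const 1))) hb) hr)

/-- the near piece of the context, index `q` arbitrary -/
def npc (P : γ → Par) (F : γ → St → ℕ) (κ : γ → ℕ) (x : γ → St) (c : γ) (q a b : ℕ) : St :=
  npL (P c) (tgL (P c) (F c) (κ c) (x c)) (rad (P c) (F c) (κ c) (x c)) (κ c) (x c) q a b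

theorem ptf_npc (hP : PTF P) (hκ : PTU κ) (hx : PTF x) (hF : PTF (fun p : γ × St => F p.1 p.2))
    {c : δ → γ} {q a b : δ → ℕ} (hc : PTF c) (hq : PTF q) (ha : PTF a) (hb : PTF b) :
    PTF (fun d => npc P F κ x (c d) (q d) (a d) (b d)) := by
  unfold npc
  exact ptf_npL (γ := δ) (P := fun d => P (c d)) (κ := fun d => κ (c d)) (x := fun d => x (c d))
    (tg := fun d => tgL (P (c d)) (F (c d)) (κ (c d)) (x (c d)))
    (rad := fun d => rad (P (c d)) (F (c d)) (κ (c d)) (x (c d)))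
    (PTF.comp hP hc) (PTU.comp hκ hc) (PTF.comp hx hc)
    (PTF.comp (g := fun c => tgL (P c) (F c) (κ c) (x c)) (ptf_tgL hP hκ hx hF) hc)
    (PTF.comp (g := fun c => rad (P c) (F c) (κ c) (x c)) (ptf_rad hP hκ hx hF) hc) hq ha hb

/-- sum over the ends of the largest `F` of a near piece, with `B` near letters -/
def regS (P : Par) (F : St → ℕ) (κ : ℕ) (x : St) (B : ℕ) : ℕ :=
  sumR P.N fun q => maxR B fun a => maxR B fun b => F (npiece P F κ x q a b)

theorem regular_iff (P : Par) (F : St → ℕ) (κ : ℕ) (x : St) :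
    regular P F κ x ↔ regS P F κ x (nlet P F κ x) ≤ P.Creg * F x := Iff.rfl

theorem ptf_regS {B : γ → ℕ} (hP : PTF P) (hκ : PTU κ) (hx : PTF x)
    (hF : PTF (fun p : γ × St => F p.1 p.2)) (hB : PTU B) :
    PTF (fun c => regS (P c) (F c) (κ c) (x c) (B c)) := by
  have h1 : PTF (fun c => sumR (P c).N fun q => maxR (B c) fun a => maxR (B c) fun b =>
      F c (npc P F κ x c q a b)) := by
    refine ptf_sumR (ptu_N hP) ?_
    refine ptf_maxR (γ := γ × ℕ) (n := fun q => B q.1)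
      (f := fun q a => maxR (B q.1) fun b => F q.1 (npc P F κ x q.1 q.2 a b))
      (PTU.comp hB PTF.fst) ?_
    refine ptf_maxR (γ := (γ × ℕ) × ℕ) (n := fun q => B q.1.1)
      (f := fun q b => F q.1.1 (npc P F κ x q.1.1 q.1.2 q.2 b)) (PTU.comp hB (by fun_prop)) ?_
    exact ptf_at hF (by fun_prop)
      (ptf_npc hP hκ hx hF (by fun_prop) (by fun_prop) (by fun_prop) (by fun_prop))
  refine h1.of_eq fun c => ?_
  unfold regS
  refine sumR_congr fun q hq => maxR_congr fun a _ => maxR_congr fun b _ => ?_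
  unfold npc
  rw [npL_eq hq]

/-! ### the number of an end piece -/

/-- the end function of rank `i` at the end `q` -/
def endF (X : ℕ → ℕ → St → ℕ) (k : ℕ) (S : ℕ → ℕ → St → ℕ) (i q : ℕ) : ℕ → St → ℕ :=
  if i < k then X i else S q

theorem ptf_endF {X S : γ → ℕ → ℕ → St → ℕ} {k : γ → ℕ}
    (hX : PTF (fun q : γ × ℕ × ℕ × St => X q.1 q.2.1 q.2.2.1 q.2.2.2))
    (hS : PTF (fun q : γ × ℕ × ℕ × St => S q.1 q.2.1 q.2.2.1 q.2.2.2)) (hk : PTF k)
    {c : δ → γ} {i q κ' : δ → ℕ} {y : δ → St} (hc : PTF c) (hi : PTF i) (hq : PTF q)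
    (hκ' : PTF κ') (hy : PTF y) :
    PTF (fun d => endF (X (c d)) (k (c d)) (S (c d)) (i d) (q d) (κ' d) (y d)) := by
  have h1 : PTF (fun d => X (c d) (i d) (κ' d) (y d)) :=
    PTF.comp (g := fun q : γ × ℕ × ℕ × St => X q.1 q.2.1 q.2.2.1 q.2.2.2)
      (f := fun d => (c d, i d, κ' d, y d)) hX
      (PTF.prodMk hc (PTF.prodMk hi (PTF.prodMk hκ' hy)))
  have h2 : PTF (fun d => S (c d) (q d) (κ' d) (y d)) :=
    PTF.comp (g := fun q : γ × ℕ × ℕ × St => S q.1 q.2.1 q.2.2.1 q.2.2.2)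
      (f := fun d => (c d, q d, κ' d, y d)) hS
      (PTF.prodMk hc (PTF.prodMk hq (PTF.prodMk hκ' hy)))
  refine (PTF.ite (PTPred.natLt hi (PTF.comp (g := k) hk hc)) h1 h2).of_eq fun d => ?_
  unfold endF
  split <;> rfl

theorem ptf_numEnd {X S : γ → ℕ → ℕ → St → ℕ} {k : γ → ℕ} (hP : PTF P) (hκ : PTU κ)
    (hF : PTF (fun p : γ × St => F p.1 p.2))
    (hX : PTF (fun q : γ × ℕ × ℕ × St => X q.1 q.2.1 q.2.2.1 q.2.2.2))
    (hS : PTF (fun q : γ × ℕ × ℕ × St => S q.1 q.2.1 q.2.2.1 q.2.2.2)) (hk : PTF k)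
    {c : δ → γ} {i q : δ → ℕ} {y : δ → St} (hc : PTF c) (hi : PTF i) (hq : PTF q)
    (hy : PTF y) :
    PTF (fun d => numSt (P (c d)) (F (c d)) (κ (c d))
      (endF (X (c d)) (k (c d)) (S (c d)) (i d) (q d)) (y d)) := by
  unfold numSt
  have hP' : PTF (fun d => P (c d)) := PTF.comp hP hc
  have hκ' : PTF (fun d => κ (c d)) := PTF.comp (g := κ) hκ.toPTF hc
  have hF' : PTF (fun p : δ × St => F (c p.1) p.2) :=
    PTF.comp (g := fun p : γ × St => F p.1 p.2) (f := fun p : δ × St => (c p.1, p.2)) hF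
      (PTF.prodMk (PTF.comp hc PTF.fst) PTF.snd)
  have hcl : PTU (fun d => cls (F (c d)) (y d)) := ptu_cls (F := fun d => F (c d)) hF' hy
  have hFy : PTF (fun d => F (c d) (y d)) := ptf_at hF hc hy
  have hr : PTF (fun d => rdn (P (c d)) (cls (F (c d)) (y d)) (y d)) := ptf_rdn hP' hcl hy
  refine PTF.ite (PTPred.or
    (PTPred.natLt (PTF.natAdd hcl.toPTF (ptf_dl hP')) hκ')
    (PTPred.natLt (PTF.natAdd hκ' (ptf_du hP')) hcl.toPTF)) hFy ?_
  exact PTF.natAdd (ptf_dist hy hr) (ptf_endF hX hS hk hc hi hq hcl.toPTF hr)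

/-! ### the wild value -/

theorem Wm_le (F : ℕ) (V : ℕ → ℕ) (i : ℕ) : Wm F V i ≤ F := by
  induction i with
  | zero => exact le_rfl
  | succ i ih => rw [Wm]; exact (min_le_left _ _).trans ih

theorem ptf_Wm {F : γ → ℕ} {V : γ → ℕ → ℕ} {i : γ → ℕ} (hF : PTF F)
    (hV : PTF (fun q : γ × ℕ => V q.1 q.2)) (hi : PTU i) :
    PTF (fun c => Wm (F c) (V c) (i c)) := by
  refine PTF.natRec (r := fun c i => Wm (F c) (V c) i) (b := F)
    (s := fun c i m => min m (V c i)) hi hF ?_ (fun _ => rfl) (fun _ _ _ => rfl)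
    (B := fun c => sz (F c)) (PB.comp PB.sz hF) ?_
  · have h1 : PTF (fun p : γ × ℕ × ℕ => V p.1 p.2.1) :=
      PTF.comp (g := fun q : γ × ℕ => V q.1 q.2) (f := fun p : γ × ℕ × ℕ => (p.1, p.2.1)) hV
        (by fun_prop)
    fun_prop
  · intro c i _
    rw [sz_nat, sz_nat]
    exact Nat.size_le_size (Wm_le _ _ _)

theorem ptf_wildH {H : γ → ℕ → St → ℕ} {i : γ → ℕ} (hP : PTF P) (hκ : PTU κ) (hx : PTF x)
    (hF : PTF (fun p : γ × St => F p.1 p.2))
    (hH : PTF (fun q : (γ × ℕ) × St => H q.1.1 q.1.2 q.2))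
    (hi : PTU i) : PTF (fun c => wildH (P c) (F c) (H c) (κ c) (x c) (i c)) := by
  unfold wildH
  refine ptf_Wm (ptf_at hF PTF.id hx) ?_ hi
  exact ptf_Vst (γ := γ × ℕ) (P := fun q => P q.1) (κ := fun q => κ q.1) (x := fun q => x q.1)
    (f := fun q => H q.1 q.2) (PTF.comp hP PTF.fst) (PTU.comp hκ PTF.fst)
    (PTF.comp hx PTF.fst) hH

/-! ### the weights of `Alg45` -/

theorem wts_eq (gn gd B U : ℕ) (w0 : ℕ → ℕ) (us : ℕ → ℕ → ℕ) (i z : ℕ) :
    wts gn gd B U w0 us i z = MW B w0 (Alg45.fac gn gd U) us i z := by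
  induction i with
  | zero => rw [MW_zero, wts]
  | succ i ih => rw [MW_succ, wts, ih]

theorem hv_eq (gn gd B U : ℕ) (w0 : ℕ → ℕ) (us : ℕ → ℕ → ℕ) (i : ℕ) :
    Alg45.hv gn gd B U w0 us i = HW B w0 (Alg45.fac gn gd U) us i := by
  unfold Alg45.hv HW WDP569.wav cdiv
  rw [sumR_eq, sumR_eq]
  simp only [wts_eq]

theorem VV_eq (γ B : ℕ) (U : ℕ → ℕ → ℕ) (E : ℕ → ℕ → ℕ → ℕ → ℕ) (t i p a b : ℕ) :
    VV γ B U E t i p a b = VW B (fun _ => 1) (fun t p => Alg45.fac γ 1 (U t p)) E t i p a b := by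
  induction t generalizing i p a b with
  | zero => rfl
  | succ t ih =>
    rw [VV, VW, hv_eq]
    simp only [ih]

theorem ptf_fac {gn gd U x : γ → ℕ} (h1 : PTF gn) (h2 : PTF gd) (h3 : PTF U) (h4 : PTF x) :
    PTF (fun c => Alg45.fac (gn c) (gd c) (U c) (x c)) := by
  unfold Alg45.fac; fun_prop

/-! ### the calm value -/

/-- the calm value with `B` near letters -/
def calmB (P : Par) (F : St → ℕ) (X : ℕ → ℕ → St → ℕ) (k : ℕ) (S : ℕ → ℕ → St → ℕ) (κ : ℕ)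
    (x : St) (B i : ℕ) : ℕ :=
  VV P.γ B (unt P F κ x)
    (fun i q a b => numSt P F κ (if i < k then X i else S q) (npiece P F κ x q a b))
    P.n i 0 0 0

theorem calm_eq (P : Par) (F : St → ℕ) (X : ℕ → ℕ → St → ℕ) (k : ℕ) (S : ℕ → ℕ → St → ℕ) (κ : ℕ)
    (x : St) (i : ℕ) : calm P F X k S κ x i = calmB P F X k S κ x (nlet P F κ x) i := rfl

theorem ptf_calmB {X : γ → ℕ → ℕ → St → ℕ} {S : γ → ℕ → ℕ → St → ℕ} {k B i : γ → ℕ}
    (hP : PTF P) (hκ : PTU κ) (hx : PTF x) (hF : PTF (fun p : γ × St => F p.1 p.2))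
    (hX : PTF (fun q : γ × ℕ × ℕ × St => X q.1 q.2.1 q.2.2.1 q.2.2.2))
    (hS : PTF (fun q : γ × ℕ × ℕ × St => S q.1 q.2.1 q.2.2.1 q.2.2.2))
    (hk : PTU k) (hB : PTU B) (hB0 : ∀ c, 0 < B c) (hi : PTF i) :
    PTF (fun c => calmB (P c) (F c) (X c) (k c) (S c) (κ c) (x c) (B c) (min (i c) (k c))) := by
  have h1 := ptf_VW (n := fun c => (P c).n) (k := k) (N := fun c => (P c).N) (B := B) (i := i)
    (w0 := fun _ _ => 1) (fac := fun c U x => Alg45.fac (P c).γ 1 U x)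
    (U := fun c => unL (P c) (F c) (κ c) (x c))
    (E := fun c i q a b => numSt (P c) (F c) (κ c) (endF (X c) (k c) (S c) i q)
      (npc P F κ x c q a b))
    (ptu_n hP) hk (ptu_N hP) hB (fun _ => rfl) hB0 (PTF.const 1)
    (ptf_fac (PTF.comp (g := fun c => (P c).γ) (ptf_γ hP) PTF.fst) (PTF.const 1) (by fun_prop)
      (by fun_prop))
    (ptf_unL hP hκ hx hF)
    (ptf_numEnd (δ := γ × ℕ × ℕ × ℕ × ℕ) (c := fun q => q.1) (i := fun q => q.2.1)
      (q := fun q => q.2.2.1) (y := fun q => npc P F κ x q.1 q.2.2.1 q.2.2.2.1 q.2.2.2.2)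
      hP hκ hF hX hS hk.toPTF (by fun_prop) (by fun_prop) (by fun_prop)
      (ptf_npc hP hκ hx hF (by fun_prop) (by fun_prop) (by fun_prop) (by fun_prop)))
    hi
  refine h1.of_eq fun c => ?_
  unfold calmB
  rw [VV_eq]
  refine VW_congr (n := (P c).n) (k := k c) (N := (P c).N) (fun _ _ => rfl) ?_ ?_ _ le_rfl _
    (min_le_right _ _) 0 ?_ 0 (hB0 c) 0 (hB0 c)
  · intro t ht p hp x'
    rw [g2_unL (by omega) hp]
  · intro i _ q hq a _ b _
    unfold npc
    rw [npL_eq hq]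
    rfl
  · show 0 < 2 ^ (P c).n / 2 ^ (P c).n
    rw [Nat.div_self (by positivity)]
    norm_num

/-! ### the root decision -/

/-- `modalH` with `B` near letters -/
def modalB (P : Par) (F : St → ℕ) (X : ℕ → ℕ → St → ℕ) (H : ℕ → St → ℕ) (k : ℕ)
    (S : ℕ → ℕ → St → ℕ) (κ : ℕ) (x : St) (B : ℕ) : ℕ :=
  Alg45.hv 1 P.um 2 (F x + 1) (fun z => if z = 0 then P.pm else 1)
    (fun i z => if z = 0 then calmB P F X k S κ x B i else wildH P F H κ x i) k

theorem modalB_eq (P : Par) (F : St → ℕ) (X : ℕ → ℕ → St → ℕ) (H : ℕ → St → ℕ) (k : ℕ)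
    (S : ℕ → ℕ → St → ℕ) (κ : ℕ) (x : St) :
    modalH P F X H k S κ x = modalB P F X H k S κ x (nlet P F κ x) := rfl

theorem ptf_modalB {X : γ → ℕ → ℕ → St → ℕ} {H : γ → ℕ → St → ℕ} {S : γ → ℕ → ℕ → St → ℕ}
    {k B : γ → ℕ}
    (hP : PTF P) (hκ : PTU κ) (hx : PTF x) (hF : PTF (fun p : γ × St => F p.1 p.2))
    (hX : PTF (fun q : γ × ℕ × ℕ × St => X q.1 q.2.1 q.2.2.1 q.2.2.2))
    (hH : PTF (fun q : (γ × ℕ) × St => H q.1.1 q.1.2 q.2))
    (hS : PTF (fun q : γ × ℕ × ℕ × St => S q.1 q.2.1 q.2.2.1 q.2.2.2))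
    (hk : PTU k) (hB : PTU B) (hB0 : ∀ c, 0 < B c) :
    PTF (fun c => modalB (P c) (F c) (X c) (H c) (k c) (S c) (κ c) (x c) (B c)) := by
  have hFx : PTF (fun c => F c (x c)) := ptf_at hF PTF.id hx
  have hF' : PTF (fun p : (γ × ℕ × ℕ) × St => F p.1.1 p.2) :=
    PTF.comp (g := fun p : γ × St => F p.1 p.2)
      (f := fun q : (γ × ℕ × ℕ) × St => (q.1.1, q.2)) hF (by fun_prop)
  have h1 : PTF (fun c => HW 2 (fun z => if z = 0 then (P c).pm else 1)
      (Alg45.fac 1 (P c).um (F c (x c) + 1))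
      (fun i z => if z = 0 then calmB (P c) (F c) (X c) (k c) (S c) (κ c) (x c) (B c)
        (min i (k c)) else wildH (P c) (F c) (H c) (κ c) (x c) (min i (k c))) (k c)) := by
    refine ptf_HW (B := fun _ => 2) (w0 := fun c z => if z = 0 then (P c).pm else 1)
      (fac := fun c => Alg45.fac 1 (P c).um (F c (x c) + 1)) (PTU.const 2) hk ?_ ?_ ?_
    · exact PTF.ite (PTPred.natEq (by fun_prop) (PTF.const 0))
        (PTF.comp (g := fun c => (P c).pm) (ptf_pm hP) PTF.fst) (PTF.const 1)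
    · exact ptf_fac (PTF.const 1) (PTF.comp (g := fun c => (P c).um) (ptf_um hP) PTF.fst)
        (PTF.natAdd (PTF.comp (g := fun c => F c (x c)) hFx PTF.fst) (PTF.const 1)) PTF.snd
    · refine PTF.ite (PTPred.natEq (by fun_prop) (PTF.const 0)) ?_ ?_
      · refine ptf_calmB (γ := γ × ℕ × ℕ) (P := fun q => P q.1) (F := fun q => F q.1)
          (X := fun q => X q.1) (S := fun q => S q.1) (κ := fun q => κ q.1) (x := fun q => x q.1)
          (k := fun q => k q.1) (B := fun q => B q.1) (i := fun q => q.2.1)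
          (PTF.comp hP PTF.fst) (PTU.comp hκ PTF.fst) (PTF.comp hx PTF.fst) hF' ?_ ?_
          (PTU.comp hk PTF.fst) (PTU.comp hB PTF.fst) (fun q => hB0 q.1) (by fun_prop)
        · exact PTF.comp (g := fun q : γ × ℕ × ℕ × St => X q.1 q.2.1 q.2.2.1 q.2.2.2)
            (f := fun q : (γ × ℕ × ℕ) × ℕ × ℕ × St => (q.1.1, q.2)) hX (by fun_prop)
        · exact PTF.comp (g := fun q : γ × ℕ × ℕ × St => S q.1 q.2.1 q.2.2.1 q.2.2.2)
            (f := fun q : (γ × ℕ × ℕ) × ℕ × ℕ × St => (q.1.1, q.2)) hS (by fun_prop)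
      · refine ptf_wildH (γ := γ × ℕ × ℕ) (P := fun q => P q.1) (F := fun q => F q.1)
          (H := fun q => H q.1) (κ := fun q => κ q.1) (x := fun q => x q.1)
          (i := fun q => min q.2.1 (k q.1))
          (PTF.comp hP PTF.fst) (PTU.comp hκ PTF.fst) (PTF.comp hx PTF.fst) hF' ?_
          (PTF.natMinUn (by fun_prop) (PTU.comp hk PTF.fst))
        exact PTF.comp (g := fun q : (γ × ℕ) × St => H q.1.1 q.1.2 q.2)
          (f := fun q : ((γ × ℕ × ℕ) × ℕ) × St => ((q.1.1.1, q.1.2), q.2)) hH (by fun_prop)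
  refine h1.of_eq fun c => ?_
  unfold modalB
  rw [hv_eq]
  refine HW_congr (fun _ _ => rfl) (fun _ => rfl) fun i' hi' z _ => ?_
  rw [min_eq_left hi']

end Crest.Agent.R288.Pta569
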