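import Crest.Agent.R288.PtaE_569

/-!
# R288 [PTA], part 6: `adm`, `bodyNum`, `botNum` (ALG v2), PTF certificates
-/

set_option autoImplicit false

namespace Crest.Agent.R288.Pta569

open Crest.Agent.Lib.PT Crest.Agent.R288.Alg45 Crest.Agent.R288.WDP569 Crest.Agent.R288.PtSt966
open Crest.Agent.R288.StPT569

variable {α β γ δ : Type} [PTCode α] [PTCode β] [PTCode γ] [PTCode δ]
variable {P : γ → Par} {F f : γ → St → ℕ} {κ : γ → ℕ} {x : γ → St}

theorem ptf_adm (hP : PTF P) (hκ : PTU κ) (hx : PTF x)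
    (hF : PTF (fun p : γ × St => F p.1 p.2)) :
    PTF (fun c => adm (P c) (F c) (κ c) (x c)) := by
  unfold adm
  have h1 : PTF (fun c => rdn (P c) (κ c) (x c)) := ptf_rdn hP hκ hx
  have h2 : PTF (fun c => cls (F c) (x c)) := (ptu_cls hF hx).toPTF
  have h3 : PTF (fun c => 2 ^ κ c) := PTF.natTwoPow hκ
  have a1 : PTF (fun c => decide (rdn (P c) (κ c) (x c) = x c)) :=
    (PTPred.eq h1 hx).toPTF
  have a2 : PTF (fun c => decide (((x c).v - (x c).u).natAbs ≤ 8 * 2 ^ κ c)) :=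
    (PTPred.natLe (PTF.intNatAbs (PTF.intSub (ptf_stV hx) (ptf_stU hx)))
      (PTF.natMul (PTF.const 8) h3)).toPTF
  have a3 : PTF (fun c => decide (κ c ≤ cls (F c) (x c) + 1)) :=
    (PTPred.natLe hκ.toPTF (PTF.natAdd h2 (PTF.const 1))).toPTF
  have a4 : PTF (fun c => decide (cls (F c) (x c) ≤ κ c + 1)) :=
    (PTPred.natLe h2 (PTF.natAdd hκ.toPTF (PTF.const 1))).toPTF
  exact PTF.and (PTF.and (PTF.and a1 a2) a3) a4

/-- few near letters at an admissible pair -/
theorem nlet_le {P : Par} {F : St → ℕ} {κ : ℕ} {x : St} (h : adm P F κ x = true) :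
    nlet P F κ x ≤ 8 * gpt P κ + 1 := by
  have h1 : cls F x ≤ κ + 1 := by
    unfold adm at h
    simp only [Bool.and_eq_true, decide_eq_true_eq] at h
    exact h.2
  have h2 : F x < 2 ^ (κ + 2) := by
    have h3 : F x < 2 ^ (Nat.log 2 (F x) + 1) := Nat.lt_pow_succ_log_self (by norm_num) _
    refine h3.trans_le (Nat.pow_le_pow_right (by norm_num) ?_)
    unfold cls at h1
    omega
  have h4 : F x / 2 ^ P.sb / gst P κ < 4 * gpt P κ := by
    have h5 : F x / 2 ^ P.sb ≤ F x := Nat.div_le_self _ _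
    have h6 : 0 < gst P κ := by unfold gst; positivity
    rw [Nat.div_lt_iff_lt_mul h6]
    refine lt_of_le_of_lt h5 (h2.trans_le (le_of_eq ?_))
    unfold gst gpt
    have h7 : κ + 2 = 2 + min κ P.pb + (κ - P.pb) := by omega
    rw [h7, pow_add, pow_add]
    norm_num
  unfold nlet rad
  omega

/-- number of near letters, bounded -/
def nlC (P : Par) (F : St → ℕ) (κ : ℕ) (x : St) : ℕ := min (nlet P F κ x) (8 * gpt P κ + 1)

theorem nlC_eq {P : Par} {F : St → ℕ} {κ : ℕ} {x : St} (h : adm P F κ x = true) :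
    nlC P F κ x = nlet P F κ x := min_eq_left (nlet_le h)

theorem nlC_pos (P : Par) (F : St → ℕ) (κ : ℕ) (x : St) : 0 < nlC P F κ x := by
  unfold nlC nlet; omega

theorem ptu_nlC (hP : PTF P) (hκ : PTU κ) (hx : PTF x)
    (hF : PTF (fun p : γ × St => F p.1 p.2)) :
    PTU (fun c => nlC (P c) (F c) (κ c) (x c)) := by
  unfold nlC nlet
  exact PTF.natMinUn (PTF.natAdd (PTF.natMul (PTF.const 2) (ptf_rad hP hκ hx hF)) (PTF.const 1))
    (PTU.succ (PTU.mul (PTU.const 8) (ptu_gpt hP hκ)))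

/-- **`bodyH` (= `bodyNum` with the end tables `H i` of the wild values as data) is `PTF`** -/
theorem ptf_bodyH {leaf : γ → St → Option ℕ} {X : γ → ℕ → ℕ → St → ℕ} {H : γ → ℕ → St → ℕ}
    {S : γ → ℕ → ℕ → St → ℕ} {k : γ → ℕ}
    (hP : PTF P) (hκ : PTU κ) (hx : PTF x) (hF : PTF (fun p : γ × St => F p.1 p.2))
    (hL : PTF (fun p : γ × St => leaf p.1 p.2))
    (hX : PTF (fun q : γ × ℕ × ℕ × St => X q.1 q.2.1 q.2.2.1 q.2.2.2))
    (hH : PTF (fun q : (γ × ℕ) × St => H q.1.1 q.1.2 q.2))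
    (hS : PTF (fun q : γ × ℕ × ℕ × St => S q.1 q.2.1 q.2.2.1 q.2.2.2))
    (hk : PTU k) :
    PTF (fun c => bodyH (P c) (leaf c) (F c) (X c) (H c) (k c) (S c) (κ c) (x c)) := by
  have hFx : PTF (fun c => F c (x c)) := ptf_at hF PTF.id hx
  have hLx : PTF (fun c => leaf c (x c)) :=
    PTF.comp (g := fun p : γ × St => leaf p.1 p.2) (f := fun c => (c, x c)) hL
      (PTF.prodMk PTF.id hx)
  have hB : PTU (fun c => nlC (P c) (F c) (κ c) (x c)) := ptu_nlC hP hκ hx hF
  have hW : PTF (fun c => wildH (P c) (F c) (H c) (κ c) (x c) (k c)) :=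
    ptf_wildH hP hκ hx hF hH hk
  have hM : PTF (fun c => modalB (P c) (F c) (X c) (H c) (k c) (S c) (κ c) (x c)
      (nlC (P c) (F c) (κ c) (x c))) :=
    ptf_modalB (B := fun c => nlC (P c) (F c) (κ c) (x c)) hP hκ hx hF hX hH hS hk hB
      (fun c => nlC_pos _ _ _ _)
  have hR : PTF (fun c => regS (P c) (F c) (κ c) (x c) (nlC (P c) (F c) (κ c) (x c))) :=
    ptf_regS (B := fun c => nlC (P c) (F c) (κ c) (x c)) hP hκ hx hF hB
  have key : PTF (fun c => if adm (P c) (F c) (κ c) (x c) = true then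
      (leaf c (x c)).elim
        (if ((P c).δi - 4) * F c (x c) ≤ (P c).δi * ((x c).v - (x c).u).natAbs then
          wildH (P c) (F c) (H c) (κ c) (x c) (k c)
        else if regS (P c) (F c) (κ c) (x c) (nlC (P c) (F c) (κ c) (x c)) ≤
            (P c).Creg * F c (x c) then
          cdiv (((P c).g - 1) * modalB (P c) (F c) (X c) (H c) (k c) (S c) (κ c) (x c)
            (nlC (P c) (F c) (κ c) (x c)) + wildH (P c) (F c) (H c) (κ c) (x c) (k c)) (P c).g
        else wildH (P c) (F c) (H c) (κ c) (x c) (k c)) (fun a => a)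
      else F c (x c)) := by
    refine PTF.ite (PTPred.iff_ptf.2 (ptf_adm hP hκ hx hF)) ?_ hFx
    refine PtX949.optionElim hLx ?_ PTF.snd
    refine PTF.ite (PTPred.natLe (PTF.natMul (PTF.natSub (ptf_δi hP) (PTF.const 4)) hFx)
      (PTF.natMul (ptf_δi hP) (PTF.intNatAbs (PTF.intSub (ptf_stV hx) (ptf_stU hx))))) hW ?_
    refine PTF.ite (PTPred.natLe hR (PTF.natMul (ptf_Creg hP) hFx)) ?_ hW
    exact ptf_cdiv (PTF.natAdd (PTF.natMul (PTF.natSub (ptf_g hP) (PTF.const 1)) hM) hW) (ptf_g hP)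
  refine key.of_eq fun c => ?_
  unfold bodyH
  cases ha : adm (P c) (F c) (κ c) (x c) with
  | false => rw [if_pos (show false = false from rfl), if_neg (show ¬ false = true by decide)]
  | true =>
    rw [if_pos (show true = true from rfl), if_neg (show ¬ true = false by decide)]
    rw [nlC_eq ha, ← modalB_eq]
    cases hl : leaf c (x c) with
    | some a => rfl
    | none =>
      show (if _ then _ else _) = _
      by_cases h1 : R1 (P c) (F c) (x c)
      · have h1' : ((P c).δi - 4) * F c (x c) ≤ (P c).δi * ((x c).v - (x c).u).natAbs := h1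
        rw [if_pos h1']
        show _ = (if R1 (P c) (F c) (x c) ∨ ¬ regular (P c) (F c) (κ c) (x c) then _ else _)
        rw [if_pos (Or.inl h1)]
      · have h1' : ¬ ((P c).δi - 4) * F c (x c) ≤ (P c).δi * ((x c).v - (x c).u).natAbs := h1
        rw [if_neg h1']
        show _ = (if R1 (P c) (F c) (x c) ∨ ¬ regular (P c) (F c) (κ c) (x c) then _ else _)
        by_cases h2 : regular (P c) (F c) (κ c) (x c)
        · rw [if_pos ((regular_iff _ _ _ _).1 h2), if_neg (by tauto)]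
        · rw [if_neg (fun h => h2 ((regular_iff _ _ _ _).2 h)), if_pos (Or.inr h2)]

/-- **`bodyNum` is `PTF`** (`hH` = certificate of the hull numbers) -/
theorem ptf_bodyNum {leaf : γ → St → Option ℕ} {X : γ → ℕ → ℕ → St → ℕ}
    {S : γ → ℕ → ℕ → St → ℕ} {k : γ → ℕ}
    (hP : PTF P) (hκ : PTU κ) (hx : PTF x) (hF : PTF (fun p : γ × St => F p.1 p.2))
    (hL : PTF (fun p : γ × St => leaf p.1 p.2))
    (hX : PTF (fun q : γ × ℕ × ℕ × St => X q.1 q.2.1 q.2.2.1 q.2.2.2))
    (hH : PTF (fun q : (γ × ℕ) × St => hull (P q.1.1) (F q.1.1) (X q.1.1 q.1.2) q.2))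
    (hS : PTF (fun q : γ × ℕ × ℕ × St => S q.1 q.2.1 q.2.2.1 q.2.2.2))
    (hk : PTU k) :
    PTF (fun c => bodyNum (P c) (leaf c) (F c) (X c) (k c) (S c) (κ c) (x c)) :=
  (ptf_bodyH (H := fun c i => hull (P c) (F c) (X c i)) hP hκ hx hF hL hX hH hS hk).of_eq
    fun _ => rfl

/-- `botNum` is `PTF` -/
theorem ptf_botNum {leaf : γ → St → Option ℕ} (hP : PTF P) (hκ : PTU κ) (hx : PTF x)
    (hF : PTF (fun p : γ × St => F p.1 p.2)) (hL : PTF (fun p : γ × St => leaf p.1 p.2)) :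
    PTF (fun c => botNum (P c) (leaf c) (F c) (κ c) (x c)) := by
  have hFx : PTF (fun c => F c (x c)) := ptf_at hF PTF.id hx
  have hLx : PTF (fun c => leaf c (x c)) :=
    PTF.comp (g := fun p : γ × St => leaf p.1 p.2) (f := fun c => (c, x c)) hL
      (PTF.prodMk PTF.id hx)
  have key : PTF (fun c => if adm (P c) (F c) (κ c) (x c) = true then
      (leaf c (x c)).elim (1 + ((x c).v - (x c).u).natAbs) (fun a => a) else F c (x c)) := by
    refine PTF.ite (PTPred.iff_ptf.2 (ptf_adm hP hκ hx hF)) ?_ hFx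
    exact PtX949.optionElim hLx (PTF.natAdd (PTF.const 1)
      (PTF.intNatAbs (PTF.intSub (ptf_stV hx) (ptf_stU hx)))) PTF.snd
  refine key.of_eq fun c => ?_
  unfold botNum
  cases ha : adm (P c) (F c) (κ c) (x c) with
  | false => rw [if_pos (show false = false from rfl), if_neg (show ¬ false = true by decide)]
  | true =>
    rw [if_pos (show true = true from rfl), if_neg (show ¬ true = false by decide)]
    cases leaf c (x c) <;> rfl

end Crest.Agent.R288.Pta569
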