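import Crest.Agent.R288.PtSt_966
import Crest.Agent.R288.PtbA_964
import Crest.Agent.R288.PtSub_964

/-!
# R288 (G3): certificates of the cell functions of AlgB_45, ALG v2 (helper964)

`hP : PTF P` (`PtSt_966`), classes `κ` unary (`PTU κ`), everything else binary.
`cu cv csz cst cidx celOf tabC rdt cellsIn menu arrNum closure numSt medMean`.
-/

set_option autoImplicit false

namespace Crest.Agent.R288.PtbC964

open Crest.Agent.Lib.PT Crest.Agent.R288.Alg45 Crest.Agent.R288.PtX949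
  Crest.Agent.R288.StPT569 Crest.Agent.R288.PtSt966 Crest.Agent.R288.PtSub964

variable {α β γ δ : Type} [PTCode α] [PTCode β] [PTCode γ] [PTCode δ]

section cells

variable {P : γ → Par} {κ : γ → ℕ}

@[fun_prop]
theorem ptu_cu (hP : PTF P) (hκ : PTU κ) : PTU (fun c => cu (P c) (κ c)) := ptu_gpt hP hκ

@[fun_prop]
theorem ptu_cv (hP : PTF P) (hκ : PTU κ) : PTU (fun c => cv (P c) (κ c)) := by
  unfold cv
  fun_prop

@[fun_prop]
theorem ptu_csz (hP : PTF P) (hκ : PTU κ) : PTU (fun c => csz (P c) (κ c)) := by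
  unfold csz
  fun_prop

@[fun_prop]
theorem ptf_cu (hP : PTF P) (hκ : PTU κ) : PTF (fun c => cu (P c) (κ c)) := (ptu_cu hP hκ).toPTF
@[fun_prop]
theorem ptf_cv (hP : PTF P) (hκ : PTU κ) : PTF (fun c => cv (P c) (κ c)) := (ptu_cv hP hκ).toPTF
@[fun_prop]
theorem ptf_csz (hP : PTF P) (hκ : PTU κ) : PTF (fun c => csz (P c) (κ c)) :=
  (ptu_csz hP hκ).toPTF

@[fun_prop]
theorem ptf_cst {x : γ → Cel} {t : γ → ℕ} (hP : PTF P) (hκ : PTU (fun c => (x c).κ)) (hx : PTF x)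
    (ht : PTF t) : PTF (fun c => cst (P c) (x c) (t c)) := by
  unfold cst
  fun_prop

@[fun_prop]
theorem ptf_cidx {x : γ → Cel} {y : γ → St} (hP : PTF P) (hκ : PTU (fun c => (x c).κ)) (hx : PTF x)
    (hy : PTF y) : PTF (fun c => cidx (P c) (x c) (y c)) := by
  unfold cidx
  fun_prop

@[fun_prop]
theorem ptf_celOf {y : γ → St} (hκ : PTU κ) (hy : PTF y) : PTF (fun c => celOf (κ c) (y c)) := by
  unfold celOf
  fun_prop

theorem ptf_tabC {x : γ → Cel} {f : γ → St → ℕ} (hP : PTF P) (hκ : PTU (fun c => (x c).κ))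
    (hx : PTF x) (hf : PTF (fun p : γ × St => f p.1 p.2)) :
    PTF (fun c => tabC (P c) (x c) (f c)) := by
  unfold tabC
  have h1 : PTF (fun p : γ × ℕ => cst (P p.1) (x p.1) p.2) := by
    have h2 : PTU (fun p : γ × ℕ => (x p.1).κ) :=
      PTU.comp (n := fun c => (x c).κ) hκ PTF.fst
    fun_prop
  have h3 : PTF (fun p : γ × ℕ => f p.1 (cst (P p.1) (x p.1) p.2)) :=
    PTF.comp (g := fun p : γ × St => f p.1 p.2)
      (f := fun p : γ × ℕ => (p.1, cst (P p.1) (x p.1) p.2)) hf (PTF.prodMk PTF.fst h1)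
  fun_prop

/-- the same, when `f` is certified only on the grid states of the cell -/
theorem ptf_tabC_mem {x : γ → Cel} {f : γ → St → ℕ} (hP : PTF P) (hκ : PTU (fun c => (x c).κ))
    (hf : PTF (fun a : {q : γ × ℕ // q.2 < csz (P q.1) (x q.1).κ} =>
      f a.1.1 (cst (P a.1.1) (x a.1.1) a.1.2))) : PTF (fun c => tabC (P c) (x c) (f c)) :=
  ptf_tab_mem (f := fun c t => f c (cst (P c) (x c) t)) (ptu_csz hP hκ) hf

@[fun_prop]
theorem ptf_rdt {x : γ → Cel} {T : γ → List ℕ} {y : γ → St} (hP : PTF P)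
    (hκ : PTU (fun c => (x c).κ)) (hx : PTF x) (hT : PTF T) (hy : PTF y) :
    PTF (fun c => rdt (P c) (x c) (T c) (y c)) := by
  unfold rdt
  fun_prop

end cells

/-! ### cells around a cell -/

section cellsIn

/-- number of cells -/
def cnC (r κ : ℕ) (m : ℤ) (κ' : ℕ) : ℕ :=
  ((m + 1 + r) * 2 ^ κ / 2 ^ κ' - (m - r) * 2 ^ κ / 2 ^ κ' + 1 : ℤ).toNat

theorem cellsIn_eq (r κ : ℕ) (m : ℤ) (κ' : ℕ) : cellsIn r κ m κ' =
    (List.range (cnC r κ m κ')).map fun t : ℕ => (m - r) * 2 ^ κ / 2 ^ κ' + (t : ℤ) := by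
  unfold cellsIn cnC
  simp only [List.pure_def, List.bind_eq_flatMap, ← List.map_eq_flatMap, List.map_map,
    Function.comp_def]

theorem length_cellsIn (r κ : ℕ) (m : ℤ) (κ' : ℕ) : (cellsIn r κ m κ').length = cnC r κ m κ' := by
  rw [cellsIn_eq]; simp

theorem ediv_sub_le (A B C : ℤ) (hC : 0 < C) : B / C - A / C ≤ (B - A) / C + 1 := by
  have h1 := Int.mul_ediv_self_le (x := B) (k := C) hC.ne'
  have h2 := Int.lt_mul_ediv_self_add (x := A) hC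
  have h3 := Int.lt_mul_ediv_self_add (x := B - A) hC
  by_contra h
  push Not at h
  have h4 : (B - A) / C + 2 ≤ B / C - A / C := by omega
  have h5 : C * ((B - A) / C + 2) ≤ C * (B / C - A / C) := mul_le_mul_of_nonneg_left h4 hC.le
  rw [mul_add, mul_sub] at h5
  omega

theorem cnC_le (r κ : ℕ) (m : ℤ) (κ' : ℕ) : cnC r κ m κ' ≤ (2 * r + 1) * 2 ^ (κ - κ') + 2 := by
  unfold cnC
  have h1 := ediv_sub_le ((m - r) * 2 ^ κ) ((m + 1 + r) * 2 ^ κ) (2 ^ κ') (by positivity)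
  have h2 : (m + 1 + r) * 2 ^ κ - (m - r) * 2 ^ κ = ((2 * r + 1 : ℕ) : ℤ) * 2 ^ κ := by
    push_cast; ring
  rw [h2] at h1
  have h3 : ((2 * r + 1 : ℕ) : ℤ) * 2 ^ κ / 2 ^ κ' ≤ ((2 * r + 1 : ℕ) : ℤ) * 2 ^ (κ - κ') := by
    refine Int.ediv_le_of_le_mul (by positivity) ?_
    have h4 : (2 : ℤ) ^ κ ≤ 2 ^ (κ - κ') * 2 ^ κ' := by
      rw [← pow_add]
      exact pow_le_pow_right₀ (by norm_num) (by omega)
    rw [mul_assoc]
    exact mul_le_mul_of_nonneg_left h4 (by positivity)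
  have h5 : (((2 * r + 1) * 2 ^ (κ - κ') + 2 : ℕ) : ℤ) =
      ((2 * r + 1 : ℕ) : ℤ) * 2 ^ (κ - κ') + 2 := by push_cast; ring
  omega

variable {r κ κ' : γ → ℕ} {m : γ → ℤ}

theorem ptf_cnC (hr : PTF r) (hκ : PTU κ) (hm : PTF m) (hκ' : PTU κ') :
    PTF (fun c => cnC (r c) (κ c) (m c) (κ' c)) := by
  unfold cnC
  fun_prop

/-- `b` = unary bound of `2 ^ (κ - κ')` -/
theorem ptu_cnC {b : γ → ℕ} (hr : PTU r) (hκ : PTU κ) (hm : PTF m) (hκ' : PTU κ') (hb : PTU b)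
    (h : ∀ c, 2 ^ (κ c - κ' c) ≤ b c) : PTU (fun c => cnC (r c) (κ c) (m c) (κ' c)) := by
  refine PtSub964.ptu_of_le (b := fun c => (2 * r c + 1) * b c + 2) (ptf_cnC hr.toPTF hκ hm hκ')
    (by fun_prop) fun c => (cnC_le _ _ _ _).trans ?_
  exact Nat.add_le_add_right (Nat.mul_le_mul_left _ (h c)) _

theorem ptf_cellsIn {b : γ → ℕ} (hr : PTU r) (hκ : PTU κ) (hm : PTF m) (hκ' : PTU κ') (hb : PTU b)
    (h : ∀ c, 2 ^ (κ c - κ' c) ≤ b c) :
    PTF (fun c => cellsIn (r c) (κ c) (m c) (κ' c)) := by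
  have h1 := ptu_cnC hr hκ hm hκ' hb h
  have h2 : PTF r := hr.toPTF
  have h3 : PTF (fun c => (List.range (cnC (r c) (κ c) (m c) (κ' c))).map fun t : ℕ =>
      (m c - r c) * 2 ^ κ c / 2 ^ κ' c + (t : ℤ)) := by
    have h4 : PTF (fun c => (m c - r c) * 2 ^ κ c / 2 ^ κ' c) := by fun_prop
    refine PTF.map (l := fun c => List.range (cnC (r c) (κ c) (m c) (κ' c)))
      (f := fun c (t : ℕ) => (m c - r c) * 2 ^ κ c / 2 ^ κ' c + (t : ℤ)) (PTF.range h1) ?_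
    exact PTF.intAdd (PTF.comp h4 PTF.fst) (PTF.intNatCast PTF.snd)
  exact h3.of_eq fun c => (cellsIn_eq _ _ _ _).symm

end cellsIn

/-! ### menus -/

section menu

/-- the menu with natural indices -/
def menuN (P : Par) (κ' ρ : ℕ) (y : St) : List St :=
  (List.range (2 * (ρ / gst P κ') + 3)).flatMap fun a : ℕ =>
    (List.range (2 * (ρ / gst P κ') + 3)).map fun b : ℕ =>
      St.mk y.i y.j
        (clp P (rd P κ' y.u + ((a : ℤ) - (ρ / gst P κ' + 1 : ℕ)) * (gst P κ' : ℤ)))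
        (clp P (rd P κ' y.v + ((b : ℤ) - (ρ / gst P κ' + 1 : ℕ)) * (gst P κ' : ℤ)))

theorem menu_eq (P : Par) (κ' ρ : ℕ) (y : St) : menu P κ' ρ y = menuN P κ' ρ y := by
  unfold menu menuN
  simp only [List.pure_def, List.bind_eq_flatMap, ← List.map_eq_flatMap, List.map_map,
    List.flatMap_map, Function.comp_def]

variable {P : γ → Par}

theorem ptf_menu {κ' ρ : γ → ℕ} {y : γ → St} {b : γ → ℕ} (hP : PTF P) (hκ' : PTU κ') (hρ : PTF ρ)
    (hy : PTF y) (hb : PTU b) (h : ∀ c, ρ c / gst (P c) (κ' c) ≤ b c) :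
    PTF (fun c => menu (P c) (κ' c) (ρ c) (y c)) := by
  refine PTF.of_eq (f := fun c => menuN (P c) (κ' c) (ρ c) (y c)) ?_ fun c => (menu_eq _ _ _ _).symm
  have hg : PTF (fun c => gst (P c) (κ' c)) := ptf_gst hP hκ'
  have h1 : PTU (fun c => ρ c / gst (P c) (κ' c)) := PtSub964.ptu_of_le (by fun_prop) hb h
  unfold menuN
  refine PTF.flatMap (l := fun c => List.range (2 * (ρ c / gst (P c) (κ' c)) + 3))
    (f := fun c (a : ℕ) => (List.range (2 * (ρ c / gst (P c) (κ' c)) + 3)).map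
      fun b : ℕ => St.mk (y c).i (y c).j
        (clp (P c) (rd (P c) (κ' c) (y c).u + ((a : ℤ) - (ρ c / gst (P c) (κ' c) + 1 : ℕ)) *
          (gst (P c) (κ' c) : ℤ)))
        (clp (P c) (rd (P c) (κ' c) (y c).v + ((b : ℤ) - (ρ c / gst (P c) (κ' c) + 1 : ℕ)) *
          (gst (P c) (κ' c) : ℤ)))) (by fun_prop) ?_
  have h2 : PTU (fun q : γ × ℕ => ρ q.1 / gst (P q.1) (κ' q.1)) :=
    PTU.comp (n := fun c => ρ c / gst (P c) (κ' c)) h1 PTF.fst
  refine PTF.map (l := fun q : γ × ℕ => List.range (2 * (ρ q.1 / gst (P q.1) (κ' q.1)) + 3))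
    (f := fun q (b : ℕ) => St.mk (y q.1).i (y q.1).j
        (clp (P q.1) (rd (P q.1) (κ' q.1) (y q.1).u +
          ((q.2 : ℤ) - (ρ q.1 / gst (P q.1) (κ' q.1) + 1 : ℕ)) * (gst (P q.1) (κ' q.1) : ℤ)))
        (clp (P q.1) (rd (P q.1) (κ' q.1) (y q.1).v +
          ((b : ℤ) - (ρ q.1 / gst (P q.1) (κ' q.1) + 1 : ℕ)) * (gst (P q.1) (κ' q.1) : ℤ))))
    (by fun_prop) ?_
  have h3 : PTF (fun p : (γ × ℕ) × ℕ => gst (P p.1.1) (κ' p.1.1)) :=
    PTF.comp (g := fun c => gst (P c) (κ' c)) (f := fun p : (γ × ℕ) × ℕ => p.1.1) hg (by fun_prop)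
  have h4 : PTF (fun p : (γ × ℕ) × ℕ => ρ p.1.1) := PTF.comp hρ (by fun_prop)
  have h5 : PTF (fun p : (γ × ℕ) × ℕ => y p.1.1) := PTF.comp hy (by fun_prop)
  have h9 : PTF (fun p : (γ × ℕ) × ℕ => P p.1.1) := PTF.comp hP (by fun_prop)
  have h6 : PTF (fun p : (γ × ℕ) × ℕ => rd (P p.1.1) (κ' p.1.1) (y p.1.1).u) :=
    PTF.comp (g := fun c => rd (P c) (κ' c) (y c).u) (ptf_rd hP hκ' (ptf_stU hy)) (by fun_prop)
  have h7 : PTF (fun p : (γ × ℕ) × ℕ => rd (P p.1.1) (κ' p.1.1) (y p.1.1).v) :=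
    PTF.comp (g := fun c => rd (P c) (κ' c) (y c).v) (ptf_rd hP hκ' (ptf_stV hy)) (by fun_prop)
  have h8 : PTF (fun p : (γ × ℕ) × ℕ =>
      ((ρ p.1.1 / gst (P p.1.1) (κ' p.1.1) + 1 : ℕ) : ℤ)) :=
    PTF.intNatCast (PTF.natAdd (PTF.natDiv h4 h3) (PTF.const 1))
  refine ptf_stMk (ptf_stI h5) (ptf_stJ h5) (ptf_clp h9 ?_) (ptf_clp h9 ?_)
  · exact PTF.intAdd h6 (PTF.intMul (PTF.intSub (by fun_prop) h8) (PTF.intNatCast h3))
  · exact PTF.intAdd h7 (PTF.intMul (PTF.intSub (by fun_prop) h8) (PTF.intNatCast h3))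

/-- members of a menu stay in the block -/
theorem menu_ij {P : Par} {κ' ρ : ℕ} {y z : St} (h : z ∈ menu P κ' ρ y) : z.i = y.i ∧ z.j = y.j := by
  rw [menu_eq] at h
  obtain ⟨a, -, h⟩ := List.mem_flatMap.1 h
  obtain ⟨b, -, rfl⟩ := List.mem_map.1 h
  exact ⟨rfl, rfl⟩

end menu

/-! ### median of means -/

section med

theorem ptf_medMean {G M : γ → ℕ} {x : γ → ℕ → ℕ → ℕ} (hG : PTU G) (hM : PTU M)
    (hx : PTF (fun p : γ × ℕ × ℕ => x p.1 p.2.1 p.2.2)) :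
    PTF (fun c => medMean (G c) (M c) (x c)) := by
  unfold medMean
  refine Ptb964.ptf_med (PTF.map (f := fun c a => sumR (M c) (x c a) / M c) (PTF.range hG) ?_)
  have h1 : PTU (fun q : γ × ℕ => M q.1) := PTU.comp hM PTF.fst
  refine PTF.natDiv (ptf_sumR (n := fun q : γ × ℕ => M q.1) (f := fun q b => x q.1 q.2 b) h1 ?_)
    h1.toPTF
  exact PTF.comp (g := fun p : γ × ℕ × ℕ => x p.1 p.2.1 p.2.2)
    (f := fun p : (γ × ℕ) × ℕ => (p.1.1, p.1.2, p.2)) hx (by fun_prop)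

end med

end Crest.Agent.R288.PtbC964
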