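import Crest.Agent.R288.PtbD_964
import Crest.Agent.R288.PgY_583

/-!
# R288 [PROG.P4]: certificates of the texts of the procedures X, F, H (helper964)

The literal names of `PgX_583` and `PgY_583`. Hypotheses: `hP : PTF P`, everything `PTF`, the class
`PTU`.

* `ptf_admV`, `ptf_hprs`, `ptf_hullV`, `ptf_harg`, `ptf_HK`, `ptf_hkeys`, `ptf_hmean`, `ptf_hfin`,
  `ptf_rks`, `ptf_xfin`;
* `ptf_ent`, `ptf_arS`, `ptf_arC`, `ptf_zOf`, `ptf_qU`, `ptf_qX`, `ptf_qF`, `ptf_qH`, `ptf_qA`,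
  `ptf_qB`, `ptf_ans`;
* `ptf_phX`, `ptf_phG`, `ptf_phF`, `ptf_phH`.
-/

set_option autoImplicit false

namespace Crest.Agent.R288.PtbE964

open Crest.Agent.Lib.PT Crest.Agent.R288.Alg45 Crest.Agent.R288.PtX949
  Crest.Agent.R288.StPT569 Crest.Agent.R288.PtSt966 Crest.Agent.R288.PtSub964
  Crest.Agent.R288.PtbC964 Crest.Agent.R288.PtbD964 Crest.Agent.R288.Delta222
  Crest.Agent.R288.PgX583 Crest.Agent.R288.PgY583
  Crest.Agent.R295.Pt949 Crest.Agent.R288.PtY949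

variable {α β γ δ : Type} [PTCode α] [PTCode β] [PTCode γ] [PTCode δ]

/-! ### PgX_583 -/

section px

variable {P : γ → Par}

theorem ptf_admV {Fz κ : γ → ℕ} {z : γ → St} (hP : PTF P) (hF : PTF Fz) (hκ : PTU κ)
    (hz : PTF z) : PTF (fun c => admV (P c) (Fz c) (κ c) (z c)) :=
  ptf_adm (F := fun c _ => Fz c) hP hF hκ hz

@[fun_prop]
theorem ptf_hprs {Fy : γ → ℕ} {y : γ → St} (hP : PTF P) (hF : PTF Fy) (hy : PTF y) :
    PTF (fun c => hprs (P c) (Fy c) (y c)) :=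
  ptf_hullPairs hP hF hy

theorem ptf_hullV {Fy : γ → ℕ} {y : γ → St} {f : γ → ℕ × St → ℕ} (hP : PTF P) (hF : PTF Fy)
    (hy : PTF y) (hf : PTF (fun q : γ × (ℕ × St) => f q.1 q.2)) :
    PTF (fun c => hullV (P c) (Fy c) (y c) (f c)) := by
  unfold hullV
  refine ptf_lmin hF (PTF.map (f := fun c (p : ℕ × St) => dist (y c) p.2 + f c p)
    (ptf_hprs hP hF hy) ?_)
  exact PTF.natAdd (ptf_dist (PTF.comp hy PTF.fst) (by fun_prop)) hf

@[fun_prop]
theorem ptf_harg {l : γ → ℕ} {p : γ → ℕ × St} (hl : PTF l) (hp : PTF p) :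
    PTF (fun c => harg (l c) (p c)) := by
  unfold harg
  fun_prop

@[fun_prop]
theorem ptf_HK {ls : γ → List ℕ} {p : γ → ℕ × St} (hl : PTF ls) (hp : PTF p) :
    PTF (fun c => HK (ls c) (p c)) := by
  unfold HK
  fun_prop

@[fun_prop]
theorem ptf_hkeys {Fy : γ → ℕ} {y : γ → St} {ls : γ → List ℕ} (hP : PTF P) (hF : PTF Fy)
    (hy : PTF y) (hl : PTF ls) : PTF (fun c => hkeys (P c) (Fy c) (y c) (ls c)) := by
  unfold hkeys
  exact PTF.flatMap (f := fun c p => HK (ls c) p) (ptf_hprs hP hF hy)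
    (ptf_HK (PTF.comp hl PTF.fst) PTF.snd)

@[fun_prop]
theorem ptf_hmean {ls : γ → List ℕ} {T : γ → List ((ℕ × ℕ × St) × ℕ)} {p : γ → ℕ × St}
    (hl : PTF ls) (hT : PTF T) (hp : PTF p) : PTF (fun c => hmean (ls c) (T c) (p c)) := by
  unfold hmean
  refine ptf_cdiv ?_ (by fun_prop)
  refine PTF.natListSum (PTF.map (f := fun c (k : ℕ × ℕ × St) => asc (T c) k 0) (ptf_HK hl hp) ?_)
  exact ptf_asc (T := fun q : γ × (ℕ × ℕ × St) => T q.1) (PTF.comp hT PTF.fst) PTF.snd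
    (PTF.const 0)

@[fun_prop]
theorem ptf_hfin {Fy : γ → ℕ} {y : γ → St} {ls r : γ → List ℕ} (hP : PTF P) (hF : PTF Fy)
    (hy : PTF y) (hl : PTF ls) (hr : PTF r) :
    PTF (fun c => hfin (P c) (Fy c) (y c) (ls c) (r c)) := by
  unfold hfin
  refine ptf_hullV (f := fun c => hmean (ls c) ((hkeys (P c) (Fy c) (y c) (ls c)).zip (r c)))
    hP hF hy ?_
  have h : PTF (fun c => (hkeys (P c) (Fy c) (y c) (ls c)).zip (r c)) :=
    PTF.zip (ptf_hkeys hP hF hy hl) hr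
  exact ptf_hmean (PTF.comp hl PTF.fst) (PTF.comp h PTF.fst) PTF.snd

@[fun_prop]
theorem ptf_rks {e : γ → ℕ} (hP : PTF P) (he : PTF e) : PTF (fun c => rks (P c) (e c)) := by
  unfold rks idx
  refine PTF.map (f := fun c i => 1 + e c * (P c).K + i) (PTF.range (ptu_K hP)) ?_
  have h : PTF (fun q : γ × ℕ => (P q.1).K) := PTF.comp (g := fun c => (P c).K) (ptf_K hP) PTF.fst
  exact PTF.natAdd (PTF.natAdd (PTF.const 1) (PTF.natMul (PTF.comp he PTF.fst) h)) PTF.snd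

theorem ptf_xfin {κ : γ → ℕ} {z : γ → St} {res : γ → List (List ℕ)} (hP : PTF P) (hκ : PTU κ)
    (hz : PTF z) (hr : PTF res) : PTF (fun c => xfin (P c) (κ c) (z c) (res c)) := by
  have h : PTF (fun c => (res c).map fun T => rdt (P c) (celOf (κ c) (z c)) T (z c)) := by
    refine PTF.map (f := fun c T => rdt (P c) (celOf (κ c) (z c)) T (z c)) hr ?_
    have hκ' : PTU (fun q : γ × List ℕ => (celOf (κ q.1) (z q.1)).κ) :=
      PTU.comp (n := κ) hκ PTF.fst
    refine ptf_rdt (P := fun q : γ × List ℕ => P q.1) (x := fun q => celOf (κ q.1) (z q.1))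
      (PTF.comp hP PTF.fst) hκ' ?_ PTF.snd (PTF.comp hz PTF.fst)
    exact PTF.comp (g := fun c => celOf (κ c) (z c)) (ptf_celOf hκ hz) PTF.fst
  exact ptf_numFin hP hκ h

end px

/-! ### PgY_583 -/

section py

variable {P : γ → Par}

@[fun_prop]
theorem ptf_ent {tg : γ → ℕ} {ar : γ → Ar} (ht : PTF tg) (ha : PTF ar) :
    PTF (fun c => ent (tg c) (ar c)) := by
  unfold ent
  fun_prop

@[fun_prop]
theorem ptf_arS {a k : γ → ℕ} {y : γ → St} (ha : PTF a) (hk : PTF k) (hy : PTF y) :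
    PTF (fun c => arS (a c) (k c) (y c)) := by
  unfold arS
  fun_prop

@[fun_prop]
theorem ptf_arC {a : γ → ℕ} {x : γ → Cel} (ha : PTF a) (hx : PTF x) :
    PTF (fun c => arC (a c) (x c)) := by
  unfold arC
  fun_prop

@[fun_prop]
theorem ptf_zOf {ar : γ → Ar} (ha : PTF ar) : PTF (fun c => zOf (ar c)) := by
  unfold zOf
  fun_prop

@[fun_prop]
theorem ptf_qU {y : γ → St} (hy : PTF y) : PTF (fun c => qU (y c)) := by
  unfold qU
  fun_prop

@[fun_prop]
theorem ptf_qX {l κ : γ → ℕ} {z : γ → St} (hl : PTF l) (hκ : PTF κ) (hz : PTF z) :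
    PTF (fun c => qX (l c) (κ c) (z c)) := by
  unfold qX
  fun_prop

@[fun_prop]
theorem ptf_qF {e : γ → ℕ} {y : γ → St} (he : PTF e) (hy : PTF y) :
    PTF (fun c => qF (e c) (y c)) := by
  unfold qF
  fun_prop

@[fun_prop]
theorem ptf_qH {l : γ → ℕ} {y : γ → St} (hl : PTF l) (hy : PTF y) :
    PTF (fun c => qH (l c) (y c)) := by
  unfold qH
  fun_prop

@[fun_prop]
theorem ptf_qA {l : γ → ℕ} {x : γ → Cel} (hl : PTF l) (hx : PTF x) :
    PTF (fun c => qA (l c) (x c)) := by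
  unfold qA
  fun_prop

@[fun_prop]
theorem ptf_qB {l : γ → ℕ} {x : γ → Cel} (hl : PTF l) (hx : PTF x) :
    PTF (fun c => qB (l c) (x c)) := by
  unfold qB
  fun_prop

@[fun_prop]
theorem ptf_ans {sv : γ → Svd} {p : γ → ℕ} (hs : PTF sv) (hp : PTF p) :
    PTF (fun c => ans (sv c) (p c)) := by
  unfold ans
  have h : PTF (fun c => (sv c).getD (p c) []) := PtX949.getD hp hs (PTF.const [])
  fun_prop

/-- **the text of X**: the class of the arguments must be unary -/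
theorem ptf_phX {ar : γ → Ar} {sv : γ → Svd} (hP : PTF P) (ha : PTF ar)
    (hκ : PTU (fun c => (ar c).2.1)) (hs : PTF sv) :
    PTF (fun c => phX (P c) (ar c) (sv c)) := by
  unfold phX
  have hz : PTF (fun c => zOf (ar c)) := ptf_zOf ha
  have h0 : PTF (fun c => ans (sv c) 0) := ptf_ans hs (PTF.const 0)
  have hl : PTF (fun c => (sv c).length) := by fun_prop
  have hl0 : PTPred (fun c => (sv c).length = 0) := PTPred.eq hl (PTF.const 0)
  have hl1 : PTPred (fun c => (sv c).length = 1) := PTPred.eq hl (PTF.const 1)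
  have hv : PTF (fun c => admV (P c) (ans (sv c) 0) (ar c).2.1 (zOf (ar c))) :=
    ptf_admV hP h0 hκ hz
  have hv' : PTPred (fun c => admV (P c) (ans (sv c) 0) (ar c).2.1 (zOf (ar c)) = false) :=
    PTPred.eq hv (PTF.const false)
  have hc : PTF (fun c => celOf (ar c).2.1 (zOf (ar c))) := ptf_celOf hκ hz
  have hx : PTF (fun c => xfin (P c) (ar c).2.1 (zOf (ar c)) ((sv c).getD 1 [])) :=
    ptf_xfin hP hκ hz (PtX949.getD (PTF.const 1) hs (PTF.const []))
  have hn : PTU (fun c => (P c).gX * (P c).mX) := PTU.mul (ptu_gX hP) (ptu_mX hP)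
  have hr : PTF (fun c => List.replicate ((P c).gX * (P c).mX)
      (qA (ar c).1 (celOf (ar c).2.1 (zOf (ar c))))) :=
    PTF.replicate hn (ptf_qA (PTF.comp (g := fun a : Ar => a.1) PTF.fst ha) hc)
  have hd : PTF (fun c => qF (((ar c).1 - 1) / (P c).K) (zOf (ar c))) :=
    ptf_qF (PTF.natDiv (PTF.natSub (PTF.comp (g := fun a : Ar => a.1) PTF.fst ha) (PTF.const 1))
      (ptf_K hP)) hz
  refine PTF.ite hl0 (PTF.inr ?_) (PTF.ite hl1 (PTF.ite hv' (PTF.inl ?_) (PTF.inr hr))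
    (PTF.inl ?_))
  · fun_prop
  · fun_prop
  · fun_prop

theorem ptf_phG {q0 : γ → List ℕ} {ls : γ → List ℕ} {y : γ → St} {sv : γ → Svd} (hP : PTF P)
    (hq : PTF q0) (hl : PTF ls) (hy : PTF y) (hs : PTF sv) :
    PTF (fun c => phG (P c) (q0 c) (ls c) (y c) (sv c)) := by
  unfold phG
  have h0 : PTF (fun c => ans (sv c) 0) := ptf_ans hs (PTF.const 0)
  have hn : PTF (fun c => (sv c).length) := by fun_prop
  have hl0 : PTPred (fun c => (sv c).length = 0) := PTPred.eq hn (PTF.const 0)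
  have hl1 : PTPred (fun c => (sv c).length = 1) := PTPred.eq hn (PTF.const 1)
  have hk : PTF (fun c => hkeys (P c) (ans (sv c) 0) (y c) (ls c)) := ptf_hkeys hP h0 hy hl
  have hg : PTF (fun c => (sv c).getD 1 []) := PtX949.getD (PTF.const 1) hs (PTF.const [])
  have hh : PTF (fun q : γ × List ℕ => q.2.headD 0) := by fun_prop
  have hf : PTF (fun c => hfin (P c) (ans (sv c) 0) (y c) (ls c)
      (((sv c).getD 1 []).map fun r => r.headD 0)) :=
    ptf_hfin hP h0 hy hl (PTF.map (f := fun _ (r : List ℕ) => r.headD 0) hg hh)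
  have hm : PTF (fun c => (hkeys (P c) (ans (sv c) 0) (y c) (ls c)).map fun k =>
      qX k.1 k.2.1 k.2.2) :=
    PTF.map (f := fun _ (k : ℕ × ℕ × St) => qX k.1 k.2.1 k.2.2) hk
      (ptf_qX (by fun_prop) (by fun_prop) (by fun_prop))
  have hq1 : PTF (fun c => [q0 c]) := PTF.listCons hq (PTF.const [])
  have hf1 : PTF (fun c => [hfin (P c) (ans (sv c) 0) (y c) (ls c)
      (((sv c).getD 1 []).map fun r => r.headD 0)]) := PTF.listCons hf (PTF.const [])
  exact PTF.ite hl0 (PTF.inr hq1) (PTF.ite hl1 (PTF.inr hm) (PTF.inl hf1))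

/-- **the text of F** -/
theorem ptf_phF {ar : γ → Ar} {sv : γ → Svd} (hP : PTF P) (ha : PTF ar) (hs : PTF sv) :
    PTF (fun c => phF (P c) (ar c) (sv c)) := by
  unfold phF
  have hz : PTF (fun c => zOf (ar c)) := ptf_zOf ha
  have h1 : PTF (fun c => (ar c).1) := PTF.comp (g := fun a : Ar => a.1) PTF.fst ha
  have hp : PTPred (fun c => (ar c).1 = 0) := PTPred.eq h1 (PTF.const 0)
  have h2 : PTF (fun c => (ar c).1 - 1) := PTF.natSub h1 (PTF.const 1)
  refine ptf_phG hP (PTF.ite hp (ptf_qX (PTF.const 0) (PTF.const 0) hz) (ptf_qF h2 hz))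
    (PTF.ite hp (PTF.const [0]) (ptf_rks hP h2)) hz hs

/-- **the text of H** -/
theorem ptf_phH {ar : γ → Ar} {sv : γ → Svd} (hP : PTF P) (ha : PTF ar) (hs : PTF sv) :
    PTF (fun c => phH (P c) (ar c) (sv c)) := by
  unfold phH
  have hz : PTF (fun c => zOf (ar c)) := ptf_zOf ha
  have h1 : PTF (fun c => (ar c).1) := PTF.comp (g := fun a : Ar => a.1) PTF.fst ha
  refine ptf_phG hP (ptf_qF (PTF.natDiv (PTF.natSub h1 (PTF.const 1)) (ptf_K hP)) hz) ?_ hz hs
  fun_prop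

end py

end Crest.Agent.R288.PtbE964
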