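import Crest.Agent.R288.Ptw_641

/-!
# R288: pointwise epoch inequality in the form of ALG-U (directive 288-U; helper641)

As `Ptw641.Epoch`, with
* leaves (macro height `0`): only `R ≤ G` and `G ≤ F ≤ B1 G` (nothing asked of `F` at leaves, #4686);
* defect of `F`: `F(x) ≤ ∑ F(y_j) + κν F(x) + κd Sv(x)`, `Sv` = the previous unit function (`F3'` of #4628);
* two bounds `F ≤ B1 G`, `Sv ≤ B2 G`;
* `defect_of_mul` : the multiplicative form `F ≤ (1+ν)(∑ F + η Sv)` gives it.

`EpochU.main`, `EpochU.le : R ≤ (a + κ1 B1 + κ2 B2) G`, `chain2` (two-step recursion of the ratios).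
-/

set_option autoImplicit false

namespace Crest.Agent.R288.Ptw641

open Finset

universe u v

/-- multiplicative form of the defect -/
theorem defect_of_mul {Fx s Sx ν η : ℝ} (hν : 0 ≤ ν) (hF : 0 ≤ Fx) (h : Fx ≤ (1 + ν) * (s + η * Sx)) :
    Fx ≤ s + ν * Fx + η * Sx := by
  have h1 : 0 < 1 + ν := by linarith
  have h2 : Fx / (1 + ν) ≤ s + η * Sx := by
    rw [div_le_iff₀ h1]
    linarith
  have h3 : (1 - ν) * Fx ≤ Fx / (1 + ν) := by
    rw [le_div_iff₀ h1]
    nlinarith [mul_nonneg (mul_nonneg hν hν) hF]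
  linarith

section epoch

variable {S : ℕ → Type u} {M : ∀ h, S (h + 1) → Type v}

/-- What one epoch of the play gives, ALG-U form (all constants relative to `F`). -/
structure EpochU (pc : ∀ h (x : S (h + 1)), M h x → List (S h)) (Ok : ∀ h, S h → Prop)
    (e G Sv F R : ∀ h, S h → ℝ) (B1 B2 b δ lam η κν κd k1 kK κ0 c0 : ℝ) : Prop where
  ok : ∀ h x m, Ok (h + 1) x → ∀ y ∈ pc h x m, Ok h y
  e_sum : ∀ h x m, Ok (h + 1) x → ((pc h x m).map (e h)).sum = e (h + 1) x
  eG : ∀ h x, Ok h x → |e h x| ≤ G h x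
  GF : ∀ h x, Ok h x → G h x ≤ F h x
  FB : ∀ h x, Ok h x → F h x ≤ B1 * G h x
  SB : ∀ h x, Ok (h + 1) x → Sv (h + 1) x ≤ B2 * G (h + 1) x
  Sv0 : ∀ h x, Ok (h + 1) x → 0 ≤ Sv (h + 1) x
  F3 : ∀ h x m, Ok (h + 1) x →
    F (h + 1) x ≤ ((pc h x m).map (F h)).sum + κν * F (h + 1) x + κd * Sv (h + 1) x
  RF : ∀ h x, Ok (h + 1) x → R (h + 1) x ≤ (1 + b) * F (h + 1) x
  leaf : ∀ x, Ok 0 x → R 0 x ≤ G 0 x
  opt : ∀ h x, Ok (h + 1) x → |e (h + 1) x| ≤ (1 - 4 * δ) * F (h + 1) x →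
    ∃ m, ((pc h x m).map (G h)).sum ≤ G (h + 1) x + η * F (h + 1) x ∧
      (R (h + 1) x ≤ ((pc h x m).map (R h)).sum + κ0 * F (h + 1) x ∨
      (c0 * F (h + 1) x ≤ En (pc h x m) (e h) (F h) (e (h + 1) x / F (h + 1) x)
          + max (((pc h x m).map (F h)).sum - F (h + 1) x) 0 ∧
        R (h + 1) x ≤ ((pc h x m).map (R h)).sum + k1 * F (h + 1) x
          + kK * ((pc h x m).map (F h)).sum))
  hB1 : 0 ≤ B1
  hB2 : 0 ≤ B2
  hb : 0 ≤ b
  hδ : 0 ≤ δ
  hδ' : δ ≤ 1 / 20
  hη : 0 ≤ η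
  hκν : 0 ≤ κν
  hκd : 0 ≤ κd
  hκ0 : 0 ≤ κ0
  hkK : 0 ≤ kK
  hlam : kK ≤ lam
  hc : k1 + kK ≤ (lam - kK) * c0

variable {pc : ∀ h (x : S (h + 1)), M h x → List (S h)} {Ok : ∀ h, S h → Prop}
  {e G Sv F R : ∀ h, S h → ℝ} {B1 B2 b δ lam η κν κd k1 kK κ0 c0 : ℝ}

/-- **The epoch theorem of ALG-U**, pointwise. -/
theorem EpochU.main (E : EpochU pc Ok e G Sv F R B1 B2 b δ lam η κν κd k1 kK κ0 c0) :
    ∀ h x, Ok h x → R h x + lam * pot (e h x) (F h x)
      ≤ (1 + η * B1) ^ h * (((1 + b + 3 * lam) * (1 + 5 * δ) + 3 * lam * B1)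
          + ((κ0 + 2 * lam * κν) * B1 + 2 * lam * κd * B2) * h) * G h x := by
  have hl : 0 ≤ lam := E.hkK.trans E.hlam
  have hB1 := E.hB1
  have hB2 := E.hB2
  have hb := E.hb
  have hδ := E.hδ
  have hη := E.hη
  have hκν := E.hκν
  have hκd := E.hκd
  have hκ0 := E.hκ0
  have hηB : 0 ≤ η * B1 := mul_nonneg hη hB1
  have hc1 : 1 ≤ (1 + b + 3 * lam) * (1 + 5 * δ) := by nlinarith [mul_nonneg hl hδ, mul_nonneg hb hδ]
  have hc3 : 0 ≤ 3 * lam * B1 := by positivity
  have hκ : 0 ≤ (κ0 + 2 * lam * κν) * B1 + 2 * lam * κd * B2 := by positivity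
  have hG0 : ∀ h x, Ok h x → 0 ≤ G h x := fun h x hx => (abs_nonneg _).trans (E.eG h x hx)
  have hF0 : ∀ h x, Ok h x → 0 ≤ F h x := fun h x hx => (hG0 h x hx).trans (E.GF h x hx)
  have heF : ∀ h x, Ok h x → |e h x| ≤ F h x := fun h x hx => (E.eG h x hx).trans (E.GF h x hx)
  -- the constants only grow
  have grow : ∀ h x, Ok h x → ((1 + b + 3 * lam) * (1 + 5 * δ) + 3 * lam * B1) * G h x
      ≤ (1 + η * B1) ^ h * (((1 + b + 3 * lam) * (1 + 5 * δ) + 3 * lam * B1)
          + ((κ0 + 2 * lam * κν) * B1 + 2 * lam * κd * B2) * h) * G h x := by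
    intro h x hx
    refine mul_le_mul_of_nonneg_right ?_ (hG0 h x hx)
    have h5 : 1 ≤ (1 + η * B1) ^ h := one_le_pow₀ (by linarith)
    have h6 : 0 ≤ ((κ0 + 2 * lam * κν) * B1 + 2 * lam * κd * B2) * h := by positivity
    nlinarith
  intro h
  induction h with
  | zero =>
    intro x hx
    refine le_trans ?_ (grow 0 x hx)
    have h1 := E.leaf x hx
    have h2 := pot_le (heF 0 x hx)
    have h3 := E.FB 0 x hx
    have h4 : lam * pot (e 0 x) (F 0 x) ≤ 3 * lam * B1 * G 0 x := by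
      have := mul_le_mul_of_nonneg_left h2 hl
      have h5 := mul_le_mul_of_nonneg_left h3 hl
      nlinarith
    have h6 := mul_le_mul_of_nonneg_right hc1 (hG0 0 x hx)
    nlinarith
  | succ h ih =>
    intro x hx
    by_cases hret : |e (h + 1) x| ≤ (1 - 4 * δ) * F (h + 1) x
    · obtain ⟨m, hm, hwin⟩ := E.opt h x hx hret
      have hok := E.ok h x m hx
      set l := pc h x m with hl'
      have hpf : ∀ y ∈ l, |e h y| ≤ F h y := fun y hy => heF h y (hok y hy)
      have hSv0 : 0 ≤ Sv (h + 1) x := E.Sv0 h x hx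
      have hFx := hF0 _ x hx
      have hd0 : 0 ≤ κν * F (h + 1) x + κd * Sv (h + 1) x := by positivity
      have hps := pot_step l (e h) (F h) hpf (heF _ x hx) (E.e_sum h x m hx) hd0
        (by have := E.F3 h x m hx; linarith)
      have hEn : 0 ≤ En l (e h) (F h) (e (h + 1) x / F (h + 1) x) :=
        En_nonneg l _ _ _ fun y hy => (abs_nonneg _).trans (hpf y hy)
      set q := max ((l.map (F h)).sum - F (h + 1) x) 0 with hq
      have hq0 : 0 ≤ q := le_max_right _ _
      have hqF : (l.map (F h)).sum ≤ F (h + 1) x + q := by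
        have : (l.map (F h)).sum - F (h + 1) x ≤ q := le_max_left _ _
        linarith
      -- one window
      have hstep : R (h + 1) x + lam * pot (e (h + 1) x) (F (h + 1) x)
          ≤ (l.map fun y => R h y + lam * pot (e h y) (F h y)).sum
            + ((κ0 + 2 * lam * κν) * F (h + 1) x + 2 * lam * κd * Sv (h + 1) x) := by
        rw [list_sum_add, list_sum_mul]
        have hpm := mul_le_mul_of_nonneg_left hps hl
        rcases hwin with hn | ⟨hfar, hR⟩
        · have h2 : 0 ≤ lam * En l (e h) (F h) (e (h + 1) x / F (h + 1) x) := mul_nonneg hl hEn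
          have h3 : 0 ≤ lam * q := mul_nonneg hl hq0
          linarith
        · have h1 : (k1 + kK) * F (h + 1) x ≤ (lam - kK) * c0 * F (h + 1) x :=
            mul_le_mul_of_nonneg_right E.hc hFx
          have h2 : (lam - kK) * (c0 * F (h + 1) x) ≤ (lam - kK) *
              (En l (e h) (F h) (e (h + 1) x / F (h + 1) x) + q) :=
            mul_le_mul_of_nonneg_left hfar (by linarith [E.hlam])
          have h3 : kK * (l.map (F h)).sum ≤ kK * (F (h + 1) x + q) :=
            mul_le_mul_of_nonneg_left hqF E.hkK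
          have h4 : 0 ≤ kK * En l (e h) (F h) (e (h + 1) x / F (h + 1) x) :=
            mul_nonneg E.hkK hEn
          have h5 : 0 ≤ κ0 * F (h + 1) x := mul_nonneg hκ0 hFx
          linarith
      -- induction hypothesis
      set c := ((1 + b + 3 * lam) * (1 + 5 * δ) + 3 * lam * B1)
          + ((κ0 + 2 * lam * κν) * B1 + 2 * lam * κd * B2) * h with hcdef
      have hc0 : 0 ≤ c := by
        have h6 : 0 ≤ ((κ0 + 2 * lam * κν) * B1 + 2 * lam * κd * B2) * h := by positivity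
        linarith
      have hp : 1 ≤ (1 + η * B1) ^ h := one_le_pow₀ (by linarith)
      have hsum : (l.map fun y => R h y + lam * pot (e h y) (F h y)).sum
          ≤ (1 + η * B1) ^ h * c * (l.map (G h)).sum := by
        rw [← list_sum_mul]
        exact list_sum_le l _ _ fun y hy => ih y (hok y hy)
      have hG := hG0 _ x hx
      have hFB := E.FB _ x hx
      have hSB := E.SB h x hx
      have hsG : (l.map (G h)).sum ≤ (1 + η * B1) * G (h + 1) x := by
        have : η * F (h + 1) x ≤ η * (B1 * G (h + 1) x) := mul_le_mul_of_nonneg_left hFB hη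
        linarith
      have h7 : (1 + η * B1) ^ h * c * (l.map (G h)).sum
          ≤ (1 + η * B1) ^ (h + 1) * c * G (h + 1) x := by
        have h8 : 0 ≤ (1 + η * B1) ^ h * c := mul_nonneg (by linarith) hc0
        calc (1 + η * B1) ^ h * c * (l.map (G h)).sum
            ≤ (1 + η * B1) ^ h * c * ((1 + η * B1) * G (h + 1) x) :=
              mul_le_mul_of_nonneg_left hsG h8
          _ = _ := by ring
      have h9 : (κ0 + 2 * lam * κν) * F (h + 1) x + 2 * lam * κd * Sv (h + 1) x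
          ≤ (1 + η * B1) ^ (h + 1) * ((κ0 + 2 * lam * κν) * B1 + 2 * lam * κd * B2)
            * G (h + 1) x := by
        have h10 : (κ0 + 2 * lam * κν) * F (h + 1) x
            ≤ (κ0 + 2 * lam * κν) * (B1 * G (h + 1) x) :=
          mul_le_mul_of_nonneg_left hFB (by positivity)
        have h10' : 2 * lam * κd * Sv (h + 1) x ≤ 2 * lam * κd * (B2 * G (h + 1) x) :=
          mul_le_mul_of_nonneg_left hSB (by positivity)
        have h11 : 1 ≤ (1 + η * B1) ^ (h + 1) := one_le_pow₀ (by linarith)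
        have h12 : 0 ≤ ((κ0 + 2 * lam * κν) * B1 + 2 * lam * κd * B2) * G (h + 1) x :=
          mul_nonneg hκ hG
        nlinarith
      calc R (h + 1) x + lam * pot (e (h + 1) x) (F (h + 1) x)
          ≤ _ := hstep
        _ ≤ (1 + η * B1) ^ (h + 1) * c * G (h + 1) x
            + (1 + η * B1) ^ (h + 1) * ((κ0 + 2 * lam * κν) * B1 + 2 * lam * κd * B2)
              * G (h + 1) x :=
          add_le_add (hsum.trans h7) h9
        _ = _ := by
          rw [hcdef]
          push_cast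
          ring
    · -- retired state
      refine le_trans ?_ (grow (h + 1) x hx)
      push Not at hret
      have h1 := E.eG _ x hx
      have h2 : (1 - 4 * δ) * F (h + 1) x ≤ G (h + 1) x := hret.le.trans h1
      have h3 : 1 ≤ (1 + 5 * δ) * (1 - 4 * δ) := by
        have := E.hδ'
        nlinarith
      have h4 : (1 + 5 * δ) * ((1 - 4 * δ) * F (h + 1) x) ≤ (1 + 5 * δ) * G (h + 1) x :=
        mul_le_mul_of_nonneg_left h2 (by positivity)
      have h5 : F (h + 1) x ≤ (1 + 5 * δ) * G (h + 1) x := by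
        have := hF0 _ x hx
        have h6 : F (h + 1) x ≤ (1 + 5 * δ) * (1 - 4 * δ) * F (h + 1) x := by nlinarith
        calc F (h + 1) x ≤ (1 + 5 * δ) * (1 - 4 * δ) * F (h + 1) x := h6
          _ = (1 + 5 * δ) * ((1 - 4 * δ) * F (h + 1) x) := by ring
          _ ≤ _ := h4
      have h7 := E.RF h x hx
      have h8 := mul_le_mul_of_nonneg_left (pot_le (heF _ x hx)) hl
      have h9 : R (h + 1) x + lam * pot (e (h + 1) x) (F (h + 1) x)
          ≤ (1 + b + 3 * lam) * F (h + 1) x := by linarith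
      have h10 : (1 + b + 3 * lam) * F (h + 1) x
          ≤ (1 + b + 3 * lam) * ((1 + 5 * δ) * G (h + 1) x) :=
        mul_le_mul_of_nonneg_left h5 (by positivity)
      have h11 := mul_nonneg hc3 (hG0 _ x hx)
      linarith

/-- In particular `R ≤ B' G` everywhere, `B' = a + κ1 B1 + κ2 B2`. -/
theorem EpochU.le (E : EpochU pc Ok e G Sv F R B1 B2 b δ lam η κν κd k1 kK κ0 c0) {H : ℕ}
    {a κ1 κ2 : ℝ} (ha : (1 + η * B1) ^ H * ((1 + b + 3 * lam) * (1 + 5 * δ)) ≤ a)
    (hκ1 : (1 + η * B1) ^ H * (3 * lam + (κ0 + 2 * lam * κν) * H) ≤ κ1)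
    (hκ2 : (1 + η * B1) ^ H * (2 * lam * κd * H) ≤ κ2) :
    ∀ h x, h ≤ H → Ok h x → R h x ≤ (a + κ1 * B1 + κ2 * B2) * G h x := by
  intro h x hh hx
  have hl : 0 ≤ lam := E.hkK.trans E.hlam
  have hG : 0 ≤ G h x := (abs_nonneg _).trans (E.eG h x hx)
  have hF : 0 ≤ F h x := hG.trans (E.GF h x hx)
  have h1 := E.main h x hx
  have h2 : 0 ≤ lam * pot (e h x) (F h x) := mul_nonneg hl (pot_nonneg hF)
  have hηB : 0 ≤ η * B1 := mul_nonneg E.hη E.hB1
  have h3 : (1 + η * B1) ^ h ≤ (1 + η * B1) ^ H := pow_le_pow_right₀ (by linarith) hh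
  have h0 : 0 ≤ (1 + η * B1) ^ h := by positivity
  have hB1 := E.hB1
  have hB2 := E.hB2
  have hb := E.hb
  have hδ := E.hδ
  have hκν := E.hκν
  have hκd := E.hκd
  have hκ0 := E.hκ0
  have hhH : (h : ℝ) ≤ H := by exact_mod_cast hh
  have h4 : (1 + η * B1) ^ h * (((1 + b + 3 * lam) * (1 + 5 * δ) + 3 * lam * B1)
          + ((κ0 + 2 * lam * κν) * B1 + 2 * lam * κd * B2) * h)
      ≤ a + κ1 * B1 + κ2 * B2 := by
    have h5 : (1 + η * B1) ^ h * ((1 + b + 3 * lam) * (1 + 5 * δ)) ≤ a :=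
      (mul_le_mul_of_nonneg_right h3 (by positivity)).trans ha
    have h6 : (1 + η * B1) ^ h * (3 * lam + (κ0 + 2 * lam * κν) * h) ≤ κ1 := by
      refine le_trans ?_ hκ1
      gcongr
    have h7 : (1 + η * B1) ^ h * (2 * lam * κd * h) ≤ κ2 := by
      refine le_trans ?_ hκ2
      gcongr
    have h8 := mul_le_mul_of_nonneg_right h6 hB1
    have h9 := mul_le_mul_of_nonneg_right h7 hB2
    calc _ = (1 + η * B1) ^ h * ((1 + b + 3 * lam) * (1 + 5 * δ))
          + (1 + η * B1) ^ h * (3 * lam + (κ0 + 2 * lam * κν) * h) * B1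
          + (1 + η * B1) ^ h * (2 * lam * κd * h) * B2 := by ring
      _ ≤ _ := add_le_add (add_le_add h5 h8) h9
  have h8 := mul_le_mul_of_nonneg_right h4 hG
  linarith

end epoch

/-- Two-step recursion of the ratios: `B (i+2) ≤ a + κ max(B (i+1), B i)` with `B` nonincreasing is covered by
`B (i+2) ≤ a + κ1 B (i+1) + κ2 B i`. -/
theorem chain2 {B : ℕ → ℝ} {a κ1 κ2 c : ℝ} (h1 : 0 ≤ κ1) (h2 : 0 ≤ κ2) (hκ : κ1 + κ2 ≤ 1 / 2)
    (ha : 0 ≤ a) (hc0 : B 0 ≤ c) (hc1 : B 1 ≤ c) (hc : 0 ≤ c)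
    (h : ∀ i, B (i + 2) ≤ a + κ1 * B (i + 1) + κ2 * B i) (i : ℕ) :
    B i ≤ a / (1 - (κ1 + κ2)) + (κ1 + κ2) ^ (i / 2) * c := by
  set κ := κ1 + κ2 with hκdef
  have hκ0 : 0 ≤ κ := add_nonneg h1 h2
  have hκ1 : 0 < 1 - κ := by linarith
  have hA : 0 ≤ a / (1 - κ) := by positivity
  have hAe : a + κ * (a / (1 - κ)) = a / (1 - κ) := by field_simp; ring
  -- strong induction on pairs
  have key : ∀ n, B (2 * n) ≤ a / (1 - κ) + κ ^ n * c ∧ B (2 * n + 1) ≤ a / (1 - κ) + κ ^ n * c := by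
    intro n
    induction n with
    | zero => simp only [mul_zero, pow_zero, one_mul, zero_add]; constructor <;> linarith
    | succ n ih =>
      obtain ⟨i1, i2⟩ := ih
      set z := a / (1 - κ) + κ ^ n * c with hz
      have hz0 : 0 ≤ z := by positivity
      have e1 : B (2 * n + 2) ≤ a + κ * z := by
        have := h (2 * n)
        have t1 := mul_le_mul_of_nonneg_left i2 h1
        have t2 := mul_le_mul_of_nonneg_left i1 h2
        calc B (2 * n + 2) ≤ _ := this
          _ ≤ a + κ1 * z + κ2 * z := by linarith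
          _ = a + κ * z := by rw [hκdef]; ring
      have e2 : a + κ * z = a / (1 - κ) + κ ^ (n + 1) * c := by
        rw [hz, mul_add, ← add_assoc, hAe]; ring
      have hz1 : a + κ * z ≤ z := by
        rw [e2, hz]
        have : κ ^ (n + 1) ≤ κ ^ n := pow_le_pow_of_le_one hκ0 (by linarith) (Nat.le_succ n)
        nlinarith
      have e3 : B (2 * n + 3) ≤ a + κ * z := by
        have := h (2 * n + 1)
        have t1 := mul_le_mul_of_nonneg_left (e1.trans hz1) h1
        have t2 := mul_le_mul_of_nonneg_left i2 h2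
        calc B (2 * n + 3) ≤ _ := this
          _ ≤ a + κ1 * z + κ2 * z := by linarith
          _ = a + κ * z := by rw [hκdef]; ring
      rw [e2] at e1 e3
      exact ⟨e1, e3⟩
  rcases Nat.even_or_odd' i with ⟨n, rfl | rfl⟩
  · have : 2 * n / 2 = n := by omega
    rw [this]
    exact (key n).1
  · have : (2 * n + 1) / 2 = n := by omega
    rw [this]
    exact (key n).2

end Crest.Agent.R288.Ptw641
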