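import Mathlib
import Crest.Agent.R288.PuV_772
import Crest.Agent.R288.InitHE_663
import Crest.Agent.R288.PrgG_966
import Crest.Agent.R288.EnvK_901
import Crest.Agent.R288.PgM_726
import Crest.Agent.R288.RootNum_589
import Crest.Agent.R288.ProgTop_901
import Crest.Agent.R288.HypA_275

/-!
# R288 (S0433), [PROG] P3: the claim of index 0 for the program `progG`

* `InN cS kS rS N h` : the numbers, `ev_InN`;
* **`init_ok`** : `PgK726.InitOk` at `cfgO`, on every tape, in every machine environment;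
* **`initO`** : the same in the form of `ProgZ578.Run`, for all `1 ≤ cS`, `kS`, `1 ≤ rS`, `2 ≤ N`.
-/

set_option autoImplicit false

namespace Crest.Agent.R288.PuW772

open Crest.Agent.R295.Rnd627 Crest.Agent.R295.Rnd627.RT
open Crest.Agent.R288.Init772 Crest.Agent.R288.InitQ663 Crest.Agent.R288.InitS663
open Crest.Agent.R288.InitR663 Crest.Agent.R288.InitZ663 Crest.Agent.R288.InitK663
open Crest.Agent.R295.Pt949 Crest.Agent.R288.PrK690 Crest.Agent.R288.Pgb578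
open Crest.Agent.R288.Par806 Crest.Agent.R288.ParO331 Crest.Agent.R288.PadK901
open Crest.Agent.R288.InitN775 Crest.Agent.R288.PuU772 Crest.Agent.R288.PuV772
open Crest.Agent.R288.Alg45 (St)
open Crest.Agent.R288.PgY583 (arS qX qU)
open Crest.Agent.R288.Phe940 (Prg Wld Rz Rq Rqs wld)
open Crest.Agent.R288.Dom20 (Dom Om mem_Om pair_zero)
open Crest.Agent.R288.Pl726 Crest.Agent.R288.Top791 Crest.Agent.R288.Asm331
open Crest.Agent.R288.Asm12 (hh Num)
open Crest.Agent.R288.PltT365 (v0 tapeW tapeD)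
open Crest.Agent.R288.PrgG966 (progG dlP)
open Crest.Agent.R288.HypL200 (lcO)
open Crest.Agent.R288.RootNum589 (cpN pN b0N cL)
open Crest.Agent.R288.CpU776 Crest.Agent.R288.InitE776 Crest.Agent.R288.InitD654
open Crest.Agent.R288.PgK726 (InitOk)
open Crest.Agent.R288.HypA275 (cxOf)

/-- the numbers -/
structure InN (cS kS rS N h : ℕ) : Prop where
  uhn : UHN h
  hen : InitHE663.HEN h
  wok : PgW155.WOk h
  og : ∀ L, Nat.clog 2 L = h → Pl726.og cS kS rS 3 L ≤ L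
  pad : ∀ L, Nat.clog 2 L = h → 16 * (2 ^ cPad h + 2) ^ 2 ≤ Pl726.og cS kS rS 3 L
  cost : ∀ K : KI, parK K = par (gI h) (DI h) (mI h) → ∀ i d : ℕ, i ≤ II h →
    d ≤ nn h * i / gI h + 1 →
      (nn h * i + 4) * (CE K (lcO h) d + 1) + 2 ≤ b0N N h * (cpN N 16 h).Y ^ i ∧
      fu K d + 2 ≤ (cpN N 16 h).dX (pN N h) 0

theorem ev_InN {cS kS rS N : ℕ} (hc : 1 ≤ cS) (hr : 1 ≤ rS) (hN : 2 ≤ N) :
    ∀ᶠ h : ℕ in Filter.atTop, InN cS kS rS N h := by
  filter_upwards [ev_UHN, InitHE663.ev_HEN, PgW155.ev_WOk, PgG8155.og_le cS kS rS,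
    ev_le_div 134 1 1, Classical.choose_spec (cE_ev (cL N)), RootNum589.ev_lcO N, dmOk_331,
    RootNum589.index0 N 16] with h h1 h2 h3 h4 h5 h6 h7 h8 h9
  refine ⟨h1, h2, h3, h4, fun L hL => ?_, fun K hK i d hi hd => ⟨?_, ?_⟩⟩
  · have e1 := two_pow_le_og (C := 134) (a := 1) (b := 1) (c := cS) (k := kS) (r := rS) (L := L)
      hc hr (by rw [hL]; exact h5)
    rw [hL] at e1
    refine le_trans ?_ e1
    have hWL : 1 ≤ W h * Lg h := Nat.mul_pos (W_pos h) (Lg_pos h)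
    have hcp : cPad h = 64 * (W h * Lg h) := by unfold cPad; ring
    have e2 : 2 ^ cPad h + 2 ≤ 2 ^ (cPad h + 1) := by
      rw [pow_succ]
      have : 2 ^ 1 ≤ 2 ^ cPad h := Nat.pow_le_pow_right (by norm_num) (by omega)
      omega
    calc 16 * (2 ^ cPad h + 2) ^ 2 ≤ 16 * (2 ^ (cPad h + 1)) ^ 2 :=
          Nat.mul_le_mul_left _ (Nat.pow_le_pow_left e2 2)
      _ = 2 ^ (4 + (cPad h + 1) * 2) := by rw [← pow_mul, pow_add]; norm_num
      _ ≤ 2 ^ (134 * W h ^ 1 * Lg h ^ 1) := by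
          refine Nat.pow_le_pow_right (by norm_num) ?_
          have : 134 * W h ^ 1 * Lg h ^ 1 = 134 * (W h * Lg h) := by ring
          omega
  · have e1 := h6 _ _ h8 K hK (lcO h) i (cpN N 16 h).Y d N h7 (RootNum589.N_le N h)
      (hi.trans (Nat.le_add_right _ _))
      (two_pow_le_Y (parOf h) (RootNum589.Zc h) 16 (lcO h) (II h) (b0N N h)) hd
    have e2 : b0N N h = Crest.Agent.R288.PgG8i654.sui (Classical.choose (cE_ev (cL N))) h := rfl
    rw [e2]
    omega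
  · have e1 := (h9 K hK i d hi hd).2
    omega

section

variable {x y : List ℕ} {ε : ℚ} {pe : PEnv}

/-- **the claim of index `0`, on every tape, in every environment** -/
theorem init_ok (hN : Num x y ε) {cS kS rS N : ℕ} (h : InN cS kS rS N (hh x y ε))
    (hin : PIn x y ε pe) (hS : pe.S = og cS kS rS 3 (inp x y ε).length) (τ : ℕ → ℕ)
    (la : St → List ℕ) (lf : ℕ → St → Option ℕ) (lg : St → ℕ) :
    InitOk (cxOf (cfgO x y ε) la lf lg τ) progG
      (wld pe (2 ^ tapeW x y ε) τ progG.a1 progG.a2 (tapeD ProgTop901.fR x y ε))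
      (konO (v0 x y ε)) (b0N N (hh x y ε)) ((cpN N 16 (hh x y ε)).dX (pN N (hh x y ε)) 0)
      (cpN N 16 (hh x y ε)).Y := by
  intro z hz
  have hE : Env (wld pe (2 ^ tapeW x y ε) τ progG.a1 progG.a2
      (tapeD (PgW155.fW rW) x y ε)) (konO (v0 x y ε)) (2 ^ cPad (hh x y ε)) :=
    EnvK901.env_konO hin (by rw [PrgG966.progG_a1]; norm_num) hS (h.og _ rfl) le_rfl
      (h.pad _ rfl)
  have H := InitHE663.he_cfg hN hin h.hen PrgG966.progG_δ
    (fun ph a L rs => by rw [PrgG966.dlP_frE, hE_frE]) hE (Nat.two_pow_pos _)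
    (EnvK901.N_le hin (τ := τ) (a1 := progG.a1) (a2 := progG.a2)
      (R := tapeD (PgW155.fW rW) x y ε))
  have key := rx_cfg hin h.uhn h.wok hE H (PrgG966.has_U _)
    (fun z => PrgG966.base_ne _ (by norm_num) _ _)
    (n := (cpN N 16 (hh x y ε)).dX (pN N (hh x y ε)) 0)
    (c := fun i => b0N N (hh x y ε) * (cpN N 16 (hh x y ε)).Y ^ i)
    (fun i hi => (h.cost (kiH (konO (v0 x y ε))) rfl i _ hi (Nat.add_le_add_right
      (Nat.div_le_div_right (Nat.sub_le _ _)) 1)).2)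
    (fun i hi => (h.cost (kiH (konO (v0 x y ε))) rfl i _ hi (Nat.add_le_add_right
      (Nat.div_le_div_right (Nat.sub_le _ _)) 1)).1)
  exact ⟨_, _, key 0 z (pair_zero hz), le_rfl, le_rfl⟩

end

/-- **conjunct `InitOk` of `ProgZ578.Run`** -/
theorem initO {cS kS rS N : ℕ} (hc : 1 ≤ cS) (hr : 1 ≤ rS) (hN : 2 ≤ N) :
    Ev fun x y ε => ∀ τ : ℕ → ℕ, ∀ pe : PEnv, PIn x y ε pe →
      pe.S = og cS kS rS 3 (inp x y ε).length →
      ∀ (la : St → List ℕ) (lf : ℕ → St → Option ℕ) (lg : St → ℕ),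
      InitOk (cxOf (cfgO x y ε) la lf lg τ) progG
        (wld pe (2 ^ tapeW x y ε) τ progG.a1 progG.a2 (tapeD ProgTop901.fR x y ε))
        (konO (v0 x y ε)) (b0N N (hh x y ε)) ((cpN N 16 (hh x y ε)).dX (pN N (hh x y ε)) 0)
        (cpN N 16 (hh x y ε)).Y :=
  Ev.of (ev_InN (kS := kS) hc hr hN) fun _ _ _ hNum h τ _ hin hS la lf lg =>
    init_ok hNum h hin hS τ la lf lg

end Crest.Agent.R288.PuW772
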