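import Crest.Agent.R288.Quad_235
import Crest.Agent.R288.TopA_791

/-!
# R288 (S0433), leaf [Qd]: the hypotheses on `quad` in `Top791.top433`
-/

set_option autoImplicit false

namespace Crest.Agent.R288.QuadOK235

open Crest.GraphRAM Crest.Agent.R295
open Crest.Agent.R288.Quad235 Crest.Agent.R288.Top791

/-- `Hquad` with an explicit bound -/
theorem quad_inp (a : ℕ) (ε : ℚ) (x y : List ℕ) (ρ : ℕ → ℕ) {L : ℕ}
    (hL : (inp x y ε).length ≤ L) :
    HL.Runs ⟨2 ^ wl a x y ε, L, ρ⟩ quad (HL.initState (inp x y ε))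
      (10 * (x.length + 1) * (y.length + 1) + 5) (fun s' => s'.reg 0 = editDist x y) := by
  have h := seventeen_lt a x y ε
  exact quad_runs (e := ⟨2 ^ wl a x y ε, L, ρ⟩) x y (ratWords ε) hL
    (show (inp x y ε).length < 2 ^ wl a x y ε by omega)

/-- the equality test on the input -/
theorem eqT_inp (a : ℕ) (ε : ℚ) (x y : List ℕ) (ρ : ℕ → ℕ) {L : ℕ}
    (hL : (inp x y ε).length ≤ L) :
    HL.Runs ⟨2 ^ wl a x y ε, L, ρ⟩ eqT (HL.initState (inp x y ε))
      (4 * x.length + 7) (fun s' => s'.reg 0 = if x = y then 1 else 0) := by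
  have h := seventeen_lt a x y ε
  exact eqT_runs (e := ⟨2 ^ wl a x y ε, L, ρ⟩) x y (ratWords ε) hL
    (show (inp x y ε).length < 2 ^ wl a x y ε by omega)

/-- **`Hquad` of `Top791.top433`** -/
theorem Hquad : ∀ (a : ℕ) (ε : ℚ), 0 < ε → ε < 1 → ∀ x y, Symb a x y → ∃ m, ∀ ρ : ℕ → ℕ,
    HL.Runs ⟨2 ^ wl a x y ε, (inp x y ε).length + 1, ρ⟩ quad (HL.initState (inp x y ε))
      m (fun s' => s'.reg 0 = editDist x y) :=
  fun a ε _ _ x y _ => ⟨_, fun ρ => quad_inp a ε x y ρ (Nat.le_succ _)⟩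

/-- the identifiers of `quad` in the form of `Top791.top433` for all `K₀ ≥ 2`, `R₀ ≥ 11` -/
theorem quad_ids' {K₀ R₀ : ℕ} (hK : 2 ≤ K₀) (hR : 11 ≤ R₀) : quad.ids K₀ R₀ :=
  quad.ids_mono hK hR quad_ids

end Crest.Agent.R288.QuadOK235
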