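import Crest.Agent.R288.Rec_690

/-!
# R288: recursive procedures compiled to one HL command (leaf [R], part 2)

The compiled command is a loop over a stack of tasks: the private array `K` holds task numbers and
saved variables, the private variable `R` is the stack pointer, `R + 1` the current task.

* `cst pr p`: the constant (depends on the program only).
* `REx.comp`, `RRuns.comp`: correctness, time `≤ cst pr p * (t + 1)`.
* `comp_ids`: the compiled command has arrays `< K + 1`, variables `< R + 2` if the source has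
  arrays `< K`, variables `< R`.
-/

set_option autoImplicit false

namespace Crest.Agent.R288.Rec690

open Crest.Agent.R295.HL

/-! ### tasks -/

/-- tasks of the machine -/
inductive Task
  | run (p : RCmd)
  | rst (l : List ℕ)
  deriving DecidableEq

/-- all tasks that can occur below `p` (calls not included) -/
def subs : RCmd → List Task
  | .base p => [.run (.base p)]
  | .seq p q => .run (.seq p q) :: (subs p ++ subs q)
  | .ite c p q => .run (.ite c p q) :: (subs p ++ subs q)
  | .whl c p => .run (.whl c p) :: subs p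
  | .call f => [.run (.call f)]
  | .loc l p => .run (.loc l p) :: .rst l :: subs p

/-- all tasks of a program -/
def allT (pr : List RCmd) (p : RCmd) : List Task :=
  subs p ++ (subs (.base .skip) ++ pr.flatMap subs)

/-- size of a command -/
def wid : RCmd → ℕ
  | .base _ => 1
  | .seq p q => wid p + wid q + 1
  | .ite _ p q => wid p + wid q + 1
  | .whl _ p => wid p + 1
  | .call _ => 1
  | .loc l p => l.length + 1 + wid p

/-- size of a program -/
def tot (pr : List RCmd) (p : RCmd) : ℕ := wid p + 1 + (pr.map wid).sum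

theorem mem_subs_self (p : RCmd) : Task.run p ∈ subs p := by
  cases p <;> simp [subs]

theorem subs_subset {p r : RCmd} (h : Task.run p ∈ subs r) : ∀ τ ∈ subs p, τ ∈ subs r := by
  induction r with
  | base q =>
    simp only [subs, List.mem_singleton, Task.run.injEq] at h
    subst h
    exact fun τ h => h
  | seq q1 q2 ih1 ih2 =>
    simp only [subs, List.mem_cons, List.mem_append, Task.run.injEq] at h
    rcases h with rfl | h | h
    · exact fun τ h => h
    · intro τ hτ; exact List.mem_cons_of_mem _ (List.mem_append_left _ (ih1 h τ hτ))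
    · intro τ hτ; exact List.mem_cons_of_mem _ (List.mem_append_right _ (ih2 h τ hτ))
  | ite c q1 q2 ih1 ih2 =>
    simp only [subs, List.mem_cons, List.mem_append, Task.run.injEq] at h
    rcases h with rfl | h | h
    · exact fun τ h => h
    · intro τ hτ; exact List.mem_cons_of_mem _ (List.mem_append_left _ (ih1 h τ hτ))
    · intro τ hτ; exact List.mem_cons_of_mem _ (List.mem_append_right _ (ih2 h τ hτ))
  | whl c q ih =>
    simp only [subs, List.mem_cons, Task.run.injEq] at h
    rcases h with rfl | h
    · exact fun τ h => h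
    · intro τ hτ; exact List.mem_cons_of_mem _ (ih h τ hτ)
  | call f =>
    simp only [subs, List.mem_singleton, Task.run.injEq] at h
    subst h
    exact fun τ h => h
  | loc l q ih =>
    simp only [subs, List.mem_cons, Task.run.injEq, reduceCtorEq, false_or] at h
    rcases h with rfl | h
    · exact fun τ h => h
    · intro τ hτ; exact List.mem_cons_of_mem _ (List.mem_cons_of_mem _ (ih h τ hτ))

theorem wid_le_of_mem {p r : RCmd} (h : Task.run p ∈ subs r) : wid p ≤ wid r := by
  induction r with
  | base q =>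
    simp only [subs, List.mem_singleton, Task.run.injEq] at h
    subst h
    exact le_rfl
  | seq q1 q2 ih1 ih2 =>
    simp only [subs, List.mem_cons, List.mem_append, Task.run.injEq] at h
    rcases h with rfl | h | h
    · exact le_rfl
    · have := ih1 h; simp only [wid]; omega
    · have := ih2 h; simp only [wid]; omega
  | ite c q1 q2 ih1 ih2 =>
    simp only [subs, List.mem_cons, List.mem_append, Task.run.injEq] at h
    rcases h with rfl | h | h
    · exact le_rfl
    · have := ih1 h; simp only [wid]; omega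
    · have := ih2 h; simp only [wid]; omega
  | whl c q ih =>
    simp only [subs, List.mem_cons, Task.run.injEq] at h
    rcases h with rfl | h
    · exact le_rfl
    · have := ih h; simp only [wid]; omega
  | call f =>
    simp only [subs, List.mem_singleton, Task.run.injEq] at h
    subst h
    exact le_rfl
  | loc l q ih =>
    simp only [subs, List.mem_cons, Task.run.injEq, reduceCtorEq, false_or] at h
    rcases h with rfl | h
    · exact le_rfl
    · have := ih h; simp only [wid]; omega

theorem wid_pos (p : RCmd) : 1 ≤ wid p := by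
  induction p <;> simp only [wid] <;> omega

theorem length_subs_le (p : RCmd) : (subs p).length ≤ 2 * wid p := by
  induction p <;> simp_all only [subs, wid, List.length_cons, List.length_append,
    List.length_nil] <;> omega

section closed

variable {pr : List RCmd} {p : RCmd}

theorem allT_closed {q : RCmd} (h : Task.run q ∈ allT pr p) : ∀ τ ∈ subs q, τ ∈ allT pr p := by
  unfold allT at h ⊢
  rw [List.mem_append, List.mem_append, List.mem_flatMap] at h
  intro τ hτ
  rw [List.mem_append, List.mem_append, List.mem_flatMap]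
  rcases h with h | h | ⟨r, hr, h⟩
  · exact Or.inl (subs_subset h τ hτ)
  · exact Or.inr (Or.inl (subs_subset h τ hτ))
  · exact Or.inr (Or.inr ⟨r, hr, subs_subset h τ hτ⟩)

theorem main_mem : Task.run p ∈ allT pr p :=
  List.mem_append_left _ (mem_subs_self p)

theorem body_mem (f : ℕ) : Task.run (body pr f) ∈ allT pr p := by
  refine body_of (P := fun q => Task.run q ∈ allT pr p) ?_ ?_ f
  · intro q hq
    exact List.mem_append_right _ (List.mem_append_right _
      (List.mem_flatMap.2 ⟨q, hq, mem_subs_self q⟩))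
  · exact List.mem_append_right _ (List.mem_append_left _ (mem_subs_self _))

theorem wid_le_tot {q : RCmd} (h : Task.run q ∈ allT pr p) : wid q ≤ tot pr p := by
  unfold allT at h
  unfold tot
  rw [List.mem_append, List.mem_append, List.mem_flatMap] at h
  rcases h with h | h | ⟨r, hr, h⟩
  · have := wid_le_of_mem h
    omega
  · have := wid_le_of_mem h
    simp only [wid] at this
    omega
  · have h1 := wid_le_of_mem h
    have h2 : wid r ≤ (pr.map wid).sum :=
      List.single_le_sum (by simp) _ (List.mem_map_of_mem hr)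
    omega

theorem length_allT_le : (allT pr p).length ≤ 2 * tot pr p := by
  unfold allT tot
  have h1 := length_subs_le p
  have h2 : (pr.flatMap subs).length ≤ 2 * (pr.map wid).sum := by
    induction pr with
    | nil => simp
    | cons q qs ih =>
      have := length_subs_le q
      simp only [List.flatMap_cons, List.length_append, List.map_cons, List.sum_cons]
      omega
  have h3 : (subs (.base .skip)).length = 1 := rfl
  simp only [List.length_append]
  omega

end closed

/-! ### the compiled command -/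

/-- renaming of variables -/
def fv (R x : ℕ) : ℕ := if x < R then x else x + 2

/-- renaming of arrays -/
def ga (K k : ℕ) : ℕ := if k < K then k else k + 1

theorem fv_inj (R : ℕ) : Function.Injective (fv R) := by
  intro x y h
  unfold fv at h
  split at h <;> split at h <;> omega

theorem ga_inj (K : ℕ) : Function.Injective (ga K) := by
  intro x y h
  unfold ga at h
  split at h <;> split at h <;> omega

theorem fv_ne (R x : ℕ) : fv R x ≠ R ∧ fv R x ≠ R + 1 := by
  unfold fv
  split <;> omega

theorem ga_ne (K k : ℕ) : ga K k ≠ K := by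
  unfold ga
  split <;> omega

theorem fv_lt {R x : ℕ} (h : x < R) : fv R x = x := if_pos h
theorem ga_lt {K k : ℕ} (h : k < K) : ga K k = k := if_pos h

/-- push a value on the stack -/
def push (K R : ℕ) (a : Exp) : Cmd := .put K (.var R) a ;; .set R (.var R + 1)

/-- push variables -/
def pushL (K R : ℕ) : List ℕ → Cmd
  | [] => .skip
  | x :: l => push K R (.var (fv R x)) ;; pushL K R l

/-- pop variables (in the reverse order) -/
def popL (K R : ℕ) : List ℕ → Cmd
  | [] => .skip
  | x :: l => popL K R l ;; (.set R (.var R - 1) ;; .set (fv R x) (.get K (.var R)))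

section compile

variable (K R : ℕ) (pr : List RCmd) (T : List Task)

/-- the number of a task -/
def lab (τ : Task) : ℕ := T.idxOf τ

/-- code of one task -/
def code : Task → Cmd
  | .run (.base p) => p.ren (fv R) (ga K)
  | .run (.seq p q) => push K R (.lit (lab T (.run q))) ;; push K R (.lit (lab T (.run p)))
  | .run (.ite c p q) => .ite (c.ren (fv R) (ga K)) (push K R (.lit (lab T (.run p))))
      (push K R (.lit (lab T (.run q))))
  | .run (.whl c p) => .ite (c.ren (fv R) (ga K))
      (push K R (.lit (lab T (.run (.whl c p)))) ;; push K R (.lit (lab T (.run p)))) .skip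
  | .run (.call f) => push K R (.lit (lab T (.run (body pr f))))
  | .run (.loc l p) => pushL K R l ;; (push K R (.lit (lab T (.rst l))) ;;
      push K R (.lit (lab T (.run p))))
  | .rst l => popL K R l

/-- dispatcher: the tasks of the list have the numbers `i, i + 1, ...` -/
def disp : ℕ → List Task → Cmd
  | _, [] => .skip
  | i, τ :: ts => .ite (.eq (.var (R + 1)) (.lit i)) (code K R pr T τ) (disp (i + 1) ts)

/-- the loop body -/
def bodyC : Cmd :=
  .set R (.var R - 1) ;; (.set (R + 1) (.get K (.var R)) ;; disp K R pr T 0 T)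

/-- the loop -/
def loopC : Cmd := .whl (.ne (.var R) 0) (bodyC K R pr T)

end compile

/-- the compiled program -/
def comp (K R : ℕ) (pr : List RCmd) (p : RCmd) : Cmd :=
  .set R 0 ;; (push K R (.lit (lab (allT pr p) (.run p))) ;; loopC K R pr (allT pr p))

/-- the constant of the time bound -/
def cst (pr : List RCmd) (p : RCmd) : ℕ := 20 * tot pr p

/-! ### correctness -/

/-- the HL state `S` represents the user state `s` with the stack `st` (top = last) -/
structure Rel (K R : ℕ) (s : State) (st : List ℕ) (S : State) : Prop where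
  view : S.view (fv R) (ga K) = s
  sp : S.reg R = st.length
  seg : ∀ i (h : i < st.length), S.arr K i = st[i]

section correct

variable {K R : ℕ} {e : Env} {s : State} {st : List ℕ} {S : State}

theorem view_setReg_ne {x v : ℕ} (hx : ∀ y, fv R y ≠ x) :
    (S.setReg x v).view (fv R) (ga K) = S.view (fv R) (ga K) := by
  ext y
  · simp [hx y]
  · rfl
  · rfl

theorem view_setArr_ne {i v : ℕ} :
    (S.setArr K i v).view (fv R) (ga K) = S.view (fv R) (ga K) := by
  ext y
  · rfl
  · simp [ga_ne K y]
  · rfl

theorem Rel.push (h : Rel K R s st S) {a : Exp} (ha : a.ok e S) {v : ℕ} (hv : a.val S = v)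
    (hL : st.length < e.L) (hB : st.length + 1 < e.B) :
    ∃ S', Ex e (push K R a) S S' 2 ∧ Rel K R s (st ++ [v]) S' ∧ S'.reg (R + 1) = S.reg (R + 1) := by
  refine ⟨(S.setArr K ((Exp.var R).val S) (a.val S)).setReg R
    ((Exp.var R + 1).val (S.setArr K ((Exp.var R).val S) (a.val S))),
    Ex.seq (Ex.put (k := K) (i := .var R) trivial ?_ ha) (Ex.set (x := R) (a := Exp.var R + 1) ?_),
    ⟨?_, ?_, ?_⟩, ?_⟩
  · rw [Exp.val_var, h.sp]; exact hL
  · simp only [Exp.ok_add, Exp.ok_var, Exp.ok_one, Exp.val_var, Exp.val_one, State.setArr_reg,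
      h.sp, true_and]
    omega
  · rw [view_setReg_ne (fun y => (fv_ne R y).1), view_setArr_ne, h.view]
  · simp [h.sp]
  · intro i hi
    rw [List.length_append, List.length_singleton] at hi
    simp only [State.setReg_arr, State.setArr_arr, Exp.val_var, h.sp, hv, true_and]
    by_cases hi' : i = st.length
    · subst hi'
      simp
    · rw [if_neg hi', h.seg i (by omega), List.getElem_append_left (by omega)]
  · simp

theorem Rel.pushL (h : Rel K R s st S) (l : List ℕ) (hL : st.length + l.length ≤ e.L)
    (hB : st.length + l.length < e.B) :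
    ∃ S', Ex e (pushL K R l) S S' (2 * l.length) ∧ Rel K R s (st ++ l.map s.reg) S' := by
  induction l generalizing st S with
  | nil => exact ⟨S, Ex.skip S, by simpa using h⟩
  | cons x l ih =>
    simp only [List.length_cons] at hL hB
    obtain ⟨S1, h1, h2, -⟩ := h.push (a := .var (fv R x)) (e := e) trivial
      (v := s.reg x) (by rw [Exp.val_var, ← h.view, State.view_reg]) (by omega) (by omega)
    obtain ⟨S2, h3, h4⟩ := ih h2 (by simp; omega) (by simp; omega)
    refine ⟨S2, ?_, ?_⟩
    · have := Ex.seq h1 h3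
      rw [show 2 * (x :: l).length = 2 + 2 * l.length by simp; omega]
      exact this
    · simpa using h4

/-- one pop: the stack shrinks, `(st ++ [v])[last] = v` is available -/
theorem Rel.pop {v : ℕ} (h : Rel K R s (st ++ [v]) S) (hB : 1 < e.B) :
    ∃ S', Ex e (.set R (.var R - 1)) S S' 1 ∧ Rel K R s st S' ∧ S'.arr K st.length = v ∧
      S'.reg (R + 1) = S.reg (R + 1) := by
  refine ⟨_, Ex.set ?_, ⟨?_, ?_, ?_⟩, ?_, ?_⟩
  · simp only [Exp.ok_sub, Exp.ok_var, Exp.ok_one, true_and]
    exact hB
  · rw [view_setReg_ne (fun y => (fv_ne R y).1), h.view]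
  · simp [h.sp]
  · intro i hi
    have := h.seg i (by simp; omega)
    rw [State.setReg_arr, this, List.getElem_append_left hi]
  · have := h.seg st.length (by simp)
    rw [State.setReg_arr, this]
    simp
  · simp

theorem restore_cons (x : ℕ) (l : List ℕ) (s0 s1 : State) :
    restore (x :: l) s0 s1 = (restore l s0 s1).setReg x (s0.reg x) := by
  ext y
  · simp only [restore_reg, List.mem_cons, State.setReg_reg]
    by_cases hy : y = x
    · subst hy; simp
    · simp [hy]
  · rfl
  · rfl

theorem Rel.popL {s0 : State} (l : List ℕ) (h : Rel K R s (st ++ l.map s0.reg) S)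
    (hL : st.length + l.length ≤ e.L) (hB : 1 < e.B) :
    ∃ S', Ex e (popL K R l) S S' (2 * l.length) ∧ Rel K R (restore l s0 s) st S' := by
  induction l generalizing st with
  | nil =>
    refine ⟨S, Ex.skip S, ?_⟩
    have : restore [] s0 s = s := by ext y <;> simp [restore]
    rw [this]
    simpa using h
  | cons x l ih =>
    simp only [List.length_cons] at hL
    obtain ⟨S1, h1, h2⟩ := ih (st := st ++ [s0.reg x]) (by simpa using h) (by simp; omega)
    obtain ⟨S2, h3, h4, h5, -⟩ := h2.pop (e := e) hB
    refine ⟨S2.setReg (fv R x) (s0.reg x), ?_, ?_⟩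
    · have h6 : Ex e (.set (fv R x) (.get K (.var R))) S2
          (S2.setReg (fv R x) ((Exp.get K (.var R)).val S2)) 1 := by
        refine Ex.set ?_
        simp only [Exp.ok_get, Exp.ok_var, Exp.val_var, h4.sp, true_and]
        omega
      rw [Exp.val_get, Exp.val_var, h4.sp, h5] at h6
      have := Ex.seq h1 (Ex.seq h3 h6)
      rw [show 2 * (x :: l).length = 2 * l.length + (1 + 1) by simp; omega]
      exact this
    · refine ⟨?_, ?_, ?_⟩
      · rw [State.view_setReg (fv_inj R), h4.view, restore_cons]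
      · rw [State.setReg_reg, if_neg (Ne.symm (fv_ne R x).1), h4.sp]
      · intro i hi
        rw [State.setReg_arr, h4.seg i hi]

theorem disp_ex {pr : List RCmd} {T : List Task} {S' : State} {n : ℕ} (ts : List Task) :
    ∀ (i j : ℕ) (hj : j < ts.length), S.reg (R + 1) = i + j → i + j < e.B →
      Ex e (code K R pr T ts[j]) S S' n → Ex e (disp K R pr T i ts) S S' (n + (j + 1)) := by
  induction ts with
  | nil => intro i j hj; simp at hj
  | cons τ ts ih =>
    intro i j hj hr hB h
    cases j with
    | zero =>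
      refine Ex.ite_true ⟨trivial, ?_⟩ ?_ h
      · show i < e.B
        omega
      · show S.reg (R + 1) = i
        omega
    | succ j =>
      have := ih (i + 1) j (by simpa using hj) (by omega) (by omega) (by simpa using h)
      rw [show n + (j + 1 + 1) = n + (j + 1) + 1 by omega]
      refine Ex.ite_false ⟨trivial, ?_⟩ ?_ this
      · show i < e.B
        omega
      · show ¬ S.reg (R + 1) = i
        omega

/-- one round of the loop -/
theorem loop_step {pr : List RCmd} {T : List Task} {τ : Task} (hτ : τ ∈ T)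
    (hT : T.length ≤ e.B) (h : Rel K R s (st ++ [lab T τ]) S) (hL : st.length < e.L)
    (hB : 1 < e.B) {n : ℕ} {P : State → Prop}
    (hc : ∀ S0, Rel K R s st S0 → ∃ S1, Ex e (code K R pr T τ) S0 S1 n ∧ P S1) :
    ∃ S1 m, P S1 ∧ m ≤ n + T.length + 4 ∧
      ∀ Sf tf, Ex e (loopC K R pr T) S1 Sf tf → Ex e (loopC K R pr T) S Sf (m + tf) := by
  obtain ⟨S2, h1, h2, h3, -⟩ := h.pop (e := e) hB
  have hlt : lab T τ < T.length := List.idxOf_lt_length_iff.2 hτ
  have hS3 : Rel K R s st (S2.setReg (R + 1) (lab T τ)) := by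
    refine ⟨?_, ?_, ?_⟩
    · rw [view_setReg_ne (fun y => (fv_ne R y).2), h2.view]
    · rw [State.setReg_reg, if_neg (by omega), h2.sp]
    · exact h2.seg
  have h4 : Ex e (.set (R + 1) (.get K (.var R))) S2 (S2.setReg (R + 1) (lab T τ)) 1 := by
    have : Ex e (.set (R + 1) (.get K (.var R))) S2
        (S2.setReg (R + 1) ((Exp.get K (.var R)).val S2)) 1 := by
      refine Ex.set ?_
      simp only [Exp.ok_get, Exp.ok_var, Exp.val_var, h2.sp, true_and]
      omega
    rw [Exp.val_get, Exp.val_var, h2.sp, h3] at this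
    exact this
  obtain ⟨S1, h5, h6⟩ := hc _ hS3
  have h7 : Ex e (disp K R pr T 0 T) (S2.setReg (R + 1) (lab T τ)) S1 (n + (lab T τ + 1)) := by
    refine disp_ex T 0 (lab T τ) hlt ?_ (by omega) ?_
    · simp
    · have : T[lab T τ] = τ := List.getElem_idxOf hlt
      rw [this]
      exact h5
  refine ⟨S1, n + lab T τ + 4, h6, by omega, fun Sf tf hf => ?_⟩
  · have h8 := Ex.whl_step (c := .ne (.var R) 0) (e := e) (s := S) ?_ ?_
      (Ex.seq h1 (Ex.seq h4 h7)) hf
    · have e1 : 1 + (1 + (n + (lab T τ + 1))) + tf + 1 = (n + lab T τ + 4) + tf := by omega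
      rw [e1] at h8
      exact h8
    · simp only [Cnd.ok_ne, Exp.ok_var, Exp.ok_zero, true_and]
      omega
    · simp only [Cnd.holds_ne, Exp.val_var, Exp.val_zero, h.sp]
      simp

/-- the simulation -/
theorem REx.sim {pr : List RCmd} {p0 : RCmd} {D : ℕ} (hT : (allT pr p0).length ≤ e.B)
    (hDL : D ≤ e.L) (hDB : D < e.B) (hB : 1 < e.B) {p : RCmd} {s s' : State} {t d : ℕ}
    (h : REx e pr p s s' t d) :
    ∀ (_ : Task.run p ∈ allT pr p0) (st : List ℕ) (S : State),
      Rel K R s (st ++ [lab (allT pr p0) (.run p)]) S →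
      st.length + wid p + tot pr p0 * d ≤ D →
      ∃ S' n, Rel K R s' st S' ∧ n ≤ 20 * tot pr p0 * t ∧
        ∀ Sf tf, Ex e (loopC K R pr (allT pr p0)) S' Sf tf →
          Ex e (loopC K R pr (allT pr p0)) S Sf (n + tf) := by
  have hlen := length_allT_le (pr := pr) (p := p0)
  have htot : 1 ≤ tot pr p0 := by unfold tot; omega
  induction h with
  | @base p s s' t h =>
    intro hm st S hS hD
    simp only [wid] at hD
    have key := loop_step (pr := pr) (n := t)
      (P := fun S1 => Rel K R s' st S1) hm hT hS (by omega) hB ?_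
    · obtain ⟨S1, m, h1, h2, h3⟩ := key
      refine ⟨S1, m, h1, ?_, h3⟩
      nlinarith [Nat.zero_le t]
    · intro S0 hS0
      obtain ⟨S1, h4, h5⟩ := h.ren (fv_inj R) (ga_inj K) S0 hS0.view
      refine ⟨S1, h4, ⟨h5, ?_, ?_⟩⟩
      · rw [← hS0.sp]
        refine h4.reg_frame fun hw => ?_
        obtain ⟨y, -, hy⟩ := Cmd.wr_ren hw
        exact (fv_ne R y).1 hy
      · intro i hi
        rw [← hS0.seg i hi]
        refine congrFun (h4.arr_frame fun hw => ?_) i
        obtain ⟨y, -, hy⟩ := Cmd.wa_ren hw
        exact ga_ne K y hy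
  | @seq p q s s' s'' t t' d d' _ _ ih1 ih2 =>
    intro hm st S hS hD
    have hp : Task.run p ∈ allT pr p0 := allT_closed hm _ (by simp [subs, mem_subs_self])
    have hq : Task.run q ∈ allT pr p0 := allT_closed hm _ (by simp [subs, mem_subs_self])
    have hlp : lab (allT pr p0) (.run p) < (allT pr p0).length := List.idxOf_lt_length_iff.2 hp
    have hlq : lab (allT pr p0) (.run q) < (allT pr p0).length := List.idxOf_lt_length_iff.2 hq
    simp only [wid] at hD
    have hp1 := wid_pos p
    have hq1 := wid_pos q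
    have hd1 : tot pr p0 * d ≤ tot pr p0 * max d d' := Nat.mul_le_mul_left _ (le_max_left _ _)
    have hd2 : tot pr p0 * d' ≤ tot pr p0 * max d d' := Nat.mul_le_mul_left _ (le_max_right _ _)
    have key := loop_step (pr := pr) (n := 4)
      (P := fun S1 => Rel K R s ((st ++ [lab (allT pr p0) (.run q)]) ++
        [lab (allT pr p0) (.run p)]) S1) hm hT hS (by omega) hB ?_
    · obtain ⟨S1, m, h1, h2, h3⟩ := key
      obtain ⟨S2, n2, h4, h5, h6⟩ := ih1 hp _ S1 h1 (by simp; omega)
      obtain ⟨S3, n3, h7, h8, h9⟩ := ih2 hq _ S2 h4 (by omega)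
      refine ⟨S3, m + (n2 + n3), h7, ?_, fun Sf tf hf => ?_⟩
      · nlinarith
      · have := h3 _ _ (h6 _ _ (h9 Sf tf hf))
        rw [show m + (n2 + n3) + tf = m + (n2 + (n3 + tf)) by omega]
        exact this
    · intro S0 hS0
      obtain ⟨S1, h4, h5, -⟩ := hS0.push (e := e) (a := .lit (lab (allT pr p0) (.run q)))
        (by show _ < _; omega) rfl (by omega) (by omega)
      obtain ⟨S2, h6, h7, -⟩ := h5.push (e := e) (a := .lit (lab (allT pr p0) (.run p)))
        (by show _ < _; omega) rfl (by simp; omega) (by simp; omega)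
      exact ⟨S2, Ex.seq h4 h6, h7⟩
  | @ite_true c p q s s' t d hc hh _ ih =>
    intro hm st S hS hD
    have hp : Task.run p ∈ allT pr p0 := allT_closed hm _ (by simp [subs, mem_subs_self])
    have hlp : lab (allT pr p0) (.run p) < (allT pr p0).length := List.idxOf_lt_length_iff.2 hp
    simp only [wid] at hD
    have hp1 := wid_pos p
    have hq1 := wid_pos q
    have key := loop_step (pr := pr) (n := 3)
      (P := fun S1 => Rel K R s (st ++ [lab (allT pr p0) (.run p)]) S1) hm hT hS (by omega) hB ?_
    · obtain ⟨S1, m, h1, h2, h3⟩ := key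
      obtain ⟨S2, n2, h4, h5, h6⟩ := ih hp _ S1 h1 (by omega)
      refine ⟨S2, m + n2, h4, ?_, fun Sf tf hf => ?_⟩
      · nlinarith
      · rw [add_assoc]
        exact h3 _ _ (h6 _ _ hf)
    · intro S0 hS0
      obtain ⟨S1, h4, h5, -⟩ := hS0.push (e := e) (a := .lit (lab (allT pr p0) (.run p)))
        (by show _ < _; omega) rfl (by omega) (by omega)
      refine ⟨S1, Ex.ite_true ?_ ?_ h4, h5⟩
      · rw [Cnd.ok_ren, hS0.view]; exact hc
      · rw [Cnd.holds_ren, hS0.view]; exact hh
  | @ite_false c p q s s' t d hc hh _ ih =>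
    intro hm st S hS hD
    have hp : Task.run q ∈ allT pr p0 := allT_closed hm _ (by simp [subs, mem_subs_self])
    have hlp : lab (allT pr p0) (.run q) < (allT pr p0).length := List.idxOf_lt_length_iff.2 hp
    simp only [wid] at hD
    have hp1 := wid_pos p
    have hq1 := wid_pos q
    have key := loop_step (pr := pr) (n := 3)
      (P := fun S1 => Rel K R s (st ++ [lab (allT pr p0) (.run q)]) S1) hm hT hS (by omega) hB ?_
    · obtain ⟨S1, m, h1, h2, h3⟩ := key
      obtain ⟨S2, n2, h4, h5, h6⟩ := ih hp _ S1 h1 (by omega)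
      refine ⟨S2, m + n2, h4, ?_, fun Sf tf hf => ?_⟩
      · nlinarith
      · rw [add_assoc]
        exact h3 _ _ (h6 _ _ hf)
    · intro S0 hS0
      obtain ⟨S1, h4, h5, -⟩ := hS0.push (e := e) (a := .lit (lab (allT pr p0) (.run q)))
        (by show _ < _; omega) rfl (by omega) (by omega)
      refine ⟨S1, Ex.ite_false ?_ ?_ h4, h5⟩
      · rw [Cnd.ok_ren, hS0.view]; exact hc
      · rw [Cnd.holds_ren, hS0.view]; exact hh
  | @whl_done c p s hc hh =>
    intro hm st S hS hD
    simp only [wid] at hD
    have key := loop_step (pr := pr) (n := 1)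
      (P := fun S1 => Rel K R s st S1) hm hT hS (by omega) hB ?_
    · obtain ⟨S1, m, h1, h2, h3⟩ := key
      refine ⟨S1, m, h1, ?_, h3⟩
      nlinarith
    · intro S0 hS0
      refine ⟨S0, Ex.ite_false ?_ ?_ (Ex.skip S0), hS0⟩
      · rw [Cnd.ok_ren, hS0.view]; exact hc
      · rw [Cnd.holds_ren, hS0.view]; exact hh
  | @whl_step c p s s' s'' t t' d d' hc hh _ _ ih1 ih2 =>
    intro hm st S hS hD
    have hp : Task.run p ∈ allT pr p0 := allT_closed hm _ (by simp [subs, mem_subs_self])
    have hlp : lab (allT pr p0) (.run p) < (allT pr p0).length := List.idxOf_lt_length_iff.2 hp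
    have hlq : lab (allT pr p0) (.run (.whl c p)) < (allT pr p0).length :=
      List.idxOf_lt_length_iff.2 hm
    simp only [wid] at hD ih2
    have hp1 := wid_pos p
    have hd1 : tot pr p0 * d ≤ tot pr p0 * max d d' := Nat.mul_le_mul_left _ (le_max_left _ _)
    have hd2 : tot pr p0 * d' ≤ tot pr p0 * max d d' := Nat.mul_le_mul_left _ (le_max_right _ _)
    have key := loop_step (pr := pr) (n := 5)
      (P := fun S1 => Rel K R s ((st ++ [lab (allT pr p0) (.run (.whl c p))]) ++
        [lab (allT pr p0) (.run p)]) S1) hm hT hS (by omega) hB ?_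
    · obtain ⟨S1, m, h1, h2, h3⟩ := key
      obtain ⟨S2, n2, h4, h5, h6⟩ := ih1 hp _ S1 h1 (by simp; omega)
      obtain ⟨S3, n3, h7, h8, h9⟩ := ih2 hm _ S2 h4 (by omega)
      refine ⟨S3, m + (n2 + n3), h7, ?_, fun Sf tf hf => ?_⟩
      · nlinarith
      · have := h3 _ _ (h6 _ _ (h9 Sf tf hf))
        rw [show m + (n2 + n3) + tf = m + (n2 + (n3 + tf)) by omega]
        exact this
    · intro S0 hS0
      obtain ⟨S1, h4, h5, -⟩ := hS0.push (e := e) (a := .lit (lab (allT pr p0) (.run (.whl c p))))
        (by show _ < _; omega) rfl (by omega) (by omega)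
      obtain ⟨S2, h6, h7, -⟩ := h5.push (e := e) (a := .lit (lab (allT pr p0) (.run p)))
        (by show _ < _; omega) rfl (by simp; omega) (by simp; omega)
      refine ⟨S2, Ex.ite_true ?_ ?_ (Ex.seq h4 h6), h7⟩
      · rw [Cnd.ok_ren, hS0.view]; exact hc
      · rw [Cnd.holds_ren, hS0.view]; exact hh
  | @call f s s' t d _ ih =>
    intro hm st S hS hD
    have hp : Task.run (body pr f) ∈ allT pr p0 := body_mem f
    have hlp : lab (allT pr p0) (.run (body pr f)) < (allT pr p0).length :=
      List.idxOf_lt_length_iff.2 hp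
    have hw := wid_le_tot hp
    simp only [wid] at hD
    have hd1 : tot pr p0 * (d + 1) = tot pr p0 * d + tot pr p0 := by ring
    have key := loop_step (pr := pr) (n := 2)
      (P := fun S1 => Rel K R s (st ++ [lab (allT pr p0) (.run (body pr f))]) S1)
      hm hT hS (by omega) hB ?_
    · obtain ⟨S1, m, h1, h2, h3⟩ := key
      obtain ⟨S2, n2, h4, h5, h6⟩ := ih hp _ S1 h1 (by omega)
      refine ⟨S2, m + n2, h4, ?_, fun Sf tf hf => ?_⟩
      · nlinarith
      · rw [add_assoc]
        exact h3 _ _ (h6 _ _ hf)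
    · intro S0 hS0
      obtain ⟨S1, h4, h5, -⟩ := hS0.push (e := e) (a := .lit (lab (allT pr p0) (.run (body pr f))))
        (by show _ < _; omega) rfl (by omega) (by omega)
      exact ⟨S1, h4, h5⟩
  | @loc l p s s' t d _ ih =>
    intro hm st S hS hD
    have hp : Task.run p ∈ allT pr p0 := allT_closed hm _ (by simp [subs, mem_subs_self])
    have hl : Task.rst l ∈ allT pr p0 := allT_closed hm _ (by simp [subs])
    have hlp : lab (allT pr p0) (.run p) < (allT pr p0).length := List.idxOf_lt_length_iff.2 hp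
    have hll : lab (allT pr p0) (.rst l) < (allT pr p0).length := List.idxOf_lt_length_iff.2 hl
    have hw := wid_le_tot hm
    simp only [wid] at hD hw
    have hp1 := wid_pos p
    have key := loop_step (pr := pr) (n := 2 * l.length + 4)
      (P := fun S1 => Rel K R s (((st ++ l.map s.reg) ++ [lab (allT pr p0) (.rst l)]) ++
        [lab (allT pr p0) (.run p)]) S1) hm hT hS (by omega) hB ?_
    · obtain ⟨S1, m, h1, h2, h3⟩ := key
      obtain ⟨S2, n2, h4, h5, h6⟩ := ih hp _ S1 h1 (by simp; omega)
      have key2 := loop_step (pr := pr) (n := 2 * l.length)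
        (P := fun S1 => Rel K R (restore l s s') st S1) hl hT h4 (by simp; omega) hB ?_
      · obtain ⟨S3, m3, h7, h8, h9⟩ := key2
        refine ⟨S3, m + (n2 + m3), h7, ?_, fun Sf tf hf => ?_⟩
        · nlinarith
        · have := h3 _ _ (h6 _ _ (h9 Sf tf hf))
          rw [show m + (n2 + m3) + tf = m + (n2 + (m3 + tf)) by omega]
          exact this
      · intro S0 hS0
        exact hS0.popL l (by omega) hB
    · intro S0 hS0
      obtain ⟨S1, h4, h5⟩ := hS0.pushL (e := e) l (by omega) (by omega)
      obtain ⟨S2, h6, h7, -⟩ := h5.push (e := e) (a := .lit (lab (allT pr p0) (.rst l)))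
        (by show _ < _; omega) rfl (by simp; omega) (by simp; omega)
      obtain ⟨S3, h8, h9, -⟩ := h7.push (e := e) (a := .lit (lab (allT pr p0) (.run p)))
        (by show _ < _; omega) rfl (by simp; omega) (by simp; omega)
      exact ⟨S3, Ex.seq h4 (Ex.seq h6 h8), h9⟩

/-- **the compiled command** -/
theorem REx.comp {pr : List RCmd} {p : RCmd} {s' : State} {t d : ℕ}
    (h : REx e pr p s s' t d) (hB : 2 * tot pr p < e.B)
    (hDL : tot pr p * (d + 1) ≤ e.L) (hDB : tot pr p * (d + 1) < e.B)
    (hS : S.view (fv R) (ga K) = s) :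
    ∃ S' n, Ex e (Rec690.comp K R pr p) S S' n ∧ n ≤ cst pr p * (t + 1) ∧
      S'.view (fv R) (ga K) = s' := by
  have hlen := length_allT_le (pr := pr) (p := p)
  have htot : 1 ≤ tot pr p := by unfold tot; omega
  have hm : Task.run p ∈ allT pr p := main_mem
  have hlp : lab (allT pr p) (.run p) < (allT pr p).length := List.idxOf_lt_length_iff.2 hm
  have hw := wid_le_tot hm
  have hd1 : tot pr p * (d + 1) = tot pr p * d + tot pr p := by ring
  have h0 : Rel K R s [] (S.setReg R 0) := by
    refine ⟨?_, by simp, ?_⟩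
    · rw [view_setReg_ne (fun y => (fv_ne R y).1), hS]
    · intro i hi
      simp at hi
  obtain ⟨S1, h1, h2, -⟩ := h0.push (e := e) (a := .lit (lab (allT pr p) (.run p)))
    (by show _ < _; omega) rfl (by simp; omega) (by simp; omega)
  obtain ⟨S2, n, h3, h4, h5⟩ := h.sim (K := K) (R := R) (D := tot pr p * (d + 1)) (by omega) hDL
    hDB (by omega) hm [] S1 h2 (by simp; omega)
  have h6 : Ex e (loopC K R pr (allT pr p)) S2 S2 1 := by
    refine Ex.whl_done ?_ ?_
    · simp only [Cnd.ok_ne, Exp.ok_var, Exp.ok_zero, true_and]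
      omega
    · simp [h3.sp]
  refine ⟨S2, _, Ex.seq (Ex.set (a := 0) ?_) (Ex.seq h1 (h5 _ _ h6)), ?_, h3.view⟩
  · show 0 < e.B
    omega
  · unfold cst
    nlinarith

end correct

/-- **Runs of the compiled command** -/
theorem RRuns.comp {K R : ℕ} {e : Env} {pr : List RCmd} {p : RCmd} {S : State} {n d : ℕ}
    {Q : State → Prop} (h : RRuns e pr p (S.view (fv R) (ga K)) n d Q)
    (hB : 2 * tot pr p < e.B) (hDL : tot pr p * (d + 1) ≤ e.L) (hDB : tot pr p * (d + 1) < e.B) :
    Runs e (Rec690.comp K R pr p) S (cst pr p * (n + 1)) (fun S' => Q (S'.view (fv R) (ga K))) := by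
  obtain ⟨s', t, d', h1, h2, h3, h4⟩ := h
  have hd : tot pr p * (d' + 1) ≤ tot pr p * (d + 1) := Nat.mul_le_mul_left _ (by omega)
  obtain ⟨S', m, h5, h6, h7⟩ := h1.comp (K := K) (R := R) (S := S) hB (by omega) (by omega) rfl
  refine ⟨S', m, h5, h6.trans (Nat.mul_le_mul_left _ (by omega)), ?_⟩
  show Q (S'.view (fv R) (ga K))
  rw [h7]
  exact h4

/-! ### identifiers -/

section ids

variable {K R K' R' : ℕ} {f g : ℕ → ℕ}

theorem Exp_ids_ren (hf : ∀ x < R, f x < R') (hg : ∀ k < K, g k < K') :
    ∀ a : Exp, a.ids K R → (a.ren f g).ids K' R'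
  | .lit _, _ => trivial
  | .var _, h => hf _ h
  | .get _ i, h => ⟨hg _ h.1, Exp_ids_ren hf hg i h.2⟩
  | .add a b, h => ⟨Exp_ids_ren hf hg a h.1, Exp_ids_ren hf hg b h.2⟩
  | .sub a b, h => ⟨Exp_ids_ren hf hg a h.1, Exp_ids_ren hf hg b h.2⟩
  | .mul a b, h => ⟨Exp_ids_ren hf hg a h.1, Exp_ids_ren hf hg b h.2⟩
  | .div a b, h => ⟨Exp_ids_ren hf hg a h.1, Exp_ids_ren hf hg b h.2⟩
  | .mod a b, h => ⟨Exp_ids_ren hf hg a h.1, Exp_ids_ren hf hg b h.2⟩
  | .and a b, h => ⟨Exp_ids_ren hf hg a h.1, Exp_ids_ren hf hg b h.2⟩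
  | .or a b, h => ⟨Exp_ids_ren hf hg a h.1, Exp_ids_ren hf hg b h.2⟩
  | .xor a b, h => ⟨Exp_ids_ren hf hg a h.1, Exp_ids_ren hf hg b h.2⟩
  | .shl a b, h => ⟨Exp_ids_ren hf hg a h.1, Exp_ids_ren hf hg b h.2⟩
  | .shr a b, h => ⟨Exp_ids_ren hf hg a h.1, Exp_ids_ren hf hg b h.2⟩

theorem Cnd_ids_ren (hf : ∀ x < R, f x < R') (hg : ∀ k < K, g k < K') :
    ∀ a : Cnd, a.ids K R → (a.ren f g).ids K' R'
  | .lt a b, h => ⟨Exp_ids_ren hf hg a h.1, Exp_ids_ren hf hg b h.2⟩
  | .le a b, h => ⟨Exp_ids_ren hf hg a h.1, Exp_ids_ren hf hg b h.2⟩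
  | .eq a b, h => ⟨Exp_ids_ren hf hg a h.1, Exp_ids_ren hf hg b h.2⟩
  | .ne a b, h => ⟨Exp_ids_ren hf hg a h.1, Exp_ids_ren hf hg b h.2⟩
  | .not c, h => Cnd_ids_ren hf hg c h
  | .and c d, h => ⟨Cnd_ids_ren hf hg c h.1, Cnd_ids_ren hf hg d h.2⟩
  | .or c d, h => ⟨Cnd_ids_ren hf hg c h.1, Cnd_ids_ren hf hg d h.2⟩

theorem Cmd_ids_ren (hf : ∀ x < R, f x < R') (hg : ∀ k < K, g k < K') :
    ∀ p : Cmd, p.ids K R → (p.ren f g).ids K' R'
  | .skip, _ => trivial
  | .set _ a, h => ⟨hf _ h.1, Exp_ids_ren hf hg a h.2⟩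
  | .put _ i a, h => ⟨hg _ h.1, Exp_ids_ren hf hg i h.2.1, Exp_ids_ren hf hg a h.2.2⟩
  | .rnd _, h => hf _ h
  | .seq p q, h => ⟨Cmd_ids_ren hf hg p h.1, Cmd_ids_ren hf hg q h.2⟩
  | .ite c p q, h => ⟨Cnd_ids_ren hf hg c h.1, Cmd_ids_ren hf hg p h.2.1,
      Cmd_ids_ren hf hg q h.2.2⟩
  | .whl c p, h => ⟨Cnd_ids_ren hf hg c h.1, Cmd_ids_ren hf hg p h.2⟩

/-- tasks with identifiers in range -/
def Task.ids (K R : ℕ) : Task → Prop
  | .run p => p.ids K R
  | .rst l => ∀ x ∈ l, x < R

theorem subs_ids {p : RCmd} (h : p.ids K R) : ∀ τ ∈ subs p, τ.ids K R := by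
  induction p with
  | base q =>
    simp only [subs, List.mem_singleton, forall_eq]
    exact h
  | seq q1 q2 ih1 ih2 =>
    simp only [subs, List.mem_cons, List.mem_append]
    rintro τ (rfl | hτ | hτ)
    · exact h
    · exact ih1 h.1 τ hτ
    · exact ih2 h.2 τ hτ
  | ite c q1 q2 ih1 ih2 =>
    simp only [subs, List.mem_cons, List.mem_append]
    rintro τ (rfl | hτ | hτ)
    · exact h
    · exact ih1 h.2.1 τ hτ
    · exact ih2 h.2.2 τ hτ
  | whl c q ih =>
    simp only [subs, List.mem_cons]
    rintro τ (rfl | hτ)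
    · exact h
    · exact ih h.2 τ hτ
  | call f =>
    simp only [subs, List.mem_singleton, forall_eq]
    exact h
  | loc l q ih =>
    simp only [subs, List.mem_cons]
    rintro τ (rfl | rfl | hτ)
    · exact h
    · exact h.1
    · exact ih h.2 τ hτ

theorem allT_ids {pr : List RCmd} {p : RCmd} (h : p.ids K R) (hpr : ∀ q ∈ pr, q.ids K R) :
    ∀ τ ∈ allT pr p, τ.ids K R := by
  intro τ hτ
  unfold allT at hτ
  rw [List.mem_append, List.mem_append, List.mem_flatMap] at hτ
  rcases hτ with hτ | hτ | ⟨r, hr, hτ⟩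
  · exact subs_ids h τ hτ
  · exact subs_ids (p := .base .skip) trivial τ hτ
  · exact subs_ids (hpr r hr) τ hτ

theorem push_ids {a : Exp} (h : a.ids (K + 1) (R + 2)) : (push K R a).ids (K + 1) (R + 2) :=
  ⟨⟨by omega, show R < R + 2 by omega, h⟩, show R < R + 2 by omega,
    show R < R + 2 by omega, trivial⟩

theorem pushL_ids {l : List ℕ} (h : ∀ x ∈ l, x < R) : (pushL K R l).ids (K + 1) (R + 2) := by
  induction l with
  | nil => exact trivial
  | cons x l ih =>
    refine ⟨push_ids ?_, ih fun y hy => h y (List.mem_cons_of_mem _ hy)⟩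
    show fv R x < R + 2
    rw [fv_lt (h x (by simp))]
    have := h x (by simp)
    omega

theorem popL_ids {l : List ℕ} (h : ∀ x ∈ l, x < R) : (popL K R l).ids (K + 1) (R + 2) := by
  induction l with
  | nil => exact trivial
  | cons x l ih =>
    refine ⟨ih fun y hy => h y (List.mem_cons_of_mem _ hy),
      ⟨show R < R + 2 by omega, show R < R + 2 by omega, trivial⟩, ?_,
      show K < K + 1 by omega, show R < R + 2 by omega⟩
    show fv R x < R + 2
    rw [fv_lt (h x (by simp))]
    have := h x (by simp)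
    omega

theorem code_ids {pr : List RCmd} {T : List Task} {τ : Task} (h : τ.ids K R) :
    (code K R pr T τ).ids (K + 1) (R + 2) := by
  have hf : ∀ x < R, fv R x < R + 2 := fun x hx => by rw [fv_lt hx]; omega
  have hg : ∀ k < K, ga K k < K + 1 := fun k hk => by rw [ga_lt hk]; omega
  match τ, h with
  | .run (.base p), h => exact Cmd_ids_ren hf hg p h
  | .run (.seq p q), _ => exact ⟨push_ids trivial, push_ids trivial⟩
  | .run (.ite c p q), h => exact ⟨Cnd_ids_ren hf hg c h.1, push_ids trivial, push_ids trivial⟩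
  | .run (.whl c p), h =>
    exact ⟨Cnd_ids_ren hf hg c h.1, ⟨push_ids trivial, push_ids trivial⟩, trivial⟩
  | .run (.call f), _ => exact push_ids trivial
  | .run (.loc l p), h => exact ⟨pushL_ids h.1, push_ids trivial, push_ids trivial⟩
  | .rst l, h => exact popL_ids h

theorem disp_ids {pr : List RCmd} {T : List Task} (ts : List Task) :
    ∀ (_ : ∀ τ ∈ ts, τ.ids K R) (i : ℕ), (disp K R pr T i ts).ids (K + 1) (R + 2) := by
  induction ts with
  | nil => intro _ i; exact trivial
  | cons τ ts ih =>
    intro h i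
    exact ⟨⟨show R + 1 < R + 2 by omega, trivial⟩, code_ids (h τ (by simp)),
      ih (fun τ' hτ' => h τ' (List.mem_cons_of_mem _ hτ')) (i + 1)⟩

/-- identifiers of the compiled command -/
theorem comp_ids {pr : List RCmd} {p : RCmd} (h : p.ids K R) (hpr : ∀ q ∈ pr, q.ids K R) :
    (comp K R pr p).ids (K + 1) (R + 2) :=
  ⟨⟨show R < R + 2 by omega, trivial⟩, push_ids trivial,
    ⟨show R < R + 2 by omega, trivial⟩,
    ⟨show R < R + 2 by omega, show R < R + 2 by omega, trivial⟩,
    ⟨show R + 1 < R + 2 by omega, show K < K + 1 by omega, show R < R + 2 by omega⟩,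
    disp_ids _ (allT_ids h hpr) 0⟩

end ids

/-- the view of the initial state is the initial state -/
theorem view_initState {K R : ℕ} (hK : 0 < K) (hR : 0 < R) (inp : List ℕ) :
    (initState inp).view (fv R) (ga K) = initState inp := by
  ext y
  · simp only [State.view_reg, initState]
    by_cases hy : y = 0
    · subst hy; rw [fv_lt hR]
    · rw [if_neg hy, if_neg]
      unfold fv
      split <;> omega
  · rename_i i
    simp only [State.view_arr, initState]
    by_cases hy : y = 0
    · subst hy; rw [ga_lt hK]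
    · rw [if_neg hy, if_neg]
      unfold ga
      split <;> omega
  · rfl

end Crest.Agent.R288.Rec690
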