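import Crest.Agent.R288.HedLin_283

/-!
# R288 [WindowReg] (helper441), part A: one decision state

* `mn B u` : minimum over the letters `z < B` (same definition as `Alg45.minR`);
* `fc Q g γ U x = Q - min (Q/g) (γ Q x / U)` : factor of a letter with excess `x` over the minimum;
* `state_gen` : real form. Weights with `w (k+1) z ≤ w k z (1 - e k z)`, excess `m + Y e ≤ u ≤ m + Y e + η`,
  values `h k` within `ρ` of the weighted mean: there are credits `cr k ≥ 0` with `m k + cr k ≤ h k + ρ`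
  (what a greedy option pays back) and
  `∑ h ≤ ∑ u z' + (∑ cr)/g + Y (log (W₀/w₀ z') + 2 r K) + K (η + ρ)`;
* `wF` weights on naturals, floor at every rank (AlgA v1), `wE` exact big naturals (no division);
* `state_floor`, `state_exact` : the two instances for natural losses with oscillation
  `γ * (u k z - min) * g ≤ U`;
* `w2`, `state_two` : exact weights with the factor `2 D - min D (2 a x)` (ALG v2, `D = gd U`, `a = gn`),
  oscillation `a * (u k z - min) * g ≤ D`: regret `(D/a) log (W₀/w₀ z') + K ρ`;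
* `ceil_near`, `floor_near` : both roundings of the mean are within `1`.
-/

set_option autoImplicit false

namespace Crest.Agent.R288.RegA441

open Finset Crest.Agent.R288.HedLin283

/-! ### minimum over the letters -/

/-- minimum over the letters `z < B` (`u 0` if `B = 0`) -/
def mn (B : ℕ) (u : ℕ → ℕ) : ℕ := (List.range B).foldl (fun m a => min m (u a)) (u 0)

theorem foldl_min_le_init (l : List ℕ) (u : ℕ → ℕ) (m : ℕ) :
    l.foldl (fun m a => min m (u a)) m ≤ m := by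
  induction l generalizing m with
  | nil => exact le_rfl
  | cons a l ih => exact (ih _).trans (min_le_left _ _)

theorem foldl_min_le (l : List ℕ) (u : ℕ → ℕ) (m : ℕ) {a : ℕ} (ha : a ∈ l) :
    l.foldl (fun m a => min m (u a)) m ≤ u a := by
  induction l generalizing m with
  | nil => simp at ha
  | cons b l ih =>
    rcases List.mem_cons.1 ha with rfl | h
    · exact (foldl_min_le_init l u _).trans (min_le_right _ _)
    · exact ih _ h

theorem le_foldl_min (l : List ℕ) (u : ℕ → ℕ) {m c : ℕ} (hm : c ≤ m) (h : ∀ a ∈ l, c ≤ u a) :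
    c ≤ l.foldl (fun m a => min m (u a)) m := by
  induction l generalizing m with
  | nil => exact hm
  | cons b l ih =>
    exact ih (le_min hm (h b (List.mem_cons_self ..))) fun a ha => h a (List.mem_cons_of_mem _ ha)

theorem mn_le {B : ℕ} (u : ℕ → ℕ) {z : ℕ} (hz : z < B) : mn B u ≤ u z :=
  foldl_min_le _ _ _ (List.mem_range.2 hz)

theorem le_mn {B : ℕ} {u : ℕ → ℕ} {c : ℕ} (hB : 0 < B) (h : ∀ z < B, c ≤ u z) : c ≤ mn B u :=
  le_foldl_min _ _ (h 0 hB) fun a ha => h a (List.mem_range.1 ha)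

theorem mn_congr {B : ℕ} {u v : ℕ → ℕ} (hB : 0 < B) (h : ∀ z < B, u z = v z) : mn B u = mn B v :=
  le_antisymm (le_mn hB fun z hz => by rw [← h z hz]; exact mn_le u hz)
    (le_mn hB fun z hz => by rw [h z hz]; exact mn_le v hz)

/-! ### weights -/

/-- factor of a letter with excess `x` over the minimum, unit `U` -/
def fc (Q g γ U x : ℕ) : ℕ := Q - min (Q / g) (γ * Q * x / U)

/-- weights of rank `k`, rounded down at every rank -/
def wF (Q g γ B U : ℕ) (w₀ : ℕ → ℕ) (u : ℕ → ℕ → ℕ) : ℕ → ℕ → ℕ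
  | 0, z => w₀ z
  | k + 1, z => wF Q g γ B U w₀ u k z * fc Q g γ U (u k z - mn B (u k)) / Q

/-- weights of rank `k`, exact -/
def wE (Q g γ B U : ℕ) (w₀ : ℕ → ℕ) (u : ℕ → ℕ → ℕ) : ℕ → ℕ → ℕ
  | 0, z => w₀ z
  | k + 1, z => wE Q g γ B U w₀ u k z * fc Q g γ U (u k z - mn B (u k))

theorem wF_congr {Q g γ B U : ℕ} {w₀ w₀' : ℕ → ℕ} {u u' : ℕ → ℕ → ℕ} (k : ℕ)
    (hw : ∀ z < B, w₀ z = w₀' z) (hu : ∀ i < k, ∀ z < B, u i z = u' i z) :
    ∀ z < B, wF Q g γ B U w₀ u k z = wF Q g γ B U w₀' u' k z := by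
  induction k with
  | zero => exact hw
  | succ k ih =>
    intro z hz
    have h1 := ih (fun i hi => hu i (by omega)) z hz
    show wF Q g γ B U w₀ u k z * fc Q g γ U (u k z - mn B (u k)) / Q
      = wF Q g γ B U w₀' u' k z * fc Q g γ U (u' k z - mn B (u' k)) / Q
    rw [h1, hu k (by omega) z hz, mn_congr (by omega : 0 < B) (hu k (by omega))]

theorem wE_congr {Q g γ B U : ℕ} {w₀ w₀' : ℕ → ℕ} {u u' : ℕ → ℕ → ℕ} (k : ℕ)
    (hw : ∀ z < B, w₀ z = w₀' z) (hu : ∀ i < k, ∀ z < B, u i z = u' i z) :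
    ∀ z < B, wE Q g γ B U w₀ u k z = wE Q g γ B U w₀' u' k z := by
  induction k with
  | zero => exact hw
  | succ k ih =>
    intro z hz
    have h1 := ih (fun i hi => hu i (by omega)) z hz
    show wE Q g γ B U w₀ u k z * fc Q g γ U (u k z - mn B (u k))
      = wE Q g γ B U w₀' u' k z * fc Q g γ U (u' k z - mn B (u' k))
    rw [h1, hu k (by omega) z hz, mn_congr (by omega : 0 < B) (hu k (by omega))]

/-! ### one factor -/

section factor

variable {Q g γ U : ℕ}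

/-- no clipping -/
theorem noclip (hU : 0 < U) (hg : 0 < g) {x : ℕ} (h : γ * x * g ≤ U) : γ * Q * x / U ≤ Q / g := by
  rw [Nat.le_div_iff_mul_le hg]
  have h1 : γ * Q * x / U * U ≤ γ * Q * x := Nat.div_mul_le_self _ _
  have h2 : γ * Q * x / U * g * U ≤ Q * U := by
    calc γ * Q * x / U * g * U = γ * Q * x / U * U * g := by ring
      _ ≤ γ * Q * x * g := Nat.mul_le_mul_right _ h1
      _ = Q * (γ * x * g) := by ring
      _ ≤ Q * U := Nat.mul_le_mul_left _ h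
  exact Nat.le_of_mul_le_mul_right h2 hU

/-- relative excess of a letter, in units of `U / γ` -/
noncomputable def ee (Q γ U x : ℕ) : ℝ := ((γ * Q * x / U : ℕ) : ℝ) / Q

theorem ee_nonneg (x : ℕ) : 0 ≤ ee Q γ U x := by unfold ee; positivity

theorem ee_le (hQ : 0 < Q) (hU : 0 < U) (hg : 0 < g) {x : ℕ} (h : γ * x * g ≤ U) :
    ee Q γ U x ≤ 1 / g := by
  have h1 : ((γ * Q * x / U : ℕ) : ℝ) ≤ ((Q / g : ℕ) : ℝ) := by exact_mod_cast noclip hU hg h
  have h2 : ((Q / g : ℕ) : ℝ) ≤ (Q : ℝ) / g := Nat.cast_div_le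
  have hQ' : (0 : ℝ) < Q := by exact_mod_cast hQ
  unfold ee
  rw [div_le_iff₀ hQ']
  calc ((γ * Q * x / U : ℕ) : ℝ) ≤ (Q : ℝ) / g := h1.trans h2
    _ = 1 / g * Q := by ring

theorem ee_mul_le (hQ : 0 < Q) (hU : 0 < U) (hγ : 0 < γ) (x : ℕ) :
    (U : ℝ) / γ * ee Q γ U x ≤ x := by
  have hQ' : (0 : ℝ) < Q := by exact_mod_cast hQ
  have hU' : (0 : ℝ) < U := by exact_mod_cast hU
  have hγ' : (0 : ℝ) < γ := by exact_mod_cast hγ
  have h2 : ((γ * Q * x / U : ℕ) : ℝ) ≤ ((γ * Q * x : ℕ) : ℝ) / U := Nat.cast_div_le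
  push_cast at h2
  unfold ee
  calc (U : ℝ) / γ * (((γ * Q * x / U : ℕ) : ℝ) / Q)
      ≤ (U : ℝ) / γ * ((γ * Q * x / U : ℝ) / Q) := by gcongr
    _ = x := by field_simp

theorem le_ee_mul (hQ : 0 < Q) (hU : 0 < U) (hγ : 0 < γ) (x : ℕ) :
    (x : ℝ) ≤ (U : ℝ) / γ * ee Q γ U x + U / (γ * Q) := by
  have hQ' : (0 : ℝ) < Q := by exact_mod_cast hQ
  have hU' : (0 : ℝ) < U := by exact_mod_cast hU
  have hγ' : (0 : ℝ) < γ := by exact_mod_cast hγ
  have h1 : ((γ * Q * x : ℕ) : ℝ) ≤ (U : ℝ) * (((γ * Q * x / U : ℕ) : ℝ) + 1) := by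
    exact_mod_cast (Nat.lt_mul_div_succ (γ * Q * x) hU).le
  push_cast at h1
  unfold ee
  have e1 : (U : ℝ) / γ * (((γ * Q * x / U : ℕ) : ℝ) / Q) + U / (γ * Q)
      = (U : ℝ) * (((γ * Q * x / U : ℕ) : ℝ) + 1) / (γ * Q) := by
    generalize ((γ * Q * x / U : ℕ) : ℝ) = y
    field_simp
  rw [e1, le_div_iff₀ (by positivity)]
  calc (x : ℝ) * (γ * Q) = γ * Q * x := by ring
    _ ≤ _ := h1

theorem fc_real (hQ : 0 < Q) (hU : 0 < U) (hg : 0 < g) {x : ℕ} (h : γ * x * g ≤ U) :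
    (fc Q g γ U x : ℝ) = Q * (1 - ee Q γ U x) := by
  have h1 := noclip (Q := Q) hU hg h
  have h2 : Q / g ≤ Q := Nat.div_le_self _ _
  have hQ' : (0 : ℝ) < Q := by exact_mod_cast hQ
  unfold fc ee
  rw [min_eq_right h1, Nat.cast_sub (h1.trans h2)]
  field_simp

theorem half_le_fc (hg : 2 ≤ g) (x : ℕ) : Q ≤ 2 * fc Q g γ U x := by
  unfold fc
  have h1 : min (Q / g) (γ * Q * x / U) ≤ Q / g := min_le_left _ _
  have h2 : Q / g ≤ Q / 2 := Nat.div_le_div_left hg (by norm_num)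
  omega

theorem fc_pos (hQ : 0 < Q) (hg : 2 ≤ g) (x : ℕ) : 0 < fc Q g γ U x := by
  have := half_le_fc (Q := Q) (g := g) (γ := γ) (U := U) hg x
  omega

theorem fc_le (x : ℕ) : fc Q g γ U x ≤ Q := Nat.sub_le _ _

end factor

/-! ### one state, real form -/

/-- **one decision state, all ranks, real form.** -/
theorem state_gen {B K : ℕ} {g Y r η ρ : ℝ} (hg : 2 ≤ g) (hY : 0 < Y) (hr0 : 0 ≤ r)
    (hr1 : r ≤ 1 / 2) (u e w : ℕ → ℕ → ℝ) (m h : ℕ → ℝ) {z' : ℕ} (hz : z' < B)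
    (hw : ∀ k ≤ K, ∀ z < B, 0 ≤ w k z) (hw0 : 0 < w 0 z')
    (he0 : ∀ k < K, ∀ z < B, 0 ≤ e k z) (he1 : ∀ k < K, e k z' ≤ 1 / g)
    (hlow : ∀ k < K, ∀ z < B, m k + Y * e k z ≤ u k z)
    (hupp : ∀ k < K, ∀ z < B, u k z ≤ m k + Y * e k z + η)
    (hup : ∀ k < K, ∀ z < B, w (k + 1) z ≤ w k z * (1 - e k z))
    (hlo : ∀ k < K, w k z' * (1 - e k z') * (1 - r) ≤ w (k + 1) z')
    (hh : ∀ k < K, |h k - (∑ z ∈ range B, w k z * u k z) / ∑ z ∈ range B, w k z| ≤ ρ) :
    ∃ cr : ℕ → ℝ, (∀ k < K, 0 ≤ cr k) ∧ (∀ k < K, m k + cr k ≤ h k + ρ) ∧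
      ∑ k ∈ range K, h k ≤ ∑ k ∈ range K, u k z' + (∑ k ∈ range K, cr k) / g
        + Y * (Real.log ((∑ z ∈ range B, w 0 z) / w 0 z') + 2 * r * K) + K * (η + ρ) := by
  set w' : ℕ → Fin B → ℝ := fun k z => w k z with hwd
  set e' : ℕ → Fin B → ℝ := fun k z => e k z with hed
  set V : ℕ → Fin B → ℝ := fun k z => u k z with hVd
  have hg0 : 0 < g := by linarith
  have hg1 : 1 / g ≤ 1 / 2 := one_div_le_one_div_of_le (by norm_num) hg
  -- positivity of the comparator's weight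
  have hpos : ∀ k ≤ K, 0 < w k z' := by
    intro k
    induction k with
    | zero => intro _; exact hw0
    | succ k ih =>
      intro hk
      have h1 := ih (by omega)
      have h2 : 0 < 1 - e k z' := by have := he1 k (by omega); linarith
      have h3 : 0 < 1 - r := by linarith
      exact lt_of_lt_of_le (mul_pos (mul_pos h1 h2) h3) (hlo k (by omega))
  have hS : ∀ k ≤ K, 0 < ∑ z, w' k z := fun k hk =>
    lt_of_lt_of_le (hpos k hk)
      (single_le_sum (f := fun z => w' k z) (fun z _ => hw k hk z z.2) (mem_univ ⟨z', hz⟩))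
  have hav : ∀ k, (∑ z ∈ range B, w k z * u k z) / ∑ z ∈ range B, w k z = av (w' k) (V k) := by
    intro k
    unfold av
    rw [← Fin.sum_univ_eq_sum_range (fun z => w k z * u k z) B,
      ← Fin.sum_univ_eq_sum_range (fun z => w k z) B]
  have hfl : ∀ k < K, h k ≤ av (w' k) (V k) + ρ ∧ av (w' k) (V k) ≤ h k + ρ := by
    intro k hk
    have h1 := abs_le.1 (hh k hk)
    rw [hav k] at h1
    constructor <;> linarith [h1.1, h1.2]
  -- credits
  have hcred : ∀ k < K, m k + Y * av (w' k) (e' k) ≤ av (w' k) (V k) := by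
    intro k hk
    have h1 := av_affine (w' k) (e' k) Y (m k) (hS k hk.le).ne'
    have h2 : av (w' k) (fun z => Y * e' k z + m k) ≤ av (w' k) (V k) := by
      refine av_mono (fun z => hw k hk.le z z.2) fun z => ?_
      have := hlow k hk z z.2
      show Y * e k z + m k ≤ u k z
      linarith
    linarith
  have hclip : ∀ k < K, av (w' k) (V k) ≤ m k + Y * av (w' k) (e' k) + η := by
    intro k hk
    have h1 := av_affine (w' k) (e' k) Y (m k + η) (hS k hk.le).ne'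
    have h2 : av (w' k) (V k) ≤ av (w' k) (fun z => Y * e' k z + (m k + η)) := by
      refine av_mono (fun z => hw k hk.le z z.2) fun z => ?_
      have := hupp k hk z z.2
      show u k z ≤ Y * e k z + (m k + η)
      linarith
    linarith
  refine ⟨fun k => Y * av (w' k) (e' k), fun k hk => ?_, fun k hk => ?_, ?_⟩
  · refine mul_nonneg hY.le (div_nonneg (sum_nonneg fun z _ => mul_nonneg (hw k hk.le z z.2)
      (he0 k hk z z.2)) (sum_nonneg fun z _ => hw k hk.le z z.2))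
  · exact (hcred k hk).trans (hfl k hk).2
  · have hm := main (K := K) (w := w') (e := e') (r := fun _ => r) (th := 1) (g := g)
      (⟨z', hz⟩ : Fin B) (by linarith) one_pos (fun k hk z => hw k hk z z.2)
      hw0 (fun k hk => he0 k hk z' hz)
      (fun k hk => by rw [one_mul]; exact he1 k hk)
      (fun k _ => by linarith)
      (fun k hk z => by rw [one_mul]; exact hup k hk z z.2)
      (fun k hk => by rw [one_mul]; exact hlo k hk)
    have hlog : -∑ _k ∈ range K, Real.log (1 - r) ≤ 2 * r * K := by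
      have h1 := neg_log_one_sub_le hr0 hr1
      rw [sum_const, card_range, nsmul_eq_mul]
      have h2 : (K : ℝ) * -Real.log (1 - r) ≤ K * (2 * r) :=
        mul_le_mul_of_nonneg_left h1 (Nat.cast_nonneg _)
      linarith
    have hlog0 : 0 ≤ Real.log ((∑ z, w' 0 z) / w' 0 ⟨z', hz⟩) := by
      refine Real.log_nonneg ?_
      rw [one_le_div (show (0 : ℝ) < w' 0 ⟨z', hz⟩ from hw0)]
      exact single_le_sum (f := fun z => w' 0 z) (fun z _ => hw 0 (by omega) z z.2) (mem_univ _)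
    have e0 : (∑ z, w' 0 z) = ∑ z ∈ range B, w 0 z := Fin.sum_univ_eq_sum_range (fun z => w 0 z) B
    have e0' : w' 0 ⟨z', hz⟩ = w 0 z' := rfl
    rw [e0, e0'] at hm hlog0
    set LG := Real.log ((∑ z ∈ range B, w 0 z) / w 0 z') with hLG
    set SL := ∑ _k ∈ range K, Real.log (1 - r) with hSL
    set SE := ∑ k ∈ range K, av (w' k) (e' k) with hSE
    set SZ := ∑ k ∈ range K, e' k ⟨z', hz⟩ with hSZ
    have hSL0 : SL ≤ 0 := Finset.sum_nonpos fun k _ => Real.log_nonpos (by linarith) (by linarith)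
    have h1g : 1 - 1 / g ≤ 1 := by
      have : 0 ≤ 1 / g := by positivity
      linarith
    have hA : SE ≤ SZ + SE / g + (LG + 2 * r * K) := by
      have h1 : (1 - 1 / g) * (LG - SL) / 1 ≤ LG + 2 * r * K := by
        rw [div_one]
        calc (1 - 1 / g) * (LG - SL) ≤ 1 * (LG - SL) :=
              mul_le_mul_of_nonneg_right h1g (by linarith)
          _ ≤ _ := by linarith
      have h2 : (1 - 1 / g) * SE = SE - SE / g := by ring
      linarith
    have hV : ∑ k ∈ range K, av (w' k) (V k) ≤ ∑ k ∈ range K, m k + Y * SE + K * η := by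
      have := sum_le_sum (s := range K) fun k hk => hclip k (mem_range.1 hk)
      rw [sum_add_distrib, sum_add_distrib, sum_const, card_range, nsmul_eq_mul, ← mul_sum] at this
      exact this
    have hz' : ∑ k ∈ range K, m k + Y * SZ ≤ ∑ k ∈ range K, u k z' := by
      rw [hSZ, mul_sum, ← sum_add_distrib]
      exact sum_le_sum fun k hk => hlow k (mem_range.1 hk) z' hz
    have hsum : ∑ k ∈ range K, h k ≤ ∑ k ∈ range K, av (w' k) (V k) + K * ρ := by
      have := sum_le_sum (s := range K) fun k hk => (hfl k (mem_range.1 hk)).1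
      rw [sum_add_distrib, sum_const, card_range, nsmul_eq_mul] at this
      exact this
    have hA' := mul_le_mul_of_nonneg_left hA hY.le
    have e3 : (∑ k ∈ range K, Y * av (w' k) (e' k)) / g = Y * (SE / g) := by
      rw [← mul_sum]; ring
    rw [e3]
    have e4 : Y * (SZ + SE / g + (LG + 2 * r * K))
        = Y * SZ + Y * (SE / g) + Y * (LG + 2 * r * K) := by ring
    rw [e4] at hA'
    linarith

/-! ### natural losses -/

section nat

variable {Q g γ B U K : ℕ} {w₀ : ℕ → ℕ} {u : ℕ → ℕ → ℕ}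

/-- floored weights: a letter is at most halved by every rank -/
theorem wF_ge {M : ℕ} (hQ : 0 < Q) (hg : 2 ≤ g) {z : ℕ} (hw : M * 2 ^ K ≤ w₀ z) :
    ∀ k ≤ K, M * 2 ^ (K - k) ≤ wF Q g γ B U w₀ u k z := by
  intro k
  induction k with
  | zero => intro _; exact hw
  | succ k ih =>
    intro hk
    have h1 := ih (by omega)
    show _ ≤ wF Q g γ B U w₀ u k z * fc Q g γ U (u k z - mn B (u k)) / Q
    rw [Nat.le_div_iff_mul_le hQ]
    have h2 := half_le_fc (Q := Q) (g := g) (γ := γ) (U := U) hg (u k z - mn B (u k))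
    have e1 : M * 2 ^ (K - k) = 2 * (M * 2 ^ (K - (k + 1))) := by
      have : K - k = (K - (k + 1)) + 1 := by omega
      rw [this, pow_succ]
      ring
    rw [e1] at h1
    have h3 : 2 * (M * 2 ^ (K - (k + 1)) * Q)
        ≤ 2 * (wF Q g γ B U w₀ u k z * fc Q g γ U (u k z - mn B (u k))) := by
      calc 2 * (M * 2 ^ (K - (k + 1)) * Q) = 2 * (M * 2 ^ (K - (k + 1))) * Q := by ring
        _ ≤ wF Q g γ B U w₀ u k z * (2 * fc Q g γ U (u k z - mn B (u k))) :=
            Nat.mul_le_mul h1 h2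
        _ = _ := by ring
    omega

theorem le_wF {M : ℕ} (hQ : 0 < Q) (hg : 2 ≤ g) {z : ℕ} (hw : M * 2 ^ K ≤ w₀ z) {k : ℕ}
    (hk : k ≤ K) : M ≤ wF Q g γ B U w₀ u k z :=
  (Nat.le_mul_of_pos_right _ (by positivity)).trans (wF_ge hQ hg hw k hk)

/-- **one state, floored weights** (`Alg45.wts`); `h k` = any rounding of the mean. -/
theorem state_floor {M : ℕ} {ρ : ℝ} (hQ : 0 < Q) (hg : 2 ≤ g) (hγ : 0 < γ) (hU : 0 < U)
    (hM : 4 ≤ M) {z' : ℕ} (hz : z' < B) (hw : M * 2 ^ K ≤ w₀ z')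
    (hosc : ∀ k < K, ∀ z < B, γ * (u k z - mn B (u k)) * g ≤ U) (h : ℕ → ℝ)
    (hh : ∀ k < K, |h k - (∑ z ∈ range B, (wF Q g γ B U w₀ u k z : ℝ) * u k z)
      / ∑ z ∈ range B, (wF Q g γ B U w₀ u k z : ℝ)| ≤ ρ) :
    ∃ cr : ℕ → ℝ, (∀ k < K, 0 ≤ cr k) ∧ (∀ k < K, (mn B (u k) : ℝ) + cr k ≤ h k + ρ) ∧
      ∑ k ∈ range K, h k ≤ ∑ k ∈ range K, (u k z' : ℝ) + (∑ k ∈ range K, cr k) / g
        + (U : ℝ) / γ * (Real.log ((∑ z ∈ range B, (w₀ z : ℝ)) / w₀ z') + 4 * K / M)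
        + K * (U / (γ * Q) + ρ) := by
  have hQ' : (0 : ℝ) < Q := by exact_mod_cast hQ
  have hU' : (0 : ℝ) < U := by exact_mod_cast hU
  have hγ' : (0 : ℝ) < γ := by exact_mod_cast hγ
  have hg0 : 0 < g := by omega
  have hg1 : (2 : ℝ) ≤ g := by exact_mod_cast hg
  have hM' : (4 : ℝ) ≤ M := by exact_mod_cast hM
  set W := wF Q g γ B U w₀ u with hW
  have hWM : ∀ k ≤ K, M ≤ W k z' := fun k hk => le_wF hQ hg hw hk
  obtain ⟨cr, h0, h1, h2⟩ := state_gen (B := B) (K := K) (g := g) (Y := (U : ℝ) / γ)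
    (r := 2 / (M : ℝ)) (η := U / (γ * Q)) (ρ := ρ) hg1 (by positivity) (by positivity)
    (by rw [div_le_iff₀ (by linarith)]; linarith)
    (fun k z => u k z) (fun k z => ee Q γ U (u k z - mn B (u k))) (fun k z => W k z)
    (fun k => mn B (u k)) h hz (fun _ _ _ _ => Nat.cast_nonneg _)
    (by
      have := hWM 0 (by omega)
      exact_mod_cast (by omega : 0 < W 0 z'))
    (fun _ _ _ _ => ee_nonneg _)
    (fun k hk => ee_le hQ hU hg0 (hosc k hk z' hz))
    (fun k _ z hz => by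
      have h3 := ee_mul_le hQ hU hγ (u k z - mn B (u k))
      rw [Nat.cast_sub (mn_le _ hz)] at h3
      linarith)
    (fun k _ z hz => by
      have h3 := le_ee_mul hQ hU hγ (u k z - mn B (u k))
      rw [Nat.cast_sub (mn_le _ hz)] at h3
      linarith)
    (fun k hk z hz => by
      have h1 := fc_real hQ hU hg0 (hosc k hk z hz)
      have h2 : (W (k + 1) z : ℝ) ≤ ((W k z * fc Q g γ U (u k z - mn B (u k)) : ℕ) : ℝ) / Q :=
        Nat.cast_div_le
      refine h2.trans (le_of_eq ?_)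
      push_cast
      rw [h1]
      field_simp)
    (fun k hk => by
      have h1 := fc_real hQ hU hg0 (hosc k hk z' hz)
      have hx := ee_le hQ hU hg0 (hosc k hk z' hz)
      have hWk' : (M : ℝ) ≤ W k z' := by exact_mod_cast hWM k hk.le
      have h2 : ((W k z' * fc Q g γ U (u k z' - mn B (u k)) : ℕ) : ℝ)
          ≤ Q * ((W (k + 1) z' : ℝ) + 1) := by
        exact_mod_cast (Nat.lt_mul_div_succ (W k z' * fc Q g γ U (u k z' - mn B (u k))) hQ).le
      push_cast at h2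
      rw [h1] at h2
      set ex := ee Q γ U (u k z' - mn B (u k)) with hex
      have h3 : (W k z' : ℝ) * (1 - ex) ≤ W (k + 1) z' + 1 := by
        have : Q * ((W k z' : ℝ) * (1 - ex)) ≤ Q * ((W (k + 1) z' : ℝ) + 1) := by
          calc Q * ((W k z' : ℝ) * (1 - ex)) = (W k z' : ℝ) * (Q * (1 - ex)) := by ring
            _ ≤ _ := h2
        exact le_of_mul_le_mul_left this hQ'
      have h4 : (1 : ℝ) / 2 ≤ 1 - ex := by
        have : (1 : ℝ) / g ≤ 1 / 2 := one_div_le_one_div_of_le (by norm_num) hg1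
        linarith
      have h5 : 1 ≤ (W k z' : ℝ) * (1 - ex) * (2 / M) := by
        have hMp : (0 : ℝ) < M := by linarith
        have h6 : (M : ℝ) * (1 / 2) ≤ (W k z' : ℝ) * (1 - ex) :=
          mul_le_mul hWk' h4 (by norm_num) (by linarith)
        calc (1 : ℝ) = (M : ℝ) * (1 / 2) * (2 / M) := by field_simp
          _ ≤ _ := mul_le_mul_of_nonneg_right h6 (by positivity)
      nlinarith)
    hh
  refine ⟨cr, h0, h1, h2.trans (le_of_eq ?_)⟩
  have e1 : 2 * (2 / (M : ℝ)) * K = 4 * K / M := by ring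
  rw [e1]
  rfl

/-- **one state, exact big weights**; `h k` = any rounding of the mean. -/
theorem state_exact {ρ : ℝ} (hQ : 0 < Q) (hg : 2 ≤ g) (hγ : 0 < γ) (hU : 0 < U) {z' : ℕ}
    (hz : z' < B) (hw : 0 < w₀ z')
    (hosc : ∀ k < K, ∀ z < B, γ * (u k z - mn B (u k)) * g ≤ U) (h : ℕ → ℝ)
    (hh : ∀ k < K, |h k - (∑ z ∈ range B, (wE Q g γ B U w₀ u k z : ℝ) * u k z)
      / ∑ z ∈ range B, (wE Q g γ B U w₀ u k z : ℝ)| ≤ ρ) :
    ∃ cr : ℕ → ℝ, (∀ k < K, 0 ≤ cr k) ∧ (∀ k < K, (mn B (u k) : ℝ) + cr k ≤ h k + ρ) ∧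
      ∑ k ∈ range K, h k ≤ ∑ k ∈ range K, (u k z' : ℝ) + (∑ k ∈ range K, cr k) / g
        + (U : ℝ) / γ * Real.log ((∑ z ∈ range B, (w₀ z : ℝ)) / w₀ z')
        + K * (U / (γ * Q) + ρ) := by
  have hQ' : (0 : ℝ) < Q := by exact_mod_cast hQ
  have hU' : (0 : ℝ) < U := by exact_mod_cast hU
  have hγ' : (0 : ℝ) < γ := by exact_mod_cast hγ
  have hg0 : 0 < g := by omega
  have hg1 : (2 : ℝ) ≤ g := by exact_mod_cast hg
  set W := wE Q g γ B U w₀ u with hW
  obtain ⟨cr, h0, h1, h2⟩ := state_gen (B := B) (K := K) (g := g) (Y := (U : ℝ) / γ)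
    (r := 0) (η := U / (γ * Q)) (ρ := ρ) hg1 (by positivity) le_rfl (by norm_num)
    (fun k z => u k z) (fun k z => ee Q γ U (u k z - mn B (u k)))
    (fun k z => (W k z : ℝ) / (Q : ℝ) ^ k)
    (fun k => mn B (u k)) h hz (fun _ _ _ _ => by positivity)
    (by
      show (0 : ℝ) < (w₀ z' : ℝ) / (Q : ℝ) ^ 0
      rw [pow_zero, div_one]
      exact_mod_cast hw)
    (fun _ _ _ _ => ee_nonneg _)
    (fun k hk => ee_le hQ hU hg0 (hosc k hk z' hz))
    (fun k _ z hz => by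
      have h3 := ee_mul_le hQ hU hγ (u k z - mn B (u k))
      rw [Nat.cast_sub (mn_le _ hz)] at h3
      linarith)
    (fun k _ z hz => by
      have h3 := le_ee_mul hQ hU hγ (u k z - mn B (u k))
      rw [Nat.cast_sub (mn_le _ hz)] at h3
      linarith)
    (fun k hk z hz => by
      have h1 := fc_real hQ hU hg0 (hosc k hk z hz)
      have h2 : (W (k + 1) z : ℝ) = (W k z : ℝ) * (fc Q g γ U (u k z - mn B (u k)) : ℝ) := by
        rw [← Nat.cast_mul]
        rfl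
      show (W (k + 1) z : ℝ) / (Q : ℝ) ^ (k + 1)
        ≤ (W k z : ℝ) / (Q : ℝ) ^ k * (1 - ee Q γ U (u k z - mn B (u k)))
      rw [h2, h1, pow_succ]
      refine le_of_eq ?_
      field_simp)
    (fun k hk => by
      have h1 := fc_real hQ hU hg0 (hosc k hk z' hz)
      have h2 : (W (k + 1) z' : ℝ) = (W k z' : ℝ) * (fc Q g γ U (u k z' - mn B (u k)) : ℝ) := by
        rw [← Nat.cast_mul]
        rfl
      show (W k z' : ℝ) / (Q : ℝ) ^ k * (1 - ee Q γ U (u k z' - mn B (u k))) * (1 - 0)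
        ≤ (W (k + 1) z' : ℝ) / (Q : ℝ) ^ (k + 1)
      rw [h2, h1, pow_succ]
      refine le_of_eq ?_
      field_simp
      ring)
    (fun k hk => by
      have e1 : (∑ z ∈ range B, (W k z : ℝ) / (Q : ℝ) ^ k * u k z)
          / ∑ z ∈ range B, (W k z : ℝ) / (Q : ℝ) ^ k
          = (∑ z ∈ range B, (W k z : ℝ) * u k z) / ∑ z ∈ range B, (W k z : ℝ) := by
        have hp : (Q : ℝ) ^ k ≠ 0 := by positivity
        have e2 : ∑ z ∈ range B, (W k z : ℝ) / (Q : ℝ) ^ k * u k z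
            = (∑ z ∈ range B, (W k z : ℝ) * u k z) / (Q : ℝ) ^ k := by
          rw [sum_div]
          exact sum_congr rfl fun z _ => by ring
        rw [e2, ← sum_div, div_div_div_cancel_right₀ hp]
      show |h k - (∑ z ∈ range B, (W k z : ℝ) / (Q : ℝ) ^ k * u k z)
          / ∑ z ∈ range B, (W k z : ℝ) / (Q : ℝ) ^ k| ≤ ρ
      rw [e1]
      exact hh k hk)
  refine ⟨cr, h0, h1, h2.trans (le_of_eq ?_)⟩
  have e1 : (∑ z ∈ range B, (W 0 z : ℝ) / (Q : ℝ) ^ 0) / ((W 0 z' : ℝ) / (Q : ℝ) ^ 0)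
      = (∑ z ∈ range B, (w₀ z : ℝ)) / w₀ z' := by
    simp only [pow_zero, div_one]
    rfl
  rw [e1]
  ring

end nat

/-! ### ALG v2: factor `2 D - min D (2 a x)` -/

section two

variable {a D B K : ℕ} {w₀ : ℕ → ℕ} {u : ℕ → ℕ → ℕ}

/-- factor of a letter with excess `x` -/
def fc2 (a D x : ℕ) : ℕ := 2 * D - min D (2 * a * x)

/-- weights of rank `k` -/
def w2 (a D B : ℕ) (w₀ : ℕ → ℕ) (u : ℕ → ℕ → ℕ) : ℕ → ℕ → ℕ
  | 0, z => w₀ z
  | k + 1, z => w2 a D B w₀ u k z * fc2 a D (u k z - mn B (u k))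

theorem w2_congr {w₀' : ℕ → ℕ} {u' : ℕ → ℕ → ℕ} (k : ℕ)
    (hw : ∀ z < B, w₀ z = w₀' z) (hu : ∀ i < k, ∀ z < B, u i z = u' i z) :
    ∀ z < B, w2 a D B w₀ u k z = w2 a D B w₀' u' k z := by
  induction k with
  | zero => exact hw
  | succ k ih =>
    intro z hz
    have h1 := ih (fun i hi => hu i (by omega)) z hz
    show w2 a D B w₀ u k z * fc2 a D (u k z - mn B (u k))
      = w2 a D B w₀' u' k z * fc2 a D (u' k z - mn B (u' k))
    rw [h1, hu k (by omega) z hz, mn_congr (by omega : 0 < B) (hu k (by omega))]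

theorem fc2_pos (hD : 0 < D) (x : ℕ) : 0 < fc2 a D x := by
  unfold fc2
  have : min D (2 * a * x) ≤ D := min_le_left _ _
  omega

theorem w2_pos (hD : 0 < D) {z : ℕ} (hw : 0 < w₀ z) (k : ℕ) : 0 < w2 a D B w₀ u k z := by
  induction k with
  | zero => exact hw
  | succ k ih => exact Nat.mul_pos ih (fc2_pos hD _)

theorem fc2_real {x g : ℕ} (hg : 2 ≤ g) (h : a * x * g ≤ D) :
    (fc2 a D x : ℝ) = 2 * D - 2 * a * x := by
  have h1 : 2 * a * x ≤ D := by
    calc 2 * a * x = a * x * 2 := by ring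
      _ ≤ a * x * g := Nat.mul_le_mul_left _ hg
      _ ≤ D := h
  unfold fc2
  rw [min_eq_right h1, Nat.cast_sub (by omega)]
  push_cast
  ring

/-- **one state, exact weights of ALG v2**; `h k` = any rounding of the mean. -/
theorem state_two {g : ℕ} {ρ : ℝ} (hg : 2 ≤ g) (ha : 0 < a) (hD : 0 < D) {z' : ℕ}
    (hz : z' < B) (hw : 0 < w₀ z')
    (hosc : ∀ k < K, ∀ z < B, a * (u k z - mn B (u k)) * g ≤ D) (h : ℕ → ℝ)
    (hh : ∀ k < K, |h k - (∑ z ∈ range B, (w2 a D B w₀ u k z : ℝ) * u k z)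
      / ∑ z ∈ range B, (w2 a D B w₀ u k z : ℝ)| ≤ ρ) :
    ∃ cr : ℕ → ℝ, (∀ k < K, 0 ≤ cr k) ∧ (∀ k < K, (mn B (u k) : ℝ) + cr k ≤ h k + ρ) ∧
      ∑ k ∈ range K, h k ≤ ∑ k ∈ range K, (u k z' : ℝ) + (∑ k ∈ range K, cr k) / g
        + (D : ℝ) / a * Real.log ((∑ z ∈ range B, (w₀ z : ℝ)) / w₀ z') + K * ρ := by
  have hD' : (0 : ℝ) < D := by exact_mod_cast hD
  have ha' : (0 : ℝ) < a := by exact_mod_cast ha
  have hg1 : (2 : ℝ) ≤ g := by exact_mod_cast hg
  have hg0 : (0 : ℝ) < g := by linarith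
  set W := w2 a D B w₀ u with hW
  have hcast : ∀ k, ∀ z < B, ((u k z - mn B (u k) : ℕ) : ℝ) = (u k z : ℝ) - mn B (u k) :=
    fun k z hz => Nat.cast_sub (mn_le _ hz)
  have hx0 : ∀ k, ∀ z < B, (0 : ℝ) ≤ (u k z : ℝ) - mn B (u k) := fun k z hz => by
    rw [← hcast k z hz]; exact Nat.cast_nonneg _
  obtain ⟨cr, h0, h1, h2⟩ := state_gen (B := B) (K := K) (g := g) (Y := (D : ℝ) / a)
    (r := 0) (η := 0) (ρ := ρ) hg1 (by positivity) le_rfl (by norm_num)
    (fun k z => u k z) (fun k z => (a : ℝ) / D * ((u k z : ℝ) - mn B (u k)))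
    (fun k z => (W k z : ℝ) / (2 * D : ℝ) ^ k)
    (fun k => mn B (u k)) h hz (fun _ _ _ _ => by positivity)
    (by
      show (0 : ℝ) < (w₀ z' : ℝ) / (2 * D : ℝ) ^ 0
      rw [pow_zero, div_one]
      exact_mod_cast hw)
    (fun k _ z hz => mul_nonneg (by positivity) (hx0 k z hz))
    (fun k hk => by
      have h3 : ((a * (u k z' - mn B (u k)) * g : ℕ) : ℝ) ≤ D := by exact_mod_cast hosc k hk z' hz
      push_cast [mn_le (u k) hz] at h3
      rw [div_mul_eq_mul_div, div_le_div_iff₀ hD' hg0]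
      linarith)
    (fun k _ z hz => by
      refine le_of_eq ?_
      field_simp
      ring)
    (fun k _ z hz => by
      refine le_of_eq ?_
      field_simp
      ring)
    (fun k hk z hz => by
      have h1 := fc2_real hg (hosc k hk z hz)
      rw [hcast k z hz] at h1
      have h2 : (W (k + 1) z : ℝ) = (W k z : ℝ) * (fc2 a D (u k z - mn B (u k)) : ℝ) := by
        rw [← Nat.cast_mul]
        rfl
      show (W (k + 1) z : ℝ) / (2 * D : ℝ) ^ (k + 1)
        ≤ (W k z : ℝ) / (2 * D : ℝ) ^ k * (1 - (a : ℝ) / D * ((u k z : ℝ) - mn B (u k)))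
      rw [h2, h1, pow_succ]
      refine le_of_eq ?_
      field_simp
      try ring)
    (fun k hk => by
      have h1 := fc2_real hg (hosc k hk z' hz)
      rw [hcast k z' hz] at h1
      have h2 : (W (k + 1) z' : ℝ) = (W k z' : ℝ) * (fc2 a D (u k z' - mn B (u k)) : ℝ) := by
        rw [← Nat.cast_mul]
        rfl
      show (W k z' : ℝ) / (2 * D : ℝ) ^ k * (1 - (a : ℝ) / D * ((u k z' : ℝ) - mn B (u k))) * (1 - 0)
        ≤ (W (k + 1) z' : ℝ) / (2 * D : ℝ) ^ (k + 1)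
      rw [h2, h1, pow_succ]
      refine le_of_eq ?_
      field_simp
      try ring)
    (fun k hk => by
      have e1 : (∑ z ∈ range B, (W k z : ℝ) / (2 * D : ℝ) ^ k * u k z)
          / ∑ z ∈ range B, (W k z : ℝ) / (2 * D : ℝ) ^ k
          = (∑ z ∈ range B, (W k z : ℝ) * u k z) / ∑ z ∈ range B, (W k z : ℝ) := by
        have hp : (2 * D : ℝ) ^ k ≠ 0 := by positivity
        have e2 : ∑ z ∈ range B, (W k z : ℝ) / (2 * D : ℝ) ^ k * u k z
            = (∑ z ∈ range B, (W k z : ℝ) * u k z) / (2 * D : ℝ) ^ k := by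
          rw [sum_div]
          exact sum_congr rfl fun z _ => by ring
        rw [e2, ← sum_div, div_div_div_cancel_right₀ hp]
      show |h k - (∑ z ∈ range B, (W k z : ℝ) / (2 * D : ℝ) ^ k * u k z)
          / ∑ z ∈ range B, (W k z : ℝ) / (2 * D : ℝ) ^ k| ≤ ρ
      rw [e1]
      exact hh k hk)
  refine ⟨cr, h0, h1, h2.trans (le_of_eq ?_)⟩
  have e1 : (∑ z ∈ range B, (W 0 z : ℝ) / (2 * D : ℝ) ^ 0) / ((W 0 z' : ℝ) / (2 * D : ℝ) ^ 0)
      = (∑ z ∈ range B, (w₀ z : ℝ)) / w₀ z' := by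
    simp only [pow_zero, div_one]
    rfl
  rw [e1]
  ring

end two

/-! ### roundings -/

theorem floor_near {x y : ℕ} (hy : 0 < y) : |((x / y : ℕ) : ℝ) - (x : ℝ) / y| ≤ 1 := by
  have hy' : (0 : ℝ) < y := by exact_mod_cast hy
  have h1 : ((x / y : ℕ) : ℝ) ≤ (x : ℝ) / y := Nat.cast_div_le
  have h2 : (x : ℝ) ≤ y * (((x / y : ℕ) : ℝ) + 1) := by
    exact_mod_cast (Nat.lt_mul_div_succ x hy).le
  have h3 : (x : ℝ) / y ≤ ((x / y : ℕ) : ℝ) + 1 := by
    rw [div_le_iff₀ hy']; linarith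
  rw [abs_le]
  constructor <;> linarith

theorem ceil_near {x y : ℕ} (hy : 0 < y) : |(((x + y - 1) / y : ℕ) : ℝ) - (x : ℝ) / y| ≤ 1 := by
  have hy' : (0 : ℝ) < y := by exact_mod_cast hy
  have h1 : ((((x + y - 1) / y : ℕ)) : ℝ) ≤ ((x + y - 1 : ℕ) : ℝ) / y := Nat.cast_div_le
  have h0 : ((x + y - 1 : ℕ) : ℝ) = (x : ℝ) + y - 1 := by
    rw [Nat.cast_sub (by omega)]; push_cast; ring
  rw [h0] at h1
  have h2 : x ≤ y * ((x + y - 1) / y) := by
    have h5 := Nat.lt_mul_div_succ (x + y - 1) hy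
    rw [Nat.mul_add] at h5
    omega
  have h2' : (x : ℝ) ≤ y * (((x + y - 1) / y : ℕ) : ℝ) := by exact_mod_cast h2
  have h3 : (x : ℝ) / y ≤ (((x + y - 1) / y : ℕ) : ℝ) := by
    rw [div_le_iff₀ hy']; linarith
  have h4 : ((x : ℝ) + y - 1) / y ≤ (x : ℝ) / y + 1 := by
    rw [div_add_one hy'.ne']
    exact div_le_div_of_nonneg_right (by linarith) hy'.le
  rw [abs_le]
  constructor <;> linarith

end Crest.Agent.R288.RegA441
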