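import Mathlib
import Crest.Agent.R288.TreeA_330
import Crest.Agent.R288.HedgeB_330
import Crest.Agent.R288.CmpT_184

/-!
# R288 (S0433): WINDOW-(B) (post 4257, LEMMA 288-892)

Lemma (B) of #3987 with the greedy flag on a whole WINDOW of `N` decision levels instead of on
single levels.  `H k h s` = value of rank `k` at the in-window state `s` with `h` levels to go when
the window is not flagged (`H k 0` = the arbitrary end values of rank `k`), `V k h s` = its value
when the window is flagged (optimal play, precise same-rank end values), `w k h s ≥ 0` = curvature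
credit (variance / osc).

* `H_eq`, `V_le` : the two telescoping facts along the comparator's tree;
* `window_abs` : **arbitrary functions** `H`, `V`, `w`, errors `er`: if at the comparator's states
  `V k (h+1) s ≤ H k (h+1) s - w k h s + er`, `V k (h+1) s ≤ Q (V k h) z* + er` and
  `∑ k (H k (h+1) s - Q (H k h) z*) ≤ reg h s + (∑ k w k h s) / (g N)`, then
  `∑ k ((1-1/g) H k N x + (1/g) V k N x) ≤ ∑ k cost of z* with end values H k 0 + acc reg + er-terms`;
* `local_regret` : exponential weights with the second order term (one state, all ranks);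
* `window_B` : the instance for exponential weights over the ranks, `g * N * γ * o ≤ 1`;
* `window_Bn` : the same for noisy kernels (played mean within `η` of the ideal one).
-/

set_option autoImplicit false

namespace Crest.Agent.R288.WinB892

open Finset Crest.Agent.R288.TreeA330 Crest.Agent.R288.CmpT184

variable {S A J : Type*} [Fintype J]

/-- the game with the end values `e` -/
def withF (G : Game S A J) (e : S → ℝ) : Game S A J := { G with F := e }

variable (G : Game S A J) (zs : ℕ → S → A)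

theorem Q_mono [Fintype A] (hom : ∀ h s a j, 0 ≤ G.om h s a j) {f g : S → ℝ} (hfg : ∀ t, f t ≤ g t)
    (h : ℕ) (s : S) (a : A) : Q G h f s a ≤ Q G h g s a := by
  unfold Q
  have := Finset.sum_le_sum (s := (Finset.univ : Finset J)) fun j _ =>
    mul_le_mul_of_nonneg_left (hfg (G.nx h s a j)) (hom h s a j)
  linarith

@[simp] theorem cmp_withF_zero (e : S → ℝ) (s : S) : cmp (withF G e) zs 0 s = e s := rfl

theorem cmp_withF_succ (e : S → ℝ) (h : ℕ) (s : S) :
    cmp (withF G e) zs (h + 1) s = Q G h (cmp (withF G e) zs h) s (zs h s) := rfl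

/-- the local loss of the value function `H` against the comparator -/
def ls (H : ℕ → S → ℝ) (h : ℕ) (s : S) : ℝ := H (h + 1) s - Q G h (H h) s (zs h s)

/-- telescoping: value = comparator with the same end values + local losses -/
theorem H_eq (H : ℕ → S → ℝ) : ∀ (n : ℕ) (s : S),
    H n s = cmp (withF G (H 0)) zs n s + acc G zs n (ls G zs H) s := by
  intro n
  induction n with
  | zero => intro s; simp
  | succ h ih =>
    intro s
    rw [cmp_withF_succ, acc_succ]
    have h1 : H (h + 1) s = ls G zs H h s + Q G h (H h) s (zs h s) := by unfold ls; ring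
    rw [h1]
    have h2 : Q G h (H h) s (zs h s) = Q G h (cmp (withF G (H 0)) zs h) s (zs h s)
        + ∑ j, G.om h s (zs h s) j * acc G zs h (ls G zs H) (G.nx h s (zs h s) j) := by
      unfold Q
      rw [add_assoc, ← sum_add_distrib]
      congr 1
      refine sum_congr rfl fun j _ => ?_
      rw [ih, mul_add]
    rw [h2]
    ring

/-- the flagged value against the unflagged one, summed over the levels -/
theorem V_le (hom : ∀ h s a j, 0 ≤ G.om h s a j) {P : ℕ → S → Prop} (hP : Cl G zs P)
    (H V w er : ℕ → S → ℝ) (N : ℕ)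
    (h1 : ∀ h < N, ∀ s, P (h + 1) s → V (h + 1) s ≤ H (h + 1) s - w h s + er h s)
    (h2 : ∀ h < N, ∀ s, P (h + 1) s → V (h + 1) s ≤ Q G h (V h) s (zs h s) + er h s) :
    ∀ n ≤ N, ∀ s, P n s →
      (n : ℝ) * V n s ≤ n * H n s - acc G zs n (fun h s => (h : ℝ) * ls G zs H h s) s
        - acc G zs n w s + acc G zs n (fun h s => ((h : ℝ) + 1) * er h s) s := by
  intro n
  induction n with
  | zero => intro _ s _; simp
  | succ h ih =>
    intro hn s hs
    have ih' := ih (by omega)
    rw [acc_succ, acc_succ, acc_succ]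
    have e1 := h1 h (by omega) s hs
    have e2 := h2 h (by omega) s hs
    -- `h * V (h+1) s ≤ h * c + ∑ om * (h * V h s_j) + h er`
    have e3 : (h : ℝ) * V (h + 1) s ≤ h * G.c h s (zs h s)
        + ∑ j, G.om h s (zs h s) j * ((h : ℝ) * V h (G.nx h s (zs h s) j)) + h * er h s := by
      have := mul_le_mul_of_nonneg_left e2 (Nat.cast_nonneg (α := ℝ) h)
      refine this.trans (le_of_eq ?_)
      unfold Q
      rw [mul_add, mul_add, mul_sum]
      congr 2
      exact sum_congr rfl fun j _ => by ring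
    have e4 : ∑ j, G.om h s (zs h s) j * ((h : ℝ) * V h (G.nx h s (zs h s) j))
        ≤ ∑ j, G.om h s (zs h s) j * ((h : ℝ) * H h (G.nx h s (zs h s) j)
          - acc G zs h (fun h s => (h : ℝ) * ls G zs H h s) (G.nx h s (zs h s) j)
          - acc G zs h w (G.nx h s (zs h s) j)
          + acc G zs h (fun h s => ((h : ℝ) + 1) * er h s) (G.nx h s (zs h s) j)) := by
      refine Finset.sum_le_sum fun j _ => ?_
      by_cases h0 : G.om h s (zs h s) j = 0
      · simp [h0]
      · exact mul_le_mul_of_nonneg_left (ih' _ (hP h s j hs h0)) (hom _ _ _ _)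
    have e5 : ∑ j, G.om h s (zs h s) j * ((h : ℝ) * H h (G.nx h s (zs h s) j)
          - acc G zs h (fun h s => (h : ℝ) * ls G zs H h s) (G.nx h s (zs h s) j)
          - acc G zs h w (G.nx h s (zs h s) j)
          + acc G zs h (fun h s => ((h : ℝ) + 1) * er h s) (G.nx h s (zs h s) j))
        = (h : ℝ) * ∑ j, G.om h s (zs h s) j * H h (G.nx h s (zs h s) j)
          - ∑ j, G.om h s (zs h s) j
              * acc G zs h (fun h s => (h : ℝ) * ls G zs H h s) (G.nx h s (zs h s) j)
          - ∑ j, G.om h s (zs h s) j * acc G zs h w (G.nx h s (zs h s) j)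
          + ∑ j, G.om h s (zs h s) j
              * acc G zs h (fun h s => ((h : ℝ) + 1) * er h s) (G.nx h s (zs h s) j) := by
      rw [mul_sum, ← sum_sub_distrib, ← sum_sub_distrib, ← sum_add_distrib]
      exact sum_congr rfl fun j _ => by ring
    have e6 : ∑ j, G.om h s (zs h s) j * H h (G.nx h s (zs h s) j)
        = H (h + 1) s - ls G zs H h s - G.c h s (zs h s) := by
      unfold ls Q
      ring
    have e7 : ((h + 1 : ℕ) : ℝ) * V (h + 1) s = V (h + 1) s + h * V (h + 1) s := by
      push_cast; ring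
    rw [e7]
    rw [e5, e6] at e4
    push_cast
    nlinarith [e1, e3, e4]

/-- **WINDOW-(B), abstract.** -/
theorem window_abs (hom : ∀ h s a j, 0 ≤ G.om h s a j) {P : ℕ → S → Prop} (hP : Cl G zs P)
    (K N : ℕ) (hN : 0 < N) {g : ℝ} (hg : 1 ≤ g) (H V w er : ℕ → ℕ → S → ℝ) (reg : ℕ → S → ℝ)
    (hw : ∀ k < K, ∀ h < N, ∀ s, P (h + 1) s → 0 ≤ w k h s)
    (her : ∀ k < K, ∀ h < N, ∀ s, P (h + 1) s → 0 ≤ er k h s)
    (hreg : ∀ h < N, ∀ s, P (h + 1) s → 0 ≤ reg h s)
    (h1 : ∀ k < K, ∀ h < N, ∀ s, P (h + 1) s →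
      V k (h + 1) s ≤ H k (h + 1) s - w k h s + er k h s)
    (h2 : ∀ k < K, ∀ h < N, ∀ s, P (h + 1) s →
      V k (h + 1) s ≤ Q G h (V k h) s (zs h s) + er k h s)
    (h3 : ∀ h < N, ∀ s, P (h + 1) s →
      ∑ k ∈ range K, ls G zs (H k) h s ≤ reg h s + (∑ k ∈ range K, w k h s) / (g * N))
    (x : S) (hx : P N x) :
    ∑ k ∈ range K, ((1 - 1 / g) * H k N x + 1 / g * V k N x)
      ≤ ∑ k ∈ range K, cmp (withF G (H k 0)) zs N x + acc G zs N reg x
        + (∑ k ∈ range K, acc G zs N (er k) x) / g := by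
  have hg0 : 0 < g := by linarith
  have hN0 : (0 : ℝ) < N := by exact_mod_cast hN
  have hgN : 0 < g * N := mul_pos hg0 hN0
  -- per rank
  have key : ∀ k ∈ range K, (1 - 1 / g) * H k N x + 1 / g * V k N x
      ≤ cmp (withF G (H k 0)) zs N x + acc G zs N (ls G zs (H k)) x
        - (acc G zs N (fun h s => (h : ℝ) * ls G zs (H k) h s) x + acc G zs N (w k) x
            - acc G zs N (fun h s => ((h : ℝ) + 1) * er k h s) x) / (g * N) := by
    intro k hk
    have hk' := mem_range.1 hk
    have hv := V_le G zs hom hP (H k) (V k) (w k) (er k) N (h1 k hk') (h2 k hk') N le_rfl x hx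
    have he := H_eq G zs (H k) N x
    set a1 := acc G zs N (fun h s => (h : ℝ) * ls G zs (H k) h s) x
    set a2 := acc G zs N (w k) x
    set a3 := acc G zs N (fun h s => ((h : ℝ) + 1) * er k h s) x
    have h4 : 1 / g * V k N x ≤ 1 / g * H k N x - (a1 + a2 - a3) / (g * N) := by
      have : V k N x ≤ H k N x - (a1 + a2 - a3) / N := by
        rw [le_sub_iff_add_le, ← sub_nonneg]
        have h5 : H k N x - (V k N x + (a1 + a2 - a3) / N)
            = (N * H k N x - a1 - a2 + a3 - N * V k N x) / N := by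
          field_simp
          ring
        rw [h5]
        exact div_nonneg (by linarith) hN0.le
      calc 1 / g * V k N x ≤ 1 / g * (H k N x - (a1 + a2 - a3) / N) :=
            mul_le_mul_of_nonneg_left this (by positivity)
        _ = 1 / g * H k N x - (a1 + a2 - a3) / (g * N) := by
            field_simp
    have h6 : (1 - 1 / g) * H k N x + 1 / g * V k N x ≤ H k N x - (a1 + a2 - a3) / (g * N) := by
      have : (1 - 1 / g) * H k N x = H k N x - 1 / g * H k N x := by ring
      linarith
    linarith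
  refine (Finset.sum_le_sum key).trans ?_
  -- collect the accumulated terms
  have hcol : ∑ k ∈ range K, (cmp (withF G (H k 0)) zs N x + acc G zs N (ls G zs (H k)) x
        - (acc G zs N (fun h s => (h : ℝ) * ls G zs (H k) h s) x + acc G zs N (w k) x
            - acc G zs N (fun h s => ((h : ℝ) + 1) * er k h s) x) / (g * N))
      = ∑ k ∈ range K, cmp (withF G (H k 0)) zs N x
        + acc G zs N (fun h s => ∑ k ∈ range K, (ls G zs (H k) h s
            - (1 / (g * N)) * ((h : ℝ) * ls G zs (H k) h s)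
            - (1 / (g * N)) * w k h s
            + (1 / (g * N)) * (((h : ℝ) + 1) * er k h s))) x := by
    rw [acc_sum, ← sum_add_distrib]
    refine sum_congr rfl fun k _ => ?_
    have e1 : acc G zs N (fun h s => ls G zs (H k) h s
            - (1 / (g * N)) * ((h : ℝ) * ls G zs (H k) h s)
            - (1 / (g * N)) * w k h s
            + (1 / (g * N)) * (((h : ℝ) + 1) * er k h s)) x
        = acc G zs N (ls G zs (H k)) x
          + (-(1 / (g * N))) * acc G zs N (fun h s => (h : ℝ) * ls G zs (H k) h s) x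
          + (-(1 / (g * N))) * acc G zs N (w k) x
          + (1 / (g * N)) * acc G zs N (fun h s => ((h : ℝ) + 1) * er k h s) x := by
      rw [← acc_smul, ← acc_smul, ← acc_smul, ← acc_add, ← acc_add, ← acc_add]
      exact acc_congr G zs N (fun h _ s => by ring) x
    rw [e1]
    ring
  rw [hcol]
  have hfin : acc G zs N (fun h s => ∑ k ∈ range K, (ls G zs (H k) h s
            - (1 / (g * N)) * ((h : ℝ) * ls G zs (H k) h s)
            - (1 / (g * N)) * w k h s
            + (1 / (g * N)) * (((h : ℝ) + 1) * er k h s))) x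
      ≤ acc G zs N (fun h s => reg h s + (1 / g) * ∑ k ∈ range K, er k h s) x := by
    -- monotonicity on the class
    have hmono : ∀ n ≤ N, ∀ s, P n s →
        acc G zs n (fun h s => ∑ k ∈ range K, (ls G zs (H k) h s
            - (1 / (g * N)) * ((h : ℝ) * ls G zs (H k) h s)
            - (1 / (g * N)) * w k h s
            + (1 / (g * N)) * (((h : ℝ) + 1) * er k h s))) s
        ≤ acc G zs n (fun h s => reg h s + (1 / g) * ∑ k ∈ range K, er k h s) s := by
      intro n
      induction n with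
      | zero => intro _ s _; simp
      | succ h ih =>
        intro hn s hs
        rw [acc_succ, acc_succ]
        have hhN : h < N := by omega
        refine add_le_add ?_ (sum_om_le hom hP hs fun t ht => ih (by omega) t ht)
        -- local inequality
        set La := ∑ k ∈ range K, ls G zs (H k) h s with hLa
        set Wa := ∑ k ∈ range K, w k h s with hWa
        set Ea := ∑ k ∈ range K, er k h s with hEa
        have hW0 : 0 ≤ Wa := Finset.sum_nonneg fun k hk => hw k (mem_range.1 hk) h hhN s hs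
        have hE0 : 0 ≤ Ea := Finset.sum_nonneg fun k hk => her k (mem_range.1 hk) h hhN s hs
        have hr0 := hreg h hhN s hs
        have h3' : La ≤ reg h s + Wa / (g * N) := h3 h hhN s hs
        have hhc : (h : ℝ) + 1 ≤ N := by exact_mod_cast hhN
        have hh0 : (0 : ℝ) ≤ h := Nat.cast_nonneg h
        have hid : ∑ k ∈ range K, (ls G zs (H k) h s
            - (1 / (g * N)) * ((h : ℝ) * ls G zs (H k) h s)
            - (1 / (g * N)) * w k h s
            + (1 / (g * N)) * (((h : ℝ) + 1) * er k h s))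
            = (1 - h / (g * N)) * La - Wa / (g * N) + ((h : ℝ) + 1) / (g * N) * Ea := by
          rw [sum_add_distrib, sum_sub_distrib, sum_sub_distrib, ← mul_sum, ← mul_sum, ← mul_sum,
            ← mul_sum, ← mul_sum, ← hLa, ← hWa, ← hEa]
          ring
        rw [hid]
        have hc1 : 0 ≤ 1 - (h : ℝ) / (g * N) := by
          rw [sub_nonneg, div_le_one hgN]
          nlinarith
        have hc2 : 1 - (h : ℝ) / (g * N) ≤ 1 := by
          have : 0 ≤ (h : ℝ) / (g * N) := by positivity
          linarith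
        have hX0 : 0 ≤ reg h s + Wa / (g * N) := add_nonneg hr0 (by positivity)
        have h5 : (1 - (h : ℝ) / (g * N)) * La ≤ reg h s + Wa / (g * N) :=
          (mul_le_mul_of_nonneg_left h3' hc1).trans (mul_le_of_le_one_left hX0 hc2)
        have h6 : ((h : ℝ) + 1) / (g * N) * Ea ≤ 1 / g * Ea := by
          refine mul_le_mul_of_nonneg_right ?_ hE0
          rw [div_le_div_iff₀ hgN hg0]
          nlinarith
        linarith
    exact hmono N le_rfl x hx
  have hsplit : acc G zs N (fun h s => reg h s + (1 / g) * ∑ k ∈ range K, er k h s) x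
      = acc G zs N reg x + (∑ k ∈ range K, acc G zs N (er k) x) / g := by
    rw [acc_add, acc_smul, acc_sum]
    ring
  rw [hsplit] at hfin
  linarith

/-! ### exponential weights over the ranks -/

section Hedge

open Crest.Agent.R288.HedgeB330

variable {A' : Type*} [Fintype A']

/-- replace `u` outside the support of `ν` by the constant `c` -/
noncomputable def cut (ν u : A' → ℝ) (c : ℝ) (z : A') : ℝ := by
  classical exact if ν z = 0 then c else u z

theorem rho_cut (γ : ℝ) (ν : A' → ℝ) {U U' : A' → ℝ} (h : ∀ z, ν z ≠ 0 → U z = U' z) :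
    rho γ ν U = rho γ ν U' := by
  have ht : ∀ z, ν z * Real.exp (-(γ * U z)) = ν z * Real.exp (-(γ * U' z)) := by
    intro z
    by_cases hz : ν z = 0
    · simp [hz]
    · rw [h z hz]
  funext z
  unfold rho tot
  rw [ht z, Finset.sum_congr rfl fun z _ => ht z]

theorem rho_eq_zero (γ : ℝ) (ν U : A' → ℝ) {z : A'} (hz : ν z = 0) : rho γ ν U z = 0 := by
  unfold rho
  simp [hz]

theorem mean_congr_supp {p f f' : A' → ℝ} (h : ∀ z, p z ≠ 0 → f z = f' z) : mean p f = mean p f' := by
  unfold mean
  refine Finset.sum_congr rfl fun z _ => ?_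
  by_cases hz : p z = 0
  · simp [hz]
  · rw [h z hz]

theorem var_congr_supp {p f f' : A' → ℝ} (h : ∀ z, p z ≠ 0 → f z = f' z) : var p f = var p f' := by
  unfold var
  rw [mean_congr_supp h]
  refine Finset.sum_congr rfl fun z _ => ?_
  by_cases hz : p z = 0
  · simp [hz]
  · rw [h z hz]

/-- exponential weights with the second order term, one state, all ranks; the oscillation is only
needed on the support of the prior -/
theorem local_regret {γ : ℝ} (hγ : 0 < γ) {ν : A' → ℝ} (hν : ∀ z, 0 ≤ ν z) (h1 : ∑ z, ν z = 1)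
    {o : ℝ} (ho : 0 ≤ o) (hγo : γ * o ≤ 1) (u : ℕ → A' → ℝ) (K : ℕ)
    (hosc : ∀ k < K, ∀ z z', ν z ≠ 0 → ν z' ≠ 0 → u k z - u k z' ≤ o) {z : A'} (hz : 0 < ν z) :
    ∑ k ∈ range K, (mean (rho γ ν (cum u k)) (u k) - u k z)
      ≤ Real.log (1 / ν z) / γ + γ * ∑ k ∈ range K, var (rho γ ν (cum u k)) (u k) := by
  classical
  -- cut outside the support
  set v : ℕ → A' → ℝ := fun k => cut ν (u k) (u k z) with hv
  have hvu : ∀ k z', ν z' ≠ 0 → v k z' = u k z' := fun k z' h => by simp [hv, cut, h]
  have hcum : ∀ k z', ν z' ≠ 0 → cum v k z' = cum u k z' := fun k z' h => by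
    unfold cum
    exact Finset.sum_congr rfl fun i _ => hvu i z' h
  have hrho : ∀ k, rho γ ν (cum v k) = rho γ ν (cum u k) := fun k =>
    rho_cut γ ν fun z' h => hcum k z' h
  have hsupp : ∀ k z', rho γ ν (cum u k) z' ≠ 0 → v k z' = u k z' := fun k z' h =>
    hvu k z' fun h0 => h (rho_eq_zero γ ν _ h0)
  have hoscv : ∀ k < K, ∀ z₁ z₂, v k z₁ - v k z₂ ≤ o := by
    intro k hk z₁ z₂
    by_cases a : ν z₁ = 0 <;> by_cases b : ν z₂ = 0 <;>
      simp only [hv, cut, a, b, if_true, if_false]
    · linarith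
    · exact hosc k hk z z₂ hz.ne' b
    · exact hosc k hk z₁ z a hz.ne'
    · exact hosc k hk z₁ z₂ a b
  have hstep : ∀ k < K, mean (rho γ ν (cum v k)) (v k) - γ * var (rho γ ν (cum v k)) (v k)
      ≤ phi γ ν (cum v (k + 1)) - phi γ ν (cum v k) := by
    intro k hk
    have := phi_step (U := cum v k) hγ hν h1 (hoscv k hk) hγo
    have h3 : (cum v (k + 1)) = fun z => cum v k z + v k z := by
      funext z
      exact cum_succ v k z
    rw [h3]
    exact this
  have hsum : ∑ k ∈ range K, (mean (rho γ ν (cum v k)) (v k) - γ * var (rho γ ν (cum v k)) (v k))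
      ≤ phi γ ν (cum v K) := by
    refine (Finset.sum_le_sum fun k hk => hstep k (mem_range.1 hk)).trans ?_
    rw [Finset.sum_range_sub (fun k => phi γ ν (cum v k))]
    have : (cum v 0) = fun _ : A' => (0 : ℝ) := by
      funext z
      simp [cum]
    rw [this, phi_zero h1]
    simp
  have hle := phi_le (U := cum v K) hγ hν hz
  have hz' : cum v K z = ∑ k ∈ range K, u k z := by
    rw [hcum K z hz.ne']
    rfl
  have hconv : ∑ k ∈ range K, (mean (rho γ ν (cum v k)) (v k) - γ * var (rho γ ν (cum v k)) (v k))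
      = ∑ k ∈ range K, mean (rho γ ν (cum u k)) (u k)
        - γ * ∑ k ∈ range K, var (rho γ ν (cum u k)) (u k) := by
    rw [mul_sum, ← sum_sub_distrib]
    refine sum_congr rfl fun k _ => ?_
    rw [hrho k, mean_congr_supp (hsupp k), var_congr_supp (hsupp k)]
  rw [sum_sub_distrib]
  rw [hz'] at hle
  linarith

/-- the best letter of the support against the mean -/
theorem best_le {p u : A' → ℝ} (hp : ∀ z, 0 ≤ p z) (h1 : ∑ z, p z = 1) {o m : ℝ} (ho : 0 < o)
    (hosc : ∀ z z', p z ≠ 0 → p z' ≠ 0 → u z - u z' ≤ o) (hm : ∀ z, p z ≠ 0 → m ≤ u z) :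
    m ≤ mean p u - var p u / o := by
  classical
  -- minimiser on the support
  have hne : (univ.filter fun z => p z ≠ 0).Nonempty := by
    by_contra h
    rw [Finset.not_nonempty_iff_eq_empty] at h
    have : ∑ z, p z = 0 := Finset.sum_eq_zero fun z _ => by
      by_contra hz
      have : z ∈ univ.filter fun z => p z ≠ 0 := by simp [hz]
      rw [h] at this
      exact absurd this (Finset.notMem_empty z)
    rw [h1] at this
    exact one_ne_zero this
  obtain ⟨z₀, hz₀, hmin⟩ := Finset.exists_min_image _ u hne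
  have hz₀' : p z₀ ≠ 0 := by simpa using hz₀
  set v : A' → ℝ := fun z => if p z = 0 then u z₀ else u z with hv
  have hvu : ∀ z, p z ≠ 0 → u z = v z := fun z h => by simp [hv, h]
  have hlow : ∀ z, u z₀ ≤ v z := by
    intro z
    by_cases h : p z = 0
    · simp [hv, h]
    · simp only [hv, h, if_false]
      exact hmin z (by simp [h])
  have hup : ∀ z, v z ≤ u z₀ + o := by
    intro z
    by_cases h : p z = 0
    · simp only [hv, h, if_true]; linarith
    · simp only [hv, h, if_false]
      linarith [hosc z z₀ h hz₀']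
  have hvar := var_le hp h1 hlow hup
  rw [mean_congr_supp hvu, var_congr_supp hvu]
  have hm0 : m ≤ u z₀ := hm z₀ hz₀'
  have : var p v / o ≤ mean p v - u z₀ := by
    rw [div_le_iff₀ ho]
    linarith
  linarith

variable [Fintype A]

/-- the flagged value is at most the unflagged one, everywhere -/
theorem V_le_H (hom : ∀ h s a j, 0 ≤ G.om h s a j) {H V : ℕ → S → ℝ} {p : ℕ → S → A → ℝ} {N : ℕ}
    (hp : ∀ h < N, ∀ s a, 0 ≤ p h s a) (hp1 : ∀ h < N, ∀ s, ∑ a, p h s a = 1)
    (hH : ∀ h < N, ∀ s, H (h + 1) s = mean (p h s) (Q G h (H h) s))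
    (hV0 : ∀ s, V 0 s ≤ H 0 s)
    (hV : ∀ h < N, ∀ s a, p h s a ≠ 0 → V (h + 1) s ≤ Q G h (V h) s a) :
    ∀ h ≤ N, ∀ s, V h s ≤ H h s := by
  intro h
  induction h with
  | zero => intro _ s; exact hV0 s
  | succ h ih =>
    intro hh s
    rw [hH h (by omega) s]
    have h3 : ∀ a, p h s a * V (h + 1) s ≤ p h s a * Q G h (H h) s a := by
      intro a
      by_cases h0 : p h s a = 0
      · simp [h0]
      · refine mul_le_mul_of_nonneg_left ?_ (hp h (by omega) s a)
        exact (hV h (by omega) s a h0).trans (Q_mono G hom (ih (by omega)) h s a)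
    calc V (h + 1) s = ∑ a, p h s a * V (h + 1) s := by
          rw [← sum_mul, hp1 h (by omega) s, one_mul]
      _ ≤ _ := Finset.sum_le_sum fun a _ => h3 a

/-- **WINDOW-(B) for exponential weights with noise.** The played kernel `p k h s` has mean within
`η k h s` of the ideal exponential weights over the lower ranks (true costs). -/
theorem window_Bn (hom : ∀ h s a j, 0 ≤ G.om h s a j) {P : ℕ → S → Prop} (hP : Cl G zs P)
    (K N : ℕ) (hN : 0 < N) {g : ℝ} (hg : 1 ≤ g) (H V : ℕ → ℕ → S → ℝ)
    (γ o : ℕ → S → ℝ) (ν : ℕ → S → A → ℝ) (p : ℕ → ℕ → S → A → ℝ) (η : ℕ → ℕ → S → ℝ)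
    (hγ : ∀ h < N, ∀ s, P (h + 1) s → 0 < γ h s) (ho : ∀ h < N, ∀ s, P (h + 1) s → 0 < o h s)
    (hν : ∀ h s a, 0 ≤ ν h s a) (hν1 : ∀ h < N, ∀ s, ∑ a, ν h s a = 1)
    (hgo : ∀ h < N, ∀ s, P (h + 1) s → g * N * (γ h s * o h s) ≤ 1)
    (hp : ∀ k < K, ∀ h < N, ∀ s a, 0 ≤ p k h s a) (hp1 : ∀ k < K, ∀ h < N, ∀ s, ∑ a, p k h s a = 1)
    (hpν : ∀ k < K, ∀ h < N, ∀ s a, p k h s a ≠ 0 → ν h s a ≠ 0)
    (hH : ∀ k < K, ∀ h < N, ∀ s, H k (h + 1) s = mean (p k h s) (Q G h (H k h) s))
    (hη : ∀ k < K, ∀ h < N, ∀ s, P (h + 1) s →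
      |mean (p k h s) (Q G h (H k h) s)
        - mean (rho (γ h s) (ν h s) (cum (fun i => Q G h (H i h) s) k)) (Q G h (H k h) s)| ≤ η k h s)
    (hosc : ∀ k < K, ∀ h < N, ∀ s, P (h + 1) s → ∀ a a', ν h s a ≠ 0 → ν h s a' ≠ 0 →
      Q G h (H k h) s a - Q G h (H k h) s a' ≤ o h s)
    (hz : ∀ h < N, ∀ s, P (h + 1) s → 0 < ν h s (zs h s))
    (hV0 : ∀ k < K, ∀ s, V k 0 s ≤ H k 0 s)
    (hV : ∀ k < K, ∀ h < N, ∀ s a, ν h s a ≠ 0 → V k (h + 1) s ≤ Q G h (V k h) s a)
    (x : S) (hx : P N x) :
    ∑ k ∈ range K, ((1 - 1 / g) * H k N x + 1 / g * V k N x)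
      ≤ ∑ k ∈ range K, cmp (withF G (H k 0)) zs N x
        + acc G zs N (fun h s => Real.log (1 / ν h s (zs h s)) / γ h s) x
        + (1 + 1 / g) * ∑ k ∈ range K, acc G zs N (η k) x := by
  have hg0 : 0 < g := by linarith
  have hN0 : (0 : ℝ) < N := by exact_mod_cast hN
  have hgN : 0 < g * N := mul_pos hg0 hN0
  have hN1 : (1 : ℝ) ≤ g * N := by
    have : (1 : ℝ) ≤ N := by exact_mod_cast hN
    nlinarith
  set u : ℕ → ℕ → S → A → ℝ := fun k h s => Q G h (H k h) s with hu
  set ρ : ℕ → ℕ → S → A → ℝ := fun k h s => rho (γ h s) (ν h s) (cum (fun i => Q G h (H i h) s) k)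
    with hρ
  have hη0 : ∀ k < K, ∀ h < N, ∀ s, P (h + 1) s → 0 ≤ η k h s := fun k hk h hh s hs =>
    (abs_nonneg _).trans (hη k hk h hh s hs)
  have hVH : ∀ k < K, ∀ h ≤ N, ∀ s, V k h s ≤ H k h s := fun k hk =>
    V_le_H G hom (hp k hk) (hp1 k hk) (hH k hk) (hV0 k hk)
      (fun h hh s a ha => hV k hk h hh s a (hpν k hk h hh s a ha))
  have hlog : ∀ h < N, ∀ s, P (h + 1) s → 0 ≤ Real.log (1 / ν h s (zs h s)) / γ h s := by
    intro h hh s hs
    refine div_nonneg (Real.log_nonneg ?_) (hγ h hh s hs).le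
    rw [one_le_div (hz h hh s hs), ← hν1 h hh s]
    exact Finset.single_le_sum (f := ν h s) (fun a _ => hν h s a) (mem_univ _)
  have main := window_abs G zs hom hP K N hN hg H V
    (fun k h s => var (ρ k h s) (u k h s) / o h s) η
    (fun h s => Real.log (1 / ν h s (zs h s)) / γ h s + ∑ k ∈ range K, η k h s)
    (fun k hk h hh s hs => div_nonneg (var_nonneg fun a =>
      rho_nonneg (hν h s) (hν1 h hh s) a) (ho h hh s hs).le)
    hη0
    (fun h hh s hs => add_nonneg (hlog h hh s hs)
      (Finset.sum_nonneg fun k hk => hη0 k (mem_range.1 hk) h hh s hs))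
    (fun k hk h hh s hs => by
      have hr0 : ∀ a, 0 ≤ ρ k h s a := fun a => rho_nonneg (hν h s) (hν1 h hh s) a
      have hr1 : ∑ a, ρ k h s a = 1 := rho_sum (hν h s) (hν1 h hh s)
      have hsup : ∀ a, ρ k h s a ≠ 0 → ν h s a ≠ 0 := fun a ha h0 =>
        ha (rho_eq_zero _ _ _ h0)
      have hb := best_le (p := ρ k h s) (u := u k h s) (m := V k (h + 1) s) hr0 hr1
        (ho h hh s hs)
        (fun a a' ha ha' => hosc k hk h hh s hs a a' (hsup a ha) (hsup a' ha'))
        (fun a ha => (hV k hk h hh s a (hsup a ha)).trans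
          (Q_mono G hom (hVH k hk h hh.le) h s a))
      have he := hη k hk h hh s hs
      rw [abs_le] at he
      have hHs := hH k hk h hh s
      have h5 : mean (ρ k h s) (u k h s) ≤ H k (h + 1) s + η k h s := by
        rw [hHs]
        linarith [he.1]
      linarith)
    (fun k hk h hh s hs => by
      have h0 := hη0 k hk h hh s hs
      have := hV k hk h hh s (zs h s) (hz h hh s hs).ne'
      linarith)
    (fun h hh s hs => by
      have hgo' := hgo h hh s hs
      have hγ' := hγ h hh s hs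
      have ho' := ho h hh s hs
      have hγo : γ h s * o h s ≤ 1 := by
        have h0 : 0 ≤ γ h s * o h s := by positivity
        nlinarith
      have hl := local_regret (γ := γ h s) hγ' (hν h s) (hν1 h hh s) ho'.le hγo
        (fun i => Q G h (H i h) s) K (fun k hk a a' ha ha' => hosc k hk h hh s hs a a' ha ha')
        (hz h hh s hs)
      have hls : ∑ k ∈ range K, ls G zs (H k) h s
          ≤ ∑ k ∈ range K, (mean (ρ k h s) (u k h s) - u k h s (zs h s))
            + ∑ k ∈ range K, η k h s := by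
        rw [← sum_add_distrib]
        refine Finset.sum_le_sum fun k hk => ?_
        have hk' := mem_range.1 hk
        have he := hη k hk' h hh s hs
        rw [abs_le] at he
        unfold ls
        rw [hH k hk' h hh s]
        linarith [he.2]
      have hvar : γ h s * ∑ k ∈ range K, var (ρ k h s) (u k h s)
          ≤ (∑ k ∈ range K, var (ρ k h s) (u k h s) / o h s) / (g * N) := by
        rw [← Finset.sum_div, div_div, le_div_iff₀ (by positivity)]
        have hs0 : 0 ≤ ∑ k ∈ range K, var (ρ k h s) (u k h s) :=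
          Finset.sum_nonneg fun k _ => var_nonneg fun a => rho_nonneg (hν h s) (hν1 h hh s) a
        calc (γ h s * ∑ k ∈ range K, var (ρ k h s) (u k h s)) * (o h s * (g * N))
            = (g * N * (γ h s * o h s)) * ∑ k ∈ range K, var (ρ k h s) (u k h s) := by
              ring
          _ ≤ 1 * ∑ k ∈ range K, var (ρ k h s) (u k h s) :=
              mul_le_mul_of_nonneg_right hgo' hs0
          _ = _ := one_mul _
      linarith)
    x hx
  refine main.trans (le_of_eq ?_)
  rw [acc_add, acc_sum]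
  ring

/-- **WINDOW-(B) for exact exponential weights.** -/
theorem window_B (hom : ∀ h s a j, 0 ≤ G.om h s a j) {P : ℕ → S → Prop} (hP : Cl G zs P)
    (K N : ℕ) (hN : 0 < N) {g : ℝ} (hg : 1 ≤ g) (H V : ℕ → ℕ → S → ℝ)
    (γ o : ℕ → S → ℝ) (ν : ℕ → S → A → ℝ)
    (hγ : ∀ h < N, ∀ s, P (h + 1) s → 0 < γ h s) (ho : ∀ h < N, ∀ s, P (h + 1) s → 0 < o h s)
    (hν : ∀ h s a, 0 ≤ ν h s a) (hν1 : ∀ h < N, ∀ s, ∑ a, ν h s a = 1)
    (hgo : ∀ h < N, ∀ s, P (h + 1) s → g * N * (γ h s * o h s) ≤ 1)
    (hH : ∀ k < K, ∀ h < N, ∀ s, H k (h + 1) s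
      = mean (rho (γ h s) (ν h s) (cum (fun i => Q G h (H i h) s) k)) (Q G h (H k h) s))
    (hosc : ∀ k < K, ∀ h < N, ∀ s, P (h + 1) s → ∀ a a', ν h s a ≠ 0 → ν h s a' ≠ 0 →
      Q G h (H k h) s a - Q G h (H k h) s a' ≤ o h s)
    (hz : ∀ h < N, ∀ s, P (h + 1) s → 0 < ν h s (zs h s))
    (hV0 : ∀ k < K, ∀ s, V k 0 s ≤ H k 0 s)
    (hV : ∀ k < K, ∀ h < N, ∀ s a, ν h s a ≠ 0 → V k (h + 1) s ≤ Q G h (V k h) s a)
    (x : S) (hx : P N x) :
    ∑ k ∈ range K, ((1 - 1 / g) * H k N x + 1 / g * V k N x)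
      ≤ ∑ k ∈ range K, cmp (withF G (H k 0)) zs N x
        + acc G zs N (fun h s => Real.log (1 / ν h s (zs h s)) / γ h s) x := by
  have h := window_Bn G zs hom hP K N hN hg H V γ o ν
    (fun k h s => rho (γ h s) (ν h s) (cum (fun i => Q G h (H i h) s) k)) (fun _ _ _ => 0)
    hγ ho hν hν1 hgo (fun k _ h hh s a => rho_nonneg (hν h s) (hν1 h hh s) a)
    (fun k _ h hh s => rho_sum (hν h s) (hν1 h hh s))
    (fun k _ h _ s a ha h0 => ha (rho_eq_zero _ _ _ h0)) hH
    (fun k _ h _ s _ => by simp) hosc hz hV0 hV x hx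
  have h0 : acc G zs N (fun _ _ => (0 : ℝ)) x = 0 := by
    have := acc_smul G zs 0 (fun _ _ => (0 : ℝ)) N x
    simpa using this
  simpa [h0] using h

end Hedge

end Crest.Agent.R288.WinB892
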