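import Crest.Agent.R288.RegA_441
import Crest.Agent.R288.WinB_892
import Crest.Agent.R288.Osc_68

/-!
# R288 [WindowReg] (helper441), part B: one window, root decision {calm, wild} included

Window tree: node `(t, p)` covers the pieces `p 2^t ≤ q < (p+1) 2^t`; `V t k p a b` = value of rank `k`
between the letters `a`, `b`; comparator letters `cs : ℕ → ℕ` (cut `q`).

* `NS f h p` : sum of `f` over the inner nodes of the subtree of `(h, p)`; `NS_eq`;
* `window_calm` : per-node inequalities (`RegA441.state_floor/exact`) at the comparator's nodes and at the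
  root ⟹ `∑ k ((1-1/gs) val k + 1/gs Ot k) ≤ ∑ k cost_k(cs) + reg + 2^n K ρ / gs`, for
  `gs * (n+1) ≤ g` (all `n+1` levels are paid by ONE share `1/gs`);
* `window_wild` : the comparator "wild".
-/

set_option autoImplicit false

namespace Crest.Agent.R288.RegB441

open Finset Crest.Agent.R288.TreeA330 Crest.Agent.R288.CmpT184 Crest.Agent.R288.WinB892
open Crest.Agent.R288.Osc68 (blk blk_zero sum_blk_succ card_blk)

/-! ### sums over the inner nodes of a subtree -/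

/-- sum of `f t p'` over the inner nodes `(t+1, p')` of the subtree of `(h, p)` -/
def NS (f : ℕ → ℕ → ℝ) : ℕ → ℕ → ℝ
  | 0, _ => 0
  | h + 1, p => f h p + (NS f h (2 * p) + NS f h (2 * p + 1))

@[simp] theorem NS_zero (f : ℕ → ℕ → ℝ) (p : ℕ) : NS f 0 p = 0 := rfl

theorem NS_succ (f : ℕ → ℕ → ℝ) (h p : ℕ) :
    NS f (h + 1) p = f h p + (NS f h (2 * p) + NS f h (2 * p + 1)) := rfl

theorem NS_eq (f : ℕ → ℕ → ℝ) (h : ℕ) :
    ∀ p, NS f h p = ∑ t ∈ range h, ∑ i ∈ blk (h - 1 - t) p, f t i := by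
  induction h with
  | zero => intro p; simp
  | succ h ih =>
    intro p
    rw [NS_succ, ih, ih, ← sum_add_distrib, sum_range_succ]
    have h0 : h + 1 - 1 - h = 0 := by omega
    rw [h0, blk_zero, sum_singleton, add_comm]
    congr 1
    refine sum_congr rfl fun t ht => ?_
    have ht' := mem_range.1 ht
    have h1 : h + 1 - 1 - t = (h - 1 - t) + 1 := by omega
    rw [h1, sum_blk_succ]

theorem NS_mono {f f' : ℕ → ℕ → ℝ} (n : ℕ) (hf : ∀ t < n, ∀ p < 2 ^ (n - 1 - t), f t p ≤ f' t p) :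
    NS f n 0 ≤ NS f' n 0 := by
  rw [NS_eq, NS_eq]
  refine sum_le_sum fun t ht => sum_le_sum fun i hi => hf t (mem_range.1 ht) i ?_
  unfold blk at hi
  simpa using (mem_Ico.1 hi).2

theorem NS_const (c : ℝ) (n : ℕ) : ∀ p, NS (fun _ _ => c) n p = c * (2 ^ n - 1) := by
  induction n with
  | zero => intro p; simp
  | succ n ih =>
    intro p
    rw [NS_succ, ih, ih, pow_succ]
    ring

theorem NS_add (f f' : ℕ → ℕ → ℝ) (n : ℕ) :
    ∀ p, NS (fun t i => f t i + f' t i) n p = NS f n p + NS f' n p := by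
  induction n with
  | zero => intro p; simp
  | succ n ih => intro p; rw [NS_succ, NS_succ, NS_succ, ih, ih]; ring

theorem NS_mul (c : ℝ) (f : ℕ → ℕ → ℝ) (n : ℕ) :
    ∀ p, NS (fun t i => c * f t i) n p = c * NS f n p := by
  induction n with
  | zero => intro p; simp
  | succ n ih => intro p; rw [NS_succ, NS_succ, ih, ih]; ring

/-! ### the game of one window -/

/-- the tree of one window (levels `h < n`), the root decision is level `n` -/
def WG (n : ℕ) : Game (ℕ × ℕ × ℕ) ℕ Bool where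
  c := fun _ _ _ => 0
  om := fun h _ _ j => if h = n then (if j then 0 else 1) else 1
  nx := fun h s z j => if h = n then s else
    (if j then (2 * s.1 + 1, z, s.2.2) else (2 * s.1, s.2.1, z))
  F := fun _ => 0

/-- comparator letters -/
def zsl (n : ℕ) (cs : ℕ → ℕ) (h : ℕ) (s : ℕ × ℕ × ℕ) : ℕ :=
  if h = n then 0 else cs ((2 * s.1 + 1) * 2 ^ h)

/-- the comparator's node `(h, p)` -/
def nd (cs : ℕ → ℕ) (h p : ℕ) : ℕ × ℕ × ℕ := (p, cs (p * 2 ^ h), cs ((p + 1) * 2 ^ h))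

variable {n : ℕ} {cs : ℕ → ℕ}

theorem nx_false {h : ℕ} (hh : h < n) (p : ℕ) :
    (WG n).nx h (nd cs (h + 1) p) (zsl n cs h (nd cs (h + 1) p)) false = nd cs h (2 * p) := by
  have e1 : p * 2 ^ (h + 1) = 2 * p * 2 ^ h := by ring
  simp only [WG, zsl, nd, if_neg hh.ne]
  rw [e1]
  rfl

theorem nx_true {h : ℕ} (hh : h < n) (p : ℕ) :
    (WG n).nx h (nd cs (h + 1) p) (zsl n cs h (nd cs (h + 1) p)) true = nd cs h (2 * p + 1) := by
  have e1 : (p + 1) * 2 ^ (h + 1) = (2 * p + 1 + 1) * 2 ^ h := by ring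
  simp only [WG, zsl, nd, if_neg hh.ne]
  rw [e1]
  rfl

theorem om_nonneg (h : ℕ) (s : ℕ × ℕ × ℕ) (a : ℕ) (j : Bool) : 0 ≤ (WG n).om h s a j := by
  unfold WG
  simp only
  split_ifs <;> norm_num

theorem Q_inner {h : ℕ} (hh : h < n) (f : ℕ × ℕ × ℕ → ℝ) (p : ℕ) :
    Q (WG n) h f (nd cs (h + 1) p) (zsl n cs h (nd cs (h + 1) p))
      = f (nd cs h (2 * p)) + f (nd cs h (2 * p + 1)) := by
  unfold Q
  rw [Fintype.sum_bool, nx_false hh, nx_true hh]
  simp only [WG, if_neg hh.ne]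
  ring

theorem Q_root (f : ℕ × ℕ × ℕ → ℝ) (s : ℕ × ℕ × ℕ) (a : ℕ) : Q (WG n) n f s a = f s := by
  unfold Q
  rw [Fintype.sum_bool]
  simp [WG]

theorem cmp_inner (e : ℕ × ℕ × ℕ → ℝ) (h : ℕ) : h ≤ n → ∀ p,
    cmp (withF (WG n) e) (zsl n cs) h (nd cs h p) = ∑ q ∈ blk h p, e (q, cs q, cs (q + 1)) := by
  induction h with
  | zero =>
    intro _ p
    rw [cmp_withF_zero, blk_zero, sum_singleton]
    simp [nd]
  | succ h ih =>
    intro hh p
    rw [cmp_withF_succ, Q_inner (by omega), ih (by omega), ih (by omega), sum_blk_succ]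

theorem acc_inner (f : ℕ → ℕ × ℕ × ℕ → ℝ) (h : ℕ) : h ≤ n → ∀ p,
    acc (WG n) (zsl n cs) h f (nd cs h p) = NS (fun t i => f t (nd cs (t + 1) i)) h p := by
  induction h with
  | zero => intro _ p; rfl
  | succ h ih =>
    intro hh p
    have hh' : h < n := by omega
    rw [acc_succ, NS_succ, Fintype.sum_bool, nx_false hh', nx_true hh', ih (by omega),
      ih (by omega)]
    simp only [WG, if_neg hh'.ne]
    ring

/-- **one window, comparator calm.** `cr` = credits of the inner nodes, `crr` = of the root. -/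
theorem window_calm (n K : ℕ) {gs g ρ : ℝ} (hgs : 1 ≤ gs) (hg : gs * (n + 1) ≤ g) (hρ : 0 ≤ ρ)
    (V O : ℕ → ℕ → ℕ → ℕ → ℕ → ℝ) (val Ot : ℕ → ℝ) (cs : ℕ → ℕ)
    (cr : ℕ → ℕ → ℕ → ℝ) (crr : ℕ → ℝ) (reg : ℕ → ℕ → ℝ) (regr : ℝ) (hregr : 0 ≤ regr)
    (hreg : ∀ t < n, ∀ p, 0 ≤ reg t p)
    (h0 : ∀ t < n, ∀ p < 2 ^ (n - (t + 1)), ∀ k < K, 0 ≤ cr t p k)
    (h1 : ∀ t < n, ∀ p < 2 ^ (n - (t + 1)), ∀ k < K,
      O (t + 1) k p (cs (p * 2 ^ (t + 1))) (cs ((p + 1) * 2 ^ (t + 1))) + cr t p k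
        ≤ V (t + 1) k p (cs (p * 2 ^ (t + 1))) (cs ((p + 1) * 2 ^ (t + 1))) + ρ)
    (h2 : ∀ t < n, ∀ p < 2 ^ (n - (t + 1)), ∀ k < K,
      O (t + 1) k p (cs (p * 2 ^ (t + 1))) (cs ((p + 1) * 2 ^ (t + 1)))
        ≤ O t k (2 * p) (cs (2 * p * 2 ^ t)) (cs ((2 * p + 1) * 2 ^ t))
          + O t k (2 * p + 1) (cs ((2 * p + 1) * 2 ^ t)) (cs ((2 * p + 1 + 1) * 2 ^ t)))
    (h3 : ∀ t < n, ∀ p < 2 ^ (n - (t + 1)),
      ∑ k ∈ range K, V (t + 1) k p (cs (p * 2 ^ (t + 1))) (cs ((p + 1) * 2 ^ (t + 1)))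
        ≤ ∑ k ∈ range K, (V t k (2 * p) (cs (2 * p * 2 ^ t)) (cs ((2 * p + 1) * 2 ^ t))
          + V t k (2 * p + 1) (cs ((2 * p + 1) * 2 ^ t)) (cs ((2 * p + 1 + 1) * 2 ^ t)))
          + (∑ k ∈ range K, cr t p k) / g + reg t p)
    (r0 : ∀ k < K, 0 ≤ crr k) (r1 : ∀ k < K, Ot k + crr k ≤ val k + ρ)
    (r2 : ∀ k < K, Ot k ≤ O n k 0 (cs 0) (cs (2 ^ n)))
    (r3 : ∑ k ∈ range K, val k ≤ ∑ k ∈ range K, V n k 0 (cs 0) (cs (2 ^ n))
      + (∑ k ∈ range K, crr k) / g + regr) :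
    ∑ k ∈ range K, ((1 - 1 / gs) * val k + 1 / gs * Ot k)
      ≤ ∑ k ∈ range K, ∑ q ∈ range (2 ^ n), V 0 k q (cs q) (cs (q + 1)) + (regr + NS reg n 0)
        + K * (2 ^ n * ρ) / gs := by
  classical
  have hgs0 : 0 < gs := by linarith
  have hn1 : (0 : ℝ) < (n + 1 : ℕ) := by positivity
  have hgn : gs * ((n + 1 : ℕ) : ℝ) ≤ g := by push_cast; exact hg
  -- the functions on the game
  set H : ℕ → ℕ → ℕ × ℕ × ℕ → ℝ := fun k h s =>
    if h = n + 1 then val k else V h k s.1 s.2.1 s.2.2 with hH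
  set Of : ℕ → ℕ → ℕ × ℕ × ℕ → ℝ := fun k h s =>
    if h = n + 1 then Ot k else O h k s.1 s.2.1 s.2.2 with hOf
  set w : ℕ → ℕ → ℕ × ℕ × ℕ → ℝ := fun k h s => if h = n then crr k else cr h s.1 k with hw
  set rg : ℕ → ℕ × ℕ × ℕ → ℝ := fun h s => if h = n then regr else reg h s.1 with hrg
  set P : ℕ → ℕ × ℕ × ℕ → Prop := fun h s =>
    (h = n + 1 ∧ s = nd cs n 0) ∨ (h ≤ n ∧ ∃ p < 2 ^ (n - h), s = nd cs h p) with hP
  have hHi : ∀ k h p, h ≤ n → H k h (nd cs h p)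
      = V h k p (cs (p * 2 ^ h)) (cs ((p + 1) * 2 ^ h)) := by
    intro k h p hh
    simp only [hH, nd, if_neg (by omega : ¬ h = n + 1)]
  have hOi : ∀ k h p, h ≤ n → Of k h (nd cs h p)
      = O h k p (cs (p * 2 ^ h)) (cs ((p + 1) * 2 ^ h)) := by
    intro k h p hh
    simp only [hOf, nd, if_neg (by omega : ¬ h = n + 1)]
  have hHt : ∀ k s, H k (n + 1) s = val k := fun k s => by simp [hH]
  have hOt : ∀ k s, Of k (n + 1) s = Ot k := fun k s => by simp [hOf]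
  have hwi : ∀ k h p, h < n → w k h (nd cs (h + 1) p) = cr h p k := fun k h p hh => by
    simp [hw, nd, hh.ne]
  have hwt : ∀ k s, w k n s = crr k := fun k s => by simp [hw]
  have hrgi : ∀ h p, h < n → rg h (nd cs (h + 1) p) = reg h p := fun h p hh => by
    simp [hrg, nd, hh.ne]
  have hrgt : ∀ s, rg n s = regr := fun s => by simp [hrg]
  have hcl : Cl (WG n) (zsl n cs) P := by
    intro h s j hs ho
    rcases hs with ⟨hh, hs⟩ | ⟨hh, p, hp, hs⟩
    · have hn : h = n := by omega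
      subst hn
      refine Or.inr ⟨le_rfl, 0, by simp, ?_⟩
      rw [hs]
      simp [WG]
    · have hlt : h < n := by omega
      subst hs
      have hp2 : 2 ^ (n - h) = 2 * 2 ^ (n - (h + 1)) := by
        have : n - h = (n - (h + 1)) + 1 := by omega
        rw [this, pow_succ]; ring
      refine Or.inr ⟨hlt.le, ?_⟩
      cases j with
      | false => exact ⟨2 * p, by omega, nx_false hlt p⟩
      | true => exact ⟨2 * p + 1, by omega, nx_true hlt p⟩
  -- cases for a state of the comparator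
  have hcase : ∀ h < n + 1, ∀ s, P (h + 1) s →
      (h = n ∧ s = nd cs n 0) ∨ (h < n ∧ ∃ p < 2 ^ (n - (h + 1)), s = nd cs (h + 1) p) := by
    intro h hh s hs
    rcases hs with ⟨hh', hs⟩ | ⟨hh', p, hp, hs⟩
    · exact Or.inl ⟨by omega, hs⟩
    · exact Or.inr ⟨by omega, p, hp, hs⟩
  have main := window_abs (WG n) (zsl n cs) om_nonneg hcl K (n + 1) (by omega) hgs H Of w
    (fun _ _ _ => ρ) rg
    (fun k hk h hh s hs => by
      rcases hcase h hh s hs with ⟨rfl, rfl⟩ | ⟨hlt, p, hp, rfl⟩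
      · rw [hwt]; exact r0 k hk
      · rw [hwi k h p hlt]; exact h0 h hlt p hp k hk)
    (fun _ _ _ _ _ _ => hρ)
    (fun h hh s hs => by
      rcases hcase h hh s hs with ⟨rfl, rfl⟩ | ⟨hlt, p, hp, rfl⟩
      · rw [hrgt]; exact hregr
      · rw [hrgi h p hlt]; exact hreg h hlt p)
    (fun k hk h hh s hs => by
      rcases hcase h hh s hs with ⟨rfl, rfl⟩ | ⟨hlt, p, hp, rfl⟩
      · rw [hwt, hHt, hOt]; linarith [r1 k hk]
      · rw [hwi k h p hlt, hHi k (h + 1) p (by omega), hOi k (h + 1) p (by omega)]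
        linarith [h1 h hlt p hp k hk])
    (fun k hk h hh s hs => by
      rcases hcase h hh s hs with ⟨rfl, rfl⟩ | ⟨hlt, p, hp, rfl⟩
      · rw [hOt, Q_root, hOi k h 0 le_rfl]
        have := r2 k hk
        simp only [zero_mul, zero_add, one_mul] at this ⊢
        linarith
      · rw [Q_inner hlt, hOi k (h + 1) p (by omega), hOi k h (2 * p) hlt.le,
          hOi k h (2 * p + 1) hlt.le]
        linarith [h2 h hlt p hp k hk])
    (fun h hh s hs => by
      rcases hcase h hh s hs with ⟨rfl, rfl⟩ | ⟨hlt, p, hp, rfl⟩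
      · unfold ls
        simp only [hwt, hHt, Q_root, hrgt]
        rw [sum_sub_distrib]
        have e1 : ∀ k, H k h (nd cs h 0) = V h k 0 (cs 0) (cs (2 ^ h)) := fun k => by
          rw [hHi k h 0 le_rfl]; simp
        rw [sum_congr rfl fun k _ => e1 k]
        have hS0 : 0 ≤ ∑ k ∈ range K, crr k := Finset.sum_nonneg fun k hk => r0 k (mem_range.1 hk)
        have h5 : (∑ k ∈ range K, crr k) / g ≤ (∑ k ∈ range K, crr k) / (gs * ((h + 1 : ℕ) : ℝ)) :=
          div_le_div_of_nonneg_left hS0 (by positivity) hgn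
        linarith
      · unfold ls
        simp only [Q_inner hlt]
        have a1 : ∑ k ∈ range K, H k (h + 1) (nd cs (h + 1) p) = ∑ k ∈ range K,
            V (h + 1) k p (cs (p * 2 ^ (h + 1))) (cs ((p + 1) * 2 ^ (h + 1))) :=
          sum_congr rfl fun k _ => hHi k (h + 1) p (by omega)
        have a2 : ∑ k ∈ range K, (H k h (nd cs h (2 * p)) + H k h (nd cs h (2 * p + 1)))
            = ∑ k ∈ range K, (V h k (2 * p) (cs (2 * p * 2 ^ h)) (cs ((2 * p + 1) * 2 ^ h))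
              + V h k (2 * p + 1) (cs ((2 * p + 1) * 2 ^ h)) (cs ((2 * p + 1 + 1) * 2 ^ h))) :=
          sum_congr rfl fun k _ => by rw [hHi k h (2 * p) hlt.le, hHi k h (2 * p + 1) hlt.le]
        have a3 : ∑ k ∈ range K, w k h (nd cs (h + 1) p) = ∑ k ∈ range K, cr h p k :=
          sum_congr rfl fun k _ => hwi k h p hlt
        rw [sum_sub_distrib, a1, a2, a3, hrgi h p hlt]
        have hS0 : 0 ≤ ∑ k ∈ range K, cr h p k := Finset.sum_nonneg fun k hk =>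
          h0 h hlt p hp k (mem_range.1 hk)
        have h5 : (∑ k ∈ range K, cr h p k) / g
            ≤ (∑ k ∈ range K, cr h p k) / (gs * ((n + 1 : ℕ) : ℝ)) :=
          div_le_div_of_nonneg_left hS0 (by positivity) hgn
        have := h3 h hlt p hp
        linarith)
    (nd cs n 0) (Or.inl ⟨rfl, rfl⟩)
  -- evaluate both sides
  simp only [hHt, hOt] at main
  refine main.trans (le_of_eq ?_)
  have e1 : ∀ k, cmp (withF (WG n) (H k 0)) (zsl n cs) (n + 1) (nd cs n 0)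
      = ∑ q ∈ range (2 ^ n), V 0 k q (cs q) (cs (q + 1)) := by
    intro k
    rw [cmp_withF_succ, Q_root, cmp_inner _ n le_rfl]
    have : blk n 0 = range (2 ^ n) := by unfold blk; simp [Nat.Ico_zero_eq_range]
    rw [this]
    refine sum_congr rfl fun q _ => ?_
    simp only [hH, if_neg (by omega : ¬ (0 : ℕ) = n + 1)]
  have e2 : acc (WG n) (zsl n cs) (n + 1) rg (nd cs n 0) = regr + NS reg n 0 := by
    rw [acc_succ, hrgt, Fintype.sum_bool]
    have e3 : acc (WG n) (zsl n cs) n rg (nd cs n 0) = NS reg n 0 := by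
      rw [acc_inner _ n le_rfl, NS_eq, NS_eq]
      refine sum_congr rfl fun t ht => sum_congr rfl fun i _ => ?_
      exact hrgi t i (mem_range.1 ht)
    have e5 : acc (WG n) (zsl n cs) n rg ((WG n).nx n (nd cs n 0) (zsl n cs n (nd cs n 0)) false)
        = NS reg n 0 := by rw [← e3]; simp [WG]
    rw [e5]
    simp [WG]
  have e4 : ∀ k : ℕ, acc (WG n) (zsl n cs) (n + 1) (fun _ _ => ρ) (nd cs n 0) = 2 ^ n * ρ := by
    intro _
    rw [acc_succ, Fintype.sum_bool]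
    have e3 : acc (WG n) (zsl n cs) n (fun _ _ => ρ) (nd cs n 0) = ρ * (2 ^ n - 1) := by
      rw [acc_inner _ n le_rfl, NS_const]
    have e5 : acc (WG n) (zsl n cs) n (fun _ _ => ρ)
        ((WG n).nx n (nd cs n 0) (zsl n cs n (nd cs n 0)) false) = ρ * (2 ^ n - 1) := by
      rw [← e3]; simp [WG]
    rw [e5]
    simp only [WG, if_true, Bool.false_eq_true, if_false]
    ring
  rw [sum_congr rfl fun k _ => e1 k, e2, sum_congr rfl fun k _ => e4 k, sum_const, card_range,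
    nsmul_eq_mul]

/-- **the inner levels only** (for the composition with the root of `RegC_711`). -/
theorem window_inner (n K : ℕ) {gs g ρ : ℝ} (hgs : 1 ≤ gs) (hg : gs * (n + 1) ≤ g) (hρ : 0 ≤ ρ)
    (V O : ℕ → ℕ → ℕ → ℕ → ℕ → ℝ) (cs : ℕ → ℕ)
    (cr : ℕ → ℕ → ℕ → ℝ) (reg : ℕ → ℕ → ℝ)
    (hreg : ∀ t < n, ∀ p, 0 ≤ reg t p)
    (h0 : ∀ t < n, ∀ p < 2 ^ (n - (t + 1)), ∀ k < K, 0 ≤ cr t p k)
    (h1 : ∀ t < n, ∀ p < 2 ^ (n - (t + 1)), ∀ k < K,
      O (t + 1) k p (cs (p * 2 ^ (t + 1))) (cs ((p + 1) * 2 ^ (t + 1))) + cr t p k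
        ≤ V (t + 1) k p (cs (p * 2 ^ (t + 1))) (cs ((p + 1) * 2 ^ (t + 1))) + ρ)
    (h2 : ∀ t < n, ∀ p < 2 ^ (n - (t + 1)), ∀ k < K,
      O (t + 1) k p (cs (p * 2 ^ (t + 1))) (cs ((p + 1) * 2 ^ (t + 1)))
        ≤ O t k (2 * p) (cs (2 * p * 2 ^ t)) (cs ((2 * p + 1) * 2 ^ t))
          + O t k (2 * p + 1) (cs ((2 * p + 1) * 2 ^ t)) (cs ((2 * p + 1 + 1) * 2 ^ t)))
    (h3 : ∀ t < n, ∀ p < 2 ^ (n - (t + 1)),
      ∑ k ∈ range K, V (t + 1) k p (cs (p * 2 ^ (t + 1))) (cs ((p + 1) * 2 ^ (t + 1)))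
        ≤ ∑ k ∈ range K, (V t k (2 * p) (cs (2 * p * 2 ^ t)) (cs ((2 * p + 1) * 2 ^ t))
          + V t k (2 * p + 1) (cs ((2 * p + 1) * 2 ^ t)) (cs ((2 * p + 1 + 1) * 2 ^ t)))
          + (∑ k ∈ range K, cr t p k) / g + reg t p)
    (hOV : ∀ k < K, O n k 0 (cs 0) (cs (2 ^ n)) ≤ V n k 0 (cs 0) (cs (2 ^ n)) + ρ) :
    ∑ k ∈ range K, ((1 - 1 / gs) * V n k 0 (cs 0) (cs (2 ^ n))
        + 1 / gs * O n k 0 (cs 0) (cs (2 ^ n)))
      ≤ ∑ k ∈ range K, ∑ q ∈ range (2 ^ n), V 0 k q (cs q) (cs (q + 1)) + NS reg n 0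
        + K * (2 ^ n * ρ) / gs := by
  have h := window_calm n K hgs hg hρ V O (fun k => V n k 0 (cs 0) (cs (2 ^ n)))
    (fun k => O n k 0 (cs 0) (cs (2 ^ n))) cs cr (fun _ => 0) reg 0 le_rfl hreg h0 h1 h2 h3
    (fun _ _ => le_rfl) (fun k hk => by simpa using hOV k hk) (fun _ _ => le_rfl) (by simp)
  simpa using h

/-- **one window, comparator wild.** -/
theorem window_wild (K : ℕ) {gs g ρ : ℝ} (hgs : 1 ≤ gs) (hg : gs ≤ g)
    (val Ot Wl crr : ℕ → ℝ) (regr : ℝ)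
    (r0 : ∀ k < K, 0 ≤ crr k) (r1 : ∀ k < K, Ot k + crr k ≤ val k + ρ)
    (r3 : ∑ k ∈ range K, val k ≤ ∑ k ∈ range K, Wl k + (∑ k ∈ range K, crr k) / g + regr) :
    ∑ k ∈ range K, ((1 - 1 / gs) * val k + 1 / gs * Ot k)
      ≤ ∑ k ∈ range K, Wl k + regr + K * ρ / gs := by
  have hgs0 : 0 < gs := by linarith
  have hS0 : 0 ≤ ∑ k ∈ range K, crr k := Finset.sum_nonneg fun k hk => r0 k (mem_range.1 hk)
  have h5 : (∑ k ∈ range K, crr k) / g ≤ (∑ k ∈ range K, crr k) / gs :=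
    div_le_div_of_nonneg_left hS0 hgs0 hg
  have h6 : ∑ k ∈ range K, ((1 - 1 / gs) * val k + 1 / gs * Ot k)
      ≤ ∑ k ∈ range K, (val k + 1 / gs * (ρ - crr k)) := by
    refine sum_le_sum fun k hk => ?_
    have h7 : 1 / gs * Ot k ≤ 1 / gs * (val k + ρ - crr k) :=
      mul_le_mul_of_nonneg_left (by linarith [r1 k (mem_range.1 hk)]) (by positivity)
    have h8 : 1 / gs * (val k + ρ - crr k) = 1 / gs * val k + 1 / gs * (ρ - crr k) := by ring
    have h9 : (1 - 1 / gs) * val k = val k - 1 / gs * val k := by ring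
    linarith
  have e1 : ∑ k ∈ range K, (val k + 1 / gs * (ρ - crr k))
      = ∑ k ∈ range K, val k + K * ρ / gs - (∑ k ∈ range K, crr k) / gs := by
    rw [sum_add_distrib, ← mul_sum, sum_sub_distrib, sum_const, card_range, nsmul_eq_mul]
    ring
  rw [e1] at h6
  linarith

end Crest.Agent.R288.RegB441
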