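import Crest.Agent.R288.HedLin_283
import Crest.Agent.R288.NoFlag_326

/-!
# R288 (S0433): the root decision {calm, wild} of a window and the lag (posts 4583, 4660)

Numbers only, `K` ranks.  At a window start, rank `k`:
* `L k` = value of the CALM play (in-window kernels of rank `k`, near letters), `Lh k` = the computed
  number (rounded) which is used by the weights, `|Lh k - L k| ≤ ρ`;
* `W k` = value of the option WILD (any number; in the program the lagged running minimum);
* weights `wc k`, `ww k` of the two options: linear weights in the excess over `min (Lh k) (W k)` with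
  denominator `D` (`= unit / rate`), rounding `r k`, common rescaling `sc k` allowed (`RootW`);
* `mix wc ww a b = (wc a + ww b) / (wc + ww)`.

Results:
* `RootW.near`, `RootW.far`: the one level inequality against calm / against wild;
* `compose_near`, `compose_far`: composition with the inner levels, given as ONE hypothesis
  `∑ ((1-qi) L k + qi Vn k) ≤ ∑ S k + Reg` (greedy part `Vn`); total greedy part
  `q = 1 - (1-qi)(1-1/g)` at the same-rank optimum `m k ≤ Vn k, W k`;
* `lag_near`, `lag_far`: the same-rank optimum replaced by the lagged minimum `W (k+1) ≤ min (V k) (W k)`;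
* `window_near`, `window_far`, `window_irregular`: all together;
* priors: `log_prior_calm`, `log_prior_wild`; rounding: `sum_log_r_le`;
* natural weights: `RootW.of_prod` (exact products), `RootW.of_floor` (floors).
-/

set_option autoImplicit false

namespace Crest.Agent.R288.RegC711

open Finset Crest.Agent.R288.HedLin283 Crest.Agent.R288.NoFlag326

/-- mixture of the two options -/
noncomputable def mix (wc ww a b : ℝ) : ℝ := (wc * a + ww * b) / (wc + ww)

theorem mix_scale {wc ww a b s : ℝ} (hs : s ≠ 0) : mix (wc * s) (ww * s) a b = mix wc ww a b := by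
  unfold mix
  rw [show wc * s * a + ww * s * b = (wc * a + ww * b) * s by ring,
    show wc * s + ww * s = (wc + ww) * s by ring, mul_div_mul_right _ _ hs]

theorem mix_le {wc ww a b c : ℝ} (hc : 0 ≤ wc) (hw : 0 ≤ ww) (h : 0 < wc + ww) (ha : a ≤ c)
    (hb : b ≤ c) : mix wc ww a b ≤ c := by
  unfold mix
  rw [div_le_iff₀ h]
  nlinarith [mul_le_mul_of_nonneg_left ha hc, mul_le_mul_of_nonneg_left hb hw]

theorem le_mix {wc ww a b c : ℝ} (hc : 0 ≤ wc) (hw : 0 ≤ ww) (h : 0 < wc + ww) (ha : c ≤ a)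
    (hb : c ≤ b) : c ≤ mix wc ww a b := by
  unfold mix
  rw [le_div_iff₀ h]
  nlinarith [mul_le_mul_of_nonneg_left ha hc, mul_le_mul_of_nonneg_left hb hw]

theorem mix_mono {wc ww a b a' b' : ℝ} (hc : 0 ≤ wc) (hw : 0 ≤ ww) (ha : a ≤ a') (hb : b ≤ b') :
    mix wc ww a b ≤ mix wc ww a' b' := by
  unfold mix
  exact div_le_div_of_nonneg_right (add_le_add (mul_le_mul_of_nonneg_left ha hc)
    (mul_le_mul_of_nonneg_left hb hw)) (add_nonneg hc hw)

theorem mix_add_le {wc ww a b a' b' t : ℝ} (hc : 0 ≤ wc) (hw : 0 ≤ ww) (ht : 0 ≤ t)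
    (ha : a ≤ a' + t) (hb : b ≤ b' + t) : mix wc ww a b ≤ mix wc ww a' b' + t := by
  rcases eq_or_lt_of_le (add_nonneg hc hw) with h | h
  · unfold mix
    rw [← h]
    simpa using ht
  · unfold mix
    rw [div_add' _ _ _ h.ne']
    refine div_le_div_of_nonneg_right ?_ h.le
    nlinarith [mul_le_mul_of_nonneg_left ha hc, mul_le_mul_of_nonneg_left hb hw]

/-- the weights of the root decision -/
structure RootW (K : ℕ) (g D : ℝ) (Lh W wc ww r sc : ℕ → ℝ) : Prop where
  hg : 1 < g
  hD : 0 < D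
  c0 : ∀ k ≤ K, 0 ≤ wc k
  w0 : ∀ k ≤ K, 0 ≤ ww k
  cpos : 0 < wc 0
  wpos : 0 < ww 0
  sc0 : ∀ k < K, 0 < sc k
  r0 : ∀ k < K, 0 ≤ r k
  r1 : ∀ k < K, r k < 1
  /-- range of the two values -/
  rng : ∀ k < K, |Lh k - W k| ≤ D / g
  upc : ∀ k < K, wc (k + 1) ≤ sc k * (wc k * (1 - (Lh k - min (Lh k) (W k)) / D))
  upw : ∀ k < K, ww (k + 1) ≤ sc k * (ww k * (1 - (W k - min (Lh k) (W k)) / D))
  loc : ∀ k < K, sc k * (wc k * (1 - (Lh k - min (Lh k) (W k)) / D) * (1 - r k)) ≤ wc (k + 1)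
  low : ∀ k < K, sc k * (ww k * (1 - (W k - min (Lh k) (W k)) / D) * (1 - r k)) ≤ ww (k + 1)

namespace RootW

variable {K : ℕ} {g D : ℝ} {Lh W wc ww r sc : ℕ → ℝ}

theorem scpos (h : RootW K g D Lh W wc ww r sc) {k : ℕ} (hk : k ≤ K) :
    0 < ∏ i ∈ range k, sc i :=
  prod_pos fun i hi => h.sc0 i (by have := mem_range.1 hi; omega)

/-- main inequality, both comparators (`b = false` : calm, `b = true` : wild) -/
theorem both (h : RootW K g D Lh W wc ww r sc) (b : Bool) :
    (1 - 1 / g) * ∑ k ∈ Finset.range K, mix (wc k) (ww k) (Lh k) (W k)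
        + (1 / g) * ∑ k ∈ Finset.range K, min (Lh k) (W k)
      ≤ ∑ k ∈ Finset.range K, (if b then W k else Lh k)
        + (1 - 1 / g) * D * (Real.log ((wc 0 + ww 0) / (if b then ww 0 else wc 0))
            - ∑ k ∈ Finset.range K, Real.log (1 - r k)) := by
  set P : ℕ → ℝ := fun k => ∏ i ∈ Finset.range k, sc i with hP
  have hPpos : ∀ k ≤ K, 0 < P k := fun k hk => h.scpos hk
  have hPs : ∀ k, P (k + 1) = P k * sc k := fun k => by rw [hP]; exact prod_range_succ _ _
  -- rescaled weights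
  set w : ℕ → Bool → ℝ := fun k a => (if a then ww k else wc k) / P k with hw
  set u : ℕ → Bool → ℝ := fun k a => if a then W k else Lh k with hu
  have hmin : ∀ k (a : Bool), min (Lh k) (W k) ≤ u k a := by
    intro k a
    cases a
    · exact min_le_left _ _
    · exact min_le_right _ _
  have hrange : ∀ k < K, ∀ a : Bool, (u k a - min (Lh k) (W k)) / D ≤ 1 / g := by
    intro k hk a
    have h1 := h.rng k hk
    have hg0 : 0 < g := by linarith [h.hg]
    rw [div_le_div_iff₀ h.hD hg0]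
    rw [le_div_iff₀ hg0] at h1
    have h2 : u k a - min (Lh k) (W k) ≤ |Lh k - W k| := by
      rcases le_total (Lh k) (W k) with hle | hle
      · rw [min_eq_left hle]
        cases a
        · simp [hu]
        · simp only [hu, if_true]
          rw [abs_sub_comm]
          exact le_abs_self _
      · rw [min_eq_right hle]
        cases a
        · simpa [hu] using le_abs_self (Lh k - W k)
        · simp [hu]
    nlinarith
  have hup : ∀ k < K, ∀ a : Bool,
      w (k + 1) a ≤ w k a * (1 - 1 * ((u k a - min (Lh k) (W k)) / D)) := by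
    intro k hk a
    have hp1 := hPpos (k + 1) (by omega)
    have hp := hPpos k (by omega)
    have hs := h.sc0 k hk
    have h1 : (if a then ww (k + 1) else wc (k + 1)) ≤
        sc k * ((if a then ww k else wc k) * (1 - (u k a - min (Lh k) (W k)) / D)) := by
      cases a
      · simpa [hu] using h.upc k hk
      · simpa [hu] using h.upw k hk
    simp only [hw]
    rw [one_mul, div_le_iff₀ hp1, hPs]
    refine h1.trans (le_of_eq ?_)
    field_simp
  have hlo : ∀ k < K, ∀ a : Bool,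
      w k a * (1 - 1 * ((u k a - min (Lh k) (W k)) / D)) * (1 - r k) ≤ w (k + 1) a := by
    intro k hk a
    have hp1 := hPpos (k + 1) (by omega)
    have hp := hPpos k (by omega)
    have hs := h.sc0 k hk
    have h1 : sc k * ((if a then ww k else wc k) * (1 - (u k a - min (Lh k) (W k)) / D) * (1 - r k))
        ≤ (if a then ww (k + 1) else wc (k + 1)) := by
      cases a
      · simpa [hu] using h.loc k hk
      · simpa [hu] using h.low k hk
    simp only [hw]
    rw [one_mul, le_div_iff₀ hp1, hPs]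
    refine le_trans (le_of_eq ?_) h1
    field_simp
  have main := main_val (K := K) (w := w) (u := u) (m := fun k => min (Lh k) (W k)) (r := r)
    (th := 1) (g := g) (U := D) b h.hg one_pos h.hD
    (fun k hk a => by
      cases a
      · exact div_nonneg (h.c0 k hk) (hPpos k hk).le
      · exact div_nonneg (h.w0 k hk) (hPpos k hk).le)
    (by
      cases b
      · exact div_pos h.cpos (hPpos 0 (Nat.zero_le _))
      · exact div_pos h.wpos (hPpos 0 (Nat.zero_le _)))
    (fun k _ => hmin k b)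
    (fun k hk => by rw [one_mul]; exact hrange k hk b)
    h.r1 hup (fun k hk => hlo k hk b)
  have hav : ∀ k ∈ Finset.range K, av (w k) (u k) = mix (wc k) (ww k) (Lh k) (W k) := by
    intro k hk
    have hp := hPpos k (by have := mem_range.1 hk; omega)
    unfold av
    rw [Fintype.sum_bool, Fintype.sum_bool]
    simp only [hw, hu, if_true, Bool.false_eq_true, if_false]
    rw [← mix_scale (wc := wc k) (ww := ww k) (a := Lh k) (b := W k) (inv_ne_zero hp.ne')]
    unfold mix
    simp only [div_eq_mul_inv]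
    congr 1
    · ring
    · congr 1
      ring
  rw [sum_congr rfl hav] at main
  have hP0 : P 0 = 1 := by simp [hP]
  have hlog : (∑ z, w 0 z) / w 0 b = (wc 0 + ww 0) / (if b then ww 0 else wc 0) := by
    rw [Fintype.sum_bool]
    simp only [hw, hP0, div_one, if_true, Bool.false_eq_true, if_false]
    rw [add_comm]
  rw [hlog, div_one] at main
  refine main.trans (le_of_eq ?_)
  rfl

/-- against calm -/
theorem near (h : RootW K g D Lh W wc ww r sc) :
    (1 - 1 / g) * ∑ k ∈ Finset.range K, mix (wc k) (ww k) (Lh k) (W k)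
        + (1 / g) * ∑ k ∈ Finset.range K, min (Lh k) (W k)
      ≤ ∑ k ∈ Finset.range K, Lh k
        + (1 - 1 / g) * D * (Real.log ((wc 0 + ww 0) / wc 0)
            - ∑ k ∈ Finset.range K, Real.log (1 - r k)) := by
  simpa using h.both false

/-- against wild -/
theorem far (h : RootW K g D Lh W wc ww r sc) :
    (1 - 1 / g) * ∑ k ∈ Finset.range K, mix (wc k) (ww k) (Lh k) (W k)
        + (1 / g) * ∑ k ∈ Finset.range K, min (Lh k) (W k)
      ≤ ∑ k ∈ Finset.range K, W k
        + (1 - 1 / g) * D * (Real.log ((wc 0 + ww 0) / ww 0)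
            - ∑ k ∈ Finset.range K, Real.log (1 - r k)) := by
  simpa using h.both true

theorem cpos' (h : RootW K g D Lh W wc ww r sc) : ∀ k ≤ K, 0 < wc k := by
  intro k
  induction k with
  | zero => intro _; exact h.cpos
  | succ k ih =>
    intro hk
    have h1 := ih (by omega)
    have hg0 : 0 < g := by linarith [h.hg]
    have h2 : (Lh k - min (Lh k) (W k)) / D < 1 := by
      have h3 := h.rng k (by omega)
      rw [div_lt_one h.hD]
      have h4 : Lh k - min (Lh k) (W k) ≤ |Lh k - W k| := by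
        rcases le_total (Lh k) (W k) with hle | hle
        · rw [min_eq_left hle]; simp
        · rw [min_eq_right hle]; exact le_abs_self _
      have h5 : D / g < D := by
        rw [div_lt_iff₀ hg0]
        nlinarith [h.hD, h.hg]
      linarith
    have h3 := h.loc k (by omega)
    have h4 : 0 < sc k * (wc k * (1 - (Lh k - min (Lh k) (W k)) / D) * (1 - r k)) :=
      mul_pos (h.sc0 k (by omega)) (mul_pos (mul_pos h1 (by linarith))
        (by linarith [h.r1 k (by omega)]))
    linarith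

end RootW

/-! ### composition with the inner levels -/

section compose

variable {K : ℕ} {g D qi q ρ Reg R0 R1 : ℝ} {L Lh W wc ww S Vn m : ℕ → ℝ}

/-- **near**: the inner statement (comparator `S`) and the root decision against calm -/
theorem compose_near (hg : 1 < g) (hqi0 : 0 ≤ qi) (hqi1 : qi ≤ 1)
    (hq : 1 - q = (1 - qi) * (1 - 1 / g)) (hρ : 0 ≤ ρ)
    (hc : ∀ k < K, 0 ≤ wc k) (hw : ∀ k < K, 0 ≤ ww k)
    (hL1 : ∀ k < K, Lh k ≤ L k + ρ) (hL2 : ∀ k < K, L k ≤ Lh k + ρ)
    (inner : ∑ k ∈ range K, ((1 - qi) * L k + qi * Vn k) ≤ ∑ k ∈ range K, S k + Reg)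
    (root : (1 - 1 / g) * ∑ k ∈ range K, mix (wc k) (ww k) (Lh k) (W k)
        + (1 / g) * ∑ k ∈ range K, min (Lh k) (W k) ≤ ∑ k ∈ range K, Lh k + R0)
    (hm1 : ∀ k < K, m k ≤ Vn k) (hm2 : ∀ k < K, m k ≤ W k) (hVL : ∀ k < K, Vn k ≤ L k) :
    ∑ k ∈ range K, ((1 - q) * mix (wc k) (ww k) (L k) (W k) + q * m k)
      ≤ ∑ k ∈ range K, S k + Reg + (1 - qi) * R0 + 3 * K * ρ := by
  have hg0 : 0 < g := by linarith
  have h1g : 0 ≤ 1 - 1 / g := by rw [sub_nonneg, div_le_one hg0]; exact hg.le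
  have hig : 0 ≤ 1 / g := by positivity
  have hq' : q = qi + (1 - qi) * (1 / g) := by linear_combination -hq
  have hmix : ∑ k ∈ range K, mix (wc k) (ww k) (L k) (W k)
      ≤ ∑ k ∈ range K, mix (wc k) (ww k) (Lh k) (W k) + K * ρ := by
    calc _ ≤ ∑ k ∈ range K, (mix (wc k) (ww k) (Lh k) (W k) + ρ) :=
          sum_le_sum fun k hk => mix_add_le (hc k (mem_range.1 hk)) (hw k (mem_range.1 hk)) hρ
            (hL2 k (mem_range.1 hk)) (by linarith)
      _ = _ := by rw [sum_add_distrib, sum_const, card_range, nsmul_eq_mul]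
  have hmm : ∑ k ∈ range K, m k ≤ ∑ k ∈ range K, min (Lh k) (W k) + K * ρ := by
    calc _ ≤ ∑ k ∈ range K, (min (Lh k) (W k) + ρ) := by
          refine sum_le_sum fun k hk => ?_
          have hk' := mem_range.1 hk
          have h1 := hm1 k hk'
          have h2 := hm2 k hk'
          have h3 := hVL k hk'
          have h4 := hL2 k hk'
          rcases le_total (Lh k) (W k) with h | h
          · rw [min_eq_left h]; linarith
          · rw [min_eq_right h]; linarith
      _ = _ := by rw [sum_add_distrib, sum_const, card_range, nsmul_eq_mul]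
  have hmV : ∑ k ∈ range K, m k ≤ ∑ k ∈ range K, Vn k :=
    sum_le_sum fun k hk => hm1 k (mem_range.1 hk)
  have hLL : ∑ k ∈ range K, Lh k ≤ ∑ k ∈ range K, L k + K * ρ := by
    calc _ ≤ ∑ k ∈ range K, (L k + ρ) := sum_le_sum fun k hk => hL1 k (mem_range.1 hk)
      _ = _ := by rw [sum_add_distrib, sum_const, card_range, nsmul_eq_mul]
  rw [sum_add_distrib, ← mul_sum, ← mul_sum] at inner ⊢
  have hKρ : 0 ≤ (K : ℝ) * ρ := by positivity
  have a1 : (1 - q) * ∑ k ∈ range K, mix (wc k) (ww k) (L k) (W k)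
      ≤ (1 - qi) * ((1 - 1 / g) * ∑ k ∈ range K, mix (wc k) (ww k) (Lh k) (W k)) + K * ρ := by
    rw [hq]
    have h1 : (1 - qi) * (1 - 1 / g) * ∑ k ∈ range K, mix (wc k) (ww k) (L k) (W k)
        ≤ (1 - qi) * (1 - 1 / g) * (∑ k ∈ range K, mix (wc k) (ww k) (Lh k) (W k) + K * ρ) :=
      mul_le_mul_of_nonneg_left hmix (mul_nonneg (by linarith) h1g)
    have h2 : (1 - qi) * (1 - 1 / g) ≤ 1 :=
      mul_le_one₀ (by linarith) h1g (by linarith)
    have h3 := mul_le_mul_of_nonneg_right h2 hKρ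
    linarith
  have a2 := mul_le_mul_of_nonneg_left root (show 0 ≤ 1 - qi by linarith)
  have a3 : q * ∑ k ∈ range K, m k ≤ qi * ∑ k ∈ range K, Vn k
      + (1 - qi) * ((1 / g) * ∑ k ∈ range K, min (Lh k) (W k)) + K * ρ := by
    have h1 := mul_le_mul_of_nonneg_left hmV hqi0
    have h2 := mul_le_mul_of_nonneg_left hmm
      (mul_nonneg (show 0 ≤ 1 - qi by linarith) hig)
    have h3 : (1 - qi) * (1 / g) ≤ 1 := by
      refine mul_le_one₀ (by linarith) hig ?_
      rw [div_le_one hg0]; exact hg.le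
    have h4 := mul_le_mul_of_nonneg_right h3 hKρ
    rw [hq']
    nlinarith
  have a4 := mul_le_mul_of_nonneg_left hLL (show 0 ≤ 1 - qi by linarith)
  have a5 : (1 - qi) * (K * ρ) ≤ K * ρ := by nlinarith
  nlinarith

/-- **far**: the root decision against wild -/
theorem compose_far (hg : 1 < g) (hqi0 : 0 ≤ qi) (hqi1 : qi ≤ 1)
    (hq : 1 - q = (1 - qi) * (1 - 1 / g)) (hρ : 0 ≤ ρ)
    (hc : ∀ k < K, 0 ≤ wc k) (hw : ∀ k < K, 0 ≤ ww k)
    (hL2 : ∀ k < K, L k ≤ Lh k + ρ)
    (root : (1 - 1 / g) * ∑ k ∈ range K, mix (wc k) (ww k) (Lh k) (W k)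
        + (1 / g) * ∑ k ∈ range K, min (Lh k) (W k) ≤ ∑ k ∈ range K, W k + R1)
    (hm2 : ∀ k < K, m k ≤ W k) (hm3 : ∀ k < K, m k ≤ L k) :
    ∑ k ∈ range K, ((1 - q) * mix (wc k) (ww k) (L k) (W k) + q * m k)
      ≤ ∑ k ∈ range K, W k + (1 - qi) * R1 + 2 * K * ρ := by
  have hg0 : 0 < g := by linarith
  have h1g : 0 ≤ 1 - 1 / g := by rw [sub_nonneg, div_le_one hg0]; exact hg.le
  have hig : 0 ≤ 1 / g := by positivity
  have hq' : q = qi + (1 - qi) * (1 / g) := by linear_combination -hq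
  have hmix : ∑ k ∈ range K, mix (wc k) (ww k) (L k) (W k)
      ≤ ∑ k ∈ range K, mix (wc k) (ww k) (Lh k) (W k) + K * ρ := by
    calc _ ≤ ∑ k ∈ range K, (mix (wc k) (ww k) (Lh k) (W k) + ρ) :=
          sum_le_sum fun k hk => mix_add_le (hc k (mem_range.1 hk)) (hw k (mem_range.1 hk)) hρ
            (hL2 k (mem_range.1 hk)) (by linarith)
      _ = _ := by rw [sum_add_distrib, sum_const, card_range, nsmul_eq_mul]
  have hmm : ∑ k ∈ range K, m k ≤ ∑ k ∈ range K, min (Lh k) (W k) + K * ρ := by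
    calc _ ≤ ∑ k ∈ range K, (min (Lh k) (W k) + ρ) := by
          refine sum_le_sum fun k hk => ?_
          have hk' := mem_range.1 hk
          have h2 := hm2 k hk'
          have h3 := hm3 k hk'
          have h4 := hL2 k hk'
          rcases le_total (Lh k) (W k) with h | h
          · rw [min_eq_left h]; linarith
          · rw [min_eq_right h]; linarith
      _ = _ := by rw [sum_add_distrib, sum_const, card_range, nsmul_eq_mul]
  have hmW : ∑ k ∈ range K, m k ≤ ∑ k ∈ range K, W k :=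
    sum_le_sum fun k hk => hm2 k (mem_range.1 hk)
  rw [sum_add_distrib, ← mul_sum, ← mul_sum]
  have hKρ : 0 ≤ (K : ℝ) * ρ := by positivity
  have a1 : (1 - q) * ∑ k ∈ range K, mix (wc k) (ww k) (L k) (W k)
      ≤ (1 - qi) * ((1 - 1 / g) * ∑ k ∈ range K, mix (wc k) (ww k) (Lh k) (W k)) + K * ρ := by
    rw [hq]
    have h1 : (1 - qi) * (1 - 1 / g) * ∑ k ∈ range K, mix (wc k) (ww k) (L k) (W k)
        ≤ (1 - qi) * (1 - 1 / g) * (∑ k ∈ range K, mix (wc k) (ww k) (Lh k) (W k) + K * ρ) :=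
      mul_le_mul_of_nonneg_left hmix (mul_nonneg (by linarith) h1g)
    have h2 : (1 - qi) * (1 - 1 / g) ≤ 1 :=
      mul_le_one₀ (by linarith) h1g (by linarith)
    have h3 := mul_le_mul_of_nonneg_right h2 hKρ
    linarith
  have a2 := mul_le_mul_of_nonneg_left root (show 0 ≤ 1 - qi by linarith)
  have a3 : q * ∑ k ∈ range K, m k ≤ qi * ∑ k ∈ range K, W k
      + (1 - qi) * ((1 / g) * ∑ k ∈ range K, min (Lh k) (W k)) + K * ρ := by
    have h1 := mul_le_mul_of_nonneg_left hmW hqi0
    have h2 := mul_le_mul_of_nonneg_left hmm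
      (mul_nonneg (show 0 ≤ 1 - qi by linarith) hig)
    have h3 : (1 - qi) * (1 / g) ≤ 1 := by
      refine mul_le_one₀ (by linarith) hig ?_
      rw [div_le_one hg0]; exact hg.le
    have h4 := mul_le_mul_of_nonneg_right h3 hKρ
    rw [hq']
    nlinarith
  nlinarith

end compose

/-! ### the lag: the same-rank optimum is replaced by the lagged running minimum -/

section lag

variable {K : ℕ} {F e q Z : ℝ} {H W V m : ℕ → ℝ}

/-- `m k = min (V k) (W k)` and `W (k+1) ≤ m k + e` -/
theorem lag_step (hF : 0 ≤ F) (he : 0 ≤ e) (hq : 0 ≤ q) (h0 : W 0 ≤ F + e)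
    (hV : ∀ k < K, 0 ≤ V k) (hW : ∀ k < K, 0 ≤ W k)
    (hs : ∀ k < K, W (k + 1) ≤ min (V k) (W k) + e)
    (hB : ∑ k ∈ range K, ((1 - q) * H k + q * min (V k) (W k)) ≤ Z) :
    ∑ k ∈ range K, ((1 - q) * H k + q * W k) ≤ Z + q * (F + K * e) :=
  noflag (m := fun k => min (V k) (W k)) hq h0 he hs
    (fun hK => le_min (hV _ (by omega)) (hW _ (by omega))) hF hB

/-- the option wild against every comparator with `V k ≤ S k` -/
theorem lag_wild (hF : 0 ≤ F) (he : 0 ≤ e) (h0 : W 0 ≤ F + e)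
    (hV : ∀ k < K, 0 ≤ V k) (hW : ∀ k < K, 0 ≤ W k)
    (hs : ∀ k < K, W (k + 1) ≤ min (V k) (W k) + e) {S : ℕ → ℝ} (hVS : ∀ k < K, V k ≤ S k) :
    ∑ k ∈ range K, W k ≤ F + ∑ k ∈ range K, S k + K * e := by
  have h1 := sum_lag (m := fun k => min (V k) (W k)) h0 he hs
    (fun hK => le_min (hV _ (by omega)) (hW _ (by omega))) hF
  have h2 : ∑ k ∈ range K, min (V k) (W k) ≤ ∑ k ∈ range K, S k :=
    sum_le_sum fun k hk => (min_le_left _ _).trans (hVS k (mem_range.1 hk))
  linarith

end lag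

/-! ### the window -/

/-- all the data of one window start, `K` ranks -/
structure Win (K : ℕ) (g D qi q ρ F e : ℝ) (L Lh W V Vn wc ww r sc : ℕ → ℝ) : Prop where
  root : RootW K g D Lh W wc ww r sc
  qi0 : 0 ≤ qi
  qi1 : qi ≤ 1
  hq : 1 - q = (1 - qi) * (1 - 1 / g)
  ρ0 : 0 ≤ ρ
  F0 : 0 ≤ F
  e0 : 0 ≤ e
  /-- computed calm value -/
  L1 : ∀ k < K, Lh k ≤ L k + ρ
  L2 : ∀ k < K, L k ≤ Lh k + ρ
  /-- optimum over the near staircases -/
  VnL : ∀ k < K, Vn k ≤ L k
  /-- optimum over all staircases -/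
  VVn : ∀ k < K, V k ≤ Vn k
  V0 : ∀ k < K, 0 ≤ V k
  W0 : ∀ k < K, 0 ≤ W k
  /-- the running minimum -/
  Wz : W 0 ≤ F + e
  Ws : ∀ k < K, W (k + 1) ≤ min (V k) (W k) + e

namespace Win

variable {K : ℕ} {g D qi q ρ F e : ℝ} {L Lh W V Vn wc ww r sc : ℕ → ℝ}

theorem q0 (w : Win K g D qi q ρ F e L Lh W V Vn wc ww r sc) : 0 ≤ q := by
  have hg0 : 0 < g := by linarith [w.root.hg]
  have h1 : (1 - qi) * (1 - 1 / g) ≤ 1 := by
    have h2 : 1 - 1 / g ≤ 1 := by have : 0 ≤ 1 / g := by positivity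
                                  linarith
    have h3 : 0 ≤ 1 - 1 / g := by rw [sub_nonneg, div_le_one hg0]; exact w.root.hg.le
    exact mul_le_one₀ (by linarith [w.qi0]) h3 h2
  linarith [w.hq]

theorem q1 (w : Win K g D qi q ρ F e L Lh W V Vn wc ww r sc) : q ≤ 1 := by
  have hg0 : 0 < g := by linarith [w.root.hg]
  have h3 : 0 ≤ 1 - 1 / g := by rw [sub_nonneg, div_le_one hg0]; exact w.root.hg.le
  have := mul_nonneg (show 0 ≤ 1 - qi by linarith [w.qi1]) h3
  linarith [w.hq]

/-- **near comparator**: played value `A k = (1-q) mix(L,W) + q W` (up to `η`) -/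
theorem near (w : Win K g D qi q ρ F e L Lh W V Vn wc ww r sc) {A S : ℕ → ℝ} {Reg η : ℝ}
    (hA : ∀ k < K, A k ≤ (1 - q) * mix (wc k) (ww k) (L k) (W k) + q * W k + η)
    (inner : ∑ k ∈ range K, ((1 - qi) * L k + qi * Vn k) ≤ ∑ k ∈ range K, S k + Reg) :
    ∑ k ∈ range K, A k ≤ ∑ k ∈ range K, S k + Reg
      + D * (Real.log ((wc 0 + ww 0) / wc 0) - ∑ k ∈ range K, Real.log (1 - r k))
      + q * F + K * (η + q * e + 3 * ρ) := by
  have h1 := compose_near (m := fun k => min (V k) (W k)) w.root.hg w.qi0 w.qi1 w.hq w.ρ0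
    (fun k hk => w.root.c0 k hk.le) (fun k hk => w.root.w0 k hk.le) w.L1 w.L2 inner
    w.root.near (fun k hk => (min_le_left _ _).trans (w.VVn k hk)) (fun k _ => min_le_right _ _)
    w.VnL
  have h2 := lag_step w.F0 w.e0 w.q0 w.Wz w.V0 w.W0 w.Ws h1
  have h3 : ∑ k ∈ range K, A k
      ≤ ∑ k ∈ range K, ((1 - q) * mix (wc k) (ww k) (L k) (W k) + q * W k) + K * η := by
    calc _ ≤ ∑ k ∈ range K, ((1 - q) * mix (wc k) (ww k) (L k) (W k) + q * W k + η) :=
          sum_le_sum fun k hk => hA k (mem_range.1 hk)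
      _ = _ := by rw [sum_add_distrib, sum_const, card_range, nsmul_eq_mul]
  have hg0 : 0 < g := by linarith [w.root.hg]
  have hlog0 : 0 ≤ Real.log ((wc 0 + ww 0) / wc 0) := by
    refine Real.log_nonneg ?_
    rw [one_le_div w.root.cpos]
    linarith [w.root.wpos]
  have hlogr : ∑ k ∈ range K, Real.log (1 - r k) ≤ 0 :=
    Finset.sum_nonpos fun k hk => Real.log_nonpos (by linarith [w.root.r1 k (mem_range.1 hk)])
      (by linarith [w.root.r0 k (mem_range.1 hk)])
  have h4 : (1 - qi) * ((1 - 1 / g) * D *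
      (Real.log ((wc 0 + ww 0) / wc 0) - ∑ k ∈ range K, Real.log (1 - r k)))
      ≤ D * (Real.log ((wc 0 + ww 0) / wc 0) - ∑ k ∈ range K, Real.log (1 - r k)) := by
    have h5 : 0 ≤ D * (Real.log ((wc 0 + ww 0) / wc 0) - ∑ k ∈ range K, Real.log (1 - r k)) :=
      mul_nonneg w.root.hD.le (by linarith)
    have h6 : (1 - qi) * (1 - 1 / g) ≤ 1 := by linarith [w.hq, w.q0]
    calc _ = (1 - qi) * (1 - 1 / g) * (D *
          (Real.log ((wc 0 + ww 0) / wc 0) - ∑ k ∈ range K, Real.log (1 - r k))) := by ring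
      _ ≤ 1 * _ := mul_le_mul_of_nonneg_right h6 h5
      _ = _ := one_mul _
  have h7 : K * (η + q * e + 3 * ρ) = K * η + q * (K * e) + 3 * K * ρ := by ring
  linarith

/-- **far comparator**: any staircase of the full menu, `V k ≤ S k` -/
theorem far (w : Win K g D qi q ρ F e L Lh W V Vn wc ww r sc) {A S : ℕ → ℝ} {η : ℝ}
    (hA : ∀ k < K, A k ≤ (1 - q) * mix (wc k) (ww k) (L k) (W k) + q * W k + η)
    (hVS : ∀ k < K, V k ≤ S k) :
    ∑ k ∈ range K, A k ≤ ∑ k ∈ range K, S k
      + D * (Real.log ((wc 0 + ww 0) / ww 0) - ∑ k ∈ range K, Real.log (1 - r k))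
      + (1 + q) * F + K * (η + (1 + q) * e + 2 * ρ) := by
  have h1 := compose_far (m := fun k => min (V k) (W k)) w.root.hg w.qi0 w.qi1 w.hq w.ρ0
    (fun k hk => w.root.c0 k hk.le) (fun k hk => w.root.w0 k hk.le) w.L2
    w.root.far (fun k _ => min_le_right _ _)
    (fun k hk => (min_le_left _ _).trans ((w.VVn k hk).trans (w.VnL k hk)))
  have h2 := lag_step w.F0 w.e0 w.q0 w.Wz w.V0 w.W0 w.Ws h1
  have h2' := lag_wild w.F0 w.e0 w.Wz w.V0 w.W0 w.Ws hVS
  have h3 : ∑ k ∈ range K, A k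
      ≤ ∑ k ∈ range K, ((1 - q) * mix (wc k) (ww k) (L k) (W k) + q * W k) + K * η := by
    calc _ ≤ ∑ k ∈ range K, ((1 - q) * mix (wc k) (ww k) (L k) (W k) + q * W k + η) :=
          sum_le_sum fun k hk => hA k (mem_range.1 hk)
      _ = _ := by rw [sum_add_distrib, sum_const, card_range, nsmul_eq_mul]
  have hlog0 : 0 ≤ Real.log ((wc 0 + ww 0) / ww 0) := by
    refine Real.log_nonneg ?_
    rw [one_le_div w.root.wpos]
    linarith [w.root.cpos]
  have hlogr : ∑ k ∈ range K, Real.log (1 - r k) ≤ 0 :=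
    Finset.sum_nonpos fun k hk => Real.log_nonpos (by linarith [w.root.r1 k (mem_range.1 hk)])
      (by linarith [w.root.r0 k (mem_range.1 hk)])
  have h4 : (1 - qi) * ((1 - 1 / g) * D *
      (Real.log ((wc 0 + ww 0) / ww 0) - ∑ k ∈ range K, Real.log (1 - r k)))
      ≤ D * (Real.log ((wc 0 + ww 0) / ww 0) - ∑ k ∈ range K, Real.log (1 - r k)) := by
    have h5 : 0 ≤ D * (Real.log ((wc 0 + ww 0) / ww 0) - ∑ k ∈ range K, Real.log (1 - r k)) :=
      mul_nonneg w.root.hD.le (by linarith)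
    have h6 : (1 - qi) * (1 - 1 / g) ≤ 1 := by linarith [w.hq, w.q0]
    calc _ = (1 - qi) * (1 - 1 / g) * (D *
          (Real.log ((wc 0 + ww 0) / ww 0) - ∑ k ∈ range K, Real.log (1 - r k))) := by ring
      _ ≤ 1 * _ := mul_le_mul_of_nonneg_right h6 h5
      _ = _ := one_mul _
  have h7 : K * (η + (1 + q) * e + 2 * ρ) = K * η + q * (K * e) + K * e + 2 * K * ρ := by ring
  linarith

end Win

/-- **no calm option** (the plan is not regular): the value is `W k` -/
theorem window_irregular {K : ℕ} {F e η : ℝ} {A W V S : ℕ → ℝ} (hF : 0 ≤ F) (he : 0 ≤ e)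
    (h0 : W 0 ≤ F + e) (hV : ∀ k < K, 0 ≤ V k) (hW : ∀ k < K, 0 ≤ W k)
    (hs : ∀ k < K, W (k + 1) ≤ min (V k) (W k) + e) (hVS : ∀ k < K, V k ≤ S k)
    (hA : ∀ k < K, A k ≤ W k + η) :
    ∑ k ∈ range K, A k ≤ ∑ k ∈ range K, S k + F + K * (η + e) := by
  have h1 := lag_wild hF he h0 hV hW hs hVS
  have h3 : ∑ k ∈ range K, A k ≤ ∑ k ∈ range K, W k + K * η := by
    calc _ ≤ ∑ k ∈ range K, (W k + η) := sum_le_sum fun k hk => hA k (mem_range.1 hk)
      _ = _ := by rw [sum_add_distrib, sum_const, card_range, nsmul_eq_mul]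
  linarith

/-! ### priors, rounding -/

theorem log_prior_calm {wc ww : ℝ} (hc : 0 < wc) (hw : 0 ≤ ww) :
    Real.log ((wc + ww) / wc) ≤ ww / wc := by
  have h : (wc + ww) / wc = 1 + ww / wc := by field_simp
  rw [h]
  have h1 := Real.log_le_sub_one_of_pos (show 0 < 1 + ww / wc by positivity)
  linarith

theorem log_prior_wild {wc ww : ℝ} (hc : 0 ≤ wc) (hw : 0 < ww) {Λ : ℝ}
    (h : wc + ww ≤ Λ * ww) : Real.log ((wc + ww) / ww) ≤ Real.log Λ := by
  refine Real.log_le_log (by positivity) ?_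
  rwa [div_le_iff₀ hw]

theorem sum_log_r_le {K : ℕ} {r : ℕ → ℝ} {t : ℝ} (h0 : ∀ k < K, 0 ≤ r k) (h1 : ∀ k < K, r k ≤ t)
    (ht : t ≤ 1 / 2) : -∑ k ∈ range K, Real.log (1 - r k) ≤ 2 * K * t := by
  rw [← sum_neg_distrib]
  calc _ ≤ ∑ _k ∈ range K, 2 * t := by
        refine sum_le_sum fun k hk => ?_
        have hk' := mem_range.1 hk
        exact (neg_log_one_sub_le (h0 k hk') ((h1 k hk').trans ht)).trans
          (by linarith [h1 k hk'])
    _ = _ := by rw [sum_const, card_range, nsmul_eq_mul]; ring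

/-! ### natural weights -/

/-- excess of an option over the minimum of the two (natural numbers) -/
def exc (a b : ℕ) : ℕ := a - min a b

theorem exc_cast (a b : ℕ) : ((exc a b : ℕ) : ℝ) = (a : ℝ) - min (a : ℝ) (b : ℝ) := by
  unfold exc
  rw [Nat.cast_sub (min_le_left _ _), Nat.cast_min]

theorem exc_cast' (a b : ℕ) : ((exc b a : ℕ) : ℝ) = (b : ℝ) - min (a : ℝ) (b : ℝ) := by
  rw [exc_cast, min_comm]

/-- one update with an exact product -/
def updP (D x d : ℕ) : ℕ := x * (D - d)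

/-- one update with a floor -/
def updF (D x d : ℕ) : ℕ := x * (D - d) / D

theorem updP_cast {D x d : ℕ} (hD : 0 < D) (hd : d ≤ D) :
    ((updP D x d : ℕ) : ℝ) = D * (x * (1 - (d : ℝ) / D)) := by
  unfold updP
  have hD' : (D : ℝ) ≠ 0 := by exact_mod_cast hD.ne'
  rw [Nat.cast_mul, Nat.cast_sub hd]
  field_simp

theorem updF_le {D x d : ℕ} (hD : 0 < D) (hd : d ≤ D) :
    ((updF D x d : ℕ) : ℝ) ≤ x * (1 - (d : ℝ) / D) := by
  unfold updF
  have hD' : (0 : ℝ) < D := by exact_mod_cast hD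
  refine (Nat.cast_div_le).trans ?_
  rw [Nat.cast_mul, Nat.cast_sub hd, div_le_iff₀ hD']
  refine le_of_eq ?_
  field_simp

/-- a floor loses at most the factor `1 - 1/T` if the result before the floor is at least `T` -/
theorem le_updF {D x d : ℕ} (hD : 0 < D) (hd : d ≤ D) {T : ℝ} (hT : 0 < T)
    (h : T ≤ x * (1 - (d : ℝ) / D)) :
    (x : ℝ) * (1 - (d : ℝ) / D) * (1 - 1 / T) ≤ (updF D x d : ℕ) := by
  have hD' : (0 : ℝ) < D := by exact_mod_cast hD
  have h1 : (x : ℝ) * (1 - (d : ℝ) / D) < (updF D x d : ℕ) + 1 := by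
    unfold updF
    have h2 := Nat.lt_div_mul_add (a := x * (D - d)) hD
    have h3 : ((x * (D - d) : ℕ) : ℝ) < ((x * (D - d) / D * D + D : ℕ) : ℝ) := by exact_mod_cast h2
    rw [Nat.cast_mul, Nat.cast_sub hd, Nat.cast_add, Nat.cast_mul] at h3
    have h4 : (x : ℝ) * (1 - (d : ℝ) / D) = x * ((D : ℝ) - d) / D := by field_simp
    rw [h4, div_lt_iff₀ hD']
    linarith
  have h5 : 1 ≤ (x : ℝ) * (1 - (d : ℝ) / D) * (1 / T) := by
    rw [mul_one_div, le_div_iff₀ hT]; linarith
  linarith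

/-- exact products -/
theorem RootW.of_prod {K D : ℕ} {g : ℝ} (hg : 1 < g) (hD : 0 < D) (Lh W : ℕ → ℕ) (wc ww : ℕ → ℕ)
    (hc : 0 < wc 0) (hw : 0 < ww 0)
    (hr : ∀ k < K, |(Lh k : ℝ) - W k| ≤ D / g)
    (hcs : ∀ k < K, wc (k + 1) = updP D (wc k) (exc (Lh k) (W k)))
    (hws : ∀ k < K, ww (k + 1) = updP D (ww k) (exc (W k) (Lh k))) :
    RootW K g D (fun k => Lh k) (fun k => W k) (fun k => wc k) (fun k => ww k) (fun _ => 0)
      (fun _ => D) := by
  have hD' : (0 : ℝ) < D := by exact_mod_cast hD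
  have hg0 : 0 < g := by linarith
  have key : ∀ k < K, exc (Lh k) (W k) ≤ D ∧ exc (W k) (Lh k) ≤ D := by
    intro k hk
    have h1 := hr k hk
    have h2 : (D : ℝ) / g ≤ D := by
      rw [div_le_iff₀ hg0]; nlinarith
    rw [abs_le] at h1
    constructor
    · have h3 : ((exc (Lh k) (W k) : ℕ) : ℝ) ≤ D := by
        rw [exc_cast]
        rcases le_total (Lh k : ℝ) (W k : ℝ) with h | h
        · rw [min_eq_left h]; simp
        · rw [min_eq_right h]; linarith
      exact_mod_cast h3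
    · have h3 : ((exc (W k) (Lh k) : ℕ) : ℝ) ≤ D := by
        rw [exc_cast']
        rcases le_total (Lh k : ℝ) (W k : ℝ) with h | h
        · rw [min_eq_left h]; linarith
        · rw [min_eq_right h]; simp
      exact_mod_cast h3
  exact
    { hg := hg
      hD := hD'
      c0 := fun k _ => Nat.cast_nonneg _
      w0 := fun k _ => Nat.cast_nonneg _
      cpos := by exact_mod_cast hc
      wpos := by exact_mod_cast hw
      sc0 := fun k _ => hD'
      r0 := fun k _ => le_rfl
      r1 := fun k _ => one_pos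
      rng := hr
      upc := fun k hk => by
        rw [hcs k hk, updP_cast hD (key k hk).1, exc_cast]
      upw := fun k hk => by
        rw [hws k hk, updP_cast hD (key k hk).2, exc_cast']
      loc := fun k hk => by
        rw [hcs k hk, updP_cast hD (key k hk).1, exc_cast]
        simp
      low := fun k hk => by
        rw [hws k hk, updP_cast hD (key k hk).2, exc_cast']
        simp }

/-- one update with the factor of `Alg45.fac` (v2): `2 gd U - min (gd U) (2 gn x)` -/
def facU (gn gd U x : ℕ) : ℕ := 2 * gd * U - min (gd * U) (2 * gn * x)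

theorem facU_cast {gn gd U x : ℕ} (hgd : 0 < gd) (hU : 0 < U) (hgn : 0 < gn)
    (hx : 2 * gn * x ≤ gd * U) :
    ((facU gn gd U x : ℕ) : ℝ) = 2 * gd * U * (1 - (x : ℝ) / (gd * U / gn)) := by
  unfold facU
  rw [min_eq_right hx, Nat.cast_sub (by nlinarith)]
  have h1 : (gd : ℝ) ≠ 0 := by exact_mod_cast hgd.ne'
  have h2 : (U : ℝ) ≠ 0 := by exact_mod_cast hU.ne'
  have h3 : (gn : ℝ) ≠ 0 := by exact_mod_cast hgn.ne'
  push_cast
  field_simp

/-- exact products with the factor `facU`, `D = gd U / gn` -/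
theorem RootW.of_facU {K gn gd U : ℕ} {g : ℝ} (hg : 2 ≤ g) (hgd : 0 < gd) (hU : 0 < U) (hgn : 0 < gn)
    (Lh W : ℕ → ℕ) (wc ww : ℕ → ℕ) (hc : 0 < wc 0) (hw : 0 < ww 0)
    (hr : ∀ k < K, |(Lh k : ℝ) - W k| ≤ (gd * U / gn : ℝ) / g)
    (hcs : ∀ k < K, wc (k + 1) = wc k * facU gn gd U (exc (Lh k) (W k)))
    (hws : ∀ k < K, ww (k + 1) = ww k * facU gn gd U (exc (W k) (Lh k))) :
    RootW K g (gd * U / gn) (fun k => Lh k) (fun k => W k) (fun k => wc k) (fun k => ww k)
      (fun _ => 0) (fun _ => 2 * gd * U) := by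
  have h1 : (0 : ℝ) < gd := by exact_mod_cast hgd
  have h2 : (0 : ℝ) < U := by exact_mod_cast hU
  have h3 : (0 : ℝ) < gn := by exact_mod_cast hgn
  have hD' : (0 : ℝ) < gd * U / gn := by positivity
  have hg0 : 0 < g := by linarith
  have key : ∀ k < K, 2 * gn * exc (Lh k) (W k) ≤ gd * U ∧ 2 * gn * exc (W k) (Lh k) ≤ gd * U := by
    intro k hk
    have h4 := hr k hk
    have h5 : (gd * U / gn : ℝ) / g ≤ (gd * U / gn : ℝ) / 2 :=
      div_le_div_of_nonneg_left hD'.le (by norm_num) hg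
    have h6 := h4.trans h5
    rw [abs_le] at h6
    have h7 : ∀ t : ℝ, t ≤ (gd * U / gn : ℝ) / 2 → 2 * gn * t ≤ gd * U := by
      intro t ht
      rw [div_div, le_div_iff₀ (by positivity)] at ht
      linarith
    constructor
    · have h8 : ((exc (Lh k) (W k) : ℕ) : ℝ) ≤ (gd * U / gn : ℝ) / 2 := by
        rw [exc_cast]
        rcases le_total (Lh k : ℝ) (W k : ℝ) with h | h
        · rw [min_eq_left h, sub_self]; positivity
        · rw [min_eq_right h]; linarith [h6.2]
      exact_mod_cast h7 _ h8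
    · have h8 : ((exc (W k) (Lh k) : ℕ) : ℝ) ≤ (gd * U / gn : ℝ) / 2 := by
        rw [exc_cast']
        rcases le_total (Lh k : ℝ) (W k : ℝ) with h | h
        · rw [min_eq_left h]; linarith [h6.1]
        · rw [min_eq_right h, sub_self]; positivity
      exact_mod_cast h7 _ h8
  exact
    { hg := by linarith
      hD := hD'
      c0 := fun k _ => Nat.cast_nonneg _
      w0 := fun k _ => Nat.cast_nonneg _
      cpos := by exact_mod_cast hc
      wpos := by exact_mod_cast hw
      sc0 := fun k _ => by positivity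
      r0 := fun k _ => le_rfl
      r1 := fun k _ => one_pos
      rng := hr
      upc := fun k hk => by
        rw [hcs k hk, Nat.cast_mul, facU_cast hgd hU hgn (key k hk).1, exc_cast]
        exact le_of_eq (by ring)
      upw := fun k hk => by
        rw [hws k hk, Nat.cast_mul, facU_cast hgd hU hgn (key k hk).2, exc_cast']
        exact le_of_eq (by ring)
      loc := fun k hk => by
        rw [hcs k hk, Nat.cast_mul, facU_cast hgd hU hgn (key k hk).1, exc_cast]
        exact le_of_eq (by ring)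
      low := fun k hk => by
        rw [hws k hk, Nat.cast_mul, facU_cast hgd hU hgn (key k hk).2, exc_cast']
        exact le_of_eq (by ring) }

/-- floors: the weights stay above `T` -/
theorem RootW.of_floor {K D : ℕ} {g T : ℝ} (hg : 1 < g) (hD : 0 < D) (Lh W : ℕ → ℕ)
    (wc ww : ℕ → ℕ) (hT : 1 < T)
    (hr : ∀ k < K, |(Lh k : ℝ) - W k| ≤ D / g)
    (hc : T ≤ wc 0 * (1 - 1 / g)) (hw : T ≤ ww 0 * (1 - 1 / g))
    (hTc : ∀ k < K, T ≤ wc k * (1 - 1 / g)) (hTw : ∀ k < K, T ≤ ww k * (1 - 1 / g))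
    (hcs : ∀ k < K, wc (k + 1) = updF D (wc k) (exc (Lh k) (W k)))
    (hws : ∀ k < K, ww (k + 1) = updF D (ww k) (exc (W k) (Lh k))) :
    RootW K g D (fun k => Lh k) (fun k => W k) (fun k => wc k) (fun k => ww k) (fun _ => 1 / T)
      (fun _ => 1) := by
  have hD' : (0 : ℝ) < D := by exact_mod_cast hD
  have hg0 : 0 < g := by linarith
  have hT0 : 0 < T := by linarith
  have h1g : 0 < 1 - 1 / g := by rw [sub_pos, div_lt_one hg0]; exact hg
  have key : ∀ k < K, ((exc (Lh k) (W k) : ℕ) : ℝ) / D ≤ 1 / g ∧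
      ((exc (W k) (Lh k) : ℕ) : ℝ) / D ≤ 1 / g := by
    intro k hk
    have h1 := hr k hk
    rw [abs_le, le_div_iff₀ hg0, ← neg_div, div_le_iff₀ hg0] at h1
    rw [exc_cast, exc_cast', div_le_div_iff₀ hD' hg0, div_le_div_iff₀ hD' hg0]
    rcases le_total (Lh k : ℝ) (W k : ℝ) with h | h
    · rw [min_eq_left h]
      constructor
      · simp
      · linarith [h1.1]
    · rw [min_eq_right h]
      constructor
      · linarith [h1.2]
      · simp
  have keyD : ∀ k < K, exc (Lh k) (W k) ≤ D ∧ exc (W k) (Lh k) ≤ D := by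
    intro k hk
    obtain ⟨h1, h2⟩ := key k hk
    have h3 : 1 / g ≤ 1 := by rw [div_le_one hg0]; exact hg.le
    constructor
    · have h4 : ((exc (Lh k) (W k) : ℕ) : ℝ) ≤ D := by
        have := h1.trans h3
        rwa [div_le_one hD'] at this
      exact_mod_cast h4
    · have h4 : ((exc (W k) (Lh k) : ℕ) : ℝ) ≤ D := by
        have := h2.trans h3
        rwa [div_le_one hD'] at this
      exact_mod_cast h4
  have big : ∀ (x d : ℕ), T ≤ x * (1 - 1 / g) → (d : ℝ) / D ≤ 1 / g →
      T ≤ x * (1 - (d : ℝ) / D) := fun x d h1 h2 =>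
    h1.trans (mul_le_mul_of_nonneg_left (by linarith) (Nat.cast_nonneg _))
  have hpos : ∀ x : ℕ, T ≤ x * (1 - 1 / g) → (0 : ℝ) < x := fun x h => by
    by_contra hc'
    have : (x : ℝ) ≤ 0 := not_lt.1 hc'
    nlinarith
  exact
    { hg := hg
      hD := hD'
      c0 := fun k _ => Nat.cast_nonneg _
      w0 := fun k _ => Nat.cast_nonneg _
      cpos := hpos _ hc
      wpos := hpos _ hw
      sc0 := fun k _ => one_pos
      r0 := fun k _ => by positivity
      r1 := fun k _ => by rw [div_lt_one hT0]; exact hT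
      rng := hr
      upc := fun k hk => by
        rw [one_mul, hcs k hk, ← exc_cast]
        exact updF_le hD (keyD k hk).1
      upw := fun k hk => by
        rw [one_mul, hws k hk, ← exc_cast']
        exact updF_le hD (keyD k hk).2
      loc := fun k hk => by
        rw [one_mul, hcs k hk, ← exc_cast]
        exact le_updF hD (keyD k hk).1 hT0 (big _ _ (hTc k hk) (key k hk).1)
      low := fun k hk => by
        rw [one_mul, hws k hk, ← exc_cast']
        exact le_updF hD (keyD k hk).2 hT0 (big _ _ (hTw k hk) (key k hk).2) }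

end Crest.Agent.R288.RegC711
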