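import Crest.Agent.R288.RegB_441

/-!
# R288 [WindowReg] (helper441), part D: natural in-window values (ALG v2 shape)

`V t k p a b` natural node values of all ranks. `Node` = what one node must satisfy: the value is within
`1` of the mean of the letter losses under the exact product weights `RegA441.w2`, and at least the
smallest letter loss (both true for floor and ceiling, `cl_node`, `fl_node`).

* `OP` : exact optimum over the menus (same end values), `OP_le_V`, `OP_step`, `OP_attained`,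
  `OP_le_cost`;
* `near_inner` : **for every menu staircase `cs`**
  `∑_k ((1-1/gs) V n k 0 + 1/gs OP n k 0) ≤ ∑_k ∑_q E k q (cs q) (cs (q+1))
     + (gd/gn) log B * ∑ units + 2 K 2^n`,
  if `gs (n+1) ≤ g` and `gn * excess * g ≤ gd * U` at the comparator's nodes;
* `near_root` : the same with the root decision as level `n+1`;
* `units_eq` : `∑_{t<n} ∑_p (∑_{q in block} f q + c) = n ∑ f + (2^n - 1) c`.
-/

set_option autoImplicit false

namespace Crest.Agent.R288.RegD441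

open Finset Crest.Agent.R288.RegA441 Crest.Agent.R288.RegB441
open Crest.Agent.R288.Osc68 (blk blk_zero sum_blk_succ card_blk)

/-- letter losses of rank `k` at the node `(t+1, p)` between `a` and `b` -/
def loss (V : ℕ → ℕ → ℕ → ℕ → ℕ → ℕ) (t p a b : ℕ) (k z : ℕ) : ℕ :=
  V t k (2 * p) a z + V t k (2 * p + 1) z b

/-! ### the exact optimum over the menus -/

/-- exact optimum of the subtree `(t, p)`, end values `E k q a b` -/
def OP (B : ℕ) (E : ℕ → ℕ → ℕ → ℕ → ℕ) : ℕ → ℕ → ℕ → ℕ → ℕ → ℕ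
  | 0, k, p, a, b => E k p a b
  | t + 1, k, p, a, b => mn B fun z => OP B E t k (2 * p) a z + OP B E t k (2 * p + 1) z b

variable {B : ℕ} {E : ℕ → ℕ → ℕ → ℕ → ℕ}

theorem OP_step {z : ℕ} (hz : z < B) (t k p a b : ℕ) :
    OP B E (t + 1) k p a b ≤ OP B E t k (2 * p) a z + OP B E t k (2 * p + 1) z b :=
  mn_le (fun z => OP B E t k (2 * p) a z + OP B E t k (2 * p + 1) z b) hz

/-- cost of a staircase -/
def cost (E : ℕ → ℕ → ℕ → ℕ → ℕ) (k : ℕ) (t p : ℕ) (cs : ℕ → ℕ) : ℕ :=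
  ∑ q ∈ blk t p, E k q (cs q) (cs (q + 1))

theorem sum_blk_succ_nat (f : ℕ → ℕ) (t i : ℕ) :
    ∑ j ∈ blk (t + 1) i, f j = ∑ j ∈ blk t (2 * i), f j + ∑ j ∈ blk t (2 * i + 1), f j := by
  unfold blk
  have e1 : i * 2 ^ (t + 1) = 2 * i * 2 ^ t := by ring
  have e2 : (i + 1) * 2 ^ (t + 1) = (2 * i + 1 + 1) * 2 ^ t := by ring
  rw [e1, e2]
  rw [Finset.sum_Ico_consecutive f (Nat.mul_le_mul_right _ (by omega))
    (Nat.mul_le_mul_right _ (by omega))]

theorem cost_succ (k t p : ℕ) (cs : ℕ → ℕ) :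
    cost E k (t + 1) p cs = cost E k t (2 * p) cs + cost E k t (2 * p + 1) cs :=
  sum_blk_succ_nat _ _ _

/-- the optimum is at most every menu staircase -/
theorem OP_le_cost (k : ℕ) (cs : ℕ → ℕ) (hcs : ∀ q, cs q < B) (t : ℕ) : ∀ p,
    OP B E t k p (cs (p * 2 ^ t)) (cs ((p + 1) * 2 ^ t)) ≤ cost E k t p cs := by
  induction t with
  | zero => intro p; simp [OP, cost, blk_zero]
  | succ t ih =>
    intro p
    rw [cost_succ]
    have e1 : p * 2 ^ (t + 1) = 2 * p * 2 ^ t := by ring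
    have e2 : (p + 1) * 2 ^ (t + 1) = (2 * p + 1 + 1) * 2 ^ t := by ring
    rw [e1, e2]
    exact (OP_step (hcs ((2 * p + 1) * 2 ^ t)) t k p _ _).trans
      (add_le_add (ih (2 * p)) (ih (2 * p + 1)))

theorem exists_mn (hB : 0 < B) (u : ℕ → ℕ) : ∃ z < B, mn B u = u z := by
  by_contra hc
  push Not at hc
  have h1 : mn B u + 1 ≤ mn B u := le_mn hB fun z hz => by
    have h2 := mn_le u hz
    have h3 := hc z hz
    omega
  omega

/-- the optimum is attained by a menu staircase -/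
theorem OP_attained (hB : 0 < B) (k t : ℕ) : ∀ p a b, ∃ cs : ℕ → ℕ,
    cs (p * 2 ^ t) = a ∧ cs ((p + 1) * 2 ^ t) = b ∧
    (∀ q, p * 2 ^ t < q → q < (p + 1) * 2 ^ t → cs q < B) ∧
    cost E k t p cs = OP B E t k p a b := by
  induction t with
  | zero =>
    intro p a b
    refine ⟨fun q => if q = p then a else b, by simp, by simp, ?_, ?_⟩
    · intro q h1 h2
      simp only [pow_zero, mul_one] at h1 h2
      omega
    · simp [cost, OP, blk_zero]
  | succ t ih =>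
    intro p a b
    obtain ⟨z, hz, hzm⟩ := exists_mn hB
      (fun z => OP B E t k (2 * p) a z + OP B E t k (2 * p + 1) z b)
    obtain ⟨c1, l1, r1, i1, s1⟩ := ih (2 * p) a z
    obtain ⟨c2, l2, r2, i2, s2⟩ := ih (2 * p + 1) z b
    have e1 : p * 2 ^ (t + 1) = 2 * p * 2 ^ t := by ring
    have e2 : (p + 1) * 2 ^ (t + 1) = (2 * p + 1 + 1) * 2 ^ t := by ring
    have hp : 0 < 2 ^ t := by positivity
    have lt1 : 2 * p * 2 ^ t < (2 * p + 1) * 2 ^ t := by
      have : (2 * p + 1) * 2 ^ t = 2 * p * 2 ^ t + 2 ^ t := by ring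
      omega
    have lt2 : (2 * p + 1) * 2 ^ t < (2 * p + 1 + 1) * 2 ^ t := by
      have : (2 * p + 1 + 1) * 2 ^ t = (2 * p + 1) * 2 ^ t + 2 ^ t := by ring
      omega
    set M := (2 * p + 1) * 2 ^ t with hM
    refine ⟨fun q => if q ≤ M then c1 q else c2 q, ?_, ?_, ?_, ?_⟩
    · simp only
      rw [e1, if_pos lt1.le]; exact l1
    · simp only
      rw [e2, if_neg (by omega)]; exact r2
    · intro q h1 h2
      rw [e1] at h1
      rw [e2] at h2
      rcases Nat.lt_trichotomy q M with h | h | h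
      · simp only [if_pos h.le]; exact i1 q h1 h
      · subst h
        show (if M ≤ M then c1 M else c2 M) < B
        rw [if_pos le_rfl, r1]; exact hz
      · simp only [if_neg (by omega : ¬ q ≤ M)]; exact i2 q h h2
    · rw [cost_succ]
      have hs1 : cost E k t (2 * p) (fun q => if q ≤ M then c1 q else c2 q) = cost E k t (2 * p) c1 := by
        unfold cost
        refine sum_congr rfl fun q hq => ?_
        have hq' := mem_Ico.1 (show q ∈ Ico (2 * p * 2 ^ t) ((2 * p + 1) * 2 ^ t) from hq)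
        simp only [if_pos (by omega : q ≤ M), if_pos (by omega : q + 1 ≤ M)]
      have hs2 : cost E k t (2 * p + 1) (fun q => if q ≤ M then c1 q else c2 q)
          = cost E k t (2 * p + 1) c2 := by
        unfold cost
        refine sum_congr rfl fun q hq => ?_
        have hq' := mem_Ico.1
          (show q ∈ Ico ((2 * p + 1) * 2 ^ t) ((2 * p + 1 + 1) * 2 ^ t) from hq)
        simp only [if_neg (by omega : ¬ q + 1 ≤ M)]
        rcases Nat.lt_or_ge M q with h | h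
        · simp only [if_neg (by omega : ¬ q ≤ M)]
        · have : q = M := by omega
          subst this
          rw [if_pos le_rfl, r1, l2]
      rw [hs1, hs2, s1, s2]
      show _ = mn B fun z => OP B E t k (2 * p) a z + OP B E t k (2 * p + 1) z b
      rw [hzm]

/-! ### nodes -/

/-- one node: the value of rank `k` is within `1` of the weighted mean and at least the minimum -/
structure Node (gn D B : ℕ) (w₀ : ℕ → ℕ) (u : ℕ → ℕ → ℕ) (k v : ℕ) : Prop where
  near : |(v : ℝ) - (∑ z ∈ range B, (w2 gn D B w₀ u k z : ℝ) * u k z)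
    / ∑ z ∈ range B, (w2 gn D B w₀ u k z : ℝ)| ≤ 1
  low : mn B (u k) ≤ v

theorem sum_w2_pos {gn D B : ℕ} {w₀ : ℕ → ℕ} {u : ℕ → ℕ → ℕ} (hD : 0 < D) (hB : 0 < B)
    (hw : ∀ z < B, 0 < w₀ z) (k : ℕ) : 0 < ∑ z ∈ range B, w2 gn D B w₀ u k z :=
  lt_of_lt_of_le (w2_pos hD (hw 0 hB) k)
    (single_le_sum (f := fun z => w2 gn D B w₀ u k z) (fun _ _ => Nat.zero_le _) (mem_range.2 hB))

theorem mul_mn_le {B : ℕ} (w u : ℕ → ℕ) :
    mn B u * ∑ z ∈ range B, w z ≤ ∑ z ∈ range B, w z * u z := by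
  rw [mul_sum]
  exact sum_le_sum fun z hz => by
    rw [mul_comm]
    exact Nat.mul_le_mul_left _ (mn_le u (mem_range.1 hz))

/-- the ceiling of the mean is a node value -/
theorem cl_node {gn D B : ℕ} {w₀ : ℕ → ℕ} {u : ℕ → ℕ → ℕ} (hD : 0 < D) (hB : 0 < B)
    (hw : ∀ z < B, 0 < w₀ z) (k : ℕ) :
    Node gn D B w₀ u k ((∑ z ∈ range B, w2 gn D B w₀ u k z * u k z
      + (∑ z ∈ range B, w2 gn D B w₀ u k z) - 1) / ∑ z ∈ range B, w2 gn D B w₀ u k z) := by
  have h := sum_w2_pos (gn := gn) (u := u) hD hB hw k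
  constructor
  · have := ceil_near (x := ∑ z ∈ range B, w2 gn D B w₀ u k z * u k z) h
    push_cast at this ⊢
    exact this
  · rw [Nat.le_div_iff_mul_le h]
    have := mul_mn_le (B := B) (w2 gn D B w₀ u k) (u k)
    omega

/-- the floor of the mean is a node value -/
theorem fl_node {gn D B : ℕ} {w₀ : ℕ → ℕ} {u : ℕ → ℕ → ℕ} (hD : 0 < D) (hB : 0 < B)
    (hw : ∀ z < B, 0 < w₀ z) (k : ℕ) :
    Node gn D B w₀ u k ((∑ z ∈ range B, w2 gn D B w₀ u k z * u k z)
      / ∑ z ∈ range B, w2 gn D B w₀ u k z) := by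
  have h := sum_w2_pos (gn := gn) (u := u) hD hB hw k
  constructor
  · have := floor_near (x := ∑ z ∈ range B, w2 gn D B w₀ u k z * u k z) h
    push_cast at this ⊢
    exact this
  · rw [Nat.le_div_iff_mul_le h]
    exact mul_mn_le (B := B) (w2 gn D B w₀ u k) (u k)

/-- the optimum is at most the played value -/
theorem OP_le_V {n K : ℕ} {V : ℕ → ℕ → ℕ → ℕ → ℕ → ℕ} (hB : 0 < B)
    (h0 : ∀ k < K, ∀ q a b, V 0 k q a b = E k q a b)
    (hlow : ∀ t < n, ∀ k < K, ∀ p a b, mn B (loss V t p a b k) ≤ V (t + 1) k p a b) :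
    ∀ t ≤ n, ∀ k < K, ∀ p a b, OP B E t k p a b ≤ V t k p a b := by
  intro t
  induction t with
  | zero => intro _ k hk p a b; rw [h0 k hk]; exact le_rfl
  | succ t ih =>
    intro ht k hk p a b
    refine le_trans ?_ (hlow t (by omega) k hk p a b)
    refine le_mn hB fun z hz => (OP_step hz t k p a b).trans ?_
    exact add_le_add (ih (by omega) k hk _ _ _) (ih (by omega) k hk _ _ _)

/-- **one window, root decision included, natural values.** `val`, `Ot`, `crr`, `regr` = value, lower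
bound, credit and regret of the root (`window_calm`). -/
theorem near_root {n K gs g gn gd : ℕ} (hgs : 1 ≤ gs) (hg : gs * (n + 1) ≤ g) (hg2 : 2 ≤ g)
    (hgn : 0 < gn) (hgd : 0 < gd) (hB : 0 < B) (U : ℕ → ℕ → ℕ) (hU : ∀ t p, 0 < U t p) {w : ℕ}
    (hw : 0 < w) (V : ℕ → ℕ → ℕ → ℕ → ℕ → ℕ)
    (h0 : ∀ k < K, ∀ q a b, V 0 k q a b = E k q a b)
    (hV : ∀ t < n, ∀ k < K, ∀ p a b,
      Node gn (gd * U (t + 1) p) B (fun _ => w) (loss V t p a b) k (V (t + 1) k p a b))
    (cs : ℕ → ℕ) (hcs : ∀ q, 0 < q → q < 2 ^ n → cs q < B)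
    (hosc : ∀ t < n, ∀ p < 2 ^ (n - (t + 1)), ∀ k < K, ∀ z < B,
      gn * (loss V t p (cs (p * 2 ^ (t + 1))) (cs ((p + 1) * 2 ^ (t + 1))) k z
        - mn B (loss V t p (cs (p * 2 ^ (t + 1))) (cs ((p + 1) * 2 ^ (t + 1))) k)) * g
        ≤ gd * U (t + 1) p)
    (val Ot crr : ℕ → ℝ) (regr : ℝ) (hregr : 0 ≤ regr)
    (r0 : ∀ k < K, 0 ≤ crr k) (r1 : ∀ k < K, Ot k + crr k ≤ val k + 1)
    (r2 : ∀ k < K, Ot k ≤ OP B E n k 0 (cs 0) (cs (2 ^ n)))
    (r3 : ∑ k ∈ range K, val k ≤ ∑ k ∈ range K, (V n k 0 (cs 0) (cs (2 ^ n)) : ℝ)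
      + (∑ k ∈ range K, crr k) / g + regr) :
    ∑ k ∈ range K, ((1 - 1 / (gs : ℝ)) * val k + 1 / (gs : ℝ) * Ot k)
      ≤ ∑ k ∈ range K, ∑ q ∈ range (2 ^ n), (E k q (cs q) (cs (q + 1)) : ℝ)
        + regr
        + (gd : ℝ) / gn * Real.log B * ∑ t ∈ range n, ∑ p ∈ blk (n - 1 - t) 0, (U (t + 1) p : ℝ)
        + K * (2 * 2 ^ n) := by
  classical
  have hgnR : (0 : ℝ) < gn := by exact_mod_cast hgn
  have hgsR : (1 : ℝ) ≤ gs := by exact_mod_cast hgs
  -- the comparator's nodes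
  have key : ∀ t p, ∃ cr : ℕ → ℝ, t < n → p < 2 ^ (n - (t + 1)) →
      (∀ k < K, 0 ≤ cr k) ∧
      (∀ k < K, (mn B (loss V t p (cs (p * 2 ^ (t + 1))) (cs ((p + 1) * 2 ^ (t + 1))) k) : ℝ) + cr k
        ≤ V (t + 1) k p (cs (p * 2 ^ (t + 1))) (cs ((p + 1) * 2 ^ (t + 1))) + 1) ∧
      ∑ k ∈ range K, (V (t + 1) k p (cs (p * 2 ^ (t + 1))) (cs ((p + 1) * 2 ^ (t + 1))) : ℝ)
        ≤ ∑ k ∈ range K, (loss V t p (cs (p * 2 ^ (t + 1))) (cs ((p + 1) * 2 ^ (t + 1))) k
            (cs ((2 * p + 1) * 2 ^ t)) : ℝ)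
          + (∑ k ∈ range K, cr k) / g
          + ((gd : ℝ) / gn * Real.log B * U (t + 1) p + K) := by
    intro t p
    by_cases htp : t < n ∧ p < 2 ^ (n - (t + 1))
    · obtain ⟨ht, hp⟩ := htp
      set a := cs (p * 2 ^ (t + 1)) with ha
      set b := cs ((p + 1) * 2 ^ (t + 1)) with hb
      have hpow : 2 ^ (n - (t + 1)) * 2 ^ (t + 1) = 2 ^ n := by
        rw [← pow_add]; congr 1; omega
      have h2t : 0 < 2 ^ t := by positivity
      have hmid : cs ((2 * p + 1) * 2 ^ t) < B := by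
        refine hcs _ (by positivity) ?_
        calc (2 * p + 1) * 2 ^ t < (2 * p + 1) * 2 ^ t + 2 ^ t := by omega
          _ = (p + 1) * 2 ^ (t + 1) := by ring
          _ ≤ 2 ^ (n - (t + 1)) * 2 ^ (t + 1) := Nat.mul_le_mul_right _ (by omega)
          _ = 2 ^ n := hpow
      have hD : 0 < gd * U (t + 1) p := Nat.mul_pos hgd (hU _ _)
      obtain ⟨cr, c0, c1, c2⟩ := state_two (a := gn) (D := gd * U (t + 1) p) (B := B) (K := K)
        (w₀ := fun _ => w) (u := loss V t p a b) (g := g) (ρ := 1) hg2 hgn hD hmid hw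
        (fun k hk z hz => hosc t ht p hp k hk z hz)
        (fun k => (V (t + 1) k p a b : ℝ)) (fun k hk => (hV t ht k hk p a b).near)
      refine ⟨cr, fun _ _ => ⟨c0, c1, c2.trans (le_of_eq ?_)⟩⟩
      have e1 : (∑ _z ∈ range B, ((w : ℕ) : ℝ)) / (w : ℝ) = B := by
        have hw' : (w : ℝ) ≠ 0 := by exact_mod_cast hw.ne'
        rw [sum_const, card_range, nsmul_eq_mul]
        field_simp
      rw [e1]
      push_cast
      ring
    · exact ⟨fun _ => 0, fun h1 h2 => absurd ⟨h1, h2⟩ htp⟩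
  choose cr hcr using key
  have hOPV := OP_le_V (n := n) (K := K) (V := V) hB h0
    (fun t ht k hk p a b => (hV t ht k hk p a b).low)
  have hlogB : 0 ≤ Real.log B := Real.log_nonneg (by exact_mod_cast hB)
  have main := window_calm n K (gs := gs) (g := g) (ρ := 1) hgsR
    (by exact_mod_cast hg) zero_le_one
    (fun t k p a b => (V t k p a b : ℝ)) (fun t k p a b => (OP B E t k p a b : ℝ)) val Ot cs cr crr
    (fun t p => (gd : ℝ) / gn * Real.log B * U (t + 1) p + K) regr hregr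
    (fun t _ p => by positivity)
    (fun t ht p hp k hk => (hcr t p ht hp).1 k hk)
    (fun t ht p hp k hk => by
      have h1 := (hcr t p ht hp).2.1 k hk
      have h2 : (OP B E (t + 1) k p (cs (p * 2 ^ (t + 1))) (cs ((p + 1) * 2 ^ (t + 1))) : ℝ)
          ≤ mn B (loss V t p (cs (p * 2 ^ (t + 1))) (cs ((p + 1) * 2 ^ (t + 1))) k) := by
        have : OP B E (t + 1) k p (cs (p * 2 ^ (t + 1))) (cs ((p + 1) * 2 ^ (t + 1)))
            ≤ mn B (loss V t p (cs (p * 2 ^ (t + 1))) (cs ((p + 1) * 2 ^ (t + 1))) k) :=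
          le_mn hB fun z hz => (OP_step hz t k p _ _).trans
            (add_le_add (hOPV t (by omega) k hk _ _ _) (hOPV t (by omega) k hk _ _ _))
        exact_mod_cast this
      linarith)
    (fun t ht p hp k hk => by
      have hpow : 2 ^ (n - (t + 1)) * 2 ^ (t + 1) = 2 ^ n := by
        rw [← pow_add]; congr 1; omega
      have h2t : 0 < 2 ^ t := by positivity
      have hmid : cs ((2 * p + 1) * 2 ^ t) < B := by
        refine hcs _ (by positivity) ?_
        calc (2 * p + 1) * 2 ^ t < (2 * p + 1) * 2 ^ t + 2 ^ t := by omega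
          _ = (p + 1) * 2 ^ (t + 1) := by ring
          _ ≤ 2 ^ (n - (t + 1)) * 2 ^ (t + 1) := Nat.mul_le_mul_right _ (by omega)
          _ = 2 ^ n := hpow
      have e1 : p * 2 ^ (t + 1) = 2 * p * 2 ^ t := by ring
      have e2 : (p + 1) * 2 ^ (t + 1) = (2 * p + 1 + 1) * 2 ^ t := by ring
      have := OP_step (E := E) hmid t k p (cs (p * 2 ^ (t + 1))) (cs ((p + 1) * 2 ^ (t + 1)))
      rw [← e1, ← e2]
      exact_mod_cast this)
    (fun t ht p hp => by
      have h1 := (hcr t p ht hp).2.2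
      have e1 : p * 2 ^ (t + 1) = 2 * p * 2 ^ t := by ring
      have e2 : (p + 1) * 2 ^ (t + 1) = (2 * p + 1 + 1) * 2 ^ t := by ring
      refine h1.trans (le_of_eq ?_)
      congr 2
      refine sum_congr rfl fun k _ => ?_
      unfold loss
      rw [← e1, ← e2]
      push_cast
      ring)
    r0 r1 r2 r3
  refine main.trans ?_
  have e0 : ∑ k ∈ range K, ∑ q ∈ range (2 ^ n), (V 0 k q (cs q) (cs (q + 1)) : ℝ)
      = ∑ k ∈ range K, ∑ q ∈ range (2 ^ n), (E k q (cs q) (cs (q + 1)) : ℝ) :=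
    sum_congr rfl fun k hk => sum_congr rfl fun q _ => by rw [h0 k (mem_range.1 hk)]
  rw [e0, NS_add, NS_mul, NS_const, NS_eq]
  have h6 : (K : ℝ) * (2 ^ n * 1) / gs ≤ K * 2 ^ n := by
    rw [div_le_iff₀ (by linarith)]
    have h7 : (0 : ℝ) ≤ K * 2 ^ n := by positivity
    nlinarith
  have h8 : (K : ℝ) * (2 ^ n - 1) ≤ K * 2 ^ n :=
    mul_le_mul_of_nonneg_left (by linarith) (Nat.cast_nonneg _)
  linarith

/-- **one window, inner levels, natural values.** -/
theorem near_inner {n K gs g gn gd : ℕ} (hgs : 1 ≤ gs) (hg : gs * (n + 1) ≤ g) (hg2 : 2 ≤ g)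
    (hgn : 0 < gn) (hgd : 0 < gd) (hB : 0 < B) (U : ℕ → ℕ → ℕ) (hU : ∀ t p, 0 < U t p) {w : ℕ}
    (hw : 0 < w) (V : ℕ → ℕ → ℕ → ℕ → ℕ → ℕ)
    (h0 : ∀ k < K, ∀ q a b, V 0 k q a b = E k q a b)
    (hV : ∀ t < n, ∀ k < K, ∀ p a b,
      Node gn (gd * U (t + 1) p) B (fun _ => w) (loss V t p a b) k (V (t + 1) k p a b))
    (cs : ℕ → ℕ) (hcs : ∀ q, 0 < q → q < 2 ^ n → cs q < B)
    (hosc : ∀ t < n, ∀ p < 2 ^ (n - (t + 1)), ∀ k < K, ∀ z < B,
      gn * (loss V t p (cs (p * 2 ^ (t + 1))) (cs ((p + 1) * 2 ^ (t + 1))) k z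
        - mn B (loss V t p (cs (p * 2 ^ (t + 1))) (cs ((p + 1) * 2 ^ (t + 1))) k)) * g
        ≤ gd * U (t + 1) p) :
    ∑ k ∈ range K, ((1 - 1 / (gs : ℝ)) * V n k 0 (cs 0) (cs (2 ^ n))
        + 1 / (gs : ℝ) * OP B E n k 0 (cs 0) (cs (2 ^ n)))
      ≤ ∑ k ∈ range K, ∑ q ∈ range (2 ^ n), (E k q (cs q) (cs (q + 1)) : ℝ)
        + (gd : ℝ) / gn * Real.log B * ∑ t ∈ range n, ∑ p ∈ blk (n - 1 - t) 0, (U (t + 1) p : ℝ)
        + K * (2 * 2 ^ n) := by
  have hOPV := OP_le_V (n := n) (K := K) (V := V) hB h0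
    (fun t ht k hk p a b => (hV t ht k hk p a b).low)
  have h := near_root hgs hg hg2 hgn hgd hB U hU hw V h0 hV cs hcs hosc
    (fun k => (V n k 0 (cs 0) (cs (2 ^ n)) : ℝ)) (fun k => (OP B E n k 0 (cs 0) (cs (2 ^ n)) : ℝ))
    (fun _ => 0) 0 le_rfl (fun _ _ => le_rfl)
    (fun k hk => by
      have h2 : (OP B E n k 0 (cs 0) (cs (2 ^ n)) : ℝ) ≤ V n k 0 (cs 0) (cs (2 ^ n)) := by
        exact_mod_cast hOPV n le_rfl k hk 0 (cs 0) (cs (2 ^ n))
      linarith)
    (fun _ _ => le_rfl) (by simp)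
  simpa using h

/-! ### the sum of the units -/

/-- `∑` over the inner nodes of (`f` over the block + `c`) -/
theorem units_eq (f : ℕ → ℝ) (c : ℝ) (n : ℕ) :
    ∑ t ∈ range n, ∑ p ∈ blk (n - 1 - t) 0, (∑ q ∈ blk (t + 1) p, f q + c)
      = n * ∑ q ∈ range (2 ^ n), f q + (2 ^ n - 1) * c := by
  have h1 : ∀ n p, NS (fun t i => ∑ q ∈ blk (t + 1) i, f q) n p = n * ∑ q ∈ blk n p, f q := by
    intro n
    induction n with
    | zero => intro p; simp
    | succ n ih =>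
      intro p
      rw [NS_succ, ih, ih, sum_blk_succ]
      push_cast
      ring
  have h2 := NS_eq (fun t i => ∑ q ∈ blk (t + 1) i, f q + c) n 0
  rw [← h2, NS_add, h1, NS_const]
  have : blk n 0 = range (2 ^ n) := by unfold blk; simp [Nat.Ico_zero_eq_range]
  rw [this]
  ring

end Crest.Agent.R288.RegD441
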