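import Crest.Agent.R288.RegC_711

/-!
# Row 288, leaf ROOT (helper711), part D: the root decision in the form of ALG-U

The program plays `((g-1) * modal + W)/g`: the share of wild is `1/g` (RegC's `Win` has the share `q` with
`1-q = (1-qi)(1-1/G)`).

* `qI g G`, `one_sub_qI_le` : Bernoulli, `G ≥ (n+1) g` gives `1 - qI ≤ (1-1/G)^n`
* `WinP`, `WinP.near`, `WinP.far` : `Win.near`, `Win.far` with share `1/g`, `inner` with greedy part `1-(1-1/G)^n`
* `NatWin` : natural sequences `c k` (calm), `W k` (wild), `V k` (optimum of rank `k`), natural mode weights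
  with exact products `facU`; **`NatWin.near`, `NatWin.far`, `NatWin.wild`**.
-/

set_option autoImplicit false

namespace Crest.Agent.R288.RegD711

open Finset Crest.Agent.R288.RegC711

/-! ### the share of the program: `1/g`; ranges with `G ≥ (n+1) g` -/

section share

variable {K n : ℕ} {g G D ρ F e : ℝ} {L Lh W V Vn wc ww r sc : ℕ → ℝ}

/-- `qi` for the share `1/g` at the root decision and range factor `G` -/
noncomputable def qI (g G : ℝ) : ℝ := 1 - (1 - 1 / g) / (1 - 1 / G)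

theorem qI_eq {g G : ℝ} (hG : 1 < G) : 1 - 1 / g = (1 - qI g G) * (1 - 1 / G) := by
  have h : (1 - 1 / G) ≠ 0 := by
    have : 1 / G < 1 := by rw [div_lt_one (by linarith)]; exact hG
    linarith
  unfold qI
  rw [sub_sub_cancel, div_mul_cancel₀ _ h]

theorem qI_le_one {g G : ℝ} (hg : 1 ≤ g) (hG : 1 < G) : qI g G ≤ 1 := by
  have h1 : 0 ≤ 1 - 1 / g := by rw [sub_nonneg, div_le_one (by linarith)]; exact hg
  have h2 : 0 < 1 - 1 / G := by
    have : 1 / G < 1 := by rw [div_lt_one (by linarith)]; exact hG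
    linarith
  unfold qI
  have := div_nonneg h1 h2.le
  linarith

/-- Bernoulli: `(1-1/G)^n ≥ (1 - qI)`: the inner greedy part is smaller than `qI` -/
theorem one_sub_qI_le {g G : ℝ} (hg : 1 ≤ g) (hG : (n + 1) * g ≤ G) (hG1 : 1 < G) :
    1 - qI g G ≤ (1 - 1 / G) ^ n := by
  have hG0 : 0 < G := by linarith
  have hg0 : 0 < g := by linarith
  have h2 : 0 < 1 - 1 / G := by
    have : 1 / G < 1 := by rw [div_lt_one (by linarith)]; exact hG1
    linarith
  have hb : 1 - (n + 1 : ℕ) * (1 / G) ≤ (1 - 1 / G) ^ (n + 1) := by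
    have := one_add_mul_le_pow (a := -(1 / G)) (by linarith) (n + 1)
    calc _ = 1 + ((n + 1 : ℕ) : ℝ) * -(1 / G) := by ring
      _ ≤ (1 + -(1 / G)) ^ (n + 1) := this
      _ = _ := by ring
  have h3 : ((n + 1 : ℕ) : ℝ) * (1 / G) ≤ 1 / g := by
    rw [mul_one_div, div_le_div_iff₀ hG0 hg0]
    push_cast
    linarith
  have h4 : 1 - 1 / g ≤ (1 - 1 / G) ^ (n + 1) := by linarith
  unfold qI
  rw [sub_sub_cancel, div_le_iff₀ h2, ← pow_succ]
  exact h4

theorem qI_nonneg {g G : ℝ} (hg : 1 ≤ g) (hG : (n + 1) * g ≤ G) (hG1 : 1 < G) : 0 ≤ qI g G := by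
  have h := one_sub_qI_le (n := n) hg hG hG1
  have h2 : (1 - 1 / G) ^ n ≤ 1 := by
    refine pow_le_one₀ ?_ ?_
    · rw [sub_nonneg, div_le_one (by linarith)]; exact hG1.le
    · have : 0 ≤ 1 / G := by positivity
      linarith
  linarith

/-- everything about one window, for the share `1/g` of the program -/
structure WinP (K n : ℕ) (g G D ρ F e : ℝ) (L Lh W V Vn wc ww r sc : ℕ → ℝ) : Prop where
  root : RootW K G D Lh W wc ww r sc
  g1 : 1 ≤ g
  gG : (n + 1) * g ≤ G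
  ρ0 : 0 ≤ ρ
  F0 : 0 ≤ F
  e0 : 0 ≤ e
  L1 : ∀ k < K, Lh k ≤ L k + ρ
  L2 : ∀ k < K, L k ≤ Lh k + ρ
  VnL : ∀ k < K, Vn k ≤ L k
  VVn : ∀ k < K, V k ≤ Vn k
  V0 : ∀ k < K, 0 ≤ V k
  W0 : ∀ k < K, 0 ≤ W k
  Wz : W 0 ≤ F + e
  Ws : ∀ k < K, W (k + 1) ≤ min (V k) (W k) + e

theorem WinP.toWin (w : WinP K n g G D ρ F e L Lh W V Vn wc ww r sc) :
    Win K G D (qI g G) (1 / g) ρ F e L Lh W V Vn wc ww r sc :=
  { root := w.root
    qi0 := qI_nonneg w.g1 w.gG w.root.hg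
    qi1 := qI_le_one w.g1 w.root.hg
    hq := qI_eq w.root.hg
    ρ0 := w.ρ0
    F0 := w.F0
    e0 := w.e0
    L1 := w.L1
    L2 := w.L2
    VnL := w.VnL
    VVn := w.VVn
    V0 := w.V0
    W0 := w.W0
    Wz := w.Wz
    Ws := w.Ws }

/-- **near comparator, share `1/g`**: `inner` = 441's inequality with greedy part `1-(1-1/G)^n` -/
theorem WinP.near (w : WinP K n g G D ρ F e L Lh W V Vn wc ww r sc) {A S : ℕ → ℝ} {Reg η : ℝ}
    (hA : ∀ k < K, A k ≤ (1 - 1 / g) * mix (wc k) (ww k) (L k) (W k) + 1 / g * W k + η)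
    (inner : ∑ k ∈ range K, ((1 - 1 / G) ^ n * L k + (1 - (1 - 1 / G) ^ n) * Vn k)
      ≤ ∑ k ∈ range K, S k + Reg) :
    ∑ k ∈ range K, A k ≤ ∑ k ∈ range K, S k + Reg
      + D * (Real.log ((wc 0 + ww 0) / wc 0) - ∑ k ∈ range K, Real.log (1 - r k))
      + 1 / g * F + K * (η + 1 / g * e + 3 * ρ) := by
  refine w.toWin.near hA (le_trans (sum_le_sum fun k hk => ?_) inner)
  have h1 := one_sub_qI_le (n := n) w.g1 w.gG w.root.hg
  have h2 := w.VnL k (mem_range.1 hk)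
  have h3 := mul_le_mul_of_nonneg_right h1 (sub_nonneg.2 h2)
  linarith

/-- **far comparator, share `1/g`** -/
theorem WinP.far (w : WinP K n g G D ρ F e L Lh W V Vn wc ww r sc) {A S : ℕ → ℝ} {η : ℝ}
    (hA : ∀ k < K, A k ≤ (1 - 1 / g) * mix (wc k) (ww k) (L k) (W k) + 1 / g * W k + η)
    (hVS : ∀ k < K, V k ≤ S k) :
    ∑ k ∈ range K, A k ≤ ∑ k ∈ range K, S k
      + D * (Real.log ((wc 0 + ww 0) / ww 0) - ∑ k ∈ range K, Real.log (1 - r k))
      + (1 + 1 / g) * F + K * (η + (1 + 1 / g) * e + 2 * ρ) :=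
  w.toWin.far hA hVS

end share

/-! ### natural sequences: calm `c k`, wild `W k`, optima `V k`, mode weights -/

section nat

/-- all data of one window in natural numbers; `G ≥ (n+1) g` range factor, rate `gn/gd`, unit `U` -/
structure NatWin (K n g G gn gd U F pm : ℕ) (c W V wc ww : ℕ → ℕ) : Prop where
  g1 : 1 ≤ g
  G2 : 2 ≤ G
  gG : (n + 1) * g ≤ G
  gn0 : 0 < gn
  gd0 : 0 < gd
  U0 : 0 < U
  pm0 : 0 < pm
  W0 : W 0 = F
  Ws : ∀ k < K, W (k + 1) = min (W k) (V k)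
  VC : ∀ k < K, V k ≤ c k
  rc : ∀ k < K, G * gn * c k ≤ gd * U
  rF : G * gn * F ≤ gd * U
  ww0 : 0 < ww 0
  wc0 : wc 0 = pm * ww 0
  hcs : ∀ k < K, wc (k + 1) = wc k * facU gn gd U (exc (c k) (W k))
  hws : ∀ k < K, ww (k + 1) = ww k * facU gn gd U (exc (W k) (c k))

namespace NatWin

variable {K n g G gn gd U F pm : ℕ} {c W V wc ww : ℕ → ℕ}

theorem W_le (h : NatWin K n g G gn gd U F pm c W V wc ww) : ∀ k ≤ K, W k ≤ F := by
  intro k
  induction k with
  | zero => intro _; exact h.W0.le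
  | succ k ih =>
    intro hk
    rw [h.Ws k (by omega)]
    exact (min_le_left _ _).trans (ih (by omega))

theorem rootW (h : NatWin K n g G gn gd U F pm c W V wc ww) :
    RootW K G (gd * U / gn) (fun k => c k) (fun k => W k) (fun k => wc k) (fun k => ww k)
      (fun _ => 0) (fun _ => 2 * gd * U) := by
  have hgn : (0 : ℝ) < gn := by exact_mod_cast h.gn0
  have hG : (0 : ℝ) < G := by exact_mod_cast (show 0 < G by have := h.G2; omega)
  refine RootW.of_facU (by exact_mod_cast h.G2) h.gd0 h.U0 h.gn0 c W wc ww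
    (by rw [h.wc0]; exact Nat.mul_pos h.pm0 h.ww0) h.ww0 ?_ h.hcs h.hws
  intro k hk
  have h1 : (G : ℝ) * gn * c k ≤ gd * U := by exact_mod_cast h.rc k hk
  have h2 : (G : ℝ) * gn * W k ≤ gd * U := by
    exact_mod_cast (Nat.mul_le_mul_left _ (h.W_le k hk.le)).trans h.rF
  rw [div_div, le_div_iff₀ (by positivity)]
  have h3 : |(c k : ℝ) - W k| ≤ max (c k : ℝ) (W k) := by
    rw [abs_le]
    have hc : (0 : ℝ) ≤ c k := Nat.cast_nonneg _
    have hw : (0 : ℝ) ≤ W k := Nat.cast_nonneg _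
    constructor
    · linarith [le_max_right (c k : ℝ) (W k)]
    · linarith [le_max_left (c k : ℝ) (W k)]
  have h4 : max (c k : ℝ) (W k) * (gn * G) ≤ gd * U := by
    rcases max_choice (c k : ℝ) (W k) with h5 | h5 <;> rw [h5] <;> nlinarith
  exact (mul_le_mul_of_nonneg_right h3 (by positivity)).trans h4

theorem toWinP (h : NatWin K n g G gn gd U F pm c W V wc ww) :
    WinP K n g G (gd * U / gn) 0 F 0 (fun k => c k) (fun k => c k) (fun k => W k) (fun k => V k)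
      (fun k => V k) (fun k => wc k) (fun k => ww k) (fun _ => 0) (fun _ => 2 * gd * U) :=
  { root := h.rootW
    g1 := by exact_mod_cast h.g1
    gG := by exact_mod_cast h.gG
    ρ0 := le_rfl
    F0 := Nat.cast_nonneg _
    e0 := le_rfl
    L1 := fun k _ => by simp
    L2 := fun k _ => by simp
    VnL := fun k hk => by exact_mod_cast h.VC k hk
    VVn := fun k _ => le_rfl
    V0 := fun k _ => Nat.cast_nonneg _
    W0 := fun k _ => Nat.cast_nonneg _
    Wz := by rw [h.W0, add_zero]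
    Ws := fun k hk => by
      rw [h.Ws k hk, add_zero, Nat.cast_min, min_comm] }

theorem toWinP' (h : NatWin K n g G gn gd U F pm c W V wc ww) {Vn : ℕ → ℕ}
    (h1 : ∀ k < K, V k ≤ Vn k) (h2 : ∀ k < K, Vn k ≤ c k) :
    WinP K n g G (gd * U / gn) 0 F 0 (fun k => c k) (fun k => c k) (fun k => W k) (fun k => V k)
      (fun k => Vn k) (fun k => wc k) (fun k => ww k) (fun _ => 0) (fun _ => 2 * gd * U) :=
  { h.toWinP with
    VnL := fun k hk => by exact_mod_cast h2 k hk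
    VVn := fun k hk => by exact_mod_cast h1 k hk }

/-- **near**: `A k` = value of rank `k`, `inner` for the near optimum `Vn` -/
theorem near (h : NatWin K n g G gn gd U F pm c W V wc ww) {Vn : ℕ → ℕ}
    (h1 : ∀ k < K, V k ≤ Vn k) (h2 : ∀ k < K, Vn k ≤ c k) {A S : ℕ → ℝ} {Reg η : ℝ}
    (hA : ∀ k < K, A k ≤ (1 - 1 / (g : ℝ)) * mix (wc k) (ww k) (c k) (W k)
      + 1 / (g : ℝ) * W k + η)
    (inner : ∑ k ∈ range K, ((1 - 1 / (G : ℝ)) ^ n * (c k : ℝ)
      + (1 - (1 - 1 / (G : ℝ)) ^ n) * (Vn k : ℝ)) ≤ ∑ k ∈ range K, S k + Reg) :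
    ∑ k ∈ range K, A k ≤ ∑ k ∈ range K, S k + Reg
      + (gd * U / gn : ℝ) * (1 / pm) + 1 / (g : ℝ) * F + K * η := by
  have h3 := (h.toWinP' h1 h2).near hA inner
  have hww : (0 : ℝ) < ww 0 := by exact_mod_cast h.ww0
  have hpm : (0 : ℝ) < pm := by exact_mod_cast h.pm0
  have hgn : (0 : ℝ) < gn := by exact_mod_cast h.gn0
  have hwc : (wc 0 : ℝ) = pm * ww 0 := by exact_mod_cast h.wc0
  have h4 : Real.log (((wc 0 : ℝ) + ww 0) / wc 0) ≤ 1 / pm := by
    refine (log_prior_calm (by rw [hwc]; positivity) hww.le).trans (le_of_eq ?_)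
    rw [hwc]
    field_simp
  have h5 : (gd * U / gn : ℝ) * (Real.log (((wc 0 : ℝ) + ww 0) / wc 0)
      - ∑ k ∈ range K, Real.log (1 - (0 : ℝ))) ≤ (gd * U / gn : ℝ) * (1 / pm) := by
    refine mul_le_mul_of_nonneg_left ?_ (by positivity)
    simpa using h4
  have h6 : (K : ℝ) * (η + 1 / (g : ℝ) * 0 + 3 * 0) = K * η := by ring
  linarith

/-- **far**: every comparator with `V k ≤ S k` -/
theorem far (h : NatWin K n g G gn gd U F pm c W V wc ww) {A S : ℕ → ℝ} {η : ℝ}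
    (hA : ∀ k < K, A k ≤ (1 - 1 / (g : ℝ)) * mix (wc k) (ww k) (c k) (W k)
      + 1 / (g : ℝ) * W k + η)
    (hVS : ∀ k < K, (V k : ℝ) ≤ S k) :
    ∑ k ∈ range K, A k ≤ ∑ k ∈ range K, S k
      + (gd * U / gn : ℝ) * Real.log (pm + 1) + (1 + 1 / (g : ℝ)) * F + K * η := by
  have h3 := h.toWinP.far hA hVS
  have hww : (0 : ℝ) < ww 0 := by exact_mod_cast h.ww0
  have hpm : (0 : ℝ) < pm := by exact_mod_cast h.pm0
  have hgn : (0 : ℝ) < gn := by exact_mod_cast h.gn0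
  have hwc : (wc 0 : ℝ) = pm * ww 0 := by exact_mod_cast h.wc0
  have h4 : Real.log (((wc 0 : ℝ) + ww 0) / ww 0) = Real.log (pm + 1) := by
    congr 1
    rw [hwc]
    field_simp
  have h5 : (gd * U / gn : ℝ) * (Real.log (((wc 0 : ℝ) + ww 0) / ww 0)
      - ∑ k ∈ range K, Real.log (1 - (0 : ℝ))) = (gd * U / gn : ℝ) * Real.log (pm + 1) := by
    rw [h4]; simp
  have h6 : (K : ℝ) * (η + (1 + 1 / (g : ℝ)) * 0 + 2 * 0) = K * η := by ring
  linarith

/-- **no calm option** -/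
theorem wild (h : NatWin K n g G gn gd U F pm c W V wc ww) {A S : ℕ → ℝ} {η : ℝ}
    (hA : ∀ k < K, A k ≤ W k + η) (hVS : ∀ k < K, (V k : ℝ) ≤ S k) :
    ∑ k ∈ range K, A k ≤ ∑ k ∈ range K, S k + F + K * η := by
  have h3 := window_irregular (F := F) (e := 0) (W := fun k => (W k : ℝ)) (V := fun k => (V k : ℝ))
    (Nat.cast_nonneg _) le_rfl h.toWinP.Wz h.toWinP.V0 h.toWinP.W0 h.toWinP.Ws hVS hA
  linarith

end NatWin

end nat

end Crest.Agent.R288.RegD711
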