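import Crest.Agent.R288.AlgA_45
import Crest.Agent.R288.RegD_711

/-!
# Row 288, leaf ROOT (helper711), part E: the root decision of `Alg45.modal`, `Alg45.bodyNum` (ALG v2)

* `hv_le`, `le_hv`, `exists_le_hv`, `hv_le_mix`, `mix_le_hv`, `wts_congr`, `hv_congr`, `VV_congr` : the hedge
* `exists_path` : `VV` is at least the sum of the ends along some letter path; `VV_le` : at most the sum of maxima
* `cal` : calm NUMBER of a rank; `calm_eq_cal` (ranks `i < k`), `calm_const`; `cal_le`, `cal_le_reg`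
* `Vst_le`, `Vst_le_near`, `rdn_mem_menu`, `hull_le`, `hull_le_numSt`, `inD_npiece`
* `mwt` : the weights of calm (0) and wild (1); `modal_le_mix`, `mix_le_modal`
* `bodyNum_bad/leaf/wild/reg`, **`bodyNum_le`**, `le_bodyNum`
* **`natWin_modal`** : `RegD711.NatWin` for `calm`/`wild`/`Vk`/`mwt`; **`near_pair`, `far_pair`, `wild_pair`**
-/

set_option autoImplicit false

namespace Crest.Agent.R288.RegE711

open Finset Crest.Agent.R288.Alg45 Crest.Agent.R288.RegC711 Crest.Agent.R288.RegD711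

/-! ### elementary -/

theorem sumR_eq (n : ℕ) (f : ℕ → ℕ) : sumR n f = ∑ a ∈ range n, f a := by
  unfold sumR
  induction n with
  | zero => simp
  | succ n ih => simp [List.range_succ, sum_range_succ, ih]

theorem sumR_two (f : ℕ → ℕ) : sumR 2 f = f 0 + f 1 := by
  rw [sumR_eq]; simp [sum_range_succ]

theorem sumR_congr {n : ℕ} {f g : ℕ → ℕ} (h : ∀ a < n, f a = g a) : sumR n f = sumR n g := by
  rw [sumR_eq, sumR_eq]; exact sum_congr rfl fun a ha => h a (mem_range.1 ha)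

theorem sumR_mono {n : ℕ} {f g : ℕ → ℕ} (h : ∀ a < n, f a ≤ g a) : sumR n f ≤ sumR n g := by
  rw [sumR_eq, sumR_eq]; exact sum_le_sum fun a ha => h a (mem_range.1 ha)

theorem minR_succ (n : ℕ) (f : ℕ → ℕ) : minR (n + 1) f = min (minR n f) (f n) := by
  simp [minR, List.range_succ]

theorem minR_two (f : ℕ → ℕ) : minR 2 f = min (f 0) (f 1) := by
  rw [minR_succ, minR_succ]
  have h : minR 0 f = f 0 := rfl
  rw [h, min_self]

theorem minR_le {n a : ℕ} (f : ℕ → ℕ) (h : a < n) : minR n f ≤ f a := by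
  induction n with
  | zero => omega
  | succ n ih =>
    rw [minR_succ]
    rcases Nat.lt_succ_iff_lt_or_eq.1 h with h' | rfl
    · exact (min_le_left _ _).trans (ih h')
    · exact min_le_right _ _

theorem minR_congr {n : ℕ} {f g : ℕ → ℕ} (hn : 0 < n) (h : ∀ a < n, f a = g a) :
    minR n f = minR n g := by
  induction n with
  | zero => omega
  | succ n ih =>
    rw [minR_succ, minR_succ, h n (by omega)]
    rcases Nat.eq_zero_or_pos n with rfl | hn'
    · have h1 : minR 0 f = f 0 := rfl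
      have h2 : minR 0 g = g 0 := rfl
      rw [h1, h2, h 0 (by omega)]
    · rw [ih hn' fun a ha => h a (by omega)]

theorem maxR_succ (n : ℕ) (f : ℕ → ℕ) : maxR (n + 1) f = max (maxR n f) (f n) := by
  simp [maxR, List.range_succ]

theorem le_maxR {n a : ℕ} (f : ℕ → ℕ) (h : a < n) : f a ≤ maxR n f := by
  induction n with
  | zero => omega
  | succ n ih =>
    rw [maxR_succ]
    rcases Nat.lt_succ_iff_lt_or_eq.1 h with h' | rfl
    · exact (ih h').trans (le_max_left _ _)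
    · exact le_max_right _ _

theorem cdiv_le {a b c : ℕ} (hb : 0 < b) (h : a ≤ c * b) : cdiv a b ≤ c := by
  unfold cdiv
  rw [← Nat.lt_succ_iff, Nat.div_lt_iff_lt_mul hb]
  calc a + (b - 1) < c * b + b := by omega
    _ = (c + 1) * b := by ring

theorem le_cdiv_mul {a b : ℕ} (hb : 0 < b) : a ≤ cdiv a b * b := by
  unfold cdiv
  have h1 := Nat.lt_div_mul_add (a := a + (b - 1)) hb
  omega

theorem cdiv_mul_lt {a b : ℕ} (hb : 0 < b) : cdiv a b * b < a + b := by
  unfold cdiv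
  have h1 := Nat.div_mul_le_self (a + (b - 1)) b
  omega

theorem cdiv_le_real {a b : ℕ} (hb : 0 < b) : ((cdiv a b : ℕ) : ℝ) ≤ (a : ℝ) / b + 1 := by
  have hb' : (0 : ℝ) < b := by exact_mod_cast hb
  have h1 : ((cdiv a b : ℕ) : ℝ) * b < a + b := by exact_mod_cast cdiv_mul_lt (a := a) hb
  rw [div_add_one hb'.ne', le_div_iff₀ hb']
  exact h1.le

theorem le_cdiv_real {a b : ℕ} (hb : 0 < b) : (a : ℝ) / b ≤ ((cdiv a b : ℕ) : ℝ) := by
  have hb' : (0 : ℝ) < b := by exact_mod_cast hb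
  have h1 : (a : ℝ) ≤ ((cdiv a b : ℕ) : ℝ) * b := by exact_mod_cast le_cdiv_mul (a := a) hb
  rwa [div_le_iff₀ hb']

/-! ### the hedge -/

section hedge

variable {gn gd B U : ℕ} {w0 : ℕ → ℕ} {us us' : ℕ → ℕ → ℕ}

theorem fac_pos (hgd : 0 < gd) (hU : 0 < U) (x : ℕ) : 0 < fac gn gd U x := by
  unfold fac
  have h1 : 0 < gd * U := Nat.mul_pos hgd hU
  have h2 : min (gd * U) (2 * gn * x) ≤ gd * U := min_le_left _ _
  have h3 : 2 * gd * U = gd * U + gd * U := by ring
  omega

theorem wts_pos (hgd : 0 < gd) (hU : 0 < U) (h0 : ∀ z, 0 < w0 z) (i z : ℕ) :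
    0 < wts gn gd B U w0 us i z := by
  induction i with
  | zero => exact h0 z
  | succ i ih => exact Nat.mul_pos ih (fac_pos hgd hU _)

theorem wts_congr {i : ℕ} (h : ∀ i' < i, ∀ z < B, us i' z = us' i' z) :
    ∀ z < B, wts gn gd B U w0 us i z = wts gn gd B U w0 us' i z := by
  induction i with
  | zero => exact fun _ _ => rfl
  | succ i ih =>
    intro z hz
    show wts gn gd B U w0 us i z * fac gn gd U (us i z - minR B (us i))
      = wts gn gd B U w0 us' i z * fac gn gd U (us' i z - minR B (us' i))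
    rw [ih (fun i' hi' => h i' (by omega)) z hz, h i (by omega) z hz,
      minR_congr (by omega : 0 < B) (h i (by omega))]

theorem hv_congr {i : ℕ} (h : ∀ i' ≤ i, ∀ z < B, us i' z = us' i' z) :
    hv gn gd B U w0 us i = hv gn gd B U w0 us' i := by
  have h1 := wts_congr (gn := gn) (gd := gd) (U := U) (w0 := w0)
    (fun i' hi' => h i' (by omega) : ∀ i' < i, ∀ z < B, us i' z = us' i' z)
  unfold hv
  rw [sumR_congr h1, sumR_congr (g := fun z => wts gn gd B U w0 us' i z * us' i z)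
    fun z hz => by rw [h1 z hz, h i le_rfl z hz]]

theorem sumw_pos (hB : 0 < B) (hgd : 0 < gd) (hU : 0 < U) (h0 : ∀ z, 0 < w0 z) (i : ℕ) :
    0 < sumR B (wts gn gd B U w0 us i) := by
  rw [sumR_eq]
  exact sum_pos (fun z _ => wts_pos hgd hU h0 i z) ⟨0, mem_range.2 hB⟩

theorem hv_le (hB : 0 < B) (hgd : 0 < gd) (hU : 0 < U) (h0 : ∀ z, 0 < w0 z) {i c : ℕ}
    (h : ∀ z < B, us i z ≤ c) : hv gn gd B U w0 us i ≤ c := by
  refine cdiv_le (sumw_pos hB hgd hU h0 i) ?_
  rw [sumR_eq, sumR_eq, mul_sum]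
  refine sum_le_sum fun z hz => ?_
  rw [mul_comm]
  exact Nat.mul_le_mul_right _ (h z (mem_range.1 hz))

theorem le_hv (hB : 0 < B) (hgd : 0 < gd) (hU : 0 < U) (h0 : ∀ z, 0 < w0 z) {i c : ℕ}
    (h : ∀ z < B, c ≤ us i z) : c ≤ hv gn gd B U w0 us i := by
  have hw := sumw_pos (us := us) (gn := gn) hB hgd hU h0 i
  have h1 : c * sumR B (wts gn gd B U w0 us i)
      ≤ sumR B fun z => wts gn gd B U w0 us i z * us i z := by
    rw [sumR_eq, sumR_eq, mul_sum]
    refine sum_le_sum fun z hz => ?_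
    rw [mul_comm]
    exact Nat.mul_le_mul_left _ (h z (mem_range.1 hz))
  exact Nat.le_of_mul_le_mul_right (h1.trans (le_cdiv_mul hw)) hw

theorem exists_le_hv (hB : 0 < B) (hgd : 0 < gd) (hU : 0 < U) (h0 : ∀ z, 0 < w0 z) (i : ℕ) :
    ∃ z < B, us i z ≤ hv gn gd B U w0 us i := by
  by_contra hc
  push Not at hc
  have h1 := le_hv (us := us) (gn := gn) hB hgd hU h0 (i := i)
    (c := hv gn gd B U w0 us i + 1) fun z hz => hc z hz
  omega

/-- two options, upper bound -/
theorem hv_le_mix (hgd : 0 < gd) (hU : 0 < U) (h0 : ∀ z, 0 < w0 z) (i : ℕ) :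
    ((hv gn gd 2 U w0 us i : ℕ) : ℝ)
      ≤ mix (wts gn gd 2 U w0 us i 0) (wts gn gd 2 U w0 us i 1) (us i 0) (us i 1) + 1 := by
  have hw := sumw_pos (us := us) (gn := gn) (w0 := w0) two_pos hgd hU h0 i
  have h1 := cdiv_le_real (a := sumR 2 fun z => wts gn gd 2 U w0 us i z * us i z) hw
  refine h1.trans (le_of_eq ?_)
  unfold mix
  rw [sumR_two, sumR_two]
  push_cast
  ring

/-- two options, lower bound -/
theorem mix_le_hv (hgd : 0 < gd) (hU : 0 < U) (h0 : ∀ z, 0 < w0 z) (i : ℕ) :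
    mix (wts gn gd 2 U w0 us i 0) (wts gn gd 2 U w0 us i 1) (us i 0) (us i 1)
      ≤ ((hv gn gd 2 U w0 us i : ℕ) : ℝ) := by
  have hw := sumw_pos (us := us) (gn := gn) (w0 := w0) two_pos hgd hU h0 i
  have h1 := le_cdiv_real (a := sumR 2 fun z => wts gn gd 2 U w0 us i z * us i z) hw
  refine le_trans (le_of_eq ?_) h1
  unfold mix
  rw [sumR_two, sumR_two]
  push_cast
  ring

theorem fac_eq (gn gd U x : ℕ) : fac gn gd U x = facU gn gd U x := rfl

theorem exc_eq (f : ℕ → ℕ) : f 0 - minR 2 f = exc (f 0) (f 1) := by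
  rw [minR_two]; rfl

theorem exc_eq' (f : ℕ → ℕ) : f 1 - minR 2 f = exc (f 1) (f 0) := by
  rw [minR_two, min_comm]; rfl

end hedge

/-! ### the in-window DP -/

section dp

variable {γ B : ℕ} {U : ℕ → ℕ → ℕ} {E E' : ℕ → ℕ → ℕ → ℕ → ℕ}

/-- rank `i` depends only on the end tables of the ranks `≤ i` -/
theorem VV_congr (t : ℕ) : ∀ (i p a b : ℕ), (∀ i' ≤ i, ∀ q a b, E i' q a b = E' i' q a b) →
    VV γ B U E t i p a b = VV γ B U E' t i p a b := by
  induction t with
  | zero => intro i p a b h; exact h i le_rfl p a b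
  | succ t ih =>
    intro i p a b h
    refine hv_congr fun i' hi' z _ => ?_
    show VV γ B U E t i' (2 * p) a z + VV γ B U E t i' (2 * p + 1) z b
      = VV γ B U E' t i' (2 * p) a z + VV γ B U E' t i' (2 * p + 1) z b
    rw [ih i' (2 * p) a z fun i'' hi'' => h i'' (by omega),
      ih i' (2 * p + 1) z b fun i'' hi'' => h i'' (by omega)]

/-- the value is at least the sum of the ends along some letter path -/
theorem exists_path (hB : 0 < B) (hU : ∀ t p, 0 < U t p) (t : ℕ) : ∀ (i p a b : ℕ),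
    ∃ c : ℕ → ℕ, c (p * 2 ^ t) = a ∧ c ((p + 1) * 2 ^ t) = b ∧
      (∀ q, p * 2 ^ t < q → q < (p + 1) * 2 ^ t → c q < B) ∧
      ∑ s ∈ range (2 ^ t), E i (p * 2 ^ t + s) (c (p * 2 ^ t + s)) (c (p * 2 ^ t + s + 1))
        ≤ VV γ B U E t i p a b := by
  induction t with
  | zero =>
    intro i p a b
    refine ⟨fun q => if q = p then a else b, by simp, by simp, fun q h1 h2 => by simp at h1 h2; omega,
      ?_⟩
    simp [VV]
  | succ t ih =>
    intro i p a b
    obtain ⟨z, hz, h1⟩ := exists_le_hv (gn := γ) (gd := 1) (B := B) (U := U (t + 1) p)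
      (w0 := fun _ => 1)
      (us := fun i' z => VV γ B U E t i' (2 * p) a z + VV γ B U E t i' (2 * p + 1) z b)
      hB one_pos (hU _ _) (fun _ => one_pos) i
    obtain ⟨c1, a1, a2, a3, a4⟩ := ih i (2 * p) a z
    obtain ⟨c2, b1, b2, b3, b4⟩ := ih i (2 * p + 1) z b
    have e1 : p * 2 ^ (t + 1) = 2 * p * 2 ^ t := by ring
    have e2 : (p + 1) * 2 ^ (t + 1) = (2 * p + 1 + 1) * 2 ^ t := by ring
    have e3 : (2 * p + 1) * 2 ^ t = 2 * p * 2 ^ t + 2 ^ t := by ring
    have e4 : (2 * p + 1 + 1) * 2 ^ t = 2 * p * 2 ^ t + 2 ^ t + 2 ^ t := by ring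
    have hp2 : 0 < 2 ^ t := Nat.two_pow_pos t
    have hmid : c1 (2 * p * 2 ^ t + 2 ^ t) = c2 (2 * p * 2 ^ t + 2 ^ t) := by
      rw [← e3, a2, b1]
    refine ⟨fun q => if q < 2 * p * 2 ^ t + 2 ^ t then c1 q else c2 q, ?_, ?_, ?_, ?_⟩
    · simp only []
      rw [e1, if_pos (by omega), a1]
    · simp only []
      rw [e2, if_neg (by omega), b2]
    · intro q h2 h3
      simp only []
      rw [e1] at h2
      rw [e2] at h3
      split_ifs with h4
      · exact a3 q h2 (by omega)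
      · rcases Nat.eq_or_lt_of_le (not_lt.1 h4) with h5 | h5
        · rw [← h5, ← e3, b1]; exact hz
        · exact b3 q (by omega) h3
    · refine le_trans ?_ h1
      rw [e1, show (2 : ℕ) ^ (t + 1) = 2 ^ t + 2 ^ t by ring, sum_range_add]
      refine Nat.add_le_add ?_ ?_
      · refine le_trans (sum_le_sum fun s hs => ?_) a4
        have hs' := mem_range.1 hs
        simp only []
        rw [if_pos (by omega)]
        by_cases h6 : s + 1 < 2 ^ t
        · rw [if_pos (by omega)]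
        · rw [if_neg (by omega)]
          have h7 : 2 * p * 2 ^ t + s + 1 = 2 * p * 2 ^ t + 2 ^ t := by omega
          rw [h7, hmid]
      · refine le_trans (sum_le_sum fun s hs => ?_) b4
        have hs' := mem_range.1 hs
        simp only []
        rw [if_neg (by omega), if_neg (by omega), e3]
        simp only [add_assoc]
        exact le_rfl

/-- the value is at most the sum of the largest ends -/
theorem VV_le {m : ℕ → ℕ} (hB : 0 < B) (hU : ∀ t p, 0 < U t p) (t : ℕ) : ∀ (i p a b : ℕ),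
    a < B → b < B → (∀ q a b, p * 2 ^ t ≤ q → q < (p + 1) * 2 ^ t → a < B → b < B → E i q a b ≤ m q) →
    VV γ B U E t i p a b ≤ ∑ s ∈ range (2 ^ t), m (p * 2 ^ t + s) := by
  induction t with
  | zero =>
    intro i p a b ha hb h
    simpa [VV] using h p a b (by simp) (by simp) ha hb
  | succ t ih =>
    intro i p a b ha hb h
    have e1 : p * 2 ^ (t + 1) = 2 * p * 2 ^ t := by ring
    have e2 : (p + 1) * 2 ^ (t + 1) = (2 * p + 1 + 1) * 2 ^ t := by ring
    have e3 : (2 * p + 1) * 2 ^ t = 2 * p * 2 ^ t + 2 ^ t := by ring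
    have e4 : (2 * p + 1 + 1) * 2 ^ t = 2 * p * 2 ^ t + 2 ^ t + 2 ^ t := by ring
    rw [e1, e2] at h
    refine hv_le hB one_pos (hU _ _) (fun _ => one_pos) fun z hz => ?_
    have h1 := ih i (2 * p) a z ha hz fun q a b h1 h2 h3 h4 => h q a b h1 (by omega) h3 h4
    have h2 := ih i (2 * p + 1) z b hz hb fun q a b h1 h2 h3 h4 => h q a b (by omega) h2 h3 h4
    calc _ ≤ ∑ s ∈ range (2 ^ t), m (2 * p * 2 ^ t + s)
          + ∑ s ∈ range (2 ^ t), m ((2 * p + 1) * 2 ^ t + s) := Nat.add_le_add h1 h2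
      _ = ∑ s ∈ range (2 ^ t + 2 ^ t), m (2 * p * 2 ^ t + s) := by
          rw [sum_range_add, e3]
          simp only [add_assoc]
      _ = _ := by rw [e1, pow_succ, mul_two]

end dp

/-! ### the menus -/

section menus

variable (P : Par) (F : St → ℕ) (X : ℕ → ℕ → St → ℕ) (κ : ℕ) (x : St)

theorem N_pos : 0 < P.N := Nat.two_pow_pos _

theorem WA_pos : 0 < WA P κ := Nat.succ_pos _

theorem nlet_pos : 0 < nlet P F κ x := Nat.succ_pos _

theorem unt_pos (t p : ℕ) : 0 < unt P F κ x t p := Nat.succ_pos _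

theorem near_lt (q z : ℕ) : near P F κ x q z < WA P κ := by
  unfold near
  have := WA_pos P κ
  exact lt_of_le_of_lt (min_le_left _ _) (by omega)

theorem D_le (A : ℕ) (T : ℕ → ℕ → ℕ → ℕ) (c : ℕ → ℕ) (j : ℕ) (hc : ∀ q < j, c q < A) :
    D A T j (c j) ≤ ∑ q ∈ range j, T q (c q) (c (q + 1)) := by
  induction j with
  | zero => simp [D]
  | succ j ih =>
    rw [sum_range_succ]
    have h1 := ih fun q hq => hc q (by omega)
    have h2 : D A T (j + 1) (c (j + 1)) ≤ D A T j (c j) + T j (c j) (c (j + 1)) :=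
      minR_le (fun a => D A T j a + T j a (c (j + 1))) (hc j (by omega))
    omega

/-- the piece does not depend on the letter at the last cut -/
theorem piece_last {q : ℕ} (hq : q + 1 = P.N) (a b b' : ℕ) :
    piece P κ x q a b = piece P κ x q a b' := by
  unfold piece cut
  have h1 : ¬ (q + 1 = 0) := by omega
  rw [if_neg h1, if_pos hq, if_neg h1, if_pos hq]

theorem Vst_le (f : St → ℕ) (c : ℕ → ℕ) (hc : ∀ q < P.N, c q < WA P κ) :
    Vst P κ x f ≤ ∑ q ∈ range P.N, f (piece P κ x q (c q) (c (q + 1))) := by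
  classical
  let c' : ℕ → ℕ := fun q => if q = P.N then 0 else c q
  have h1 : D (WA P κ) (fun q a b => f (piece P κ x q a b)) P.N (c' P.N)
      ≤ ∑ q ∈ range P.N, f (piece P κ x q (c' q) (c' (q + 1))) :=
    D_le _ (fun q a b => f (piece P κ x q a b)) c' P.N fun q hq => by
      simp only [c']
      rw [if_neg (by omega)]
      exact hc q hq
  have h0 : c' P.N = 0 := if_pos rfl
  rw [h0] at h1
  refine h1.trans (le_of_eq (sum_congr rfl fun q hq => ?_))
  have hq' := mem_range.1 hq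
  have e1 : c' q = c q := if_neg (by omega)
  rw [e1]
  by_cases h2 : q + 1 = P.N
  · rw [piece_last P κ x h2 (c q) (c' (q + 1)) (c (q + 1))]
  · have e2 : c' (q + 1) = c (q + 1) := if_neg h2
    rw [e2]

/-- near staircases belong to the window -/
theorem Vst_le_near (f : St → ℕ) (c : ℕ → ℕ) :
    Vst P κ x f ≤ ∑ q ∈ range P.N, f (npiece P F κ x q (c q) (c (q + 1))) :=
  Vst_le P κ x f (fun q => near P F κ x q (c q)) fun q _ => near_lt P F κ x q _

/-! ### calm numbers -/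

/-- calm NUMBER of rank `i`: all end tables are the numbers `X i` -/
def cal (i : ℕ) : ℕ :=
  VV P.γ (nlet P F κ x) (unt P F κ x)
    (fun i q a b => numSt P F κ (X i) (npiece P F κ x q a b)) P.n i 0 0 0

variable {P F X κ x}

theorem calm_eq_cal {k i : ℕ} (h : i < k) (S : ℕ → ℕ → St → ℕ) :
    calm P F X k S κ x i = cal P F X κ x i :=
  VV_congr P.n i 0 0 0 fun i' hi' q a b => by
    show numSt P F κ (if i' < k then X i' else S q) _ = _
    rw [if_pos (by omega)]

theorem calm_const {k i : ℕ} (h : i ≤ k) :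
    calm P F X k (fun _ => X k) κ x i = cal P F X κ x i :=
  VV_congr P.n i 0 0 0 fun i' hi' q a b => by
    show numSt P F κ (if i' < k then X i' else X k) _ = _
    split_ifs with h1
    · rfl
    · rw [show i' = k by omega]

/-- some near staircase is at most the calm number -/
theorem exists_path_cal (i : ℕ) : ∃ c : ℕ → ℕ, (∀ q ≤ P.N, c q < nlet P F κ x) ∧
    ∑ q ∈ range P.N, numSt P F κ (X i) (npiece P F κ x q (c q) (c (q + 1))) ≤ cal P F X κ x i := by
  obtain ⟨c, h1, h2, h3, h4⟩ := exists_path (γ := P.γ)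
    (E := fun i q a b => numSt P F κ (X i) (npiece P F κ x q a b)) (nlet_pos P F κ x)
    (unt_pos P F κ x) P.n i 0 0 0
  refine ⟨c, fun q hqN => ?_, ?_⟩
  · have hn := nlet_pos P F κ x
    rcases Nat.eq_zero_or_pos q with rfl | hq
    · rw [zero_mul] at h1
      rw [h1]; exact hn
    · rcases Nat.lt_or_eq_of_le hqN with hq' | hq'
      · exact h3 q (by simpa using hq) (by simpa [Par.N] using hq')
      · have h5 : c P.N = 0 := by simpa [Par.N] using h2
        rw [hq', h5]; exact hn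
  simp only [zero_mul, zero_add] at h4
  exact h4

theorem cal_le {m : ℕ → ℕ} {i : ℕ}
    (h : ∀ q < P.N, ∀ a < nlet P F κ x, ∀ b < nlet P F κ x,
      numSt P F κ (X i) (npiece P F κ x q a b) ≤ m q) :
    cal P F X κ x i ≤ ∑ q ∈ range P.N, m q := by
  have h1 := VV_le (γ := P.γ) (m := m)
    (E := fun i q a b => numSt P F κ (X i) (npiece P F κ x q a b)) (nlet_pos P F κ x)
    (unt_pos P F κ x) P.n i 0 0 0 (nlet_pos P F κ x) (nlet_pos P F κ x)
    fun q a b h1 h2 ha hb => h q (by simpa [Par.N] using h2) a ha b hb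
  simp only [zero_mul, zero_add] at h1
  exact h1

end menus

/-! ### the hull is below the number of the state -/

section hull

variable {P : Par} {F : St → ℕ}

theorem lmin_le_init (a : ℕ) (l : List ℕ) : lmin a l ≤ a := by
  unfold lmin
  induction l generalizing a with
  | nil => exact le_rfl
  | cons b l ih => exact (ih (min a b)).trans (min_le_left _ _)

theorem lmin_le {a b : ℕ} {l : List ℕ} (h : b ∈ l) : lmin a l ≤ b := by
  unfold lmin
  induction l generalizing a with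
  | nil => cases h
  | cons c l ih =>
    rcases List.mem_cons.1 h with rfl | h
    · exact (lmin_le_init (min a b) l).trans (min_le_right _ _)
    · exact ih h

theorem mem_rngC {lo hi k : ℕ} (h1 : lo ≤ k) (h2 : k ≤ hi) : k ∈ rngC lo hi := by
  unfold rngC
  exact List.mem_map.2 ⟨k - lo, List.mem_range.2 (by omega), by omega⟩

theorem hull_le_F (f : ℕ → St → ℕ) (y : St) : hull P F f y ≤ F y := lmin_le_init _ _

theorem hull_le {f : ℕ → St → ℕ} {y z : St} {κ' : ℕ} (h1 : cls F y ≤ κ' + P.al)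
    (h2 : κ' ≤ cls F y + P.a2) (hz : z ∈ menu P κ' (2 * F y) y) :
    hull P F f y ≤ dist y z + f κ' z :=
  lmin_le (List.mem_flatMap.2 ⟨κ', mem_rngC (by omega) h2, List.mem_map.2 ⟨z, hz, rfl⟩⟩)

theorem gst_pos (κ : ℕ) : 0 < gst P κ := Nat.two_pow_pos _

theorem rd_le (κ : ℕ) (u : ℤ) : rd P κ u ≤ u := by
  unfold rd
  exact Int.ediv_mul_le u (by have := gst_pos (P := P) κ; omega)

theorem le_rd {κ : ℕ} {u : ℤ} (hd : gst P κ ∣ P.Dm) (h : -(P.Dm : ℤ) ≤ u) :
    -(P.Dm : ℤ) ≤ rd P κ u := by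
  obtain ⟨c, hc⟩ := hd
  have hg : (0 : ℤ) < gst P κ := by exact_mod_cast gst_pos (P := P) κ
  have h1 : -(c : ℤ) ≤ u / (gst P κ : ℤ) := by
    rw [Int.le_ediv_iff_mul_le hg]
    rw [hc] at h
    push_cast at h
    linarith [mul_comm (gst P κ : ℤ) (c : ℤ)]
  unfold rd
  rw [hc]
  push_cast
  nlinarith

theorem clp_rd {κ : ℕ} {u : ℤ} (hd : gst P κ ∣ P.Dm) (h : u.natAbs ≤ P.Dm) :
    clp P (rd P κ u) = rd P κ u := by
  have h1 := rd_le (P := P) κ u
  have h2 := le_rd (u := u) hd (by omega)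
  unfold clp
  omega

/-- the rounded state is in the menu of its class -/
theorem rdn_mem_menu {κ ρ : ℕ} {y : St} (hd : gst P κ ∣ P.Dm) (hy : inD P y) :
    rdn P κ y ∈ menu P κ ρ y := by
  have h : ρ / gst P κ + 1 < 2 * (ρ / gst P κ) + 3 := by omega
  have h' : ((ρ / gst P κ + 1 : ℕ) : ℤ) ∈ (do
      let a ← List.range (2 * (ρ / gst P κ) + 3)
      pure (a : ℤ) : List ℤ) :=
    List.mem_flatMap.2 ⟨ρ / gst P κ + 1, List.mem_range.2 h, List.mem_singleton.2 rfl⟩
  unfold menu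
  refine List.mem_flatMap.2 ⟨((ρ / gst P κ + 1 : ℕ) : ℤ), h',
    List.mem_map.2 ⟨((ρ / gst P κ + 1 : ℕ) : ℤ), h', ?_⟩⟩
  unfold rdn
  simp only [sub_self, zero_mul, add_zero]
  rw [clp_rd hd hy.1, clp_rd hd hy.2]

theorem hull_le_numSt {f : ℕ → St → ℕ} {κ : ℕ} {y : St} (hd : gst P (cls F y) ∣ P.Dm)
    (hy : inD P y) : hull P F f y ≤ numSt P F κ f y := by
  unfold numSt
  split_ifs with h
  · exact hull_le_F f y
  · exact hull_le (by omega) (by omega) (rdn_mem_menu hd hy)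

theorem gst_le (κ : ℕ) : gst P κ ≤ 2 ^ κ := Nat.pow_le_pow_right two_pos (Nat.sub_le _ _)

theorem lt_rd (κ : ℕ) (u : ℤ) : u < rd P κ u + gst P κ := by
  have hg : (0 : ℤ) < gst P κ := by exact_mod_cast gst_pos (P := P) κ
  have h1 := Int.lt_ediv_add_one_mul_self u hg
  unfold rd
  linarith

theorem pos_natAbs (hr : 1 ≤ P.r) {κ : ℕ} {x : St} (hx : x.u.natAbs ≤ P.Dm) (a : ℕ) :
    (pos P κ x a).natAbs ≤ P.Dm := by
  have h1 := lt_rd (P := P) κ x.u
  have h2 : (gst P κ : ℤ) ≤ 2 ^ κ := by exact_mod_cast gst_le (P := P) κ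
  have h3 : (2 : ℤ) ^ κ ≤ P.r * 2 ^ κ := by
    have h4 : (1 : ℤ) ≤ P.r := by exact_mod_cast hr
    have h5 : (0 : ℤ) < 2 ^ κ := by positivity
    nlinarith
  have h4 : (0 : ℤ) ≤ a * (gst P κ : ℤ) := by positivity
  have h5 : -(P.Dm : ℤ) ≤ wlo P κ x := le_max_left _ _
  have h6 : whi P κ x ≤ (P.Dm : ℤ) := min_le_left _ _
  have h7 : -(P.Dm : ℤ) ≤ whi P κ x := le_min (by omega) (by omega)
  unfold pos
  omega

theorem cut_natAbs (hr : 1 ≤ P.r) {κ : ℕ} {x : St} (hx : inD P x) (q a : ℕ) :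
    (cut P κ x q a).natAbs ≤ P.Dm := by
  unfold cut
  split_ifs
  · exact hx.1
  · exact hx.2
  · exact pos_natAbs hr hx.1 _

theorem inD_piece (hr : 1 ≤ P.r) {κ : ℕ} {x : St} (hx : inD P x) (q a b : ℕ) :
    inD P (piece P κ x q a b) :=
  ⟨cut_natAbs hr hx q a, cut_natAbs hr hx (q + 1) b⟩

theorem inD_npiece (hr : 1 ≤ P.r) {κ : ℕ} {x : St} (hx : inD P x) (q a b : ℕ) :
    inD P (npiece P F κ x q a b) :=
  inD_piece hr hx _ _ _

end hull

/-! ### the root decision -/

section root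

variable (P : Par) (F : St → ℕ) (X : ℕ → ℕ → St → ℕ) (κ : ℕ) (x : St)

/-- losses of the two options: calm number, wild value -/
def mus (i z : ℕ) : ℕ := if z = 0 then cal P F X κ x i else wild P F X κ x i

/-- weights of the two options, rank `k` -/
def mwt (k z : ℕ) : ℕ :=
  wts 1 P.um 2 (F x + 1) (fun z => if z = 0 then P.pm else 1) (mus P F X κ x) k z

/-- the optimum of rank `k` over all grid staircases, end table `hull` -/
def Vk (k : ℕ) : ℕ := Vst P κ x (hull P F (X k))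

variable {P F X κ x}

theorem prior_pos (hpm : 0 < P.pm) (z : ℕ) : 0 < (fun z => if z = 0 then P.pm else 1) z := by
  show 0 < if z = 0 then P.pm else 1
  split_ifs
  · exact hpm
  · exact one_pos

theorem wts_mus (k : ℕ) (S : ℕ → ℕ → St → ℕ) : ∀ z < 2,
    wts 1 P.um 2 (F x + 1) (fun z => if z = 0 then P.pm else 1)
      (fun i z => if z = 0 then calm P F X k S κ x i else wild P F X κ x i) k z
      = mwt P F X κ x k z :=
  wts_congr fun i hi z _ => by
    show (if z = 0 then calm P F X k S κ x i else wild P F X κ x i)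
      = if z = 0 then cal P F X κ x i else wild P F X κ x i
    rw [calm_eq_cal hi]

theorem modal_le_mix (hum : 0 < P.um) (hpm : 0 < P.pm) (k : ℕ) (S : ℕ → ℕ → St → ℕ) :
    (modal P F X k S κ x : ℝ) ≤ mix (mwt P F X κ x k 0) (mwt P F X κ x k 1)
      (calm P F X k S κ x k) (wild P F X κ x k) + 1 := by
  have h := hv_le_mix (gn := 1) (gd := P.um) (U := F x + 1)
    (w0 := fun z => if z = 0 then P.pm else 1)
    (us := fun i z => if z = 0 then calm P F X k S κ x i else wild P F X κ x i)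
    hum (Nat.succ_pos _) (prior_pos hpm) k
  rw [wts_mus k S 0 two_pos, wts_mus k S 1 one_lt_two] at h
  unfold modal
  simpa using h

theorem mix_le_modal (hum : 0 < P.um) (hpm : 0 < P.pm) (k : ℕ) (S : ℕ → ℕ → St → ℕ) :
    mix (mwt P F X κ x k 0) (mwt P F X κ x k 1)
      (calm P F X k S κ x k) (wild P F X κ x k) ≤ (modal P F X k S κ x : ℝ) := by
  have h := mix_le_hv (gn := 1) (gd := P.um) (U := F x + 1)
    (w0 := fun z => if z = 0 then P.pm else 1)
    (us := fun i z => if z = 0 then calm P F X k S κ x i else wild P F X κ x i)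
    hum (Nat.succ_pos _) (prior_pos hpm) k
  rw [wts_mus k S 0 two_pos, wts_mus k S 1 one_lt_two] at h
  unfold modal
  simpa using h

/-! ### the body value -/

variable {leaf : St → Option ℕ}

theorem bodyNum_bad {k : ℕ} {S : ℕ → ℕ → St → ℕ} (h : adm P F κ x = false) :
    bodyNum P leaf F X k S κ x = F x := by
  unfold bodyNum; rw [if_pos h]

theorem bodyNum_leaf {k c : ℕ} {S : ℕ → ℕ → St → ℕ} (h : adm P F κ x = true)
    (hl : leaf x = some c) : bodyNum P leaf F X k S κ x = c := by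
  unfold bodyNum; rw [if_neg (by simp [h]), hl]

theorem bodyNum_wild {k : ℕ} {S : ℕ → ℕ → St → ℕ} (h : adm P F κ x = true) (hl : leaf x = none)
    (hw : R1 P F x ∨ ¬ regular P F κ x) : bodyNum P leaf F X k S κ x = wild P F X κ x k := by
  unfold bodyNum; rw [if_neg (by simp [h]), hl]; simp only []; rw [if_pos hw]

theorem bodyNum_reg {k : ℕ} {S : ℕ → ℕ → St → ℕ} (h : adm P F κ x = true) (hl : leaf x = none)
    (h1 : ¬ R1 P F x) (h2 : regular P F κ x) : bodyNum P leaf F X k S κ x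
      = cdiv ((P.g - 1) * modal P F X k S κ x + wild P F X κ x k) P.g := by
  unfold bodyNum; rw [if_neg (by simp [h]), hl]; simp only []; rw [if_neg (by tauto)]

/-- **the body value, every end table `S`** -/
theorem bodyNum_le {k : ℕ} {S : ℕ → ℕ → St → ℕ} (h : adm P F κ x = true) (hl : leaf x = none)
    (h1 : ¬ R1 P F x) (h2 : regular P F κ x) (hg : 0 < P.g) (hum : 0 < P.um) (hpm : 0 < P.pm) :
    (bodyNum P leaf F X k S κ x : ℝ) ≤ (1 - 1 / (P.g : ℝ)) *
      mix (mwt P F X κ x k 0) (mwt P F X κ x k 1) (calm P F X k S κ x k) (wild P F X κ x k)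
      + 1 / (P.g : ℝ) * wild P F X κ x k + 2 := by
  rw [bodyNum_reg h hl h1 h2]
  have hg' : (0 : ℝ) < P.g := by exact_mod_cast hg
  have h3 := cdiv_le_real (a := (P.g - 1) * modal P F X k S κ x + wild P F X κ x k) hg
  have h4 := modal_le_mix (P := P) (F := F) (X := X) (κ := κ) (x := x) hum hpm k S
  rw [Nat.cast_add, Nat.cast_mul, Nat.cast_sub hg, Nat.cast_one] at h3
  have h5 : (((P.g : ℝ) - 1) * (modal P F X k S κ x : ℝ) + (wild P F X κ x k : ℝ)) / P.g
      = (1 - 1 / (P.g : ℝ)) * (modal P F X k S κ x : ℝ) + 1 / (P.g : ℝ) * wild P F X κ x k := by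
    field_simp
  rw [h5] at h3
  have h6 : 0 ≤ 1 - 1 / (P.g : ℝ) := by
    rw [sub_nonneg, div_le_one hg']
    exact_mod_cast hg
  have h7 : 1 - 1 / (P.g : ℝ) ≤ 1 := by
    have : 0 ≤ 1 / (P.g : ℝ) := by positivity
    linarith
  have h8 := mul_le_mul_of_nonneg_left h4 h6
  nlinarith

/-- lower bound (for `G ≤ ..`) -/
theorem le_bodyNum {k : ℕ} {S : ℕ → ℕ → St → ℕ} (h : adm P F κ x = true) (hl : leaf x = none)
    (h1 : ¬ R1 P F x) (h2 : regular P F κ x) (hg : 0 < P.g) (hum : 0 < P.um) (hpm : 0 < P.pm) :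
    (1 - 1 / (P.g : ℝ)) *
      mix (mwt P F X κ x k 0) (mwt P F X κ x k 1) (calm P F X k S κ x k) (wild P F X κ x k)
      + 1 / (P.g : ℝ) * wild P F X κ x k ≤ (bodyNum P leaf F X k S κ x : ℝ) := by
  rw [bodyNum_reg h hl h1 h2]
  have hg' : (0 : ℝ) < P.g := by exact_mod_cast hg
  have h3 := le_cdiv_real (a := (P.g - 1) * modal P F X k S κ x + wild P F X κ x k) hg
  have h4 := mix_le_modal (P := P) (F := F) (X := X) (κ := κ) (x := x) hum hpm k S
  rw [Nat.cast_add, Nat.cast_mul, Nat.cast_sub hg, Nat.cast_one] at h3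
  have h5 : (((P.g : ℝ) - 1) * (modal P F X k S κ x : ℝ) + (wild P F X κ x k : ℝ)) / P.g
      = (1 - 1 / (P.g : ℝ)) * (modal P F X k S κ x : ℝ) + 1 / (P.g : ℝ) * wild P F X κ x k := by
    field_simp
  rw [h5] at h3
  have h6 : 0 ≤ 1 - 1 / (P.g : ℝ) := by
    rw [sub_nonneg, div_le_one hg']
    exact_mod_cast hg
  have h8 := mul_le_mul_of_nonneg_left h4 h6
  linarith

/-! ### the window -/

/-- **the root decision of ALG-U is a `NatWin`** -/
theorem natWin_modal {K G : ℕ} (hg : 1 ≤ P.g) (hG2 : 2 ≤ G) (hG : (P.n + 1) * P.g ≤ G)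
    (hum : G ≤ P.um) (hpm : 0 < P.pm)
    (hend : ∀ k < K, ∀ q < P.N, ∀ a < nlet P F κ x, ∀ b < nlet P F κ x,
      hull P F (X k) (npiece P F κ x q a b) ≤ numSt P F κ (X k) (npiece P F κ x q a b))
    (hcal : ∀ k < K, G * cal P F X κ x k ≤ P.um * (F x + 1)) :
    NatWin K P.n P.g G 1 P.um (F x + 1) (F x) P.pm (cal P F X κ x) (wild P F X κ x)
      (Vk P F X κ x) (fun k => mwt P F X κ x k 0) (fun k => mwt P F X κ x k 1) :=
  { g1 := hg
    G2 := hG2
    gG := hG
    gn0 := one_pos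
    gd0 := by omega
    U0 := Nat.succ_pos _
    pm0 := hpm
    W0 := rfl
    Ws := fun k _ => rfl
    VC := fun k hk => by
      obtain ⟨c, h1, h2⟩ := exists_path_cal (P := P) (F := F) (X := X) (κ := κ) (x := x) k
      exact (Vst_le_near P F κ x (hull P F (X k)) c).trans
        ((sum_le_sum fun q hq => hend k hk q (mem_range.1 hq) _ (h1 q (mem_range.1 hq).le) _
          (h1 (q + 1) (mem_range.1 hq))).trans h2)
    rc := fun k hk => by rw [mul_one]; exact hcal k hk
    rF := by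
      rw [mul_one]
      exact Nat.mul_le_mul hum (Nat.le_succ _)
    ww0 := one_pos
    wc0 := by
      show (if (0 : ℕ) = 0 then P.pm else 1) = P.pm * (if (1 : ℕ) = 0 then P.pm else 1)
      simp
    hcs := fun k hk => by
      show mwt P F X κ x k 0 * fac 1 P.um (F x + 1)
        (mus P F X κ x k 0 - minR 2 (mus P F X κ x k)) = _
      rw [exc_eq, fac_eq]
      rfl
    hws := fun k hk => by
      show mwt P F X κ x k 1 * fac 1 P.um (F x + 1)
        (mus P F X κ x k 1 - minR 2 (mus P F X κ x k)) = _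
      rw [exc_eq', fac_eq]
      rfl }

/-- calm numbers of a regular state -/
theorem cal_le_reg {C c i : ℕ} (hreg : regular P F κ x)
    (h : ∀ q < P.N, ∀ a < nlet P F κ x, ∀ b < nlet P F κ x,
      numSt P F κ (X i) (npiece P F κ x q a b) ≤ C * F (npiece P F κ x q a b) + c) :
    cal P F X κ x i ≤ C * (P.Creg * F x) + P.N * c := by
  refine (cal_le (m := fun q => C * (maxR (nlet P F κ x) fun a => maxR (nlet P F κ x) fun b =>
    F (npiece P F κ x q a b)) + c) fun q hq a ha b hb => ?_).trans ?_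
  · refine (h q hq a ha b hb).trans (Nat.add_le_add_right (Nat.mul_le_mul_left _ ?_) _)
    exact (le_maxR (fun b => F (npiece P F κ x q a b)) hb).trans
      (le_maxR (fun a => maxR (nlet P F κ x) fun b => F (npiece P F κ x q a b)) ha)
  · rw [sum_add_distrib, sum_const, card_range, smul_eq_mul, ← mul_sum, ← sumR_eq]
    exact Nat.add_le_add_right (Nat.mul_le_mul_left _ hreg) _

/-- the window of one pair, range factor `G` -/
abbrev WinX (P : Par) (F : St → ℕ) (X : ℕ → ℕ → St → ℕ) (κ : ℕ) (x : St) (K G : ℕ) : Prop :=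
  NatWin K P.n P.g G 1 P.um (F x + 1) (F x) P.pm (cal P F X κ x) (wild P F X κ x)
      (Vk P F X κ x) (fun k => mwt P F X κ x k 0) (fun k => mwt P F X κ x k 1)

/-- **near** -/
theorem near_pair {K G : ℕ} (w : WinX P F X κ x K G) {Vn : ℕ → ℕ}
    (h1 : ∀ k < K, Vk P F X κ x k ≤ Vn k) (h2 : ∀ k < K, Vn k ≤ cal P F X κ x k)
    {A S : ℕ → ℝ} {Reg η : ℝ}
    (hA : ∀ k < K, A k ≤ (1 - 1 / (P.g : ℝ)) *
      mix (mwt P F X κ x k 0) (mwt P F X κ x k 1) (cal P F X κ x k) (wild P F X κ x k)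
      + 1 / (P.g : ℝ) * wild P F X κ x k + η)
    (inner : ∑ k ∈ range K, ((1 - 1 / (G : ℝ)) ^ P.n * (cal P F X κ x k : ℝ)
      + (1 - (1 - 1 / (G : ℝ)) ^ P.n) * (Vn k : ℝ)) ≤ ∑ k ∈ range K, S k + Reg) :
    ∑ k ∈ range K, A k ≤ ∑ k ∈ range K, S k + Reg
      + (P.um : ℝ) * (F x + 1) / P.pm + 1 / (P.g : ℝ) * F x + K * η := by
  refine (w.near h1 h2 hA inner).trans (le_of_eq ?_)
  push_cast
  ring

/-- **far**: every comparator above the optima `Vk` -/
theorem far_pair {K G : ℕ} (w : WinX P F X κ x K G) {A S : ℕ → ℝ} {η : ℝ}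
    (hA : ∀ k < K, A k ≤ (1 - 1 / (P.g : ℝ)) *
      mix (mwt P F X κ x k 0) (mwt P F X κ x k 1) (cal P F X κ x k) (wild P F X κ x k)
      + 1 / (P.g : ℝ) * wild P F X κ x k + η)
    (hVS : ∀ k < K, (Vk P F X κ x k : ℝ) ≤ S k) :
    ∑ k ∈ range K, A k ≤ ∑ k ∈ range K, S k
      + (P.um : ℝ) * (F x + 1) * Real.log (P.pm + 1) + (1 + 1 / (P.g : ℝ)) * F x + K * η := by
  refine (w.far hA hVS).trans (le_of_eq ?_)
  push_cast
  ring

/-- **no calm option** (R1 and irregular states); no condition on the parameters -/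
theorem wild_pair {K : ℕ} {A S : ℕ → ℝ} {η : ℝ}
    (hA : ∀ k < K, A k ≤ wild P F X κ x k + η) (hVS : ∀ k < K, (Vk P F X κ x k : ℝ) ≤ S k) :
    ∑ k ∈ range K, A k ≤ ∑ k ∈ range K, S k + F x + K * η := by
  have h := window_irregular (F := (F x : ℝ)) (e := 0) (W := fun k => (wild P F X κ x k : ℝ))
    (V := fun k => (Vk P F X κ x k : ℝ)) (Nat.cast_nonneg _) le_rfl
    (by rw [add_zero]; exact le_rfl) (fun k _ => Nat.cast_nonneg _) (fun k _ => Nat.cast_nonneg _)
    (fun k _ => by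
      rw [add_zero, min_comm, ← Nat.cast_min]
      exact le_rfl) hVS hA
  linarith

/-- comparator: every letter sequence of the window -/
theorem Vk_le (c : ℕ → ℕ) (hc : ∀ q < P.N, c q < WA P κ) (k : ℕ) :
    (Vk P F X κ x k : ℝ) ≤ ((∑ q ∈ range P.N,
      hull P F (X k) (piece P κ x q (c q) (c (q + 1))) : ℕ) : ℝ) := by
  exact_mod_cast Vst_le P κ x (hull P F (X k)) c hc

/-- ranges from regularity: `G (C Creg F + N c) ≤ um (F+1)` -/
theorem natWin_reg {K G C c : ℕ} (hg : 1 ≤ P.g) (hG2 : 2 ≤ G) (hG : (P.n + 1) * P.g ≤ G)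
    (hum : G * (C * P.Creg + 1) ≤ P.um) (hpm : 0 < P.pm) (hreg : regular P F κ x)
    (hr : 1 ≤ P.r) (hx : inD P x)
    (hD : ∀ q < P.N, ∀ a < nlet P F κ x, ∀ b < nlet P F κ x,
      gst P (cls F (npiece P F κ x q a b)) ∣ P.Dm)
    (hX : ∀ k < K, ∀ q < P.N, ∀ a < nlet P F κ x, ∀ b < nlet P F κ x,
      numSt P F κ (X k) (npiece P F κ x q a b) ≤ C * F (npiece P F κ x q a b) + c)
    (hF : P.N * c ≤ F x) : WinX P F X κ x K G := by
  refine natWin_modal hg hG2 hG ?_ hpm ?_ ?_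
  · calc G = G * 1 := (mul_one _).symm
      _ ≤ G * (C * P.Creg + 1) := Nat.mul_le_mul_left _ (by omega)
      _ ≤ P.um := hum
  · intro k _ q hq a ha b hb
    exact hull_le_numSt (hD q hq a ha b hb) (inD_npiece (P := P) (F := F) (κ := κ) hr hx q a b)
  · intro k hk
    calc G * cal P F X κ x k ≤ G * (C * (P.Creg * F x) + P.N * c) :=
          Nat.mul_le_mul_left _ (cal_le_reg hreg (hX k hk))
      _ ≤ G * (C * (P.Creg * F x) + F x) := Nat.mul_le_mul_left _ (Nat.add_le_add_left hF _)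
      _ = G * (C * P.Creg + 1) * F x := by ring
      _ ≤ P.um * (F x + 1) := Nat.mul_le_mul hum (Nat.le_succ _)

end root

end Crest.Agent.R288.RegE711
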