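import Crest.Agent.R288.RegE_711
import Crest.Agent.R288.FarA_131
import Crest.Agent.R288.OscI_283

/-!
# Row 288 (helper711): (A10) from the body means

`A k` = body mean of rank `k` at the pair `(κ, x)`, with `A k ≤ bodyNum .. (fun _ => X k) κ x + c`
(725's `Ev_body_le` with the numbers of rank `k` as comparison table).

* `root_of_winX`   : 131's `Root` from `RegE711.WinX`
* **`opt_of_body`** : 131's `Opt` at every admissible pair (leaf, R1, irregular, regular)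
* `opt_of_osc`      : the same with 283's `OscR` for the numbers
-/

set_option autoImplicit false

namespace Crest.Agent.R288.RegF711

open Finset Crest.Agent.R288.Alg45 Crest.Agent.R288.AlgS125 Crest.Agent.R288.RegC711
  Crest.Agent.R288.RegD711 Crest.Agent.R288.RegE711 Crest.Agent.R288.FarA131

variable {P : Par} {F : St → ℕ} {X : ℕ → ℕ → St → ℕ} {κ : ℕ} {x : St}

theorem root_of_winX {G : ℕ} (w : WinX P F X κ x P.K G) :
    Root P F X κ x G (cal P F X κ x) (fun k => mwt P F X κ x k 0)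
      (fun k => mwt P F X κ x k 1) := w

/-- **the body means of an admissible pair** -/
theorem opt_of_body {leaf : St → Option ℕ} {A : ℕ → ℝ} {c : ℝ} {G C c' : ℕ} {Gf : St → ℕ}
    (hA : ∀ k < P.K, A k ≤ (bodyNum P leaf F X k (fun _ => X k) κ x : ℝ) + c)
    (hadm : adm P F κ x = true)
    (hg : 1 ≤ P.g) (hG2 : 2 ≤ G) (hG : (P.n + 1) * P.g ≤ G)
    (hum : G * (C * P.Creg + 1) ≤ P.um) (hpm : 0 < P.pm) (hr : 1 ≤ P.r) (hx : inD P x)
    (hD : leaf x = none → regular P F κ x → ∀ q < P.N, ∀ a < nlet P F κ x,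
      ∀ b < nlet P F κ x, gst P (cls F (npiece P F κ x q a b)) ∣ P.Dm)
    (hX : leaf x = none → regular P F κ x → ∀ k < P.K, ∀ q < P.N, ∀ a < nlet P F κ x,
      ∀ b < nlet P F κ x,
      numSt P F κ (X k) (npiece P F κ x q a b) ≤ C * F (npiece P F κ x q a b) + c')
    (hF : leaf x = none → P.N * c' ≤ F x)
    (hl : ∀ v, leaf x = some v → v ≤ Gf x + 1)
    (hGs : leaf x ≠ none → ∀ m : ℕ → ℤ, IsSt P κ x m → Gf x ≤ ∑ q ∈ range P.N, Gf (pc P x m q))
    (hGh : leaf x ≠ none → ∀ m : ℕ → ℤ, IsSt P κ x m → ∀ k < P.K, ∀ q < P.N,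
      Gf (pc P x m q) ≤ hull P F (X k) (pc P x m q)) :
    Opt P F X κ x A (c + 2) := by
  rcases hlx : leaf x with _ | v
  · by_cases hw : R1 P F x ∨ ¬ regular P F κ x
    · refine Or.inr (Or.inl fun k hk => ?_)
      have h1 := hA k hk
      rw [bodyNum_wild hadm hlx hw] at h1
      linarith
    · push Not at hw
      have w : WinX P F X κ x P.K G :=
        natWin_reg hg hG2 hG hum hpm hw.2 hr hx (hD hlx hw.2) (hX hlx hw.2) (hF hlx)
      refine Or.inr (Or.inr ⟨G, _, _, _, root_of_winX w, fun k hk => ?_⟩)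
      have h1 := hA k hk
      have hum' : 0 < P.um := lt_of_lt_of_le (Nat.mul_pos (by omega) (Nat.succ_pos _)) hum
      have h2 := bodyNum_le (P := P) (F := F) (X := X) (κ := κ) (x := x) (leaf := leaf) (k := k)
        (S := fun _ => X k) hadm hlx hw.1 hw.2 hg hum' hpm
      rw [calm_const le_rfl] at h2
      linarith
  · have hne : leaf x ≠ none := by rw [hlx]; simp
    refine opt_leaf P (G := Gf) (hl v hlx) (fun k hk => ?_) (hGs hne) (hGh hne)
    have h1 := hA k hk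
    rw [bodyNum_leaf hadm hlx] at h1
    linarith

/-- the same with 283's facts about the numbers (`OscR`, `ν ≤ 1`) -/
theorem opt_of_osc {leaf : St → Option ℕ} {A : ℕ → ℝ} {c : ℝ} {G : ℕ} {Gf : St → ℕ}
    {Dom : St → Prop} {Rn : ℕ → St → ℝ} {b ν ζ c1 c2 c3 : ℝ}
    (hA : ∀ k < P.K, A k ≤ (bodyNum P leaf F X k (fun _ => X k) κ x : ℝ) + c)
    (hadm : adm P F κ x = true)
    (hg : 1 ≤ P.g) (hG2 : 2 ≤ G) (hG : (P.n + 1) * P.g ≤ G)
    (hum : G * (3 * P.Creg + 1) ≤ P.um) (hpm : 0 < P.pm) (hr : 1 ≤ P.r) (hx : inD P x)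
    (hD : leaf x = none → regular P F κ x → ∀ q < P.N, ∀ a < nlet P F κ x,
      ∀ b < nlet P F κ x, gst P (cls F (npiece P F κ x q a b)) ∣ P.Dm)
    (hosc : ∀ k < P.K, OscI283.OscR P F Dom (X k) (Rn k) b ν ζ c1 c2 c3) (hν : ν ≤ 1)
    (hdom : ∀ q < P.N, ∀ a < nlet P F κ x, ∀ b < nlet P F κ x, Dom (npiece P F κ x q a b))
    (hF : leaf x = none → P.N * ⌈c1 + c2⌉₊ ≤ F x)
    (hl : ∀ v, leaf x = some v → v ≤ Gf x + 1)
    (hGs : leaf x ≠ none → ∀ m : ℕ → ℤ, IsSt P κ x m → Gf x ≤ ∑ q ∈ range P.N, Gf (pc P x m q))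
    (hGh : leaf x ≠ none → ∀ m : ℕ → ℤ, IsSt P κ x m → ∀ k < P.K, ∀ q < P.N,
      Gf (pc P x m q) ≤ hull P F (X k) (pc P x m q)) :
    Opt P F X κ x A (c + 2) := by
  refine opt_of_body hA hadm hg hG2 hG hum hpm hr hx hD (fun _ _ k hk q hq a ha b hb => ?_) hF hl
    hGs hGh
  have h1 := OscI283.numSt_le (hosc k hk) κ (hdom q hq a ha b hb)
  have hF0 : (0 : ℝ) ≤ F (npiece P F κ x q a b) := Nat.cast_nonneg _
  have h2 : (numSt P F κ (X k) (npiece P F κ x q a b) : ℝ)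
      ≤ 3 * F (npiece P F κ x q a b) + ⌈c1 + c2⌉₊ := by
    have h3 := Nat.le_ceil (c1 + c2)
    have h4 := mul_le_mul_of_nonneg_right hν hF0
    linarith
  exact_mod_cast h2

end Crest.Agent.R288.RegF711
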