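import Crest.Agent.R288.Thin_769
import Crest.Agent.R288.SpawnA_944
import Mathlib.Data.Int.CardIntervalMod

/-!
# R288: residue thinning and one window of a lane (posts 4507, 4633, 4636)

Policy data are deterministic functions; random are only the residues and the sub-calls.
Tables have an arbitrary type `τ`; `rd : τ → Z → ℕ` reads the entry of a state.

* `card_residue_le`: at most `K / 2 ^ l + 1` cells of `K` are called (sure count).
* `cellsL l N K t`: one residue word, the active cells `c < K` are called `N` times.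
* `spawn m l N K t`: all pairs `p < m` (end, class), independent.
* `lin`: deterministic linear functional of the spawned tables (one state `y`); `Ev_lin` (exact
  mean), `sq_lin` (second moment), `sq_lin_scaled` (closed form with scales).
* `body`: the table of a window; the entry of `y` lies in `[lin / S, lin / S + r]` (rounding up).
  `Ev_body_ge`, `Ev_body_le`, `sq_body`, `sq_body'`.
* `Dw M t d`: for draws below `M` the tree makes at most `d` draws; `Dw.cellsL`, `Dw.spawn`,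
  `Dw.body` (sure number of draws), `Dw.nxt_le` (where the next call starts).
-/

set_option autoImplicit false

namespace Crest.Agent.R288.Res715

open Finset Crest.Agent.R295.Rnd627 Crest.Agent.R295.Rnd627.RT Crest.Agent.R288.SmpB984
open Crest.Agent.R288.Thin769

/-! ### counting -/

/-- sure count: among `K` cells at most `K / 2 ^ l + 1` are active -/
theorem card_residue_le (l K v : ℕ) :
    ((range K).filter fun c => v % 2 ^ l = c % 2 ^ l).card ≤ K / 2 ^ l + 1 := by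
  have h := Nat.count_modEq_card (b := K) (r := 2 ^ l) (Nat.two_pow_pos l) v
  rw [Nat.count_eq_card_filter_range] at h
  have e : ((range K).filter fun c => v % 2 ^ l = c % 2 ^ l) =
      (range K).filter fun c => c ≡ v [MOD 2 ^ l] := by
    refine filter_congr fun c _ => ?_
    unfold Nat.ModEq
    exact eq_comm
  rw [e, h]
  split_ifs <;> omega

/-! ### spawned cells -/

section cells

variable {τ Z : Type}

/-- one residue word; the active cells are called `N` times -/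
def cellsL (l N K : ℕ) (t : ℕ → RT τ) : RT (ℕ → List τ) :=
  draw.bind fun v => tup (fun c => if v % 2 ^ l = c % 2 ^ l then reps N (t c) else ret []) K

/-- sum of the entries of a list of tables -/
def lsum (rd : τ → Z → ℕ) (L : List τ) (z : Z) : ℕ := (L.map fun T => rd T z).sum

@[simp] theorem lsum_nil (rd : τ → Z → ℕ) (z : Z) : lsum rd [] z = 0 := rfl

theorem lsum_cast (rd : τ → Z → ℕ) (L : List τ) (z : Z) :
    (lsum rd L z : ℝ) = (L.map fun T => (rd T z : ℝ)).sum := by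
  unfold lsum
  rw [Nat.cast_list_sum, List.map_map]
  rfl

/-- the law of one cell -/
theorem Ev_cellsL {W : ℕ} (hW : 0 < W) {l : ℕ} (hd : 2 ^ l ∣ W) (N : ℕ) {K c : ℕ} (hc : c < K)
    (t : ℕ → RT τ) (F : List τ → ℝ) :
    (cellsL l N K t).Ev W (fun D => F (D c)) =
      F [] + (1 / 2 ^ l) * ((reps N (t c)).Ev W F - F []) := by
  unfold cellsL
  rw [Ev_bind]
  have e : (fun v => (tup (fun c => if v % 2 ^ l = c % 2 ^ l then reps N (t c)
      else ret []) K).Ev W fun D => F (D c)) =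
      fun v => if v % 2 ^ l = c % 2 ^ l then (reps N (t c)).Ev W F else F [] := by
    funext v
    rw [tup_Ev1 hW _ hc]
    split_ifs
    · rfl
    · rfl
  rw [e, Thin769.Ev_coin hW hd (Nat.mod_lt c (Nat.two_pow_pos l))]

theorem Ev_lsum {W : ℕ} (hW : 0 < W) (N : ℕ) (t : RT τ) (rd : τ → Z → ℕ) (z : Z) :
    (reps N t).Ev W (fun L => (lsum rd L z : ℝ)) = N * t.Ev W fun T => (rd T z : ℝ) := by
  simp only [lsum_cast]
  exact Ev_reps_sum hW t (fun T => (rd T z : ℝ)) N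

theorem Ev_lsum_sq {W : ℕ} (hW : 0 < W) (N : ℕ) (t : RT τ) (rd : τ → Z → ℕ) (z : Z) :
    (reps N t).Ev W (fun L => (lsum rd L z : ℝ) ^ 2) =
      N * vr W t (fun T => (rd T z : ℝ)) + N ^ 2 * (t.Ev W fun T => (rd T z : ℝ)) ^ 2 := by
  set μ := t.Ev W fun T => (rd T z : ℝ) with hμ
  have h2 := Med559.Ev_reps_sqdev hW t (fun T => (rd T z : ℝ)) N
  rw [vr_eq hW, ← hμ] at h2
  have e : (fun L => (lsum rd L z : ℝ) ^ 2) = fun L : List τ =>
      (((L.map fun T => (rd T z : ℝ)).sum - N * μ) ^ 2) +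
        ((2 * N * μ) * (lsum rd L z : ℝ) + -((N * μ) ^ 2)) := by
    funext L
    rw [lsum_cast]
    ring
  rw [e, Ev_add, h2, Ev_add, Ev_mul_left, Ev_lsum hW, Ev_const hW, ← hμ]
  ring

/-- exact mean of the value of one cell -/
theorem Ev_cell {W : ℕ} (hW : 0 < W) {l : ℕ} (hd : 2 ^ l ∣ W) (N : ℕ) {K c : ℕ} (hc : c < K)
    (t : ℕ → RT τ) (rd : τ → Z → ℕ) (z : Z) :
    (cellsL l N K t).Ev W (fun D => (2 : ℝ) ^ l * lsum rd (D c) z) =
      N * (t c).Ev W fun T => (rd T z : ℝ) := by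
  rw [Ev_cellsL hW hd N hc t fun L => (2 : ℝ) ^ l * lsum rd L z, Ev_mul_left, Ev_lsum hW]
  have : (2 : ℝ) ^ l ≠ 0 := by positivity
  simp only [lsum_nil, Nat.cast_zero, mul_zero]
  field_simp
  ring

/-- variance of the value of one cell -/
theorem vr_cell {W : ℕ} (hW : 0 < W) {l : ℕ} (hd : 2 ^ l ∣ W) {N : ℕ} (hlN : l = 0 ∨ N = 1)
    {K c : ℕ} (hc : c < K) (t : ℕ → RT τ) (rd : τ → Z → ℕ) (z : Z) :
    vr W (cellsL l N K t) (fun D => (2 : ℝ) ^ l * lsum rd (D c) z) ≤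
      2 ^ l * N * (t c).Ev W fun T => (rd T z : ℝ) ^ 2 := by
  unfold vr
  rw [Ev_cell hW hd N hc, Ev_cellsL hW hd N hc t fun L => ((2 : ℝ) ^ l * lsum rd L z) ^ 2]
  have e : (fun L : List τ => ((2 : ℝ) ^ l * (lsum rd L z : ℝ)) ^ 2) =
      fun L => ((2 : ℝ) ^ l) ^ 2 * (lsum rd L z : ℝ) ^ 2 := by
    funext L; ring
  rw [e, Ev_mul_left, Ev_lsum_sq hW]
  have h1 := vr_le W (t c) fun T => (rd T z : ℝ)
  have h2 : vr W (t c) (fun T => (rd T z : ℝ)) + ((t c).Ev W fun T => (rd T z : ℝ)) ^ 2 =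
      (t c).Ev W fun T => (rd T z : ℝ) ^ 2 := by unfold vr; ring
  set V := vr W (t c) fun T => (rd T z : ℝ) with hV
  set μ := (t c).Ev W fun T => (rd T z : ℝ) with hμ
  set Q := (t c).Ev W fun T => (rd T z : ℝ) ^ 2 with hQ
  have h3 : (0 : ℝ) ≤ μ ^ 2 := sq_nonneg _
  have hN : (0 : ℝ) ≤ N := Nat.cast_nonneg _
  have hl : (0 : ℝ) < 2 ^ l := by positivity
  have e2 : ((2 : ℝ) ^ l * ((lsum rd [] z : ℕ) : ℝ)) ^ 2 = 0 := by simp
  rw [e2]
  have e3 : (0 : ℝ) + 1 / 2 ^ l * ((2 ^ l) ^ 2 * (N * V + N ^ 2 * μ ^ 2) - 0) =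
      2 ^ l * (N * V + N ^ 2 * μ ^ 2) := by
    field_simp
    ring
  rw [e3]
  rcases hlN with h | h
  · subst h
    have := mul_le_mul_of_nonneg_left h1 hN
    simp only [pow_zero, one_mul]
    nlinarith
  · subst h
    simp only [Nat.cast_one, one_mul, one_pow, mul_one]
    rw [h2]
    linarith

end cells

/-! ### variance of a convex combination -/

/-- the variance of a sub-convex combination is at most the combination of the variances -/
theorem vr_comb {α ι : Type} {W : ℕ} (hW : 0 < W) (t : RT α) (s : Finset ι) {w : ι → ℝ}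
    (hw : ∀ i ∈ s, 0 ≤ w i) (hs : ∑ i ∈ s, w i ≤ 1) (f : ι → α → ℝ) :
    vr W t (fun a => ∑ i ∈ s, w i * f i a) ≤ ∑ i ∈ s, w i * vr W t (f i) := by
  rw [← vr_eq hW]
  have e1 : (t.Ev W fun a => ∑ i ∈ s, w i * f i a) = ∑ i ∈ s, w i * t.Ev W (f i) := by
    rw [Ev_sum]
    exact sum_congr rfl fun i _ => Ev_mul_left _ _ _ _
  rw [e1]
  have e2 : ∑ i ∈ s, w i * vr W t (f i) =
      t.Ev W fun a => ∑ i ∈ s, w i * (f i a - t.Ev W (f i)) ^ 2 := by
    rw [Ev_sum]
    refine sum_congr rfl fun i _ => ?_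
    rw [Ev_mul_left, ← vr_eq hW]
  rw [e2]
  refine Ev_mono fun a => ?_
  have e3 : ∑ i ∈ s, w i * f i a - ∑ i ∈ s, w i * t.Ev W (f i) =
      ∑ i ∈ s, w i * (f i a - t.Ev W (f i)) := by
    rw [← sum_sub_distrib]
    exact sum_congr rfl fun i _ => by ring
  rw [e3]
  have h := Finset.sum_sq_le_sum_mul_sum_of_sq_le_mul s (f := w)
    (g := fun i => w i * (f i a - t.Ev W (f i)) ^ 2) (r := fun i => w i * (f i a - t.Ev W (f i)))
    hw (fun i hi => mul_nonneg (hw i hi) (sq_nonneg _)) (fun i _ => le_of_eq (by ring))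
  refine h.trans ?_
  have h0 : 0 ≤ ∑ i ∈ s, w i * (f i a - t.Ev W (f i)) ^ 2 :=
    sum_nonneg fun i hi => mul_nonneg (hw i hi) (sq_nonneg _)
  nlinarith

/-! ### one window -/

section window

variable {τ Z ι : Type}

/-- all pairs `p < m` -/
def spawn (m : ℕ) (l N K : ℕ → ℕ) (t : ℕ → ℕ → RT τ) : RT (ℕ → ℕ → List τ) :=
  tup (fun p => cellsL (l p) (N p) (K p) (t p)) m

/-- a linear functional of the spawned tables: constant `al`, terms `i ∈ sp` = (pair, cell, state)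
with natural coefficients -/
def lin (rd : τ → Z → ℕ) (l : ℕ → ℕ) (al : ℕ) (sp : Finset ι) (pp cc : ι → ℕ) (zz : ι → Z)
    (cf : ι → ℕ) (D : ℕ → ℕ → List τ) : ℕ :=
  al + ∑ i ∈ sp, cf i * (2 ^ l (pp i) * lsum rd (D (pp i) (cc i)) (zz i))

variable {m : ℕ} {l N K : ℕ → ℕ} {t : ℕ → ℕ → RT τ} {rd : τ → Z → ℕ} {al : ℕ} {sp : Finset ι}
  {pp cc : ι → ℕ} {zz : ι → Z} {cf : ι → ℕ}

/-- mean of the arrival table at the term `i` -/
noncomputable def mn (W : ℕ) (t : ℕ → ℕ → RT τ) (rd : τ → Z → ℕ) (pp cc : ι → ℕ) (zz : ι → Z)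
    (i : ι) : ℝ := (t (pp i) (cc i)).Ev W fun T => (rd T (zz i) : ℝ)

/-- second moment of the arrival table at the term `i` -/
noncomputable def m2 (W : ℕ) (t : ℕ → ℕ → RT τ) (rd : τ → Z → ℕ) (pp cc : ι → ℕ) (zz : ι → Z)
    (i : ι) : ℝ := (t (pp i) (cc i)).Ev W fun T => (rd T (zz i) : ℝ) ^ 2

theorem lin_cast (D : ℕ → ℕ → List τ) :
    (lin rd l al sp pp cc zz cf D : ℝ) =
      al + ∑ p ∈ range m, ∑ i ∈ sp with pp i = p,
        (cf i : ℝ) * ((2 : ℝ) ^ l p * lsum rd (D p (cc i)) (zz i)) +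
      ∑ i ∈ sp with ¬ pp i < m, (cf i : ℝ) * ((2 : ℝ) ^ l (pp i) * lsum rd (D (pp i) (cc i)) (zz i)) := by
  classical
  unfold lin
  push_cast
  rw [add_assoc]
  congr 1
  rw [← sum_filter_add_sum_filter_not sp (fun i => pp i < m)]
  congr 1
  have hmaps : ∀ i ∈ sp.filter (fun i => pp i < m), pp i ∈ range m := fun i hi =>
    mem_range.2 (mem_filter.1 hi).2
  rw [← sum_fiberwise_of_maps_to hmaps]
  refine sum_congr rfl fun p hp => ?_
  have : (sp.filter fun i => pp i < m).filter (fun i => pp i = p) = sp.filter fun i => pp i = p := by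
    ext i
    simp only [mem_filter]
    constructor
    · rintro ⟨⟨h1, -⟩, h2⟩; exact ⟨h1, h2⟩
    · rintro ⟨h1, h2⟩; exact ⟨⟨h1, h2 ▸ mem_range.1 hp⟩, h2⟩
  rw [this]
  refine sum_congr rfl fun i hi => ?_
  rw [(mem_filter.1 hi).2]

/-- the terms are legal -/
def Legal (m : ℕ) (K : ℕ → ℕ) (sp : Finset ι) (pp cc : ι → ℕ) : Prop :=
  ∀ i ∈ sp, pp i < m ∧ cc i < K (pp i)

theorem lin_cast' (hL : Legal m K sp pp cc) (D : ℕ → ℕ → List τ) :
    (lin rd l al sp pp cc zz cf D : ℝ) =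
      al + ∑ p ∈ range m, ∑ i ∈ sp with pp i = p,
        (cf i : ℝ) * ((2 : ℝ) ^ l p * lsum rd (D p (cc i)) (zz i)) := by
  classical
  rw [lin_cast (m := m)]
  have : (sp.filter fun i => ¬ pp i < m) = ∅ := by
    rw [filter_eq_empty_iff]
    exact fun i hi => not_not.2 (hL i hi).1
  rw [this, sum_empty, add_zero]

/-- **exact mean of one window** -/
theorem Ev_lin {W : ℕ} (hW : 0 < W) (hd : ∀ p < m, 2 ^ l p ∣ W) (hL : Legal m K sp pp cc) :
    (spawn m l N K t).Ev W (fun D => (lin rd l al sp pp cc zz cf D : ℝ)) =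
      al + ∑ i ∈ sp, (cf i : ℝ) * (N (pp i) * mn W t rd pp cc zz i) := by
  classical
  simp only [lin_cast' hL]
  unfold spawn
  have h := tup_sum hW (fun p => cellsL (l p) (N p) (K p) (t p)) (k := m) (range m) (fun p => p)
    (fun p hp => mem_range.1 hp)
    (fun p d => ∑ i ∈ sp with pp i = p, (cf i : ℝ) * ((2 : ℝ) ^ l p * lsum rd (d (cc i)) (zz i))) al
  refine h.trans ?_
  congr 1
  rw [← sum_fiberwise_of_maps_to (s := sp) (t := range m) (g := pp)
    (fun i hi => mem_range.2 (hL i hi).1)]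
  refine sum_congr rfl fun p hp => ?_
  rw [Ev_sum]
  refine sum_congr rfl fun i hi => ?_
  obtain ⟨hi', rfl⟩ := mem_filter.1 hi
  rw [Ev_mul_left, Ev_cell hW (hd _ (hL i hi').1) _ (hL i hi').2]
  rfl

/-- **second moment of one window**: the coefficients of every pair have sum at most `S` -/
theorem sq_lin {W : ℕ} (hW : 0 < W) (hd : ∀ p < m, 2 ^ l p ∣ W) (hL : Legal m K sp pp cc)
    (hN : ∀ p < m, 0 < N p) (hlN : ∀ p < m, l p = 0 ∨ N p = 1) {S : ℝ} (hS : 0 < S)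
    (hcf : ∀ p < m, ∑ i ∈ sp with pp i = p, (cf i : ℝ) * N p ≤ S) :
    (spawn m l N K t).Ev W (fun D => ((lin rd l al sp pp cc zz cf D : ℝ) / S) ^ 2) ≤
      ((al + ∑ i ∈ sp, (cf i : ℝ) * (N (pp i) * mn W t rd pp cc zz i)) / S) ^ 2 +
      ∑ i ∈ sp, (cf i : ℝ) * 2 ^ l (pp i) / S * m2 W t rd pp cc zz i := by
  classical
  set G : ℕ → (ℕ → List τ) → ℝ := fun p d =>
    ∑ i ∈ sp with pp i = p, ((cf i : ℝ) * N p / S) * ((2 : ℝ) ^ l p * lsum rd (d (cc i)) (zz i) / N p)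
    with hG
  have e1 : ∀ D : ℕ → ℕ → List τ, (lin rd l al sp pp cc zz cf D : ℝ) / S =
      al / S + ∑ p ∈ range m, G p (D p) := by
    intro D
    rw [lin_cast' hL, add_div, sum_div]
    congr 1
    refine sum_congr rfl fun p hp => ?_
    rw [hG, sum_div]
    refine sum_congr rfl fun i hi => ?_
    have : (N p : ℝ) ≠ 0 := (Nat.cast_pos.2 (hN p (mem_range.1 hp))).ne'
    field_simp
  simp only [e1]
  have h := tup_sq hW (fun p => cellsL (l p) (N p) (K p) (t p)) (k := m) (range m) (fun p => p)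
    (fun p hp => mem_range.1 hp) (fun p _ q _ h => h) G (al / S)
  unfold spawn
  refine h.le.trans ?_
  refine add_le_add (le_of_eq ?_) ?_
  · congr 1
    rw [add_div, sum_div]
    congr 1
    rw [← sum_fiberwise_of_maps_to (s := sp) (t := range m) (g := pp)
      (fun i hi => mem_range.2 (hL i hi).1)]
    refine sum_congr rfl fun p hp => ?_
    rw [hG, Ev_sum]
    refine sum_congr rfl fun i hi => ?_
    obtain ⟨hi', rfl⟩ := mem_filter.1 hi
    rw [Ev_mul_left, Ev_div, Ev_cell hW (hd _ (hL i hi').1) _ (hL i hi').2]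
    have : (N (pp i) : ℝ) ≠ 0 := (Nat.cast_pos.2 (hN _ (hL i hi').1)).ne'
    unfold mn
    field_simp
  · rw [← sum_fiberwise_of_maps_to (s := sp) (t := range m) (g := pp)
      (fun i hi => mem_range.2 (hL i hi).1)]
    refine sum_le_sum fun p hp => ?_
    have hp' := mem_range.1 hp
    have hNp : (0 : ℝ) < N p := Nat.cast_pos.2 (hN p hp')
    have hc := vr_comb hW (cellsL (l p) (N p) (K p) (t p)) (sp.filter fun i => pp i = p)
      (w := fun i => (cf i : ℝ) * N p / S) (fun i _ => by positivity)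
      (by rw [← sum_div, div_le_one hS]; exact hcf p hp')
      (fun i d => (2 : ℝ) ^ l p * lsum rd (d (cc i)) (zz i) / N p)
    refine hc.trans (sum_le_sum fun i hi => ?_)
    obtain ⟨hi, hip⟩ := mem_filter.1 hi
    have h2 := vr_cell hW (hd _ hp') (hlN p hp') (K := K p) (hip ▸ (hL i hi).2) (t p) rd (zz i)
    rw [vr_div, hip]
    have h3 : (cf i : ℝ) * N p / S * (vr W (cellsL (l p) (N p) (K p) (t p))
        (fun d => (2 : ℝ) ^ l p * lsum rd (d (cc i)) (zz i)) / N p ^ 2) ≤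
        (cf i : ℝ) * N p / S * ((2 ^ l p * N p * (t p (cc i)).Ev W fun T => (rd T (zz i) : ℝ) ^ 2) /
          N p ^ 2) := by
      gcongr
    refine h3.trans (le_of_eq ?_)
    unfold m2
    rw [hip]
    field_simp

/-- closed form with scales: term `i` has scale `σ i`, second moment at most `v * σ i ^ 2`, the
thinning satisfies `2 ^ l * (κ * σ i) ≤ N * T` (`T` = scale of the cell), the weighted scales have
sum at most `Γ * T` and the mean is at most `C * T` -/
theorem sq_lin_scaled {W : ℕ} (hW : 0 < W) (hd : ∀ p < m, 2 ^ l p ∣ W) (hL : Legal m K sp pp cc)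
    (hN : ∀ p < m, 0 < N p) (hlN : ∀ p < m, l p = 0 ∨ N p = 1) {S : ℝ} (hS : 0 < S)
    (hcf : ∀ p < m, ∑ i ∈ sp with pp i = p, (cf i : ℝ) * N p ≤ S)
    {v κ T Γ C : ℝ} (σ : ι → ℝ) (hσ : ∀ i ∈ sp, 0 ≤ σ i) (hv : 0 ≤ v) (hκ : 0 < κ) (hT : 0 ≤ T)
    (hm2 : ∀ i ∈ sp, m2 W t rd pp cc zz i ≤ v * σ i ^ 2)
    (hsc : ∀ i ∈ sp, 2 ^ l (pp i) * (κ * σ i) ≤ N (pp i) * T)
    (hΓ : ∑ i ∈ sp, (cf i : ℝ) * N (pp i) / S * σ i ≤ Γ * T)
    (hC : (al + ∑ i ∈ sp, (cf i : ℝ) * (N (pp i) * mn W t rd pp cc zz i)) / S ≤ C * T) :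
    (spawn m l N K t).Ev W (fun D => ((lin rd l al sp pp cc zz cf D : ℝ) / S) ^ 2) ≤
      (C ^ 2 + Γ * v / κ) * T ^ 2 := by
  classical
  refine (sq_lin hW hd hL hN hlN hS hcf).trans ?_
  have h0 : 0 ≤ (al + ∑ i ∈ sp, (cf i : ℝ) * (N (pp i) * mn W t rd pp cc zz i)) / S := by
    refine div_nonneg (add_nonneg (Nat.cast_nonneg _) (sum_nonneg fun i _ => ?_)) hS.le
    refine mul_nonneg (Nat.cast_nonneg _) (mul_nonneg (Nat.cast_nonneg _) ?_)
    exact Ev_nonneg fun T => Nat.cast_nonneg _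
  have h1 : ((al + ∑ i ∈ sp, (cf i : ℝ) * (N (pp i) * mn W t rd pp cc zz i)) / S) ^ 2 ≤
      (C * T) ^ 2 := pow_le_pow_left₀ h0 hC 2
  have h2 : ∑ i ∈ sp, (cf i : ℝ) * 2 ^ l (pp i) / S * m2 W t rd pp cc zz i ≤
      v * T / κ * ∑ i ∈ sp, (cf i : ℝ) * N (pp i) / S * σ i := by
    rw [mul_sum]
    refine sum_le_sum fun i hi => ?_
    have h3 : (cf i : ℝ) * 2 ^ l (pp i) / S * m2 W t rd pp cc zz i ≤
        (cf i : ℝ) * 2 ^ l (pp i) / S * (v * σ i ^ 2) :=
      mul_le_mul_of_nonneg_left (hm2 i hi) (by positivity)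
    refine h3.trans ?_
    have h4 := mul_le_mul_of_nonneg_right (hsc i hi)
      (show 0 ≤ (cf i : ℝ) / S * (v * σ i) / κ from by
        have := hσ i hi
        positivity)
    calc (cf i : ℝ) * 2 ^ l (pp i) / S * (v * σ i ^ 2)
        = 2 ^ l (pp i) * (κ * σ i) * ((cf i : ℝ) / S * (v * σ i) / κ) := by field_simp
      _ ≤ N (pp i) * T * ((cf i : ℝ) / S * (v * σ i) / κ) := h4
      _ = v * T / κ * ((cf i : ℝ) * N (pp i) / S * σ i) := by field_simp
  have h5 : v * T / κ * ∑ i ∈ sp, (cf i : ℝ) * N (pp i) / S * σ i ≤ v * T / κ * (Γ * T) :=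
    mul_le_mul_of_nonneg_left hΓ (by positivity)
  calc _ ≤ (C * T) ^ 2 + v * T / κ * (Γ * T) := add_le_add h1 (h2.trans h5)
    _ = (C ^ 2 + Γ * v / κ) * T ^ 2 := by field_simp

/-! ### the table of a window -/

/-- the table of a window, computed from the spawned tables -/
def body (m : ℕ) (l N K : ℕ → ℕ) (t : ℕ → ℕ → RT τ) (mk : (ℕ → ℕ → List τ) → τ) : RT τ :=
  (spawn m l N K t).map mk

/-- lower bound of the mean of an entry rounded up -/
theorem Ev_body_ge {W : ℕ} (hW : 0 < W) (hd : ∀ p < m, 2 ^ l p ∣ W) (hL : Legal m K sp pp cc)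
    {S : ℝ} (mk : (ℕ → ℕ → List τ) → τ) (y : Z)
    (hmk : ∀ D, (lin rd l al sp pp cc zz cf D : ℝ) / S ≤ rd (mk D) y) :
    (al + ∑ i ∈ sp, (cf i : ℝ) * (N (pp i) * mn W t rd pp cc zz i)) / S ≤
      (body m l N K t mk).Ev W fun T => (rd T y : ℝ) := by
  unfold body
  rw [Ev_map, ← Ev_lin hW hd hL, ← Ev_div]
  exact Ev_mono hmk

/-- upper bound of the mean of a rounded entry: `rd ≤ lin / S + r` -/
theorem Ev_body_le {W : ℕ} (hW : 0 < W) (hd : ∀ p < m, 2 ^ l p ∣ W) (hL : Legal m K sp pp cc)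
    {S r : ℝ} (mk : (ℕ → ℕ → List τ) → τ) (y : Z)
    (hmk : ∀ D, (rd (mk D) y : ℝ) ≤ (lin rd l al sp pp cc zz cf D : ℝ) / S + r) :
    ((body m l N K t mk).Ev W fun T => (rd T y : ℝ)) ≤
      (al + ∑ i ∈ sp, (cf i : ℝ) * (N (pp i) * mn W t rd pp cc zz i)) / S + r := by
  unfold body
  rw [Ev_map, ← Ev_lin hW hd hL, ← Ev_div]
  refine (Ev_mono hmk).trans (le_of_eq ?_)
  rw [Ev_add, Ev_const hW]

/-- second moment of a rounded entry: `rd ≤ lin / S + r` -/
theorem sq_body {W : ℕ} (hW : 0 < W) {S r Q : ℝ}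
    (mk : (ℕ → ℕ → List τ) → τ) (y : Z)
    (hmk : ∀ D, (rd (mk D) y : ℝ) ≤ (lin rd l al sp pp cc zz cf D : ℝ) / S + r)
    (hQ : (spawn m l N K t).Ev W (fun D => ((lin rd l al sp pp cc zz cf D : ℝ) / S) ^ 2) ≤ Q) :
    ((body m l N K t mk).Ev W fun T => (rd T y : ℝ) ^ 2) ≤ 2 * Q + 2 * r ^ 2 := by
  unfold body
  rw [Ev_map]
  have h1 : ∀ D, (rd (mk D) y : ℝ) ^ 2 ≤
      2 * ((lin rd l al sp pp cc zz cf D : ℝ) / S) ^ 2 + 2 * r ^ 2 := by
    intro D
    have h2 : (rd (mk D) y : ℝ) ^ 2 ≤ ((lin rd l al sp pp cc zz cf D : ℝ) / S + r) ^ 2 :=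
      pow_le_pow_left₀ (Nat.cast_nonneg _) (hmk D) 2
    nlinarith [sq_nonneg ((lin rd l al sp pp cc zz cf D : ℝ) / S - r)]
  refine (Ev_mono h1).trans ?_
  rw [Ev_add, Ev_const hW, Ev_mul_left]
  linarith

/-- sharper second moment: `(1 + ε)` instead of `2` -/
theorem sq_body' {W : ℕ} (hW : 0 < W) {S r Q ε : ℝ} (hε : 0 < ε)
    (mk : (ℕ → ℕ → List τ) → τ) (y : Z)
    (hmk : ∀ D, (rd (mk D) y : ℝ) ≤ (lin rd l al sp pp cc zz cf D : ℝ) / S + r)
    (hQ : (spawn m l N K t).Ev W (fun D => ((lin rd l al sp pp cc zz cf D : ℝ) / S) ^ 2) ≤ Q) :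
    ((body m l N K t mk).Ev W fun T => (rd T y : ℝ) ^ 2) ≤
      (1 + ε) * Q + (1 + 1 / ε) * r ^ 2 := by
  unfold body
  rw [Ev_map]
  have h1 : ∀ D, (rd (mk D) y : ℝ) ^ 2 ≤
      (1 + ε) * ((lin rd l al sp pp cc zz cf D : ℝ) / S) ^ 2 + (1 + 1 / ε) * r ^ 2 := by
    intro D
    have h2 : (rd (mk D) y : ℝ) ^ 2 ≤ ((lin rd l al sp pp cc zz cf D : ℝ) / S + r) ^ 2 :=
      pow_le_pow_left₀ (Nat.cast_nonneg _) (hmk D) 2
    set a := (lin rd l al sp pp cc zz cf D : ℝ) / S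
    have h3 : (a + r) ^ 2 ≤ (1 + ε) * a ^ 2 + (1 + 1 / ε) * r ^ 2 := by
      have h4 : 0 ≤ (ε * a - r) ^ 2 / ε := by positivity
      have h5 : (1 + ε) * a ^ 2 + (1 + 1 / ε) * r ^ 2 - (a + r) ^ 2 = (ε * a - r) ^ 2 / ε := by
        field_simp
        ring
      linarith
    exact h2.trans h3
  refine (Ev_mono h1).trans ?_
  rw [Ev_add, Ev_const hW, Ev_mul_left]
  have : 0 ≤ 1 + ε := by linarith
  nlinarith

end window

/-! ### sure number of draws -/

section draws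

variable {α β τ Z : Type}

/-- at most `d` words are drawn, on every stream of words `< M` -/
def Dw (M : ℕ) (t : RT α) (d : ℕ) : Prop := t.cnt.All M fun y => y.2 ≤ d

theorem Dw.ret (M : ℕ) (a : α) : Dw M (RT.ret a) 0 := by
  unfold Dw RT.cnt
  simp

theorem Dw.rnd {M : ℕ} {k : ℕ → RT α} {d : ℕ} (h : ∀ v < M, Dw M (k v) d) :
    Dw M (RT.rnd k) (d + 1) := by
  unfold Dw RT.cnt
  rw [All_rnd]
  intro v hv
  unfold RT.map
  rw [All_bind]
  refine (h v hv).mono fun y hy => ?_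
  rw [All_ret]
  exact Nat.succ_le_succ hy

theorem Dw.mono {M : ℕ} {t : RT α} {d d' : ℕ} (h : Dw M t d) (hd : d ≤ d') : Dw M t d' :=
  All.mono h fun _ hy => hy.trans hd

theorem Dw.draw (M : ℕ) : Dw M RT.draw 1 := by
  unfold RT.draw
  exact Dw.rnd fun v _ => Dw.ret M v

theorem Dw.bind_all {M : ℕ} {t : RT α} {f : α → RT β} {d d' : ℕ} (h : Dw M t d)
    (hf : t.All M fun a => Dw M (f a) d') : Dw M (t.bind f) (d + d') := by
  induction t generalizing d with
  | ret a => exact (All_ret M a _ |>.1 hf).mono (Nat.le_add_left _ _)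
  | rnd k ih =>
    rw [rnd_bind]
    rcases d with _ | d
    · have h0 : ∀ v < M, False := by
        intro v hv
        unfold Dw RT.cnt at h
        rw [All_rnd] at h
        have h1 := h v hv
        unfold RT.map at h1
        rw [All_bind] at h1
        have h2 : (k v).cnt.All M fun _ => False := h1.mono fun y hy => by
          rw [All_ret] at hy; simp at hy
        exact (All.val (by omega) h2 (fun _ => 0) 0)
      have : Dw M (RT.rnd fun v => (k v).bind f) (0 + 1) := Dw.rnd fun v hv => (h0 v hv).elim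
      unfold Dw RT.cnt
      rw [All_rnd]
      exact fun v hv => (h0 v hv).elim
    · have hk : ∀ v < M, Dw M (k v) d := by
        intro v hv
        unfold Dw RT.cnt at h
        rw [All_rnd] at h
        have h1 := h v hv
        unfold RT.map at h1
        rw [All_bind] at h1
        exact h1.mono fun y hy => by rw [All_ret] at hy; exact Nat.le_of_succ_le_succ hy
      have := Dw.rnd (M := M) (k := fun v => (k v).bind f) (d := d + d') fun v hv =>
        ih v (hk v hv) ((All_rnd M k _).1 hf v hv)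
      exact this.mono (by omega)

theorem Dw.bind {M : ℕ} {t : RT α} {f : α → RT β} {d d' : ℕ} (h : Dw M t d)
    (hf : ∀ a, Dw M (f a) d') : Dw M (t.bind f) (d + d') :=
  Dw.bind_all h (All.of_forall hf)

theorem Dw.map {M : ℕ} {t : RT α} (g : α → β) {d : ℕ} (h : Dw M t d) : Dw M (t.map g) d :=
  (Dw.bind h fun a => Dw.ret M (g a)).mono (by omega)

theorem Dw.tup [Inhabited β] {M : ℕ} {ts : ℕ → RT β} {d : ℕ → ℕ} {k : ℕ}
    (h : ∀ i < k, Dw M (ts i) (d i)) : Dw M (tup ts k) (∑ i ∈ range k, d i) := by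
  induction k with
  | zero => exact (Dw.ret M _).mono (Nat.zero_le _)
  | succ k ih =>
    rw [SmpB984.tup, sum_range_succ]
    exact Dw.bind (ih fun i hi => h i (by omega)) fun f => Dw.map _ (h k (by omega))

theorem Dw.reps {M : ℕ} {t : RT α} {d : ℕ} (h : Dw M t d) (k : ℕ) : Dw M (reps k t) (k * d) := by
  induction k with
  | zero => exact (Dw.ret M _).mono (Nat.zero_le _)
  | succ k ih =>
    rw [reps_succ]
    refine (Dw.bind h fun x => Dw.map _ ih).mono (le_of_eq ?_)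
    ring

/-- the number of draws of one pair: one word, and `N` times the draws of the active cells -/
theorem Dw.cellsL {M : ℕ} {l N K : ℕ} {t : ℕ → RT τ} {d : ℕ} (h : ∀ c < K, Dw M (t c) d) :
    Dw M (cellsL l N K t) (1 + (K / 2 ^ l + 1) * (N * d)) := by
  unfold Res715.cellsL
  refine Dw.bind (Dw.draw M) fun v => ?_
  have h1 : Dw M (SmpB984.tup (fun c => if v % 2 ^ l = c % 2 ^ l then RT.reps N (t c)
      else RT.ret []) K) (∑ c ∈ range K, if v % 2 ^ l = c % 2 ^ l then N * d else 0) := by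
    refine Dw.tup fun c hc => ?_
    split_ifs
    · exact Dw.reps (h c hc) N
    · exact Dw.ret M _
  refine h1.mono ?_
  rw [← sum_filter, sum_const, smul_eq_mul]
  exact Nat.mul_le_mul_right _ (card_residue_le l K v)

theorem Dw.spawn {M m : ℕ} {l N K : ℕ → ℕ} {t : ℕ → ℕ → RT τ} {d : ℕ}
    (h : ∀ p < m, ∀ c < K p, Dw M (t p c) d) :
    Dw M (spawn m l N K t) (∑ p ∈ range m, (1 + (K p / 2 ^ l p + 1) * (N p * d))) := by
  unfold Res715.spawn
  exact Dw.tup fun p hp => Dw.cellsL (h p hp)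

theorem Dw.body {M m : ℕ} {l N K : ℕ → ℕ} {t : ℕ → ℕ → RT τ} {d : ℕ}
    (mk : (ℕ → ℕ → List τ) → τ) (h : ∀ p < m, ∀ c < K p, Dw M (t p c) d) :
    Dw M (body m l N K t mk) (∑ p ∈ range m, (1 + (K p / 2 ^ l p + 1) * (N p * d))) :=
  Dw.map _ (Dw.spawn h)

theorem Dw.nxt_le {M : ℕ} (hM : 0 < M) {t : RT α} {d : ℕ} (h : Dw M t d) (ρ : ℕ → ℕ) (i : ℕ) :
    t.nxt M ρ i ≤ i + d := by
  have h1 := All.val hM h ρ i
  unfold RT.val at h1
  rw [run_cnt] at h1
  have h2 : t.nxt M ρ i - i ≤ d := h1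
  omega

end draws

end Crest.Agent.R288.Res715
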