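import Crest.Agent.R288.Ptw_641

/-!
# R288: the epoch inequality with LABEL ROUNDING, two-layer tree (helper653)

The windows of the program are analysed at PAIRS `x = (κ, z)`, `z` on the grid of class `κ`; the pieces of a
window are arbitrary states `y` (cuts on the grid of the parent), and the cost of a state is
`R y = dist y ŷ + R' (κ, ŷ)`, `(κ, ŷ) = rnd y`. So there are two layers: `S` = states, `Q` = pairs, `rnd : S → Q`,
windows only at pairs, pieces are UNROUNDED states (displacements add up exactly).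

* `pot_le_pot` : `pot e F ≤ pot e' F' + 2 |e - e'| + 2 (F - F')⁺` (no upper bound on `F' - F` needed)
* `win_step`   : the window inequality (near / all form of `PotA245.closure'`, hypotheses only on the list)
* `two_layer`  : pairs and states together
* `two_layer_R`, `two_layer_pair` : the bound for `R`.

`V` is any lower-bound function (the exact cost `G`); `κ₁` collects the losses of the windows, `κr` those of the
roundings.
-/

set_option autoImplicit false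

namespace Crest.Agent.R288.RndT653

open Crest.Agent.R288.Ptw641

/-- the potential changes by at most `2 |e - e'| + 2 (F - F')⁺` -/
theorem pot_le_pot {e F e' F' : ℝ} (h : |e| ≤ F) (h' : |e'| ≤ F') :
    pot e F ≤ pot e' F' + 2 * |e - e'| + 2 * max (F - F') 0 := by
  have hF : 0 ≤ F := (abs_nonneg e).trans h
  have hF' : 0 ≤ F' := (abs_nonneg e').trans h'
  have ht : 0 ≤ |e - e'| := abs_nonneg _
  -- e² - e'² ≤ t (|e| + |e'|)
  have hsq : e ^ 2 - e' ^ 2 ≤ |e - e'| * (|e| + |e'|) := by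
    have h1 : e ^ 2 - e' ^ 2 = (e - e') * (e + e') := by ring
    rw [h1]
    calc (e - e') * (e + e') ≤ |(e - e') * (e + e')| := le_abs_self _
      _ = |e - e'| * |e + e'| := abs_mul _ _
      _ ≤ |e - e'| * (|e| + |e'|) := mul_le_mul_of_nonneg_left (abs_add_le _ _) ht
  unfold pot
  rcases le_or_gt F F' with hc | hc
  · rw [max_eq_right (by linarith : F - F' ≤ 0)]
    rcases hF.eq_or_lt with h0 | h0
    · have he : e = 0 := by
        rw [← h0] at h
        exact abs_nonpos_iff.1 h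
      rw [he, ← h0]
      have : 0 ≤ e' ^ 2 / F' := div_nonneg (sq_nonneg _) hF'
      simp only [ne_eq, OfNat.ofNat_ne_zero, not_false_eq_true, zero_pow, div_zero, mul_zero, add_zero]
      have h3 : 0 ≤ |0 - e'| := abs_nonneg _
      linarith
    · have hp : 0 < F' := lt_of_lt_of_le h0 hc
      -- e²/F ≤ e²/F' + (F' - F)
      have h1 : e ^ 2 / F ≤ e ^ 2 / F' + (F' - F) := by
        have hd : e ^ 2 / F - e ^ 2 / F' = e ^ 2 * (F' - F) / (F * F') := by field_simp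
        have h2 : e ^ 2 * (F' - F) / (F * F') ≤ F' - F := by
          rw [div_le_iff₀ (mul_pos h0 hp)]
          have h3 : e ^ 2 ≤ F * F' := by
            rw [← sq_abs]
            nlinarith [abs_nonneg e]
          nlinarith [sub_nonneg.2 hc]
        linarith
      have h2 : e ^ 2 / F' - e' ^ 2 / F' ≤ 2 * |e - e'| := by
        rw [← sub_div, div_le_iff₀ hp]
        refine hsq.trans ?_
        have : |e| + |e'| ≤ 2 * F' := by linarith
        nlinarith
      linarith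
  · rw [max_eq_left (by linarith : 0 ≤ F - F')]
    have h0 : 0 < F := lt_of_le_of_lt hF' hc
    have h1 : e' ^ 2 / F ≤ e' ^ 2 / F' := by
      rcases hF'.eq_or_lt with h2 | h2
      · have he : e' = 0 := by
          rw [← h2] at h'
          exact abs_nonpos_iff.1 h'
        simp [he]
      · exact div_le_div_of_nonneg_left (sq_nonneg _) h2 hc.le
    have h2 : e ^ 2 / F - e' ^ 2 / F ≤ 2 * |e - e'| := by
      rw [← sub_div, div_le_iff₀ h0]
      refine hsq.trans ?_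
      have : |e| + |e'| ≤ 2 * F := by linarith
      nlinarith
    linarith

section step

variable {α : Type*}

/-- the window inequality at one state (`PotA245.closure'` with hypotheses on the list only) -/
theorem win_step {F a R : α → ℝ} {A Fx Rx d k1 κ s lam : ℝ} (l : List α)
    (hFa : ∀ y ∈ l, |a y| ≤ F y) (hA : |A| ≤ Fx) (hx : 0 < Fx) (hd0 : 0 ≤ d) (hk1 : 0 ≤ k1)
    (hκ : 0 ≤ κ) (hs : 0 < s) (hs1 : s ≤ 1) (hlam : k1 * (1 + s ^ 2) ≤ lam * s ^ 2)
    (hsum : (l.map a).sum = A) (hd : Fx ≤ (l.map F).sum + d)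
    (hnear : En l a F (A / Fx) ≤ s ^ 2 * Fx → (l.map F).sum - Fx ≤ s * Fx → d ≤ s * Fx →
      Rx ≤ (l.map R).sum + κ * Fx)
    (hall : Rx ≤ (l.map R).sum + k1 * (Fx + max ((l.map F).sum - Fx) 0)) :
    Rx + lam * pot A Fx
      ≤ (l.map fun y => R y + lam * pot (a y) (F y)).sum + (κ * Fx + (2 * lam + k1 / s) * d) := by
  have hs2 : (0 : ℝ) < s ^ 2 := by positivity
  have hlk : k1 ≤ lam := by
    by_contra h
    push Not at h
    nlinarith [mul_lt_mul_of_pos_right h hs2]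
  have hlam0 : 0 ≤ lam := hk1.trans hlk
  have hs2' : s ^ 2 ≤ s := by nlinarith
  have hP := pot_step l a F hFa hA hsum hd0 hd
  have hE : 0 ≤ En l a F (A / Fx) :=
    En_nonneg l _ _ _ fun y hy => (abs_nonneg _).trans (hFa y hy)
  have hP' := mul_le_mul_of_nonneg_left hP hlam0
  rw [list_sum_add, list_sum_mul]
  have hm : 0 ≤ max ((l.map F).sum - Fx) 0 := le_max_right _ _
  have hmle : (l.map F).sum - Fx ≤ max ((l.map F).sum - Fx) 0 := le_max_left _ _
  generalize max ((l.map F).sum - Fx) 0 = D at *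
  generalize En l a F (A / Fx) = E at *
  have hks : 0 ≤ k1 / s * d := mul_nonneg (div_nonneg hk1 hs.le) hd0
  by_cases hdd : d ≤ s * Fx
  · by_cases hn : E ≤ s ^ 2 * Fx ∧ (l.map F).sum - Fx ≤ s * Fx
    · have h1 := hnear hn.1 hn.2 hdd
      nlinarith [mul_nonneg hlam0 hE, mul_nonneg hlam0 hm]
    · have h2 : s ^ 2 * Fx ≤ E + D := by
        by_contra hc
        push Not at hc
        apply hn
        constructor
        · linarith
        · nlinarith
      have h4 : k1 * (Fx + D) ≤ lam * (E + D) := by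
        have h5 : 0 ≤ lam - k1 := by linarith
        have h6 : (lam - k1) * (s ^ 2 * Fx) ≤ (lam - k1) * (E + D) :=
          mul_le_mul_of_nonneg_left h2 h5
        have h7 : k1 * Fx ≤ (lam - k1) * (s ^ 2 * Fx) := by
          have : k1 ≤ (lam - k1) * s ^ 2 := by nlinarith
          calc k1 * Fx ≤ ((lam - k1) * s ^ 2) * Fx := mul_le_mul_of_nonneg_right this hx.le
            _ = _ := by ring
        nlinarith [mul_nonneg hk1 hE]
      nlinarith [mul_nonneg hκ hx.le]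
  · push Not at hdd
    have h3 : k1 * Fx ≤ k1 / s * d := by
      rw [div_mul_eq_mul_div, le_div_iff₀ hs]
      nlinarith [mul_le_mul_of_nonneg_left hdd.le hk1]
    nlinarith [mul_nonneg hκ hx.le, mul_nonneg (sub_nonneg.2 hlk) hm, mul_nonneg hlam0 hE]

end step

section tree

variable {S Q : Type*}

/-- All hypotheses of one epoch. `OkS i y` / `OkQ i x`: admissible state / pair of macro height `i`. -/
structure Two (OkS : ℕ → S → Prop) (OkQ : ℕ → Q → Prop) (rnd : S → Q) (F a R V : S → ℝ)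
    (F' a' R' V' : Q → ℝ) (k1 κ s lam c CF kd κ₁ κr ρ r : ℝ) : Prop where
  rnd_ok : ∀ i y, OkS i y → OkQ i (rnd y)
  hFa : ∀ i y, OkS i y → |a y| ≤ F y
  hFa' : ∀ i x, OkQ i x → |a' x| ≤ F' x
  hV : ∀ i y, OkS i y → 0 ≤ V y
  hV' : ∀ i x, OkQ i x → 0 ≤ V' x
  /-- rounding -/
  rndV : ∀ i y, OkS i y → V' (rnd y) ≤ (1 + ρ) * V y
  rndF : ∀ i y, OkS i y → |a y - a' (rnd y)| + max (F y - F' (rnd y)) 0 ≤ r * V y
  rndR : ∀ i y, OkS i y → R y ≤ R' (rnd y) + r * V y
  /-- height 0 -/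
  leaf : ∀ x, OkQ 0 x → R' x + lam * pot (a' x) (F' x) ≤ (1 + c) * V' x
  /-- windows -/
  step : ∀ i x, OkQ (i + 1) x →
    R' x + lam * pot (a' x) (F' x) ≤ (1 + c) * V' x ∨
    ∃ (l : List S) (d : ℝ), (∀ y ∈ l, OkS i y) ∧ (l.map V).sum ≤ (1 + ρ) * V' x ∧
      0 < F' x ∧ F' x ≤ CF * V' x ∧ 0 ≤ d ∧ d ≤ kd * V' x ∧
      (l.map a).sum = a' x ∧ F' x ≤ (l.map F).sum + d ∧
      (En l a F (a' x / F' x) ≤ s ^ 2 * F' x → (l.map F).sum - F' x ≤ s * F' x → d ≤ s * F' x →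
        R' x ≤ (l.map R).sum + κ * F' x) ∧
      R' x ≤ (l.map R).sum + k1 * (F' x + max ((l.map F).sum - F' x) 0)
  hk1 : 0 ≤ k1
  hκ : 0 ≤ κ
  hs : 0 < s
  hs1 : s ≤ 1
  hc : 0 ≤ c
  hρ : 0 ≤ ρ
  hlam : k1 * (1 + s ^ 2) ≤ lam * s ^ 2
  hκ₁ : κ * CF + (2 * lam + k1 / s) * kd ≤ κ₁
  hκ₁0 : 0 ≤ κ₁
  hr : 0 ≤ r
  hκr : r * (1 + 2 * lam) ≤ κr

variable {OkS : ℕ → S → Prop} {OkQ : ℕ → Q → Prop} {rnd : S → Q} {F a R V : S → ℝ}
    {F' a' R' V' : Q → ℝ} {k1 κ s lam c CF kd κ₁ κr ρ r : ℝ}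

theorem Two.lam_nonneg (T : Two OkS OkQ rnd F a R V F' a' R' V' k1 κ s lam c CF kd κ₁ κr ρ r) :
    0 ≤ lam := by
  have hs2 : (0 : ℝ) < s ^ 2 := by have := T.hs; positivity
  refine T.hk1.trans ?_
  by_contra h
  push Not at h
  have h1 := T.hlam
  have h2 := T.hk1
  nlinarith [mul_lt_mul_of_pos_right h hs2]

theorem Two.κr_nonneg (T : Two OkS OkQ rnd F a R V F' a' R' V' k1 κ s lam c CF kd κ₁ κr ρ r) :
    0 ≤ κr := by
  have := T.lam_nonneg
  refine le_trans ?_ T.hκr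
  exact mul_nonneg T.hr (by linarith)

/-- the rounding step -/
theorem Two.rnd_step (T : Two OkS OkQ rnd F a R V F' a' R' V' k1 κ s lam c CF kd κ₁ κr ρ r)
    {i : ℕ} {y : S} (hy : OkS i y) :
    R y + lam * pot (a y) (F y)
      ≤ R' (rnd y) + lam * pot (a' (rnd y)) (F' (rnd y)) + κr * V y := by
  have hl := T.lam_nonneg
  have h1 := T.rndR i y hy
  have h2 := T.rndF i y hy
  have h3 := pot_le_pot (T.hFa i y hy) (T.hFa' i _ (T.rnd_ok i y hy))
  have h4 := mul_le_mul_of_nonneg_left h3 hl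
  have h5 := mul_le_mul_of_nonneg_left h2 (show (0 : ℝ) ≤ 2 * lam by linarith)
  have h6 := mul_le_mul_of_nonneg_right T.hκr (T.hV i y hy)
  nlinarith

/-- **The epoch inequality with label rounding.** -/
theorem Two.main (T : Two OkS OkQ rnd F a R V F' a' R' V' k1 κ s lam c CF kd κ₁ κr ρ r) :
    ∀ i, (∀ x, OkQ i x → R' x + lam * pot (a' x) (F' x)
        ≤ (1 + ρ) ^ (2 * i) * (1 + c + (κ₁ + κr) * i) * V' x) ∧
      (∀ y, OkS i y → R y + lam * pot (a y) (F y)
        ≤ (1 + ρ) ^ (2 * i + 1) * (1 + c + (κ₁ + κr) * i + κr) * V y) := by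
  have hκr := T.κr_nonneg
  have hκ₁ := T.hκ₁0
  have hc := T.hc
  have hρ := T.hρ
  have hρ1 : (1 : ℝ) ≤ 1 + ρ := by linarith
  -- from pairs to states
  have key : ∀ i : ℕ, (∀ x, OkQ i x → R' x + lam * pot (a' x) (F' x)
        ≤ (1 + ρ) ^ (2 * i) * (1 + c + (κ₁ + κr) * i) * V' x) →
      (∀ y, OkS i y → R y + lam * pot (a y) (F y)
        ≤ (1 + ρ) ^ (2 * i + 1) * (1 + c + (κ₁ + κr) * i + κr) * V y) := by
    intro i hi y hy
    have h1 := T.rnd_step hy
    have h2 := hi _ (T.rnd_ok i y hy)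
    have hV := T.hV i y hy
    have hp : (1 : ℝ) ≤ (1 + ρ) ^ (2 * i + 1) := one_le_pow₀ hρ1
    have hp' : (0 : ℝ) ≤ (1 + ρ) ^ (2 * i) * (1 + c + (κ₁ + κr) * i) := by positivity
    have h3 := mul_le_mul_of_nonneg_left (T.rndV i y hy) hp'
    have h4 : κr * V y ≤ (1 + ρ) ^ (2 * i + 1) * (κr * V y) :=
      le_mul_of_one_le_left (mul_nonneg hκr hV) hp
    have h5 : (1 + ρ) ^ (2 * i) * (1 + c + (κ₁ + κr) * i) * ((1 + ρ) * V y)
        = (1 + ρ) ^ (2 * i + 1) * (1 + c + (κ₁ + κr) * i) * V y := by ring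
    have h6 : (1 + ρ) ^ (2 * i + 1) * (1 + c + (κ₁ + κr) * i + κr) * V y
        = (1 + ρ) ^ (2 * i + 1) * (1 + c + (κ₁ + κr) * i) * V y
          + (1 + ρ) ^ (2 * i + 1) * (κr * V y) := by ring
    rw [h6]
    linarith
  intro i
  induction i with
  | zero =>
    have h0 : ∀ x, OkQ 0 x → R' x + lam * pot (a' x) (F' x)
        ≤ (1 + ρ) ^ (2 * 0) * (1 + c + (κ₁ + κr) * (0 : ℕ)) * V' x := by
      intro x hx
      simpa using T.leaf x hx
    exact ⟨h0, key 0 h0⟩
  | succ i ih =>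
    have hs : ∀ x, OkQ (i + 1) x → R' x + lam * pot (a' x) (F' x)
        ≤ (1 + ρ) ^ (2 * (i + 1)) * (1 + c + (κ₁ + κr) * ((i + 1 : ℕ) : ℝ)) * V' x := by
      intro x hx
      have hV := T.hV' (i + 1) x hx
      have hcast : ((i + 1 : ℕ) : ℝ) = i + 1 := by push_cast; ring
      have hpow : (1 : ℝ) ≤ (1 + ρ) ^ (2 * (i + 1)) := one_le_pow₀ hρ1
      rcases T.step i x hx with h1 | ⟨l, d, hl, hVm, hF0, hFV, hd0, hdV, hsum, hd, hnear, hall⟩
      · have h2 : (1 + c) * V' x ≤ (1 + c + (κ₁ + κr) * ((i + 1 : ℕ) : ℝ)) * V' x := by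
          have : 0 ≤ (κ₁ + κr) * ((i + 1 : ℕ) : ℝ) * V' x := by positivity
          nlinarith
        have h3 : (1 + c + (κ₁ + κr) * ((i + 1 : ℕ) : ℝ)) * V' x
            ≤ (1 + ρ) ^ (2 * (i + 1)) * ((1 + c + (κ₁ + κr) * ((i + 1 : ℕ) : ℝ)) * V' x) :=
          le_mul_of_one_le_left (by positivity) hpow
        calc _ ≤ _ := h1
          _ ≤ _ := h2
          _ ≤ _ := h3
          _ = _ := by ring
      · have hcl := win_step (R := R) (Rx := R' x) (d := d) (k1 := k1) (κ := κ) (s := s)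
          (lam := lam) l (fun y hy => T.hFa i y (hl y hy)) (T.hFa' _ x hx) hF0 hd0 T.hk1 T.hκ
          T.hs T.hs1 T.hlam hsum hd hnear hall
        set C : ℝ := (1 + ρ) ^ (2 * i + 1) * (1 + c + (κ₁ + κr) * i + κr) with hC
        have hC0 : 0 ≤ C := by positivity
        have h2 : (l.map fun y => R y + lam * pot (a y) (F y)).sum ≤ C * (l.map V).sum := by
          have := list_sum_le l (fun y => R y + lam * pot (a y) (F y)) (fun y => C * V y)
            fun y hy => ih.2 y (hl y hy)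
          rwa [list_sum_mul] at this
        have h4 := mul_le_mul_of_nonneg_left hVm hC0
        have hl0 := T.lam_nonneg
        have hq : 0 ≤ 2 * lam + k1 / s := add_nonneg (by linarith) (div_nonneg T.hk1 T.hs.le)
        have h5 : κ * F' x + (2 * lam + k1 / s) * d ≤ κ₁ * V' x := by
          calc κ * F' x + (2 * lam + k1 / s) * d
              ≤ κ * (CF * V' x) + (2 * lam + k1 / s) * (kd * V' x) :=
                add_le_add (mul_le_mul_of_nonneg_left hFV T.hκ) (mul_le_mul_of_nonneg_left hdV hq)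
            _ = (κ * CF + (2 * lam + k1 / s) * kd) * V' x := by ring
            _ ≤ _ := mul_le_mul_of_nonneg_right T.hκ₁ hV
        have h5' : κ₁ * V' x ≤ (1 + ρ) ^ (2 * (i + 1)) * (κ₁ * V' x) :=
          le_mul_of_one_le_left (mul_nonneg hκ₁ hV) hpow
        have h7 : C * ((1 + ρ) * V' x)
            = (1 + ρ) ^ (2 * (i + 1)) * (1 + c + (κ₁ + κr) * i + κr) * V' x := by
          rw [hC]; ring
        rw [hcast]
        calc _ ≤ _ := hcl
          _ ≤ C * ((1 + ρ) * V' x) + (1 + ρ) ^ (2 * (i + 1)) * (κ₁ * V' x) := by linarith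
          _ = _ := by rw [h7]; ring
    exact ⟨hs, key (i + 1) hs⟩

/-- the bound for `R` at states -/
theorem Two.state (T : Two OkS OkQ rnd F a R V F' a' R' V' k1 κ s lam c CF kd κ₁ κr ρ r)
    {i : ℕ} {y : S} (hy : OkS i y) :
    R y ≤ (1 + ρ) ^ (2 * i + 1) * (1 + c + (κ₁ + κr) * i + κr) * V y := by
  have h := (T.main i).2 y hy
  have hF : 0 ≤ F y := (abs_nonneg _).trans (T.hFa i y hy)
  have := mul_nonneg T.lam_nonneg (pot_nonneg (e := a y) hF)
  linarith

/-- the bound for `R'` at pairs -/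
theorem Two.pair (T : Two OkS OkQ rnd F a R V F' a' R' V' k1 κ s lam c CF kd κ₁ κr ρ r)
    {i : ℕ} {x : Q} (hx : OkQ i x) :
    R' x ≤ (1 + ρ) ^ (2 * i) * (1 + c + (κ₁ + κr) * i) * V' x := by
  have h := (T.main i).1 x hx
  have hF : 0 ≤ F' x := (abs_nonneg _).trans (T.hFa' i x hx)
  have := mul_nonneg T.lam_nonneg (pot_nonneg (e := a' x) hF)
  linarith

/-- a stopped pair (`F' ≤ (1+5δ) V'` and `R' ≤ (1+b) F'`) satisfies the first alternative -/
theorem stop_of {R₀ F₀ a₀ V₀ b δ lam c : ℝ} (hlam : 0 ≤ lam) (hb : 0 ≤ b) (ha : |a₀| ≤ F₀)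
    (hR : R₀ ≤ (1 + b) * F₀) (hF : F₀ ≤ (1 + 5 * δ) * V₀) (hV : 0 ≤ V₀)
    (hc : (1 + b + 3 * lam) * (1 + 5 * δ) ≤ 1 + c) :
    R₀ + lam * pot a₀ F₀ ≤ (1 + c) * V₀ := by
  have h1 := pot_le ha
  have h2 := mul_le_mul_of_nonneg_left h1 hlam
  have h3 : 0 ≤ 1 + b + 3 * lam := by linarith
  have h4 := mul_le_mul_of_nonneg_left hF h3
  have h5 := mul_le_mul_of_nonneg_right hc hV
  nlinarith

/-- an R1 pair (`|a| ≥ (1-4δ) F`, `|a| ≤ V`) satisfies the first alternative -/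
theorem stop_R1 {R₀ F₀ a₀ V₀ b δ lam c : ℝ} (hlam : 0 ≤ lam) (hb : 0 ≤ b) (hδ : 0 ≤ δ)
    (hδ' : δ ≤ 1 / 20) (ha : |a₀| ≤ F₀) (hR : R₀ ≤ (1 + b) * F₀) (haV : |a₀| ≤ V₀)
    (hstop : (1 - 4 * δ) * F₀ ≤ |a₀|) (hc : (1 + b + 3 * lam) * (1 + 5 * δ) ≤ 1 + c) :
    R₀ + lam * pot a₀ F₀ ≤ (1 + c) * V₀ := by
  have hV : 0 ≤ V₀ := (abs_nonneg _).trans haV
  have hF0 : 0 ≤ F₀ := (abs_nonneg _).trans ha
  refine stop_of (δ := δ) hlam hb ha hR ?_ hV hc
  have h1 : (1 - 4 * δ) * F₀ ≤ V₀ := hstop.trans haV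
  have h2 : 1 ≤ (1 + 5 * δ) * (1 - 4 * δ) := by nlinarith
  calc F₀ = 1 * F₀ := (one_mul _).symm
    _ ≤ (1 + 5 * δ) * (1 - 4 * δ) * F₀ := mul_le_mul_of_nonneg_right h2 hF0
    _ = (1 + 5 * δ) * ((1 - 4 * δ) * F₀) := by ring
    _ ≤ (1 + 5 * δ) * V₀ := mul_le_mul_of_nonneg_left h1 (by linarith)

end tree

end Crest.Agent.R288.RndT653
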