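import Crest.Agent.R288.RegD_711

/-!
# R288, leaf ROOT/REG (helper589): the joint of `RegD711.NatWin.near` and `RegD441.near_inner`

`RegD441.near_inner` (clip `gc`, share `1/gs`, `gs (n+1) ≤ gc`) gives the inner statement with the weight
`1 - 1/gs` on the played value; `RegD711.NatWin.near` asks for the weight `(1-1/G)^n`, which is larger
(`G ≥ (n+1) g`).  Both are one theorem if the inner nodes are used with a finer clip:

* `NatWin.near_gs` : `inner` with the weight `1 - 1/gs` where `2 g ≤ gs` (and `2 g ≤ G`): so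
  `RegD441.near_inner` with `gs := 2 g`, clip `gc := 2 g (n+1)`.
-/

set_option autoImplicit false

namespace Crest.Agent.R288.RootH589

open Finset Crest.Agent.R288.RegC711 Crest.Agent.R288.RegD711

/-- `qI g G ≥ 1/gs` -/
theorem inv_le_qI {g G gs : ℝ} (hg : 1 ≤ g) (hG : 2 * g ≤ G) (hgs : 2 * g ≤ gs) :
    1 / gs ≤ qI g G := by
  have hg0 : 0 < g := by linarith
  have hG0 : 0 < G := by linarith
  have hgs0 : 0 < gs := by linarith
  have h1 : 1 / gs ≤ 1 / (2 * g) := one_div_le_one_div_of_le (by linarith) hgs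
  have h2 : 1 / G ≤ 1 / (2 * g) := one_div_le_one_div_of_le (by linarith) hG
  have h3 : (0 : ℝ) < 1 - 1 / G := by
    have : 1 / G < 1 := by rw [div_lt_one hG0]; linarith
    linarith
  have h4 : 1 / g = 2 * (1 / (2 * g)) := by field_simp
  have h5 : 0 < 1 / G := by positivity
  have h6 : 0 < 1 / (2 * g) := by positivity
  unfold qI
  rw [le_sub_iff_add_le, ← le_sub_iff_add_le', div_le_iff₀ h3]
  have h7 : (1 : ℝ) - 1 / gs ≥ 1 - 1 / (2 * g) := by linarith
  have h8 : (1 - 1 / (2 * g)) * (1 - 1 / G) ≤ (1 - 1 / gs) * (1 - 1 / G) :=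
    mul_le_mul_of_nonneg_right h7 h3.le
  have h9 : 1 - 1 / g ≤ (1 - 1 / (2 * g)) * (1 - 1 / G) := by
    have : 0 ≤ 1 / (2 * g) * (1 / G) := by positivity
    nlinarith
  linarith

variable {K n g G gn gd U F pm : ℕ} {c W V wc ww : ℕ → ℕ}

/-- **near comparator**, `inner` in the form of `RegD441.near_inner` (`gs ≥ 2 g`) -/
theorem near_gs (h : NatWin K n g G gn gd U F pm c W V wc ww) {gs : ℕ} (hG : 2 * g ≤ G)
    (hgs : 2 * g ≤ gs) {Vn : ℕ → ℕ} (h1 : ∀ k < K, V k ≤ Vn k) (h2 : ∀ k < K, Vn k ≤ c k)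
    {A S : ℕ → ℝ} {Reg η : ℝ}
    (hA : ∀ k < K, A k ≤ (1 - 1 / (g : ℝ)) * mix (wc k) (ww k) (c k) (W k)
      + 1 / (g : ℝ) * W k + η)
    (inner : ∑ k ∈ range K, ((1 - 1 / (gs : ℝ)) * (c k : ℝ) + 1 / (gs : ℝ) * (Vn k : ℝ))
      ≤ ∑ k ∈ range K, S k + Reg) :
    ∑ k ∈ range K, A k ≤ ∑ k ∈ range K, S k + Reg
      + (gd * U / gn : ℝ) * (1 / pm) + 1 / (g : ℝ) * F + K * η := by
  have hq : 1 / (gs : ℝ) ≤ qI g G :=
    inv_le_qI (by exact_mod_cast h.g1) (by exact_mod_cast hG) (by exact_mod_cast hgs)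
  have h3 := (h.toWinP' h1 h2).toWin.near hA (le_trans (sum_le_sum fun k hk => by
    have h4 : (Vn k : ℝ) ≤ c k := by exact_mod_cast h2 k (mem_range.1 hk)
    have h5 := mul_le_mul_of_nonneg_right hq (sub_nonneg.2 h4)
    show (1 - qI g G) * (c k : ℝ) + qI g G * (Vn k : ℝ)
      ≤ (1 - 1 / (gs : ℝ)) * (c k : ℝ) + 1 / (gs : ℝ) * (Vn k : ℝ)
    linarith) inner)
  have hww : (0 : ℝ) < ww 0 := by exact_mod_cast h.ww0
  have hpm : (0 : ℝ) < pm := by exact_mod_cast h.pm0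
  have hgn : (0 : ℝ) < gn := by exact_mod_cast h.gn0
  have hwc : (wc 0 : ℝ) = pm * ww 0 := by exact_mod_cast h.wc0
  have h4 : Real.log (((wc 0 : ℝ) + ww 0) / wc 0) ≤ 1 / pm := by
    refine (log_prior_calm (by rw [hwc]; positivity) hww.le).trans (le_of_eq ?_)
    rw [hwc]
    field_simp
  have h5 : (gd * U / gn : ℝ) * (Real.log (((wc 0 : ℝ) + ww 0) / wc 0)
      - ∑ k ∈ range K, Real.log (1 - (0 : ℝ))) ≤ (gd * U / gn : ℝ) * (1 / pm) := by
    refine mul_le_mul_of_nonneg_left ?_ (by positivity)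
    simpa using h4
  have h6 : (K : ℝ) * (η + 1 / (g : ℝ) * 0 + 3 * 0) = K * η := by ring
  linarith

end Crest.Agent.R288.RootH589
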