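import Crest.Agent.R288.Smp_984
import Crest.Agent.R288.Hedge_984
import Crest.Agent.R288.HedgeA_527

/-!
# R288: the sampling layer of post 3987, part B: estimates and one decision step

All statements are at one state `s`; `t : RT (S → A → ℝ)` is a sample of the costs of all actions at
all states (`Smp984.samp`), `u a = E (v s a)` the true cost.

* `est m cap t`: mean of `m` truncated samples; `Pr_est`: all actions within `δ`.
* `tup ts k`: independent results of the ranks `< k`; `Pr_tup`.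
* `Ev_dec_le`: a random kernel that is good with probability `1 - p`.
* `hedge_step`, `greedy_step`, `jump_step`, `mode_step`.
-/

set_option autoImplicit false

namespace Crest.Agent.R288.SmpB984

open Finset Real Crest.Agent.R295.Rnd627 Crest.Agent.R295.Rnd627.RT Crest.Agent.R288.TreeA330
  Crest.Agent.R288.Smp984
open Crest.Agent.R288.Hedge984 hiding pw pp

section est

variable {S A : Type} [Fintype A]

/-- mean of `m` truncated samples -/
noncomputable def est (m : ℕ) (cap : ℝ) (t : RT (S → A → ℝ)) : RT (S → A → ℝ) :=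
  (reps m t).map fun L s a => (L.map fun v => min cap (v s a)).sum / m

/-- the failure event of the estimates at the state `s` -/
def Bad (u : A → ℝ) (δ : ℝ) (s : S) (e : S → A → ℝ) : Prop := ∃ a, δ ≤ |e s a - u a|

/-- **all estimates at one state are within `δ`**; the truncation may cost `δ / 2` in the mean -/
theorem Pr_est {W : ℕ} (hW : 0 < W) {t : RT (S → A → ℝ)} {s : S}
    (h0 : t.All W fun v => ∀ a, 0 ≤ v s a) {m : ℕ} (hm : 0 < m) {cap δ : ℝ} (hcap : 0 < cap)
    (hδ : 0 ≤ δ) (hex : ∀ a, t.Ev W (fun v => max 0 (v s a - cap)) ≤ δ / 2) :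
    (est m cap t).Pr W (Bad (fun a => t.Ev W fun v => v s a) δ s) ≤
      Fintype.card A * (2 * exp (-(m * δ ^ 2 / (2 * cap ^ 2)))) := by
  unfold est Bad
  rw [Pr_map]
  have hone : ∀ a, (reps m t).Pr W (fun L => δ ≤ |(L.map fun v => min cap (v s a)).sum / m -
      t.Ev W fun v => v s a|) ≤ 2 * exp (-(m * δ ^ 2 / (2 * cap ^ 2))) := by
    intro a
    have hr : t.All W fun v => 0 ≤ min cap (v s a) ∧ min cap (v s a) ≤ cap :=
      h0.mono fun v hv => ⟨le_min hcap.le (hv a), min_le_left _ _⟩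
    have h1 := Hoef45.Pr_reps_mean hW hr hcap hm (c := δ / 2) (by linarith)
    have e1 : 2 * (m : ℝ) * (δ / 2) ^ 2 / (cap - 0) ^ 2 = m * δ ^ 2 / (2 * cap ^ 2) := by
      rw [sub_zero]; field_simp
    rw [e1] at h1
    refine (Pr_mono fun L hL => ?_).trans h1
    -- the mean of the truncated samples
    have h2 : t.Ev W (fun v => v s a) - δ / 2 ≤ t.Ev W (fun v => min cap (v s a)) := by
      have h3 : t.Ev W (fun v => v s a) =
          t.Ev W (fun v => min cap (v s a)) + t.Ev W (fun v => max 0 (v s a - cap)) := by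
        rw [← Ev_add]
        congr 1
        funext v
        rcases le_total cap (v s a) with h | h
        · rw [min_eq_left h, max_eq_right (by linarith)]; ring
        · rw [min_eq_right h, max_eq_left (by linarith)]; ring
      have := hex a
      linarith
    have h3 : t.Ev W (fun v => min cap (v s a)) ≤ t.Ev W (fun v => v s a) :=
      Ev_mono fun v => min_le_right _ _
    rcases le_abs.1 hL with h | h
    · exact (le_abs_self _).trans' (by linarith)
    · exact (neg_le_abs _).trans' (by linarith)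
  have h := Pr_exists_le W (reps m t) (univ : Finset A) (fun a L =>
    δ ≤ |(L.map fun v => min cap (v s a)).sum / m - t.Ev W fun v => v s a|)
  refine (Pr_mono fun L hL => ?_).trans (h.trans ?_)
  · obtain ⟨a, ha⟩ := hL
    exact ⟨a, mem_univ a, ha⟩
  · refine (sum_le_card_nsmul _ _ _ fun a _ => hone a).trans (le_of_eq ?_)
    rw [nsmul_eq_mul, Finset.card_univ]

/-- number of samples needed -/
theorem card_exp_le {c : ℕ} {m : ℕ} {cap δ q : ℝ} (hcap : 0 < cap) (hq : 0 < q)
    (h : 2 * cap ^ 2 * Real.log (2 * c / q) ≤ m * δ ^ 2) :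
    c * (2 * exp (-(m * δ ^ 2 / (2 * cap ^ 2)))) ≤ q := by
  rcases Nat.eq_zero_or_pos c with hc | hc
  · subst hc; simpa using hq.le
  have hc' : (0 : ℝ) < c := Nat.cast_pos.2 hc
  have h1 : Real.log (2 * c / q) ≤ m * δ ^ 2 / (2 * cap ^ 2) := by
    rw [le_div_iff₀ (by positivity)]; linarith
  have h2 : exp (-(m * δ ^ 2 / (2 * cap ^ 2))) ≤ q / (2 * c) := by
    refine (exp_le_exp.2 (neg_le_neg h1)).trans (le_of_eq ?_)
    rw [exp_neg, exp_log (by positivity), inv_div]
  calc c * (2 * exp (-(m * δ ^ 2 / (2 * cap ^ 2)))) ≤ c * (2 * (q / (2 * c))) := by gcongr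
    _ = q := by field_simp

end est

section tup

variable {β : Type}

/-- independent results of `ts 0, ..., ts (k - 1)` -/
def tup [Inhabited β] (ts : ℕ → RT β) : ℕ → RT (ℕ → β)
  | 0 => ret fun _ => default
  | k + 1 => (tup ts k).bind fun f => (ts k).map fun x i => if i = k then x else f i

theorem Pr_tup [Inhabited β] {W : ℕ} (hW : 0 < W) (ts : ℕ → RT β) (P : ℕ → β → Prop) (k : ℕ) :
    (tup ts k).Pr W (fun f => ∃ i < k, P i (f i)) ≤ ∑ i ∈ range k, (ts i).Pr W (P i) := by
  classical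
  induction k with
  | zero =>
    rw [tup, Pr_ret]
    simp
  | succ k ih =>
    rw [sum_range_succ, tup, Pr_bind]
    simp only [Pr_map]
    have hconst : ∀ Q : Prop, (ts k).Pr W (fun _ => Q) = if Q then 1 else 0 := by
      intro Q
      by_cases h : Q
      · simp only [h, if_true]; exact Pr_true hW _
      · simp only [h, if_false]; exact Pr_false W _
    refine (Ev_mono (g := fun f => (if ∃ i < k, P i (f i) then (1 : ℝ) else 0) +
      (ts k).Pr W (P k)) fun f => ?_).trans ?_
    · refine le_trans ?_ ((Pr_or_le W (ts k) (fun _ => ∃ i < k, P i (f i)) (P k)).trans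
        (add_le_add (le_of_eq ?_) le_rfl))
      swap
      · by_cases h : ∃ i < k, P i (f i)
        · rw [if_pos h, hconst, if_pos h]
        · rw [if_neg h, hconst, if_neg h]
      refine Pr_mono fun x hx => ?_
      obtain ⟨i, hi, hP⟩ := hx
      rcases Nat.lt_succ_iff_lt_or_eq.1 hi with h' | h'
      · rw [if_neg (by omega)] at hP
        exact Or.inl ⟨i, h', hP⟩
      · subst h'
        rw [if_pos rfl] at hP
        exact Or.inr hP
    · rw [Ev_add, Ev_const hW, ← Pr_def]
      exact add_le_add ih le_rfl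

theorem All_tup [Inhabited β] {W : ℕ} {ts : ℕ → RT β} {P : ℕ → β → Prop} {k : ℕ}
    (h : ∀ i < k, (ts i).All W (P i)) : (tup ts k).All W fun f => ∀ i < k, P i (f i) := by
  induction k with
  | zero =>
    rw [tup, All_ret]
    intro i hi
    omega
  | succ k ih =>
    rw [tup, All_bind]
    refine (ih fun i hi => h i (by omega)).mono fun f hf => ?_
    unfold RT.map
    rw [All_bind]
    refine (h k (by omega)).mono fun x hx => ?_
    rw [All_ret]
    intro i hi
    by_cases h' : i = k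
    · subst h'; simpa using hx
    · simpa [h'] using hf i (by omega)

end tup

section steps

variable {S A : Type} [Fintype A]

/-- a random kernel that does well on a good event -/
theorem Ev_dec_le {α : Type} {W : ℕ} (hW : 0 < W) {t : RT α} {κ : α → A → ℝ} {u : A → ℝ}
    {good : α → Prop} {c B p : ℝ} (hκ : t.All W fun x => Prob (κ x)) (hB0 : 0 ≤ B)
    (hB : ∀ a, u a ≤ c + B) (hgood : t.All W fun x => good x → mean (κ x) u ≤ c)
    (hbad : t.Pr W (fun x => ¬ good x) ≤ p) :
    ∑ a, t.Ev W (fun x => κ x a) * u a ≤ c + p * B := by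
  classical
  have e1 : ∑ a, t.Ev W (fun x => κ x a) * u a = t.Ev W (fun x => mean (κ x) u) := by
    unfold mean
    rw [Ev_sum]
    exact sum_congr rfl fun a _ => (Ev_mul_right _ _ _ _).symm
  rw [e1]
  have h1 : t.Ev W (fun x => mean (κ x) u) ≤
      t.Ev W (fun x => c + (if ¬ good x then (1 : ℝ) else 0) * B) := by
    refine Ev_mono_all ((hκ.and hgood).mono fun x hx => ?_)
    by_cases h : good x
    · rw [if_neg (not_not.2 h), zero_mul, add_zero]
      exact hx.2 h
    · rw [if_pos h, one_mul]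
      exact mean_le hx.1 hB
  refine h1.trans ?_
  rw [Ev_add, Ev_const hW, Ev_mul_right, ← Pr_def]
  exact add_le_add le_rfl (mul_le_mul_of_nonneg_right hbad hB0)

/-- hedge decision of rank `k`: a kernel computed from the cumulated estimates of the ranks `< k` -/
noncomputable def decH (κ : S → (A → ℝ) → A → ℝ) (ts : ℕ → RT (S → A → ℝ)) (k : ℕ) :
    RT (S → A → ℝ) :=
  (tup ts k).map fun e s a => κ s (fun a => ∑ i ∈ range k, e i s a) a

/-- **hedge step**: the kernel is computed (relative error `η₀`) from estimates (error `δ`, failure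
probabilities `q i`) of the costs `u i` of the ranks `i < k`; `w` = own costs -/
theorem hedge_step {W : ℕ} (hW : 0 < W) {pr : A → ℝ} (hpr : Prob pr) {γ δ η₀ o : ℝ} (hγ : 0 ≤ γ)
    (hδ : 0 ≤ δ) (hη₀ : 0 ≤ η₀) (ho : 0 ≤ o) {k : ℕ} (hs : γ * (k * δ) ≤ 1 / 2)
    {κ : S → (A → ℝ) → A → ℝ} {s : S} (hκ : ∀ U, Prob (κ s U))
    (hκ' : ∀ U a, |κ s U a - gibbs pr γ U a| ≤ η₀ * gibbs pr γ U a)
    {ts : ℕ → RT (S → A → ℝ)} {u : ℕ → A → ℝ} {q : ℕ → ℝ}
    (hq : ∀ i < k, (ts i).Pr W (Bad (u i) δ s) ≤ q i)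
    {w : A → ℝ} (hw : ∀ a b, w a ≤ w b + o) :
    ∑ a, (decH κ ts k).Ev W (fun p => p s a) * w a ≤
      mean (ker pr γ u k) w + (3 * η₀ + 4 * γ * (k * δ)) * o + (∑ i ∈ range k, q i) * o := by
  classical
  have hkp := ker_prob hpr γ u k
  have hmain := Ev_dec_le (A := A) hW (t := tup ts k)
    (κ := fun e a => κ s (fun a => ∑ i ∈ range k, e i s a) a) (u := w)
    (good := fun e => ∀ i < k, ¬ Bad (u i) δ s (e i))
    (c := mean (ker pr γ u k) w + (3 * η₀ + 4 * γ * (k * δ)) * o) (B := o)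
    (p := ∑ i ∈ range k, q i) (All.of_forall fun e => hκ _) ho ?_ ?_ ?_
  · unfold decH
    simp only [Ev_map]
    exact hmain
  · intro a
    have h1 : w a - o ≤ mean (ker pr γ u k) w := le_mean hkp fun b => by linarith [hw a b]
    have h2 : 0 ≤ (3 * η₀ + 4 * γ * (k * δ)) * o := by positivity
    linarith
  · refine All.of_forall fun e he => ?_
    set U : A → ℝ := fun a => ∑ i ∈ range k, e i s a with hU
    have hdist : ∀ a, |U a - cum u k a| ≤ k * δ := by
      intro a
      rw [hU, cum, ← sum_sub_distrib]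
      refine (abs_sum_le_sum_abs _ _).trans ?_
      calc ∑ i ∈ range k, |e i s a - u i a| ≤ ∑ _i ∈ range k, δ :=
            sum_le_sum fun i hi => by
              have := he i (mem_range.1 hi)
              unfold Bad at this
              push Not at this
              exact (this a).le
        _ = k * δ := by rw [sum_const, card_range, nsmul_eq_mul]
    have hpert : ∀ a, |κ s U a - gibbs pr γ (cum u k) a| ≤
        (3 * η₀ + 4 * γ * (k * δ)) * gibbs pr γ (cum u k) a := by
      intro a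
      have h1 := hκ' U a
      have h2 := gibbs_perturb_abs hpr hγ (mul_nonneg (Nat.cast_nonneg k) hδ) hs hdist a
      have hg := (gibbs_prob hpr γ (cum u k)).nonneg a
      have h3 : gibbs pr γ U a ≤ 3 * gibbs pr γ (cum u k) a := by
        have h4 := (abs_le.1 h2).2
        have h5 : 4 * γ * (k * δ) * gibbs pr γ (cum u k) a ≤ 2 * gibbs pr γ (cum u k) a :=
          mul_le_mul_of_nonneg_right (by linarith) hg
        linarith
      calc |κ s U a - gibbs pr γ (cum u k) a|
          ≤ |κ s U a - gibbs pr γ U a| + |gibbs pr γ U a - gibbs pr γ (cum u k) a| :=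
            abs_sub_le _ _ _
        _ ≤ η₀ * gibbs pr γ U a + 4 * γ * (k * δ) * gibbs pr γ (cum u k) a := add_le_add h1 h2
        _ ≤ η₀ * (3 * gibbs pr γ (cum u k) a) + 4 * γ * (k * δ) * gibbs pr γ (cum u k) a := by
            gcongr
        _ = _ := by ring
    have h4 := mean_perturb (hκ U) (gibbs_prob hpr γ (cum u k)) hpert hw
    have h5 := (abs_le.1 h4).2
    show mean (κ s U) w ≤ mean (ker pr γ u k) w + _
    unfold ker
    linarith
  · refine le_trans (Pr_mono fun e he => ?_) ((Pr_tup hW ts (fun i => Bad (u i) δ s) k).trans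
      (sum_le_sum fun i hi => hq i (mem_range.1 hi)))
    push Not at he
    exact he

/-- greedy decision -/
noncomputable def decG (ch : S → (A → ℝ) → A) (t : RT (S → A → ℝ)) : RT (S → A → ℝ) :=
  t.map fun e => ind fun s => ch s (e s)

/-- a deterministic choice as a probability vector -/
theorem ind_prob {S A : Type} [Fintype A] (z : S → A) (s : S) : Prob (ind z s) :=
  ⟨fun a => ind_nonneg z s a, sum_ind z s⟩

theorem mean_ind (z : S → A) (s : S) (u : A → ℝ) : mean (ind z s) u = u (z s) :=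
  sum_ind_mul z s u

/-- a choice function that is good on the good event -/
theorem choice_step {W : ℕ} (hW : 0 < W) {ch : S → (A → ℝ) → A} {t : RT (S → A → ℝ)} {s : S}
    {v : A → ℝ} {δ q : ℝ} (hq : t.Pr W (Bad v δ s) ≤ q) {w : A → ℝ} {c B : ℝ} (hB0 : 0 ≤ B)
    (hB : ∀ a, w a ≤ c + B) (hch : ∀ e : A → ℝ, (∀ a, |e a - v a| < δ) → w (ch s e) ≤ c) :
    ∑ a, (decG ch t).Ev W (fun p => p s a) * w a ≤ c + q * B := by
  classical
  have hmain := Ev_dec_le (A := A) hW (t := t)
    (κ := fun e a => ind (fun s => ch s (e s)) s a) (u := w)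
    (good := fun e => ¬ Bad v δ s e) (c := c) (B := B) (p := q)
    (All.of_forall fun e => ind_prob _ s) hB0 hB ?_ ?_
  · unfold decG
    simp only [Ev_map]
    exact hmain
  · refine All.of_forall fun e he => ?_
    show mean (ind (fun s => ch s (e s)) s) w ≤ c
    rw [mean_ind]
    refine hch (e s) fun a => ?_
    unfold Bad at he
    push Not at he
    exact he a
  · refine le_trans (Pr_mono fun e he => ?_) hq
    exact not_not.1 he

/-- **greedy step**: the letter minimises the estimates up to `δ₀` -/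
theorem greedy_step {W : ℕ} (hW : 0 < W) {ch : S → (A → ℝ) → A} {t : RT (S → A → ℝ)} {s : S}
    {w : A → ℝ} {δ δ₀ q o : ℝ} (hδ : 0 ≤ δ) (hδ₀ : 0 ≤ δ₀) (hq : t.Pr W (Bad w δ s) ≤ q)
    (ho : 0 ≤ o) (hw : ∀ a b, w a ≤ w b + o)
    (hch : ∀ (e : A → ℝ) a, e (ch s e) ≤ e a + δ₀) (z : A) :
    ∑ a, (decG ch t).Ev W (fun p => p s a) * w a ≤ w z + (2 * δ + δ₀) + q * o := by
  refine choice_step hW hq ho (fun a => ?_) fun e he => ?_
  · linarith [hw a z]
  · have h1 := (abs_lt.1 (he (ch s e))).1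
    have h2 := (abs_lt.1 (he z)).2
    linarith [hch e z]

/-- **jump step**: `a₀` = stay; the rule leaves `a₀` only for an estimated gain of at least `b / 2`,
and stays only if no action has an estimated gain above `b / 2` (all up to `δ₀`) -/
theorem jump_step {W : ℕ} (hW : 0 < W) {ch : S → (A → ℝ) → A} {t : RT (S → A → ℝ)} {s : S}
    {w : A → ℝ} {b δ q B : ℝ} (hd : 0 ≤ δ) (hδ : 2 * δ ≤ b / 2)
    (hq : t.Pr W (Bad w δ s) ≤ q) (hB : 0 ≤ B) (hw : ∀ a b, w a ≤ w b + B) (a₀ : A)
    (hch1 : ∀ e : A → ℝ, ch s e = a₀ ∨ e (ch s e) + b / 2 ≤ e a₀)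
    (hch2 : ∀ (e : A → ℝ) a, e (ch s e) ≤ e a + b / 2) :
    (∑ a, (decG ch t).Ev W (fun p => p s a) * w a ≤ w a₀ + q * B) ∧
    (∀ z, ∑ a, (decG ch t).Ev W (fun p => p s a) * w a ≤ w z + (b / 2 + 2 * δ) + q * B) := by
  constructor
  · refine choice_step hW hq hB (fun a => hw a a₀) fun e he => ?_
    rcases hch1 e with h | h
    · rw [h]
    · have h1 := (abs_lt.1 (he (ch s e))).1
      have h2 := (abs_lt.1 (he a₀)).2
      linarith
  · intro z
    refine choice_step hW hq hB (fun a => ?_) fun e he => ?_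
    · linarith [hw a z]
    · have h1 := (abs_lt.1 (he (ch s e))).1
      have h2 := (abs_lt.1 (he z)).2
      linarith [hch2 e z]

end steps

section mode

variable {S A : Type} [Fintype A]

open Crest.Agent.R288.HedgeA527 (pw pp)

/-- perturbation of the Prod weights -/
theorem pw_pert {μ η c : ℝ} (hμ : 0 < μ) {x y : ℕ → ℝ} {k : ℕ}
    (hx : ∀ i < k, -(1 / 2) ≤ η * x i) (hy : ∀ i < k, -(1 / 2) ≤ η * y i)
    (hxy : ∀ i < k, |η * y i - η * x i| ≤ c) :
    0 < pw μ η x k ∧ 0 < pw μ η y k ∧ pw μ η y k ≤ exp (2 * k * c) * pw μ η x k := by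
  induction k with
  | zero => simp [pw, hμ]
  | succ k ih =>
    obtain ⟨h1, h2, h3⟩ := ih (fun i hi => hx i (by omega)) (fun i hi => hy i (by omega))
      (fun i hi => hxy i (by omega))
    have hxk := hx k (by omega)
    have hyk := hy k (by omega)
    have hc := abs_le.1 (hxy k (by omega))
    have hc0 : 0 ≤ c := (abs_nonneg _).trans (hxy k (by omega))
    have h4 : 1 + η * y k ≤ exp (2 * c) * (1 + η * x k) := by
      have h5 : 1 + 2 * c ≤ exp (2 * c) := by linarith [add_one_le_exp (2 * c)]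
      have h6 : (1 + 2 * c) * (1 + η * x k) ≤ exp (2 * c) * (1 + η * x k) :=
        mul_le_mul_of_nonneg_right h5 (by linarith)
      nlinarith
    refine ⟨mul_pos h1 (by linarith), mul_pos h2 (by linarith), ?_⟩
    show pw μ η y k * (1 + η * y k) ≤ _ * (pw μ η x k * (1 + η * x k))
    calc pw μ η y k * (1 + η * y k)
        ≤ (exp (2 * k * c) * pw μ η x k) * (exp (2 * c) * (1 + η * x k)) :=
          mul_le_mul h3 h4 (by linarith) (by positivity)
      _ = exp (2 * ((k : ℕ) + 1 : ℕ) * c) * (pw μ η x k * (1 + η * x k)) := by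
          have e : exp (2 * (((k : ℕ) + 1 : ℕ) : ℝ) * c) = exp (2 * k * c) * exp (2 * c) := by
            rw [← exp_add]; congr 1; push_cast; ring
          rw [e]; ring

/-- perturbation of the Prod probability -/
theorem pp_pert {μ η c : ℝ} (hμ : 0 < μ) {x y : ℕ → ℝ} {k : ℕ}
    (hx : ∀ i < k, -(1 / 2) ≤ η * x i) (hy : ∀ i < k, -(1 / 2) ≤ η * y i)
    (hxy : ∀ i < k, |η * y i - η * x i| ≤ c) (hc0 : 0 ≤ c) (hc : 2 * k * c ≤ 1) :
    |pp μ η y k - pp μ η x k| ≤ 4 * k * c := by
  obtain ⟨h1, h2, h3⟩ := pw_pert hμ hx hy hxy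
  obtain ⟨_, _, h4⟩ := pw_pert hμ hy hx (fun i hi => by rw [abs_sub_comm]; exact hxy i hi)
  have ha : 0 ≤ 2 * k * c := by positivity
  have hp := HedgeA527.odds_pert h1 h2 ha h3
  have hp' := HedgeA527.odds_pert' h1 h2 ha h4
  have he : exp (2 * k * c) ≤ 1 + 2 * (2 * k * c) := exp_le_lin ha hc
  have e1 : pw μ η x k / (1 + pw μ η x k) = 1 - 1 / (1 + pw μ η x k) := by
    field_simp; ring
  have e2 : pw μ η y k / (1 + pw μ η y k) = 1 - 1 / (1 + pw μ η y k) := by
    field_simp; ring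
  have hx0 : 0 ≤ pw μ η x k / (1 + pw μ η x k) := by positivity
  have hx1 : pw μ η x k / (1 + pw μ η x k) ≤ 1 := by
    rw [div_le_one (by linarith)]; linarith
  have hx2 : 0 ≤ 1 / (1 + pw μ η x k) := by positivity
  have hx3 : 1 / (1 + pw μ η x k) ≤ 1 := by
    rw [div_le_one (by linarith)]; linarith
  unfold pp
  rw [abs_le]
  constructor
  · rw [e1, e2]
    nlinarith
  · nlinarith

/-- two-point kernel -/
noncomputable def two (a₀ a₁ : A) (p : ℝ) (a : A) : ℝ := by
  classical exact (1 - p) * (if a = a₀ then 1 else 0) + p * (if a = a₁ then 1 else 0)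

theorem mean_two (a₀ a₁ : A) (p : ℝ) (u : A → ℝ) :
    mean (two a₀ a₁ p) u = u a₀ - p * (u a₀ - u a₁) := by
  classical
  unfold mean two
  simp only [add_mul, sum_add_distrib, mul_assoc, ite_mul, one_mul, zero_mul, ← mul_sum,
    sum_ite_eq', mem_univ, if_true]
  ring

theorem two_prob (a₀ a₁ : A) {p : ℝ} (h0 : 0 ≤ p) (h1 : p ≤ 1) : Prob (two a₀ a₁ p) := by
  classical
  refine ⟨fun a => ?_, ?_⟩
  · unfold two
    exact add_nonneg (mul_nonneg (by linarith) (by split_ifs <;> norm_num))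
      (mul_nonneg h0 (by split_ifs <;> norm_num))
  · have := mean_two a₀ a₁ p (fun _ => 1)
    unfold mean at this
    simpa using this

/-- mode decision of rank `k`: mode 1 with the probability `pr1 s (estimated gains)` -/
noncomputable def decM (a₀ a₁ : A) (C : ℝ) (pr1 : (ℕ → ℝ) → ℝ) (ts : ℕ → RT (S → A → ℝ))
    (k : ℕ) : RT (S → A → ℝ) :=
  (tup ts k).map fun e s => two a₀ a₁ (pr1 fun i => (e i s a₀ - e i s a₁) / C)

/-- **mode step** (Prod with the special expert `a₀`) -/
theorem mode_step {W : ℕ} (hW : 0 < W) {a₀ a₁ : A} {C μ η δ η₀ : ℝ} (hC : 0 < C) (hμ : 0 < μ)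
    (hη : 0 ≤ η) (hη₀ : 0 ≤ η₀) (hδ : 0 ≤ δ) {k : ℕ} {pr1 : (ℕ → ℝ) → ℝ}
    (hpr : ∀ y, 0 ≤ pr1 y ∧ pr1 y ≤ 1)
    (hpr' : ∀ y, (∀ i < k, -(1 / 2) ≤ η * y i) → |pr1 y - pp μ η y k| ≤ η₀)
    {s : S} {ts : ℕ → RT (S → A → ℝ)} {u : ℕ → A → ℝ} {q : ℕ → ℝ}
    (hq : ∀ i < k, (ts i).Pr W (Bad (u i) δ s) ≤ q i)
    (hu : ∀ i < k, |u i a₀ - u i a₁| ≤ C) (hsm : η * (1 + 2 * δ / C) ≤ 1 / 2)
    (hsm' : 2 * k * (η * (2 * δ / C)) ≤ 1)
    {w : A → ℝ} (hw : |w a₀ - w a₁| ≤ C) (hwB : ∀ a b, w a ≤ w b + C) :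
    ∑ a, (decM a₀ a₁ C pr1 ts k).Ev W (fun p => p s a) * w a ≤
      w a₀ - pp μ η (fun i => (u i a₀ - u i a₁) / C) k * (w a₀ - w a₁)
        + (η₀ + 4 * k * (η * (2 * δ / C))) * C + (∑ i ∈ range k, q i) * (2 * C) := by
  classical
  set x : ℕ → ℝ := fun i => (u i a₀ - u i a₁) / C with hx
  have hxb : ∀ i < k, |x i| ≤ 1 := fun i hi => by
    rw [hx]; simp only; rw [abs_div, abs_of_pos hC]
    exact (div_le_one hC).2 (hu i hi)
  have hδC : 0 ≤ 2 * δ / C := by positivity
  have hη1 : η ≤ 1 / 2 := by nlinarith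
  have hxη : ∀ i < k, -(1 / 2) ≤ η * x i := fun i hi => by
    have := abs_le.1 (hxb i hi)
    nlinarith
  have hpp : 0 ≤ pp μ η x k ∧ pp μ η x k ≤ 1 := by
    obtain ⟨h1, -, -⟩ := pw_pert (c := 0) hμ hxη hxη (fun i _ => by simp)
    unfold pp
    refine ⟨by positivity, ?_⟩
    rw [div_le_one (by linarith)]; linarith
  have hg := abs_le.1 hw
  have hmain := Ev_dec_le (A := A) hW (t := tup ts k)
    (κ := fun e => two a₀ a₁ (pr1 fun i => (e i s a₀ - e i s a₁) / C)) (u := w)
    (good := fun e => ∀ i < k, ¬ Bad (u i) δ s (e i))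
    (c := w a₀ - pp μ η x k * (w a₀ - w a₁) + (η₀ + 4 * k * (η * (2 * δ / C))) * C) (B := 2 * C)
    (p := ∑ i ∈ range k, q i) (All.of_forall fun e => two_prob _ _ (hpr _).1 (hpr _).2)
    (by positivity) ?_ ?_ ?_
  · unfold decM
    simp only [Ev_map]
    exact hmain
  · intro a
    have h1 := hwB a a₀
    have h2 : pp μ η x k * (w a₀ - w a₁) ≤ C := by nlinarith [hpp.1, hpp.2]
    have h3 : 0 ≤ (η₀ + 4 * k * (η * (2 * δ / C))) * C := by positivity
    linarith
  · refine All.of_forall fun e he => ?_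
    rw [mean_two]
    set y : ℕ → ℝ := fun i => (e i s a₀ - e i s a₁) / C with hy
    have hyx : ∀ i < k, |y i - x i| ≤ 2 * δ / C := fun i hi => by
      have hb := he i hi
      unfold Bad at hb
      push Not at hb
      have b0 := abs_lt.1 (hb a₀)
      have b1 := abs_lt.1 (hb a₁)
      have e1 : y i - x i = ((e i s a₀ - u i a₀) - (e i s a₁ - u i a₁)) / C := by
        rw [hx, hy]; ring
      rw [e1, abs_div, abs_of_pos hC]
      gcongr
      rw [abs_le]
      constructor <;> linarith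
    have hyη : ∀ i < k, -(1 / 2) ≤ η * y i := fun i hi => by
      have h1 := abs_le.1 (hyx i hi)
      have h2 := abs_le.1 (hxb i hi)
      have h3 : -(1 + 2 * δ / C) ≤ y i := by linarith
      nlinarith
    have hd := pp_pert hμ hxη hyη (c := η * (2 * δ / C)) (fun i hi => by
      rw [← mul_sub, abs_mul, abs_of_nonneg hη]
      exact mul_le_mul_of_nonneg_left (hyx i hi) hη) (by positivity) hsm'
    have hd' := hpr' y hyη
    have hd1 : |pr1 y - pp μ η x k| ≤ η₀ + 4 * k * (η * (2 * δ / C)) :=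
      (abs_sub_le _ _ _).trans (add_le_add hd' hd)
    have h4 : |(pr1 y - pp μ η x k) * (w a₀ - w a₁)| ≤
        (η₀ + 4 * k * (η * (2 * δ / C))) * C := by
      rw [abs_mul]
      exact mul_le_mul hd1 hw (abs_nonneg _) (by positivity)
    have h5 := (abs_le.1 h4).1
    have h6 : (pr1 y - pp μ η x k) * (w a₀ - w a₁) =
        pr1 y * (w a₀ - w a₁) - pp μ η x k * (w a₀ - w a₁) := by ring
    linarith
  · refine le_trans (Pr_mono fun e he => ?_) ((Pr_tup hW ts (fun i => Bad (u i) δ s) k).trans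
      (sum_le_sum fun i hi => hq i (mem_range.1 hi)))
    push Not at he
    exact he

omit [Fintype A] in
/-- summed over the ranks: regret of the mode step against the special mode `a₀` -/
theorem mode_regret₀ {μ η C e : ℝ} (hμ : 0 < μ) (hη : 0 < η) (hC : 0 < C) {K : ℕ}
    {u : ℕ → A → ℝ} {a₀ a₁ : A} (hη2 : η ≤ 1 / 2) (hu : ∀ i, |u i a₀ - u i a₁| ≤ C)
    {r : ℕ → ℝ} (hr : ∀ k < K, r k ≤ u k a₀ -
      pp μ η (fun i => (u i a₀ - u i a₁) / C) k * (u k a₀ - u k a₁) + e) :
    ∑ k ∈ range K, (r k - u k a₀) ≤ C * (μ / η) + K * e := by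
  set x : ℕ → ℝ := fun i => (u i a₀ - u i a₁) / C with hx
  have hx1 : ∀ k, -(1 / 2) ≤ η * x k := fun k => by
    have h1 : |x k| ≤ 1 := by
      rw [hx]; simp only; rw [abs_div, abs_of_pos hC]; exact (div_le_one hC).2 (hu k)
    have := abs_le.1 h1
    nlinarith
  have h1 := HedgeA527.prod_special hμ hη hx1 K
  have h2 : ∑ k ∈ range K, (r k - u k a₀) ≤ ∑ k ∈ range K, (-(C * (pp μ η x k * x k)) + e) := by
    refine sum_le_sum fun k hk => ?_
    have h3 := hr k (mem_range.1 hk)
    have h4 : C * (pp μ η x k * x k) = pp μ η x k * (u k a₀ - u k a₁) := by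
      rw [hx]; field_simp
    rw [h4]; linarith
  rw [sum_add_distrib, sum_neg_distrib, ← mul_sum, sum_const, card_range, nsmul_eq_mul] at h2
  have h5 := mul_le_mul_of_nonneg_left h1 hC.le
  have e1 : C * -(μ / η) = -(C * (μ / η)) := by ring
  linarith

omit [Fintype A] in
/-- summed over the ranks: regret of the mode step against the other mode `a₁` -/
theorem mode_regret₁ {μ η C e : ℝ} (hμ : 0 < μ) (hμ1 : μ ≤ 1) (hη : 0 < η) (hC : 0 < C) {K : ℕ}
    {u : ℕ → A → ℝ} {a₀ a₁ : A} (hη2 : η ≤ 1 / 2) (hu : ∀ i, |u i a₀ - u i a₁| ≤ C)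
    {r : ℕ → ℝ} (hr : ∀ k < K, r k ≤ u k a₀ -
      pp μ η (fun i => (u i a₀ - u i a₁) / C) k * (u k a₀ - u k a₁) + e) :
    ∑ k ∈ range K, (r k - u k a₁) ≤ C * (η * K + (Real.log (1 / μ) + 1) / η) + K * e := by
  set x : ℕ → ℝ := fun i => (u i a₀ - u i a₁) / C with hx
  have hxb : ∀ k, |x k| ≤ 1 := fun k => by
    rw [hx]; simp only; rw [abs_div, abs_of_pos hC]; exact (div_le_one hC).2 (hu k)
  have hx1 : ∀ k, -(1 / 2) ≤ η * x k := fun k => by
    have := abs_le.1 (hxb k)
    nlinarith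
  have h1 := HedgeA527.prod_other hμ hμ1 hη hx1 hxb K
  have h2 : ∑ k ∈ range K, (r k - u k a₁) ≤
      ∑ k ∈ range K, (C * x k + -(C * (pp μ η x k * x k)) + e) := by
    refine sum_le_sum fun k hk => ?_
    have h3 := hr k (mem_range.1 hk)
    have h4 : C * (pp μ η x k * x k) = pp μ η x k * (u k a₀ - u k a₁) := by
      rw [hx]; field_simp
    have h5 : C * x k = u k a₀ - u k a₁ := by rw [hx]; field_simp
    rw [h4, h5]; linarith
  rw [sum_add_distrib, sum_add_distrib, sum_neg_distrib, ← mul_sum, ← mul_sum, sum_const,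
    card_range, nsmul_eq_mul] at h2
  have h5 := mul_le_mul_of_nonneg_left h1 hC.le
  have e1 : C * (∑ k ∈ range K, x k - η * K - (Real.log (1 / μ) + 1) / η) =
    C * ∑ k ∈ range K, x k - C * (η * K + (Real.log (1 / μ) + 1) / η) := by ring
  linarith

end mode

end Crest.Agent.R288.SmpB984
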