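import Crest.Agent.R288.Med_559
import Crest.Agent.R288.SmpB_984

/-!
# R288: thinned lanes (posts 4114, 4245): mean and second moment

* `tup_Ev1`, `tup_Ev2`: marginals of one and of two different components of a tuple of independent
  results; `tup_sum`, `tup_sq`: mean and second moment of a sum of functions of different components.
* `raw l r N t`: a thinned sub-call: if the word is `r` mod `2 ^ l`, then `2 ^ l` times the sum of
  `N` copies of the table `t`, otherwise `0`. `Ev_raw`, `vr_raw`, `vr_scaled`.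
* `cells`: the same for many cells with one word (residue classes); `Ev_cells`, `vr_cells`.
* `lane`: a random play of the window, then the sum of the values of the sub-calls at the pieces.
  `Ev_lane`, **`sq_lane`**, **`sq_window`** (closed induction step).
* `sq_add`: a paid jump. `Pr_mean_tab`, `Pr_medmean`: estimates of tables by second moments.
-/

set_option autoImplicit false

namespace Crest.Agent.R288.Thin769

open Finset Crest.Agent.R295.Rnd627 Crest.Agent.R295.Rnd627.RT Crest.Agent.R288.SmpB984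
open Crest.Agent.R288.Med559

/-! ### sums over independent results -/

section indep

variable {β : Type} [Inhabited β]

theorem tup_succ_Ev (W : ℕ) (ts : ℕ → RT β) (k : ℕ) (F : (ℕ → β) → ℝ) :
    (tup ts (k + 1)).Ev W F =
      (tup ts k).Ev W fun f => (ts k).Ev W fun x => F fun i => if i = k then x else f i := by
  rw [tup, Ev_bind]
  simp only [Ev_map]

theorem tup_Ev1 {W : ℕ} (hW : 0 < W) (ts : ℕ → RT β) {k i : ℕ} (hi : i < k) (f : β → ℝ) :
    (tup ts k).Ev W (fun Z => f (Z i)) = (ts i).Ev W f := by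
  induction k with
  | zero => omega
  | succ k ih =>
    rw [tup_succ_Ev]
    rcases Nat.lt_succ_iff_lt_or_eq.1 hi with h | h
    · have e : ∀ g : ℕ → β, (ts k).Ev W (fun x => f (if i = k then x else g i)) = f (g i) := by
        intro g
        have : ∀ x : β, f (if i = k then x else g i) = f (g i) := fun x => by
          rw [if_neg (by omega)]
        simp only [this]
        exact Ev_const hW _ _
      simp only [e]
      exact ih h
    · subst h
      simp only [if_true]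
      exact Ev_const hW _ _

theorem tup_Ev2 {W : ℕ} (hW : 0 < W) (ts : ℕ → RT β) {k i j : ℕ} (hij : i < j) (hj : j < k)
    (f g : β → ℝ) :
    (tup ts k).Ev W (fun Z => f (Z i) * g (Z j)) = (ts i).Ev W f * (ts j).Ev W g := by
  induction k with
  | zero => omega
  | succ k ih =>
    rw [tup_succ_Ev]
    rcases Nat.lt_succ_iff_lt_or_eq.1 hj with h | h
    · have e : ∀ z : ℕ → β, (ts k).Ev W
          (fun x => f (if i = k then x else z i) * g (if j = k then x else z j)) =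
          f (z i) * g (z j) := by
        intro z
        have : ∀ x : β, f (if i = k then x else z i) * g (if j = k then x else z j) =
            f (z i) * g (z j) := fun x => by
          rw [if_neg (by omega), if_neg (by omega)]
        simp only [this]
        exact Ev_const hW _ _
      simp only [e]
      exact ih h
    · subst h
      have e : (fun z : ℕ → β => (ts j).Ev W
          (fun x => f (if i = j then x else z i) * g (if j = j then x else z j))) =
          fun z => f (z i) * (ts j).Ev W g := by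
        funext z
        rw [← Ev_mul_left]
        congr 1
        funext x
        rw [if_neg (by omega), if_pos rfl]
      rw [e, Ev_mul_right, tup_Ev1 hW ts hij]

theorem tup_Ev2' {W : ℕ} (hW : 0 < W) (ts : ℕ → RT β) {k i j : ℕ} (hij : i ≠ j) (hi : i < k)
    (hj : j < k) (f g : β → ℝ) :
    (tup ts k).Ev W (fun Z => f (Z i) * g (Z j)) = (ts i).Ev W f * (ts j).Ev W g := by
  rcases Nat.lt_or_gt_of_ne hij with h | h
  · exact tup_Ev2 hW ts h hj f g
  · have := tup_Ev2 hW ts h hi g f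
    rw [mul_comm ((ts i).Ev W f), ← this]
    congr 1
    funext Z
    ring

/-- mean of a sum -/
theorem tup_sum {W : ℕ} (hW : 0 < W) (ts : ℕ → RT β) {k : ℕ} {ι : Type} (P : Finset ι) (j : ι → ℕ)
    (hj : ∀ p ∈ P, j p < k) (G : ι → β → ℝ) (c : ℝ) :
    (tup ts k).Ev W (fun Z => c + ∑ p ∈ P, G p (Z (j p))) =
      c + ∑ p ∈ P, (ts (j p)).Ev W (G p) := by
  rw [Ev_add, Ev_const hW, Ev_sum]
  congr 1
  exact sum_congr rfl fun p hp => tup_Ev1 hW ts (hj p hp) (G p)

/-- variance -/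
noncomputable def vr {α : Type} (W : ℕ) (t : RT α) (f : α → ℝ) : ℝ :=
  t.Ev W (fun a => f a ^ 2) - t.Ev W f ^ 2

theorem vr_nonneg {α : Type} {W : ℕ} (hW : 0 < W) (t : RT α) (f : α → ℝ) : 0 ≤ vr W t f :=
  sub_nonneg.2 (sq_Ev_le hW t f)

theorem vr_le {α : Type} (W : ℕ) (t : RT α) (f : α → ℝ) : vr W t f ≤ t.Ev W fun a => f a ^ 2 :=
  sub_le_self _ (sq_nonneg _)

theorem vr_eq {α : Type} {W : ℕ} (hW : 0 < W) (t : RT α) (f : α → ℝ) :
    t.Ev W (fun a => (f a - t.Ev W f) ^ 2) = vr W t f := by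
  unfold vr
  have e : (fun a => (f a - t.Ev W f) ^ 2) =
      fun a => f a ^ 2 + (-2 * t.Ev W f) * f a + t.Ev W f ^ 2 := by
    funext a; ring
  rw [e, Ev_add, Ev_add, Ev_mul_left, Ev_const hW]
  ring

/-- **second moment of a sum over different components** -/
theorem tup_sq {W : ℕ} (hW : 0 < W) (ts : ℕ → RT β) {k : ℕ} {ι : Type} (P : Finset ι) (j : ι → ℕ)
    (hj : ∀ p ∈ P, j p < k) (hinj : ∀ p ∈ P, ∀ q ∈ P, j p = j q → p = q) (G : ι → β → ℝ) (c : ℝ) :
    (tup ts k).Ev W (fun Z => (c + ∑ p ∈ P, G p (Z (j p))) ^ 2) =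
      (c + ∑ p ∈ P, (ts (j p)).Ev W (G p)) ^ 2 + ∑ p ∈ P, vr W (ts (j p)) (G p) := by
  classical
  set μ : ι → ℝ := fun p => (ts (j p)).Ev W (G p) with hμ
  have e : (fun Z : ℕ → β => (c + ∑ p ∈ P, G p (Z (j p))) ^ 2) = fun Z =>
      (c + ∑ p ∈ P, μ p) ^ 2 + (2 * (c + ∑ p ∈ P, μ p)) * ∑ p ∈ P, (G p (Z (j p)) - μ p) +
        ∑ p ∈ P, ∑ q ∈ P, (G p (Z (j p)) - μ p) * (G q (Z (j q)) - μ q) := by
    funext Z
    have h1 : c + ∑ p ∈ P, G p (Z (j p)) =
        (c + ∑ p ∈ P, μ p) + ∑ p ∈ P, (G p (Z (j p)) - μ p) := by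
      rw [sum_sub_distrib]; ring
    rw [h1, ← sum_mul_sum]
    ring
  rw [e, Ev_add, Ev_add, Ev_const hW, Ev_mul_left]
  have h0 : (tup ts k).Ev W (fun Z => ∑ p ∈ P, (G p (Z (j p)) - μ p)) = 0 := by
    rw [Ev_sum]
    refine sum_eq_zero fun p hp => ?_
    rw [tup_Ev1 hW ts (hj p hp) (fun x => G p x - μ p), Ev_sub, Ev_const hW]
    exact sub_self _
  rw [h0, mul_zero, add_zero]
  congr 1
  rw [Ev_sum]
  refine sum_congr rfl fun p hp => ?_
  rw [Ev_sum]
  rw [sum_eq_single p]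
  · have := tup_Ev1 hW ts (hj p hp) (fun x => (G p x - μ p) * (G p x - μ p))
    rw [this, ← vr_eq hW]
    congr 1
    funext x
    rw [sq]
  · intro q hq hne
    rw [tup_Ev2' hW ts (fun h => hne (hinj q hq p hp h.symm)) (hj p hp) (hj q hq)
      (fun x => G p x - μ p) (fun x => G q x - μ q), Ev_sub, Ev_const hW]
    simp [hμ]
  · intro h
    exact absurd hp h

end indep

/-! ### thinned sub-calls -/

section item

variable {S : Type}

/-- sum of a list of tables at one state -/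
def tsum (L : List (S → ℕ)) (s : S) : ℕ := (L.map fun X => X s).sum

theorem tsum_cast (L : List (S → ℕ)) (s : S) :
    (tsum L s : ℝ) = (L.map fun X => (X s : ℝ)).sum := by
  unfold tsum
  rw [Nat.cast_list_sum, List.map_map]
  rfl


/-- raw thinned sub-call: if the word is `r` mod `2 ^ l` then `2 ^ l` times the sum of `N` copies,
otherwise `0` -/
def raw (l r N : ℕ) (t : RT (S → ℕ)) : RT (S → ℕ) :=
  draw.bind fun v => if v % 2 ^ l = r then (reps N t).map fun L s => 2 ^ l * tsum L s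
    else ret fun _ => 0

theorem Ev_tsum {W : ℕ} (hW : 0 < W) (N : ℕ) (t : RT (S → ℕ)) (s : S) :
    (reps N t).Ev W (fun L => (tsum L s : ℝ)) = N * t.Ev W fun X => (X s : ℝ) := by
  simp only [tsum_cast]
  exact Ev_reps_sum hW t (fun X : S → ℕ => (X s : ℝ)) N

theorem Ev_tsum_sq {W : ℕ} (hW : 0 < W) (N : ℕ) (t : RT (S → ℕ)) (s : S) :
    (reps N t).Ev W (fun L => (tsum L s : ℝ) ^ 2) =
      N * vr W t (fun X => (X s : ℝ)) + N ^ 2 * (t.Ev W fun X => (X s : ℝ)) ^ 2 := by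
  set μ := t.Ev W fun X => (X s : ℝ) with hμ
  have h2 := Ev_reps_sqdev hW t (fun X : S → ℕ => (X s : ℝ)) N
  rw [vr_eq hW, ← hμ] at h2
  have e : (fun L : List (S → ℕ) => (tsum L s : ℝ) ^ 2) = fun L =>
      (((L.map fun X : S → ℕ => (X s : ℝ)).sum - N * μ) ^ 2) +
        ((2 * N * μ) * (tsum L s : ℝ) + -((N * μ) ^ 2)) := by
    funext L
    rw [tsum_cast]
    ring
  rw [e, Ev_add, h2, Ev_add, Ev_mul_left, Ev_tsum hW, Ev_const hW, ← hμ]
  ring

theorem Ev_coin {W l r : ℕ} (hW : 0 < W) (hd : 2 ^ l ∣ W) (hr : r < 2 ^ l) (x y : ℝ) :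
    draw.Ev W (fun v => if v % 2 ^ l = r then x else y) =
      y + (1 / 2 ^ l) * (x - y) := by
  have h := Ev_mod_eq hW hd (fun a => if a = r then x else y)
  have e : draw.Ev W (fun v => if v % 2 ^ l = r then x else y) =
      (∑ v ∈ range W, (fun a => if a = r then x else y) (v % 2 ^ l)) / W := rfl
  rw [e]
  have h2 : (∑ v ∈ range W, (fun a => if a = r then x else y) (v % 2 ^ l)) / (W : ℝ) =
      (∑ a ∈ range (2 ^ l), (fun a => if a = r then x else y) a) / ((2 ^ l : ℕ) : ℝ) := by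
    exact h
  rw [h2]
  have h3 : ∑ a ∈ range (2 ^ l), (fun a => if a = r then x else y) a =
      (2 ^ l : ℕ) * y + (x - y) := by
    have : ∀ a ∈ range (2 ^ l), (fun a => if a = r then x else y) a =
        y + if a = r then (x - y) else 0 := by
      intro a _
      by_cases h : a = r
      · simp [h]
      · simp [h]
    rw [sum_congr rfl this, sum_add_distrib, sum_const, card_range, nsmul_eq_mul, sum_ite_eq',
      if_pos (mem_range.2 hr)]
  rw [h3]
  push_cast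
  have : (2 : ℝ) ^ l ≠ 0 := by positivity
  field_simp


theorem Ev_raw_gen {W l r : ℕ} (hW : 0 < W) (hd : 2 ^ l ∣ W) (hr : r < 2 ^ l) (N : ℕ)
    (t : RT (S → ℕ)) (F : (S → ℕ) → ℝ) (h0 : F (fun _ => 0) = 0) :
    (raw l r N t).Ev W F = (1 / 2 ^ l) * (reps N t).Ev W fun L => F fun s => 2 ^ l * tsum L s := by
  unfold raw
  rw [Ev_bind]
  have e : (fun v => (if v % 2 ^ l = r then
      (reps N t).map (fun L s => 2 ^ l * tsum L s) else ret fun _ => 0).Ev W F) =
      fun v => if v % 2 ^ l = r then (reps N t).Ev W (fun L => F fun s => 2 ^ l * tsum L s)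
        else 0 := by
    funext v
    split_ifs
    · rw [Ev_map]
    · rw [Ev_ret, h0]
  rw [e, Ev_coin hW hd hr]
  ring

theorem Ev_raw {W l r : ℕ} (hW : 0 < W) (hd : 2 ^ l ∣ W) (hr : r < 2 ^ l) (N : ℕ)
    (t : RT (S → ℕ)) (s : S) :
    (raw l r N t).Ev W (fun X => (X s : ℝ)) = N * t.Ev W fun X => (X s : ℝ) := by
  rw [Ev_raw_gen hW hd hr N t _ (by simp)]
  have e : (fun L : List (S → ℕ) => ((2 ^ l * tsum L s : ℕ) : ℝ)) =
      fun L => (2 : ℝ) ^ l * (tsum L s : ℝ) := by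
    funext L; push_cast; ring
  rw [e, Ev_mul_left, Ev_tsum hW]
  have : (2 : ℝ) ^ l ≠ 0 := by positivity
  field_simp

theorem sq_raw {W l r : ℕ} (hW : 0 < W) (hd : 2 ^ l ∣ W) (hr : r < 2 ^ l) (N : ℕ)
    (t : RT (S → ℕ)) (s : S) :
    (raw l r N t).Ev W (fun X => (X s : ℝ) ^ 2) = 2 ^ l *
      (N * vr W t (fun X => (X s : ℝ)) + N ^ 2 * (t.Ev W fun X => (X s : ℝ)) ^ 2) := by
  rw [Ev_raw_gen hW hd hr N t _ (by simp)]
  have e : (fun L : List (S → ℕ) => ((2 ^ l * tsum L s : ℕ) : ℝ) ^ 2) =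
      fun L => ((2 : ℝ) ^ l) ^ 2 * (tsum L s : ℝ) ^ 2 := by
    funext L; push_cast; ring
  rw [e, Ev_mul_left, Ev_tsum_sq hW]
  have : (2 : ℝ) ^ l ≠ 0 := by positivity
  field_simp

/-- **variance of a thinned (`N = 1`) or copied (`l = 0`) sub-call** -/
theorem vr_raw {W l r : ℕ} (hW : 0 < W) (hd : 2 ^ l ∣ W) (hr : r < 2 ^ l) {N : ℕ}
    (hlN : l = 0 ∨ N = 1) (t : RT (S → ℕ)) (s : S) :
    vr W (raw l r N t) (fun X => (X s : ℝ)) ≤
      2 ^ l * N * t.Ev W fun X => (X s : ℝ) ^ 2 := by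
  unfold vr
  rw [sq_raw hW hd hr, Ev_raw hW hd hr]
  have h1 := vr_le W t fun X => (X s : ℝ)
  have h2 : vr W t (fun X => (X s : ℝ)) + (t.Ev W fun X => (X s : ℝ)) ^ 2 =
      t.Ev W fun X => (X s : ℝ) ^ 2 := by unfold vr; ring
  rcases hlN with h | h
  · subst h
    have hN : (0 : ℝ) ≤ N := Nat.cast_nonneg _
    have := mul_le_mul_of_nonneg_left h1 hN
    simp only [pow_zero, one_mul]
    nlinarith
  · subst h
    have h3 : (0 : ℝ) ≤ (t.Ev W fun X => (X s : ℝ)) ^ 2 := sq_nonneg _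
    simp only [Nat.cast_one, one_mul, one_pow, mul_one]
    rw [h2]
    linarith

/-- many cells with one word: cell `c` is called iff `c` is the word mod `2 ^ l` -/
def cells (l N K : ℕ) (t : ℕ → RT (S → ℕ)) : RT (ℕ → S → ℕ) :=
  draw.bind fun v => tup (fun c => if v % 2 ^ l = c % 2 ^ l then
    (reps N (t c)).map fun L s => 2 ^ l * tsum L s else ret fun _ => 0) K

/-- the marginal of one cell is a thinned sub-call -/
theorem Ev_cells {W : ℕ} (hW : 0 < W) (l N : ℕ) {K c : ℕ} (hc : c < K)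
    (t : ℕ → RT (S → ℕ)) (F : (S → ℕ) → ℝ) :
    (cells l N K t).Ev W (fun Z => F (Z c)) = (raw l (c % 2 ^ l) N (t c)).Ev W F := by
  unfold cells raw
  rw [Ev_bind, Ev_bind]
  congr 1
  funext v
  exact tup_Ev1 hW _ hc F

theorem vr_cells {W : ℕ} (hW : 0 < W) {l N K c : ℕ} (hd : 2 ^ l ∣ W) (hlN : l = 0 ∨ N = 1)
    (hc : c < K) (t : ℕ → RT (S → ℕ)) (s : S) :
    vr W (cells l N K t) (fun Z => (Z c s : ℝ)) ≤
      2 ^ l * N * (t c).Ev W fun X => (X s : ℝ) ^ 2 := by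
  have h := vr_raw hW hd (Nat.mod_lt c (Nat.two_pow_pos l)) hlN (t c) s
  unfold vr at h ⊢
  rw [Ev_cells hW l N hc t (fun X => (X s : ℝ) ^ 2), Ev_cells hW l N hc t (fun X => (X s : ℝ))]
  exact h

theorem Ev_cells_one {W : ℕ} (hW : 0 < W) {l N K c : ℕ} (hd : 2 ^ l ∣ W) (hc : c < K)
    (t : ℕ → RT (S → ℕ)) (s : S) :
    (cells l N K t).Ev W (fun Z => (Z c s : ℝ)) = N * (t c).Ev W fun X => (X s : ℝ) := by
  rw [Ev_cells hW l N hc t (fun X => (X s : ℝ)), Ev_raw hW hd (Nat.mod_lt c (Nat.two_pow_pos l))]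

theorem vr_div {α : Type} (W : ℕ) (t : RT α) (f : α → ℝ) (c : ℝ) :
    vr W t (fun a => f a / c) = vr W t f / c ^ 2 := by
  unfold vr
  have e : (fun a => (f a / c) ^ 2) = fun a => f a ^ 2 / c ^ 2 := by
    funext a; rw [div_pow]
  rw [e, Ev_div, Ev_div, div_pow, sub_div]

/-- scaled form: if the second moment of the table is at most `v σ ^ 2` and
`2 ^ l κ σ ≤ N τ` then the variance of the weighted value is at most `τ v / κ σ` -/
theorem vr_scaled {α : Type} {W l N : ℕ} {t : RT α} {f : α → ℝ} {v σ τ κ m : ℝ} (hN : 0 < N)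
    (hκ : 0 < κ) (hσ : 0 ≤ σ) (hv : 0 ≤ v)
    (h : vr W t f ≤ 2 ^ l * N * m) (hm : m ≤ v * σ ^ 2) (hl : 2 ^ l * (κ * σ) ≤ N * τ) :
    vr W t (fun a => f a / N) ≤ τ * v / κ * σ := by
  have hN' : (0 : ℝ) < N := Nat.cast_pos.2 hN
  rw [vr_div, div_le_iff₀ (by positivity)]
  refine h.trans ?_
  have h1 : (2 : ℝ) ^ l * N * m ≤ 2 ^ l * N * (v * σ ^ 2) :=
    mul_le_mul_of_nonneg_left hm (by positivity)
  refine h1.trans ?_
  have h2 : (2 ^ l * (κ * σ)) * (N * (v * σ) / κ) ≤ (N * τ) * (N * (v * σ) / κ) :=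
    mul_le_mul_of_nonneg_right hl (by positivity)
  calc (2 : ℝ) ^ l * N * (v * σ ^ 2) = (2 ^ l * (κ * σ)) * (N * (v * σ) / κ) := by
        field_simp
    _ ≤ (N * τ) * (N * (v * σ) / κ) := h2
    _ = τ * v / κ * σ * N ^ 2 := by field_simp

end item

/-! ### lanes -/

section lane

variable {S δ β : Type} [Inhabited β]

/-- a lane: a random decision (kernels, plays of all states), independent sub-calls, and for every
state the paid cost plus the values of the sub-calls at the pieces of its play -/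
def lane (dec : RT δ) (ts : δ → ℕ → RT β) (m : δ → ℕ) (a : δ → S → ℕ) (n : δ → S → ℕ)
    (j : δ → S → ℕ → ℕ) (G : δ → S → ℕ → β → ℕ) : RT (S → ℕ) :=
  dec.bind fun d => (tup (ts d) (m d)).map fun Z s =>
    a d s + ∑ p ∈ range (n d s), G d s p (Z (j d s p))

variable {dec : RT δ} {ts : δ → ℕ → RT β} {m : δ → ℕ} {a : δ → S → ℕ} {n : δ → S → ℕ}
  {j : δ → S → ℕ → ℕ} {G : δ → S → ℕ → β → ℕ}

/-- the mean of a lane -/
theorem Ev_lane {W : ℕ} (hW : 0 < W) (s : S)
    (hj : dec.All W fun d => ∀ p < n d s, j d s p < m d) :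
    (lane dec ts m a n j G).Ev W (fun X => (X s : ℝ)) = dec.Ev W fun d =>
      (a d s : ℝ) + ∑ p ∈ range (n d s), (ts d (j d s p)).Ev W fun z => (G d s p z : ℝ) := by
  unfold lane
  rw [Ev_bind]
  refine Ev_congr_all (hj.mono fun d hd => ?_)
  rw [Ev_map]
  have e : (fun Z : ℕ → β => ((a d s + ∑ p ∈ range (n d s), G d s p (Z (j d s p)) : ℕ) : ℝ)) =
      fun Z => (a d s : ℝ) + ∑ p ∈ range (n d s), (G d s p (Z (j d s p)) : ℝ) := by
    funext Z; push_cast; ring
  rw [e]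
  exact tup_sum hW (ts d) (range (n d s)) (j d s) (fun p hp => hd p (mem_range.1 hp))
    (fun p z => (G d s p z : ℝ)) _

/-- **the second moment of a lane** (`GR` = values before rounding) -/
theorem sq_lane {W : ℕ} (hW : 0 < W) (s : S) (GR : δ → S → ℕ → β → ℝ)
    (hj : dec.All W fun d => (∀ p < n d s, j d s p < m d) ∧
      (∀ p < n d s, ∀ q < n d s, j d s p = j d s q → p = q) ∧
      ∀ p < n d s, ∀ z, (G d s p z : ℝ) ≤ GR d s p z) :
    (lane dec ts m a n j G).Ev W (fun X => (X s : ℝ) ^ 2) ≤ dec.Ev W fun d =>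
      ((a d s : ℝ) + ∑ p ∈ range (n d s), (ts d (j d s p)).Ev W (GR d s p)) ^ 2 +
        ∑ p ∈ range (n d s), vr W (ts d (j d s p)) (GR d s p) := by
  unfold lane
  rw [Ev_bind]
  refine Ev_mono_all (hj.mono fun d hd => ?_)
  obtain ⟨h1, h2, h3⟩ := hd
  rw [Ev_map, ← tup_sq hW (ts d) (range (n d s)) (j d s) (fun p hp => h1 p (mem_range.1 hp))
    (fun p hp q hq => h2 p (mem_range.1 hp) q (mem_range.1 hq)) (GR d s)]
  refine Ev_mono fun Z => ?_
  refine pow_le_pow_left₀ (Nat.cast_nonneg _) ?_ 2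
  push_cast
  gcongr with p hp
  exact h3 p (mem_range.1 hp) _

/-- **closed induction step of the second moments over a window**: scale `τ`, pieces of scales
`σ d s p` of total mass at most `Γ τ`, mean value of every play at most `C τ` -/
theorem sq_window {W : ℕ} (hW : 0 < W) (s : S) (GR : δ → S → ℕ → β → ℝ) {v τ κ Γ C : ℝ}
    (σ : δ → S → ℕ → ℝ) (hτ : 0 ≤ τ) (hκ : 0 < κ) (hv : 0 ≤ v) (hclose : C ^ 2 + Γ * v / κ ≤ v)
    (hGR : ∀ d p z, 0 ≤ GR d s p z)
    (hj : dec.All W fun d => (∀ p < n d s, j d s p < m d) ∧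
      (∀ p < n d s, ∀ q < n d s, j d s p = j d s q → p = q) ∧
      (∀ p < n d s, ∀ z, (G d s p z : ℝ) ≤ GR d s p z) ∧
      (a d s : ℝ) + ∑ p ∈ range (n d s), (ts d (j d s p)).Ev W (GR d s p) ≤ C * τ ∧
      (∀ p < n d s, vr W (ts d (j d s p)) (GR d s p) ≤ τ * v / κ * σ d s p) ∧
      ∑ p ∈ range (n d s), σ d s p ≤ Γ * τ) :
    (lane dec ts m a n j G).Ev W (fun X => (X s : ℝ) ^ 2) ≤ v * τ ^ 2 := by
  refine (sq_lane hW s GR (hj.mono fun d hd => ⟨hd.1, hd.2.1, hd.2.2.1⟩)).trans ?_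
  have h := Ev_mono_all (M := W) (t := dec) (f := fun d =>
      ((a d s : ℝ) + ∑ p ∈ range (n d s), (ts d (j d s p)).Ev W (GR d s p)) ^ 2 +
        ∑ p ∈ range (n d s), vr W (ts d (j d s p)) (GR d s p)) (g := fun _ => v * τ ^ 2)
    (hj.mono fun d hd => ?_)
  · rwa [Ev_const hW] at h
  · obtain ⟨-, -, -, h4, h5, h6⟩ := hd
    have h0 : (0 : ℝ) ≤ (a d s : ℝ) + ∑ p ∈ range (n d s), (ts d (j d s p)).Ev W (GR d s p) :=
      add_nonneg (Nat.cast_nonneg _) (sum_nonneg fun p _ => Ev_nonneg fun z => hGR d p z)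
    have h7 : ((a d s : ℝ) + ∑ p ∈ range (n d s), (ts d (j d s p)).Ev W (GR d s p)) ^ 2 ≤
        (C * τ) ^ 2 := pow_le_pow_left₀ h0 h4 2
    have h8 : ∑ p ∈ range (n d s), vr W (ts d (j d s p)) (GR d s p) ≤
        τ * v / κ * (Γ * τ) := by
      calc _ ≤ ∑ p ∈ range (n d s), τ * v / κ * σ d s p :=
            sum_le_sum fun p hp => h5 p (mem_range.1 hp)
        _ = τ * v / κ * ∑ p ∈ range (n d s), σ d s p := by rw [mul_sum]
        _ ≤ τ * v / κ * (Γ * τ) := mul_le_mul_of_nonneg_left h6 (by positivity)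
    calc _ ≤ (C * τ) ^ 2 + τ * v / κ * (Γ * τ) := add_le_add h7 h8
      _ = (C ^ 2 + Γ * v / κ) * τ ^ 2 := by field_simp
      _ ≤ v * τ ^ 2 := mul_le_mul_of_nonneg_right hclose (sq_nonneg _)

end lane

/-! ### jumps and averages -/

section final

variable {S : Type}

/-- second moment after a paid jump -/
theorem sq_add {α : Type} {W : ℕ} (hW : 0 < W) (t : RT α) (f : α → ℝ) {b C v τ : ℝ} (hb : 0 ≤ b)
    (hbC : b ≤ C * τ) (hτ : 0 ≤ τ) (hC : 0 ≤ C) (hm : t.Ev W f ≤ C * τ)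
    (h0 : 0 ≤ t.Ev W f) (hv : t.Ev W (fun a => f a ^ 2) ≤ v * τ ^ 2) :
    t.Ev W (fun a => (b + f a) ^ 2) ≤ (v + 3 * C ^ 2) * τ ^ 2 := by
  have e : (fun a => (b + f a) ^ 2) = fun a => b ^ 2 + ((2 * b) * f a + f a ^ 2) := by
    funext a; ring
  rw [e, Ev_add, Ev_const hW, Ev_add, Ev_mul_left]
  have h1 : b ^ 2 ≤ (C * τ) ^ 2 := pow_le_pow_left₀ hb hbC 2
  have h2 : b * t.Ev W f ≤ (C * τ) * (C * τ) := mul_le_mul hbC hm h0 (by positivity)
  nlinarith

/-- **Chebyshev for the mean of `k` tables, all states of a finite set at once** -/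
theorem Pr_mean_tab {W : ℕ} (hW : 0 < W) (t : RT (S → ℕ)) {k : ℕ} (hk : 0 < k) (T : Finset S)
    {c V : ℝ} (hc : 0 < c) (hV : ∀ s ∈ T, t.Ev W (fun X => (X s : ℝ) ^ 2) ≤ V) :
    (reps k t).Pr W (fun L => ∃ s ∈ T, c ≤ |(tsum L s : ℝ) / k - t.Ev W fun X => (X s : ℝ)|) ≤
      T.card * (V / (k * c ^ 2)) := by
  refine (Pr_exists_le W _ T fun s L =>
    c ≤ |(tsum L s : ℝ) / k - t.Ev W fun X => (X s : ℝ)|).trans ?_
  rw [← nsmul_eq_mul]
  refine sum_le_card_nsmul _ _ _ fun s hs => ?_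
  have h := Pr_reps_mean hW t (fun X : S → ℕ => (X s : ℝ)) hk (V := V) hc
    (by rw [vr_eq hW]; exact (vr_le W t _).trans (hV s hs))
  simpa only [tsum_cast] using h

/-- the median of `12 q + 1` rounded means of `k` tables -/
noncomputable def medmean (k q : ℕ) (t : RT (S → ℕ)) : RT (S → ℕ) :=
  (reps (2 * (6 * q) + 1) ((reps k t).map fun L i => tsum L i / k)).map
    fun (l : List (S → ℕ)) (i : S) => med (l.map fun v => v i)

/-- **medians of means of tables** -/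
theorem Pr_medmean {W : ℕ} (hW : 0 < W) (t : RT (S → ℕ)) {k : ℕ} (hk : 0 < k) (T : Finset S)
    {c V : ℝ} (hc : 0 < c) (hV : ∀ s ∈ T, t.Ev W (fun X => (X s : ℝ) ^ 2) ≤ V)
    (h3 : 3 * V ≤ k * c ^ 2) (q : ℕ) :
    1 - T.card * (1 / 2) ^ q ≤ (medmean k q t).Pr W fun X => ∀ s ∈ T,
      t.Ev W (fun X => (X s : ℝ)) - c - 1 ≤ X s ∧ (X s : ℝ) ≤ t.Ev W (fun X => (X s : ℝ)) + c := by
  have hk' : (0 : ℝ) < k := Nat.cast_pos.2 hk
  refine Pr_med_tab hW T (fun s (x : ℕ) => t.Ev W (fun X => (X s : ℝ)) - c - 1 ≤ x ∧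
    (x : ℝ) ≤ t.Ev W (fun X => (X s : ℝ)) + c) ?_ ?_ q
  · rintro s x y z ⟨h1, -⟩ ⟨-, h2⟩ hxy hyz
    have e1 : (x : ℝ) ≤ y := by exact_mod_cast hxy
    have e2 : (y : ℝ) ≤ z := by exact_mod_cast hyz
    exact ⟨by linarith, by linarith⟩
  · intro s hs
    rw [Pr_map]
    have h1 := Pr_reps_mean hW t (fun X : S → ℕ => (X s : ℝ)) hk (V := V) hc
      (by rw [vr_eq hW]; exact (vr_le W t _).trans (hV s hs))
    have h2 : V / (k * c ^ 2) ≤ 1 / 3 := by
      rw [div_le_iff₀ (by positivity)]; linarith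
    have h4 := Pr_not hW (reps k t) fun L : List (S → ℕ) =>
      c ≤ |((L.map fun X : S → ℕ => (X s : ℝ)).sum) / k - t.Ev W fun X => (X s : ℝ)|
    have h5 : 2 / 3 ≤ (reps k t).Pr W fun L : List (S → ℕ) =>
        ¬ c ≤ |((L.map fun X : S → ℕ => (X s : ℝ)).sum) / k - t.Ev W fun X => (X s : ℝ)| := by
      rw [h4]; linarith
    refine h5.trans (Pr_mono fun L hl => ?_)
    rw [not_le, abs_lt, ← tsum_cast] at hl
    have e1 : ((tsum L s / k : ℕ) : ℝ) ≤ (tsum L s : ℝ) / k := Nat.cast_div_le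
    have e2 : (tsum L s : ℝ) / k ≤ ((tsum L s / k : ℕ) : ℝ) + 1 := by
      rw [div_le_iff₀ hk']
      have := (Nat.lt_div_mul_add (a := tsum L s) hk).le
      have h6 : (tsum L s : ℝ) ≤ (tsum L s / k : ℕ) * k + k := by exact_mod_cast this
      linarith
    exact ⟨by linarith, by linarith⟩

end final

end Crest.Agent.R288.Thin769
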