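import Crest.Agent.R288.AlgB_45
import Crest.Agent.R288.Thin_769

/-!
# R288: laws of `seqL` / `look` (AlgB_45)

* `Dep A f` : `f` depends only on the positions in `A`.
* `seqL_indep` : functions of disjoint position sets are independent; `Ev_reps_seqL`.
* `look_congr`, `Ev_look` (law of one key), `look_indep` (disjoint key sets), `Ev_look_filter`
  (only the requested keys of `A` matter).
-/

set_option autoImplicit false

namespace Crest.Agent.R288.SeqL769

open Finset Crest.Agent.R295.Rnd627 Crest.Agent.R295.Rnd627.RT Crest.Agent.R288.Thin769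
open Crest.Agent.R288.Alg45

/-! ### lists of independent results -/

section seqL

variable {α : Type}

theorem Ev_seqL_cons (W : ℕ) (t : RT α) (ts : List (RT α)) (F : List α → ℝ) :
    (seqL (t :: ts)).Ev W F = t.Ev W fun a => (seqL ts).Ev W fun l => F (a :: l) := by
  rw [seqL, Ev_bind]
  simp only [Ev_bind, Ev_ret]

theorem Ev_seqL_nil (W : ℕ) (F : List α → ℝ) : (seqL ([] : List (RT α))).Ev W F = F [] := rfl

theorem All_seqL_length (W : ℕ) (ts : List (RT α)) :
    (seqL ts).All W fun l => l.length = ts.length := by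
  induction ts with
  | nil => exact rfl
  | cons t ts ih =>
    rw [seqL, All_bind]
    refine All.of_forall fun a => ?_
    rw [All_bind]
    exact ih.mono fun l hl => by simp [hl]

theorem reps_eq_seqL (k : ℕ) (t : RT α) : reps k t = seqL (List.replicate k t) := by
  induction k with
  | zero => rfl
  | succ k ih => rw [reps_succ, List.replicate_succ, seqL, ih]

/-- `f` depends only on the positions in `A` -/
def Dep (A : Set ℕ) (f : List α → ℝ) : Prop :=
  ∀ l l' : List α, (∀ i ∈ A, l[i]? = l'[i]?) → f l = f l'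

theorem Dep.mono {A B : Set ℕ} {f : List α → ℝ} (h : Dep A f) (hAB : A ⊆ B) : Dep B f :=
  fun l l' hl => h l l' fun i hi => hl i (hAB hi)

theorem Dep.cons {A : Set ℕ} {f : List α → ℝ} (h : Dep A f) (a : α) :
    Dep {i | i + 1 ∈ A} fun l => f (a :: l) := by
  intro l l' hl
  refine h _ _ fun i hi => ?_
  cases i with
  | zero => rfl
  | succ i => simpa using hl i hi

theorem Dep.cons_eq {A : Set ℕ} {f : List α → ℝ} (h : Dep A f) (h0 : 0 ∉ A) (a b : α)
    (l : List α) : f (a :: l) = f (b :: l) := by
  refine h _ _ fun i hi => ?_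
  cases i with
  | zero => exact absurd hi h0
  | succ i => rfl

/-- **functions of disjoint sets of positions are independent** -/
theorem seqL_indep {W : ℕ} (hW : 0 < W) (ts : List (RT α)) {A B : Set ℕ}
    (hAB : ∀ i ∈ A, i ∉ B) {f g : List α → ℝ} (hf : Dep A f) (hg : Dep B g) :
    (seqL ts).Ev W (fun l => f l * g l) = (seqL ts).Ev W f * (seqL ts).Ev W g := by
  induction ts generalizing A B f g with
  | nil => rfl
  | cons t ts ih =>
    rw [Ev_seqL_cons, Ev_seqL_cons, Ev_seqL_cons]
    have e : ∀ a, (seqL ts).Ev W (fun l => f (a :: l) * g (a :: l)) =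
        (seqL ts).Ev W (fun l => f (a :: l)) * (seqL ts).Ev W (fun l => g (a :: l)) :=
      fun a => ih (fun i hi => hAB (i + 1) hi) (hf.cons a) (hg.cons a)
    simp only [e]
    by_cases hα : Nonempty α
    · obtain ⟨a₀⟩ := hα
      by_cases h0 : 0 ∈ A
      · have h1 : 0 ∉ B := hAB 0 h0
        have e2 : ∀ a, (seqL ts).Ev W (fun l => g (a :: l)) =
            (seqL ts).Ev W (fun l => g (a₀ :: l)) := fun a => by
          congr 1
          funext l
          exact hg.cons_eq h1 a a₀ l
        simp only [e2]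
        rw [Ev_mul_right, Ev_const hW]
      · have e2 : ∀ a, (seqL ts).Ev W (fun l => f (a :: l)) =
            (seqL ts).Ev W (fun l => f (a₀ :: l)) := fun a => by
          congr 1
          funext l
          exact hf.cons_eq h0 a a₀ l
        simp only [e2]
        rw [Ev_mul_left, Ev_const hW]
    · exfalso
      have : ∀ t : RT α, False := by
        intro t
        induction t with
        | ret a => exact hα ⟨a⟩
        | rnd k ih => exact ih 0
      exact this t

/-- law of one position -/
theorem Ev_seqL_get {W : ℕ} (hW : 0 < W) (ts : List (RT α)) {i : ℕ} (hi : i < ts.length)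
    (f : Option α → ℝ) :
    (seqL ts).Ev W (fun l => f l[i]?) = (ts[i]).Ev W fun a => f (some a) := by
  induction ts generalizing i with
  | nil => simp at hi
  | cons t ts ih =>
    rw [Ev_seqL_cons]
    cases i with
    | zero => simp [Ev_const hW]
    | succ i =>
      have := ih (i := i) (by simpa using hi)
      simp only [List.getElem?_cons_succ, List.getElem_cons_succ, this, Ev_const hW]

end seqL

/-! ### keys -/

section keys

variable {α κ : Type} [DecidableEq κ] [Inhabited α]

omit [Inhabited α] in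
theorem look_nil_left [Inhabited α] (res : List α) (k : κ) : look [] res k = none := rfl

theorem look_nil_right (ks : List κ) (k : κ) : look ks ([] : List α) k = none := by
  cases ks <;> rfl

theorem look_cons (k₀ : κ) (ks : List κ) (a : α) (res : List α) (k : κ) :
    look (k₀ :: ks) (a :: res) k = if k = k₀ then some a else look ks res k := by
  unfold look
  rw [List.zip_cons_cons, List.lookup_cons]
  by_cases h : k = k₀
  · simp [h]
  · have : (k == k₀) = false := by simpa using h
    simp [this, h]

theorem look_notMem {ks : List κ} {k : κ} (h : k ∉ ks) (res : List α) : look ks res k = none := by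
  induction ks generalizing res with
  | nil => rfl
  | cons k₀ ks ih =>
    cases res with
    | nil => rfl
    | cons a res =>
      rw [look_cons, if_neg (fun e => h (by simp [e])), ih fun h' => h (by simp [h'])]

/-- the positions of the keys of `A` -/
def posOf (ks : List κ) (A : κ → Prop) : Set ℕ := {i | ∃ k, A k ∧ ks[i]? = some k}

theorem look_congr (ks : List κ) (A : κ → Prop) (res res' : List α)
    (h : ∀ i ∈ posOf ks A, res[i]? = res'[i]?) : ∀ k, A k → look ks res k = look ks res' k := by
  induction ks generalizing res res' with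
  | nil => intro k _; rfl
  | cons k₀ ks ih =>
    intro k hk
    cases res with
    | nil =>
      cases res' with
      | nil => rfl
      | cons a' res' =>
        rw [look_nil_right, look_cons]
        split_ifs with hkk
        · subst hkk
          have := h 0 ⟨k, hk, rfl⟩
          simp at this
        · have := ih [] res' (fun i hi => by
            obtain ⟨k', hk', he⟩ := hi
            have := h (i + 1) ⟨k', hk', by simpa using he⟩
            simpa using this) k hk
          rwa [look_nil_right] at this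
    | cons a res =>
      cases res' with
      | nil =>
        rw [look_nil_right, look_cons]
        split_ifs with hkk
        · subst hkk
          have := h 0 ⟨k, hk, rfl⟩
          simp at this
        · have := ih res [] (fun i hi => by
            obtain ⟨k', hk', he⟩ := hi
            have := h (i + 1) ⟨k', hk', by simpa using he⟩
            simpa using this) k hk
          rwa [look_nil_right] at this
      | cons a' res' =>
        rw [look_cons, look_cons]
        split_ifs with hkk
        · subst hkk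
          have := h 0 ⟨k, hk, rfl⟩
          simpa using this
        · exact ih res res' (fun i hi => by
            obtain ⟨k', hk', he⟩ := hi
            have := h (i + 1) ⟨k', hk', by simpa using he⟩
            simpa using this) k hk

/-- `F` depends only on the keys in `A` -/
def DepK (A : κ → Prop) (F : (κ → Option α) → ℝ) : Prop :=
  ∀ Z Z' : κ → Option α, (∀ k, A k → Z k = Z' k) → F Z = F Z'

theorem DepK.dep {A : κ → Prop} {F : (κ → Option α) → ℝ} (h : DepK A F) (ks : List κ) :
    Dep (posOf ks A) fun res => F (look ks res) :=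
  fun l l' hl => h _ _ (look_congr ks A l l' hl)

theorem look_indep {W : ℕ} (hW : 0 < W) (sub : κ → RT α) (ks : List κ) {A B : κ → Prop}
    (hAB : ∀ k, A k → ¬ B k) {F G : (κ → Option α) → ℝ} (hF : DepK A F) (hG : DepK B G) :
    (seqL (ks.map sub)).Ev W (fun res => F (look ks res) * G (look ks res)) =
      (seqL (ks.map sub)).Ev W (fun res => F (look ks res)) *
        (seqL (ks.map sub)).Ev W (fun res => G (look ks res)) := by
  refine seqL_indep hW (ks.map sub) ?_ (hF.dep ks) (hG.dep ks)
  rintro i ⟨k, hk, he⟩ ⟨k', hk', he'⟩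
  rw [he] at he'
  cases he'
  exact hAB k hk hk'

/-- law of one key -/
theorem Ev_look {W : ℕ} (hW : 0 < W) (sub : κ → RT α) (ks : List κ) {k : κ} (hk : k ∈ ks)
    (f : Option α → ℝ) :
    (seqL (ks.map sub)).Ev W (fun res => f (look ks res k)) = (sub k).Ev W fun a => f (some a) := by
  induction ks with
  | nil => simp at hk
  | cons k₀ ks ih =>
    rw [List.map_cons, Ev_seqL_cons]
    simp only [look_cons]
    by_cases h : k = k₀
    · subst h
      simp only [if_true, Ev_const hW]
    · simp only [if_neg h]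
      have hk' : k ∈ ks := by
        rcases List.mem_cons.1 hk with h' | h'
        · exact absurd h' h
        · exact h'
      rw [ih hk', Ev_const hW]

/-- only the requested keys of `A` matter -/
theorem Ev_look_filter {W : ℕ} (hW : 0 < W) (sub : κ → RT α) (ks : List κ) {A : κ → Prop}
    [DecidablePred A] {F : (κ → Option α) → ℝ} (hF : DepK A F) :
    (seqL (ks.map sub)).Ev W (fun res => F (look ks res)) =
      (seqL ((ks.filter A).map sub)).Ev W (fun res => F (look (ks.filter A) res)) := by
  induction ks generalizing F with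
  | nil => rfl
  | cons k₀ ks ih =>
    rw [List.map_cons, Ev_seqL_cons]
    by_cases h : A k₀
    · rw [List.filter_cons_of_pos (by simpa using h), List.map_cons, Ev_seqL_cons]
      congr 1
      funext a
      have hF' : DepK A fun Z => F fun k => if k = k₀ then some a else Z k := by
        intro Z Z' hZ
        refine hF _ _ fun k hk => ?_
        by_cases hkk : k = k₀
        · simp [hkk]
        · simp [hkk, hZ k hk]
      have e1 : ∀ (ks' : List κ) (res : List α),
          look (k₀ :: ks') (a :: res) = fun k => if k = k₀ then some a else look ks' res k :=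
        fun ks' res => by funext k; exact look_cons k₀ ks' a res k
      simp only [e1]
      exact ih hF'
    · rw [List.filter_cons_of_neg (by simpa using h)]
      have e : ∀ a : α, (seqL (ks.map sub)).Ev W (fun res => F (look (k₀ :: ks) (a :: res))) =
          (seqL (ks.map sub)).Ev W (fun res => F (look ks res)) := by
        intro a
        congr 1
        funext res
        refine hF _ _ fun k hk => ?_
        have hne : k ≠ k₀ := fun e' => h (e' ▸ hk)
        rw [look_cons, if_neg hne]
      simp only [e, Ev_const hW]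
      exact ih hF

end keys

/-! ### second moments of sums of pairwise independent terms -/

section sq

variable {Ω ι : Type} {W : ℕ}

/-- mean and second moment of a sum of pairwise independent terms -/
theorem sq_sum_pair (hW : 0 < W) (t : RT Ω) (P : Finset ι) (G : ι → Ω → ℝ) (c : ℝ)
    (h : ∀ p ∈ P, ∀ q ∈ P, p ≠ q →
      t.Ev W (fun ω => G p ω * G q ω) = t.Ev W (G p) * t.Ev W (G q)) :
    t.Ev W (fun ω => (c + ∑ p ∈ P, G p ω) ^ 2) =
      (c + ∑ p ∈ P, t.Ev W (G p)) ^ 2 + ∑ p ∈ P, vr W t (G p) := by
  classical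
  have e : (fun ω => (c + ∑ p ∈ P, G p ω) ^ 2) = fun ω =>
      c ^ 2 + ((2 * c) * ∑ p ∈ P, G p ω + ∑ p ∈ P, ∑ q ∈ P, G p ω * G q ω) := by
    funext ω
    rw [← sum_mul_sum]
    ring
  rw [e, Ev_add, Ev_const hW, Ev_add, Ev_mul_left, Ev_sum, Ev_sum]
  have e2 : ∀ p ∈ P, t.Ev W (fun ω => ∑ q ∈ P, G p ω * G q ω) =
      vr W t (G p) + ∑ q ∈ P, t.Ev W (G p) * t.Ev W (G q) := by
    intro p hp
    rw [Ev_sum, ← add_sum_erase P _ hp, ← add_sum_erase P (fun q => t.Ev W (G p) * t.Ev W (G q)) hp]
    have e3 : ∑ q ∈ P.erase p, t.Ev W (fun ω => G p ω * G q ω) =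
        ∑ q ∈ P.erase p, t.Ev W (G p) * t.Ev W (G q) :=
      sum_congr rfl fun q hq => h p hp q (mem_of_mem_erase hq) (ne_of_mem_erase hq).symm
    rw [e3]
    have e4 : t.Ev W (fun ω => G p ω * G p ω) = vr W t (G p) + t.Ev W (G p) * t.Ev W (G p) := by
      unfold vr
      have : (fun ω => G p ω * G p ω) = fun ω => G p ω ^ 2 := by funext ω; ring
      rw [this]
      ring
    rw [e4]
    ring
  rw [sum_congr rfl e2, sum_add_distrib, ← sum_mul_sum]
  ring

/-- convexity of the variance -/
theorem vr_convex (hW : 0 < W) (t : RT Ω) (Y : Finset ι) (w : ι → ℝ) (X : ι → Ω → ℝ)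
    (hw : ∀ y ∈ Y, 0 ≤ w y) (hw1 : ∑ y ∈ Y, w y ≤ 1) :
    vr W t (fun ω => ∑ y ∈ Y, w y * X y ω) ≤ ∑ y ∈ Y, w y * vr W t (X y) := by
  rw [← vr_eq hW]
  have e1 : ∀ y, vr W t (X y) = t.Ev W fun ω => (X y ω - t.Ev W (X y)) ^ 2 := fun y =>
    (vr_eq hW t (X y)).symm
  have e2 : ∑ y ∈ Y, w y * vr W t (X y) =
      t.Ev W fun ω => ∑ y ∈ Y, w y * (X y ω - t.Ev W (X y)) ^ 2 := by
    rw [Ev_sum]
    refine sum_congr rfl fun y _ => ?_
    rw [Ev_mul_left, e1]
  rw [e2]
  refine Ev_mono fun ω => ?_
  have e3 : t.Ev W (fun ω => ∑ y ∈ Y, w y * X y ω) = ∑ y ∈ Y, w y * t.Ev W (X y) := by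
    rw [Ev_sum]
    exact sum_congr rfl fun y _ => Ev_mul_left W t _ _
  rw [e3, ← sum_sub_distrib]
  have e4 : ∑ y ∈ Y, (w y * X y ω - w y * t.Ev W (X y)) =
      ∑ y ∈ Y, w y * (X y ω - t.Ev W (X y)) := sum_congr rfl fun y _ => by ring
  rw [e4]
  set a : ι → ℝ := fun y => X y ω - t.Ev W (X y) with ha
  have h1 : (∑ y ∈ Y, w y * a y) ^ 2 ≤ (∑ y ∈ Y, w y) * ∑ y ∈ Y, w y * a y ^ 2 := by
    refine Finset.sum_sq_le_sum_mul_sum_of_sq_eq_mul Y hw
      (fun y hy => mul_nonneg (hw y hy) (sq_nonneg _)) fun y _ => ?_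
    ring
  have h2 : 0 ≤ ∑ y ∈ Y, w y * a y ^ 2 :=
    sum_nonneg fun y hy => mul_nonneg (hw y hy) (sq_nonneg _)
  calc (∑ y ∈ Y, w y * a y) ^ 2 ≤ (∑ y ∈ Y, w y) * ∑ y ∈ Y, w y * a y ^ 2 := h1
    _ ≤ 1 * ∑ y ∈ Y, w y * a y ^ 2 := mul_le_mul_of_nonneg_right hw1 h2
    _ = _ := one_mul _

theorem vr_mul_left (t : RT Ω) (c : ℝ) (f : Ω → ℝ) :
    vr W t (fun ω => c * f ω) = c ^ 2 * vr W t f := by
  unfold vr
  have e : (fun ω => (c * f ω) ^ 2) = fun ω => c ^ 2 * f ω ^ 2 := by funext ω; ring
  rw [e, Ev_mul_left, Ev_mul_left]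
  ring

theorem vr_const_add (hW : 0 < W) (t : RT Ω) (c : ℝ) (f : Ω → ℝ) :
    vr W t (fun ω => c + f ω) = vr W t f := by
  unfold vr
  have e : (fun ω => (c + f ω) ^ 2) = fun ω => f ω ^ 2 + ((2 * c) * f ω + c ^ 2) := by
    funext ω; ring
  rw [e, Ev_add, Ev_add, Ev_mul_left, Ev_const hW, Ev_add, Ev_const hW]
  ring

theorem vr_const (hW : 0 < W) (t : RT Ω) (c : ℝ) : vr W t (fun _ => c) = 0 := by
  unfold vr
  rw [Ev_const hW, Ev_const hW]
  ring

end sq

/-! ### words and keys together -/

section joint

variable {α κ : Type} [DecidableEq κ] [Inhabited α] {W : ℕ}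

/-- mean over one window: first `C` words, then the results of the requested keys -/
noncomputable def JE (W C : ℕ) (ks : List ℕ → List κ) (sub : κ → RT α)
    (F : List ℕ → (κ → Option α) → ℝ) : ℝ :=
  (reps C draw).Ev W fun rs => (seqL ((ks rs).map sub)).Ev W fun res => F rs (look (ks rs) res)

/-- the same as a random computation -/
def joint (C : ℕ) (ks : List ℕ → List κ) (sub : κ → RT α) : RT (List ℕ × (κ → Option α)) :=
  (reps C draw).bind fun rs => (seqL ((ks rs).map sub)).bind fun res =>
    ret (rs, look (ks rs) res)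

theorem Ev_joint (C : ℕ) (ks : List ℕ → List κ) (sub : κ → RT α)
    (F : List ℕ × (κ → Option α) → ℝ) :
    (joint C ks sub).Ev W F = JE W C ks sub fun rs Z => F (rs, Z) := by
  unfold joint JE
  rw [Ev_bind]
  simp only [Ev_bind, Ev_ret]

/-- `f` depends on the words in `A` and on the keys in `A'`, and the requested keys of `A'` depend
only on the words in `A` -/
structure DepJ (ks : List ℕ → List κ) (A : Set ℕ) (A' : κ → Prop)
    (f : List ℕ × (κ → Option α) → ℝ) : Prop where
  key : ∀ rs, DepK A' fun Z => f (rs, Z)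
  word : ∀ rs rs' : List ℕ, (∀ i ∈ A, rs[i]? = rs'[i]?) → ∀ Z, f (rs, Z) = f (rs', Z)

theorem DepJ.inner (hW : 0 < W) {ks : List ℕ → List κ} {A : Set ℕ} {A' : κ → Prop}
    [DecidablePred A'] {f : List ℕ × (κ → Option α) → ℝ} (h : DepJ ks A A' f)
    (hks : ∀ rs rs' : List ℕ, (∀ i ∈ A, rs[i]? = rs'[i]?) →
      (ks rs).filter A' = (ks rs').filter A') (sub : κ → RT α) :
    Dep A fun rs => (seqL ((ks rs).map sub)).Ev W fun res => f (rs, look (ks rs) res) := by
  intro rs rs' hrs
  show (seqL ((ks rs).map sub)).Ev W (fun res => f (rs, look (ks rs) res)) =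
    (seqL ((ks rs').map sub)).Ev W (fun res => f (rs', look (ks rs') res))
  rw [Ev_look_filter hW sub (ks rs) (h.key rs), Ev_look_filter hW sub (ks rs') (h.key rs'),
    hks rs rs' hrs]
  congr 1
  funext res
  exact h.word rs rs' hrs _

/-- **functions of disjoint blocks are independent** -/
theorem joint_indep (hW : 0 < W) (C : ℕ) {ks : List ℕ → List κ} (sub : κ → RT α) {A B : Set ℕ}
    {A' B' : κ → Prop} [DecidablePred A'] [DecidablePred B'] (hAB : ∀ i ∈ A, i ∉ B)
    (hAB' : ∀ k, A' k → ¬ B' k) {f g : List ℕ × (κ → Option α) → ℝ} (hf : DepJ ks A A' f)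
    (hg : DepJ ks B B' g)
    (hks : ∀ rs rs' : List ℕ, (∀ i ∈ A, rs[i]? = rs'[i]?) →
      (ks rs).filter A' = (ks rs').filter A')
    (hks' : ∀ rs rs' : List ℕ, (∀ i ∈ B, rs[i]? = rs'[i]?) →
      (ks rs).filter B' = (ks rs').filter B') :
    (joint C ks sub).Ev W (fun x => f x * g x) =
      (joint C ks sub).Ev W f * (joint C ks sub).Ev W g := by
  rw [Ev_joint, Ev_joint, Ev_joint]
  unfold JE
  have e : ∀ rs, (seqL ((ks rs).map sub)).Ev W
      (fun res => f (rs, look (ks rs) res) * g (rs, look (ks rs) res)) =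
      (seqL ((ks rs).map sub)).Ev W (fun res => f (rs, look (ks rs) res)) *
        (seqL ((ks rs).map sub)).Ev W (fun res => g (rs, look (ks rs) res)) := fun rs =>
    look_indep hW sub (ks rs) hAB' (F := fun Z => f (rs, Z)) (G := fun Z => g (rs, Z))
      (hf.key rs) (hg.key rs)
  simp only [e]
  rw [reps_eq_seqL]
  exact seqL_indep hW _ hAB (hf.inner hW hks sub) (hg.inner hW hks' sub)

/-- **the window**: `S q` depends on block `q` only: second moment of the sum -/
theorem joint_sq (hW : 0 < W) (C N : ℕ) {ks : List ℕ → List κ} (sub : κ → RT α)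
    (A : ℕ → Set ℕ) (A' : ℕ → κ → Prop) [∀ q, DecidablePred (A' q)]
    (hA : ∀ q < N, ∀ q' < N, q ≠ q' → ∀ i ∈ A q, i ∉ A q')
    (hA' : ∀ q < N, ∀ q' < N, q ≠ q' → ∀ k, A' q k → ¬ A' q' k)
    (hks : ∀ q < N, ∀ rs rs' : List ℕ, (∀ i ∈ A q, rs[i]? = rs'[i]?) →
      (ks rs).filter (A' q) = (ks rs').filter (A' q))
    (S : ℕ → List ℕ × (κ → Option α) → ℝ) (hS : ∀ q < N, DepJ ks (A q) (A' q) (S q)) (c : ℝ) :
    (joint C ks sub).Ev W (fun x => (c + ∑ q ∈ range N, S q x) ^ 2) =
      (c + ∑ q ∈ range N, (joint C ks sub).Ev W (S q)) ^ 2 +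
        ∑ q ∈ range N, vr W (joint C ks sub) (S q) := by
  refine sq_sum_pair hW (joint C ks sub) (range N) S c fun p hp q hq hpq => ?_
  have hp' := mem_range.1 hp
  have hq' := mem_range.1 hq
  exact joint_indep hW C sub (hA p hp' q hq' hpq) (hA' p hp' q hq' hpq) (hS p hp') (hS q hq')
    (hks p hp') (hks q hq')

/-- law of a function of one word and of the keys in `A'` -/
theorem Ev_joint_word (hW : 0 < W) {C i : ℕ} (hi : i < C) {ks : List ℕ → List κ}
    (sub : κ → RT α) (f : List ℕ × (κ → Option α) → ℝ) (φ : ℕ → ℝ)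
    (h : ∀ rs : List ℕ, rs.length = C →
      (seqL ((ks rs).map sub)).Ev W (fun res => f (rs, look (ks rs) res)) = φ (rs.getD i 0)) :
    (joint C ks sub).Ev W f = draw.Ev W φ := by
  rw [Ev_joint]
  unfold JE
  have h1 : (reps C draw).Ev W (fun rs => (seqL ((ks rs).map sub)).Ev W
      fun res => f (rs, look (ks rs) res)) = (reps C draw).Ev W fun rs => φ (rs.getD i 0) := by
    refine Ev_congr_all ?_
    rw [reps_eq_seqL]
    refine (All_seqL_length W _).mono fun rs hrs => h rs ?_
    simpa using hrs
  rw [h1, reps_eq_seqL]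
  have h2 := Ev_seqL_get hW (List.replicate C draw) (i := i) (by simpa using hi)
    (fun o => φ (o.getD 0))
  rw [List.getElem_replicate] at h2
  simp only [Option.getD_some] at h2
  rw [← h2]
  rfl

end joint

/-! ### a thinned or copied request -/

section spawn

variable {α κ : Type} [DecidableEq κ] [Inhabited α] {W : ℕ}

/-- sum of the results of the copies `key 0 .. key (N-1)` -/
theorem Ev_look_sum (hW : 0 < W) (sub : κ → RT α) (ks : List κ) (N : ℕ) (key : ℕ → κ)
    (hk : ∀ s < N, key s ∈ ks) (val : Option α → ℝ) {m : ℝ}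
    (hm : ∀ s < N, (sub (key s)).Ev W (fun a => val (some a)) = m) :
    (seqL (ks.map sub)).Ev W (fun res => ∑ s ∈ range N, val (look ks res (key s))) = N * m := by
  rw [Ev_sum]
  have : ∀ s ∈ range N, (seqL (ks.map sub)).Ev W (fun res => val (look ks res (key s))) = m :=
    fun s hs => by rw [Ev_look hW sub ks (hk s (mem_range.1 hs)), hm s (mem_range.1 hs)]
  rw [sum_congr rfl this, sum_const, card_range, nsmul_eq_mul]

theorem Ev_look_sum_sq (hW : 0 < W) (sub : κ → RT α) (ks : List κ) (N : ℕ) (key : ℕ → κ)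
    (hk : ∀ s < N, key s ∈ ks) (hinj : ∀ s < N, ∀ s' < N, key s = key s' → s = s')
    (val : Option α → ℝ) {m v : ℝ}
    (hm : ∀ s < N, (sub (key s)).Ev W (fun a => val (some a)) = m)
    (hv : ∀ s < N, vr W (sub (key s)) (fun a => val (some a)) = v) :
    (seqL (ks.map sub)).Ev W (fun res => (∑ s ∈ range N, val (look ks res (key s))) ^ 2) =
      (N * m) ^ 2 + N * v := by
  have h := sq_sum_pair hW (seqL (ks.map sub)) (range N)
    (fun s res => val (look ks res (key s))) 0 fun p hp q hq hpq => by
      refine look_indep hW sub ks (A := fun k => k = key p) (B := fun k => k = key q) ?_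
        (F := fun Z => val (Z (key p))) (G := fun Z => val (Z (key q))) ?_ ?_
      · rintro k rfl h'
        exact hpq (hinj p (mem_range.1 hp) q (mem_range.1 hq) h')
      · intro Z Z' hZ
        show val (Z (key p)) = val (Z' (key p))
        rw [hZ _ rfl]
      · intro Z Z' hZ
        show val (Z (key q)) = val (Z' (key q))
        rw [hZ _ rfl]
  simp only [zero_add] at h
  rw [h]
  have h1 : ∀ s ∈ range N, (seqL (ks.map sub)).Ev W (fun res => val (look ks res (key s))) = m :=
    fun s hs => by rw [Ev_look hW sub ks (hk s (mem_range.1 hs)), hm s (mem_range.1 hs)]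
  have h2 : ∀ s ∈ range N, vr W (seqL (ks.map sub)) (fun res => val (look ks res (key s))) = v :=
    fun s hs => by
      rw [← hv s (mem_range.1 hs)]
      unfold vr
      rw [h1 s hs, Ev_look hW sub ks (hk s (mem_range.1 hs)) (fun o => val o ^ 2),
        hm s (mem_range.1 hs)]
  rw [sum_congr rfl h1, sum_congr rfl h2, sum_const, sum_const, card_range, nsmul_eq_mul,
    nsmul_eq_mul]

/-- the hypotheses of a request: active iff the word `i` is `r` mod `2 ^ l` -/
structure Req (ks : List ℕ → List κ) (C i l r N : ℕ) (key : ℕ → κ) : Prop where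
  hi : i < C
  hr : r < 2 ^ l
  hN : 0 < N
  hlN : l = 0 ∨ N = 1
  act : ∀ rs : List ℕ, rs.length = C → rs.getD i 0 % 2 ^ l = r → ∀ s < N, key s ∈ ks rs
  pas : ∀ rs : List ℕ, rs.length = C → rs.getD i 0 % 2 ^ l ≠ r → ∀ s < N, key s ∉ ks rs
  inj : ∀ s < N, ∀ s' < N, key s = key s' → s = s'

variable {ks : List ℕ → List κ} {C i l r N : ℕ} {key : ℕ → κ}

/-- **mean of a request** -/
theorem Req.Ev (h : Req ks C i l r N key) (hW : 0 < W) (hd : 2 ^ l ∣ W) (sub : κ → RT α)
    (val : Option α → ℝ) (h0 : val none = 0) {m : ℝ}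
    (hm : ∀ s < N, (sub (key s)).Ev W (fun a => val (some a)) = m) :
    (joint C ks sub).Ev W (fun x => 2 ^ l * (∑ s ∈ range N, val (x.2 (key s))) / N) = m := by
  have h1 := Ev_joint_word hW h.hi (ks := ks) sub
    (fun x : List ℕ × (κ → Option α) => 2 ^ l * (∑ s ∈ range N, val (x.2 (key s))) / N)
    (fun v => if v % 2 ^ l = r then 2 ^ l * m else 0) ?_
  · rw [h1, Ev_coin hW hd h.hr]
    have : (2 : ℝ) ^ l ≠ 0 := by positivity
    field_simp
    ring
  · intro rs hrs
    split_ifs with ha
    · have e : (fun res : List α =>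
          2 ^ l * (∑ s ∈ range N, val (look (ks rs) res (key s))) / (N : ℝ)) = fun res =>
          (2 ^ l / N) * ∑ s ∈ range N, val (look (ks rs) res (key s)) := by
        funext res; ring
      show (seqL ((ks rs).map sub)).Ev W (fun res =>
          2 ^ l * (∑ s ∈ range N, val (look (ks rs) res (key s))) / (N : ℝ)) = _
      rw [e, Ev_mul_left, Ev_look_sum hW sub (ks rs) N key (h.act rs hrs ha) val hm]
      have : (N : ℝ) ≠ 0 := by exact_mod_cast h.hN.ne'
      field_simp
    · show (seqL ((ks rs).map sub)).Ev W (fun res =>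
          2 ^ l * (∑ s ∈ range N, val (look (ks rs) res (key s))) / (N : ℝ)) = _
      have e : ∀ res : List α, 2 ^ l * (∑ s ∈ range N, val (look (ks rs) res (key s))) / (N : ℝ) =
          0 := by
        intro res
        rw [sum_eq_zero fun s hs => ?_]
        · simp
        · rw [look_notMem (h.pas rs hrs ha s (mem_range.1 hs)), h0]
      simp only [e]
      exact Ev_const hW _ _

/-- **second moment of a request** -/
theorem Req.Ev_sq (h : Req ks C i l r N key) (hW : 0 < W) (hd : 2 ^ l ∣ W) (sub : κ → RT α)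
    (val : Option α → ℝ) (h0 : val none = 0) {m v : ℝ}
    (hm : ∀ s < N, (sub (key s)).Ev W (fun a => val (some a)) = m)
    (hv : ∀ s < N, vr W (sub (key s)) (fun a => val (some a)) = v) :
    (joint C ks sub).Ev W (fun x => (2 ^ l * (∑ s ∈ range N, val (x.2 (key s))) / N) ^ 2) =
      2 ^ l * (m ^ 2 + v / N) := by
  have h1 := Ev_joint_word hW h.hi (ks := ks) sub
    (fun x : List ℕ × (κ → Option α) => (2 ^ l * (∑ s ∈ range N, val (x.2 (key s))) / N) ^ 2)
    (fun w => if w % 2 ^ l = r then (2 ^ l) ^ 2 * (m ^ 2 + v / N) else 0) ?_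
  · rw [h1, Ev_coin hW hd h.hr]
    have : (2 : ℝ) ^ l ≠ 0 := by positivity
    field_simp
    ring
  · intro rs hrs
    split_ifs with ha
    · have e : (fun res : List α =>
          (2 ^ l * (∑ s ∈ range N, val (look (ks rs) res (key s))) / (N : ℝ)) ^ 2) = fun res =>
          ((2 ^ l) ^ 2 / N ^ 2) * (∑ s ∈ range N, val (look (ks rs) res (key s))) ^ 2 := by
        funext res; ring
      show (seqL ((ks rs).map sub)).Ev W (fun res =>
          (2 ^ l * (∑ s ∈ range N, val (look (ks rs) res (key s))) / (N : ℝ)) ^ 2) = _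
      rw [e, Ev_mul_left, Ev_look_sum_sq hW sub (ks rs) N key (h.act rs hrs ha) h.inj val hm hv]
      have : (N : ℝ) ≠ 0 := by exact_mod_cast h.hN.ne'
      field_simp
    · show (seqL ((ks rs).map sub)).Ev W (fun res =>
          (2 ^ l * (∑ s ∈ range N, val (look (ks rs) res (key s))) / (N : ℝ)) ^ 2) = _
      have e : ∀ res : List α,
          (2 ^ l * (∑ s ∈ range N, val (look (ks rs) res (key s))) / (N : ℝ)) ^ 2 = 0 := by
        intro res
        rw [sum_eq_zero fun s hs => ?_]
        · simp
        · rw [look_notMem (h.pas rs hrs ha s (mem_range.1 hs)), h0]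
      simp only [e]
      exact Ev_const hW _ _

/-- **variance of a request**: at most `2 ^ l / N` times the second moment -/
theorem Req.vr_le (h : Req ks C i l r N key) (hW : 0 < W) (hd : 2 ^ l ∣ W) (sub : κ → RT α)
    (val : Option α → ℝ) (h0 : val none = 0) {m M : ℝ}
    (hm : ∀ s < N, (sub (key s)).Ev W (fun a => val (some a)) = m)
    (hM : ∀ s < N, (sub (key s)).Ev W (fun a => val (some a) ^ 2) = M) :
    vr W (joint C ks sub) (fun x => 2 ^ l * (∑ s ∈ range N, val (x.2 (key s))) / N) ≤
      2 ^ l / N * M := by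
  have hv : ∀ s < N, vr W (sub (key s)) (fun a => val (some a)) = M - m ^ 2 := fun s hs => by
    unfold vr
    rw [hM s hs, hm s hs]
  unfold vr
  rw [h.Ev_sq hW hd sub val h0 hm hv, h.Ev hW hd sub val h0 hm]
  have hN : (0 : ℝ) < N := by exact_mod_cast h.hN
  rcases h.hlN with h1 | h1
  · subst h1
    have : (M - m ^ 2) / N ≤ M / N := by
      refine div_le_div_of_nonneg_right ?_ hN.le
      nlinarith [sq_nonneg m]
    simp only [pow_zero]
    have e : (1 : ℝ) / N * M = M / N := by ring
    rw [e]
    linarith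
  · subst h1
    simp only [Nat.cast_one, div_one]
    nlinarith [sq_nonneg m]

end spawn

end Crest.Agent.R288.SeqL769
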