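import Crest.Agent.R288.AlgB_45
import Crest.Agent.R288.Jump_984
import Crest.Agent.R288.SpawnA_944

/-!
# R288: results of a list of independent computations, seen through keys (`seqL`, `look` of AlgB_45)

* `Ev_seqL_cons`, `All_seqL`, `Ev_seqL_append`.
* `asg ks t : RT (κ → Option α)` : run `t k` for every key `k` of the list, return the assignment
  key ↦ result; `Ev_seqL_look` : a function of `look ks res` only sees `asg`.
* `Ev_asg_perm` : the order of the keys is irrelevant; `Ev_asg_append`, `Ev_asg_split` : Fubini for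
  a splitting of the keys; `Ev_asg_drop`, `Ev_asg_sub` : a function which only looks at some keys;
  `Ev_asg_one` : one key.
* `sumK ks f m` : `∑_{k ∈ ks} f k (m k)`; `Ev_sumK`, `Vr_sumK` : mean and variance are the sums of
  the means and variances.
* `All_asg` : what holds for every result.
-/

set_option autoImplicit false
set_option linter.unusedSectionVars false

namespace Crest.Agent.R288.SeqL891

open Finset Crest.Agent.R295.Rnd627 Crest.Agent.R295.Rnd627.RT
open Crest.Agent.R288.Alg45 Crest.Agent.R288.SpawnA944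
open Crest.Agent.R288.Jump984 (Ev_comm)

variable {α κ β : Type} [DecidableEq κ]

/-! ## `seqL` -/

theorem Ev_seqL_nil (M : ℕ) (f : List α → ℝ) : (seqL ([] : List (RT α))).Ev M f = f [] := rfl

theorem Ev_seqL_cons (M : ℕ) (t : RT α) (ts : List (RT α)) (f : List α → ℝ) :
    (seqL (t :: ts)).Ev M f = t.Ev M fun a => (seqL ts).Ev M fun l => f (a :: l) := by
  simp only [seqL, Ev_bind, Ev_ret]

theorem All_seqL_cons (M : ℕ) (t : RT α) (ts : List (RT α)) (P : List α → Prop) :
    (seqL (t :: ts)).All M P ↔ t.All M fun a => (seqL ts).All M fun l => P (a :: l) := by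
  simp only [seqL, All_bind, All_ret]

theorem Ev_seqL_append (M : ℕ) (ts ts' : List (RT α)) (f : List α → ℝ) :
    (seqL (ts ++ ts')).Ev M f = (seqL ts).Ev M fun l => (seqL ts').Ev M fun l' => f (l ++ l') := by
  induction ts generalizing f with
  | nil => simp [Ev_seqL_nil]
  | cons t ts ih =>
    rw [List.cons_append, Ev_seqL_cons, Ev_seqL_cons]
    congr 1
    funext a
    rw [ih]
    rfl

/-- every result satisfies the property of its computation -/
theorem All_seqL {M : ℕ} {γ : Type} (ks : List γ) (t : γ → RT α) (P : γ → α → Prop)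
    (h : ∀ k ∈ ks, (t k).All M (P k)) :
    (seqL (ks.map t)).All M fun l => List.Forall₂ P ks l := by
  induction ks with
  | nil => exact List.Forall₂.nil
  | cons k ks ih =>
    rw [List.map_cons, All_seqL_cons]
    refine (h k (by simp)).mono fun a ha => ?_
    exact (ih fun k' hk' => h k' (by simp [hk'])).mono fun l hl => List.Forall₂.cons ha hl

theorem All_seqL_length {M : ℕ} (ts : List (RT α)) :
    (seqL ts).All M fun l => l.length = ts.length := by
  induction ts with
  | nil => rfl
  | cons t ts ih =>
    rw [All_seqL_cons]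
    exact All.of_forall fun a => ih.mono fun l hl => by simp [hl]

/-! ## assignments -/

/-- update -/
def upd (k : κ) (a : α) (m : κ → Option α) : κ → Option α := fun k' => if k' = k then some a else m k'

@[simp] theorem upd_self (k : κ) (a : α) (m : κ → Option α) : upd k a m k = some a := by
  simp [upd]

theorem upd_ne {k k' : κ} (h : k' ≠ k) (a : α) (m : κ → Option α) : upd k a m k' = m k' := by
  simp [upd, h]

theorem upd_comm {k k' : κ} (h : k ≠ k') (a b : α) (m : κ → Option α) :
    upd k a (upd k' b m) = upd k' b (upd k a m) := by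
  funext x
  unfold upd
  by_cases h1 : x = k
  · subst h1; simp [h]
  · simp [h1]

/-- run `t k` for every key of the list -/
def asg : List κ → (κ → RT α) → RT (κ → Option α)
  | [], _ => .ret fun _ => none
  | k :: ks, t => (t k).bind fun a => (asg ks t).map fun m => upd k a m

@[simp] theorem Ev_asg_nil (M : ℕ) (t : κ → RT α) (H : (κ → Option α) → ℝ) :
    (asg [] t).Ev M H = H fun _ => none := rfl

theorem Ev_asg_cons (M : ℕ) (k : κ) (ks : List κ) (t : κ → RT α) (H : (κ → Option α) → ℝ) :
    (asg (k :: ks) t).Ev M H = (t k).Ev M fun a => (asg ks t).Ev M fun m => H (upd k a m) := by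
  simp only [asg, Ev_bind, Ev_map]

theorem All_asg_cons (M : ℕ) (k : κ) (ks : List κ) (t : κ → RT α) (P : (κ → Option α) → Prop) :
    (asg (k :: ks) t).All M P ↔ (t k).All M fun a => (asg ks t).All M fun m => P (upd k a m) := by
  simp only [asg, All_bind, RT.map, All_ret]

theorem look_nil [Inhabited α] (res : List α) (k : κ) : look ([] : List κ) res k = none := by
  simp [look]

theorem look_cons [Inhabited α] (k : κ) (ks : List κ) (a : α) (res : List α) :
    look (k :: ks) (a :: res) = upd k a (look ks res) := by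
  funext k'
  unfold look upd
  rw [List.zip_cons_cons, List.lookup_cons]
  by_cases h : k' = k
  · subst h; simp
  · have h1 : (k' == k) = false := by simpa using h
    rw [h1, if_neg h]

/-- a function of `look ks res` only sees `asg` -/
theorem Ev_seqL_look [Inhabited α] (M : ℕ) (ks : List κ) (t : κ → RT α)
    (H : (κ → Option α) → ℝ) :
    (seqL (ks.map t)).Ev M (fun res => H (look ks res)) = (asg ks t).Ev M H := by
  induction ks generalizing H with
  | nil =>
    rw [List.map_nil, Ev_seqL_nil, Ev_asg_nil]
    rw [show look ([] : List κ) ([] : List α) = fun _ => none from by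
      funext k; exact look_nil _ _]
  | cons k ks ih =>
    rw [List.map_cons, Ev_seqL_cons, Ev_asg_cons]
    congr 1
    funext a
    simp only [look_cons]
    exact ih fun m => H (upd k a m)

theorem All_seqL_look [Inhabited α] (M : ℕ) (ks : List κ) (t : κ → RT α)
    (P : (κ → Option α) → Prop) :
    (seqL (ks.map t)).All M (fun res => P (look ks res)) ↔ (asg ks t).All M P := by
  induction ks generalizing P with
  | nil =>
    rw [List.map_nil]
    change P (look [] []) ↔ P fun _ => none
    have : look ([] : List κ) ([] : List α) = fun _ => none := by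
      funext k; exact look_nil _ _
    rw [this]
  | cons k ks ih =>
    rw [List.map_cons, All_seqL_cons, All_asg_cons]
    simp only [look_cons]
    have : (fun a => (seqL (List.map t ks)).All M fun l => P (upd k a (look ks l))) =
        fun a => (asg ks t).All M fun m => P (upd k a m) := by
      funext a
      exact propext (ih fun m => P (upd k a m))
    rw [this]

/-! ## keys without a request -/

/-- the assignment is `none` outside of the list -/
theorem All_asg_none {M : ℕ} (ks : List κ) (t : κ → RT α) :
    (asg ks t).All M fun m => ∀ k, k ∉ ks → m k = none := by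
  induction ks with
  | nil => exact fun k _ => rfl
  | cons k ks ih =>
    rw [All_asg_cons]
    refine All.of_forall fun a => ih.mono fun m hm k' hk' => ?_
    rw [List.mem_cons, not_or] at hk'
    rw [upd_ne hk'.1]
    exact hm k' hk'.2

/-- what holds for every result; and every request has a result -/
theorem All_asg {M : ℕ} (ks : List κ) (t : κ → RT α) (P : κ → α → Prop)
    (h : ∀ k ∈ ks, (t k).All M (P k)) :
    (asg ks t).All M fun m => ∀ k ∈ ks, ∃ a, m k = some a ∧ P k a := by
  induction ks with
  | nil => exact fun k hk => absurd hk (by simp)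
  | cons k ks ih =>
    rw [All_asg_cons]
    refine (h k (by simp)).mono fun a ha => ?_
    refine (ih fun k' hk' => h k' (by simp [hk'])).mono fun m hm k' hk' => ?_
    by_cases hkk : k' = k
    · subst hkk
      exact ⟨a, upd_self _ _ _, ha⟩
    · rw [upd_ne hkk]
      exact hm k' ((List.mem_cons.1 hk').resolve_left hkk)

/-! ## order, Fubini -/

theorem Ev_asg_swap (M : ℕ) {k k' : κ} (h : k ≠ k') (ks : List κ) (t : κ → RT α)
    (H : (κ → Option α) → ℝ) :
    (asg (k :: k' :: ks) t).Ev M H = (asg (k' :: k :: ks) t).Ev M H := by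
  simp only [Ev_asg_cons]
  rw [Ev_comm]
  congr 1
  funext b
  congr 1
  funext a
  congr 1
  funext m
  rw [upd_comm h]

/-- the order of the keys is irrelevant -/
theorem Ev_asg_perm {M : ℕ} {ks ks' : List κ} (h : ks.Perm ks') (hn : ks.Nodup) (t : κ → RT α)
    (H : (κ → Option α) → ℝ) : (asg ks t).Ev M H = (asg ks' t).Ev M H := by
  induction h generalizing H with
  | nil => rfl
  | cons k _ ih =>
    rw [Ev_asg_cons, Ev_asg_cons]
    congr 1
    funext a
    exact ih (List.nodup_cons.1 hn).2 _
  | swap k k' ks =>
    have hne : k' ≠ k := by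
      intro he
      rw [he] at hn
      exact (List.nodup_cons.1 hn).1 (by simp)
    exact Ev_asg_swap M hne ks t H
  | trans h1 _ ih1 ih2 => rw [ih1 hn, ih2 (h1.nodup_iff.1 hn)]

/-- first assignment with priority -/
def mrg (m m' : κ → Option α) : κ → Option α := fun k => (m k).orElse fun _ => m' k

theorem mrg_none (m : κ → Option α) : mrg (fun _ => none) m = m := by
  funext k; simp [mrg]

theorem mrg_none' (m : κ → Option α) : mrg m (fun _ => none) = m := by
  funext k; unfold mrg; cases m k <;> rfl

theorem upd_mrg (k : κ) (a : α) (m m' : κ → Option α) : mrg (upd k a m) m' = upd k a (mrg m m') := by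
  funext k'
  unfold mrg upd
  by_cases h : k' = k
  · simp [h]
  · simp [h]

theorem Ev_asg_append (M : ℕ) (ks ks' : List κ) (t : κ → RT α) (H : (κ → Option α) → ℝ) :
    (asg (ks ++ ks') t).Ev M H = (asg ks t).Ev M fun m => (asg ks' t).Ev M fun m' => H (mrg m m') := by
  induction ks generalizing H with
  | nil => simp only [List.nil_append, Ev_asg_nil, mrg_none]
  | cons k ks ih =>
    rw [List.cons_append, Ev_asg_cons, Ev_asg_cons]
    congr 1
    funext a
    rw [ih]
    simp only [upd_mrg]

/-- **Fubini for a splitting of the keys** -/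
theorem Ev_asg_split {M : ℕ} (ks : List κ) (hn : ks.Nodup) (p : κ → Bool) (t : κ → RT α)
    (H : (κ → Option α) → ℝ) :
    (asg ks t).Ev M H = (asg (ks.filter p) t).Ev M fun m =>
      (asg (ks.filter fun k => !p k) t).Ev M fun m' => H (mrg m m') := by
  rw [← Ev_asg_append]
  exact Ev_asg_perm (List.filter_append_perm p ks).symm hn t H

/-- a function which does not look at the keys outside of `p` -/
theorem Ev_asg_drop {M : ℕ} (hM : 0 < M) (ks : List κ) (hn : ks.Nodup) (p : κ → Bool)
    (t : κ → RT α) (H : (κ → Option α) → ℝ)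
    (hH : ∀ m m' : κ → Option α, (∀ k, p k = true → m k = m' k) → H m = H m') :
    (asg ks t).Ev M H = (asg (ks.filter p) t).Ev M H := by
  rw [Ev_asg_split ks hn p t H]
  congr 1
  funext m
  have h1 : (asg (ks.filter fun k => !p k) t).All M fun m' => H (mrg m m') = H m := by
    refine (All_asg_none _ t).mono fun m' hm' => hH _ _ fun k hk => ?_
    unfold mrg
    rw [hm' k (by simp [hk])]
    cases m k <;> rfl
  rw [Ev_congr_all h1, Ev_const hM]

/-- a function which only looks at the keys of a shorter list `ls` -/
theorem Ev_asg_sub {M : ℕ} (hM : 0 < M) {ks ls : List κ} (hn : ks.Nodup) (hl : ls.Nodup)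
    (hs : ∀ k ∈ ls, k ∈ ks) (t : κ → RT α) (H : (κ → Option α) → ℝ)
    (hH : ∀ m m' : κ → Option α, (∀ k ∈ ls, m k = m' k) → H m = H m') :
    (asg ks t).Ev M H = (asg ls t).Ev M H := by
  rw [Ev_asg_drop hM ks hn (fun k => decide (k ∈ ls)) t H fun m m' h =>
    hH m m' fun k hk => h k (by simpa using hk)]
  refine Ev_asg_perm ?_ (hn.filter _) t H
  rw [List.perm_ext_iff_of_nodup (hn.filter _) hl]
  intro k
  simp only [List.mem_filter, decide_eq_true_eq]
  exact ⟨fun h => h.2, fun h => ⟨hs k h, h⟩⟩

/-- a function of one key -/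
theorem Ev_asg_one {M : ℕ} (hM : 0 < M) {ks : List κ} (hn : ks.Nodup) {k : κ} (hk : k ∈ ks)
    (t : κ → RT α) (f : Option α → ℝ) :
    (asg ks t).Ev M (fun m => f (m k)) = (t k).Ev M fun a => f (some a) := by
  rw [Ev_asg_sub hM hn (ls := [k]) (by simp) (by simpa using hk) t _
    fun m m' h => by rw [h k (by simp)]]
  rw [Ev_asg_cons]
  simp

/-! ## sums over the keys -/

/-- `∑_{k ∈ ks} f k (m k)` (keys without a result count `0`) -/
def sumK (ks : List κ) (f : κ → α → ℝ) (m : κ → Option α) : ℝ :=
  (ks.map fun k => match m k with | some a => f k a | none => 0).sum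

@[simp] theorem sumK_nil (f : κ → α → ℝ) (m : κ → Option α) : sumK [] f m = 0 := rfl

theorem sumK_cons (k : κ) (ks : List κ) (f : κ → α → ℝ) (m : κ → Option α) :
    sumK (k :: ks) f m = (match m k with | some a => f k a | none => 0) + sumK ks f m := by
  simp [sumK]

theorem sumK_congr {ks : List κ} {f : κ → α → ℝ} {m m' : κ → Option α} (h : ∀ k ∈ ks, m k = m' k) :
    sumK ks f m = sumK ks f m' := by
  unfold sumK
  congr 1
  exact List.map_congr_left fun k hk => by rw [h k hk]

theorem sumK_upd {k : κ} {ks : List κ} (hk : k ∉ ks) (f : κ → α → ℝ) (a : α) (m : κ → Option α) :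
    sumK (k :: ks) f (upd k a m) = f k a + sumK ks f m := by
  rw [sumK_cons, upd_self]
  congr 1
  exact sumK_congr fun k' hk' => upd_ne (by rintro rfl; exact hk hk') a m

/-- mean of a sum over the keys -/
theorem Ev_sumK {M : ℕ} (hM : 0 < M) (ks : List κ) (hn : ks.Nodup) (t : κ → RT α)
    (f : κ → α → ℝ) :
    (asg ks t).Ev M (sumK ks f) = (ks.map fun k => (t k).Ev M (f k)).sum := by
  induction ks with
  | nil => simp
  | cons k ks ih =>
    obtain ⟨h1, h2⟩ := List.nodup_cons.1 hn
    rw [Ev_asg_cons]
    simp only [sumK_upd h1]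
    rw [List.map_cons, List.sum_cons]
    have h3 : ∀ a, (asg ks t).Ev M (fun m => f k a + sumK ks f m) =
        f k a + (ks.map fun k => (t k).Ev M (f k)).sum := by
      intro a
      rw [Ev_add, Ev_const hM]
      congr 1
      exact ih h2
    simp only [h3]
    rw [Ev_add, Ev_const hM]

/-- variance of a sum over the keys -/
theorem Vr_sumK {M : ℕ} (hM : 0 < M) (ks : List κ) (hn : ks.Nodup) (t : κ → RT α)
    (f : κ → α → ℝ) :
    Vr M (asg ks t) (sumK ks f) = (ks.map fun k => Vr M (t k) (f k)).sum := by
  induction ks with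
  | nil => simp [asg]
  | cons k ks ih =>
    obtain ⟨h1, h2⟩ := List.nodup_cons.1 hn
    have e : Vr M (asg (k :: ks) t) (sumK (k :: ks) f) =
        Vr M ((t k).bind fun a => (asg ks t).map fun m => upd k a m) (sumK (k :: ks) f) := rfl
    rw [e, Vr_bind]
    have e1 : ∀ a, Vr M ((asg ks t).map fun m => upd k a m) (sumK (k :: ks) f) =
        Vr M (asg ks t) (sumK ks f) := by
      intro a
      rw [Vr_map]
      simp only [sumK_upd h1]
      exact Vr_add_const hM _ _ _
    have e2 : ∀ a, ((asg ks t).map fun m => upd k a m).Ev M (sumK (k :: ks) f) =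
        (asg ks t).Ev M (sumK ks f) + f k a := by
      intro a
      rw [Ev_map]
      simp only [sumK_upd h1]
      rw [Ev_add, Ev_const hM, add_comm]
    simp only [e1, e2]
    rw [Ev_const hM, Vr_add_const hM, List.map_cons, List.sum_cons, ih h2]
    ring

/-- mean of a sum over the keys of a sublist -/
theorem Ev_sumK_sub {M : ℕ} (hM : 0 < M) {ks ls : List κ} (hn : ks.Nodup) (hl : ls.Nodup)
    (hs : ∀ k ∈ ls, k ∈ ks) (t : κ → RT α) (f : κ → α → ℝ) :
    (asg ks t).Ev M (sumK ls f) = (ls.map fun k => (t k).Ev M (f k)).sum := by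
  rw [Ev_asg_sub hM hn hl hs t _ fun m m' h => sumK_congr h]
  exact Ev_sumK hM ls hl t f

/-- variance of a sum over the keys of a sublist -/
theorem Vr_sumK_sub {M : ℕ} (hM : 0 < M) {ks ls : List κ} (hn : ks.Nodup) (hl : ls.Nodup)
    (hs : ∀ k ∈ ls, k ∈ ks) (t : κ → RT α) (f : κ → α → ℝ) :
    Vr M (asg ks t) (sumK ls f) = (ls.map fun k => Vr M (t k) (f k)).sum := by
  have h : Vr M (asg ks t) (sumK ls f) = Vr M (asg ls t) (sumK ls f) := by
    unfold Vr
    rw [Ev_asg_sub hM hn hl hs t (fun m => sumK ls f m ^ 2)
        fun m m' h => by rw [sumK_congr h],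
      Ev_asg_sub hM hn hl hs t (sumK ls f) fun m m' h => sumK_congr h]
  rw [h]
  exact Vr_sumK hM ls hl t f

/-- second moment of a constant plus a sum over the keys of a sublist -/
theorem Ev_sumK_sq {M : ℕ} (hM : 0 < M) {ks ls : List κ} (hn : ks.Nodup) (hl : ls.Nodup)
    (hs : ∀ k ∈ ls, k ∈ ks) (t : κ → RT α) (f : κ → α → ℝ) (c : ℝ) :
    (asg ks t).Ev M (fun m => (c + sumK ls f m) ^ 2) =
      (c + (ls.map fun k => (t k).Ev M (f k)).sum) ^ 2 + (ls.map fun k => Vr M (t k) (f k)).sum := by
  have h1 := Ev_sq_eq M (asg ks t) fun m => c + sumK ls f m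
  rw [h1, Vr_add_const hM, Vr_sumK_sub hM hn hl hs, Ev_add, Ev_const hM]
  have h2 := Ev_sumK_sub hM hn hl hs t f
  have h3 : (asg ks t).Ev M (fun m => sumK ls f m) = (ls.map fun k => (t k).Ev M (f k)).sum := h2
  rw [h3]
  ring

end Crest.Agent.R288.SeqL891
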