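import Crest.Agent.R288.TopC_791
import Crest.Agent.R288.Num_414
import Crest.Agent.R288.Ed1_864

/-!
# R288: S0433 from HL programs (helper791)

`top433`: the literal statement of S0433 from
* `front`: deterministic HL command (few arrays): computes the mode (variable `1`: `0` = equal
  strings, `1` = run the exact routine, `2` = run the main program) and the fuel (variable `0`);
* `quad`: HL command (few arrays) computing the edit distance exactly (no time bound);
* `main`: HL command which in mode `2` with probability `≥ 2/3` ends within `fuel` with a good answer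
  in variable `0`.
-/

set_option autoImplicit false

namespace Crest.Agent.R288.Top791

open Crest.WordRAM Crest.Agent.R295.Core690 Crest.Agent.R295.Clock791 Crest.Agent.R295.Prob791
open Crest.Agent.R295.Top791 Crest.GraphRAM
open Crest.Agent.R295 Crest.Agent.R295.TopH791 Crest.Agent.R288.Num414

/-- the answer is good -/
def GoodD (ε : ℚ) (x y : List ℕ) (D : ℕ) : Prop :=
  editDist x y ≤ D ∧ (D : ℝ) ≤ (1 + (ε : ℝ)) * editDist x y

theorem goodD_exact {ε : ℚ} (hε : 0 < ε) (x y : List ℕ) : GoodD ε x y (editDist x y) := by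
  refine ⟨le_rfl, ?_⟩
  have h1 : (0 : ℝ) < (ε : ℝ) := by exact_mod_cast hε
  have h2 : (0 : ℝ) ≤ ((editDist x y : ℕ) : ℝ) := Nat.cast_nonneg _
  nlinarith

/-- compiled HL command with few arrays on the input of S0433, from the initial state -/
theorem cmp_small {a : ℕ} {x y : List ℕ} {ε : ℚ} (hs : Symb a x y) {p : HL.Cmd} {K₀ R₀ : ℕ}
    (hp : p.ids K₀ R₀) (hK₀ : K₀ ≤ 15) {n : ℕ} {Q : HL.State → Prop} (ρ : ℕ → ℕ)
    (h : HL.Runs ⟨2 ^ wl a x y ε, (inp x y ε).length + 1, ρ⟩ p (HL.initState (inp x y ε)) n Q) :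
    Core690.Runs (wl a x y ε) ρ
      (fun b => (inp x y ε).length ≤ b ∧ b < 17 * (inp x y ε).length + 16)
      (HL.cmp (K₀ + 1) (R₀ + 2) p) (initSt (wl a x y ε) (inp x y ε))
      ((p.wt + 1) * n + 6 * (inp x y ε).length + 6)
      (fun σ => ∃ s', Q s' ∧ σ.drawn = s'.drawn ∧ σ.regs 0 = s'.reg 0 ∧ σ.regs 1 = s'.reg 1) := by
  have h17 := seventeen_lt a x y ε
  have h3 := three_le x y ε
  set l := (inp x y ε).length with hl
  set w := wl a x y ε with hw
  obtain ⟨s', t, h1, h2, hQ⟩ := h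
  have hKL : l + (K₀ + 1) * (l + 1) ≤ 17 * l + 16 := by
    have : (K₀ + 1) * (l + 1) ≤ 16 * (l + 1) := Nat.mul_le_mul_right _ (by omega)
    omega
  have hKw : K₀ + 1 < 2 ^ w := by omega
  obtain ⟨σ', t', a1, a2, a3⟩ := HL.Ex.cmp (w := w) (K := K₀ + 1) (R := R₀ + 2)
    (e := ⟨2 ^ w, l + 1, ρ⟩) rfl (by omega) (by omega) (show l ≤ l + 1 by omega)
    (show l + (K₀ + 1) * (l + 1) < 2 ^ w by omega) hKw (by omega) (inp_lt ε hs)
    (p.ids_mono (by omega) (by omega) hp) h1
  refine ⟨σ', t', a1.mono fun b hb => ?_, ?_, s', hQ, a3.drawn, a3.reg 0 (by omega),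
    a3.reg 1 (by omega)⟩
  · have hb1 : l ≤ b := hb.1
    have hb2 : b < l + (K₀ + 1) * (l + 1) := hb.2
    exact ⟨hb1, by omega⟩
  · have : p.wt * t ≤ p.wt * n := Nat.mul_le_mul_left _ h2
    have e : (p.wt + 1) * n = p.wt * n + n := by ring
    omega

/-- total number of steps outside the exact routine -/
def bigT (cf r J cw cp : ℕ) (tf fu : ℕ → ℕ) (a L : ℕ) : ℕ :=
  (cf + 1) * tf L + (cp * cw + cp + 1) * fu L + (6 * cp + 100) * (L + 1) +
    (8 * cp + 200 + r + J) * 1 + 5 * ((a + 3) * Nat.clog 2 (L + 2))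

theorem bigT_al (cf r J cw cp : ℕ) {tf fu : ℕ → ℕ} (htf : AL tf) (hfu : AL fu) (a : ℕ) :
    AL (bigT cf r J cw cp tf fu a) := by
  unfold bigT
  have h1 : AL (fun L => (cf + 1) * tf L) := by
    have := htf.mul_sp (SP.const (cf + 1))
    simpa [mul_comm] using this
  have h2 : AL (fun L => (cp * cw + cp + 1) * fu L) := by
    have := hfu.mul_sp (SP.const (cp * cw + cp + 1))
    simpa [mul_comm] using this
  have h3 : AL (fun L => (6 * cp + 100) * (L + 1)) := by
    have := (AL.id.add (SP.const 1).al).mul_sp (SP.const (6 * cp + 100))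
    simpa [mul_comm] using this
  have h4 : AL (fun _ : ℕ => (8 * cp + 200 + r + J) * 1) := (SP.const _).al
  have h5 : AL (fun L => 5 * ((a + 3) * Nat.clog 2 (L + 2))) := by
    have := (SP.const 5).mul (SP.wordLen a)
    exact this.al
  exact (((h1.add h2).add h3).add h4).add h5

/-- **S0433 from HL programs.** -/
theorem top433 (front quad main : HL.Cmd) {K₀ R₀ : ℕ} (hfi : front.ids K₀ R₀)
    (hqi : quad.ids K₀ R₀) (hK₀ : K₀ ≤ 15) (hdet : front.det)
    (mode : List ℕ → List ℕ → ℚ → ℕ) (tf fu : ℕ → ℕ) (j₀ : ℕ) (htf : AL tf) (hfu : AL fu)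
    (hfu2 : ∀ L, fu L ≤ (L + 2) ^ 2) (hmode2 : ∀ x y ε, mode x y ε ≤ 2)
    (hmode0 : ∀ x y ε, mode x y ε = 0 ↔ x = y)
    (hmode1 : ∀ (a : ℕ) (ε : ℚ), 0 < ε → ε < 1 → ∃ N₀, ∀ x y : List ℕ, Symb a x y →
      N₀ ≤ x.length + y.length → mode x y ε ≠ 1)
    (Hfront : ∀ (a : ℕ) (ε : ℚ), 0 < ε → ε < 1 → ∀ x y, Symb a x y → ∀ ρ : ℕ → ℕ,
      HL.Runs ⟨2 ^ wl a x y ε, (inp x y ε).length + 1, ρ⟩ front (HL.initState (inp x y ε))
        (tf (inp x y ε).length) (fun s' => s'.reg 1 = mode x y ε ∧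
          (mode x y ε = 2 → s'.reg 0 = fu (inp x y ε).length)))
    (Hquad : ∀ (a : ℕ) (ε : ℚ), 0 < ε → ε < 1 → ∀ x y, Symb a x y → ∃ m, ∀ ρ : ℕ → ℕ,
      HL.Runs ⟨2 ^ wl a x y ε, (inp x y ε).length + 1, ρ⟩ quad (HL.initState (inp x y ε))
        m (fun s' => s'.reg 0 = editDist x y))
    (Hmain : ∀ (a : ℕ) (ε : ℚ), 0 < ε → ε < 1 → ∀ x y, Symb a x y → mode x y ε = 2 →
      2 ^ j₀ ≤ (inp x y ε).length →
      HPR (wl a x y ε) (((inp x y ε).length + 2) ^ 2) main (HL.initState (inp x y ε))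
        (fu (inp x y ε).length) (fun s' => GoodD ε x y (s'.reg 0)) (1 / 3)) :
    ∃ P : Crest.WordRAM.Program, ∀ (a : ℕ) (ε : ℚ), 0 < ε → ε < 1 →
      (∀ x y : List ℕ, (∀ s ∈ x ++ y, s < (x.length + y.length + 2) ^ a) →
        2 / 3 ≤ Crest.WordRAM.probHaltsWith P ((a + 3) * Nat.clog 2 ((stringsInput x y ++ ratWords ε).length + 2))
            (stringsInput x y ++ ratWords ε)
            (fun out => ∃ D : ℕ, out = [D] ∧ editDist x y ≤ D ∧
              (D : ℝ) ≤ (1 + (ε : ℝ)) * editDist x y)) ∧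
      (∀ x y : List ℕ, (∀ s ∈ x ++ y, s < (x.length + y.length + 2) ^ a) → x = y →
        ∀ ρ : ℕ → ℕ, ∃ T : ℕ, Crest.WordRAM.HaltsWithin P
            ((a + 3) * Nat.clog 2 ((stringsInput x y ++ ratWords ε).length + 2)) ρ
            (stringsInput x y ++ ratWords ε) T [0]) ∧
      ∀ δ : ℝ, 0 < δ → ∃ N₀ : ℕ, ∀ x y : List ℕ, N₀ ≤ x.length + y.length →
        (∀ s ∈ x ++ y, s < (x.length + y.length + 2) ^ a) →
        Crest.WordRAM.expectedTime P ((a + 3) * Nat.clog 2 ((stringsInput x y ++ ratWords ε).length + 2))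
            (stringsInput x y ++ ratWords ε)
          ≤ ENNReal.ofReal (((x.length + y.length : ℕ) : ℝ) ^ (1 + δ)) := by
  -- the compiled pieces
  obtain ⟨N, hN⟩ := main.exists_ids
  have hmi : main.ids (N + 1) (N + 1) := main.ids_mono (Nat.le_succ N) (Nat.le_succ N) hN
  set pf := HL.cmp (K₀ + 1) (R₀ + 2) front with hpf
  set pq := HL.cmp (K₀ + 1) (R₀ + 2) quad with hpq
  set pm := HL.cmp (N + 1) (N + 1) main with hpm
  obtain ⟨r0, hr0⟩ := HL.exists_ok pf
  obtain ⟨r1, hr1⟩ := HL.exists_ok pq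
  obtain ⟨r2, hr2⟩ := HL.exists_ok pm
  set r := 2 + r0 + r1 + r2 with hr
  have hokf : pf.ok r := hr0 _ (by omega)
  have hokq : pq.ok r := hr1 _ (by omega)
  have hokm : pm.ok r := hr2 _ (by omega)
  set cw := main.wt + 1 with hcw
  set J := j₀ + N + cw + 30 with hJ
  set M := prog433 r pf pq pm J cw with hM
  have hMok : M.ok (r + 11) := prog433_ok hokf hokq hokm (by omega)
  refine ⟨mach (r + 11) M, fun a ε hε0 hε1 => ?_⟩
  -- common facts on an input
  have base : ∀ x y : List ℕ, 17 * (inp x y ε).length + 16 < 2 ^ wl a x y ε ∧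
      3 ≤ (inp x y ε).length ∧ 2 < wl a x y ε := by
    intro x y
    refine ⟨by have := seventeen_lt a x y ε; omega, three_le x y ε, ?_⟩
    have h := seventeen_lt a x y ε
    have h3 := three_le x y ε
    by_contra hc
    have : 2 ^ wl a x y ε ≤ 2 ^ 2 := Nat.pow_le_pow_right (by norm_num) (by omega)
    omega
  -- the head
  have head : ∀ x y : List ℕ, Symb a x y → ∀ ρ : ℕ → ℕ,
      Core690.Runs (wl a x y ε) ρ (fun _ => True) (headP r pf) (initSt (wl a x y ε) (inp x y ε))
        (1 + (((front.wt + 1) * tf (inp x y ε).length + 6 * (inp x y ε).length + 6) +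
          (2 + (64 * (inp x y ε).length + 72 + r))))
        (fun σ => Sim r (initSt (wl a x y ε) (inp x y ε)) σ ∧ σ.regs (r + 7) = (inp x y ε).length ∧
          σ.regs (r + 8) = mode x y ε ∧
          (mode x y ε = 2 → σ.regs (r + 9) = fu (inp x y ε).length)) := by
    intro x y hs ρ
    obtain ⟨b1, b2, b3⟩ := base x y
    refine head_runs (F := fun v => mode x y ε = 2 → v = fu (inp x y ε).length) (by omega) hokf b1 ?_
    have h1 := HL.Runs.frame (Hfront a ε hε0 hε1 x y hs ρ)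
    refine (cmp_small hs hfi hK₀ ρ h1).post ?_
    rintro σ ⟨s', ⟨⟨q1, q2⟩, q3⟩, q4, q5, q6⟩
    refine ⟨?_, ?_, ?_⟩
    · rw [q4, q3.drawn hdet]
      rfl
    · rw [q6, q1]
    · rw [q5]; exact q2
  -- the exact routine
  have exq : ∀ x y : List ℕ, Symb a x y → ∃ m, ∀ ρ : ℕ → ℕ,
      Core690.Runs (wl a x y ε) ρ (fun _ => True) pq (initSt (wl a x y ε) (inp x y ε)) m
        (fun σ => σ.regs 0 = editDist x y) := by
    intro x y hs
    obtain ⟨m, hm⟩ := Hquad a ε hε0 hε1 x y hs
    refine ⟨_, fun ρ => ((cmp_small hs hqi hK₀ ρ (hm ρ)).monoW fun _ _ => trivial).post ?_⟩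
    rintro σ ⟨s', q1, _, q2, _⟩
    show σ.regs 0 = _
    rw [q2, q1]
  -- case A: exact
  have caseA : ∀ x y : List ℕ, Symb a x y → ((inp x y ε).length < 2 ^ J ∨ mode x y ε = 1) →
      ∃ m, ∀ ρ : ℕ → ℕ, Core690.Runs (wl a x y ε) ρ (fun _ => True) M
        (initSt (wl a x y ε) (inp x y ε)) m (fun σ => σ.out = [editDist x y]) := by
    intro x y hs hc
    obtain ⟨b1, b2, b3⟩ := base x y
    obtain ⟨m, hm⟩ := exq x y hs
    refine ⟨_, fun ρ => Core690.Runs.seq (head x y hs ρ) (m := J + m + 12) ?_⟩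
    rintro σ ⟨a1, a2, a3, a4⟩
    exact tail_quad (by omega) (by omega) (by omega) (by omega) hokq a1
      (hc.imp id fun h => by rw [a3, h]) (hm ρ)
  -- case B: equal strings
  have caseB : ∀ x y : List ℕ, Symb a x y → 2 ^ J ≤ (inp x y ε).length → mode x y ε = 0 →
      ∀ ρ : ℕ → ℕ, Core690.Runs (wl a x y ε) ρ (fun _ => True) M
        (initSt (wl a x y ε) (inp x y ε)) (bigT front.wt r J cw (cost pm) tf fu a (inp x y ε).length - 1)
          (fun σ => σ.out = [0]) := by
    intro x y hs hc hm ρ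
    obtain ⟨b1, b2, b3⟩ := base x y
    refine (Core690.Runs.seq (head x y hs ρ) (m := J + 12) ?_).time ?_
    · rintro σ ⟨a1, a2, a3, a4⟩
      exact tail_zero (by omega) (by omega) (by omega) (by omega) a1 hc (by rw [a3, hm])
    · unfold bigT
      have : 100 * ((inp x y ε).length + 1) ≤ (6 * cost pm + 100) * ((inp x y ε).length + 1) :=
        Nat.mul_le_mul_right _ (by omega)
      omega
  -- case C: main program
  have caseC : ∀ x y : List ℕ, Symb a x y → 2 ^ J ≤ (inp x y ε).length → mode x y ε = 2 →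
      ∀ ρ : ℕ → ℕ, ∃ σ' T, Core690.Ex (wl a x y ε) ρ (fun _ => True) M
        (initSt (wl a x y ε) (inp x y ε)) σ' T ∧
        T + 1 ≤ bigT front.wt r J cw (cost pm) tf fu a (inp x y ε).length ∧
        ∀ Q : St → Prop, Core690.Runs (wl a x y ε) ρ (fun b => b < 2 ^ wl a x y ε) pm
          (initSt (wl a x y ε) (inp x y ε))
          (fu (inp x y ε).length * cw + 6 * (inp x y ε).length + 6) Q →
          ∃ s', Q s' ∧ σ'.out = [s'.regs 0] := by
    intro x y hs hc hm ρ
    obtain ⟨b1, b2, b3⟩ := base x y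
    obtain ⟨σ1, t1, c1, c2, a1, a2, a3, a4⟩ := head x y hs ρ
    have hcube := cube_le_two_wl a x y ε
    have hJl : J < (inp x y ε).length := lt_of_lt_of_le Nat.lt_two_pow_self hc
    have hbig : fu (inp x y ε).length * cw + 6 * (inp x y ε).length + 7 < 2 ^ wl a x y ε := by
      refine lt_of_lt_of_le ?_ hcube
      have h2 := hfu2 (inp x y ε).length
      set l := (inp x y ε).length with hl
      have h4 : fu l * cw ≤ (l + 2) ^ 2 * cw := Nat.mul_le_mul_right _ h2
      have h5 : (l + 2) ^ 2 * (cw + 9) ≤ (l + 2) ^ 2 * (l + 2) := Nat.mul_le_mul_left _ (by omega)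
      have h6 : (l + 2) ^ 2 * (cw + 9) = (l + 2) ^ 2 * cw + 9 * (l + 2) ^ 2 := by ring
      have h7 : (l + 2) ^ 3 = (l + 2) ^ 2 * (l + 2) := by ring
      have h8 : l + 2 ≤ (l + 2) ^ 2 := Nat.le_self_pow (by norm_num) _
      omega
    have hcwl : cw < 2 ^ wl a x y ε := by omega
    obtain ⟨σ2, t2, d1, d2, d3⟩ := tail_main (pq := pq) (J := J) (cw := cw) (ρ := ρ)
      (by omega) b3 (by omega) (by omega) hokm a1 hc a2 (by rw [a3, hm]) (a4 hm) hbig hcwl
    refine ⟨σ2, _, Core690.Ex.seq c1 d1, ?_, d3⟩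
    unfold bigT
    have e1 : cost pm * (fu (inp x y ε).length * cw + 6 * (inp x y ε).length + 8) =
        cost pm * cw * fu (inp x y ε).length + 6 * cost pm * (inp x y ε).length + 8 * cost pm := by
      ring
    have e2 : (cost pm * cw + cost pm + 1) * fu (inp x y ε).length =
        cost pm * cw * fu (inp x y ε).length + (cost pm + 1) * fu (inp x y ε).length := by ring
    have e3 : (6 * cost pm + 100) * ((inp x y ε).length + 1) =
        6 * cost pm * (inp x y ε).length + 6 * cost pm + 100 * (inp x y ε).length + 100 := by ring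
    have e4 : wl a x y ε = (a + 3) * Nat.clog 2 ((inp x y ε).length + 2) := rfl
    rw [e1] at d2
    rw [e2, e3, ← e4]
    omega
  refine ⟨fun x y hs => ?_, fun x y hs hxy ρ => ?_, ?_⟩
  · -- probability
    show 2 / 3 ≤ Crest.WordRAM.probHaltsWith (mach (r + 11) M) (wl a x y ε) (inp x y ε) _
    have hexact : ∀ (m v : ℕ), GoodD ε x y v → (∀ ρ : ℕ → ℕ, Core690.Runs (wl a x y ε) ρ
        (fun _ => True) M (initSt (wl a x y ε) (inp x y ε)) m (fun σ => σ.out = [v])) →
        2 / 3 ≤ Crest.WordRAM.probHaltsWith (mach (r + 11) M) (wl a x y ε) (inp x y ε)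
          (fun out => ∃ D : ℕ, out = [D] ∧ editDist x y ≤ D ∧
            (D : ℝ) ≤ (1 + (ε : ℝ)) * editDist x y) := by
      intro m v hv h
      have h1 := (PR.of_runs (δ := 0) h le_rfl).probHaltsWith (r := r + 11)
        (Good := fun out => ∃ D : ℕ, out = [D] ∧ editDist x y ≤ D ∧
            (D : ℝ) ≤ (1 + (ε : ℝ)) * editDist x y) hMok (by omega)
        (fun s' hs' => ⟨v, hs', hv.1, hv.2⟩)
      linarith
    by_cases hA : (inp x y ε).length < 2 ^ J ∨ mode x y ε = 1
    · obtain ⟨m, hm⟩ := caseA x y hs hA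
      exact hexact m _ (goodD_exact hε0 x y) hm
    push Not at hA
    by_cases hB : mode x y ε = 0
    · have hxy := (hmode0 x y ε).mp hB
      have h0 : editDist x y = 0 := (Crest.Agent.R288.Ed.ed_eq_zero_iff).mpr hxy
      exact hexact _ 0 ⟨by omega, by rw [h0]; simp⟩ (caseB x y hs hA.1 hB)
    · have hm2 : mode x y ε = 2 := by
        have := hmode2 x y ε
        have := hA.2
        omega
      have hj : 2 ^ j₀ ≤ (inp x y ε).length :=
        (Nat.pow_le_pow_right (by norm_num) (by omega)).trans hA.1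
      have hH := Hmain a ε hε0 hε1 x y hs hm2 hj
      obtain ⟨b1, b2, b3⟩ := base x y
      have hJl : J < (inp x y ε).length := lt_of_lt_of_le Nat.lt_two_pow_self hA.1
      have hcube := cube_le_two_wl a x y ε
      have hin := inp_lt ε hs
      have hC := caseC x y hs hA.1 hm2
      set l := (inp x y ε).length with hl
      set w := wl a x y ε with hw
      have hKL : l + (N + 1) * (l + 2) ^ 2 < 2 ^ w := by
        refine lt_of_lt_of_le ?_ hcube
        have h5 : (l + 2) ^ 2 * (N + 3) ≤ (l + 2) ^ 2 * (l + 2) := Nat.mul_le_mul_left _ (by omega)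
        have h6 : (l + 2) ^ 2 * (N + 3) = (N + 1) * (l + 2) ^ 2 + 2 * (l + 2) ^ 2 := by ring
        have h7 : (l + 2) ^ 3 = (l + 2) ^ 2 * (l + 2) := by ring
        have h8 : l + 2 ≤ (l + 2) ^ 2 := Nat.le_self_pow (by norm_num) _
        omega
      have hP := HPR.cmp (K := N + 1) (R := N + 1) (L := (l + 2) ^ 2) (w := w) (by omega) (by omega)
        (show l ≤ (l + 2) ^ 2 by
          have : l + 2 ≤ (l + 2) ^ 2 := Nat.le_self_pow (by norm_num) _
          omega) hKL (by omega) (by omega) hin hmi hH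
      have hPR : PR w (fun _ => True) M (initSt w (inp x y ε))
          (bigT front.wt r J cw (cost pm) tf fu a l + (fu l * cw + 6 * l + 6))
          (fun σ => ∃ D : ℕ, σ.out = [D] ∧ GoodD ε x y D) (1 / 3) := by
        intro T hT ρ0
        refine le_trans (cnt_mono fun tab g1 g2 => g1 ?_) (hP T ?_ ρ0)
        · obtain ⟨σ', T', e1, e2, e3⟩ := hC (splice ρ0 (initSt w (inp x y ε)).drawn tab)
          refine ⟨σ', T', e1, by omega, ?_⟩
          have g3 := (g2.time (show (main.wt + 1) * fu l + 6 * (inp x y ε).length + 6 ≤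
            fu l * cw + 6 * l + 6 by rw [hcw, mul_comm, ← hl]))
          obtain ⟨s', q1, q2⟩ := e3 _ (g3.monoW fun b hb => by
            have hb2 : b < (inp x y ε).length + (N + 1) * (l + 2) ^ 2 := hb.2
            rw [← hl] at hb2
            omega)
          obtain ⟨s'', u1, u2⟩ := q1
          exact ⟨s'.regs 0, q2, by rw [u2]; exact u1⟩
        · rw [← hl, ← hcw, mul_comm cw (fu l)]
          omega
      have h3 := hPR.probHaltsWith (r := r + 11) (Good := fun out => ∃ D : ℕ, out = [D] ∧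
          editDist x y ≤ D ∧ (D : ℝ) ≤ (1 + (ε : ℝ)) * editDist x y) hMok (by omega)
        (fun s' hs' => by
          obtain ⟨D, q1, q2⟩ := hs'
          exact ⟨D, q1, q2.1, q2.2⟩)
      norm_num at h3 ⊢
      exact h3
  · -- equal strings
    show ∃ T : ℕ, Crest.WordRAM.HaltsWithin (mach (r + 11) M) (wl a x y ε) ρ (inp x y ε) T [0]
    have h0 : editDist x y = 0 := (Crest.Agent.R288.Ed.ed_eq_zero_iff).mpr hxy
    by_cases hA : (inp x y ε).length < 2 ^ J
    · obtain ⟨m, hm⟩ := caseA x y hs (Or.inl hA)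
      obtain ⟨σ, t, e1, e2, e3⟩ := hm ρ
      refine ⟨t + 1, e1.halted hMok le_rfl, ?_⟩
      rw [e1.output hMok (by omega) le_rfl, e3, h0]
    · obtain ⟨σ, t, e1, e2, e3⟩ := caseB x y hs (by omega) ((hmode0 x y ε).mpr hxy) ρ
      refine ⟨t + 1, e1.halted hMok le_rfl, ?_⟩
      rw [e1.output hMok (by omega) le_rfl, e3]
  · -- time
    obtain ⟨N₁, hN₁⟩ := hmode1 a ε hε0 hε1
    refine time_clause (mach (r + 11) M) a ε (bigT front.wt r J cw (cost pm) tf fu a)
      (bigT_al _ _ _ _ _ htf hfu a) (max N₁ (2 ^ J)) ?_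
    intro x y hN hs ρ
    show (run (mach (r + 11) M) (wl a x y ε) ρ (inp x y ε)
      (bigT front.wt r J cw (cost pm) tf fu a (inp x y ε).length)).halted = true
    have hlen : 2 ^ J ≤ (inp x y ε).length := by
      rw [inp_length]
      have := le_of_max_le_right hN
      omega
    have hm1 := hN₁ x y hs (le_of_max_le_left hN)
    have hm2 := hmode2 x y ε
    have hpos : 1 ≤ bigT front.wt r J cw (cost pm) tf fu a (inp x y ε).length := by
      unfold bigT
      omega
    rcases Nat.eq_zero_or_pos (mode x y ε) with h0 | h0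
    · obtain ⟨σ, t, e1, e2, e3⟩ := caseB x y hs hlen h0 ρ
      exact e1.halted hMok (by omega)
    · obtain ⟨σ, T, e1, e2, e3⟩ := caseC x y hs hlen (by omega) ρ
      exact e1.halted hMok e2

end Crest.Agent.R288.Top791
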