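import Crest.Agent.R288.ShellA_12
import Crest.Agent.R288.EnvM_12
import Crest.Agent.R288.Top_791

/-!
# R288, leaf [Sh]: the shell of the main program, part B (helper12)

`shell core` : `shA`, then output the distance if it is at most the threshold, otherwise `core`.

* `shFuel L = 5000 (L + 1) (clog L + 1)^3`: bound of the cost of the shell, independent of the
  word length;
* `shell_HPR`: the probabilistic triple of `shell core` from the one of `core`;
* `ev_shFuel`: `shFuel` is eventually below the standard fuel.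
-/

set_option autoImplicit false

namespace Crest.Agent.R288.Shell12

open Crest.GraphRAM Crest.Agent.R288.Ed Crest.Agent.R295.HL Exp Cnd Cmd
open Crest.Agent.R288.Lv Crest.Agent.R288.LceA508 Crest.Agent.R288.Kmr725
open Crest.Agent.R288.Top791 Crest.Agent.R288.Num414 Crest.Agent.R288.EnvM12
open Crest.Agent.R295.TopH791

/-- bound of the cost of the shell -/
def shFuel (L : ℕ) : ℕ := 5000 * (L + 1) * (Nat.clog 2 L + 1) ^ 3

theorem slow_le_clog (L : ℕ) : slow L ≤ Nat.clog 2 L :=
  (Nat.log_le_self 2 _).trans (Nat.log_le_self 2 _)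

theorem size_le_clog {M L : ℕ} (hM : M ≤ L) : Nat.size M ≤ Nat.clog 2 L + 1 := by
  rw [Nat.size_le, pow_succ]
  have h1 := Nat.le_pow_clog (b := 2) (by norm_num) L
  have h2 : 0 < 2 ^ Nat.clog 2 L := by positivity
  omega

theorem shCost_le {L M W : ℕ} (hM : 1 ≤ M) (hML : M ≤ L)
    (hW : W ≤ Nat.clog 2 L * Nat.clog 2 L + 2 * Nat.clog 2 L + 3) : shCost M W + 2 ≤ shFuel L := by
  have hsz := size_le_clog hML
  have hlg : Nat.log 2 M ≤ Nat.clog 2 L := (Nat.log_mono_right hML).trans (Nat.log_le_clog 2 L)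
  have hD := D0_sq_le hM
  have hD1 : 1 ≤ D0 M := Nat.one_le_two_pow
  have hlv := lvCost_le (D0 M) (5 * Nat.size M + 3)
  unfold shFuel shCost
  generalize Nat.clog 2 L = l at *
  generalize Nat.size M = z at *
  generalize Nat.log 2 M = g at *
  generalize D0 M = D at *
  have hW' : W + 3 ≤ 6 * (l + 1) ^ 2 := by
    nlinarith
  have hA : 13 * (M + 1) * (W + 3) * (g + 2) ≤ 156 * ((L + 1) * (l + 1) ^ 3) := by
    calc 13 * (M + 1) * (W + 3) * (g + 2)
        ≤ 13 * (L + 1) * (6 * (l + 1) ^ 2) * (2 * (l + 1)) := by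
          gcongr
          all_goals omega
      _ = 156 * ((L + 1) * (l + 1) ^ 3) := by ring
  have hB : lvCost D (5 * z + 3) ≤ 4392 * ((L + 1) * (l + 1) ^ 3) := by
    have h1 : (D + 1) ^ 2 ≤ 8 * (L + 1) := by nlinarith
    calc lvCost D (5 * z + 3) ≤ 61 * ((D + 1) ^ 2 * (5 * z + 3 + 1)) := hlv
      _ ≤ 61 * ((8 * (L + 1)) * (9 * (l + 1))) := by
          gcongr
          omega
      _ = 4392 * ((L + 1) * (l + 1)) := by ring
      _ ≤ 4392 * ((L + 1) * (l + 1) ^ 3) := by
          gcongr
          exact Nat.le_self_pow (by norm_num) _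
  have hP1 : L + 1 ≤ (L + 1) * (l + 1) ^ 3 := Nat.le_mul_of_pos_right _ (by positivity)
  have hP2 : (l + 1) ^ 2 ≤ (L + 1) * (l + 1) ^ 3 :=
    (Nat.pow_le_pow_right (by omega) (by norm_num)).trans (Nat.le_mul_of_pos_left _ (by omega))
  have e1 : 5000 * (L + 1) * (l + 1) ^ 3 = 5000 * ((L + 1) * (l + 1) ^ 3) := by ring
  rw [e1]
  generalize (L + 1) * (l + 1) ^ 3 = P at *
  generalize (l + 1) ^ 2 = Q at *
  omega

/-- **the main program** -/
def shell (core : Cmd) : Cmd := shA ;; ite (le (var 48) (var 63)) (set 0 (var 48)) core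

section

variable {a : ℕ} {ε : ℚ} {x y : List ℕ} {core : Cmd} {m : ℕ} {δ : ℝ}

/-- the number of input words is between `|x| + |y|` and `|x| + |y| + slow + 2` -/
theorem inp_ge (x y : List ℕ) (ε : ℚ) : x.length + y.length + 2 ≤ (inp x y ε).length := by
  rw [inp_length]
  omega

/-- the deterministic part, with costs independent of the word length -/
theorem shA_det_runs (hs : Symb a x y)
    (hsym : ∀ b ∈ x ++ y, b < 2 ^ (Nat.clog 2 (inp x y ε).length * Nat.clog 2 (inp x y ε).length))
    (hM : 10 ≤ x.length + y.length) (ρ : ℕ → ℕ) :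
    Runs ⟨2 ^ wl a x y ε, ((inp x y ε).length + 2) ^ 2, ρ⟩ shA (initState (inp x y ε))
      (shFuel (inp x y ε).length - 2) (AfterSt x y (ratWords ε)) := by
  have hge := inp_ge x y ε
  have hcube := cube_le_two_wl a x y ε
  have hsy : ∀ b ∈ x ++ y, b < 2 ^ wl a x y ε := fun b hb => inp_lt ε hs b (by
    simp only [inp, stringsInput, List.cons_append, List.mem_cons, List.mem_append] at hb ⊢
    tauto)
  set L := (inp x y ε).length with hL
  set w := wl a x y ε with hw
  have hcl : L ≤ 2 ^ Nat.clog 2 L := Nat.le_pow_clog (by norm_num) L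
  set W := min w (Nat.clog 2 L * Nat.clog 2 L + 2 * Nat.clog 2 L + 3) with hWd
  have hM2 : (x.length + y.length + 2) * (x.length + y.length + 2) ≤ L * L :=
    Nat.mul_le_mul hge hge
  have hB : (x.length + y.length + 2) * (x.length + y.length + 2) ≤ 2 ^ W := by
    rcases min_choice w (Nat.clog 2 L * Nat.clog 2 L + 2 * Nat.clog 2 L + 3) with h | h
    · rw [hWd, h]
      have : L * L ≤ (L + 2) ^ 3 := by
        have e1 : (L + 2) ^ 3 = L * L * L + 6 * (L * L) + 12 * L + 8 := by ring
        rw [e1]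
        omega
      omega
    · rw [hWd, h]
      have h1 : L * L ≤ 2 ^ (2 * Nat.clog 2 L) := by
        rw [two_mul, pow_add]
        exact Nat.mul_le_mul hcl hcl
      have h2 : 2 ^ (2 * Nat.clog 2 L) ≤ 2 ^ (Nat.clog 2 L * Nat.clog 2 L + 2 * Nat.clog 2 L + 3) :=
        Nat.pow_le_pow_right (by norm_num) (by omega)
      omega
  have hsW : ∀ b ∈ x ++ y, b < 2 ^ W := by
    intro b hb
    rcases min_choice w (Nat.clog 2 L * Nat.clog 2 L + 2 * Nat.clog 2 L + 3) with h | h
    · rw [hWd, h]; exact hsy b hb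
    · rw [hWd, h]
      exact lt_of_lt_of_le (hsym b hb) (Nat.pow_le_pow_right (by norm_num) (by omega))
  have hLL : (x.length + y.length + 2) * (x.length + y.length + 2) ≤ (L + 2) ^ 2 := by
    have e1 : (L + 2) ^ 2 = L * L + 4 * L + 4 := by ring
    omega
  have A := shA_runs (e := ⟨2 ^ W, (L + 2) ^ 2, ρ⟩) (x := x) (y := y) (z := ratWords ε) (W := W)
    rfl hM hB hLL hsW
  have B := Runs.env_small (W := W) (w := w) (ρ' := ρ) (min_le_left _ _) le_rfl A shA_det
  refine B.mono ?_ (fun _ h => h)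
  have := shCost_le (L := L) (M := x.length + y.length) (W := W) (by omega) (by omega)
    (min_le_right _ _)
  omega

/-- **the shell** -/
theorem shell_HPR (h0 : 0 < ε) (hs : Symb a x y)
    (hsym : ∀ b ∈ x ++ y, b < 2 ^ (Nat.clog 2 (inp x y ε).length * Nat.clog 2 (inp x y ε).length))
    (hM : 10 ≤ x.length + y.length) (hδ : 0 ≤ δ)
    (hcore : ∀ s, AfterSt x y (ratWords ε) s → D0 (x.length + y.length) < editDist x y →
      HPR (wl a x y ε) (((inp x y ε).length + 2) ^ 2) core s m
        (fun s' => GoodD ε x y (s'.reg 0)) δ) :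
    HPR (wl a x y ε) (((inp x y ε).length + 2) ^ 2) (shell core) (initState (inp x y ε))
      (shFuel (inp x y ε).length + m) (fun s' => GoodD ε x y (s'.reg 0)) δ := by
  have hfu : 2 ≤ shFuel (inp x y ε).length := by
    unfold shFuel
    have h1 : 1 ≤ ((inp x y ε).length + 1) * (Nat.clog 2 (inp x y ε).length + 1) ^ 3 :=
      Nat.mul_pos (by omega) (by positivity)
    rw [mul_assoc]
    generalize ((inp x y ε).length + 1) * (Nat.clog 2 (inp x y ε).length + 1) ^ 3 = P at h1 ⊢
    omega
  unfold shell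
  refine HPR.seq_det shA_det (shA_det_runs hs hsym hM (fun _ => 0)) (m := m + 2) ?_ (by omega)
  intro s hA _
  refine HPR.ite (n := m + 1) (fun ρ => by simp) ?_ ?_ le_rfl
  · intro h
    simp only [holds_le, val_var, hA.res, hA.d0] at h
    refine HPR.mono (n := 1) ?_ (by omega) (fun s' h => h) le_rfl
    refine HPR.of_det (by simp) (ρ₁ := fun _ => 0) (Runs.set (by simp) ?_) hδ
    simp only [State.setReg_reg, if_true, val_var, hA.res]
    rw [min_eq_left (by omega)]
    exact goodD_exact h0 x y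
  · intro h
    simp only [holds_le, val_var, hA.res, hA.d0] at h
    exact HPR.mono (hcore s hA (by omega)) (by omega) (fun s' h => h) le_rfl

end

end Crest.Agent.R288.Shell12
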