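import Crest.Agent.R288.VI_684

/-!
# R288 (S0433): the coarse closure of a cost function

`c u v` = a cost which is Lipschitz only up to `β φ` (mean cost of the ranks of an epoch), `φ` = its
unit. The closure `U` is the infimum over all pairs `(i, z)`, `z` a state whose coordinates are
divisible by `2 ^ i`, of `dist + c z + A * max 0 (φ z - N * 2 ^ i)`: fine targets pay a penalty.

* `U_lip`, `le_U_of_lip` (honest), `U_le_add`: `U ≤ c + (β + ρ) φ`;
* `exists_local`: every pair may be replaced by a pair of the grid `2 ^ i₀` near the state at the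
  relative price `1 + 2 K C g / φ`;
* `menu_bound`: the minimum over a finite menu of grid states with noisy tables;
* `Hyp.of_lip` (epochs `≥ 1`), `Hyp.of_comp` (start bound known up to a factor `2`).
-/

set_option autoImplicit false

namespace Crest.Agent.R288.Smo406

open Crest.Agent.R288.VI684

/-- distance of two states of a node -/
noncomputable def ds (u v u' v' : ℤ) : ℝ := dz u u' + dz v v'

theorem ds_nonneg (u v u' v' : ℤ) : 0 ≤ ds u v u' v' := add_nonneg (dz_nonneg _ _) (dz_nonneg _ _)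

theorem ds_tri (u v u' v' u'' v'' : ℤ) : ds u v u'' v'' ≤ ds u v u' v' + ds u' v' u'' v'' := by
  have h1 := dz_tri u u' u''
  have h2 := dz_tri v v' v''
  unfold ds; linarith

theorem ds_comm (u v u' v' : ℤ) : ds u v u' v' = ds u' v' u v := by
  unfold ds; rw [dz_comm u, dz_comm v]

theorem ds_self (u v : ℤ) : ds u v u v = 0 := by simp [ds, dz_self]

/-- value of the target `(p, q)` with the step `2 ^ i`, seen from `(u, v)` -/
noncomputable def pv (c φ : ℤ → ℤ → ℝ) (A N : ℝ) (u v : ℤ) (i : ℕ) (p q : ℤ) : ℝ :=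
  ds u v p q + c p q + A * max 0 (φ p q - N * 2 ^ i)

/-- the pairs: a step and a state on its grid -/
def Pair : Type := {x : ℕ × ℤ × ℤ // (2 ^ x.1 : ℤ) ∣ x.2.1 ∧ (2 ^ x.1 : ℤ) ∣ x.2.2}

instance : Nonempty Pair := ⟨⟨(0, 0, 0), by simp⟩⟩

/-- the coarse closure -/
noncomputable def U (c φ : ℤ → ℤ → ℝ) (A N : ℝ) (u v : ℤ) : ℝ :=
  ⨅ x : Pair, pv c φ A N u v x.1.1 x.1.2.1 x.1.2.2

section basic

variable {c φ : ℤ → ℤ → ℝ} {A N : ℝ}

theorem pv_nonneg (hc : ∀ u v, 0 ≤ c u v) (hA : 0 ≤ A) (u v : ℤ) (i : ℕ) (p q : ℤ) :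
    0 ≤ pv c φ A N u v i p q := by
  have h1 := ds_nonneg u v p q
  have h2 := hc p q
  have h3 : 0 ≤ A * max 0 (φ p q - N * 2 ^ i) := mul_nonneg hA (le_max_left _ _)
  unfold pv; linarith

theorem bdd (hc : ∀ u v, 0 ≤ c u v) (hA : 0 ≤ A) (u v : ℤ) :
    BddBelow (Set.range fun x : Pair => pv c φ A N u v x.1.1 x.1.2.1 x.1.2.2) :=
  ⟨0, by rintro _ ⟨x, rfl⟩; exact pv_nonneg hc hA _ _ _ _ _⟩

theorem U_le (hc : ∀ u v, 0 ≤ c u v) (hA : 0 ≤ A) (u v : ℤ) {i : ℕ} {p q : ℤ}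
    (hp : (2 ^ i : ℤ) ∣ p) (hq : (2 ^ i : ℤ) ∣ q) : U c φ A N u v ≤ pv c φ A N u v i p q :=
  ciInf_le (bdd hc hA u v) (⟨(i, p, q), hp, hq⟩ : Pair)

theorem le_U {u v : ℤ} {r : ℝ} (h : ∀ (i : ℕ) (p q : ℤ), (2 ^ i : ℤ) ∣ p → (2 ^ i : ℤ) ∣ q →
    r ≤ pv c φ A N u v i p q) : r ≤ U c φ A N u v :=
  le_ciInf fun x => h _ _ _ x.2.1 x.2.2

theorem U_nonneg (hc : ∀ u v, 0 ≤ c u v) (hA : 0 ≤ A) (u v : ℤ) : 0 ≤ U c φ A N u v :=
  le_U fun _ _ _ _ _ => pv_nonneg hc hA _ _ _ _ _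

/-- the closure is exactly `1`-Lipschitz -/
theorem U_lip (hc : ∀ u v, 0 ≤ c u v) (hA : 0 ≤ A) : Lip (U c φ A N) := by
  intro u v u' v'
  have key : U c φ A N u v - (dz u u' + dz v v') ≤ U c φ A N u' v' := by
    refine le_U fun i p q hp hq => ?_
    have h1 := U_le (c := c) (φ := φ) (A := A) (N := N) hc hA u v hp hq
    have h2 := ds_tri u v u' v' p q
    unfold pv at h1 ⊢
    have h3 : ds u v u' v' = dz u u' + dz v v' := rfl
    linarith
  linarith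

/-- the closure is honest -/
theorem le_U_of_lip {G : ℤ → ℤ → ℝ} (hA : 0 ≤ A) (hG : Lip G) (hGc : ∀ u v, G u v ≤ c u v)
    (u v : ℤ) : G u v ≤ U c φ A N u v := by
  refine le_U fun i p q _ _ => ?_
  have h1 := hG u v p q
  have h2 := hGc p q
  have h3 : 0 ≤ A * max 0 (φ p q - N * 2 ^ i) := mul_nonneg hA (le_max_left _ _)
  unfold pv ds; linarith

theorem U_coer (hA : 0 ≤ A) {G : ℤ → ℤ → ℝ} (hG : Lip G) (hG' : Coer G)
    (hGc : ∀ u v, G u v ≤ c u v) : Coer (U c φ A N) := fun u v =>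
  (hG' u v).trans (le_U_of_lip hA hG hGc u v)

theorem U_mono {c' φ' : ℤ → ℤ → ℝ} (hc : ∀ u v, 0 ≤ c u v) (hA : 0 ≤ A)
    (h1 : ∀ u v, c u v ≤ c' u v) (h2 : ∀ u v, φ u v ≤ φ' u v) (u v : ℤ) :
    U c φ A N u v ≤ U c' φ' A N u v := by
  refine le_U fun i p q hp hq => (U_le hc hA u v hp hq).trans ?_
  have h3 := h1 p q
  have h4 : max 0 (φ p q - N * 2 ^ i) ≤ max 0 (φ' p q - N * 2 ^ i) :=
    max_le_max le_rfl (sub_le_sub_right (h2 p q) _)
  have h5 := mul_le_mul_of_nonneg_left h4 hA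
  unfold pv; linarith

end basic

/-- the hypotheses on a cost `c` and its unit `φ` -/
structure Hyp (c φ : ℤ → ℤ → ℝ) (K β ρ A N : ℝ) : Prop where
  hc : ∀ u v, 0 ≤ c u v
  hK1 : 1 ≤ K
  hβ : 0 ≤ β
  hρ : 0 < ρ
  hρ1 : ρ ≤ 1
  cK : ∀ u v, c u v ≤ K * φ u v
  φK : ∀ u v u' v', φ u' v' ≤ K * φ u v + K * ds u v u' v'
  stab : ∀ u v u' v', ds u v u' v' ≤ ρ * φ u v → c u' v' ≤ c u v + β * φ u v
  hN : 8 * K ≤ N * ρ
  hA : 2 * (β + ρ) ≤ A

namespace Hyp

variable {c φ : ℤ → ℤ → ℝ} {K β ρ A N : ℝ}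

theorem φ_nonneg (H : Hyp c φ K β ρ A N) (u v : ℤ) : 0 ≤ φ u v := by
  have h1 := H.hc u v
  have h2 := H.cK u v
  have h3 := H.hK1
  by_contra h
  push Not at h
  have : K * φ u v < 0 := mul_neg_of_pos_of_neg (by linarith) h
  linarith

theorem A_nonneg (H : Hyp c φ K β ρ A N) : 0 ≤ A := by
  have := H.hA; have := H.hβ; have := H.hρ; linarith

theorem N_pos (H : Hyp c φ K β ρ A N) : 0 < N := by
  have h1 := H.hN
  have h2 := H.hK1
  have h3 := H.hρ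
  by_contra h
  push Not at h
  have : N * ρ ≤ 0 := mul_nonpos_of_nonpos_of_nonneg h h3.le
  linarith

end Hyp

/-- rounding down to a multiple of `2 ^ i` -/
def rd (i : ℕ) (u : ℤ) : ℤ := 2 ^ i * (u / 2 ^ i)

theorem dvd_rd (i : ℕ) (u : ℤ) : (2 ^ i : ℤ) ∣ rd i u := Dvd.intro _ rfl

theorem dz_rd (i : ℕ) (u : ℤ) : dz u (rd i u) ≤ 2 ^ i := by
  have hp : (0 : ℤ) < 2 ^ i := by positivity
  have h1 := Int.emod_nonneg u hp.ne'
  have h2 := Int.emod_lt_of_pos u hp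
  have h3 := Int.emod_add_mul_ediv u (2 ^ i)
  have h4 : u - rd i u = u % 2 ^ i := by unfold rd; linarith
  have h5 : (u : ℝ) - (rd i u : ℤ) = ((u % 2 ^ i : ℤ) : ℝ) := by rw [← h4]; push_cast; ring
  unfold dz
  rw [h5, abs_of_nonneg (by exact_mod_cast h1)]
  have : ((u % 2 ^ i : ℤ) : ℝ) ≤ ((2 ^ i : ℤ) : ℝ) := by exact_mod_cast h2.le
  simpa using this

theorem rd_zero (u : ℤ) : rd 0 u = u := by simp [rd]

theorem ds_rd (i : ℕ) (u v : ℤ) : ds u v (rd i u) (rd i v) ≤ 2 * 2 ^ i := by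
  have h1 := dz_rd i u
  have h2 := dz_rd i v
  unfold ds; linarith

/-- a power of two in the right range -/
theorem exists_pow (x : ℝ) : ∃ i : ℕ, x / 2 ≤ 2 ^ i ∧ (i = 0 ∨ (2 : ℝ) ^ i ≤ x) := by
  rcases le_or_gt x 1 with h | h
  · exact ⟨0, by norm_num; linarith, Or.inl rfl⟩
  · obtain ⟨n, hn1, hn2⟩ := exists_nat_pow_near h.le (one_lt_two)
    refine ⟨n, ?_, Or.inr hn1⟩
    rw [pow_succ] at hn2
    linarith

section main

variable {c φ : ℤ → ℤ → ℝ} {K β ρ A N : ℝ}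

/-- the coarse neighbour of a state -/
theorem exists_coarse (H : Hyp c φ K β ρ A N) (u v : ℤ) : ∃ (i : ℕ) (p q : ℤ),
    (2 ^ i : ℤ) ∣ p ∧ (2 ^ i : ℤ) ∣ q ∧ ρ * φ u v / 4 ≤ 2 ^ i ∧ ds u v p q ≤ ρ * φ u v ∧
      φ p q ≤ N * 2 ^ i ∧ c p q ≤ c u v + β * φ u v := by
  have h0 := H.φ_nonneg u v
  have hρ := H.hρ
  obtain ⟨i, hi1, hi2⟩ := exists_pow (ρ * φ u v / 2)
  have hd : ds u v (rd i u) (rd i v) ≤ ρ * φ u v := by
    rcases hi2 with rfl | h
    · rw [rd_zero, rd_zero, ds_self]; positivity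
    · have := ds_rd i u v; linarith
  refine ⟨i, rd i u, rd i v, dvd_rd _ _, dvd_rd _ _, by linarith, hd, ?_, H.stab _ _ _ _ hd⟩
  have h1 := H.φK u v (rd i u) (rd i v)
  have hK := H.hK1
  have hρ1 := H.hρ1
  have h2 : K * ds u v (rd i u) (rd i v) ≤ K * (ρ * φ u v) :=
    mul_le_mul_of_nonneg_left hd (by linarith)
  have h3 : K * (ρ * φ u v) ≤ K * φ u v := by
    apply mul_le_mul_of_nonneg_left _ (by linarith)
    nlinarith
  have h4 : φ (rd i u) (rd i v) ≤ 2 * K * φ u v := by linarith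
  have h5 : 8 * K * φ u v ≤ N * ρ * φ u v := mul_le_mul_of_nonneg_right H.hN h0
  have h6 : N * (ρ * φ u v / 4) ≤ N * 2 ^ i := mul_le_mul_of_nonneg_left (by linarith) H.N_pos.le
  nlinarith

/-- value of the coarse neighbour of `(u, v)`, seen from `(x, y)` -/
theorem pv_coarse (x y u v : ℤ) {i : ℕ} {p q : ℤ}
    (hd : ds u v p q ≤ ρ * φ u v) (hφ : φ p q ≤ N * 2 ^ i) (hcc : c p q ≤ c u v + β * φ u v) :
    pv c φ A N x y i p q ≤ ds x y u v + c u v + (β + ρ) * φ u v := by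
  unfold pv
  rw [max_eq_left (by linarith), mul_zero, add_zero]
  have := ds_tri x y u v p q
  linarith

theorem U_le_add (H : Hyp c φ K β ρ A N) (u v : ℤ) :
    U c φ A N u v ≤ c u v + (β + ρ) * φ u v := by
  obtain ⟨i, p, q, hp, hq, _, hd, hφ, hcc⟩ := exists_coarse H u v
  refine (U_le H.hc H.A_nonneg u v hp hq).trans ?_
  have := pv_coarse (c := c) (φ := φ) (A := A) u v u v hd hφ hcc
  rw [ds_self] at this
  linarith

/-- the constant of the relative error -/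
noncomputable def cst (K A N : ℝ) : ℝ := 2 + (K + A) * (K * (2 * N + 2))

/-- **locality**: every pair may be replaced by a pair of the grid `2 ^ i₀` near `(x, y)` -/
theorem exists_local (H : Hyp c φ K β ρ A N) (x y : ℤ) (i₀ : ℕ)
    (h1 : (2 : ℝ) ^ i₀ ≤ ρ * φ x y / 4) (h2 : 4 * N * K * 2 ^ i₀ ≤ φ x y)
    (h3 : 2 * K * cst K A N * 2 ^ i₀ ≤ φ x y) (i : ℕ) (p q : ℤ)
    (_hp : (2 ^ i : ℤ) ∣ p) (_hq : (2 ^ i : ℤ) ∣ q) : ∃ (i' : ℕ) (p' q' : ℤ),
    (2 ^ i' : ℤ) ∣ p' ∧ (2 ^ i' : ℤ) ∣ q' ∧ i₀ ≤ i' ∧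
      ds x y p' q' ≤ 2 * (K + β + ρ) * φ x y ∧
      pv c φ A N x y i' p' q' ≤
        (1 + 2 * K * cst K A N * 2 ^ i₀ / φ x y) * pv c φ A N x y i p q := by
  have hK := H.hK1
  have hA0 := H.A_nonneg
  have hN := H.N_pos
  have hβ := H.hβ
  have hρ := H.hρ
  have hg : (0 : ℝ) < 2 ^ i₀ := by positivity
  have hC : 0 < cst K A N := by unfold cst; positivity
  have hφ0 : 0 < φ x y := lt_of_lt_of_le (by positivity) h3
  set V := pv c φ A N x y i p q with hV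
  have hV0 : 0 ≤ V := pv_nonneg H.hc hA0 _ _ _ _ _
  have hη : 0 ≤ 2 * K * cst K A N * 2 ^ i₀ / φ x y := by positivity
  have hge : V ≤ (1 + 2 * K * cst K A N * 2 ^ i₀ / φ x y) * V := by nlinarith
  have powle : ∀ {j : ℕ}, (2 : ℝ) ^ i₀ ≤ 2 ^ j → i₀ ≤ j := fun {j} h =>
    (pow_le_pow_iff_right₀ (one_lt_two)).1 h
  by_cases hR : (K + β + ρ) * φ x y ≤ V
  · -- the coarse neighbour of the state itself
    obtain ⟨i', p', q', hp', hq', hi', hd, hφ, hcc⟩ := exists_coarse H x y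
    have hv := pv_coarse (c := c) (φ := φ) (A := A) x y x y hd hφ hcc
    rw [ds_self] at hv
    have hcK := H.cK x y
    refine ⟨i', p', q', hp', hq', powle (h1.trans hi'), ?_, ?_⟩
    · refine hd.trans ?_
      have : ρ * φ x y ≤ 2 * (K + β + ρ) * φ x y := by
        apply mul_le_mul_of_nonneg_right _ hφ0.le
        linarith
      exact this
    · refine le_trans ?_ hge
      refine le_trans ?_ hR
      linarith
  push Not at hR
  have hpen : 0 ≤ A * max 0 (φ p q - N * 2 ^ i) := mul_nonneg hA0 (le_max_left _ _)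
  have hVd : ds x y p q + c p q + A * max 0 (φ p q - N * 2 ^ i) = V := rfl
  have hc0 := H.hc p q
  have hRR : (K + β + ρ) * φ x y ≤ 2 * (K + β + ρ) * φ x y := by
    have : 0 ≤ (K + β + ρ) * φ x y := by positivity
    linarith
  by_cases hi : i₀ ≤ i
  · exact ⟨i, p, q, _hp, _hq, hi, by linarith, hge⟩
  push Not at hi
  have hi2 : (2 : ℝ) ^ i ≤ 2 ^ i₀ := pow_le_pow_right₀ one_le_two hi.le
  by_cases hφ2 : 2 * N * 2 ^ i₀ ≤ φ p q
  · -- a fine target with a large unit pays the penalty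
    obtain ⟨i', p', q', hp', hq', hi', hd, hφ, hcc⟩ := exists_coarse H p q
    have hv := pv_coarse (c := c) (φ := φ) (A := A) x y p q hd hφ hcc
    have e1 : N * 2 ^ i ≤ φ p q / 2 := by
      have := mul_le_mul_of_nonneg_left hi2 hN.le
      linarith
    have e2 : φ p q / 2 ≤ max 0 (φ p q - N * 2 ^ i) := le_trans (by linarith) (le_max_right _ _)
    have e3 : A * (φ p q / 2) ≤ A * max 0 (φ p q - N * 2 ^ i) := mul_le_mul_of_nonneg_left e2 hA0
    have e4 : (β + ρ) * φ p q ≤ A * (φ p q / 2) := by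
      have := mul_le_mul_of_nonneg_right H.hA (H.φ_nonneg p q)
      linarith
    have e5 : pv c φ A N x y i' p' q' ≤ V := by linarith
    refine ⟨i', p', q', hp', hq', powle ?_, ?_, e5.trans hge⟩
    · have e6 : 8 * K * 2 ^ i₀ ≤ N * ρ * 2 ^ i₀ := mul_le_mul_of_nonneg_right H.hN hg.le
      have e7 : ρ * (2 * N * 2 ^ i₀) ≤ ρ * φ p q := mul_le_mul_of_nonneg_left hφ2 hρ.le
      nlinarith
    · have e8 : ds x y p' q' ≤ pv c φ A N x y i' p' q' := by
        have a1 := H.hc p' q'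
        have a2 : 0 ≤ A * max 0 (φ p' q' - N * 2 ^ i') := mul_nonneg hA0 (le_max_left _ _)
        unfold pv; linarith
      linarith
  · -- a target with a small unit is rounded to the grid
    push Not at hφ2
    have hdr := ds_rd i₀ p q
    have a1 := H.φK p q (rd i₀ p) (rd i₀ q)
    have a2 := H.cK (rd i₀ p) (rd i₀ q)
    have a0 := H.φ_nonneg (rd i₀ p) (rd i₀ q)
    have a3 : φ (rd i₀ p) (rd i₀ q) ≤ K * (2 * N + 2) * 2 ^ i₀ := by
      have b1 : K * φ p q ≤ K * (2 * N * 2 ^ i₀) := mul_le_mul_of_nonneg_left hφ2.le (by linarith)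
      have b2 : K * ds p q (rd i₀ p) (rd i₀ q) ≤ K * (2 * 2 ^ i₀) :=
        mul_le_mul_of_nonneg_left hdr (by linarith)
      nlinarith
    have a4 : max 0 (φ (rd i₀ p) (rd i₀ q) - N * 2 ^ i₀) ≤ φ (rd i₀ p) (rd i₀ q) :=
      max_le a0 (by have : 0 ≤ N * 2 ^ i₀ := by positivity
                    linarith)
    have a5 := mul_le_mul_of_nonneg_left a4 hA0
    have a6 : (K + A) * φ (rd i₀ p) (rd i₀ q) ≤ (K + A) * (K * (2 * N + 2) * 2 ^ i₀) :=
      mul_le_mul_of_nonneg_left a3 (by linarith)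
    have a7 := ds_tri x y p q (rd i₀ p) (rd i₀ q)
    have a8 : pv c φ A N x y i₀ (rd i₀ p) (rd i₀ q) ≤ V + cst K A N * 2 ^ i₀ := by
      have : cst K A N * 2 ^ i₀ = 2 * 2 ^ i₀ + (K + A) * (K * (2 * N + 2) * 2 ^ i₀) := by
        unfold cst; ring
      unfold pv
      linarith
    have a9 : φ x y ≤ 2 * K * V := by
      have b1 := H.φK p q x y
      rw [ds_comm p q x y] at b1
      have b2 : K * φ p q ≤ K * (2 * N * 2 ^ i₀) := mul_le_mul_of_nonneg_left hφ2.le (by linarith)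
      have b3 : K * ds x y p q ≤ K * V := mul_le_mul_of_nonneg_left (by linarith) (by linarith)
      nlinarith
    have a10 : cst K A N * 2 ^ i₀ ≤ 2 * K * cst K A N * 2 ^ i₀ / φ x y * V := by
      rw [div_mul_eq_mul_div, le_div_iff₀ hφ0]
      have : cst K A N * 2 ^ i₀ * φ x y ≤ cst K A N * 2 ^ i₀ * (2 * K * V) :=
        mul_le_mul_of_nonneg_left a9 (by positivity)
      nlinarith
    have a11 : pv c φ A N x y i₀ (rd i₀ p) (rd i₀ q) ≤
        (1 + 2 * K * cst K A N * 2 ^ i₀ / φ x y) * V := by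
      rw [add_mul, one_mul]; linarith
    refine ⟨i₀, rd i₀ p, rd i₀ q, dvd_rd _ _, dvd_rd _ _, le_rfl, ?_, a11⟩
    have b4 : ds x y (rd i₀ p) (rd i₀ q) ≤ pv c φ A N x y i₀ (rd i₀ p) (rd i₀ q) := by
      have c1 := H.hc (rd i₀ p) (rd i₀ q)
      have c2 : 0 ≤ A * max 0 (φ (rd i₀ p) (rd i₀ q) - N * 2 ^ i₀) :=
        mul_nonneg hA0 (le_max_left _ _)
      unfold pv; linarith
    have b5 : 2 * K * cst K A N * 2 ^ i₀ / φ x y ≤ 1 := by
      rw [div_le_one hφ0]; exact h3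
    have b6 : (1 + 2 * K * cst K A N * 2 ^ i₀ / φ x y) * V ≤ 2 * V :=
      mul_le_mul_of_nonneg_right (by linarith) hV0
    linarith

end main

/-- a finite menu of grid states near `(x, y)` with their steps -/
structure Menu (φ : ℤ → ℤ → ℝ) (N R : ℝ) (i₀ : ℕ) (x y : ℤ) (Z : Finset (ℤ × ℤ))
    (w : ℤ × ℤ → ℕ) : Prop where
  dvd : ∀ z ∈ Z, (2 ^ w z : ℤ) ∣ z.1 ∧ (2 ^ w z : ℤ) ∣ z.2
  mem : ∀ p q : ℤ, (2 ^ i₀ : ℤ) ∣ p → (2 ^ i₀ : ℤ) ∣ q → ds x y p q ≤ R → (p, q) ∈ Z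
  top : ∀ z ∈ Z, ∀ i : ℕ, (2 ^ i : ℤ) ∣ z.1 → (2 ^ i : ℤ) ∣ z.2 → i ≤ w z ∨
    φ z.1 z.2 ≤ N * 2 ^ w z

section menu

variable {c φ c' φ' : ℤ → ℤ → ℝ} {K β ρ A N ν₁ ν₂ : ℝ}

/-- **the program**: the minimum over a menu with noisy tables `c'`, `φ'` -/
theorem menu_bound (H : Hyp c φ K β ρ A N) {x y : ℤ} {i₀ : ℕ} {Z : Finset (ℤ × ℤ)}
    {w : ℤ × ℤ → ℕ} (h1 : (2 : ℝ) ^ i₀ ≤ ρ * φ x y / 4) (h2 : 4 * N * K * 2 ^ i₀ ≤ φ x y)
    (h3 : 2 * K * cst K A N * 2 ^ i₀ ≤ φ x y)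
    (M : Menu φ N (2 * (K + β + ρ) * φ x y) i₀ x y Z w)
    (hν1 : ∀ z ∈ Z, |c' z.1 z.2 - c z.1 z.2| ≤ ν₁) (hν2 : ∀ z ∈ Z, |φ' z.1 z.2 - φ z.1 z.2| ≤ ν₂)
    {r : ℝ} (hr : ∀ z ∈ Z, r ≤ pv c' φ' A N x y (w z) z.1 z.2)
    (hr' : ∃ z ∈ Z, r = pv c' φ' A N x y (w z) z.1 z.2) :
    U c φ A N x y - (ν₁ + A * ν₂) ≤ r ∧
      r ≤ (1 + 2 * K * cst K A N * 2 ^ i₀ / φ x y) * U c φ A N x y + (ν₁ + A * ν₂) := by
  have hA := H.A_nonneg
  have hK := H.hK1
  have hN := H.N_pos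
  have hC : 0 < cst K A N := by unfold cst; positivity
  have hφ0 : 0 < φ x y := lt_of_lt_of_le (by positivity) h3
  have hη : 0 < 1 + 2 * K * cst K A N * 2 ^ i₀ / φ x y := by positivity
  have noise : ∀ z ∈ Z, |pv c' φ' A N x y (w z) z.1 z.2 - pv c φ A N x y (w z) z.1 z.2| ≤
      ν₁ + A * ν₂ := by
    intro z hz
    have e1 := hν1 z hz
    have e2 := hν2 z hz
    have e3 : |max 0 (φ' z.1 z.2 - N * 2 ^ w z) - max 0 (φ z.1 z.2 - N * 2 ^ w z)| ≤ ν₂ := by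
      rw [max_comm 0, max_comm 0]
      refine (abs_max_sub_max_le_abs _ _ _).trans (le_of_eq_of_le ?_ e2)
      congr 1; ring
    have e4 : pv c' φ' A N x y (w z) z.1 z.2 - pv c φ A N x y (w z) z.1 z.2 =
        (c' z.1 z.2 - c z.1 z.2) +
          A * (max 0 (φ' z.1 z.2 - N * 2 ^ w z) - max 0 (φ z.1 z.2 - N * 2 ^ w z)) := by
      unfold pv; ring
    rw [e4]
    refine (abs_add_le _ _).trans (add_le_add e1 ?_)
    rw [abs_mul, abs_of_nonneg hA]
    exact mul_le_mul_of_nonneg_left e3 hA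
  constructor
  · obtain ⟨z, hz, hrz⟩ := hr'
    have e1 := U_le (c := c) (φ := φ) (A := A) (N := N) H.hc hA x y (M.dvd z hz).1 (M.dvd z hz).2
    have e2 := (abs_le.1 (noise z hz)).1
    rw [hrz]; linarith
  · have key : (r - (ν₁ + A * ν₂)) / (1 + 2 * K * cst K A N * 2 ^ i₀ / φ x y) ≤
        U c φ A N x y := by
      refine le_U fun i p q hp hq => ?_
      obtain ⟨i', p', q', hp', hq', hi', hd, hv⟩ := exists_local H x y i₀ h1 h2 h3 i p q hp hq
      have hz : (p', q') ∈ Z := M.mem p' q' ((pow_dvd_pow 2 hi').trans hp')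
        ((pow_dvd_pow 2 hi').trans hq') hd
      have e1 := hr _ hz
      have e2 := (abs_le.1 (noise _ hz)).2
      have e3 : pv c φ A N x y (w (p', q')) p' q' ≤ pv c φ A N x y i' p' q' := by
        have hmax : max 0 (φ p' q' - N * 2 ^ w (p', q')) ≤ max 0 (φ p' q' - N * 2 ^ i') := by
          rcases M.top _ hz i' hp' hq' with h | h
          · apply max_le_max le_rfl
            have : N * (2 : ℝ) ^ i' ≤ N * 2 ^ w (p', q') :=
              mul_le_mul_of_nonneg_left (pow_le_pow_right₀ one_le_two h) hN.le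
            linarith
          · rw [max_eq_left (by simpa using h)]
            exact le_max_left _ _
        have := mul_le_mul_of_nonneg_left hmax hA
        unfold pv; linarith
      rw [div_le_iff₀ hη, mul_comm]
      simp only at e1 e2
      linarith
    rw [div_le_iff₀ hη] at key
    linarith

/-- epochs `≥ 1`: `φ` is `1`-Lipschitz, `c ≤ 2 φ` and `c` is Lipschitz up to `b φ` -/
theorem Hyp.of_lip {b : ℝ} (hb : 0 ≤ b) (hρ : 0 < ρ) (hρ1 : ρ ≤ 1) (hc : ∀ u v, 0 ≤ c u v)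
    (hcφ : ∀ u v, c u v ≤ 2 * φ u v) (hφ : Lip φ)
    (hl : ∀ u v u' v', c u' v' ≤ c u v + ds u v u' v' + b * φ u v)
    (hN : 16 ≤ N * ρ) (hA : 2 * (b + 2 * ρ) ≤ A) : Hyp c φ 2 (b + ρ) ρ A N where
  hc := hc
  hK1 := by norm_num
  hβ := by linarith
  hρ := hρ
  hρ1 := hρ1
  cK := hcφ
  φK u v u' v' := by
    have h0 : 0 ≤ φ u v := by have := hc u v; have := hcφ u v; linarith
    have h1 := hφ u' v' u v
    have h2 : dz u' u + dz v' v = ds u v u' v' := by unfold ds; rw [dz_comm u', dz_comm v']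
    have h3 := ds_nonneg u v u' v'
    rw [h2] at h1
    linarith
  stab u v u' v' h := by
    have h1 := hl u v u' v'
    have : (b + ρ) * φ u v = b * φ u v + ρ * φ u v := by ring
    linarith
  hN := by linarith
  hA := by linarith

/-- start: the cost `m` is comparable with a `3`-Lipschitz function -/
theorem Hyp.of_comp {m E : ℤ → ℤ → ℝ} (hρ : 0 < ρ) (hρ1 : ρ ≤ 1) (hE : ∀ u v, 0 ≤ E u v)
    (h1 : ∀ u v, E u v ≤ m u v) (h2 : ∀ u v, m u v ≤ 2 * E u v)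
    (hl : ∀ u v u' v', E u' v' ≤ E u v + 3 * ds u v u' v')
    (hN : 48 ≤ N * ρ) (hA : 2 * (1 + 7 * ρ) ≤ A) : Hyp m m 6 (1 + 6 * ρ) ρ A N where
  hc u v := (hE u v).trans (h1 u v)
  hK1 := by norm_num
  hβ := by positivity
  hρ := hρ
  hρ1 := hρ1
  cK u v := by have := hE u v; have := h1 u v; linarith
  φK u v u' v' := by
    have a := h2 u' v'
    have b := hl u v u' v'
    have c := h1 u v
    have d := hE u v
    linarith
  stab u v u' v' h := by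
    have a := h2 u' v'
    have b := hl u v u' v'
    have c := h1 u v
    have : (1 + 6 * ρ) * m u v = m u v + 6 * (ρ * m u v) := by ring
    linarith
  hN := by linarith
  hA := by linarith

end menu

end Crest.Agent.R288.Smo406
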