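import Crest.Agent.R288.SmoothA_387
import Crest.Agent.R288.Vec_500

/-!
# R288: Lipschitz regularisation of a table, HL commands

All parameters (offset, length, stride, slope) are EXPRESSIONS whose value does not depend on the
loop variables and array contents (`Cst`: closed under `var`, literals, `+ - * / %`).

* `smoothC x k o n d lam` (`smoothUC`): in place on the strided cells `o + i * d`, `i < n`, of
  array `k`; cost `6 n + 4`; loop variable `x`.
* `smooth2C x y k o r c lr lc`: table of `r` rows of length `c`, stored row by row from `o` on.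
* `extC x k o n k1 o1 n1 g cap lam`: extension from the grid of step `g`.
-/

set_option autoImplicit false

namespace Crest.Agent.R288.Smooth387

open Crest.Agent.R295.HL Crest.Agent.R295.HL.Exp Crest.Agent.R295.HL.Cnd
open Crest.Agent.R295.HL.Cmd Crest.Agent.R295.HA100 Crest.Agent.R295.HLib100
open Crest.Agent.R288.Vec500

/-! ### constant expressions -/

/-- `a` has the value `v` in every state which agrees with `s` on the variables outside `xs` -/
def Cst (e : Env) (s : State) (xs : List ℕ) (a : Exp) (v : ℕ) : Prop :=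
  ∀ s' : State, (∀ y, y ∉ xs → s'.reg y = s.reg y) → a.ok e s' ∧ a.val s' = v

namespace Cst

variable {e : Env} {s s' : State} {xs ys : List ℕ} {a b : Exp} {u v y n : ℕ}

theorem var (hy : y ∉ xs) (h : s.reg y = v) : Cst e s xs (Exp.var y) v :=
  fun s' hs => ⟨trivial, by rw [Exp.val_var, hs y hy, h]⟩

theorem lit (h : n < e.B) : Cst e s xs (Exp.lit n) n := fun _ _ => ⟨h, rfl⟩

theorem zero (h : 0 < e.B) : Cst e s xs 0 0 := fun _ _ => ⟨h, rfl⟩

theorem one (h : 1 < e.B) : Cst e s xs 1 1 := fun _ _ => ⟨h, rfl⟩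

theorem add (ha : Cst e s xs a u) (hb : Cst e s xs b v) (h : u + v < e.B) :
    Cst e s xs (a + b) (u + v) := by
  intro s' hs
  obtain ⟨h1, h2⟩ := ha s' hs
  obtain ⟨h3, h4⟩ := hb s' hs
  exact ⟨⟨h1, h3, by rw [h2, h4]; exact h⟩, by rw [Exp.val_add, h2, h4]⟩

theorem mul (ha : Cst e s xs a u) (hb : Cst e s xs b v) (h : u * v < e.B) :
    Cst e s xs (a * b) (u * v) := by
  intro s' hs
  obtain ⟨h1, h2⟩ := ha s' hs
  obtain ⟨h3, h4⟩ := hb s' hs
  exact ⟨⟨h1, h3, by rw [h2, h4]; exact h⟩, by rw [Exp.val_mul, h2, h4]⟩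

theorem sub (ha : Cst e s xs a u) (hb : Cst e s xs b v) : Cst e s xs (a - b) (u - v) := by
  intro s' hs
  obtain ⟨h1, h2⟩ := ha s' hs
  obtain ⟨h3, h4⟩ := hb s' hs
  exact ⟨⟨h1, h3⟩, by rw [Exp.val_sub, h2, h4]⟩

theorem div (ha : Cst e s xs a u) (hb : Cst e s xs b v) : Cst e s xs (a / b) (u / v) := by
  intro s' hs
  obtain ⟨h1, h2⟩ := ha s' hs
  obtain ⟨h3, h4⟩ := hb s' hs
  exact ⟨⟨h1, h3⟩, by rw [Exp.val_div, h2, h4]⟩

theorem mod (ha : Cst e s xs a u) (hb : Cst e s xs b v) : Cst e s xs (a % b) (u % v) := by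
  intro s' hs
  obtain ⟨h1, h2⟩ := ha s' hs
  obtain ⟨h3, h4⟩ := hb s' hs
  exact ⟨⟨h1, h3⟩, by rw [Exp.val_mod, h2, h4]⟩

/-- fewer variables may change -/
theorem anti (h : Cst e s ys a v) (hx : ∀ y, y ∈ xs → y ∈ ys) : Cst e s xs a v :=
  fun s' hs => h s' fun y hy => hs y fun h' => hy (hx y h')

/-- change of the base state -/
theorem move (h : Cst e s xs a v) (hs : ∀ y, y ∉ xs → s'.reg y = s.reg y) : Cst e s' xs a v :=
  fun s'' hs'' => h s'' fun y hy => (hs'' y hy).trans (hs y hy)

theorem here (h : Cst e s xs a v) : a.ok e s ∧ a.val s = v := h s fun _ _ => rfl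

end Cst

/-! ### strided segments -/

/-- only the variables `xs` and the cells `O + i * D`, `i < N`, of array `k` may differ -/
structure SD (s s' : State) (xs : List ℕ) (k O N D : ℕ) : Prop where
  reg : ∀ y, y ∉ xs → s'.reg y = s.reg y
  arr : ∀ k', k' ≠ k → s'.arr k' = s.arr k'
  out : ∀ i, (∀ j < N, i ≠ O + j * D) → s'.arr k i = s.arr k i
  drawn : s'.drawn = s.drawn

namespace SD

variable {s s' s'' : State} {xs ys : List ℕ} {k O N D : ℕ}

theorem refl (s : State) (xs : List ℕ) (k O N D : ℕ) : SD s s xs k O N D :=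
  ⟨fun _ _ => rfl, fun _ _ => rfl, fun _ _ => rfl, rfl⟩

theorem trans (h : SD s s' xs k O N D) (h' : SD s' s'' xs k O N D) : SD s s'' xs k O N D :=
  ⟨fun y hy => (h'.reg y hy).trans (h.reg y hy), fun k' hk => (h'.arr k' hk).trans (h.arr k' hk),
    fun i hi => (h'.out i hi).trans (h.out i hi), h'.drawn.trans h.drawn⟩

theorem set {x v : ℕ} (h : SD s s' xs k O N D) (hx : x ∈ xs) :
    SD s (s'.setReg x v) xs k O N D := by
  refine ⟨fun y hy => ?_, h.arr, h.out, h.drawn⟩
  have hyx : y ≠ x := fun h' => hy (by rw [h']; exact hx)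
  rw [State.setReg_reg, if_neg hyx]
  exact h.reg y hy

theorem put {j v : ℕ} (h : SD s s' xs k O N D) (hj : j < N) :
    SD s (s'.setArr k (O + j * D) v) xs k O N D := by
  refine ⟨h.reg, fun k' hk => ?_, fun i hi => ?_, h.drawn⟩
  · rw [State.setArr_arr_ne _ _ _ hk]
    exact h.arr k' hk
  · rw [State.setArr_arr, if_neg (fun h' => hi j hj h'.2)]
    exact h.out i hi

/-- stride one: an interval frame -/
theorem toSF (h : SD s s' xs k O N 1) : SF s s' xs k O N :=
  ⟨h.reg, h.arr, fun i hi => h.out i fun j hj => by omega, h.drawn⟩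

/-- inside an interval -/
theorem toSF' {O1 N1 : ℕ} (h : SD s s' xs k O N D)
    (hN : ∀ j < N, O1 ≤ O + j * D ∧ O + j * D < O1 + N1) : SF s s' xs k O1 N1 := by
  refine ⟨h.reg, h.arr, fun i hi => h.out i fun j hj => ?_, h.drawn⟩
  have := hN j hj
  omega

end SD

/-- the data of an in-place pass: cells `O + i * D`, `i < N`, of array `k` hold `a i ≤ M` -/
structure Tb (e : Env) (s : State) (x k : ℕ) (o n d : Exp) (O N D M : ℕ) (a : ℕ → ℕ) : Prop where
  ho : Cst e s [x] o O
  hn : Cst e s [x] n N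
  hd : Cst e s [x] d D
  hN : N < e.B
  h2 : 2 < e.B
  hD : 0 < D
  hL : ∀ i < N, O + i * D < e.L
  hB : ∀ i < N, O + i * D < e.B
  hM : ∀ i < N, a i ≤ M
  ha : ∀ i < N, s.arr k (O + i * D) = a i

/-- the update expression `F old prev` computes `f` on values up to `M` -/
structure Up (e : Env) (s : State) (x M : ℕ) (F : Exp → Exp → Exp) (f : ℕ → ℕ → ℕ) : Prop where
  le : ∀ u v, u ≤ M → v ≤ M → f u v ≤ M
  ok : ∀ (s' : State) (r r' : Exp) (u v : ℕ), (∀ y, y ≠ x → s'.reg y = s.reg y) →
    r.ok e s' → r.val s' = u → r'.ok e s' → r'.val s' = v → u ≤ M → v ≤ M →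
    (F r r').ok e s' ∧ (F r r').val s' = f u v

theorem stride_ne {O i j D : ℕ} (hD : 0 < D) (h : i ≠ j) : O + i * D ≠ O + j * D := by
  intro h1
  exact h (Nat.eq_of_mul_eq_mul_right hD (by omega))

/-- forward pass: cell `i + 1` becomes `F (cell i + 1) (cell i)` -/
def passC (x k : ℕ) (o n d : Exp) (F : Exp → Exp → Exp) : Cmd :=
  forUp x 0 (n - 1) (.put k (o + (var x + 1) * d)
    (F (get k (o + (var x + 1) * d)) (get k (o + var x * d))))

/-- backward pass: cell `i` becomes `F (cell i) (cell i + 1)` -/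
def passBC (x k : ℕ) (o n d : Exp) (F : Exp → Exp → Exp) : Cmd :=
  forUp x 0 (n - 1) (.put k (o + (n - (var x + 2)) * d)
    (F (get k (o + (n - (var x + 2)) * d)) (get k (o + (n - (var x + 1)) * d))))

section pass

variable {e : Env} {s : State} {x k O N D M : ℕ} {o n d : Exp} {a : ℕ → ℕ}
  {F : Exp → Exp → Exp} {f : ℕ → ℕ → ℕ}

theorem reg_of {s s' : State} {x : ℕ} (h : ∀ y, y ∉ [x] → s'.reg y = s.reg y) (y : ℕ)
    (hy : y ≠ x) : s'.reg y = s.reg y := h y (by simpa using hy)

theorem passC_runs (ht : Tb e s x k o n d O N D M a) (hF : Up e s x M F f) :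
    Runs e (passC x k o n d F) s (3 * N + 2) (fun s' => SD s s' [x] k O N D ∧
      ∀ i < N, s'.arr k (O + i * D) = pass f a i) := by
  have hD := ht.hD
  have h2 := ht.h2
  have hNB := ht.hN
  refine Runs.forUp (A := 0) (N := N - 1) (m := 1)
    (I := fun j s' => SD s s' [x] k O N D ∧ (∀ i < N, i ≤ j → s'.arr k (O + i * D) = pass f a i) ∧
      ∀ i < N, j < i → s'.arr k (O + i * D) = a i)
    ?_ rfl (by omega) (by omega) ?_ ?_ ?_ ?_ (by omega)
  · simp only [Exp.ok_zero]; omega
  · refine ⟨(SD.refl s [x] k O N D).set (by simp), fun i hi hi0 => ?_, fun i hi _ => ht.ha i hi⟩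
    obtain rfl : i = 0 := by omega
    exact ht.ha 0 hi
  · rintro j s' - hj ⟨g1, g2, g3⟩ g4
    obtain ⟨h3, h4⟩ := ht.hn s' g1.reg
    exact ⟨⟨h3, by simp only [Exp.ok_one]; omega⟩, by rw [Exp.val_sub, h4]; rfl⟩
  · rintro j s' - hj ⟨g1, g2, g3⟩ g4
    obtain ⟨o1, o2⟩ := ht.ho s' g1.reg
    obtain ⟨d1, d2⟩ := ht.hd s' g1.reg
    have b1 := ht.hB (j + 1) (by omega)
    have b2 := ht.hB j (by omega)
    have l1 := ht.hL (j + 1) (by omega)
    have l2 := ht.hL j (by omega)
    have m1 : (j + 1) * D < e.B := by omega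
    have m2 : j * D < e.B := by omega
    have c1 : (o + (Exp.var x + 1) * d).ok e s' ∧ (o + (Exp.var x + 1) * d).val s' =
        O + (j + 1) * D := by
      simp only [Exp.ok_add, Exp.ok_mul, Exp.ok_var, Exp.ok_one, Exp.val_add, Exp.val_mul,
        Exp.val_var, Exp.val_one, g4, o2, d2, o1, d1, true_and, and_true]
      omega
    have c2 : (o + Exp.var x * d).ok e s' ∧ (o + Exp.var x * d).val s' = O + j * D := by
      simp only [Exp.ok_add, Exp.ok_mul, Exp.ok_var, Exp.val_add, Exp.val_mul,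
        Exp.val_var, g4, o2, d2, o1, d1, true_and, and_true]
      omega
    have v1 : (Exp.get k (o + (Exp.var x + 1) * d)).ok e s' ∧
        (Exp.get k (o + (Exp.var x + 1) * d)).val s' = a (j + 1) := by
      refine ⟨⟨c1.1, by rw [c1.2]; exact l1⟩, ?_⟩
      rw [Exp.val_get, c1.2, g3 (j + 1) (by omega) (by omega)]
    have v2 : (Exp.get k (o + Exp.var x * d)).ok e s' ∧
        (Exp.get k (o + Exp.var x * d)).val s' = pass f a j := by
      refine ⟨⟨c2.1, by rw [c2.2]; exact l2⟩, ?_⟩
      rw [Exp.val_get, c2.2, g2 j (by omega) le_rfl]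
    obtain ⟨f1, f2⟩ := hF.ok s' _ _ _ _ (reg_of g1.reg) v1.1 v1.2 v2.1 v2.2
      (ht.hM _ (by omega)) (pass_bound (fun t ht' => ht.hM t (by omega)) hF.le)
    refine Runs.put c1.1 (by rw [c1.2]; exact l1) f1 ?_
    rw [c1.2, f2]
    refine ⟨g4, (g1.put (by omega)).set (by simp), fun i hi hij => ?_, fun i hi hij => ?_⟩
    · rw [State.setReg_arr, State.setArr_arr]
      by_cases h3 : i = j + 1
      · rw [if_pos ⟨rfl, by rw [h3]⟩, h3, pass_succ]
      · rw [if_neg (fun h' => stride_ne hD h3 h'.2)]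
        exact g2 i hi (by omega)
    · rw [State.setReg_arr, State.setArr_arr]
      rw [if_neg (fun h' => stride_ne hD (show i ≠ j + 1 by omega) h'.2)]
      exact g3 i hi (by omega)
  · rintro s' ⟨g1, g2, g3⟩ g4
    exact ⟨g1, fun i hi => g2 i hi (by omega)⟩

theorem passBC_runs (ht : Tb e s x k o n d O N D M a) (hF : Up e s x M F f) :
    Runs e (passBC x k o n d F) s (3 * N + 2) (fun s' => SD s s' [x] k O N D ∧
      ∀ i < N, s'.arr k (O + i * D) = passB f N a i) := by
  have hD := ht.hD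
  have h2 := ht.h2
  have hNB := ht.hN
  refine Runs.forUp (A := 0) (N := N - 1) (m := 1)
    (I := fun j s' => SD s s' [x] k O N D ∧
      (∀ i < N, N ≤ i + 1 + j → s'.arr k (O + i * D) = passB f N a i) ∧
      ∀ i < N, i + 1 + j < N → s'.arr k (O + i * D) = a i)
    ?_ rfl (by omega) (by omega) ?_ ?_ ?_ ?_ (by omega)
  · simp only [Exp.ok_zero]; omega
  · refine ⟨(SD.refl s [x] k O N D).set (by simp), fun i hi hi0 => ?_, fun i hi _ => ht.ha i hi⟩
    obtain rfl : i = N - 1 := by omega
    rw [passB_last]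
    exact ht.ha _ hi
  · rintro j s' - hj ⟨g1, g2, g3⟩ g4
    obtain ⟨h3, h4⟩ := ht.hn s' g1.reg
    exact ⟨⟨h3, by simp only [Exp.ok_one]; omega⟩, by rw [Exp.val_sub, h4]; rfl⟩
  · rintro j s' - hj ⟨g1, g2, g3⟩ g4
    obtain ⟨o1, o2⟩ := ht.ho s' g1.reg
    obtain ⟨d1, d2⟩ := ht.hd s' g1.reg
    obtain ⟨n1, n2⟩ := ht.hn s' g1.reg
    have b1 := ht.hB (N - (j + 2)) (by omega)
    have b2 := ht.hB (N - (j + 1)) (by omega)
    have l1 := ht.hL (N - (j + 2)) (by omega)
    have l2 := ht.hL (N - (j + 1)) (by omega)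
    have m1 : (N - (j + 2)) * D < e.B := by omega
    have m2 : (N - (j + 1)) * D < e.B := by omega
    have c1 : (o + (n - (Exp.var x + 2)) * d).ok e s' ∧
        (o + (n - (Exp.var x + 2)) * d).val s' = O + (N - (j + 2)) * D := by
      simp only [Exp.ok_add, Exp.ok_mul, Exp.ok_sub, Exp.ok_var, ok_ofNat', Exp.val_add,
        Exp.val_mul, Exp.val_sub, Exp.val_var, val_ofNat', g4, o2, d2, n2, o1, d1, n1, true_and,
        and_true]
      omega
    have c2 : (o + (n - (Exp.var x + 1)) * d).ok e s' ∧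
        (o + (n - (Exp.var x + 1)) * d).val s' = O + (N - (j + 1)) * D := by
      simp only [Exp.ok_add, Exp.ok_mul, Exp.ok_sub, Exp.ok_var, Exp.ok_one, Exp.val_add,
        Exp.val_mul, Exp.val_sub, Exp.val_var, Exp.val_one, g4, o2, d2, n2, o1, d1, n1, true_and,
        and_true]
      omega
    have v1 : (Exp.get k (o + (n - (Exp.var x + 2)) * d)).ok e s' ∧
        (Exp.get k (o + (n - (Exp.var x + 2)) * d)).val s' = a (N - (j + 2)) := by
      refine ⟨⟨c1.1, by rw [c1.2]; exact l1⟩, ?_⟩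
      rw [Exp.val_get, c1.2, g3 (N - (j + 2)) (by omega) (by omega)]
    have v2 : (Exp.get k (o + (n - (Exp.var x + 1)) * d)).ok e s' ∧
        (Exp.get k (o + (n - (Exp.var x + 1)) * d)).val s' = passB f N a (N - (j + 1)) := by
      refine ⟨⟨c2.1, by rw [c2.2]; exact l2⟩, ?_⟩
      rw [Exp.val_get, c2.2, g2 (N - (j + 1)) (by omega) (by omega)]
    obtain ⟨f1, f2⟩ := hF.ok s' _ _ _ _ (reg_of g1.reg) v1.1 v1.2 v2.1 v2.2
      (ht.hM _ (by omega)) (passB_bound (by omega) (fun t ht' => ht.hM t ht') hF.le)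
    refine Runs.put c1.1 (by rw [c1.2]; exact l1) f1 ?_
    rw [c1.2, f2]
    refine ⟨g4, (g1.put (by omega)).set (by simp), fun i hi hij => ?_, fun i hi hij => ?_⟩
    · rw [State.setReg_arr, State.setArr_arr]
      by_cases h3 : i = N - (j + 2)
      · have e3 := passB_step (f := f) (a := a) (n := N) (i := N - (j + 2)) (by omega)
        have e4 : N - (j + 2) + 1 = N - (j + 1) := by omega
        rw [e4] at e3
        rw [if_pos ⟨rfl, by rw [h3]⟩, h3, e3]
      · rw [if_neg (fun h' => stride_ne hD h3 h'.2)]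
        exact g2 i hi (by omega)
    · rw [State.setReg_arr, State.setArr_arr]
      rw [if_neg (fun h' => stride_ne hD (show i ≠ N - (j + 2) by omega) h'.2)]
      exact g3 i hi (by omega)
  · rintro s' ⟨g1, g2, g3⟩ g4
    exact ⟨g1, fun i hi => g2 i hi (by omega)⟩

/-- two passes -/
def pass2C (x k : ℕ) (o n d : Exp) (F : Exp → Exp → Exp) : Cmd :=
  passC x k o n d F ;; passBC x k o n d F

theorem pass2C_runs (ht : Tb e s x k o n d O N D M a) (hF : Up e s x M F f) :
    Runs e (pass2C x k o n d F) s (6 * N + 4) (fun s' => SD s s' [x] k O N D ∧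
      ∀ i < N, s'.arr k (O + i * D) = passB f N (pass f a) i) := by
  refine (passC_runs ht hF).seq (m := 3 * N + 2) ?_ (by omega)
  rintro s1 ⟨g1, g2⟩
  have hF1 : Up e s1 x M F f := ⟨hF.le, fun s' r r' u v hs => hF.ok s' r r' u v fun y hy =>
    (hs y hy).trans (g1.reg y (by simpa using hy))⟩
  have ht1 : Tb e s1 x k o n d O N D M (pass f a) :=
    { ho := ht.ho.move g1.reg, hn := ht.hn.move g1.reg, hd := ht.hd.move g1.reg, hN := ht.hN,
      h2 := ht.h2, hD := ht.hD, hL := ht.hL, hB := ht.hB,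
      hM := fun i hi => pass_bound (fun t ht' => ht.hM t (by omega)) hF.le, ha := g2 }
  exact (passBC_runs ht1 hF1).post fun s' h => ⟨g1.trans h.1, h.2⟩

end pass

/-! ### the regularisation -/

/-- in place `a i := min_{j < n} (a j + lam * |i - j|)` on the cells `o + i * d` of array `k` -/
def smoothC (x k : ℕ) (o n d lam : Exp) : Cmd :=
  pass2C x k o n d (fun r r' => r - (r - (r' + lam)))

/-- in place `a i := max_{j < n} (a j - lam * |i - j|)` -/
def smoothUC (x k : ℕ) (o n d lam : Exp) : Cmd :=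
  pass2C x k o n d (fun r r' => (r' - lam) + (r - (r' - lam)))

section one

variable {e : Env} {s : State} {x k O N D M La : ℕ} {o n d lam : Exp} {a : ℕ → ℕ}

theorem up_min (hl : Cst e s [x] lam La) (hMB : M + La < e.B) :
    Up e s x M (fun r r' => r - (r - (r' + lam))) (fmin La) := by
  refine ⟨fun u v hu _ => (min_le_left _ _).trans hu, ?_⟩
  intro s' r r' u v hs h1 h2 h3 h4 hu hv
  obtain ⟨l1, l2⟩ := hl s' fun y hy => hs y (by simpa using hy)
  simp only [Exp.ok_sub, Exp.ok_add, Exp.val_sub, Exp.val_add, h1, h2, h3, h4, l1, l2, true_and,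
    fmin]
  omega

theorem up_max (hl : Cst e s [x] lam La) (hMB : M < e.B) :
    Up e s x M (fun r r' => (r' - lam) + (r - (r' - lam))) (fmax La) := by
  refine ⟨fun u v hu hv => max_le hu ((Nat.sub_le _ _).trans hv), ?_⟩
  intro s' r r' u v hs h1 h2 h3 h4 hu hv
  obtain ⟨l1, l2⟩ := hl s' fun y hy => hs y (by simpa using hy)
  simp only [Exp.ok_sub, Exp.ok_add, Exp.val_sub, Exp.val_add, h1, h2, h3, h4, l1, l2, true_and,
    and_true, fmax]
  omega

theorem smoothC_runs (ht : Tb e s x k o n d O N D M a) (hl : Cst e s [x] lam La)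
    (hMB : M + La < e.B) :
    Runs e (smoothC x k o n d lam) s (6 * N + 4) (fun s' => SD s s' [x] k O N D ∧
      ∀ i < N, s'.arr k (O + i * D) = smooth La N a i) :=
  pass2C_runs ht (up_min hl hMB)

theorem smoothUC_runs (ht : Tb e s x k o n d O N D M a) (hl : Cst e s [x] lam La)
    (hMB : M < e.B) :
    Runs e (smoothUC x k o n d lam) s (6 * N + 4) (fun s' => SD s s' [x] k O N D ∧
      ∀ i < N, s'.arr k (O + i * D) = smoothU La N a i) :=
  pass2C_runs ht (up_max hl hMB)

/-- segment form: cells `[O, O + N)`, list `l` -/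
theorem smoothC_seg {l : List ℕ} (ho : Cst e s [x] o O) (hn : Cst e s [x] n l.length)
    (hl : Cst e s [x] lam La) (hN : l.length < e.B) (h2 : 2 < e.B)
    (hB : O + l.length ≤ e.B) (hL : O + l.length ≤ e.L)
    (hM : ∀ v ∈ l, v ≤ M) (hMB : M + La < e.B) (hs : s.Seg k O l) :
    Runs e (smoothC x k o n 1 lam) s (6 * l.length + 4) (fun s' =>
      SF s s' [x] k O l.length ∧
      s'.Seg k O (lst (smooth La l.length (fun i => l.getD i 0)) l.length)) := by
  have ht : Tb e s x k o n 1 O l.length 1 M (fun i => l.getD i 0) :=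
    { ho := ho, hn := hn, hd := Cst.one (by omega), hN := hN, h2 := h2, hD := Nat.one_pos,
      hL := fun i hi => by omega, hB := fun i hi => by omega,
      hM := fun i hi => by
        rw [List.getD_eq_getElem _ _ hi]; exact hM _ (List.getElem_mem _)
      ha := fun i hi => by
        rw [Nat.mul_one, List.getD_eq_getElem _ _ hi]; exact hs i hi }
  refine (smoothC_runs ht hl hMB).post fun s' h => ⟨h.1.toSF, ?_⟩
  refine seg_ofFn fun i hi => ?_
  have := h.2 i hi
  rwa [Nat.mul_one] at this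

end one

/-! ### tables with two indices -/

/-- table of `r` rows of length `c` at `o` (row by row), in place
`a i j := min (a i' j' + lr * |i - i'| + lc * |j - j'|)`; loop variables `x`, `y` -/
def smooth2C (x y k : ℕ) (o r c lr lc : Exp) : Cmd :=
  forUp y 0 r (smoothC x k (o + var y * c) c 1 lc) ;;
  forUp y 0 c (smoothC x k (o + var y) r c lr)

section two

variable {e : Env} {s : State} {x y k O R C Lr Lc M : ℕ} {o r c lr lc : Exp} {a : ℕ → ℕ → ℕ}

theorem cell_lt {i j R C : ℕ} (hi : i < R) (hj : j < C) : i * C + j < R * C := by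
  have h1 : (i + 1) * C ≤ R * C := Nat.mul_le_mul_right C hi
  rw [Nat.succ_mul] at h1
  omega

theorem cell_inj {i j i' j' C : ℕ} (hj : j < C) (hj' : j' < C) (h : i * C + j = i' * C + j') :
    i = i' ∧ j = j' := by
  have hC : 0 < C := by omega
  have e1 : (i * C + j) / C = i := by
    rw [Nat.add_comm, Nat.add_mul_div_right _ _ hC, Nat.div_eq_of_lt hj, Nat.zero_add]
  have e2 : (i' * C + j') / C = i' := by
    rw [Nat.add_comm, Nat.add_mul_div_right _ _ hC, Nat.div_eq_of_lt hj', Nat.zero_add]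
  have h3 : i = i' := by rw [← e1, ← e2, h]
  subst h3
  exact ⟨rfl, by omega⟩

/-- rows -/
theorem rows_runs (hxy : x ≠ y) (ho : Cst e s [x, y] o O) (hr : Cst e s [x, y] r R)
    (hc : Cst e s [x, y] c C) (hlc : Cst e s [x, y] lc Lc) (hC : 0 < C)
    (hRB : R < e.B) (hCB : C < e.B) (h2 : 2 < e.B)
    (hB : O + R * C ≤ e.B) (hL : O + R * C ≤ e.L) (hMB : M + Lc < e.B)
    (hM : ∀ i < R, ∀ j < C, a i j ≤ M)
    (ha : ∀ i < R, ∀ j < C, s.arr k (O + (i * C + j)) = a i j) :
    Runs e (forUp y 0 r (smoothC x k (o + var y * c) c 1 lc)) s (R * (6 * C + 6) + 2)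
      (fun s' => SF s s' [x, y] k O (R * C) ∧
        ∀ i < R, ∀ j < C, s'.arr k (O + (i * C + j)) = smooth Lc C (a i) j) := by
  refine Runs.forUp (A := 0) (N := R) (m := 6 * C + 4)
    (I := fun t s' => SF s s' [x, y] k O (R * C) ∧
      (∀ i < R, i < t → ∀ j < C, s'.arr k (O + (i * C + j)) = smooth Lc C (a i) j) ∧
      ∀ i < R, t ≤ i → ∀ j < C, s'.arr k (O + (i * C + j)) = a i j)
    ?_ rfl (by omega) hRB ?_ ?_ ?_ ?_ (by simp)
  · simp only [Exp.ok_zero]; omega
  · exact ⟨(SF.refl s [x, y] k O _).set (by simp), fun i _ hi => absurd hi (Nat.not_lt_zero i),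
      fun i hi _ j hj => ha i hi j hj⟩
  · rintro t s' - ht ⟨g1, g2, g3⟩ g4
    exact hr s' g1.reg
  · rintro t s' - ht ⟨g1, g2, g3⟩ g4
    have hcl : ∀ j < C, t * C + j < R * C := fun j hj => cell_lt ht hj
    have h0 := hcl 0 hC
    have htb : Tb e s' x k (o + Exp.var y * c) c 1 (O + t * C) C 1 M (a t) :=
      { ho := ((ho.move g1.reg).anti (by simp)).add
          ((Cst.var (by simpa using Ne.symm hxy) g4).mul ((hc.move g1.reg).anti (by simp))
            (by omega)) (by omega)
        hn := (hc.move g1.reg).anti (by simp)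
        hd := Cst.one (by omega)
        hN := hCB
        h2 := h2
        hD := Nat.one_pos
        hL := fun i hi => by have := hcl i hi; omega
        hB := fun i hi => by have := hcl i hi; omega
        hM := fun i hi => hM t ht i hi
        ha := fun i hi => by
          have e1 : O + t * C + i * 1 = O + (t * C + i) := by omega
          rw [e1]
          exact g3 t ht le_rfl i hi }
    refine (smoothC_runs htb ((hlc.move g1.reg).anti (by simp)) hMB).post ?_
    rintro s'' ⟨f1, f2⟩
    have f3 : SF s' s'' [x, y] k O (R * C) := by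
      refine (f1.toSF' (O1 := O) (N1 := R * C) fun j hj => ?_).monoX (by simp)
      have := hcl j hj
      omega
    refine ⟨?_, (g1.trans f3).set (by simp), fun i hi hit j hj => ?_, fun i hi hit j hj => ?_⟩
    · rw [f1.reg y (by simpa using Ne.symm hxy), g4]
    · rw [State.setReg_arr]
      rcases Nat.lt_or_ge i t with h3 | h3
      · rw [f1.out _ fun j' hj' h4 => ?_]
        · exact g2 i hi h3 j hj
        · have h5 := cell_inj (i := i) (i' := t) hj hj' (by omega)
          omega
      · obtain rfl : i = t := by omega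
        have h4 := f2 j hj
        have e1 : O + i * C + j * 1 = O + (i * C + j) := by omega
        rwa [e1] at h4
    · rw [State.setReg_arr, f1.out _ fun j' hj' h4 => ?_]
      · exact g3 i hi (by omega) j hj
      · have h5 := cell_inj (i := i) (i' := t) hj hj' (by omega)
        omega
  · rintro s' ⟨g1, g2, g3⟩ -
    exact ⟨g1, fun i hi => g2 i hi hi⟩

/-- columns -/
theorem cols_runs (hxy : x ≠ y) (ho : Cst e s [x, y] o O) (hr : Cst e s [x, y] r R)
    (hc : Cst e s [x, y] c C) (hlr : Cst e s [x, y] lr Lr) (hR : 0 < R)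
    (hRB : R < e.B) (hCB : C < e.B) (h2 : 2 < e.B)
    (hB : O + R * C ≤ e.B) (hL : O + R * C ≤ e.L) (hMB : M + Lr < e.B)
    (hM : ∀ i < R, ∀ j < C, a i j ≤ M)
    (ha : ∀ i < R, ∀ j < C, s.arr k (O + (i * C + j)) = a i j) :
    Runs e (forUp y 0 c (smoothC x k (o + var y) r c lr)) s (C * (6 * R + 6) + 2)
      (fun s' => SF s s' [x, y] k O (R * C) ∧
        ∀ i < R, ∀ j < C, s'.arr k (O + (i * C + j)) = smooth Lr R (fun i' => a i' j) i) := by
  refine Runs.forUp (A := 0) (N := C) (m := 6 * R + 4)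
    (I := fun t s' => SF s s' [x, y] k O (R * C) ∧
      (∀ i < R, ∀ j < C, j < t →
        s'.arr k (O + (i * C + j)) = smooth Lr R (fun i' => a i' j) i) ∧
      ∀ i < R, ∀ j < C, t ≤ j → s'.arr k (O + (i * C + j)) = a i j)
    ?_ rfl (by omega) hCB ?_ ?_ ?_ ?_ (by simp)
  · simp only [Exp.ok_zero]; omega
  · exact ⟨(SF.refl s [x, y] k O _).set (by simp), fun i _ j _ hi => absurd hi (Nat.not_lt_zero j),
      fun i hi j hj _ => ha i hi j hj⟩
  · rintro t s' - ht ⟨g1, g2, g3⟩ g4
    exact hc s' g1.reg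
  · rintro t s' - ht ⟨g1, g2, g3⟩ g4
    have hcl : ∀ i < R, i * C + t < R * C := fun i hi => cell_lt hi ht
    have h0 := hcl 0 hR
    rw [Nat.zero_mul] at h0
    have htb : Tb e s' x k (o + Exp.var y) r c (O + t) R C M (fun i => a i t) :=
      { ho := ((ho.move g1.reg).anti (by simp)).add
          (Cst.var (by simpa using Ne.symm hxy) g4) (by omega)
        hn := (hr.move g1.reg).anti (by simp)
        hd := (hc.move g1.reg).anti (by simp)
        hN := hRB
        h2 := h2
        hD := by omega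
        hL := fun i hi => by have := hcl i hi; omega
        hB := fun i hi => by have := hcl i hi; omega
        hM := fun i hi => hM i hi t ht
        ha := fun i hi => by
          have e1 : O + t + i * C = O + (i * C + t) := by omega
          rw [e1]
          exact g3 i hi t ht le_rfl }
    refine (smoothC_runs htb ((hlr.move g1.reg).anti (by simp)) hMB).post ?_
    rintro s'' ⟨f1, f2⟩
    have f3 : SF s' s'' [x, y] k O (R * C) := by
      refine (f1.toSF' (O1 := O) (N1 := R * C) fun i hi => ?_).monoX (by simp)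
      have := hcl i hi
      omega
    refine ⟨?_, (g1.trans f3).set (by simp), fun i hi j hj hjt => ?_, fun i hi j hj hjt => ?_⟩
    · rw [f1.reg y (by simpa using Ne.symm hxy), g4]
    · rw [State.setReg_arr]
      rcases Nat.lt_or_ge j t with h3 | h3
      · rw [f1.out _ fun i' hi' h4 => ?_]
        · exact g2 i hi j hj h3
        · have h5 := cell_inj (i := i) (i' := i') hj ht (by omega)
          omega
      · obtain rfl : j = t := by omega
        have h4 := f2 i hi
        have e1 : O + j + i * C = O + (i * C + j) := by omega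
        rwa [e1] at h4
    · rw [State.setReg_arr, f1.out _ fun i' hi' h4 => ?_]
      · exact g3 i hi j hj (by omega)
      · have h5 := cell_inj (i := i) (i' := i') hj ht (by omega)
        omega
  · rintro s' ⟨g1, g2, g3⟩ -
    exact ⟨g1, fun i hi j hj => g2 i hi j hj hj⟩

/-- **two-index regularisation** -/
theorem smooth2C_runs (hxy : x ≠ y) (ho : Cst e s [x, y] o O) (hr : Cst e s [x, y] r R)
    (hc : Cst e s [x, y] c C) (hlr : Cst e s [x, y] lr Lr) (hlc : Cst e s [x, y] lc Lc)
    (hR : 0 < R) (hC : 0 < C) (hRB : R < e.B) (hCB : C < e.B) (h2 : 2 < e.B)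
    (hB : O + R * C ≤ e.B) (hL : O + R * C ≤ e.L) (hMr : M + Lr < e.B) (hMc : M + Lc < e.B)
    (hM : ∀ i < R, ∀ j < C, a i j ≤ M)
    (ha : ∀ i < R, ∀ j < C, s.arr k (O + (i * C + j)) = a i j) :
    Runs e (smooth2C x y k o r c lr lc) s (12 * (R * C) + 6 * R + 6 * C + 4)
      (fun s' => SF s s' [x, y] k O (R * C) ∧
        ∀ i < R, ∀ j < C, s'.arr k (O + (i * C + j)) = smooth2 Lr Lc R C a i j) := by
  refine (rows_runs hxy ho hr hc hlc hC hRB hCB h2 hB hL hMc hM ha).seq
    (m := C * (6 * R + 6) + 2) ?_ (by ring_nf; omega)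
  rintro s1 ⟨g1, g2⟩
  refine (cols_runs (M := M) (a := fun i j => smooth Lc C (a i) j) hxy (ho.move g1.reg)
    (hr.move g1.reg) (hc.move g1.reg) (hlr.move g1.reg) hR hRB hCB h2 hB hL hMr
    (fun i hi j hj => smooth_le_bound hj (fun t ht => hM i hi t ht)) g2).post ?_
  rintro s2 ⟨f1, f2⟩
  exact ⟨g1.trans f1, f2⟩

end two

/-! ### extension from a grid -/

/-- cells `o + u`, `u < n`, of array `k` := `ext` of the grid values in the cells `o1 + v`, `v < n1`,
of array `k1` -/
def extC (x k : ℕ) (o n : Exp) (k1 : ℕ) (o1 n1 g cap lam : Exp) : Cmd :=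
  forUp x 0 n (.ite (.and (.eq (var x % g) 0) (.lt (var x / g) n1))
    (.put k (o + var x) (get k1 (o1 + var x / g))) (.put k (o + var x) cap)) ;;
  smoothC x k o n 1 lam

section ext

variable {e : Env} {s : State} {x k k1 O N O1 N1 G Cap La M : ℕ} {o n o1 n1 g cap lam : Exp}
  {T : ℕ → ℕ}

theorem extC_runs (ho : Cst e s [x] o O) (hn : Cst e s [x] n N) (ho1 : Cst e s [x] o1 O1)
    (hn1 : Cst e s [x] n1 N1) (hg : Cst e s [x] g G) (hcap : Cst e s [x] cap Cap)
    (hlam : Cst e s [x] lam La)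
    (h2 : 2 < e.B) (hN : N < e.B) (hB : O + N ≤ e.B) (hL : O + N ≤ e.L)
    (hB1 : O1 + N1 ≤ e.B) (hL1 : O1 + N1 ≤ e.L)
    (hd : k1 ≠ k ∨ O1 + N1 ≤ O ∨ O + N ≤ O1)
    (hM : ∀ v < N1, T v ≤ M) (hCM : Cap ≤ M) (hMB : M + La < e.B)
    (hT : ∀ v < N1, s.arr k1 (O1 + v) = T v) :
    Runs e (extC x k o n k1 o1 n1 g cap lam) s (10 * N + 6) (fun s' => SF s s' [x] k O N ∧
      ∀ u < N, s'.arr k (O + u) = ext La G N1 N Cap T u) := by
  refine Runs.seq (n := 4 * N + 2) (m := 6 * N + 4)
    (R := fun s' => SF s s' [x] k O N ∧ ∀ u < N, s'.arr k (O + u) = onGrid G N1 Cap T u)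
    ?_ ?_ (by omega)
  · refine Runs.forUp (A := 0) (N := N) (m := 2)
      (I := fun j s' => SF s s' [x] k O N ∧ ∀ u < j, s'.arr k (O + u) = onGrid G N1 Cap T u)
      ?_ rfl (by omega) hN ?_ ?_ ?_ ?_ (by omega)
    · simp only [Exp.ok_zero]; omega
    · exact ⟨(SF.refl s [x] k O N).set (by simp), fun i hi => absurd hi (Nat.not_lt_zero i)⟩
    · rintro j s' - hj ⟨g1, g2⟩ g3
      exact hn s' g1.reg
    · rintro j s' - hj ⟨g1, g2⟩ g3
      obtain ⟨o1', o2'⟩ := ho s' g1.reg
      obtain ⟨p1, p2⟩ := ho1 s' g1.reg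
      obtain ⟨n1', n2'⟩ := hn1 s' g1.reg
      obtain ⟨q1, q2⟩ := hg s' g1.reg
      obtain ⟨c1, c2⟩ := hcap s' g1.reg
      have key : ∀ v : ℕ, v = onGrid G N1 Cap T j → (fun s'' : State => s''.reg x = j ∧
          SF s (s''.setReg x (j + 1)) [x] k O N ∧ ∀ u < j + 1,
            (s''.setReg x (j + 1)).arr k (O + u) = onGrid G N1 Cap T u)
          (s'.setArr k (O + j) v) := by
        intro v hv
        refine ⟨g3, (g1.put ⟨by omega, by omega⟩).set (by simp), fun u hu => ?_⟩
        rw [State.setReg_arr, State.setArr_arr]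
        by_cases huj : u = j
        · rw [if_pos ⟨rfl, by rw [huj]⟩, hv, huj]
        · rw [if_neg (fun h => huj (by omega))]
          exact g2 u (by omega)
      refine Runs.ite (n := 1) ?_ ?_ ?_ le_rfl
      · simp only [Cnd.ok_and, Cnd.ok_eq, Cnd.ok_lt, Exp.ok_mod, Exp.ok_div, Exp.ok_var,
          Exp.ok_zero, q1, n1', true_and, and_true]
        exact ⟨by omega, fun _ => trivial⟩
      · intro hc
        simp only [Cnd.holds_and, Cnd.holds_eq, Cnd.holds_lt, Exp.val_mod, Exp.val_div,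
          Exp.val_var, Exp.val_zero, g3, q2, n2'] at hc
        refine Runs.put ?_ ?_ ?_ ?_
        · simp only [Exp.ok_add, Exp.ok_var, Exp.val_var, o1', o2', g3, true_and]; omega
        · simp only [Exp.val_add, Exp.val_var, o2', g3]; omega
        · simp only [Exp.ok_get, Exp.ok_add, Exp.ok_div, Exp.ok_var, Exp.val_add, Exp.val_div,
            Exp.val_var, p1, p2, q1, q2, g3, true_and]
          omega
        · simp only [Exp.val_get, Exp.val_add, Exp.val_div, Exp.val_var, o2', p2, q2, g3]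
          refine key _ ?_
          rw [onGrid, if_pos hc, ← hT _ hc.2]
          have hc2 := hc.2
          generalize j / G = q at hc2 ⊢
          exact g1.cell (by omega)
      · intro hc
        simp only [Cnd.holds_and, Cnd.holds_eq, Cnd.holds_lt, Exp.val_mod, Exp.val_div,
          Exp.val_var, Exp.val_zero, g3, q2, n2'] at hc
        refine Runs.put ?_ ?_ c1 ?_
        · simp only [Exp.ok_add, Exp.ok_var, Exp.val_var, o1', o2', g3, true_and]; omega
        · simp only [Exp.val_add, Exp.val_var, o2', g3]; omega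
        · simp only [Exp.val_add, Exp.val_var, o2', g3, c2]
          refine key _ ?_
          rw [onGrid, if_neg hc]
    · rintro s' ⟨g1, g2⟩ -
      exact ⟨g1, g2⟩
  · rintro s1 ⟨g1, g2⟩
    have htb : Tb e s1 x k o n 1 O N 1 M (onGrid G N1 Cap T) :=
      { ho := ho.move g1.reg
        hn := hn.move g1.reg
        hd := Cst.one (by omega)
        hN := hN
        h2 := h2
        hD := Nat.one_pos
        hL := fun i hi => by omega
        hB := fun i hi => by omega
        hM := fun i hi => by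
          unfold onGrid
          split
          · next h => exact hM _ h.2
          · exact hCM
        ha := fun i hi => by rw [Nat.mul_one]; exact g2 i hi }
    refine (smoothC_runs htb (hlam.move g1.reg) hMB).post ?_
    rintro s2 ⟨f1, f2⟩
    refine ⟨g1.trans f1.toSF, fun u hu => ?_⟩
    have := f2 u hu
    rwa [Nat.mul_one] at this

end ext

/-! ### frames -/

@[simp] theorem smoothC_det (x k : ℕ) (o n d lam : Exp) : (smoothC x k o n d lam).det := by
  simp [smoothC, pass2C, passC, passBC]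

@[simp] theorem smoothUC_det (x k : ℕ) (o n d lam : Exp) : (smoothUC x k o n d lam).det := by
  simp [smoothUC, pass2C, passC, passBC]

@[simp] theorem smooth2C_det (x y k : ℕ) (o r c lr lc : Exp) :
    (smooth2C x y k o r c lr lc).det := by
  simp [smooth2C]

@[simp] theorem extC_det (x k : ℕ) (o n : Exp) (k1 : ℕ) (o1 n1 g cap lam : Exp) :
    (extC x k o n k1 o1 n1 g cap lam).det := by
  simp [extC]

@[simp] theorem smoothC_wr (x k z : ℕ) (o n d lam : Exp) :
    (smoothC x k o n d lam).wr z ↔ x = z := by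
  simp [smoothC, pass2C, passC, passBC]

@[simp] theorem smoothC_wa (x k z : ℕ) (o n d lam : Exp) :
    (smoothC x k o n d lam).wa z ↔ k = z := by
  simp [smoothC, pass2C, passC, passBC]

@[simp] theorem smooth2C_wr (x y k z : ℕ) (o r c lr lc : Exp) :
    (smooth2C x y k o r c lr lc).wr z ↔ x = z ∨ y = z := by
  simp [smooth2C]
  tauto

@[simp] theorem smooth2C_wa (x y k z : ℕ) (o r c lr lc : Exp) :
    (smooth2C x y k o r c lr lc).wa z ↔ k = z := by
  simp [smooth2C]

end Crest.Agent.R288.Smooth387
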