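import Crest.Agent.R288.SmpB_984
import Crest.Agent.R288.Med_559

/-!
# R288: sampling layer, part C: decision steps for arbitrary estimators, with a unit

Absolute costs (post 4082): every inequality carries a unit `U > 0` (for instance `T(s)`).
`t : RT α` is any computation of estimates, `x : α` its result, read by functions.

* `hedge_dec`, `greedy_dec`, `menu_dec`: one decision (mean cost of a random kernel).
* `letter_regret`: the sum over the ranks of the steps hedge (flag false) / greedy (flag true).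
* `two_regret`: the same for a decision between two options with a prior (mode choice).
* `Pr_mean_tab`: Chebyshev for the means of `m` copies of a finite table.
-/

set_option autoImplicit false

namespace Crest.Agent.R288.SmpC984

open Finset Real Crest.Agent.R295.Rnd627 Crest.Agent.R295.Rnd627.RT
  Crest.Agent.R288.Smp984 Crest.Agent.R288.SmpB984
open Crest.Agent.R288.Hedge984 hiding pw pp

variable {A α : Type} [Fintype A]

/-- **hedge decision, arbitrary estimator**: `Uh x` = estimate of the cumulated costs of the lower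
ranks, within `D` except with probability `q`; `κ` = computed kernel, relative error `η₀`;
`w` = own costs, oscillation `o`. -/
theorem hedge_dec {W : ℕ} (hW : 0 < W) {pr : A → ℝ} (hpr : Prob pr) {γ D η₀ o q : ℝ} (hγ : 0 ≤ γ)
    (hD : 0 ≤ D) (hη₀ : 0 ≤ η₀) (ho : 0 ≤ o) (hs : γ * D ≤ 1 / 2)
    {κ : (A → ℝ) → A → ℝ} (hκ : ∀ V, Prob (κ V))
    (hκ' : ∀ V a, |κ V a - gibbs pr γ V a| ≤ η₀ * gibbs pr γ V a)
    {t : RT α} {Uh : α → A → ℝ} {U : A → ℝ}
    (hq : t.Pr W (fun x => ¬ ∀ a, |Uh x a - U a| ≤ D) ≤ q)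
    {w : A → ℝ} (hw : ∀ a b, w a ≤ w b + o) :
    ∑ a, t.Ev W (fun x => κ (Uh x) a) * w a ≤
      mean (gibbs pr γ U) w + (3 * η₀ + 4 * γ * D) * o + q * o := by
  have hkp := gibbs_prob hpr γ U
  refine Ev_dec_le (A := A) hW (t := t) (κ := fun x => κ (Uh x)) (u := w)
    (good := fun x => ∀ a, |Uh x a - U a| ≤ D)
    (c := mean (gibbs pr γ U) w + (3 * η₀ + 4 * γ * D) * o) (B := o) (p := q)
    (All.of_forall fun x => hκ _) ho ?_ ?_ hq
  · intro a
    have h1 : w a - o ≤ mean (gibbs pr γ U) w := le_mean hkp fun b => by linarith [hw a b]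
    have h2 : 0 ≤ (3 * η₀ + 4 * γ * D) * o := by positivity
    linarith
  · refine All.of_forall fun x hx => ?_
    have hpert : ∀ a, |κ (Uh x) a - gibbs pr γ U a| ≤ (3 * η₀ + 4 * γ * D) * gibbs pr γ U a := by
      intro a
      have h1 := hκ' (Uh x) a
      have h2 := gibbs_perturb_abs hpr hγ hD hs hx a
      have hg := hkp.nonneg a
      have h3 : gibbs pr γ (Uh x) a ≤ 3 * gibbs pr γ U a := by
        have h4 := (abs_le.1 h2).2
        have h5 : 4 * γ * D * gibbs pr γ U a ≤ 2 * gibbs pr γ U a :=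
          mul_le_mul_of_nonneg_right (by linarith) hg
        linarith
      calc |κ (Uh x) a - gibbs pr γ U a|
          ≤ |κ (Uh x) a - gibbs pr γ (Uh x) a| + |gibbs pr γ (Uh x) a - gibbs pr γ U a| :=
            abs_sub_le _ _ _
        _ ≤ η₀ * gibbs pr γ (Uh x) a + 4 * γ * D * gibbs pr γ U a := add_le_add h1 h2
        _ ≤ η₀ * (3 * gibbs pr γ U a) + 4 * γ * D * gibbs pr γ U a := by gcongr
        _ = _ := by ring
    have h5 := (abs_le.1 (mean_perturb (hκ _) hkp hpert hw)).2
    linarith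

/-- a random choice as kernel -/
noncomputable def pt (z : A) (a : A) : ℝ := by
  classical exact if z = a then 1 else 0

omit [Fintype A] in
theorem pt_eq_ind (z a : A) : pt z a = ind (fun _ : Unit => z) () a := by
  unfold pt ind; rfl

theorem pt_prob (z : A) : Prob (pt z) := by
  have h := ind_prob (S := Unit) (fun _ : Unit => z) ()
  exact ⟨fun a => by rw [pt_eq_ind]; exact h.nonneg a, by
    rw [← h.sum]; exact sum_congr rfl fun a _ => pt_eq_ind z a⟩

theorem mean_pt (z : A) (u : A → ℝ) : mean (pt z) u = u z := by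
  have h := mean_ind (S := Unit) (fun _ : Unit => z) () u
  rw [← h]
  unfold mean
  exact sum_congr rfl fun a _ => by rw [pt_eq_ind]

theorem sum_pt_mul (z : A) (u : A → ℝ) : ∑ a, pt z a * u a = u z := mean_pt z u

/-- mean cost of a random choice = expectation of the cost of the choice -/
theorem Ev_choice (W : ℕ) (t : RT α) (z : α → A) (w : A → ℝ) :
    ∑ a, t.Ev W (fun x => pt (z x) a) * w a = t.Ev W (fun x => w (z x)) := by
  have e1 : ∑ a, t.Ev W (fun x => pt (z x) a) * w a = t.Ev W (fun x => ∑ a, pt (z x) a * w a) := by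
    rw [Ev_sum]
    exact sum_congr rfl fun a _ => (Ev_mul_right _ _ _ _).symm
  rw [e1]
  congr 1
  funext x
  exact sum_pt_mul _ _

omit [Fintype A] in
/-- **a random choice that is good with probability `1 - q`** -/
theorem choice_dec {W : ℕ} (hW : 0 < W) {t : RT α} {z : α → A} {w : A → ℝ} {good : α → Prop}
    {c B q : ℝ} (hB0 : 0 ≤ B) (hB : ∀ a, w a ≤ c + B) (hgood : ∀ x, good x → w (z x) ≤ c)
    (hbad : t.Pr W (fun x => ¬ good x) ≤ q) :
    t.Ev W (fun x => w (z x)) ≤ c + q * B := by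
  classical
  have h1 : t.Ev W (fun x => w (z x)) ≤
      t.Ev W (fun x => c + (if ¬ good x then (1 : ℝ) else 0) * B) := by
    refine Ev_mono fun x => ?_
    by_cases h : good x
    · rw [if_neg (not_not.2 h), zero_mul, add_zero]
      exact hgood x h
    · rw [if_pos h, one_mul]
      exact hB _
  refine h1.trans ?_
  rw [Ev_add, Ev_const hW, Ev_mul_right, ← Pr_def]
  exact add_le_add le_rfl (mul_le_mul_of_nonneg_right hbad hB0)

omit [Fintype A] in
/-- **greedy decision**: the choice minimises the estimates up to `δ₀` -/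
theorem greedy_dec {W : ℕ} (hW : 0 < W) {t : RT α} {E : α → A → ℝ} {z : α → A} {w : A → ℝ}
    {δ δ₀ q o : ℝ} (hδ : 0 ≤ 2 * δ + δ₀) (ho : 0 ≤ o) (hw : ∀ a b, w a ≤ w b + o)
    (hch : ∀ x a, E x (z x) ≤ E x a + δ₀)
    (hq : t.Pr W (fun x => ¬ ∀ a, |E x a - w a| ≤ δ) ≤ q) (b : A) :
    t.Ev W (fun x => w (z x)) ≤ w b + (2 * δ + δ₀) + q * o := by
  refine choice_dec hW ho (fun a => by linarith [hw a b])
    (good := fun x => ∀ a, |E x a - w a| ≤ δ) (fun x hx => ?_) hq
  have h1 := (abs_le.1 (hx (z x))).1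
  have h2 := (abs_le.1 (hx b)).2
  linarith [hch x b]

omit [Fintype A] in
/-- **menu decision (jump)**: `a₀` = stay; it is left only for an estimated gain of at least
`b / 2`, and the estimate of the choice is within `b / 2` of every estimate -/
theorem menu_dec {W : ℕ} (hW : 0 < W) {t : RT α} {E : α → A → ℝ} {z : α → A} {w : A → ℝ}
    {b δ q B : ℝ} (hd : 0 ≤ δ) (hδ : 2 * δ ≤ b / 2) (hB : 0 ≤ B) (hw : ∀ a c, w a ≤ w c + B)
    (a₀ : A) (hch1 : ∀ x, z x = a₀ ∨ E x (z x) + b / 2 ≤ E x a₀)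
    (hch2 : ∀ x a, E x (z x) ≤ E x a + b / 2)
    (hq : t.Pr W (fun x => ¬ ∀ a, |E x a - w a| ≤ δ) ≤ q) :
    t.Ev W (fun x => w (z x)) ≤ w a₀ + q * B ∧
    ∀ a, t.Ev W (fun x => w (z x)) ≤ w a + (b / 2 + 2 * δ) + q * B := by
  constructor
  · refine choice_dec hW hB (fun a => hw a a₀)
      (good := fun x => ∀ a, |E x a - w a| ≤ δ) (fun x hx => ?_) hq
    rcases hch1 x with h | h
    · rw [h]
    · have h1 := (abs_le.1 (hx (z x))).1
      have h2 := (abs_le.1 (hx a₀)).2
      linarith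
  · intro a
    refine choice_dec hW hB (fun c => by linarith [hw c a])
      (good := fun x => ∀ a, |E x a - w a| ≤ δ) (fun x hx => ?_) hq
    have h1 := (abs_le.1 (hx (z x))).1
    have h2 := (abs_le.1 (hx a)).2
    linarith [hch2 x a]

omit [Fintype A] in
/-- a decision never gains more than the minimum: `m ≤ w` pointwise gives `m ≤ E w (z x)` -/
theorem le_choice {W : ℕ} (hW : 0 < W) {t : RT α} {z : α → A} {w : A → ℝ} {m : ℝ}
    (h : ∀ a, m ≤ w a) : m ≤ t.Ev W (fun x => w (z x)) :=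
  const_le_Ev hW (All.of_forall fun _ => h _)

/-- **sum over the ranks of a letter step** with the unit `U`: `x k` = cost of rank `k` when the flag
is false (hedge), `y k` = cost when the flag is true (greedy), `θ` = probability of the flag -/
theorem letter_regret {pr : A → ℝ} (hpr : Prob pr) {γ o θ e U : ℝ} (hγ : 0 < γ) (hθ : θ ≤ 1)
    (ho : 0 < o) (hU : 0 < U) (hgo : γ * o ≤ θ) (u : ℕ → A → ℝ) (K : ℕ)
    (h : ∀ k < K, ∀ a b, u k a ≤ u k b + o * U) {z : A} (hz : 0 < pr z) (x y : ℕ → ℝ)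
    (hx : ∀ k < K, x k ≤ mean (ker pr (γ / U) u k) (u k) + e * U)
    (hy : ∀ k < K, ∀ a, y k ≤ u k a + e * U) :
    ∑ k ∈ range K, ((1 - θ) * x k + θ * y k) ≤
      ∑ k ∈ range K, u k z + U * (log (1 / pr z) / γ + K * e) := by
  have hg : γ / U * (o * U) = γ * o := by field_simp
  have h1 := hedge_greedy hpr (γ := γ / U) (o := o * U) (θ := θ) (e := e * U)
    (div_pos hγ hU) hθ (mul_pos ho hU) (by rw [hg]; exact hgo) u K h hz x y hx hy
  refine h1.trans (le_of_eq ?_)
  have e1 : log (1 / pr z) / (γ / U) = U * (log (1 / pr z) / γ) := by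
    rw [div_div_eq_mul_div]; ring
  rw [e1]; ring

section tup

variable {β : Type} [Inhabited β]

theorem Ev_tup_succ (W : ℕ) (ts : ℕ → RT β) (k : ℕ) (Φ : (ℕ → β) → ℝ) :
    (tup ts (k + 1)).Ev W Φ =
      (tup ts k).Ev W fun f => (ts k).Ev W fun x => Φ fun i => if i = k then x else f i := by
  rw [tup, Ev_bind]
  congr 1
  funext f
  rw [Ev_map]

/-- a function of the ranks `< k` has the same mean in `tup ts k` and in `tup ts K`, `k ≤ K` -/
theorem Ev_tup_proj {W : ℕ} (hW : 0 < W) (ts : ℕ → RT β) {k K : ℕ} (hk : k ≤ K)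
    {Φ : (ℕ → β) → ℝ} (hΦ : ∀ f g : ℕ → β, (∀ i < k, f i = g i) → Φ f = Φ g) :
    (tup ts K).Ev W Φ = (tup ts k).Ev W Φ := by
  induction K, hk using Nat.le_induction with
  | base => rfl
  | succ K hK ih =>
    rw [Ev_tup_succ, ← ih]
    congr 1
    funext f
    have : ∀ x, Φ (fun i => if i = K then x else f i) = Φ f := fun x =>
      hΦ _ _ fun i hi => if_neg (by omega)
    simp only [this]
    exact Ev_const hW _ _

/-- **pathwise form** (post 4259): kernels computed from the unbiased estimates of the lower ranks;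
the sum over the ranks of the mean costs is the mean of the pathwise sum -/
theorem pathwise {W : ℕ} (hW : 0 < W) (ts : ℕ → RT β) (K : ℕ) (κ : ℕ → (ℕ → β) → A → ℝ)
    (hκ : ∀ k (f g : ℕ → β), (∀ i < k, f i = g i) → κ k f = κ k g) (v : ℕ → β → A → ℝ) :
    ∑ k ∈ range K, ∑ a, (tup ts k).Ev W (fun f => κ k f a) * (ts k).Ev W (fun x => v k x a) =
      (tup ts K).Ev W fun f => ∑ k ∈ range K, ∑ a, κ k f a * v k (f k) a := by
  rw [Ev_sum]
  refine sum_congr rfl fun k hk => ?_
  have hk' : k + 1 ≤ K := mem_range.1 hk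
  have hdep : ∀ f g : ℕ → β, (∀ i < k + 1, f i = g i) →
      ∑ a, κ k f a * v k (f k) a = ∑ a, κ k g a * v k (g k) a := by
    intro f g h
    rw [hκ k f g fun i hi => h i (by omega), h k (by omega)]
  rw [Ev_tup_proj hW ts hk' hdep, Ev_tup_succ]
  have h2 : ∀ f : ℕ → β, ((ts k).Ev W fun x => ∑ a, κ k (fun i => if i = k then x else f i) a *
      v k ((fun i => if i = k then x else f i) k) a) =
      ∑ a, κ k f a * (ts k).Ev W (fun x => v k x a) := by
    intro f
    rw [Ev_sum]
    refine sum_congr rfl fun a _ => ?_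
    rw [← Ev_mul_left]
    congr 1
    funext x
    rw [hκ k (fun i => if i = k then x else f i) f fun i hi => if_neg (by omega)]
    simp
  have h3 : ((tup ts k).Ev W fun f => (ts k).Ev W fun x => ∑ a,
      κ k (fun i => if i = k then x else f i) a *
      v k ((fun i => if i = k then x else f i) k) a) =
      (tup ts k).Ev W fun f => ∑ a, κ k f a * (ts k).Ev W (fun x => v k x a) := by
    congr 1
    funext f
    exact h2 f
  refine Eq.trans ?_ h3.symm
  rw [Ev_sum]
  exact sum_congr rfl fun a _ => (Ev_mul_right _ _ _ _).symm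

end tup

section cheb

variable {ι : Type}

/-- **Chebyshev for a finite table**: means of `m` copies -/
theorem Pr_mean_tab {W : ℕ} (hW : 0 < W) {t : RT α} (g : α → ι → ℝ) (T : Finset ι) {m : ℕ}
    (hm : 0 < m) {δ V : ℝ} (hδ : 0 < δ)
    (hV : ∀ i ∈ T, (t.Ev W fun x => (g x i - t.Ev W fun x => g x i) ^ 2) ≤ V) :
    (reps m t).Pr W (fun l => ∃ i ∈ T, δ ≤ |(l.map fun x => g x i).sum / m -
      t.Ev W fun x => g x i|) ≤ T.card * (V / (m * δ ^ 2)) := by
  refine (Pr_exists_le W (reps m t) T fun i l =>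
    δ ≤ |(l.map fun x => g x i).sum / m - t.Ev W fun x => g x i|).trans ?_
  rw [← nsmul_eq_mul]
  exact sum_le_card_nsmul _ _ _ fun i hi =>
    Med559.Pr_reps_mean hW t (fun x => g x i) hm hδ (hV i hi)

/-- table of medians (of `12 s + 1`) of rounded down means (of `k` copies) -/
noncomputable def momTab (k s : ℕ) (t : RT α) (g : α → ι → ℕ) : RT (ι → ℕ) :=
  (reps (2 * (6 * s) + 1) ((reps k t).map fun l (i : ι) => (l.map fun x => g x i).sum / k)).map
    fun (l : List (ι → ℕ)) (i : ι) => Med559.med (l.map fun v => v i)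

/-- **median of means for a table**: entry `i` within `c i` (and one unit of rounding) -/
theorem Pr_momTab {W : ℕ} (hW : 0 < W) {t : RT α} (g : α → ι → ℕ) (T : Finset ι) {k : ℕ}
    (hk : 0 < k) {c V μ : ι → ℝ} (hc : ∀ i ∈ T, 0 < c i)
    (hμ : ∀ i ∈ T, t.Ev W (fun x => (g x i : ℝ)) = μ i)
    (hV : ∀ i ∈ T, (t.Ev W fun x => ((g x i : ℝ) - μ i) ^ 2) ≤ V i)
    (h3 : ∀ i ∈ T, 3 * V i ≤ k * c i ^ 2) (s : ℕ) :
    1 - T.card * (1 / 2) ^ s ≤ (momTab k s t g).Pr W fun v =>
      ∀ i ∈ T, μ i - c i - 1 ≤ v i ∧ (v i : ℝ) ≤ μ i + c i := by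
  classical
  unfold momTab
  refine Med559.Pr_med_tab hW T (fun (i : ι) (v : ℕ) => μ i - c i - 1 ≤ v ∧ (v : ℝ) ≤ μ i + c i)
    ?_ ?_ s
  · rintro i x y z ⟨h1, -⟩ ⟨-, h2⟩ hxy hyz
    have e1 : (x : ℝ) ≤ y := by exact_mod_cast hxy
    have e2 : (y : ℝ) ≤ z := by exact_mod_cast hyz
    exact ⟨by linarith, by linarith⟩
  · intro i hi
    rw [Pr_map]
    have hk' : (0 : ℝ) < k := Nat.cast_pos.2 hk
    have hci := hc i hi
    have h1 := Med559.Pr_reps_mean hW t (fun x => (g x i : ℝ)) hk hci (V := V i)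
      (by rw [hμ i hi]; exact hV i hi)
    rw [hμ i hi] at h1
    have h2 : V i / (k * c i ^ 2) ≤ 1 / 3 := by
      rw [div_le_iff₀ (by positivity)]; linarith [h3 i hi]
    have h4 := Pr_not hW (reps k t) fun l : List α =>
      c i ≤ |((l.map fun x => (g x i : ℝ)).sum) / k - μ i|
    have h5 : 2 / 3 ≤ (reps k t).Pr W
        fun l : List α => ¬ c i ≤ |((l.map fun x => (g x i : ℝ)).sum) / k - μ i| := by
      rw [h4]; linarith
    refine h5.trans (Pr_mono fun l hl => ?_)
    rw [not_le, abs_lt] at hl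
    have e0 : (l.map fun x => (g x i : ℝ)).sum = (((l.map fun x => g x i).sum : ℕ) : ℝ) := by
      rw [Nat.cast_list_sum, List.map_map]; rfl
    rw [e0] at hl
    set sm := (l.map fun x => g x i).sum with hsm
    have e1 : ((sm / k : ℕ) : ℝ) ≤ (sm : ℝ) / k := Nat.cast_div_le
    have e2 : (sm : ℝ) / k ≤ ((sm / k : ℕ) : ℝ) + 1 := by
      rw [div_le_iff₀ hk']
      have := (Nat.lt_div_mul_add (a := sm) hk).le
      have h6 : (sm : ℝ) ≤ (sm / k : ℕ) * k + k := by exact_mod_cast this
      linarith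
    exact ⟨by linarith, by linarith⟩

end cheb

end Crest.Agent.R288.SmpC984
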