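import Crest.Agent.R288.Hoef_45
import Crest.Agent.R288.TreeA_330

/-!
# R288: the sampling layer of post 3987 (lanes as random tables)

* `samp G sel h t`: one sample of the costs of all actions at all states: one word `u`, one lane of
  the level below; `Ev_samp`: its mean is `TreeA330.Q` of the means.
* `play κ v`: mix the sample with a random kernel; `Ev_play`; `pick` (one letter per state).
* `Lanes`, `Ev_lane`: the mean of a lane is `TreeA330.val` with the mean kernels.
* `All_lane`: pathwise range. `exp_tail`, `Ev_excess_le`: exponential tails.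
* `main_fn`: `TreeA330.main` for arbitrary value functions (rounding errors allowed).
-/

set_option autoImplicit false

namespace Crest.Agent.R288.Smp984

open Finset Real Crest.Agent.R295.Rnd627 Crest.Agent.R295.Rnd627.RT Crest.Agent.R288.TreeA330

section lanes

variable {S A J : Type} [Fintype A] [Fintype J]

/-- one sample of the costs of the actions: one word, one lane of the level below -/
def samp (G : Game S A J) (sel : ℕ → S → A → J → ℕ → ℝ) (h : ℕ) (t : RT (S → ℝ)) :
    RT (S → A → ℝ) :=
  draw.bind fun u => t.map fun X s a => G.c h s a + ∑ j, sel h s a j u * X (G.nx h s a j)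

/-- mix a table of costs with a random kernel -/
def play (κ : RT (S → A → ℝ)) (v : RT (S → A → ℝ)) : RT (S → ℝ) :=
  κ.bind fun p => v.map fun V s => ∑ a, p s a * V s a

/-- play one letter per state -/
def pick (f : RT (S → A)) (v : RT (S → A → ℝ)) : RT (S → ℝ) :=
  f.bind fun z => v.map fun V s => V s (z s)

omit [Fintype A] in
theorem Ev_samp {W : ℕ} (hW : 0 < W) {G : Game S A J} {sel : ℕ → S → A → J → ℕ → ℝ} {h : ℕ}
    {s : S} {a : A} (hsel : ∀ j, draw.Ev W (sel h s a j) = G.om h s a j) (t : RT (S → ℝ)) :
    (samp G sel h t).Ev W (fun v => v s a) = Q G h (fun s => t.Ev W fun X => X s) s a := by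
  unfold samp Q
  simp only [Ev_bind, Ev_map]
  have h1 : ∀ u, t.Ev W (fun X => G.c h s a + ∑ j, sel h s a j u * X (G.nx h s a j))
      = G.c h s a + ∑ j, sel h s a j u * t.Ev W (fun X => X (G.nx h s a j)) := by
    intro u
    rw [Ev_add, Ev_const hW, Ev_sum]
    congr 1
    exact sum_congr rfl fun j _ => Ev_mul_left _ _ _ _
  simp only [h1]
  rw [Ev_add, Ev_const hW, Ev_sum]
  congr 1
  refine sum_congr rfl fun j _ => ?_
  rw [Ev_mul_right, hsel j]

theorem Ev_play {W : ℕ} (κ v : RT (S → A → ℝ)) (s : S) :
    (play κ v).Ev W (fun X => X s)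
      = ∑ a, κ.Ev W (fun p => p s a) * v.Ev W (fun V => V s a) := by
  unfold play
  simp only [Ev_bind, Ev_map]
  have h1 : ∀ p : S → A → ℝ, v.Ev W (fun V => ∑ a, p s a * V s a)
      = ∑ a, p s a * v.Ev W (fun V => V s a) := by
    intro p
    rw [Ev_sum]
    exact sum_congr rfl fun a _ => Ev_mul_left _ _ _ _
  simp only [h1]
  rw [Ev_sum]
  exact sum_congr rfl fun a _ => Ev_mul_right _ _ _ _

/-- the kernel of a random choice function -/
noncomputable def ind (z : S → A) (s : S) (a : A) : ℝ := by
  classical exact if z s = a then 1 else 0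

omit [Fintype A] in
theorem ind_nonneg (z : S → A) (s : S) (a : A) : 0 ≤ ind z s a := by
  unfold ind; split_ifs <;> norm_num

theorem sum_ind_mul (z : S → A) (s : S) (f : A → ℝ) : ∑ a, ind z s a * f a = f (z s) := by
  classical
  unfold ind
  simp [ite_mul]

theorem sum_ind (z : S → A) (s : S) : ∑ a, ind z s a = 1 := by
  have := sum_ind_mul z s (fun _ => 1)
  simpa using this

theorem Ev_pick {W : ℕ} (f : RT (S → A)) (v : RT (S → A → ℝ)) (s : S) :
    (pick f v).Ev W (fun X => X s)
      = ∑ a, f.Ev W (fun z => ind z s a) * v.Ev W (fun V => V s a) := by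
  unfold pick
  simp only [Ev_bind, Ev_map]
  have h1 : ∀ z : S → A, v.Ev W (fun V => V s (z s))
      = ∑ a, ind z s a * v.Ev W (fun V => V s a) := fun z => by rw [sum_ind_mul]
  simp only [h1]
  rw [Ev_sum]
  exact sum_congr rfl fun a _ => Ev_mul_right _ _ _ _

/-- a family of lanes: `lane k l` is a lane of rank `k` for the list `l` of the flags of the
remaining steps -/
structure Lanes (G : Game S A J) (sel : ℕ → S → A → J → ℕ → ℝ) (W : ℕ)
    (dec : ℕ → Bool → List Bool → RT (S → A → ℝ)) (lane : ℕ → List Bool → RT (S → ℝ)) : Prop where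
  nil : ∀ k, lane k [] = ret G.F
  cons : ∀ k b l, lane k (b :: l) = play (dec k b l) (samp G sel l.length (lane k l))
  sel : ∀ h s a j, draw.Ev W (sel h s a j) = G.om h s a j

/-- the mean kernel -/
noncomputable def mk (W : ℕ) (dec : ℕ → Bool → List Bool → RT (S → A → ℝ)) (k : ℕ) (b : Bool)
    (l : List Bool) (s : S) (a : A) : ℝ := (dec k b l).Ev W fun p => p s a

/-- **the mean of a lane is the value of the player with the mean kernels** -/
theorem Ev_lane {W : ℕ} (hW : 0 < W) {G : Game S A J} {sel : ℕ → S → A → J → ℕ → ℝ}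
    {dec : ℕ → Bool → List Bool → RT (S → A → ℝ)} {lane : ℕ → List Bool → RT (S → ℝ)}
    (H : Lanes G sel W dec lane) (k : ℕ) (l : List Bool) (s : S) :
    (lane k l).Ev W (fun X => X s) = val G (mk W dec k) l s := by
  induction l generalizing s with
  | nil => rw [H.nil]; rfl
  | cons b l ih =>
    rw [H.cons, Ev_play]
    show _ = ∑ a, mk W dec k b l s a * Q G l.length (val G (mk W dec k) l) s a
    refine sum_congr rfl fun a _ => ?_
    rw [Ev_samp hW (H.sel _ _ _)]
    congr 2
    funext s'
    exact ih s'

omit [Fintype A] in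
/-- pathwise range of a sample (`ok` = invariant of the states) -/
theorem All_samp {W : ℕ} {G : Game S A J} {sel : ℕ → S → A → J → ℕ → ℝ} {h : ℕ}
    {t : RT (S → ℝ)} {ok ok' : S → Prop} {B B' : ℝ}
    (hok : ∀ s a j, ok' s → ok (G.nx h s a j))
    (ht : t.All W fun X => ∀ s, ok s → 0 ≤ X s ∧ X s ≤ B) (hc : ∀ s a, ok' s → 0 ≤ G.c h s a)
    (hsel0 : ∀ s a j, ∀ u < W, 0 ≤ sel h s a j u)
    (hB' : ∀ s a, ok' s → ∀ u < W, G.c h s a + (∑ j, sel h s a j u) * B ≤ B') :
    (samp G sel h t).All W fun v => ∀ s, ok' s → ∀ a, 0 ≤ v s a ∧ v s a ≤ B' := by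
  unfold samp draw
  rw [All_bind, All_rnd]
  intro u hu
  unfold RT.map
  rw [All_ret, All_bind]
  refine ht.mono fun X hX => ?_
  rw [All_ret]
  intro s hs a
  have hX' := fun j => hX _ (hok s a j hs)
  refine ⟨add_nonneg (hc s a hs)
    (sum_nonneg fun j _ => mul_nonneg (hsel0 s a j u hu) (hX' j).1), ?_⟩
  refine le_trans ?_ (hB' s a hs u hu)
  refine add_le_add le_rfl ?_
  rw [sum_mul]
  exact sum_le_sum fun j _ => mul_le_mul_of_nonneg_left (hX' j).2 (hsel0 s a j u hu)

/-- pathwise range of a mixture -/
theorem All_play {W : ℕ} {κ v : RT (S → A → ℝ)} {ok : S → Prop} {B : ℝ}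
    (hκ : κ.All W fun p => ∀ s, ok s → (∀ a, 0 ≤ p s a) ∧ ∑ a, p s a = 1)
    (hv : v.All W fun v => ∀ s, ok s → ∀ a, 0 ≤ v s a ∧ v s a ≤ B) :
    (play κ v).All W fun X => ∀ s, ok s → 0 ≤ X s ∧ X s ≤ B := by
  unfold play
  rw [All_bind]
  refine hκ.mono fun p hp => ?_
  unfold RT.map
  rw [All_bind]
  refine hv.mono fun V hV => ?_
  rw [All_ret]
  intro s hs
  refine ⟨sum_nonneg fun a _ => mul_nonneg ((hp s hs).1 a) (hV s hs a).1, ?_⟩
  calc ∑ a, p s a * V s a ≤ ∑ a, p s a * B :=
        sum_le_sum fun a _ => mul_le_mul_of_nonneg_left (hV s hs a).2 ((hp s hs).1 a)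
    _ = B := by rw [← sum_mul, (hp s hs).2, one_mul]

/-- pathwise range of a lane -/
theorem All_lane {W : ℕ} {G : Game S A J} {sel : ℕ → S → A → J → ℕ → ℝ}
    {dec : ℕ → Bool → List Bool → RT (S → A → ℝ)} {lane : ℕ → List Bool → RT (S → ℝ)}
    (H : Lanes G sel W dec lane) {ok : ℕ → S → Prop} {B : ℕ → ℝ}
    (hok : ∀ h s a j, ok (h + 1) s → ok h (G.nx h s a j))
    (hF : ∀ s, ok 0 s → 0 ≤ G.F s ∧ G.F s ≤ B 0) (hc : ∀ h s a, ok (h + 1) s → 0 ≤ G.c h s a)
    (hsel0 : ∀ h s a j, ∀ u < W, 0 ≤ sel h s a j u)
    (hBs : ∀ h s a, ok (h + 1) s → ∀ u < W,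
      G.c h s a + (∑ j, sel h s a j u) * B h ≤ B (h + 1))
    (hκ : ∀ k b l, (dec k b l).All W fun p => ∀ s, ok (l.length + 1) s →
      (∀ a, 0 ≤ p s a) ∧ ∑ a, p s a = 1)
    (k : ℕ) (l : List Bool) :
    (lane k l).All W fun X => ∀ s, ok l.length s → 0 ≤ X s ∧ X s ≤ B l.length := by
  induction l with
  | nil => rw [H.nil]; exact hF
  | cons b l ih =>
    rw [H.cons]
    exact All_play (hκ k b l) (All_samp (hok _) ih (hc _) (hsel0 _) (hBs _))

end lanes

/-! ### exponential tails -/

section tail

variable {S A J : Type} [Fintype A] [Fintype J]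

theorem exp_le_lin {x : ℝ} (h0 : 0 ≤ x) (h1 : x ≤ 1) : exp x ≤ 1 + 2 * x := by
  have hc := convexOn_exp.2 (Set.mem_univ (0 : ℝ)) (Set.mem_univ (1 : ℝ))
    (show 0 ≤ 1 - x by linarith) h0 (by ring)
  simp only [smul_eq_mul, mul_zero, mul_one, zero_add, exp_zero] at hc
  have h3 := exp_one_lt_d9
  nlinarith

/-- Jensen for weights -/
theorem exp_sum_le {ι : Type*} [Fintype ι] {p : ι → ℝ} (h0 : ∀ i, 0 ≤ p i) (h1 : ∑ i, p i = 1)
    (x : ι → ℝ) (l : ℝ) : exp (l * ∑ i, p i * x i) ≤ ∑ i, p i * exp (l * x i) := by
  have h := convexOn_exp.map_sum_le (t := univ) (w := p) (p := fun i => l * x i)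
    (fun i _ => h0 i) h1 (fun i _ => Set.mem_univ _)
  simp only [smul_eq_mul] at h
  refine le_trans (le_of_eq ?_) h
  congr 1
  rw [mul_sum]
  exact sum_congr rfl fun i _ => by ring

/-- **exponential tail of a lane**: if the mean cost-to-go is at most `C` at every state and every
running cost is at most `4 C`, then `E exp (X / (4 C)) ≤ 1 + R / C` -/
theorem exp_tail {W : ℕ} (hW : 0 < W) {G : Game S A J} {sel : ℕ → S → A → J → ℕ → ℝ}
    {dec : ℕ → Bool → List Bool → RT (S → A → ℝ)} {lane : ℕ → List Bool → RT (S → ℝ)}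
    (H : Lanes G sel W dec lane) {ok : ℕ → S → Prop} {C : ℝ} (hC : 0 < C)
    (hok : ∀ h s a j, ok (h + 1) s → ok h (G.nx h s a j))
    (hF : ∀ s, ok 0 s → 0 ≤ G.F s ∧ G.F s ≤ C)
    (hc : ∀ h s a, ok (h + 1) s → 0 ≤ G.c h s a ∧ G.c h s a ≤ 4 * C)
    (hsel0 : ∀ h s a j, ∀ u < W, 0 ≤ sel h s a j u)
    (hsel1 : ∀ h s a, ∀ u < W, ∑ j, sel h s a j u = 1)
    (hκ : ∀ k b l, (dec k b l).All W fun p => ∀ s, ok (l.length + 1) s →
      (∀ a, 0 ≤ p s a) ∧ ∑ a, p s a = 1)
    (hR : ∀ k l s, ok l.length s → (lane k l).Ev W (fun X => X s) ≤ C)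
    (hR0 : ∀ k l s, ok l.length s → 0 ≤ (lane k l).Ev W (fun X => X s))
    (k : ℕ) (l : List Bool) (s : S) (hs : ok l.length s) :
    (lane k l).Ev W (fun X => exp (1 / (4 * C) * X s))
      ≤ 1 + (lane k l).Ev W (fun X => X s) / C := by
  have hlC : (0 : ℝ) < 1 / (4 * C) := by positivity
  set lam : ℝ := 1 / (4 * C) with hlam
  have hlamC : lam * C = 1 / 4 := by rw [hlam]; field_simp
  induction l generalizing s with
  | nil =>
    rw [H.nil, Ev_ret, Ev_ret]
    obtain ⟨h0, h1⟩ := hF s hs
    have h2 : lam * G.F s ≤ lam * C := mul_le_mul_of_nonneg_left h1 hlC.le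
    refine (exp_le_lin (mul_nonneg hlC.le h0) (by linarith)).trans ?_
    have h3 : 2 * (lam * G.F s) = G.F s / C / 2 := by rw [hlam]; field_simp; norm_num
    have h4 : 0 ≤ G.F s / C := div_nonneg h0 hC.le
    rw [h3]; linarith
  | cons b l ih =>
    have hlen : (b :: l).length = l.length + 1 := rfl
    rw [hlen] at hs
    rw [H.cons, Ev_play]
    -- pointwise bound
    have hsamp : ∀ a, (samp G sel l.length (lane k l)).Ev W (fun V => exp (lam * V s a))
        ≤ 1 + (samp G sel l.length (lane k l)).Ev W (fun V => V s a) / C := by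
      intro a
      obtain ⟨c0, c1⟩ := hc _ s a hs
      have hexpc : exp (lam * G.c l.length s a) ≤ 1 + 2 * (lam * G.c l.length s a) := by
        refine exp_le_lin (mul_nonneg hlC.le c0) ?_
        have : lam * G.c l.length s a ≤ lam * (4 * C) := mul_le_mul_of_nonneg_left c1 hlC.le
        linarith
      have e1 : (samp G sel l.length (lane k l)).Ev W (fun V => exp (lam * V s a)) ≤
          exp (lam * G.c l.length s a) * ∑ j, G.om l.length s a j *
            (lane k l).Ev W (fun X => exp (lam * X (G.nx l.length s a j))) := by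
        unfold samp
        simp only [Ev_bind, Ev_map]
        have h2 : (draw).Ev W (fun u => (lane k l).Ev W fun X => exp (lam * (G.c l.length s a +
              ∑ j, sel l.length s a j u * X (G.nx l.length s a j)))) ≤
            (draw).Ev W (fun u => exp (lam * G.c l.length s a) * ∑ j, sel l.length s a j u *
              (lane k l).Ev W (fun X => exp (lam * X (G.nx l.length s a j)))) := by
          refine Ev_mono_all ?_
          unfold draw
          rw [All_rnd]
          intro u hu
          rw [All_ret]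
          calc (lane k l).Ev W (fun X => exp (lam * (G.c l.length s a +
                ∑ j, sel l.length s a j u * X (G.nx l.length s a j))))
              ≤ (lane k l).Ev W (fun X => exp (lam * G.c l.length s a) *
                ∑ j, sel l.length s a j u * exp (lam * X (G.nx l.length s a j))) := by
                refine Ev_mono fun X => ?_
                rw [mul_add, exp_add]
                exact mul_le_mul_of_nonneg_left
                  (exp_sum_le (fun j => hsel0 _ s a j u hu) (hsel1 _ s a u hu) _ _) (exp_pos _).le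
            _ = _ := by
                rw [Ev_mul_left, Ev_sum]
                congr 1
                exact sum_congr rfl fun j _ => Ev_mul_left _ _ _ _
        refine h2.trans (le_of_eq ?_)
        rw [Ev_mul_left, Ev_sum]
        congr 1
        refine sum_congr rfl fun j _ => ?_
        rw [Ev_mul_right, H.sel]
      have hom0 : ∀ j, 0 ≤ G.om l.length s a j := fun j => by
        rw [← H.sel]
        refine Ev_nonneg_all ?_
        unfold draw
        rw [All_rnd]
        intro u hu
        exact hsel0 _ _ _ _ u hu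
      have hom1 : ∑ j, G.om l.length s a j = 1 := by
        have e : ∑ j, G.om l.length s a j = draw.Ev W (fun u => ∑ j, sel l.length s a j u) := by
          rw [Ev_sum]
          exact sum_congr rfl fun j _ => (H.sel _ _ _ _).symm
        rw [e, Ev_congr_all (g := fun _ => (1 : ℝ)), Ev_const hW]
        unfold draw
        rw [All_rnd]
        intro u hu
        exact hsel1 _ _ _ u hu
      set r : ℝ := ∑ j, G.om l.length s a j * (lane k l).Ev W (fun X => X (G.nx l.length s a j))
        with hr
      have hEv : (samp G sel l.length (lane k l)).Ev W (fun V => V s a) = G.c l.length s a + r :=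
        Ev_samp hW (H.sel _ _ _) _
      have hr0 : 0 ≤ r := sum_nonneg fun j _ => mul_nonneg (hom0 j) (hR0 k l _ (hok _ _ _ _ hs))
      have hrC : r ≤ C := by
        calc r ≤ ∑ j, G.om l.length s a j * C :=
              sum_le_sum fun j _ => mul_le_mul_of_nonneg_left (hR k l _ (hok _ _ _ _ hs)) (hom0 j)
          _ = C := by rw [← sum_mul, hom1, one_mul]
      have h3 : ∑ j, G.om l.length s a j *
            (lane k l).Ev W (fun X => exp (lam * X (G.nx l.length s a j))) ≤ 1 + r / C := by
        calc _ ≤ ∑ j, G.om l.length s a j *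
              (1 + (lane k l).Ev W (fun X => X (G.nx l.length s a j)) / C) :=
              sum_le_sum fun j _ => mul_le_mul_of_nonneg_left (ih _ (hok _ _ _ _ hs)) (hom0 j)
          _ = ∑ j, G.om l.length s a j + r / C := by
              rw [hr, sum_div, ← sum_add_distrib]
              exact sum_congr rfl fun j _ => by ring
          _ = 1 + r / C := by rw [hom1]
      refine e1.trans ?_
      rw [hEv]
      have hrC' : r / C ≤ 1 := (div_le_one hC).2 hrC
      have hrC0 : 0 ≤ r / C := div_nonneg hr0 hC.le
      calc exp (lam * G.c l.length s a) * _ ≤ (1 + 2 * (lam * G.c l.length s a)) * (1 + r / C) :=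
            mul_le_mul hexpc h3 (sum_nonneg fun j _ => mul_nonneg (hom0 j)
              (Ev_nonneg fun _ => (exp_pos _).le)) (by positivity)
        _ ≤ 1 + r / C + 2 * (lam * G.c l.length s a) * 2 := by nlinarith [mul_nonneg hlC.le c0]
        _ = 1 + (G.c l.length s a + r) / C := by rw [hlam]; field_simp; ring
    have e2 : (play (dec k b l) (samp G sel l.length (lane k l))).Ev W (fun X => exp (lam * X s)) ≤
        ∑ a, (dec k b l).Ev W (fun p => p s a) *
          (samp G sel l.length (lane k l)).Ev W (fun V => exp (lam * V s a)) := by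
      unfold play
      simp only [Ev_bind, Ev_map]
      calc (dec k b l).Ev W (fun p => (samp G sel l.length (lane k l)).Ev W
              (fun V => exp (lam * ∑ a, p s a * V s a)))
          ≤ (dec k b l).Ev W (fun p => ∑ a, p s a *
              (samp G sel l.length (lane k l)).Ev W (fun V => exp (lam * V s a))) := by
            refine Ev_mono_all ((hκ k b l).mono fun p hp => ?_)
            obtain ⟨p0, p1⟩ := hp s hs
            calc _ ≤ (samp G sel l.length (lane k l)).Ev W
                  (fun V => ∑ a, p s a * exp (lam * V s a)) :=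
                  Ev_mono fun V => exp_sum_le p0 p1 _ _
              _ = _ := by
                  rw [Ev_sum]
                  exact sum_congr rfl fun a _ => Ev_mul_left _ _ _ _
        _ = _ := by
            rw [Ev_sum]
            exact sum_congr rfl fun a _ => Ev_mul_right _ _ _ _
    refine e2.trans ?_
    have hq0 : ∀ a, 0 ≤ (dec k b l).Ev W (fun p => p s a) := fun a =>
      Ev_nonneg_all ((hκ k b l).mono fun p hp => (hp s hs).1 a)
    have hq1 : ∑ a, (dec k b l).Ev W (fun p => p s a) = 1 := by
      rw [← Ev_sum, Ev_congr_all (g := fun _ => (1 : ℝ)), Ev_const hW]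
      exact (hκ k b l).mono fun p hp => (hp s hs).2
    calc _ ≤ ∑ a, (dec k b l).Ev W (fun p => p s a) *
          (1 + (samp G sel l.length (lane k l)).Ev W (fun V => V s a) / C) :=
          sum_le_sum fun a _ => mul_le_mul_of_nonneg_left (hsamp a) (hq0 a)
      _ = ∑ a, (dec k b l).Ev W (fun p => p s a) + (∑ a, (dec k b l).Ev W (fun p => p s a) *
          (samp G sel l.length (lane k l)).Ev W (fun V => V s a)) / C := by
          rw [sum_div, ← sum_add_distrib]
          exact sum_congr rfl fun a _ => by ring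
      _ = _ := by rw [hq1]

/-- truncation: the mean excess over `t` from an exponential moment -/
theorem Ev_excess_le {α : Type} {W : ℕ} {t : RT α} {f : α → ℝ} {C c : ℝ} (hC : 0 < C)
    (h : t.Ev W (fun x => exp (1 / (4 * C) * f x)) ≤ 2) :
    t.Ev W (fun x => max 0 (f x - c)) ≤ 8 * C * exp (-(c / (4 * C))) := by
  have h1 : t.Ev W (fun x => max 0 (f x - c)) ≤
      t.Ev W (fun x => 4 * C * exp (-(c / (4 * C))) * exp (1 / (4 * C) * f x)) := by
    refine Ev_mono fun x => ?_
    have e : exp (-(c / (4 * C))) * exp (1 / (4 * C) * f x) = exp ((f x - c) / (4 * C)) := by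
      rw [← exp_add]; congr 1; field_simp; ring
    rw [mul_assoc, e]
    refine max_le (by positivity) ?_
    have h2 := add_one_le_exp ((f x - c) / (4 * C))
    have h3 : 4 * C * ((f x - c) / (4 * C)) = f x - c := by field_simp
    nlinarith
  refine h1.trans ?_
  rw [Ev_mul_left]
  nlinarith [exp_pos (-(c / (4 * C))), mul_pos hC (exp_pos (-(c / (4 * C))))]

end tail

/-! ### telescoping along the comparator for arbitrary value functions -/

section main_fn

variable {S A J : Type*} [Fintype A] [Fintype J]

omit [Fintype A] in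
/-- `TreeA330.main` for arbitrary value functions `R k l s` and an invariant `ok` of the states -/
theorem main_fn (G : Game S A J) (zs : ℕ → S → A) {p : ℕ → ℝ} (hp : ∀ i, 0 ≤ p i ∧ p i ≤ 1)
    (hom : ∀ h s a j, 0 ≤ G.om h s a j) (K : ℕ) (R : ℕ → List Bool → S → ℝ)
    {ok : ℕ → S → Prop} (hok : ∀ h s j, ok (h + 1) s → ok h (G.nx h s (zs h s) j))
    (h0 : ∀ k s, ok 0 s → R k [] s ≤ G.F s) (reg : ℕ → S → ℝ) (H : ℕ)
    (hreg : ∀ l : List Bool, l.length < H → ∀ s, ok (l.length + 1) s →
      ∑ k ∈ range K, ((1 - p l.length) *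
          (R k (false :: l) s - Q G l.length (R k l) s (zs l.length s))
        + p l.length * (R k (true :: l) s - Q G l.length (R k l) s (zs l.length s)))
        ≤ reg l.length s) (s : S) (hs : ok H s) :
    EL p H (fun l => ∑ k ∈ range K, R k l s) ≤ K * TreeA330.cmp G zs H s + acc G zs H reg s := by
  induction H generalizing s with
  | zero =>
    have h1 : ∑ k ∈ range K, R k [] s ≤ ∑ _k ∈ range K, G.F s :=
      sum_le_sum fun k _ => h0 k s hs
    simp only [sum_const, card_range, nsmul_eq_mul] at h1
    simpa [EL, TreeA330.cmp] using h1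
  | succ h ih =>
    have ih' := fun s hs => ih (fun l hl s hs => hreg l (by omega) s hs) s hs
    have h1 : EL p (h + 1) (fun l => ∑ k ∈ range K, R k l s)
        = EL p h (fun l => ∑ k ∈ range K, ((1 - p h) *
              (R k (false :: l) s - Q G l.length (R k l) s (zs l.length s))
            + p h * (R k (true :: l) s - Q G l.length (R k l) s (zs l.length s)))
          + ∑ k ∈ range K, Q G l.length (R k l) s (zs l.length s)) := by
      refine EL_congr h fun l _ => ?_
      rw [mul_sum, mul_sum, ← sum_add_distrib, ← sum_add_distrib]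
      refine sum_congr rfl fun k _ => ?_
      ring
    rw [h1, EL_add]
    have h2 : EL p h (fun l => ∑ k ∈ range K, ((1 - p h) *
              (R k (false :: l) s - Q G l.length (R k l) s (zs l.length s))
            + p h * (R k (true :: l) s - Q G l.length (R k l) s (zs l.length s)))) ≤ reg h s := by
      calc _ ≤ EL p h (fun _ => reg h s) := by
            refine EL_mono hp h fun l hl => ?_
            have := hreg l (by omega) s (by rw [hl]; exact hs)
            rw [hl] at this ⊢
            exact this
        _ = reg h s := EL_const p h _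
    have h3 : EL p h (fun l => ∑ k ∈ range K, Q G l.length (R k l) s (zs l.length s))
        = K * G.c h s (zs h s) + ∑ j, G.om h s (zs h s) j
            * EL p h (fun l => ∑ k ∈ range K, R k l (G.nx h s (zs h s) j)) := by
      have : EL p h (fun l => ∑ k ∈ range K, Q G l.length (R k l) s (zs l.length s))
          = EL p h (fun l => K * G.c h s (zs h s) + ∑ j, G.om h s (zs h s) j
            * ∑ k ∈ range K, R k l (G.nx h s (zs h s) j)) := by
        refine EL_congr h fun l hl => ?_
        unfold Q
        rw [sum_add_distrib, sum_const, card_range, nsmul_eq_mul, hl, sum_comm]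
        congr 1
        exact sum_congr rfl fun j _ => by rw [mul_sum]
      rw [this, EL_add, EL_const, EL_sum]
      congr 1
      exact sum_congr rfl fun j _ => EL_smul _ _ _ _
    have h4 : ∑ j, G.om h s (zs h s) j
          * EL p h (fun l => ∑ k ∈ range K, R k l (G.nx h s (zs h s) j))
        ≤ ∑ j, G.om h s (zs h s) j * (K * TreeA330.cmp G zs h (G.nx h s (zs h s) j)
            + acc G zs h reg (G.nx h s (zs h s) j)) :=
      sum_le_sum fun j _ => mul_le_mul_of_nonneg_left (ih' _ (hok _ _ _ hs)) (hom _ _ _ _)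
    have h5 : ∑ j, G.om h s (zs h s) j * (K * TreeA330.cmp G zs h (G.nx h s (zs h s) j)
            + acc G zs h reg (G.nx h s (zs h s) j))
        = K * ∑ j, G.om h s (zs h s) j * TreeA330.cmp G zs h (G.nx h s (zs h s) j)
          + ∑ j, G.om h s (zs h s) j * acc G zs h reg (G.nx h s (zs h s) j) := by
      rw [mul_sum, ← sum_add_distrib]
      exact sum_congr rfl fun j _ => by ring
    rw [h3]
    have h6 : (K : ℝ) * cmp G zs (h + 1) s = K * G.c h s (zs h s)
        + K * ∑ j, G.om h s (zs h s) j * TreeA330.cmp G zs h (G.nx h s (zs h s) j) := by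
      simp only [TreeA330.cmp, Q]
      ring
    rw [h6, acc_succ]
    linarith

end main_fn

end Crest.Agent.R288.Smp984
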