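import Crest.Agent.R288.AsmC_331
import Crest.Agent.R288.LaneM_540
import Crest.Agent.R288.ArrW_984
import Crest.Agent.R288.ArrG_147
import Crest.Agent.R288.Geo_105
import Crest.Agent.R288.HullB_407
import Crest.Agent.R288.GSt_442
import Crest.Agent.R288.AlgS_125

/-!
# R288, [SOUND] = (A4) of the SPEC (helper335): all numbers are at least the exact cost

* `wild_ge`, `body_ge`, `arr_ge`, `lane_ge` : one index, arbitrary `F`, `X i` (`i < k`) above `G`.
* `Snd.FE_ge`, `Snd.R_ge`, `Snd.X_ge` : for every good history of an `Asm331.Cfg`.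
-/

set_option autoImplicit false

namespace Crest.Agent.R288.Snd335

open Finset Crest.Agent.R295.Rnd627 Crest.Agent.R295.Rnd627.RT Crest.Agent.R288.Alg45
  Crest.Agent.R288.Dom20

/-- one index: numbers above the exact cost `G` -/
structure SIn (P : Par) (leaf : St → Option ℕ) (F : St → ℕ) (X : ℕ → ℕ → St → ℕ) (k W I K0 : ℕ)
    (G : St → ℕ) : Prop where
  W_pos : 0 < W
  dvd : 2 ^ P.dl ∣ W
  g : 0 < P.g
  um : 0 < P.um
  r : 1 ≤ P.r
  grd : GrdOK P K0
  cls : ∀ y, Dom P I y → cls F y + 1 + P.a2 ≤ K0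
  E : GSt442.Exact P.N P.Dm G
  GF : ∀ y, Dom P I y → G y ≤ F y
  GX : ∀ i < k, ∀ κ ≤ K0, ∀ z, Dom P I z → G z ≤ X i κ z
  bot : ∀ y, Dom P I y → y.i = 0 → leaf y = none → G y ≤ 1 + (y.v - y.u).natAbs
  leaf : ∀ y, Dom P I y → ∀ v, leaf y = some v → G y ≤ v

variable {P : Par} {leaf : St → Option ℕ} {F : St → ℕ} {X : ℕ → ℕ → St → ℕ} {k W I K0 : ℕ}
  {G : St → ℕ}

theorem SIn.hull_ge (S : SIn P leaf F X k W I K0 G) {i : ℕ} (hi : i < k) {y : St}
    (hy : Dom P I y) : G y ≤ hull P F (X i) y := by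
  refine HullB407.le_hull_of_lip (S.GF y hy) (fun p hp => ?_) fun p hp => ?_
  · have h1 := HullB407.cmenu_i hp
    have h2 := HullB407.cmenu_j hp
    have h3 := S.E.lip y p.2 h1.symm h2.symm
    omega
  · have h0 := (HullB407.mem_cmenu.1 hp)
    have h1 : Dom P I p.2 := hy.menu h0.2
    have h2 := S.cls y hy
    exact S.GX i hi _ (by omega) _ h1

theorem SIn.wild_ge (S : SIn P leaf F X k W I K0 G) {κ : ℕ} {x : St}
    (hx : Dom P I x) (hi : 1 ≤ x.i) : G x ≤ wild P F X κ x k := by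
  unfold wild
  refine AlgS125.le_Wm (S.GF x hx) fun i hik => ?_
  refine AlgS125.le_Vst_letters P fun c hc hN => ?_
  have h1 := S.E.le_cuts (x := x) (i := x.i - 1) (by omega)
    (m := fun q => cut P κ x q (c q)) (AlgS125.cut_zero P κ x _) (AlgS125.cut_N P κ x _)
  refine h1.trans ?_
  unfold GSt442.ssum
  refine sum_le_sum fun q hq => ?_
  have hq' := mem_range.1 hq
  have h2 : Dom P I (piece P κ x q (c q) (c (q + 1))) := hx.piece S.r hi hq' κ _ _
  exact S.hull_ge hik h2

/-- the exact cost below the end number of a near piece -/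
theorem SIn.numR_ge (S : SIn P leaf F X k W I K0 G) {κ : ℕ} {f : ℕ → St → ℝ} {y : St}
    (hy : Dom P I y) (hf : (G (rdn P (Alg45.cls F y) y) : ℝ) ≤ f (Alg45.cls F y) (rdn P (Alg45.cls F y) y)) :
    (G y : ℝ) ≤ XB715.numR P F κ f y := by
  unfold XB715.numR
  split_ifs
  · exact_mod_cast S.GF y hy
  · have h1 : G y ≤ G (rdn P (Alg45.cls F y) y) + Alg45.dist y (rdn P (Alg45.cls F y) y) :=
      S.E.lip _ _ rfl rfl
    have h2 : (G y : ℝ) ≤ G (rdn P (Alg45.cls F y) y) + Alg45.dist y (rdn P (Alg45.cls F y) y) := by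
      exact_mod_cast h1
    linarith

/-- the two notions of a state of a cell -/
theorem inC_conv {c : Cel} {y : St} (h : Cell488.InC P c y) : Cel734.InC P c y :=
  ⟨h.dom, h.hi, h.hj, h.gr.1, h.gr.2, h.u1, h.u2, h.v1, h.v2⟩

theorem inC_conv' {c : Cel} {y : St} (h : Cel734.InC P c y) : Cell488.InC P c y :=
  ⟨h.hi, h.hj, ⟨h.du, h.dv⟩, h.hD, h.ulo, h.uhi, h.vlo, h.vhi⟩

/-- all entries of the sub tables at the cells of height `i` are sound -/
def SubOk (P : Par) (W I : ℕ) (G : St → ℕ) (i : ℕ) (sub : Cel → RT (List ℕ)) : Prop :=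
  ∀ c : Cel, c.i = i → c.i ≤ I → c.j < P.N ^ (I - c.i) → ArrG147.Meets P c →
    ∀ t < csz P c.κ, (G (cst P c t) : ℝ) ≤ ArrV984.emn W (sub c) t

/-- **body** -/
theorem SIn.body_ge (S : SIn P leaf F X k W I K0 G) {sub : Cel → RT (List ℕ)} {c : Cel} {z : St}
    (hin : Cell488.InC P c z) (hz : Dom P I z) (hi : 1 ≤ c.i)
    (hsub : SubOk P W I G (c.i - 1) sub) :
    (G z : ℝ) ≤ LaneM540.BM P W leaf F X k sub c z := by
  have hin' := inC_conv hin
  have hzi : 1 ≤ z.i := by rw [hin.hi]; exact hi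
  have hgeo := Geo105.hgeo P S.r S.grd hin' hz hi (F := F) fun y hy => by
    have := S.cls y hy
    omega
  refine LaneM540.le_body S.W_pos S.dvd S.g S.um (fun f => Cell488.rdt_tabC P hin f)
    (fun q hq a ha b hb => (hgeo q hq a ha b hb).1) (by exact_mod_cast S.GF z hz)
    (fun v hv => by exact_mod_cast S.leaf z hz v hv)
    (by exact_mod_cast S.wild_ge hz hzi) ?_
  intro _ m hm
  -- the near staircase
  have h1 := S.E.le_cuts (x := z) (i := z.i - 1) (by omega)
    (m := fun q => cut P c.κ z q (near P F c.κ z q (m q))) (AlgS125.cut_zero P c.κ z _)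
    (AlgS125.cut_N P c.κ z _)
  have h2 : (G z : ℝ) ≤ ∑ q ∈ range P.N, (G (npiece P F c.κ z q (m q) (m (q + 1))) : ℝ) := by
    have h3 : G z ≤ ∑ q ∈ range P.N, G (npiece P F c.κ z q (m q) (m (q + 1))) := h1
    exact_mod_cast h3
  refine h2.trans (sum_le_sum fun q hq => ?_)
  obtain ⟨-, hy, hyr⟩ := hgeo q (mem_range.1 hq) (m q) (hm q) (m (q + 1)) (hm (q + 1))
  set y := npiece P F c.κ z q (m q) (m (q + 1)) with hyd
  refine S.numR_ge hy ?_
  set κ' := Alg45.cls F y with hκ'
  have hcl := S.cls y hy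
  have hg : gst P κ' ∣ P.Dm := S.grd κ' (by omega)
  have hin2 : Cell488.InC P (celOf κ' (rdn P κ' y)) (rdn P κ' y) :=
    inC_conv' (Geo105.inC_own P F hg hy.inD ((S.E.ge y).trans (S.GF y hy)))
  have hlt := Cell488.cidx_lt P hin2
  have h3 := hsub (celOf κ' (rdn P κ' y)) (by
      show y.i = c.i - 1
      rw [hyd]
      show z.i - 1 = _
      rw [hin.hi]) hyr.1 hyr.2.1 (ArrG147.meets_of_inC P hin2) _ hlt
  rw [Cell488.cst_cidx P hin2] at h3
  exact h3

/-- **all arrival tables** -/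
theorem SIn.arr_ge (S : SIn P leaf F X k W I K0 G) (i : ℕ) :
    SubOk P W I G i (arrT P leaf F X k i) := by
  induction i with
  | zero =>
    intro c hci hcI hcj hm t ht
    have hD : Dom P I (cst P c t) := Dom.cst hcI hcj t
    unfold ArrV984.emn
    have h1 : arrT P leaf F X k 0 c = .ret (tabC P c fun y => botNum P leaf F c.κ y) := rfl
    rw [h1, Ev_ret]
    have h2 : (tabC P c fun y => botNum P leaf F c.κ y).getD t 0 = botNum P leaf F c.κ (cst P c t) := by
      unfold tabC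
      rw [List.getD_eq_getElem _ _ (by simpa using ht), List.getElem_map, List.getElem_range]
    rw [h2]
    have h3 : G (cst P c t) ≤ botNum P leaf F c.κ (cst P c t) := by
      unfold botNum
      split_ifs
      · exact S.GF _ hD
      · cases hl : leaf (cst P c t) with
        | some v => exact S.leaf _ hD v hl
        | none => exact S.bot _ hD hci hl
    exact_mod_cast h3
  | succ i ih =>
    intro c hci hcI hcj hm t ht
    have hD : Dom P I (cst P c t) := Dom.cst hcI hcj t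
    have hc := ArrG147.own_mem_acells P hm
    have h1 : arrT P leaf F X k (i + 1) c =
        arrOf P F (fun c' => bodyT P leaf F X k (fun c'' => arrT P leaf F X k i c'') c') c := rfl
    rw [h1]
    cases ha : adm P F c.κ (cst P c t) with
    | false =>
      have h2 := ArrW984.arr_nadm (W := W)
        (body := fun c' => bodyT P leaf F X k (fun c'' => arrT P leaf F X k i c'') c') hc ht ha
      have h3 : ArrV984.emn W (arrOf P F
          (fun c' => bodyT P leaf F X k (fun c'' => arrT P leaf F X k i c'') c') c) t =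
          F (cst P c t) := ArrW984.emn_const S.W_pos h2
      rw [h3]
      exact_mod_cast S.GF _ hD
    | true =>
      refine ArrW984.arr_low hc ht ha S.W_pos _ (by exact_mod_cast S.GF _ hD) fun x hx => ?_
      obtain ⟨hx1, hx2⟩ := (ArrB147.mem_mnu P).1 hx
      obtain ⟨hx3, hx4⟩ := (ArrB147.mem_jks P).1 hx1
      have hcl := S.cls _ hD
      have hk : c.κ ≤ Alg45.cls F (cst P c t) + 1 := (ArrG147.adm_iff.1 ha).2.2.1
      have hin : Cell488.InC P (acell P c x.1) (ArrB147.zof P c x) :=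
        ArrG147.zof_inC P hx1 fun κ' hκ' => by exact_mod_cast S.grd κ' (by omega)
      have hDz : Dom P I (ArrB147.zof P c x) := Dom.cst (c := acell P c x.1) hcI hcj x.2
      have hb := S.body_ge (sub := fun c'' => arrT P leaf F X k i c'') hin hDz
        (by show 1 ≤ c.i; omega) (by
          have : (acell P c x.1).i - 1 = i := by show c.i - 1 = i; omega
          rw [this]
          exact ih)
      have h4 : ArrV984.jmn P W
          (fun c' => bodyT P leaf F X k (fun c'' => arrT P leaf F X k i c'') c') c x =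
          LaneM540.BM P W leaf F X k (fun c'' => arrT P leaf F X k i c'') (acell P c x.1)
            (ArrB147.zof P c x) :=
        ArrG147.Ev_body_entry W hx4 hin fun a => (a : ℝ)
      rw [h4]
      have h5 : G (cst P c t) ≤ G (ArrB147.zof P c x) + Alg45.dist (cst P c t) (ArrB147.zof P c x) :=
        S.E.lip _ _ rfl rfl
      have h6 : (G (cst P c t) : ℝ) ≤ G (ArrB147.zof P c x) +
          Alg45.dist (cst P c t) (ArrB147.zof P c x) := by exact_mod_cast h5
      show _ ≤ ((Alg45.dist (cst P c t) (ArrB147.zof P c x) : ℕ) : ℝ) + _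
      linarith

/-- **one lane** -/
theorem SIn.lane_ge (S : SIn P leaf F X k W I K0 G) {κ : ℕ} {z : St} (hz : Dom P I z)
    (ha : adm P F κ z = true) :
    (G z : ℝ) ≤ (lanePair P leaf F X k κ z).Ev W fun a : ℕ => (a : ℝ) := by
  have hin := ArrG147.adm_inC ha hz.inD
  have h1 := S.arr_ge z.i (celOf κ z) rfl hz.1 hz.2.1 (ArrG147.meets_of_inC P hin) _
    (Cell488.cidx_lt P hin)
  rw [Cell488.cst_cidx P hin] at h1
  unfold lanePair
  rw [Ev_bind]
  simp only [Ev_ret]
  exact h1

/-! ### a good history of a configuration -/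

open Crest.Agent.R288.Asm331

/-- what soundness needs of a configuration: `G` = exact cost -/
structure SCfg (C : Cfg) (G : St → ℕ) : Prop where
  dl : C.P.dl ≤ C.W
  g : 0 < C.P.g
  um : 0 < C.P.um
  r : 1 ≤ C.P.r
  K : 0 < C.P.K
  grd : GrdOK C.P C.K0
  /-- classes on the domain, on good histories -/
  cls : ∀ X, C.Good X → ∀ e ≤ C.P.E, ∀ y, Dom C.P C.I y →
    Alg45.cls (FE C.P X e) y + 1 + C.P.a2 ≤ C.K0
  E : GSt442.Exact C.P.N C.P.Dm G
  leaf : ∀ y, Dom C.P C.I y → ∀ v, C.leaf y = some v → G y ≤ v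
  bot : ∀ y, Dom C.P C.I y → y.i = 0 → C.leaf y = none → G y ≤ 1 + (y.v - y.u).natAbs
  init : ∀ y, Dom C.P C.I y → ∀ v, C.GU y v → G y ≤ v

variable {C : Cfg} {Xh : ℕ → ℕ × St → ℕ}

theorem SCfg.hull_ge (S : SCfg C G) {F : St → ℕ} {f : ℕ → St → ℕ} {y : St} (hy : Dom C.P C.I y)
    (hc : Alg45.cls F y + 1 + C.P.a2 ≤ C.K0) (h0 : G y ≤ F y)
    (hf : ∀ κ ≤ C.K0, ∀ z, Dom C.P C.I z → G z ≤ f κ z) : G y ≤ hull C.P F f y := by
  refine HullB407.le_hull_of_lip h0 (fun p hp => ?_) fun p hp => ?_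
  · have h1 := HullB407.cmenu_i hp
    have h2 := HullB407.cmenu_j hp
    have h3 := S.E.lip y p.2 h1.symm h2.symm
    omega
  · have h0 := (HullB407.mem_cmenu.1 hp)
    exact hf _ (by omega) _ (hy.menu h0.2)

theorem mem_Om {κ : ℕ} {z : St} (hκ : κ ≤ C.K0) (hz : Dom C.P C.I z) :
    (κ, z) ∈ OmP C.P.N C.I C.P.Dm C.K0 := (mem_OmP (Dom20.N_pos C.P)).2 ⟨hκ, hz⟩

/-- index `0` -/
theorem SCfg.FE_zero_ge (S : SCfg C G) (h : C.Good Xh) {y : St} (hy : Dom C.P C.I y) :
    G y ≤ FE C.P Xh 0 y := by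
  have h0 : ∀ z, Dom C.P C.I z → G z ≤ Xh 0 (0, z) := fun z hz =>
    S.init z hz _ (Cfg.good_init h (mem_Om (Nat.zero_le _) hz))
  have hc := S.cls Xh h 0 (Nat.zero_le _) y hy
  refine HullB407.le_hull_of_lip (h0 y hy) (fun p hp => ?_) fun p hp => ?_
  · have h1 := HullB407.cmenu_i hp
    have h2 := HullB407.cmenu_j hp
    have h3 := S.E.lip y p.2 h1.symm h2.symm
    omega
  · exact h0 _ (hy.menu (HullB407.mem_cmenu.1 hp).2)

/-- the lane at the index `(e, k)` from the lower indices -/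
theorem SCfg.R_ge' (S : SCfg C G) (h : C.Good Xh) {e k : ℕ} (he : e ≤ C.P.E)
    (hF : ∀ y, Dom C.P C.I y → G y ≤ FE C.P Xh e y)
    (hX : ∀ i < k, ∀ κ ≤ C.K0, ∀ z, Dom C.P C.I z → G z ≤ Xh (idx C.P e i) (κ, z))
    {κ : ℕ} {z : St} (hz : Dom C.P C.I z) (ha : adm C.P (FE C.P Xh e) κ z = true) :
    (G z : ℝ) ≤ C.R Xh e k κ z := by
  have hS : SIn C.P C.leaf (FE C.P Xh e) (Xe C.P (Tape829.lo (idx C.P e k) Xh) e) k (2 ^ C.W)
      C.I C.K0 G :=
    { W_pos := by positivity
      dvd := pow_dvd_pow 2 S.dl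
      g := S.g
      um := S.um
      r := S.r
      grd := S.grd
      cls := S.cls Xh h e he
      E := S.E
      GF := hF
      GX := fun i hi κ hκ z hz => by
        rw [Xe_lo hi]
        exact hX i hi κ hκ z hz
      leaf := S.leaf
      bot := S.bot }
  exact hS.lane_ge hz ha

/-- the numbers of an epoch from its unit function -/
theorem SCfg.X_ge' (S : SCfg C G) (h : C.Good Xh) {e : ℕ} (he : e < C.P.E)
    (hF : ∀ y, Dom C.P C.I y → G y ≤ FE C.P Xh e y) :
    ∀ k < C.P.K, ∀ κ ≤ C.K0, ∀ z, Dom C.P C.I z → G z ≤ Xh (idx C.P e k) (κ, z) := by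
  intro k
  induction k using Nat.strong_induction_on with
  | _ k ih =>
    intro hk κ hκ z hz
    cases ha : adm C.P (FE C.P Xh e) κ z with
    | false =>
      rw [Cfg.good_alt h he hk (mem_Om hκ hz) ha]
      exact hF z hz
    | true =>
      have h1 := S.R_ge' h he.le hF (fun i hi => ih i hi (by omega)) hz ha
      have h2 := (Cfg.good_num h he hk (mem_Om hκ hz) ha).1
      exact_mod_cast h1.trans h2

/-- **the unit functions are above the exact cost** -/
theorem SCfg.FE_ge (S : SCfg C G) (h : C.Good Xh) :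
    ∀ e ≤ C.P.E, ∀ y, Dom C.P C.I y → G y ≤ FE C.P Xh e y := by
  intro e
  induction e with
  | zero => intro _ y hy; exact S.FE_zero_ge h hy
  | succ e ih =>
    intro he y hy
    have hF := ih (by omega)
    have hX := S.X_ge' h (e := e) (by omega) hF
    refine S.hull_ge hy (S.cls Xh h e (by omega) y hy) (hF y hy) fun κ hκ z hz => ?_
    exact HullB407.le_Xbar S.K fun k hk => hX k hk κ hκ z hz

/-- **all numbers of a good history are above the exact cost** -/
theorem SCfg.X_ge (S : SCfg C G) (h : C.Good Xh) {e k κ : ℕ} {z : St} (he : e < C.P.E)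
    (hk : k < C.P.K) (hκ : κ ≤ C.K0) (hz : Dom C.P C.I z) : G z ≤ Xh (idx C.P e k) (κ, z) :=
  S.X_ge' h he (S.FE_ge h e he.le) k hk κ hκ z hz

/-- **all lane means of a good history are above the exact cost** (admissible pairs) -/
theorem SCfg.R_ge (S : SCfg C G) (h : C.Good Xh) {e k κ : ℕ} {z : St} (he : e < C.P.E)
    (hk : k < C.P.K) (hz : Dom C.P C.I z) (ha : adm C.P (FE C.P Xh e) κ z = true) :
    (G z : ℝ) ≤ C.R Xh e k κ z :=
  S.R_ge' h he.le (S.FE_ge h e he.le)
    (fun i hi κ hκ z hz => S.X_ge h he (by omega) hκ hz) hz ha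

/-- the conditions of one index hold at every index of a good history (input of `arr_ge`,
`body_ge`, `lane_ge`) -/
theorem SCfg.sIn (S : SCfg C G) (h : C.Good Xh) {e k : ℕ} (he : e < C.P.E) (hk : k ≤ C.P.K) :
    SIn C.P C.leaf (FE C.P Xh e) (Xe C.P Xh e) k (2 ^ C.W) C.I C.K0 G where
  W_pos := by positivity
  dvd := pow_dvd_pow 2 S.dl
  g := S.g
  um := S.um
  r := S.r
  grd := S.grd
  cls := S.cls Xh h e he.le
  E := S.E
  GF := S.FE_ge h e he.le
  GX := fun i hi κ hκ z hz => S.X_ge h he (by omega) hκ hz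
  leaf := S.leaf
  bot := S.bot

/-- **the output is above the exact cost of the root** -/
theorem SCfg.out_ge (S : SCfg C G) (h : C.Good Xh) (hr : Dom C.P C.I C.root) :
    G C.root ≤ outNum C.P C.leaf Xh C.root := by
  unfold outNum
  cases hl : C.leaf C.root with
  | some v => exact S.leaf _ hr v hl
  | none => exact S.FE_ge h _ le_rfl _ hr

end Crest.Agent.R288.Snd335
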