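import Crest.Agent.R288.LaneM_540
import Crest.Agent.R288.ArrW_984
import Crest.Agent.R288.ArrG_147
import Crest.Agent.R288.Geo_105
import Crest.Agent.R288.AlgS_125
import Crest.Agent.R288.GSt_442
import Crest.Agent.R288.AsmC_331

/-!
# R288, (A4) SOUNDNESS of ALG v2.2 (helper361)

* `hull_ge`, `Vst_ge`, `wild_ge` : the deterministic values are `≥ G`.
* `SOk` : data of one epoch; `arr_sound`, `body_sound` : mean entries of the arrival and body tables are
  `≥ G`; `lane_sound` : `G z ≤ Ev lanePair`.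
* **`sound`** : for an arbitrary `C : Asm331.Cfg`, from `C.Good X` : `G ≤ FE e` on the domain, `G ≤ R`,
  `G ≤ X` at all pairs of `OmP`.
-/

set_option autoImplicit false

namespace Crest.Agent.R288.Snd361

open Finset Crest.Agent.R295.Rnd627 Crest.Agent.R295.Rnd627.RT Crest.Agent.R288.Alg45
open Crest.Agent.R288.XB715 Crest.Agent.R288.LaneM540 Crest.Agent.R288.Dom20
open Crest.Agent.R288.ArrV984 Crest.Agent.R288.ArrB147 Crest.Agent.R288.ArrW984

variable {P : Par} {W : ℕ} {leaf : St → Option ℕ} {F : St → ℕ} {X : ℕ → ℕ → St → ℕ} {k I K0 K1 : ℕ}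
  {G : St → ℕ}

/-! ### deterministic values -/

theorem hull_ge (ex : GSt442.Exact P.N P.Dm G) {f : ℕ → St → ℕ} {y : St} (hy : Dom P I y)
    (hF : G y ≤ F y) (hf : ∀ κ' ≤ cls F y + P.a2, ∀ z, Dom P I z → G z ≤ f κ' z) :
    G y ≤ hull P F f y := by
  unfold hull
  refine AlgS125.le_lmin hF fun b hb => ?_
  simp only [List.mem_flatMap, List.mem_map] at hb
  obtain ⟨κ', hκ, z, hz, rfl⟩ := hb
  have h1 := (AlgS125.mem_rngC.1 hκ).2
  have h2 := hf κ' h1 z (hy.menu hz)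
  have h3 := menu_ij hz
  have h4 := ex.lip y z h3.1.symm h3.2.symm
  omega

theorem Vst_ge (ex : GSt442.Exact P.N P.Dm G) {κ : ℕ} {x : St} (hi : 1 ≤ x.i) {f : St → ℕ}
    (hf : ∀ q < P.N, ∀ a b, G (piece P κ x q a b) ≤ f (piece P κ x q a b)) :
    G x ≤ Vst P κ x f := by
  obtain ⟨c, -, -, h⟩ := AlgS125.exists_Vst_letters P κ x f
  rw [h]
  have hN : 0 < P.N := Nat.two_pow_pos _
  have h1 := ex.le_cuts (x := x) (i := x.i - 1) (by omega) (m := fun q => cut P κ x q (c q))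
    (by simp [cut]) (by unfold cut; rw [if_neg (by omega), if_pos rfl])
  refine h1.trans ?_
  unfold GSt442.ssum
  exact sum_le_sum fun q hq => hf q (mem_range.1 hq) _ _

/-- any near staircase -/
theorem npiece_ge (ex : GSt442.Exact P.N P.Dm G) {κ : ℕ} {x : St} (hi : 1 ≤ x.i) (m : ℕ → ℕ) :
    G x ≤ ∑ q ∈ range P.N, G (npiece P F κ x q (m q) (m (q + 1))) := by
  have hN : 0 < P.N := Nat.two_pow_pos _
  have h1 := ex.le_cuts (x := x) (i := x.i - 1) (by omega)
    (m := fun q => cut P κ x q (near P F κ x q (m q)))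
    (by simp [cut]) (by unfold cut; rw [if_neg (by omega), if_pos rfl])
  exact h1

theorem Wm_ge {g F0 : ℕ} {V : ℕ → ℕ} (h0 : g ≤ F0) : ∀ i, (∀ j < i, g ≤ V j) → g ≤ Wm F0 V i
  | 0, _ => h0
  | i + 1, h => le_min (Wm_ge h0 i fun j hj => h j (by omega)) (h i (by omega))

/-- data of one epoch -/
structure SOk (P : Par) (I K0 : ℕ) (G : St → ℕ) (leaf : St → Option ℕ) (F : St → ℕ)
    (X : ℕ → ℕ → St → ℕ) (k : ℕ) : Prop where
  r : 1 ≤ P.r
  g : 0 < P.g
  um : 0 < P.um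
  grd : GrdOK P (K0 + 1)
  ex : GSt442.Exact P.N P.Dm G
  GF : ∀ y, Dom P I y → G y ≤ F y
  cls_le : ∀ y, Dom P I y → cls F y + P.a2 ≤ K0
  leaf_le : ∀ y, Dom P I y → ∀ c, leaf y = some c → G y ≤ c
  leaf0 : ∀ y, Dom P I y → y.i = 0 → leaf y = none → G y ≤ 1 + (y.v - y.u).natAbs
  GX : ∀ i < k, ∀ κ' ≤ K0, ∀ z, Dom P I z → G z ≤ X i κ' z

section epoch

variable (S : SOk P I K0 G leaf F X k)
include S

theorem wild_ge {κ : ℕ} {x : St} (hx : Dom P I x) (hi : 1 ≤ x.i) : G x ≤ wild P F X κ x k := by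
  unfold wild
  refine Wm_ge (S.GF x hx) k fun j hj => ?_
  refine Vst_ge S.ex hi fun q hq a b => ?_
  have h1 : Dom P I (piece P κ x q a b) := hx.piece S.r hi hq κ a b
  exact hull_ge S.ex h1 (S.GF _ h1) fun κ' hκ z hz =>
    S.GX j hj κ' (hκ.trans (S.cls_le _ h1)) z hz

omit S in
theorem inC488 {c : Cel} {y : St} (h : Cel734.InC P c y) : Cell488.InC P c y where
  hi := h.hi
  hj := h.hj
  gr := by
    refine ⟨?_, ?_⟩
    · exact h.du
    · exact h.dv
  dom := h.hD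
  u1 := h.ulo
  u2 := h.uhi
  v1 := h.vlo
  v2 := h.vhi

omit S in
theorem inC734 {c : Cel} {y : St} (h : Cell488.InC P c y) : Cel734.InC P c y where
  hi := h.hi
  hj := h.hj
  du := h.gr.1
  dv := h.gr.2
  hD := h.dom
  ulo := h.u1
  uhi := h.u2
  vlo := h.v1
  vhi := h.v2

/-- the arrival tables of macro height `i` are sound in the mean, classes `κ + a2 ≤ K0 + 1` -/
def ArrS (P : Par) (I K0 W : ℕ) (G : St → ℕ) (sub : Cel → RT (List ℕ)) (i : ℕ) : Prop :=
  ∀ κ z, κ + P.a2 ≤ K0 + 1 → z.i = i → Dom P I z → Cel734.InC P (celOf κ z) z →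
    (G z : ℝ) ≤ RS P W sub κ z

/-- **one window** -/
theorem body_sound (hW : 0 < W) (hd : 2 ^ P.dl ∣ W) {sub : Cel → RT (List ℕ)} {i : ℕ}
    (hs : ArrS P I K0 W G sub i) {c : Cel} {z : St} (hi : z.i = i + 1) (hz : Dom P I z)
    (hc : Cel734.InC P c z) : (G z : ℝ) ≤ BM P W leaf F X k sub c z := by
  have hrd : RdOk P c z := fun f => Cel734.rdt_tabC P hc f
  have hok : EndsOk P F c z := fun q hq a _ b _ => Geo105.endOk_npiece P S.r hc F hq a b
  refine le_body hW hd S.g S.um hrd hok (by exact_mod_cast S.GF z hz)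
    (fun v hv => by exact_mod_cast S.leaf_le z hz v hv)
    (by exact_mod_cast wild_ge S hz (by omega)) fun hl m hm => ?_
  have h1 : (G z : ℝ) ≤ ∑ q ∈ range P.N, (G (npiece P F c.κ z q (m q) (m (q + 1))) : ℝ) := by
    exact_mod_cast npiece_ge (F := F) (κ := c.κ) S.ex (by omega) m
  refine h1.trans (sum_le_sum fun q hq => ?_)
  set y := npiece P F c.κ z q (m q) (m (q + 1)) with hy
  have hyD : Dom P I y := hz.npiece S.r (by omega) (mem_range.1 hq) F c.κ _ _
  have hyi : y.i = i := by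
    show z.i - 1 = i
    omega
  unfold numR
  split_ifs with hcl
  · exact_mod_cast S.GF y hyD
  · have h2 := S.cls_le y hyD
    have hg : gst P (cls F y) ∣ P.Dm := S.grd _ (by omega)
    have h3 : Dom P I (rdn P (cls F y) y) := hyD.rdn hg
    have h4 := S.ex.lip y (rdn P (cls F y) y) rfl rfl
    have h5 := hs (cls F y) (rdn P (cls F y) y) (by omega) hyi h3
      (Geo105.inC_own P F hg hyD.inD ((S.ex.ge y).trans (S.GF y hyD)))
    have h6 : (G y : ℝ) ≤ G (rdn P (cls F y) y) + Alg45.dist y (rdn P (cls F y) y) := by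
      exact_mod_cast h4
    linarith

/-- **one jump** -/
theorem arr_sound (hW : 0 < W) {sub : Cel → RT (List ℕ)} {i : ℕ}
    (hb : ∀ (c : Cel) (z : St), z.i = i + 1 → Dom P I z → Cel734.InC P c z → 
      (G z : ℝ) ≤ BM P W leaf F X k sub c z) :
    ArrS P I K0 W G (fun c => arrOf P F (fun c' => bodyT P leaf F X k sub c') c) (i + 1) := by
  intro κ z hκ hzi hz hc
  set c := celOf κ z with hcdef
  have hcκ : c.κ = κ := rfl
  have hgr : ∀ κ' ≤ c.κ + P.a2, (gst P κ' : ℤ) ∣ (P.Dm : ℤ) := fun κ' h => by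
    exact_mod_cast S.grd κ' (by omega)
  have hmeets : ArrG147.Meets P c := ArrG147.meets_of_inC P (inC488 hc)
  have hmem := ArrG147.own_mem_acells P hmeets
  have ht : cidx P c z < csz P c.κ := Cel734.cidx_lt P hc
  have hcst : cst P c (cidx P c z) = z := Cel734.cst_cidx P hc
  unfold RS
  rw [← hcdef]
  show (G z : ℝ) ≤ (arrOf P F (fun c' => bodyT P leaf F X k sub c') c).Ev W
    fun T => ((T.getD (cidx P c z) 0 : ℕ) : ℝ)
  cases hadm : adm P F c.κ z with
  | false =>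
    have h1 := arr_nadm (W := W) (body := fun c' => bodyT P leaf F X k sub c') hmem ht
      (by rw [hcst]; exact hadm)
    rw [Ev_congr_all (h1.mono fun T hT => by rw [hT] :
      (arrOf P F (fun c' => bodyT P leaf F X k sub c') c).All W
        fun T => ((T.getD (cidx P c z) 0 : ℕ) : ℝ) = (F (cst P c (cidx P c z)) : ℝ)), Ev_const hW, hcst]
    exact_mod_cast S.GF z hz
  | true =>
    have h1 := arr_low (W := W) (body := fun c' => bodyT P leaf F X k sub c') hmem ht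
      (by rw [hcst]; exact hadm) hW (G z : ℝ) (by rw [hcst]; exact_mod_cast S.GF z hz)
      (fun x hx => ?_)
    · exact h1
    · rw [hcst] at hx
      obtain ⟨hj, -⟩ := (mem_mnu P).1 hx
      have hzin := ArrG147.zof_inC P hj hgr
      have h2 : (zof P c x).i = z.i ∧ (zof P c x).j = z.j := ⟨rfl, rfl⟩
      have h3 : Dom P I (zof P c x) := by
        refine Dom.cst (c := acell P c x.1) ?_ ?_ x.2
        · exact hz.1
        · exact hz.2.1
      have h4 := hb (acell P c x.1) (zof P c x) (by rw [h2.1, hzi]) h3 (inC734 hzin)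
      have h5 : jmn P W (fun c' => bodyT P leaf F X k sub c') c x =
          BM P W leaf F X k sub (acell P c x.1) (zof P c x) := by
        unfold jmn emn BM
        exact ArrG147.Ev_body_entry (leaf := leaf) (F := F) (X := X) (k := k) (sub := sub) W
          ((mem_jks P).1 hj).2 hzin (fun a => (a : ℝ))
      have h6 := S.ex.lip z (zof P c x) h2.1.symm h2.2.symm
      have h7 : (G z : ℝ) ≤ G (zof P c x) + Alg45.dist z (zof P c x) := by exact_mod_cast h6
      have h8 : (jdst P c (cidx P c z) x : ℝ) = (Alg45.dist z (zof P c x) : ℕ) := by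
        unfold jdst
        rw [hcst]
        rfl
      rw [h5, h8]
      linarith

/-- all macro heights -/
theorem arrT_sound (hW : 0 < W) (hd : 2 ^ P.dl ∣ W) : ∀ i,
    ArrS P I K0 W G (fun c => arrT P leaf F X k i c) i
  | 0 => by
    intro κ z hκ hzi hz hc
    unfold RS
    show (G z : ℝ) ≤ (RT.ret (tabC P (celOf κ z) fun y => botNum P leaf F (celOf κ z).κ y)).Ev W
      fun T => ((rdt P (celOf κ z) T z : ℕ) : ℝ)
    rw [Ev_ret, Cel734.rdt_tabC P hc]
    have : G z ≤ botNum P leaf F (celOf κ z).κ z := by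
      unfold botNum
      split_ifs with h
      · exact S.GF z hz
      · cases hl : leaf z with
        | some c => exact S.leaf_le z hz c hl
        | none => exact S.leaf0 z hz hzi hl
    exact_mod_cast this
  | i + 1 => arr_sound S hW fun _ _ hzi hz hc =>
      body_sound S hW hd (arrT_sound hW hd i) hzi hz hc

/-- **lanes** -/
theorem lane_sound (hW : 0 < W) (hd : 2 ^ P.dl ∣ W) {κ : ℕ} {z : St} (hz : Dom P I z)
    (ha : adm P F κ z = true) :
    (G z : ℝ) ≤ (lanePair P leaf F X k κ z).Ev W fun a => (a : ℝ) := by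
  have h1 := (Cel734.adm_iff P).1 ha
  have h2 := S.cls_le z hz
  have h := arrT_sound S hW hd z.i κ z (by omega) rfl hz (Cel734.adm_inC P hz.inD ha)
  unfold lanePair
  simp only [Ev_bind, Ev_ret]
  exact h

omit S in
theorem Xbar_ge (hK : 0 < P.K) {f : ℕ → ℕ → St → ℕ} {κ : ℕ} {z : St}
    (h : ∀ i < P.K, G z ≤ f i κ z) : G z ≤ Xbar P f κ z := by
  unfold Xbar
  refine AlgS125.le_cdiv_of_mul_le hK ?_
  unfold sumR
  have h1 : ∀ n, (∀ i < n, G z ≤ f i κ z) → n * G z ≤ ((List.range n).map fun i => f i κ z).sum := by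
    intro n
    induction n with
    | zero => intro _; simp
    | succ n ih =>
      intro h2
      rw [List.range_succ, List.map_append, List.sum_append]
      have h3 := ih fun i hi => h2 i (by omega)
      have h4 := h2 n (by omega)
      simp only [List.map_cons, List.map_nil, List.sum_cons, List.sum_nil]
      rw [Nat.succ_mul]
      omega
  exact h1 P.K h

end epoch

/-! ### the configuration -/

section config

open Crest.Agent.R288.Asm331 Crest.Agent.R288.Tape829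

/-- hypotheses on the configuration -/
structure SCfg (C : Cfg) (G : St → ℕ) : Prop where
  r : 1 ≤ C.P.r
  g : 0 < C.P.g
  um : 0 < C.P.um
  K : 0 < C.P.K
  dW : C.P.dl ≤ C.W
  grd : GrdOK C.P (C.K0 + 1)
  ex : GSt442.Exact C.P.N C.P.Dm G
  leaf_le : ∀ y, Dom C.P C.I y → ∀ c, C.leaf y = some c → G y ≤ c
  leaf0 : ∀ y, Dom C.P C.I y → y.i = 0 → C.leaf y = none → G y ≤ 1 + (y.v - y.u).natAbs
  GU : ∀ y, Dom C.P C.I y → ∀ w, C.GU y w → G y ≤ w

variable {C : Cfg} {G : St → ℕ} {X : ℕ → ℕ × St → ℕ}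

theorem mem_pairs {κ : ℕ} {z : St} (hκ : κ ≤ C.K0) (hz : Dom C.P C.I z) :
    (κ, z) ∈ OmP C.P.N C.I C.P.Dm C.K0 := (mem_OmP (Nat.two_pow_pos _)).2 ⟨hκ, hz⟩

/-- the data of one rank -/
theorem SCfg.sok (S : SCfg C G) {e k : ℕ}
    (hA : ∀ y, Dom C.P C.I y → G y ≤ FE C.P X e y)
    (hcls : ∀ y, Dom C.P C.I y → cls (FE C.P X e) y + C.P.a2 ≤ C.K0)
    (hB : ∀ i < k, ∀ κ' ≤ C.K0, ∀ z, Dom C.P C.I z → G z ≤ X (idx C.P e i) (κ', z)) :
    SOk C.P C.I C.K0 G C.leaf (FE C.P X e) (Xe C.P (lo (idx C.P e k) X) e) k where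
  r := S.r
  g := S.g
  um := S.um
  grd := S.grd
  ex := S.ex
  GF := hA
  cls_le := hcls
  leaf_le := S.leaf_le
  leaf0 := S.leaf0
  GX := by
    intro i hi κ' hκ z hz
    rw [Xe_lo hi]
    exact hB i hi κ' hκ z hz

/-- soundness of the numbers of rank `k` from the ranks below -/
theorem SCfg.rank (S : SCfg C G) (hX : C.Good X) {e k : ℕ} (he : e < C.P.E) (hk : k < C.P.K)
    (hA : ∀ y, Dom C.P C.I y → G y ≤ FE C.P X e y)
    (hcls : ∀ y, Dom C.P C.I y → cls (FE C.P X e) y + C.P.a2 ≤ C.K0)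
    (hB : ∀ i < k, ∀ κ' ≤ C.K0, ∀ z, Dom C.P C.I z → G z ≤ X (idx C.P e i) (κ', z)) :
    (∀ κ ≤ C.K0, ∀ z, Dom C.P C.I z → adm C.P (FE C.P X e) κ z = true →
      (G z : ℝ) ≤ C.R X e k κ z) ∧
    ∀ κ ≤ C.K0, ∀ z, Dom C.P C.I z → G z ≤ X (idx C.P e k) (κ, z) := by
  have hR : ∀ κ ≤ C.K0, ∀ z, Dom C.P C.I z → adm C.P (FE C.P X e) κ z = true →
      (G z : ℝ) ≤ C.R X e k κ z := fun κ _ z hz ha =>
    lane_sound (S.sok (k := k) hA hcls hB) (W := 2 ^ C.W) (Nat.two_pow_pos _)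
      (pow_dvd_pow 2 S.dW) hz ha
  refine ⟨hR, fun κ hκ z hz => ?_⟩
  cases ha : adm C.P (FE C.P X e) κ z with
  | true =>
    have h1 := hR κ hκ z hz ha
    have h2 := (Cfg.good_num hX he hk (mem_pairs hκ hz) ha).1
    exact_mod_cast h1.trans h2
  | false =>
    rw [Cfg.good_alt hX he hk (mem_pairs hκ hz) ha]
    exact hA z hz

/-- all ranks of an epoch -/
theorem SCfg.ranks (S : SCfg C G) (hX : C.Good X) {e : ℕ} (he : e < C.P.E)
    (hA : ∀ y, Dom C.P C.I y → G y ≤ FE C.P X e y)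
    (hcls : ∀ y, Dom C.P C.I y → cls (FE C.P X e) y + C.P.a2 ≤ C.K0) (k : ℕ) (hk : k < C.P.K) :
    ∀ κ ≤ C.K0, ∀ z, Dom C.P C.I z → G z ≤ X (idx C.P e k) (κ, z) := by
  induction k using Nat.strong_induction_on with
  | _ k ih => exact (S.rank hX he hk hA hcls fun i hi => ih i hi (by omega)).2

/-- **SOUNDNESS of the unit functions** -/
theorem SCfg.FE_ge (S : SCfg C G) (hX : C.Good X)
    (hcls : ∀ e < C.P.E, ∀ y, Dom C.P C.I y → cls (FE C.P X e) y + C.P.a2 ≤ C.K0) :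
    ∀ e ≤ C.P.E, ∀ y, Dom C.P C.I y → G y ≤ FE C.P X e y
  | 0, _ => fun y hy => by
    have h0 : ∀ z, Dom C.P C.I z → G z ≤ X 0 (0, z) := fun z hz =>
      S.GU z hz _ (Cfg.good_init hX (mem_pairs (Nat.zero_le _) hz))
    exact hull_ge (F := fun z => X 0 (0, z)) (f := fun _ z => X 0 (0, z)) S.ex hy (h0 y hy)
      fun _ _ z hz => h0 z hz
  | e + 1, he => fun y hy => by
    have hA := SCfg.FE_ge S hX hcls e (by omega)
    have hc := hcls e (by omega)
    have hr := S.ranks hX (e := e) (by omega) hA hc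
    show G y ≤ hull C.P (FE C.P X e) (Xbar C.P fun i κ z => X (idx C.P e i) (κ, z)) y
    refine hull_ge S.ex hy (hA y hy) fun κ' hκ z hz => ?_
    exact Xbar_ge (f := fun i κ z => X (idx C.P e i) (κ, z)) S.K
      fun i hi => hr i hi κ' (hκ.trans (hc y hy)) z hz

/-- **(A4) SOUNDNESS** : `G ≤ FE e`, `G ≤ R_k(κ,z)`, `G ≤ X_k(κ,z)` -/
theorem sound (S : SCfg C G) (hX : C.Good X)
    (hcls : ∀ e < C.P.E, ∀ y, Dom C.P C.I y → cls (FE C.P X e) y + C.P.a2 ≤ C.K0) :
    (∀ e ≤ C.P.E, ∀ y, Dom C.P C.I y → G y ≤ FE C.P X e y) ∧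
    (∀ e < C.P.E, ∀ k < C.P.K, ∀ κ z, (κ, z) ∈ OmP C.P.N C.I C.P.Dm C.K0 →
      adm C.P (FE C.P X e) κ z = true → (G z : ℝ) ≤ C.R X e k κ z) ∧
    (∀ e < C.P.E, ∀ k < C.P.K, ∀ κ z, (κ, z) ∈ OmP C.P.N C.I C.P.Dm C.K0 →
      G z ≤ X (idx C.P e k) (κ, z)) := by
  have hA := S.FE_ge hX hcls
  refine ⟨hA, fun e he k hk κ z hz ha => ?_, fun e he k hk κ z hz => ?_⟩
  · have h := (mem_OmP (Nat.two_pow_pos _)).1 hz
    exact (S.rank hX he hk (hA e he.le) (hcls e he) fun i hi =>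
      S.ranks hX he (hA e he.le) (hcls e he) i (hi.trans hk)).1 κ h.1 z h.2 ha
  · have h := (mem_OmP (Nat.two_pow_pos _)).1 hz
    exact S.ranks hX he (hA e he.le) (hcls e he) k hk κ h.1 z h.2

end config

end Crest.Agent.R288.Snd361
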