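import Crest.Agent.R288.VI_684

/-!
# R288: the paid penalty (#4488 669, #4561 745; same idea #4483 700), for the text FROM ABOVE

States of one macro node: pairs of diagonals `(u, v)`, distance `dz u u' + dz v v'`.
`R` = any function with `0 ≤ R ≤ 2 F` (mean output of an epoch; NO Lipschitz hypothesis, NO relative
accuracy), `F` = unit of the epoch, exactly `1`-Lipschitz.

* `lev I u v` : largest `i ≤ I` with `2^i ∣ u` and `2^i ∣ v`.
* `pen I Q F u v = 8 (F u v - Q 2^lev)⁺`, `price = R + pen`; `S := ic2 price` (jump anywhere, pay).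
* `S_lip` : `S` is exactly `1`-Lipschitz; `le_S` : `G ≤ S` for every `1`-Lipschitz `G ≤ R`.
* `S_le_self` : `S ≤ R` at states with `F ≤ Q 2^lev`; `S_le_round` : `S u v ≤ R u^ v^ + dist` for the
  rounding to a grid `2^k` with `F u v + 2 * 2^k ≤ Q 2^k`; `S_le` : `S ≤ 3 F`.
* **`S_grid`** : for every `k ≤ I` there is a target on the grid `2^k`, at distance `≤ 3 F u v + 3Q2^k`, whose
  `price + dist` is at most `S u v + 3 Q 2^k`. So `S` is computable from the values on one grid,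
  whatever the classes are.
-/

set_option autoImplicit false

namespace Crest.Agent.R288.SoftP742

open VI684

/-- capped `2`-adic level of a pair of diagonals -/
def lev (I : ℕ) (u v : ℤ) : ℕ := Nat.findGreatest (fun i => (2 : ℤ) ^ i ∣ u ∧ (2 : ℤ) ^ i ∣ v) I

theorem lev_dvd (I : ℕ) (u v : ℤ) : (2 : ℤ) ^ lev I u v ∣ u ∧ (2 : ℤ) ^ lev I u v ∣ v :=
  Nat.findGreatest_spec (P := fun i => (2 : ℤ) ^ i ∣ u ∧ (2 : ℤ) ^ i ∣ v) (Nat.zero_le I) (by simp)

theorem lev_le (I : ℕ) (u v : ℤ) : lev I u v ≤ I := Nat.findGreatest_le I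

theorem le_lev {i I : ℕ} {u v : ℤ} (hi : i ≤ I) (hu : (2 : ℤ) ^ i ∣ u) (hv : (2 : ℤ) ^ i ∣ v) :
    i ≤ lev I u v :=
  Nat.le_findGreatest hi ⟨hu, hv⟩

theorem lev_lt {i I : ℕ} {u v : ℤ} (h : ¬ ((2 : ℤ) ^ i ∣ u ∧ (2 : ℤ) ^ i ∣ v)) : lev I u v < i := by
  by_contra hc
  push Not at hc
  have h1 := lev_dvd I u v
  have h2 : (2 : ℤ) ^ i ∣ (2 : ℤ) ^ lev I u v := pow_dvd_pow _ hc
  exact h ⟨h2.trans h1.1, h2.trans h1.2⟩

/-- rounding down to the grid `2^k` -/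
def rd (k : ℕ) (u : ℤ) : ℤ := 2 ^ k * (u / 2 ^ k)

theorem rd_dvd (k : ℕ) (u : ℤ) : (2 : ℤ) ^ k ∣ rd k u := ⟨_, rfl⟩

theorem rd_dvd_of_le {i k : ℕ} (h : i ≤ k) (u : ℤ) : (2 : ℤ) ^ i ∣ rd k u :=
  (pow_dvd_pow _ h).trans (rd_dvd k u)

theorem dz_rd (k : ℕ) (u : ℤ) : dz u (rd k u) ≤ 2 ^ k := by
  have hp : (0 : ℤ) < 2 ^ k := by positivity
  have h1 := Int.emod_add_mul_ediv u (2 ^ k)
  have h2 := Int.emod_nonneg u hp.ne'
  have h3 := Int.emod_lt_of_pos u hp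
  have h4 : (u : ℤ) - rd k u = u % 2 ^ k := by unfold rd; linarith
  have h5 : ((u : ℝ) - (rd k u : ℝ)) = ((u % 2 ^ k : ℤ) : ℝ) := by
    rw [← h4]; push_cast; ring
  unfold dz
  rw [h5, abs_of_nonneg (by exact_mod_cast h2)]
  exact_mod_cast h3.le

/-- the penalty -/
noncomputable def pen (I : ℕ) (Q : ℝ) (F : ℤ → ℤ → ℝ) (u v : ℤ) : ℝ :=
  8 * max (F u v - Q * 2 ^ lev I u v) 0

theorem pen_nonneg (I : ℕ) (Q : ℝ) (F : ℤ → ℤ → ℝ) (u v : ℤ) : 0 ≤ pen I Q F u v :=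
  mul_nonneg (by norm_num) (le_max_right _ _)

theorem le_pen (I : ℕ) (Q : ℝ) (F : ℤ → ℤ → ℝ) (u v : ℤ) :
    8 * (F u v - Q * 2 ^ lev I u v) ≤ pen I Q F u v :=
  mul_le_mul_of_nonneg_left (le_max_left _ _) (by norm_num)

theorem pen_eq_zero {I : ℕ} {Q : ℝ} {F : ℤ → ℤ → ℝ} {u v : ℤ} (h : F u v ≤ Q * 2 ^ lev I u v) :
    pen I Q F u v = 0 := by
  unfold pen
  rw [max_eq_right (by linarith), mul_zero]

/-- noise of the unit in the penalty -/
theorem pen_noise (I : ℕ) (Q : ℝ) (F F' : ℤ → ℤ → ℝ) (u v : ℤ) :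
    |pen I Q F u v - pen I Q F' u v| ≤ 8 * |F u v - F' u v| := by
  unfold pen
  rw [← mul_sub, abs_mul, abs_of_nonneg (by norm_num : (0 : ℝ) ≤ 8)]
  refine mul_le_mul_of_nonneg_left ?_ (by norm_num)
  refine (abs_max_sub_max_le_abs _ _ _).trans (le_of_eq ?_)
  congr 1
  ring

/-- the stop price -/
noncomputable def price (I : ℕ) (Q : ℝ) (F R : ℤ → ℤ → ℝ) (u v : ℤ) : ℝ :=
  R u v + pen I Q F u v

/-- jump anywhere and pay -/
noncomputable def S (I : ℕ) (Q : ℝ) (F R : ℤ → ℤ → ℝ) : ℤ → ℤ → ℝ := ic2 (price I Q F R)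

section main

variable {I : ℕ} {Q : ℝ} {F R G : ℤ → ℤ → ℝ}

theorem price_nonneg (hR : ∀ u v, 0 ≤ R u v) (u v : ℤ) : 0 ≤ price I Q F R u v :=
  add_nonneg (hR u v) (pen_nonneg _ _ _ _ _)

theorem le_price (u v : ℤ) : R u v ≤ price I Q F R u v :=
  le_add_of_nonneg_right (pen_nonneg _ _ _ _ _)

theorem S_lip (hR : ∀ u v, 0 ≤ R u v) : Lip (S I Q F R) := ic2_lip (price_nonneg hR)

theorem le_S (hG : Lip G) (hGR : ∀ u v, G u v ≤ R u v) (u v : ℤ) : G u v ≤ S I Q F R u v :=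
  le_ic2 fun u' v' => (hG u v u' v').trans (add_le_add ((hGR u' v').trans (le_price _ _)) le_rfl)

theorem S_coer (hR : Coer R) : Coer (S I Q F R) := fun u v =>
  le_ic2 fun u' v' => by
    have h1 := hR u' v'
    have h2 := le_price (I := I) (Q := Q) (F := F) (R := R) u' v'
    have h3 := dz_tri u u' v
    have h4 := dz_tri u' v' v
    have h5 := dz_comm v' v
    linarith

theorem S_le_price (hR : ∀ u v, 0 ≤ R u v) (u v u' v' : ℤ) :
    S I Q F R u v ≤ price I Q F R u' v' + (dz u u' + dz v v') := ic2_le (price_nonneg hR) u v u' v'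

/-- no penalty at coarse states -/
theorem S_le_self (hR : ∀ u v, 0 ≤ R u v) {u v : ℤ} (h : F u v ≤ Q * 2 ^ lev I u v) :
    S I Q F R u v ≤ R u v := by
  have := ic2_le_self (price_nonneg (I := I) (Q := Q) (F := F) hR) u v
  unfold S
  refine this.trans (le_of_eq ?_)
  unfold price
  rw [pen_eq_zero h, add_zero]

/-- the unit at the rounded state -/
theorem F_rd (hF : Lip F) (k : ℕ) (u v : ℤ) :
    F (rd k u) (rd k v) ≤ F u v + 2 * 2 ^ k := by
  have h1 := hF (rd k u) (rd k v) u v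
  have h2 := dz_rd k u
  have h3 := dz_rd k v
  rw [dz_comm (rd k u) u, dz_comm (rd k v) v] at h1
  linarith

/-- no penalty after rounding to a coarse grid -/
theorem pen_rd (hQ : 0 ≤ Q) (hF : Lip F) {k : ℕ} (hk : k ≤ I) {u v : ℤ}
    (h : F u v + 2 * 2 ^ k ≤ Q * 2 ^ k) : pen I Q F (rd k u) (rd k v) = 0 := by
  refine pen_eq_zero ?_
  have h1 := F_rd hF k u v
  have h2 : k ≤ lev I (rd k u) (rd k v) := le_lev hk (rd_dvd _ _) (rd_dvd _ _)
  have h3 : (2 : ℝ) ^ k ≤ 2 ^ lev I (rd k u) (rd k v) := pow_le_pow_right₀ (by norm_num) h2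
  have h4 := mul_le_mul_of_nonneg_left h3 hQ
  linarith

/-- price of rounding at the state itself -/
theorem S_le_round (hQ : 0 ≤ Q) (hR : ∀ u v, 0 ≤ R u v) (hF : Lip F) {k : ℕ} (hk : k ≤ I) {u v : ℤ}
    (h : F u v + 2 * 2 ^ k ≤ Q * 2 ^ k) :
    S I Q F R u v ≤ R (rd k u) (rd k v) + 2 * 2 ^ k := by
  have h1 := S_le_price (I := I) (Q := Q) (F := F) hR u v (rd k u) (rd k v)
  have h2 := dz_rd k u
  have h3 := dz_rd k v
  unfold price at h1
  rw [pen_rd hQ hF hk h] at h1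
  linarith

/-- the least admissible grid -/
theorem exists_k (_hQ : 2 < Q) {f : ℝ} (hf : f ≤ (Q - 2) * 2 ^ I) :
    ∃ k ≤ I, f + 2 * 2 ^ k ≤ Q * 2 ^ k ∧ (k = 0 ∨ (Q - 2) * 2 ^ k ≤ 2 * f) := by
  classical
  have hex : ∃ k, f ≤ (Q - 2) * 2 ^ k := ⟨I, hf⟩
  refine ⟨Nat.find hex, Nat.find_min' hex hf, ?_, ?_⟩
  · have := Nat.find_spec hex
    linarith
  · rcases Nat.eq_zero_or_pos (Nat.find hex) with h0 | h0
    · exact Or.inl h0
    · right
      have h1 := Nat.find_min hex (m := Nat.find hex - 1) (by omega)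
      push Not at h1
      obtain ⟨t, ht⟩ : ∃ t, Nat.find hex = t + 1 := ⟨Nat.find hex - 1, by omega⟩
      rw [ht] at h1 ⊢
      rw [Nat.add_sub_cancel] at h1
      rw [pow_succ]
      linarith

theorem S_le (hQ : 22 ≤ Q) (hR : ∀ u v, 0 ≤ R u v) (hRF : ∀ u v, R u v ≤ 2 * F u v) (hF : Lip F)
    {u v : ℤ} (hI : F u v ≤ (Q - 2) * 2 ^ I) : S I Q F R u v ≤ 3 * F u v := by
  obtain ⟨k, hk, h1, h2⟩ := exists_k (by linarith) hI
  have hF0 : 0 ≤ F u v := by
    have := hR u v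
    have := hRF u v
    linarith
  rcases h2 with h2 | h2
  · subst h2
    have h3 := S_le_self (I := I) (Q := Q) (F := F) hR (u := u) (v := v) (by
      have : (2 : ℝ) ^ 0 ≤ 2 ^ lev I u v := pow_le_pow_right₀ (by norm_num) (Nat.zero_le _)
      have := mul_le_mul_of_nonneg_left this (by linarith : (0 : ℝ) ≤ Q)
      simp only [pow_zero] at h1 this
      linarith)
    have := hRF u v
    linarith
  · have h3 := S_le_round (by linarith) hR hF hk h1
    have h4 := hRF (rd k u) (rd k v)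
    have h5 := F_rd hF k u v
    have hp : (0 : ℝ) < 2 ^ k := by positivity
    have h6 : 20 * (2 : ℝ) ^ k ≤ (Q - 2) * 2 ^ k := mul_le_mul_of_nonneg_right (by linarith) hp.le
    linarith

/-- **one target: move it to the grid `2^k`** -/
theorem move (hQ : 22 ≤ Q) (hR : ∀ u v, 0 ≤ R u v) (hRF : ∀ u v, R u v ≤ 2 * F u v) (hF : Lip F)
    {k : ℕ} (hk : k ≤ I) (u v a b : ℤ) (hI : F a b ≤ (Q - 2) * 2 ^ I) :
    ∃ a' b' : ℤ, (2 : ℤ) ^ k ∣ a' ∧ (2 : ℤ) ^ k ∣ b' ∧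
      price I Q F R a' b' + (dz u a' + dz v b')
        ≤ price I Q F R a b + (dz u a + dz v b) + 3 * Q * 2 ^ k := by
  have hpk : (0 : ℝ) < 2 ^ k := by positivity
  have hF0 : 0 ≤ F a b := by
    have := hR a b
    have := hRF a b
    linarith
  by_cases hon : (2 : ℤ) ^ k ∣ a ∧ (2 : ℤ) ^ k ∣ b
  · refine ⟨a, b, hon.1, hon.2, ?_⟩
    have : 0 ≤ 3 * Q * 2 ^ k := by positivity
    linarith
  rcases le_total (F a b) (Q * 2 ^ k) with hs | hs
  · -- light target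
    refine ⟨rd k a, rd k b, rd_dvd _ _, rd_dvd _ _, ?_⟩
    have h1 := F_rd hF k a b
    have h2 := hRF (rd k a) (rd k b)
    have h3 : pen I Q F (rd k a) (rd k b) ≤ 8 * (2 * 2 ^ k) := by
      unfold pen
      refine mul_le_mul_of_nonneg_left (max_le ?_ (by positivity)) (by norm_num)
      have h4 : k ≤ lev I (rd k a) (rd k b) := le_lev hk (rd_dvd _ _) (rd_dvd _ _)
      have h5 : (2 : ℝ) ^ k ≤ 2 ^ lev I (rd k a) (rd k b) := pow_le_pow_right₀ (by norm_num) h4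
      have h6 := mul_le_mul_of_nonneg_left h5 (by linarith : (0 : ℝ) ≤ Q)
      linarith
    have h4 := dz_rd k a
    have h5 := dz_rd k b
    have h6 := dz_tri u a (rd k a)
    have h7 := dz_tri v b (rd k b)
    have h8 := price_nonneg (I := I) (Q := Q) (F := F) hR a b
    have h9 : 22 * (2 : ℝ) ^ k ≤ Q * 2 ^ k := mul_le_mul_of_nonneg_right hQ hpk.le
    have h10 : price I Q F R (rd k a) (rd k b) ≤ 2 * (F a b + 2 * 2 ^ k) + 8 * (2 * 2 ^ k) := by
      unfold price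
      linarith
    linarith
  · -- heavy target off the grid: dominated
    have hlt : lev I a b < k := lev_lt hon
    have h1 : (2 : ℝ) * 2 ^ lev I a b ≤ 2 ^ k := by
      rw [← pow_succ']
      exact pow_le_pow_right₀ (by norm_num) hlt
    have h2 := mul_le_mul_of_nonneg_left h1 (by linarith : (0 : ℝ) ≤ Q)
    have h3 := le_pen I Q F a b
    have h4 : 4 * F a b ≤ price I Q F R a b := by
      unfold price
      have := hR a b
      linarith
    obtain ⟨k', hk', h5, h6⟩ := exists_k (by linarith) hI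
    have hkk : k ≤ k' := by
      by_contra hc
      push Not at hc
      have h7 : (2 : ℝ) ^ k' ≤ 2 ^ k := pow_le_pow_right₀ (by norm_num) hc.le
      have h8 := mul_le_mul_of_nonneg_left h7 (by linarith : (0 : ℝ) ≤ Q)
      have : (0 : ℝ) < 2 ^ k' := by positivity
      linarith
    have h6' : (Q - 2) * 2 ^ k' ≤ 2 * F a b := by
      rcases h6 with h6 | h6
      · subst h6
        have : k = 0 := by omega
        subst this
        simp at hon
      · exact h6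
    refine ⟨rd k' a, rd k' b, rd_dvd_of_le hkk _, rd_dvd_of_le hkk _, ?_⟩
    have h7 := F_rd hF k' a b
    have h8 := hRF (rd k' a) (rd k' b)
    have h9 := pen_rd (I := I) (by linarith : (0 : ℝ) ≤ Q) hF hk' h5
    have h10 := dz_rd k' a
    have h11 := dz_rd k' b
    have h12 := dz_tri u a (rd k' a)
    have h13 := dz_tri v b (rd k' b)
    have hp : (0 : ℝ) < 2 ^ k' := by positivity
    have h14 : 20 * (2 : ℝ) ^ k' ≤ (Q - 2) * 2 ^ k' := mul_le_mul_of_nonneg_right (by linarith) hp.le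
    have h15 : 0 ≤ 3 * Q * 2 ^ k := by positivity
    have h16 : price I Q F R (rd k' a) (rd k' b) ≤ 2 * (F a b + 2 * 2 ^ k') := by
      unfold price
      rw [h9]
      linarith
    linarith

/-- **`S` is computable from the values on one grid** -/
theorem S_grid (hQ : 22 ≤ Q) (hR : ∀ u v, 0 ≤ R u v) (hRF : ∀ u v, R u v ≤ 2 * F u v) (hF : Lip F)
    {k : ℕ} (hk : k ≤ I) (u v : ℤ) (hI : 4 * F u v ≤ (Q - 2) * 2 ^ I) :
    ∃ a b : ℤ, (2 : ℤ) ^ k ∣ a ∧ (2 : ℤ) ^ k ∣ b ∧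
      price I Q F R a b + (dz u a + dz v b) ≤ S I Q F R u v + 3 * Q * 2 ^ k ∧
      dz u a + dz v b ≤ 3 * F u v + 3 * Q * 2 ^ k := by
  have hF0 : 0 ≤ F u v := by
    have := hR u v
    have := hRF u v
    linarith
  have hS := S_le hQ hR hRF hF (u := u) (v := v) (by linarith)
  obtain ⟨a, b, hab⟩ := exists_ic2 (price_nonneg (I := I) (Q := Q) (F := F) hR) u v
  have h1 := price_nonneg (I := I) (Q := Q) (F := F) hR a b
  have h2 := hF a b u v
  rw [dz_comm a u, dz_comm b v] at h2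
  have hab' : S I Q F R u v = price I Q F R a b + (dz u a + dz v b) := hab
  obtain ⟨a', b', h3, h4, h5⟩ := move hQ hR hRF hF hk u v a b (by linarith)
  have h6 := price_nonneg (I := I) (Q := Q) (F := F) hR a' b'
  exact ⟨a', b', h3, h4, by linarith, by linarith⟩

/-- noise in the two tables moves the price by at most `e₁ + 8 e₂` -/
theorem price_noise {Fh Rh : ℤ → ℤ → ℝ} {a b : ℤ} {e₁ e₂ : ℝ} (h1 : |Rh a b - R a b| ≤ e₁)
    (h2 : |Fh a b - F a b| ≤ e₂) :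
    |price I Q Fh Rh a b - price I Q F R a b| ≤ e₁ + 8 * e₂ := by
  have h3 := pen_noise I Q Fh F a b
  have h4 : price I Q Fh Rh a b - price I Q F R a b
      = (Rh a b - R a b) + (pen I Q Fh a b - pen I Q F a b) := by
    unfold price
    ring
  rw [h4]
  refine (abs_add_le _ _).trans ?_
  linarith

/-- **the computed value**: minimum over any finite menu `M` which contains the grid `2^k` near the
state, from noisy tables `Rh`, `Fh` -/
theorem S_menu (hQ : 22 ≤ Q) (hR : ∀ u v, 0 ≤ R u v) (hRF : ∀ u v, R u v ≤ 2 * F u v) (hF : Lip F)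
    {k : ℕ} (hk : k ≤ I) (u v : ℤ) (hI : 4 * F u v ≤ (Q - 2) * 2 ^ I)
    {Fh Rh : ℤ → ℤ → ℝ} {e₁ e₂ : ℝ} (M : Finset (ℤ × ℤ)) (hne : M.Nonempty)
    (hM : ∀ a b : ℤ, (2 : ℤ) ^ k ∣ a → (2 : ℤ) ^ k ∣ b →
      dz u a + dz v b ≤ 3 * F u v + 3 * Q * 2 ^ k → (a, b) ∈ M)
    (h1 : ∀ p ∈ M, |Rh p.1 p.2 - R p.1 p.2| ≤ e₁)
    (h2 : ∀ p ∈ M, |Fh p.1 p.2 - F p.1 p.2| ≤ e₂) :
    S I Q F R u v - (e₁ + 8 * e₂)
        ≤ M.inf' hne (fun p => price I Q Fh Rh p.1 p.2 + (dz u p.1 + dz v p.2)) ∧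
      M.inf' hne (fun p => price I Q Fh Rh p.1 p.2 + (dz u p.1 + dz v p.2))
        ≤ S I Q F R u v + 3 * Q * 2 ^ k + (e₁ + 8 * e₂) := by
  constructor
  · refine Finset.le_inf' _ _ fun p hp => ?_
    have h3 := S_le_price (I := I) (Q := Q) (F := F) hR u v p.1 p.2
    have h4 := abs_le.1 (price_noise (I := I) (Q := Q) (h1 p hp) (h2 p hp))
    linarith [h4.1]
  · obtain ⟨a, b, h3, h4, h5, h6⟩ := S_grid hQ hR hRF hF hk u v hI
    have h7 := hM a b h3 h4 h6
    have h8 := Finset.inf'_le (s := M)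
      (fun p : ℤ × ℤ => price I Q Fh Rh p.1 p.2 + (dz u p.1 + dz v p.2)) h7
    have h9 := abs_le.1 (price_noise (I := I) (Q := Q) (h1 _ h7) (h2 _ h7))
    simp only at h8 h9
    linarith [h9.2]

end main

end Crest.Agent.R288.SoftP742
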