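import Mathlib

/-!
# R288 (S0433): NESTED SOFTMIN (post #4649), pure part

One window of the player: an AND-OR tree whose OR nodes `s` (states) carry a menu `A s` of
options, a prior `p s` and a rate `c s`, an option `z` leads to the two half windows `lc s z`,
`rc s z`; at height `0` the states are the window ends, and an end table is a function `S → ℝ`.

* `smin`, `gib`: softmin and Gibbs kernel at one node; `step`: the second difference bound;
* `phi W f n s`: nested softmin of the end table `f`; `ker W f`: its kernels; `hv W q r`: mean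
  value of the end table `r` under the kernels `q`; `mn`, `mx`: exact minimum / maximum;
  `St W n s l P`: `l` is the list of the ends of a staircase below `s` (height `n`) and `P` the
  sum of `log (1 / p) / c` over its inner nodes;
* `main`  : `θ hv (ker f) r + (1 - θ) mn r ≤ phi (f + r) - phi f`, `θ = ∏ (1 - e)`,
  when `c · osc r ≤ 2 e` at every node, `f`, `r` arbitrary;
* `window`: the window inequality for `K` ranks, rank `k` playing the kernel of `∑_{i<k} g i`;
* `noise` : kernels are stable: `hv q' r - mn r ≤ exp (∑ ζ) (hv q r - mn r)`.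
-/

set_option autoImplicit false

namespace Crest.Agent.R288.Soft252

open Finset

/-! ### one node -/

section one

variable {Z : Type*} (A : Finset Z) (p : Z → ℝ) (c : ℝ)

/-- partition function -/
noncomputable def part (u : Z → ℝ) : ℝ := ∑ z ∈ A, p z * Real.exp (-(c * u z))

/-- softmin -/
noncomputable def smin (u : Z → ℝ) : ℝ := -(Real.log (part A p c u) / c)

/-- Gibbs kernel -/
noncomputable def gib (u : Z → ℝ) (z : Z) : ℝ := p z * Real.exp (-(c * u z)) / part A p c u

variable {A p c}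

theorem part_pos (hA : A.Nonempty) (hp : ∀ z ∈ A, 0 < p z) (u : Z → ℝ) : 0 < part A p c u :=
  Finset.sum_pos (fun z hz => mul_pos (hp z hz) (Real.exp_pos _)) hA

theorem gib_pos (hA : A.Nonempty) (hp : ∀ z ∈ A, 0 < p z) (u : Z → ℝ) {z : Z} (hz : z ∈ A) :
    0 < gib A p c u z :=
  div_pos (mul_pos (hp z hz) (Real.exp_pos _)) (part_pos hA hp u)

theorem gib_sum (hA : A.Nonempty) (hp : ∀ z ∈ A, 0 < p z) (u : Z → ℝ) :
    ∑ z ∈ A, gib A p c u z = 1 := by
  unfold gib
  rw [← Finset.sum_div]
  exact div_self (part_pos hA hp u).ne'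

/-- the exact identity behind everything -/
theorem part_add (hA : A.Nonempty) (hp : ∀ z ∈ A, 0 < p z) (u d : Z → ℝ) :
    part A p c (fun z => u z + d z)
      = part A p c u * ∑ z ∈ A, gib A p c u z * Real.exp (-(c * d z)) := by
  have h0 := (part_pos (c := c) hA hp u).ne'
  rw [Finset.mul_sum]
  refine Finset.sum_congr rfl fun z _ => ?_
  unfold gib
  rw [mul_add, neg_add, Real.exp_add]
  field_simp

theorem smin_add_sub (hA : A.Nonempty) (hp : ∀ z ∈ A, 0 < p z) (hc : 0 < c) (u d : Z → ℝ) :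
    smin A p c (fun z => u z + d z) - smin A p c u
      = -(Real.log (∑ z ∈ A, gib A p c u z * Real.exp (-(c * d z))) / c) := by
  have h0 := part_pos (c := c) hA hp u
  have h1 : 0 < ∑ z ∈ A, gib A p c u z * Real.exp (-(c * d z)) :=
    Finset.sum_pos (fun z hz => mul_pos (gib_pos hA hp u hz) (Real.exp_pos _)) hA
  unfold smin
  rw [part_add hA hp, Real.log_mul h0.ne' h1.ne']
  field_simp
  ring

/-- if `∑ q e^{-c d} ≤ e^{-c x}` then the increment is at least `x` -/
theorem le_smin_add_sub (hA : A.Nonempty) (hp : ∀ z ∈ A, 0 < p z) (hc : 0 < c) (u d : Z → ℝ)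
    {x : ℝ} (h : ∑ z ∈ A, gib A p c u z * Real.exp (-(c * d z)) ≤ Real.exp (-(c * x))) :
    x ≤ smin A p c (fun z => u z + d z) - smin A p c u := by
  have h1 : 0 < ∑ z ∈ A, gib A p c u z * Real.exp (-(c * d z)) :=
    Finset.sum_pos (fun z hz => mul_pos (gib_pos hA hp u hz) (Real.exp_pos _)) hA
  rw [smin_add_sub hA hp hc]
  have h2 := Real.log_le_log h1 h
  rw [Real.log_exp] at h2
  rw [le_neg, div_le_iff₀ hc]
  linarith

theorem smin_add_sub_le (hA : A.Nonempty) (hp : ∀ z ∈ A, 0 < p z) (hc : 0 < c) (u d : Z → ℝ)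
    {x : ℝ} (h : Real.exp (-(c * x)) ≤ ∑ z ∈ A, gib A p c u z * Real.exp (-(c * d z))) :
    smin A p c (fun z => u z + d z) - smin A p c u ≤ x := by
  rw [smin_add_sub hA hp hc]
  have h2 := Real.log_le_log (Real.exp_pos _) h
  rw [Real.log_exp] at h2
  rw [neg_le, le_div_iff₀ hc]
  linarith

theorem lo_le_smin (hA : A.Nonempty) (hp : ∀ z ∈ A, 0 < p z) (hc : 0 < c) (u d : Z → ℝ)
    {lo : ℝ} (h : ∀ z ∈ A, lo ≤ d z) :
    lo ≤ smin A p c (fun z => u z + d z) - smin A p c u := by
  refine le_smin_add_sub hA hp hc u d ?_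
  calc ∑ z ∈ A, gib A p c u z * Real.exp (-(c * d z))
      ≤ ∑ z ∈ A, gib A p c u z * Real.exp (-(c * lo)) := by
        refine Finset.sum_le_sum fun z hz => ?_
        refine mul_le_mul_of_nonneg_left ?_ (gib_pos hA hp u hz).le
        exact Real.exp_le_exp.2 (neg_le_neg (mul_le_mul_of_nonneg_left (h z hz) hc.le))
    _ = Real.exp (-(c * lo)) := by rw [← Finset.sum_mul, gib_sum hA hp, one_mul]

theorem smin_le_hi (hA : A.Nonempty) (hp : ∀ z ∈ A, 0 < p z) (hc : 0 < c) (u d : Z → ℝ)
    {hi : ℝ} (h : ∀ z ∈ A, d z ≤ hi) :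
    smin A p c (fun z => u z + d z) - smin A p c u ≤ hi := by
  refine smin_add_sub_le hA hp hc u d ?_
  calc Real.exp (-(c * hi)) = ∑ z ∈ A, gib A p c u z * Real.exp (-(c * hi)) := by
        rw [← Finset.sum_mul, gib_sum hA hp, one_mul]
    _ ≤ ∑ z ∈ A, gib A p c u z * Real.exp (-(c * d z)) := by
        refine Finset.sum_le_sum fun z hz => ?_
        refine mul_le_mul_of_nonneg_left ?_ (gib_pos hA hp u hz).le
        exact Real.exp_le_exp.2 (neg_le_neg (mul_le_mul_of_nonneg_left (h z hz) hc.le))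

/-- `e^{-t} ≤ 1 - t + t²/2` for `t ≥ 0` -/
theorem exp_neg_le {t : ℝ} (ht : 0 ≤ t) : Real.exp (-t) ≤ 1 - t + t ^ 2 / 2 := by
  have h := Real.quadratic_le_exp_of_nonneg ht
  have h1 : 0 < 1 + t + t ^ 2 / 2 := by positivity
  have h2 : Real.exp (-t) ≤ (1 + t + t ^ 2 / 2)⁻¹ := by
    rw [Real.exp_neg]
    exact inv_anti₀ h1 h
  refine h2.trans ?_
  rw [inv_le_iff_one_le_mul₀ h1]
  nlinarith [pow_nonneg ht 3, pow_nonneg ht 4, sq_nonneg t]

/-- **one node**: for increments `d z ∈ [lo, lo + o]` with `c o ≤ 2 e` -/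
theorem step (hA : A.Nonempty) (hp : ∀ z ∈ A, 0 < p z) (hc : 0 < c) (u d : Z → ℝ)
    {lo o e : ℝ} (h1 : ∀ z ∈ A, lo ≤ d z) (h2 : ∀ z ∈ A, d z ≤ lo + o) (he : c * o ≤ 2 * e) :
    (1 - e) * ∑ z ∈ A, gib A p c u z * d z + e * lo
      ≤ smin A p c (fun z => u z + d z) - smin A p c u := by
  refine le_smin_add_sub hA hp hc u d ?_
  have hq : ∀ z ∈ A, 0 < gib A p c u z := fun z hz => gib_pos hA hp u hz
  have hs := gib_sum (c := c) hA hp u
  have key : ∀ z ∈ A, Real.exp (-(c * d z))
      ≤ Real.exp (-(c * lo)) * (1 - (1 - e) * (c * (d z - lo))) := by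
    intro z hz
    have ht : 0 ≤ c * (d z - lo) := mul_nonneg hc.le (by linarith [h1 z hz])
    have ht2 : c * (d z - lo) ≤ 2 * e := by
      refine le_trans ?_ he
      exact mul_le_mul_of_nonneg_left (by linarith [h2 z hz]) hc.le
    have h3 : Real.exp (-(c * (d z - lo))) ≤ 1 - (1 - e) * (c * (d z - lo)) := by
      refine (exp_neg_le ht).trans ?_
      nlinarith
    have h4 : Real.exp (-(c * d z)) = Real.exp (-(c * lo)) * Real.exp (-(c * (d z - lo))) := by
      rw [← Real.exp_add]; congr 1; ring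
    rw [h4]
    exact mul_le_mul_of_nonneg_left h3 (Real.exp_pos _).le
  set X := ∑ z ∈ A, gib A p c u z * d z with hX
  have h5 : ∑ z ∈ A, gib A p c u z * Real.exp (-(c * d z))
      ≤ Real.exp (-(c * lo)) * (1 - (1 - e) * (c * (X - lo))) := by
    calc ∑ z ∈ A, gib A p c u z * Real.exp (-(c * d z))
        ≤ ∑ z ∈ A, gib A p c u z *
            (Real.exp (-(c * lo)) * (1 - (1 - e) * (c * (d z - lo)))) :=
          Finset.sum_le_sum fun z hz => mul_le_mul_of_nonneg_left (key z hz) (hq z hz).le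
      _ = Real.exp (-(c * lo)) * (1 - (1 - e) * (c * (X - lo))) := by
          have : ∀ z ∈ A, gib A p c u z *
              (Real.exp (-(c * lo)) * (1 - (1 - e) * (c * (d z - lo))))
              = Real.exp (-(c * lo)) * ((1 + (1 - e) * c * lo) * gib A p c u z
                - (1 - e) * c * (gib A p c u z * d z)) := fun z _ => by ring
          rw [Finset.sum_congr rfl this, ← Finset.mul_sum, Finset.sum_sub_distrib,
            ← Finset.mul_sum, ← Finset.mul_sum, hs, ← hX]
          ring
  refine h5.trans ?_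
  have h6 : 1 - (1 - e) * (c * (X - lo)) ≤ Real.exp (-((1 - e) * (c * (X - lo)))) := by
    have := Real.add_one_le_exp (-((1 - e) * (c * (X - lo))))
    linarith
  calc Real.exp (-(c * lo)) * (1 - (1 - e) * (c * (X - lo)))
      ≤ Real.exp (-(c * lo)) * Real.exp (-((1 - e) * (c * (X - lo)))) :=
        mul_le_mul_of_nonneg_left h6 (Real.exp_pos _).le
    _ = Real.exp (-(c * ((1 - e) * X + e * lo))) := by
        rw [← Real.exp_add]; congr 1; ring

/-- a single option: softmin is at most its value plus `log (1 / p) / c` -/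
theorem smin_le (hp : ∀ z ∈ A, 0 < p z) (hc : 0 < c) (u : Z → ℝ) {z : Z}
    (hz : z ∈ A) : smin A p c u ≤ u z + Real.log (1 / p z) / c := by
  have h1 : p z * Real.exp (-(c * u z)) ≤ part A p c u :=
    Finset.single_le_sum (f := fun z => p z * Real.exp (-(c * u z)))
      (fun y hy => (mul_pos (hp y hy) (Real.exp_pos _)).le) hz
  have h2 := Real.log_le_log (mul_pos (hp z hz) (Real.exp_pos _)) h1
  rw [Real.log_mul (hp z hz).ne' (Real.exp_pos _).ne', Real.log_exp] at h2
  unfold smin
  rw [one_div, Real.log_inv, neg_le_iff_add_nonneg]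
  have : 0 ≤ (Real.log (part A p c u) - (Real.log (p z) - c * u z)) / c :=
    div_nonneg (by linarith) hc.le
  have h3 : u z + -Real.log (p z) / c + Real.log (part A p c u) / c
      = (Real.log (part A p c u) - (Real.log (p z) - c * u z)) / c := by
    field_simp
    ring
  rw [h3]
  exact this

theorem smin_zero (hs : ∑ z ∈ A, p z = 1) : smin A p c (fun _ => 0) = 0 := by
  unfold smin part
  simp [hs]

theorem smin_congr {u v : Z → ℝ} (h : ∀ z ∈ A, u z = v z) : smin A p c u = smin A p c v := by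
  unfold smin part
  rw [Finset.sum_congr rfl fun z hz => by rw [h z hz]]

theorem gib_congr {u v : Z → ℝ} (h : ∀ z ∈ A, u z = v z) {z : Z} (hz : z ∈ A) :
    gib A p c u z = gib A p c v z := by
  unfold gib part
  rw [h z hz, Finset.sum_congr rfl fun z hz => by rw [h z hz]]

/-- kernels of near inputs: `|u - v| ≤ x` gives a density at most `e^{2 c x}` -/
theorem gib_le (hA : A.Nonempty) (hp : ∀ z ∈ A, 0 < p z) (hc : 0 < c) {u v : Z → ℝ} {x : ℝ}
    (h : ∀ z ∈ A, |u z - v z| ≤ x) {z : Z} (hz : z ∈ A) :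
    gib A p c u z ≤ Real.exp (2 * c * x) * gib A p c v z := by
  have h0 := part_pos (c := c) hA hp u
  have h1 := part_pos (c := c) hA hp v
  have h2 : part A p c v ≤ Real.exp (c * x) * part A p c u := by
    unfold part
    rw [Finset.mul_sum]
    refine Finset.sum_le_sum fun y hy => ?_
    have := (abs_le.1 (h y hy)).2
    calc p y * Real.exp (-(c * v y)) ≤ p y * (Real.exp (c * x) * Real.exp (-(c * u y))) := by
          refine mul_le_mul_of_nonneg_left ?_ (hp y hy).le
          rw [← Real.exp_add]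
          refine Real.exp_le_exp.2 ?_
          nlinarith
      _ = Real.exp (c * x) * (p y * Real.exp (-(c * u y))) := by ring
  have h3 : p z * Real.exp (-(c * u z)) ≤ Real.exp (c * x) * (p z * Real.exp (-(c * v z))) := by
    have := (abs_le.1 (h z hz)).1
    calc p z * Real.exp (-(c * u z)) ≤ p z * (Real.exp (c * x) * Real.exp (-(c * v z))) := by
          refine mul_le_mul_of_nonneg_left ?_ (hp z hz).le
          rw [← Real.exp_add]
          refine Real.exp_le_exp.2 ?_
          nlinarith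
      _ = Real.exp (c * x) * (p z * Real.exp (-(c * v z))) := by ring
  unfold gib
  rw [div_le_iff₀ h0, mul_assoc, div_mul_eq_mul_div, mul_div_assoc', le_div_iff₀ h1]
  have h4 : Real.exp (2 * c * x) = Real.exp (c * x) * Real.exp (c * x) := by
    rw [← Real.exp_add]; congr 1; ring
  have hw : 0 ≤ p z * Real.exp (-(c * v z)) := (mul_pos (hp z hz) (Real.exp_pos _)).le
  calc p z * Real.exp (-(c * u z)) * part A p c v
      ≤ (Real.exp (c * x) * (p z * Real.exp (-(c * v z)))) *
          (Real.exp (c * x) * part A p c u) :=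
        mul_le_mul h3 h2 h1.le (mul_nonneg (Real.exp_pos _).le hw)
    _ = Real.exp (2 * c * x) * (p z * Real.exp (-(c * v z)) * part A p c u) := by
        rw [h4]; ring

end one

/-! ### windows -/

/-- the decision tree of a window -/
structure Win (S Z : Type*) where
  /-- left half -/
  lc : S → Z → S
  /-- right half -/
  rc : S → Z → S
  /-- menu -/
  A : S → Finset Z
  /-- prior -/
  p : S → Z → ℝ
  /-- rate -/
  c : S → ℝ
  hA : ∀ s, (A s).Nonempty
  hp : ∀ s, ∀ z ∈ A s, 0 < p s z
  hs : ∀ s, ∑ z ∈ A s, p s z = 1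
  hc : ∀ s, 0 < c s

variable {S Z : Type*} (W : Win S Z)

/-- nested softmin of an end table -/
noncomputable def phi (f : S → ℝ) : ℕ → S → ℝ
  | 0, s => f s
  | n + 1, s => smin (W.A s) (W.p s) (W.c s) fun z => phi f n (W.lc s z) + phi f n (W.rc s z)

/-- its kernels: `ker f n s z` is used at a node `s` of height `n + 1` -/
noncomputable def ker (f : S → ℝ) (n : ℕ) (s : S) (z : Z) : ℝ :=
  gib (W.A s) (W.p s) (W.c s) (fun z => phi W f n (W.lc s z) + phi W f n (W.rc s z)) z

/-- mean value of the end table `r` under kernels `q` (`q n` at the nodes of height `n + 1`) -/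
noncomputable def hv (q : ℕ → S → Z → ℝ) (r : S → ℝ) : ℕ → S → ℝ
  | 0, s => r s
  | n + 1, s => ∑ z ∈ W.A s, q n s z * (hv q r n (W.lc s z) + hv q r n (W.rc s z))

/-- exact minimum -/
noncomputable def mn (r : S → ℝ) : ℕ → S → ℝ
  | 0, s => r s
  | n + 1, s => (W.A s).inf' (W.hA s) fun z => mn r n (W.lc s z) + mn r n (W.rc s z)

/-- exact maximum -/
noncomputable def mx (r : S → ℝ) : ℕ → S → ℝ
  | 0, s => r s
  | n + 1, s => (W.A s).sup' (W.hA s) fun z => mx r n (W.lc s z) + mx r n (W.rc s z)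

/-- staircases below `s`: list of ends and total `log (1 / p) / c` -/
inductive St : ℕ → S → List S → ℝ → Prop
  | tip (s : S) : St 0 s [s] 0
  | node {n : ℕ} {s : S} {z : Z} {l l' : List S} {P P' : ℝ} (hz : z ∈ W.A s)
      (h : St n (W.lc s z) l P) (h' : St n (W.rc s z) l' P') :
      St (n + 1) s (l ++ l') (P + P' + Real.log (1 / W.p s z) / W.c s)

/-- a set of nodes closed under the moves -/
def Closed (R : ℕ → S → Prop) : Prop :=
  ∀ n s, R (n + 1) s → ∀ z ∈ W.A s, R n (W.lc s z) ∧ R n (W.rc s z)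

variable {W}

@[simp] theorem phi_zero' (f : S → ℝ) (s : S) : phi W f 0 s = f s := rfl
@[simp] theorem hv_zero' (q : ℕ → S → Z → ℝ) (r : S → ℝ) (s : S) : hv W q r 0 s = r s := rfl
@[simp] theorem mn_zero' (r : S → ℝ) (s : S) : mn W r 0 s = r s := rfl
@[simp] theorem mx_zero' (r : S → ℝ) (s : S) : mx W r 0 s = r s := rfl

theorem phi_succ (f : S → ℝ) (n : ℕ) (s : S) : phi W f (n + 1) s
    = smin (W.A s) (W.p s) (W.c s) fun z => phi W f n (W.lc s z) + phi W f n (W.rc s z) := rfl

theorem hv_succ (q : ℕ → S → Z → ℝ) (r : S → ℝ) (n : ℕ) (s : S) : hv W q r (n + 1) s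
    = ∑ z ∈ W.A s, q n s z * (hv W q r n (W.lc s z) + hv W q r n (W.rc s z)) := rfl

theorem mn_le (r : S → ℝ) (n : ℕ) (s : S) {z : Z} (hz : z ∈ W.A s) :
    mn W r (n + 1) s ≤ mn W r n (W.lc s z) + mn W r n (W.rc s z) :=
  Finset.inf'_le _ hz

theorem le_mn (r : S → ℝ) (n : ℕ) (s : S) {x : ℝ}
    (h : ∀ z ∈ W.A s, x ≤ mn W r n (W.lc s z) + mn W r n (W.rc s z)) :
    x ≤ mn W r (n + 1) s :=
  Finset.le_inf' _ _ h

theorem le_mx (r : S → ℝ) (n : ℕ) (s : S) {z : Z} (hz : z ∈ W.A s) :
    mx W r n (W.lc s z) + mx W r n (W.rc s z) ≤ mx W r (n + 1) s :=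
  Finset.le_sup' (fun z => mx W r n (W.lc s z) + mx W r n (W.rc s z)) hz

theorem mn_le_mx (r : S → ℝ) (n : ℕ) (s : S) : mn W r n s ≤ mx W r n s := by
  induction n generalizing s with
  | zero => exact le_rfl
  | succ n ih =>
    obtain ⟨z, hz⟩ := W.hA s
    exact (mn_le r n s hz).trans ((add_le_add (ih _) (ih _)).trans (le_mx r n s hz))

/-! ### staircases -/

theorem St.mn_le {r : S → ℝ} {n : ℕ} {s : S} {l : List S} {P : ℝ} (h : St W n s l P) :
    mn W r n s ≤ (l.map r).sum := by
  induction h with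
  | tip s => simp
  | node hz _ _ ih ih' =>
    rw [List.map_append, List.sum_append]
    exact (Soft252.mn_le r _ _ hz).trans (add_le_add ih ih')

theorem St.le_mx {r : S → ℝ} {n : ℕ} {s : S} {l : List S} {P : ℝ} (h : St W n s l P) :
    (l.map r).sum ≤ mx W r n s := by
  induction h with
  | tip s => simp
  | node hz _ _ ih ih' =>
    rw [List.map_append, List.sum_append]
    exact (add_le_add ih ih').trans (Soft252.le_mx r _ _ hz)

theorem exists_St_mn (r : S → ℝ) (n : ℕ) (s : S) :
    ∃ l P, St W n s l P ∧ (l.map r).sum = mn W r n s := by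
  induction n generalizing s with
  | zero => exact ⟨[s], 0, St.tip s, by simp⟩
  | succ n ih =>
    obtain ⟨z, hz, h⟩ := Finset.exists_mem_eq_inf' (W.hA s)
      (fun z => mn W r n (W.lc s z) + mn W r n (W.rc s z))
    obtain ⟨l, P, h1, h2⟩ := ih (W.lc s z)
    obtain ⟨l', P', h1', h2'⟩ := ih (W.rc s z)
    refine ⟨_, _, St.node hz h1 h1', ?_⟩
    rw [List.map_append, List.sum_append, h2, h2']
    exact h.symm

theorem exists_St_mx (r : S → ℝ) (n : ℕ) (s : S) :
    ∃ l P, St W n s l P ∧ (l.map r).sum = mx W r n s := by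
  induction n generalizing s with
  | zero => exact ⟨[s], 0, St.tip s, by simp⟩
  | succ n ih =>
    obtain ⟨z, hz, h⟩ := Finset.exists_mem_eq_sup' (W.hA s)
      (fun z => mx W r n (W.lc s z) + mx W r n (W.rc s z))
    obtain ⟨l, P, h1, h2⟩ := ih (W.lc s z)
    obtain ⟨l', P', h1', h2'⟩ := ih (W.rc s z)
    refine ⟨_, _, St.node hz h1 h1', ?_⟩
    rw [List.map_append, List.sum_append, h2, h2']
    exact h.symm

/-- oscillation from any two staircases -/
theorem mx_sub_mn_le {r : S → ℝ} {n : ℕ} {s : S} {o : ℝ}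
    (h : ∀ l P l' P', St W n s l P → St W n s l' P' → (l.map r).sum - (l'.map r).sum ≤ o) :
    mx W r n s - mn W r n s ≤ o := by
  obtain ⟨l, P, h1, h2⟩ := exists_St_mx r n s
  obtain ⟨l', P', h1', h2'⟩ := exists_St_mn r n s
  rw [← h2, ← h2']
  exact h l P l' P' h1 h1'

theorem St.length {n : ℕ} {s : S} {l : List S} {P : ℝ} (h : St W n s l P) :
    l.length = 2 ^ n := by
  induction h with
  | tip s => simp
  | node hz _ _ ih ih' => rw [List.length_append, ih, ih', pow_succ]; ring

/-- **upper bound**: nested softmin is at most any staircase plus its prior costs -/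
theorem St.phi_le {f : S → ℝ} {n : ℕ} {s : S} {l : List S} {P : ℝ} (h : St W n s l P) :
    phi W f n s ≤ (l.map f).sum + P := by
  induction h with
  | tip s => simp
  | @node n s z l l' P P' hz _ _ ih ih' =>
    rw [List.map_append, List.sum_append, phi_succ]
    have := smin_le (W.hp s) (W.hc s)
      (fun z => phi W f n (W.lc s z) + phi W f n (W.rc s z)) hz
    linarith

theorem phi_zero (n : ℕ) (s : S) : phi W (fun _ => 0) n s = 0 := by
  induction n generalizing s with
  | zero => rfl
  | succ n ih =>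
    rw [phi_succ]
    simp only [ih, add_zero]
    exact smin_zero (W.hs s)

/-! ### increments -/

theorem mn_le_phi_sub (f r : S → ℝ) (n : ℕ) (s : S) :
    mn W r n s ≤ phi W (fun s => f s + r s) n s - phi W f n s := by
  induction n generalizing s with
  | zero => simp
  | succ n ih =>
    have h := lo_le_smin (W.hA s) (W.hp s) (W.hc s)
      (fun z => phi W f n (W.lc s z) + phi W f n (W.rc s z))
      (fun z => (phi W (fun s => f s + r s) n (W.lc s z) - phi W f n (W.lc s z))
        + (phi W (fun s => f s + r s) n (W.rc s z) - phi W f n (W.rc s z)))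
      (lo := mn W r (n + 1) s)
      (fun z hz => (mn_le r n s hz).trans (add_le_add (ih _) (ih _)))
    rw [phi_succ, phi_succ]
    refine h.trans (le_of_eq ?_)
    congr 1
    refine smin_congr fun z _ => ?_
    ring

theorem phi_sub_le_mx (f r : S → ℝ) (n : ℕ) (s : S) :
    phi W (fun s => f s + r s) n s - phi W f n s ≤ mx W r n s := by
  induction n generalizing s with
  | zero => simp
  | succ n ih =>
    have h := smin_le_hi (W.hA s) (W.hp s) (W.hc s)
      (fun z => phi W f n (W.lc s z) + phi W f n (W.rc s z))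
      (fun z => (phi W (fun s => f s + r s) n (W.lc s z) - phi W f n (W.lc s z))
        + (phi W (fun s => f s + r s) n (W.rc s z) - phi W f n (W.rc s z)))
      (hi := mx W r (n + 1) s)
      (fun z hz => (add_le_add (ih _) (ih _)).trans (le_mx r n s hz))
    rw [phi_succ, phi_succ]
    refine (le_of_eq ?_).trans h
    congr 1
    refine smin_congr fun z _ => ?_
    ring

/-- product of the level factors -/
def th (e : ℕ → ℝ) (n : ℕ) : ℝ := ∏ i ∈ range n, (1 - e i)

theorem th_nonneg {e : ℕ → ℝ} {n : ℕ} (h : ∀ i < n, e i ≤ 1) : 0 ≤ th e n :=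
  Finset.prod_nonneg fun i hi => by linarith [h i (Finset.mem_range.1 hi)]

theorem th_le_one {e : ℕ → ℝ} {n : ℕ} (h0 : ∀ i < n, 0 ≤ e i) (h : ∀ i < n, e i ≤ 1) :
    th e n ≤ 1 :=
  Finset.prod_le_one (fun i hi => by linarith [h i (Finset.mem_range.1 hi)])
    fun i hi => by linarith [h0 i (Finset.mem_range.1 hi)]

theorem le_th {e : ℕ → ℝ} {n : ℕ} (h0 : ∀ i < n, 0 ≤ e i) (h : ∀ i < n, e i ≤ 1) :
    1 - ∑ i ∈ range n, e i ≤ th e n := by
  induction n with
  | zero => simp [th]
  | succ n ih =>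
    have h1 := ih (fun i hi => h0 i (by omega)) (fun i hi => h i (by omega))
    have h2 := th_le_one (e := e) (n := n) (fun i hi => h0 i (by omega))
      (fun i hi => h i (by omega))
    have h3 := h0 n (by omega)
    have h4 : th e (n + 1) = th e n * (1 - e n) := by
      unfold th; rw [Finset.prod_range_succ]
    rw [Finset.sum_range_succ, h4]
    nlinarith

theorem mn_le_hv {q : ℕ → S → Z → ℝ} {R : ℕ → S → Prop} (hR : Closed W R)
    (hq0 : ∀ n s, R (n + 1) s → ∀ z ∈ W.A s, 0 ≤ q n s z)
    (hq1 : ∀ n s, R (n + 1) s → ∑ z ∈ W.A s, q n s z = 1) (r : S → ℝ) (n : ℕ) (s : S)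
    (hs : R n s) : mn W r n s ≤ hv W q r n s := by
  induction n generalizing s with
  | zero => exact le_rfl
  | succ n ih =>
    rw [hv_succ]
    calc mn W r (n + 1) s = ∑ z ∈ W.A s, q n s z * mn W r (n + 1) s := by
          rw [← Finset.sum_mul, hq1 n s hs, one_mul]
      _ ≤ _ := Finset.sum_le_sum fun z hz => mul_le_mul_of_nonneg_left
          ((mn_le r n s hz).trans (add_le_add (ih _ (hR n s hs z hz).1)
            (ih _ (hR n s hs z hz).2))) (hq0 n s hs z hz)

theorem hv_le_mx {q : ℕ → S → Z → ℝ} {R : ℕ → S → Prop} (hR : Closed W R)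
    (hq0 : ∀ n s, R (n + 1) s → ∀ z ∈ W.A s, 0 ≤ q n s z)
    (hq1 : ∀ n s, R (n + 1) s → ∑ z ∈ W.A s, q n s z = 1) (r : S → ℝ) (n : ℕ) (s : S)
    (hs : R n s) : hv W q r n s ≤ mx W r n s := by
  induction n generalizing s with
  | zero => exact le_rfl
  | succ n ih =>
    rw [hv_succ]
    calc _ ≤ ∑ z ∈ W.A s, q n s z * mx W r (n + 1) s :=
          Finset.sum_le_sum fun z hz => mul_le_mul_of_nonneg_left
          ((add_le_add (ih _ (hR n s hs z hz).1)
            (ih _ (hR n s hs z hz).2)).trans (le_mx r n s hz)) (hq0 n s hs z hz)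
      _ = mx W r (n + 1) s := by
          rw [← Finset.sum_mul, hq1 n s hs, one_mul]

theorem ker_pos (f : S → ℝ) (n : ℕ) (s : S) {z : Z} (hz : z ∈ W.A s) : 0 < ker W f n s z :=
  gib_pos (W.hA s) (W.hp s) _ hz

theorem ker_sum (f : S → ℝ) (n : ℕ) (s : S) : ∑ z ∈ W.A s, ker W f n s z = 1 :=
  gib_sum (W.hA s) (W.hp s) _

theorem mn_le_hv_ker (f r : S → ℝ) (n : ℕ) (s : S) : mn W r n s ≤ hv W (ker W f) r n s :=
  mn_le_hv (R := fun _ _ => True) (fun _ _ _ _ _ => ⟨trivial, trivial⟩)
    (fun n s _ _ hz => (ker_pos f n s hz).le) (fun n s _ => ker_sum f n s) r n s trivial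

/-- **MAIN LEMMA** (`f`, `r` arbitrary end tables) -/
theorem main {R : ℕ → S → Prop} (hR : Closed W R) (f r : S → ℝ) {e : ℕ → ℝ} (n : ℕ)
    (h0 : ∀ i < n, 0 ≤ e i) (h1 : ∀ i < n, e i ≤ 1)
    (ho : ∀ i < n, ∀ s, R (i + 1) s → W.c s * (mx W r (i + 1) s - mn W r (i + 1) s) ≤ 2 * e i)
    (s : S) (hs : R n s) :
    th e n * hv W (ker W f) r n s + (1 - th e n) * mn W r n s
      ≤ phi W (fun s => f s + r s) n s - phi W f n s := by
  induction n generalizing s with
  | zero => simp [th]
  | succ n ih =>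
    have ih' := ih (fun i hi => h0 i (by omega)) (fun i hi => h1 i (by omega))
      (fun i hi => ho i (by omega))
    have ht0 : 0 ≤ th e n := th_nonneg fun i hi => h1 i (by omega)
    have ht1 : th e n ≤ 1 := th_le_one (fun i hi => h0 i (by omega)) fun i hi => h1 i (by omega)
    have he0 := h0 n (by omega)
    have he1 := h1 n (by omega)
    have ht : th e (n + 1) = th e n * (1 - e n) := by
      unfold th; rw [Finset.prod_range_succ]
    set d : Z → ℝ := fun z =>
      (phi W (fun s => f s + r s) n (W.lc s z) - phi W f n (W.lc s z))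
        + (phi W (fun s => f s + r s) n (W.rc s z) - phi W f n (W.rc s z)) with hd
    have hst := step (W.hA s) (W.hp s) (W.hc s)
      (fun z => phi W f n (W.lc s z) + phi W f n (W.rc s z)) d
      (lo := mn W r (n + 1) s) (o := mx W r (n + 1) s - mn W r (n + 1) s) (e := e n)
      (fun z hz => (mn_le r n s hz).trans
        (add_le_add (mn_le_phi_sub f r n _) (mn_le_phi_sub f r n _)))
      (fun z hz => by
        have := (add_le_add (phi_sub_le_mx f r n (W.lc s z))
          (phi_sub_le_mx f r n (W.rc s z))).trans (le_mx r n s hz)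
        linarith)
      (ho n (by omega) s hs)
    have heq : smin (W.A s) (W.p s) (W.c s)
        (fun z => phi W f n (W.lc s z) + phi W f n (W.rc s z) + d z)
        = phi W (fun s => f s + r s) (n + 1) s := by
      rw [phi_succ]
      refine smin_congr fun z _ => ?_
      rw [hd]; ring
    rw [heq, ← phi_succ] at hst
    refine le_trans ?_ hst
    have hsum : th e n * hv W (ker W f) r (n + 1) s + (1 - th e n) * mn W r (n + 1) s
        ≤ ∑ z ∈ W.A s, ker W f n s z * d z := by
      have hk := ker_sum (W := W) f n s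
      calc th e n * hv W (ker W f) r (n + 1) s + (1 - th e n) * mn W r (n + 1) s
          = ∑ z ∈ W.A s, ker W f n s z *
            (th e n * (hv W (ker W f) r n (W.lc s z) + hv W (ker W f) r n (W.rc s z))
              + (1 - th e n) * mn W r (n + 1) s) := by
            rw [hv_succ]
            have : ∀ z ∈ W.A s, ker W f n s z *
                (th e n * (hv W (ker W f) r n (W.lc s z) + hv W (ker W f) r n (W.rc s z))
                  + (1 - th e n) * mn W r (n + 1) s)
                = th e n * (ker W f n s z *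
                  (hv W (ker W f) r n (W.lc s z) + hv W (ker W f) r n (W.rc s z)))
                  + ker W f n s z * ((1 - th e n) * mn W r (n + 1) s) := fun z _ => by ring
            rw [Finset.sum_congr rfl this, Finset.sum_add_distrib, ← Finset.mul_sum,
              ← Finset.sum_mul, hk, one_mul]
        _ ≤ _ := by
            refine Finset.sum_le_sum fun z hz => ?_
            refine mul_le_mul_of_nonneg_left ?_ (ker_pos f n s hz).le
            have ha := ih' (W.lc s z) (hR n s hs z hz).1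
            have hb := ih' (W.rc s z) (hR n s hs z hz).2
            have hm := mn_le r n s hz
            have hm' : (1 - th e n) * mn W r (n + 1) s
                ≤ (1 - th e n) * (mn W r n (W.lc s z) + mn W r n (W.rc s z)) :=
              mul_le_mul_of_nonneg_left hm (by linarith)
            rw [hd]
            simp only
            linarith
    have h6 := mul_le_mul_of_nonneg_left hsum (by linarith : (0:ℝ) ≤ 1 - e n)
    have h7 : ∑ z ∈ W.A s, gib (W.A s) (W.p s) (W.c s)
        (fun z => phi W f n (W.lc s z) + phi W f n (W.rc s z)) z * d z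
        = ∑ z ∈ W.A s, ker W f n s z * d z := rfl
    rw [h7, ht]
    nlinarith [h6]

/-- main lemma with one number `g` : `∑ e ≤ 1 / g` -/
theorem main' {R : ℕ → S → Prop} (hR : Closed W R) (f r : S → ℝ) {e : ℕ → ℝ} (n : ℕ) {g : ℝ}
    (h0 : ∀ i < n, 0 ≤ e i) (hg : ∑ i ∈ range n, e i ≤ g) (hg1 : g ≤ 1)
    (ho : ∀ i < n, ∀ s, R (i + 1) s → W.c s * (mx W r (i + 1) s - mn W r (i + 1) s) ≤ 2 * e i)
    (s : S) (hs : R n s) :
    (1 - g) * hv W (ker W f) r n s + g * mn W r n s
      ≤ phi W (fun s => f s + r s) n s - phi W f n s := by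
  have h1 : ∀ i < n, e i ≤ 1 := fun i hi => by
    have := Finset.single_le_sum (f := e) (s := range n)
      (fun j hj => h0 j (Finset.mem_range.1 hj)) (Finset.mem_range.2 hi)
    linarith
  refine le_trans ?_ (main hR f r n h0 h1 ho s hs)
  have h2 := le_th (e := e) (n := n) h0 h1
  have h3 := mn_le_hv_ker (W := W) f r n s
  nlinarith [mul_nonneg (by linarith : (0:ℝ) ≤ th e n - (1 - g))
    (by linarith : (0:ℝ) ≤ hv W (ker W f) r n s - mn W r n s)]

/-- sums of the first tables -/
def cum (g : ℕ → S → ℝ) (k : ℕ) (s : S) : ℝ := ∑ i ∈ range k, g i s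

/-- **WINDOW INEQUALITY**: rank `k` plays the kernel of `cum r k`; `g` = density of flags. -/
theorem window {R : ℕ → S → Prop} (hR : Closed W R) (r : ℕ → S → ℝ) {e : ℕ → ℝ} (n K : ℕ)
    {g : ℝ} (h0 : ∀ i < n, 0 ≤ e i) (hg : ∑ i ∈ range n, e i ≤ g) (hg1 : g ≤ 1)
    (ho : ∀ k < K, ∀ i < n, ∀ s, R (i + 1) s →
      W.c s * (mx W (r k) (i + 1) s - mn W (r k) (i + 1) s) ≤ 2 * e i)
    (s : S) (hs : R n s) {l : List S} {P : ℝ} (hl : St W n s l P) :
    ∑ k ∈ range K, ((1 - g) * hv W (ker W (cum r k)) (r k) n s + g * mn W (r k) n s)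
      ≤ ∑ k ∈ range K, (l.map (r k)).sum + P := by
  have key : ∀ K' ≤ K, ∑ k ∈ range K',
      ((1 - g) * hv W (ker W (cum r k)) (r k) n s + g * mn W (r k) n s)
      ≤ phi W (cum r K') n s := by
    intro K'
    induction K' with
    | zero =>
      intro _
      have : cum r 0 = fun _ => (0 : ℝ) := by funext s; simp [cum]
      rw [this, phi_zero]
      simp
    | succ K' ih =>
      intro hK
      rw [Finset.sum_range_succ]
      have h1 := ih (by omega)
      have h2 := main' hR (cum r K') (r K') n h0 hg hg1 (ho K' (by omega)) s hs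
      have h3 : (fun s => cum r K' s + r K' s) = cum r (K' + 1) := by
        funext s; simp [cum, Finset.sum_range_succ]
      rw [h3] at h2
      linarith
  refine (key K le_rfl).trans (hl.phi_le.trans (le_of_eq ?_))
  congr 1
  clear key hl hs hR ho
  induction l with
  | nil => simp
  | cons a l ih =>
    simp only [List.map_cons, List.sum_cons, Finset.sum_add_distrib]
    rw [ih]
    rfl

/-! ### noise -/

/-- stability of nested softmin -/
theorem abs_phi_sub_le {R : ℕ → S → Prop} (hR : Closed W R) {f f' : S → ℝ} {x : ℝ}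
    (h : ∀ s, R 0 s → |f s - f' s| ≤ x) (n : ℕ) (s : S) (hs : R n s) :
    |phi W f n s - phi W f' n s| ≤ 2 ^ n * x := by
  induction n generalizing s with
  | zero => simpa using h s hs
  | succ n ih =>
    have h1 : ∀ z ∈ W.A s, |(phi W f n (W.lc s z) + phi W f n (W.rc s z))
        - (phi W f' n (W.lc s z) + phi W f' n (W.rc s z))| ≤ 2 ^ (n + 1) * x := by
      intro z hz
      have ha := ih _ (hR n s hs z hz).1
      have hb := ih _ (hR n s hs z hz).2
      have : (phi W f n (W.lc s z) + phi W f n (W.rc s z))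
        - (phi W f' n (W.lc s z) + phi W f' n (W.rc s z))
        = (phi W f n (W.lc s z) - phi W f' n (W.lc s z))
          + (phi W f n (W.rc s z) - phi W f' n (W.rc s z)) := by ring
      rw [this]
      refine (abs_add_le _ _).trans ?_
      rw [pow_succ]; linarith
    have e1 : smin (W.A s) (W.p s) (W.c s)
        (fun z => phi W f' n (W.lc s z) + phi W f' n (W.rc s z)
          + ((phi W f n (W.lc s z) + phi W f n (W.rc s z))
            - (phi W f' n (W.lc s z) + phi W f' n (W.rc s z)))) = phi W f (n + 1) s := by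
      rw [phi_succ]; exact smin_congr fun z _ => by ring
    have h2 := lo_le_smin (W.hA s) (W.hp s) (W.hc s)
      (fun z => phi W f' n (W.lc s z) + phi W f' n (W.rc s z))
      (fun z => (phi W f n (W.lc s z) + phi W f n (W.rc s z))
            - (phi W f' n (W.lc s z) + phi W f' n (W.rc s z)))
      (lo := -(2 ^ (n + 1) * x)) (fun z hz => (abs_le.1 (h1 z hz)).1)
    have h3 := smin_le_hi (W.hA s) (W.hp s) (W.hc s)
      (fun z => phi W f' n (W.lc s z) + phi W f' n (W.rc s z))
      (fun z => (phi W f n (W.lc s z) + phi W f n (W.rc s z))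
            - (phi W f' n (W.lc s z) + phi W f' n (W.rc s z)))
      (hi := 2 ^ (n + 1) * x) (fun z hz => (abs_le.1 (h1 z hz)).2)
    rw [e1, ← phi_succ] at h2 h3
    exact abs_le.2 ⟨h2, h3⟩

/-- density of the noisy kernel -/
theorem ker_le {R : ℕ → S → Prop} (hR : Closed W R) {f f' : S → ℝ} {x : ℝ}
    (h : ∀ s, R 0 s → |f s - f' s| ≤ x) (n : ℕ) (s : S) (hs : R (n + 1) s) {z : Z}
    (hz : z ∈ W.A s) :
    ker W f n s z ≤ Real.exp (2 * W.c s * (2 ^ (n + 1) * x)) * ker W f' n s z := by
  refine gib_le (W.hA s) (W.hp s) (W.hc s) (fun y hy => ?_) hz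
  have ha := abs_phi_sub_le hR h n _ (hR n s hs y hy).1
  have hb := abs_phi_sub_le hR h n _ (hR n s hs y hy).2
  have : (phi W f n (W.lc s y) + phi W f n (W.rc s y))
    - (phi W f' n (W.lc s y) + phi W f' n (W.rc s y))
    = (phi W f n (W.lc s y) - phi W f' n (W.lc s y))
      + (phi W f n (W.rc s y) - phi W f' n (W.rc s y)) := by ring
  rw [this]
  refine (abs_add_le _ _).trans ?_
  rw [pow_succ]; linarith

/-- **NOISE**: kernels `q'` of density at most `exp (ζ n)` against `q` at height `n + 1` -/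
theorem noise {R : ℕ → S → Prop} (hR : Closed W R) {q q' : ℕ → S → Z → ℝ}
    (hq0 : ∀ n s, R (n + 1) s → ∀ z ∈ W.A s, 0 ≤ q n s z)
    (hq1 : ∀ n s, R (n + 1) s → ∑ z ∈ W.A s, q n s z = 1)
    (hq0' : ∀ n s, R (n + 1) s → ∀ z ∈ W.A s, 0 ≤ q' n s z)
    (hq1' : ∀ n s, R (n + 1) s → ∑ z ∈ W.A s, q' n s z = 1)
    {ζ : ℕ → ℝ} (hζ : ∀ n, 0 ≤ ζ n)
    (hqq : ∀ n s, R (n + 1) s → ∀ z ∈ W.A s, q' n s z ≤ Real.exp (ζ n) * q n s z)
    (r : S → ℝ) (n : ℕ) (s : S) (hs : R n s) :
    hv W q' r n s - mn W r n s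
      ≤ Real.exp (∑ i ∈ range n, ζ i) * (hv W q r n s - mn W r n s) := by
  induction n generalizing s with
  | zero => simp
  | succ n ih =>
    have hX : ∀ z ∈ W.A s, hv W q' r n (W.lc s z) + hv W q' r n (W.rc s z) - mn W r (n + 1) s
        ≤ Real.exp (∑ i ∈ range n, ζ i)
          * (hv W q r n (W.lc s z) + hv W q r n (W.rc s z) - mn W r (n + 1) s) := by
      intro z hz
      have ha := ih _ (hR n s hs z hz).1
      have hb := ih _ (hR n s hs z hz).2
      have hm := mn_le r n s hz
      have hE : 1 ≤ Real.exp (∑ i ∈ range n, ζ i) :=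
        Real.one_le_exp (Finset.sum_nonneg fun i _ => hζ i)
      nlinarith
    have hY : ∀ z ∈ W.A s, 0 ≤ hv W q r n (W.lc s z) + hv W q r n (W.rc s z)
        - mn W r (n + 1) s := by
      intro z hz
      have ha := mn_le_hv hR hq0 hq1 r n _ (hR n s hs z hz).1
      have hb := mn_le_hv hR hq0 hq1 r n _ (hR n s hs z hz).2
      have hm := mn_le r n s hz
      linarith
    have e1 : hv W q' r (n + 1) s - mn W r (n + 1) s = ∑ z ∈ W.A s, q' n s z *
        (hv W q' r n (W.lc s z) + hv W q' r n (W.rc s z) - mn W r (n + 1) s) := by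
      simp only [mul_sub, Finset.sum_sub_distrib]
      rw [← Finset.sum_mul, hq1' n s hs, one_mul, hv_succ]
    have e2 : hv W q r (n + 1) s - mn W r (n + 1) s = ∑ z ∈ W.A s, q n s z *
        (hv W q r n (W.lc s z) + hv W q r n (W.rc s z) - mn W r (n + 1) s) := by
      simp only [mul_sub, Finset.sum_sub_distrib]
      rw [← Finset.sum_mul, hq1 n s hs, one_mul, hv_succ]
    rw [e1, e2, Finset.mul_sum]
    refine Finset.sum_le_sum fun z hz => ?_
    have hE : 0 ≤ Real.exp (∑ i ∈ range n, ζ i) := (Real.exp_pos _).le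
    calc q' n s z * (hv W q' r n (W.lc s z) + hv W q' r n (W.rc s z) - mn W r (n + 1) s)
        ≤ q' n s z * (Real.exp (∑ i ∈ range n, ζ i)
          * (hv W q r n (W.lc s z) + hv W q r n (W.rc s z) - mn W r (n + 1) s)) :=
          mul_le_mul_of_nonneg_left (hX z hz) (hq0' n s hs z hz)
      _ ≤ (Real.exp (ζ n) * q n s z) * (Real.exp (∑ i ∈ range n, ζ i)
          * (hv W q r n (W.lc s z) + hv W q r n (W.rc s z) - mn W r (n + 1) s)) :=
          mul_le_mul_of_nonneg_right (hqq n s hs z hz) (mul_nonneg hE (hY z hz))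
      _ = Real.exp (∑ i ∈ range (n + 1), ζ i) * (q n s z *
          (hv W q r n (W.lc s z) + hv W q r n (W.rc s z) - mn W r (n + 1) s)) := by
          rw [Finset.sum_range_succ, Real.exp_add]; ring

end Crest.Agent.R288.Soft252
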