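import Crest.Agent.R288.LawV_944
import Crest.Agent.R288.LaneM_540
import Crest.Agent.R288.ArrW_984
import Crest.Agent.R288.ArrG_147
import Crest.Agent.R288.GSt_442
import Crest.Agent.R288.HullB_407
import Crest.Agent.R288.AlgApi_299

/-!
# R288, ANA.N1 (A4) SOUND, part A (helper468): the lanes are sound

`G` = the exact cost (`GSt442.Exact`), `F ≥ G` and `X i κ z ≥ G z` (`i < k`) on the domain `Dom P I`.
Then the mean of every lane of rank `k` at a pair `(κ, z)` is at least `G z`.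

* `le_hullG`, `le_VstG`, `le_wildG`, `le_numR` : the deterministic parts;
* `body_low` : one window, for an arbitrary family `sub` of arrival tables;
* `arr_low'` : one jump;
* **`laneG`** : `G z ≤ RS P W (arrT ..) κ z` at every height; `lane_low` for `lanePair`.
-/

set_option autoImplicit false

namespace Crest.Agent.R288.Sound468

open Finset Crest.Agent.R295.Rnd627 Crest.Agent.R295.Rnd627.RT Crest.Agent.R288.Alg45
  Crest.Agent.R288.XB715 Crest.Agent.R288.Dom20 Crest.Agent.R288.GSt442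

/-- the fixed hypotheses: parameters, classes up to `K0`, exact cost, leaf values -/
structure SH (P : Par) (W I K0 : ℕ) (leaf : St → Option ℕ) (G : St → ℕ) : Prop where
  W_pos : 0 < W
  dl : 2 ^ P.dl ∣ W
  g_pos : 0 < P.g
  um_pos : 0 < P.um
  r_pos : 1 ≤ P.r
  grd : GrdOK P (K0 + 1)
  ex : ∃ D : ℕ, Exact P.N D G
  leaf_ge : ∀ y, Dom P I y → ∀ c, leaf y = some c → G y ≤ c
  bot : ∀ y, Dom P I y → y.i = 0 → leaf y = none → G y ≤ 1 + (y.v - y.u).natAbs

/-- the unit function is above `G`, its classes are small -/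
structure FG (P : Par) (I K0 : ℕ) (F : St → ℕ) (G : St → ℕ) : Prop where
  ge : ∀ y, Dom P I y → G y ≤ F y
  cl : ∀ y, Dom P I y → cls F y + P.a2 ≤ K0

variable {P : Par} {W I K0 : ℕ} {leaf : St → Option ℕ} {F : St → ℕ} {X : ℕ → ℕ → St → ℕ} {k : ℕ}
  {G : St → ℕ}

/-! ### deterministic parts -/

theorem dom_of_ij {y z : St} (hy : Dom P I y) (hi : z.i = y.i) (hj : z.j = y.j) (hd : inD P z) :
    Dom P I z := by
  rw [dom_iff] at hy ⊢
  rw [hi, hj]
  exact ⟨hy.1, hy.2.1, hd⟩

theorem le_hullG (hL : ∀ y z : St, y.i = z.i → y.j = z.j → G y ≤ G z + Alg45.dist y z)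
    {f : ℕ → St → ℕ} {y : St} (hy : Dom P I y) (h0 : G y ≤ F y)
    (h : ∀ κ' ≤ cls F y + P.a2, ∀ z, Dom P I z → G z ≤ f κ' z) : G y ≤ hull P F f y := by
  refine HullB407.le_hull h0 fun p hp => ?_
  have h1 := h p.1 (HullB407.cmenu_cls hp).2 p.2
    (dom_of_ij hy (HullB407.cmenu_i hp) (HullB407.cmenu_j hp) (HullB407.cmenu_inD hp))
  have h2 := hL y p.2 (HullB407.cmenu_i hp).symm (HullB407.cmenu_j hp).symm
  omega

theorem le_Wm {f g : ℕ} {V : ℕ → ℕ} {k : ℕ} (h0 : g ≤ f) (h : ∀ i < k, g ≤ V i) :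
    g ≤ Wm f V k := by
  induction k with
  | zero => exact h0
  | succ k ih => exact le_min (ih fun i hi => h i (by omega)) (h k (by omega))

/-- the cost is at most the sum over the pieces of every letter sequence -/
theorem le_pieces {D : ℕ} (E : Exact P.N D G) {κ : ℕ} {x : St} (hi : 1 ≤ x.i) (c : ℕ → ℕ) :
    G x ≤ ∑ q ∈ range P.N, G (piece P κ x q (c q) (c (q + 1))) := by
  have hx : x.i = (x.i - 1) + 1 := by omega
  exact E.le_cuts hx (m := fun q => cut P κ x q (c q)) (AlgApi299.cut_zero _ _ _)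
    (AlgApi299.cut_N _ _ _)

theorem le_VstG {D : ℕ} (E : Exact P.N D G) {κ : ℕ} {x : St} (hi : 1 ≤ x.i) {f : St → ℕ}
    (h : ∀ q < P.N, ∀ a b, G (piece P κ x q a b) ≤ f (piece P κ x q a b)) :
    G x ≤ Vst P κ x f := by
  obtain ⟨c, -, h'⟩ := AlgApi299.exists_Vst κ x f
  rw [h']
  exact (le_pieces E hi c).trans (sum_le_sum fun q hq => h q (mem_range.1 hq) _ _)

theorem le_wildG {D : ℕ} (E : Exact P.N D G) (hr : 1 ≤ P.r) (hF : FG P I K0 F G)
    (hX : ∀ i < k, ∀ κ' ≤ K0, ∀ z, Dom P I z → G z ≤ X i κ' z) {κ : ℕ} {x : St}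
    (hx : Dom P I x) (hi : 1 ≤ x.i) : G x ≤ wild P F X κ x k := by
  refine le_Wm (hF.ge x hx) fun i hik => le_VstG E hi fun q hq a b => ?_
  have hy := hx.piece hr hi hq κ a b
  refine le_hullG E.lip hy (hF.ge _ hy) fun κ' hκ' z hz => hX i hik κ' ?_ z hz
  have := hF.cl _ hy
  omega

theorem le_numR (hL : ∀ y z : St, y.i = z.i → y.j = z.j → G y ≤ G z + Alg45.dist y z) {κ : ℕ}
    {f : ℕ → St → ℝ} {y : St} (h0 : G y ≤ F y)
    (h : (G (rdn P (cls F y) y) : ℝ) ≤ f (cls F y) (rdn P (cls F y) y)) :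
    (G y : ℝ) ≤ numR P F κ f y := by
  unfold numR
  split_ifs with h1
  · exact_mod_cast h0
  · have h2 := hL y (rdn P (cls F y) y) rfl rfl
    have h3 : (G y : ℝ) ≤ G (rdn P (cls F y) y) + (Alg45.dist y (rdn P (cls F y) y) : ℕ) := by
      exact_mod_cast h2
    linarith

/-- the rounded state is in its cell -/
theorem inC_rdn {D : ℕ} (E : Exact P.N D G) (hgrd : GrdOK P (K0 + 1)) (hF : FG P I K0 F G) {y : St}
    (hy : Dom P I y) : Dom P I (rdn P (cls F y) y) ∧
      Cell488.InC P (celOf (cls F y) (rdn P (cls F y) y)) (rdn P (cls F y) y) := by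
  have hg : gst P (cls F y) ∣ P.Dm := hgrd _ (by have := hF.cl y hy; omega)
  have hd := hy.rdn (P := P) hg
  refine ⟨hd, Cell488.inC_celOf P hd.inD (Cell488.gr_rdn P _ y) ?_⟩
  have h1 := Cell488.natAbs_rdn P (cls F y) y
  have h2 := Cell488.gst_le P (cls F y)
  have h3 := E.ge y
  have h4 := hF.ge y hy
  have h5 : F y < 2 ^ (cls F y + 1) := Nat.lt_pow_succ_log_self (by norm_num) _
  have h6 : 2 ^ (cls F y + 1) = 2 * 2 ^ cls F y := by ring
  omega

/-! ### one window -/

theorem body_low (hS : SH P W I K0 leaf G) (hF : FG P I K0 F G)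
    (hX : ∀ i < k, ∀ κ' ≤ K0, ∀ z, Dom P I z → G z ≤ X i κ' z) {sub : Cel → RT (List ℕ)}
    {κ : ℕ} {x : St} (hx : Dom P I x) (hi : 1 ≤ x.i) (hc : Cell488.InC P (celOf κ x) x)
    (hsub : ∀ κ' z, z.i + 1 = x.i → Dom P I z → Cell488.InC P (celOf κ' z) z →
      (G z : ℝ) ≤ RS P W sub κ' z) :
    (G x : ℝ) ≤ RS P W (fun c => bodyT P leaf F X k sub c) κ x := by
  obtain ⟨D, E⟩ := hS.ex
  refine LaneM540.le_body (c := celOf κ x) (z := x) hS.W_pos hS.dl hS.g_pos hS.um_pos
    (fun f => Cell488.rdt_tabC P hc f)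
    (fun q hq a _ b _ => LawV944.endOk_npiece hS.r_pos hx hq a b)
    (by exact_mod_cast hF.ge x hx) (fun v hv => by exact_mod_cast hS.leaf_ge x hx v hv)
    (by exact_mod_cast le_wildG E hS.r_pos hF hX hx hi) fun _ m _ => ?_
  have h1 : (G x : ℝ) ≤
      ∑ q ∈ range P.N, (G (npiece P F κ x q (m q) (m (q + 1))) : ℝ) := by
    have := le_pieces (κ := κ) E hi (fun q => near P F κ x q (m q))
    exact_mod_cast this
  refine h1.trans (sum_le_sum fun q hq => ?_)
  have hy : Dom P I (npiece P F κ x q (m q) (m (q + 1))) :=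
    hx.npiece hS.r_pos hi (mem_range.1 hq) F κ _ _
  obtain ⟨h2, h3⟩ := inC_rdn E hS.grd hF hy
  refine le_numR E.lip (hF.ge _ hy) (hsub _ _ ?_ h2 h3)
  show x.i - 1 + 1 = x.i
  omega

/-! ### one jump -/

theorem arr_lowG (hS : SH P W I K0 leaf G) (hF : FG P I K0 F G) {sub : Cel → RT (List ℕ)}
    {κ : ℕ} {y : St} (hy : Dom P I y) (hc : Cell488.InC P (celOf κ y) y)
    (hb : ∀ κ' z, z.i = y.i → Dom P I z → Cell488.InC P (celOf κ' z) z →
      (G z : ℝ) ≤ RS P W (fun c => bodyT P leaf F X k sub c) κ' z) :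
    (G y : ℝ) ≤ RS P W (fun c => arrOf P F (bodyT P leaf F X k sub) c) κ y := by
  obtain ⟨D, E⟩ := hS.ex
  have ht : cidx P (celOf κ y) y < csz P (celOf κ y).κ := Cell488.cidx_lt P hc
  have hcst : cst P (celOf κ y) (cidx P (celOf κ y) y) = y := Cell488.cst_cidx P hc
  have hown := ArrG147.own_mem_acells P (ArrG147.meets_of_inC P hc)
  have e : RS P W (fun c => arrOf P F (bodyT P leaf F X k sub) c) κ y =
      ArrV984.aev P W F (bodyT P leaf F X k sub) (celOf κ y) (cidx P (celOf κ y) y)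
        (fun a => (a : ℝ)) := rfl
  rw [e]
  cases ha : adm P F κ y with
  | false =>
    have h1 := ArrW984.arr_nadm (W := W) (F := F) (body := bodyT P leaf F X k sub) hown ht
      (by rw [hcst]; exact ha)
    have h2 : ArrV984.aev P W F (bodyT P leaf F X k sub) (celOf κ y) (cidx P (celOf κ y) y)
        (fun a => (a : ℝ)) = (F y : ℝ) := by
      unfold ArrV984.aev
      rw [Ev_congr_all (h1.mono fun T hT => by rw [hT] :
        (arrOf P F (bodyT P leaf F X k sub) (celOf κ y)).All W fun T =>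
          ((T.getD (cidx P (celOf κ y) y) 0 : ℕ) : ℝ) =
            (F (cst P (celOf κ y) (cidx P (celOf κ y) y)) : ℝ)), Ev_const hS.W_pos, hcst]
    rw [h2]
    exact_mod_cast hF.ge y hy
  | true =>
    refine ArrW984.arr_low hown ht (by rw [hcst]; exact ha) hS.W_pos _
      (by rw [hcst]; exact_mod_cast hF.ge y hy) fun x hx => ?_
    have hj := ((ArrB147.mem_mnu P).1 hx).1
    have hκ : κ ≤ cls F y + 1 := ((AdmR944.adm_iff.1 ha).2.2.1)
    have hD : ∀ κ' ≤ (celOf κ y).κ + P.a2, (gst P κ' : ℤ) ∣ (P.Dm : ℤ) := by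
      intro κ' hκ'
      have h1 := hF.cl y hy
      have h2 : (celOf κ y).κ = κ := rfl
      exact_mod_cast hS.grd κ' (by omega)
    have hin := ArrG147.zof_inC P hj hD
    have hcel := ArrG147.celOf_zof P hj hD
    have hi : (ArrB147.zof P (celOf κ y) x).i = y.i := rfl
    have hdz : Dom P I (ArrB147.zof P (celOf κ y) x) :=
      dom_of_ij hy rfl rfl (Cell488.inD_cst P _ _)
    have h1 := hb (ArrB147.kof P (celOf κ y) x) (ArrB147.zof P (celOf κ y) x) hi hdz
      (by rw [hcel]; exact hin)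
    have h2 : RS P W (fun c => bodyT P leaf F X k sub c) (ArrB147.kof P (celOf κ y) x)
        (ArrB147.zof P (celOf κ y) x) =
        ArrV984.jmn P W (bodyT P leaf F X k sub) (celOf κ y) x := by
      unfold RS
      rw [hcel]
      exact (ArrG147.Ev_body_entry W ((ArrB147.mem_jks P).1 hj).2 hin
        (fun a => (a : ℝ))).symm
    rw [h2] at h1
    have h3 := E.lip y (ArrB147.zof P (celOf κ y) x) rfl rfl
    have h4 : ArrV984.jdst P (celOf κ y) (cidx P (celOf κ y) y) x =
        Alg45.dist y (ArrB147.zof P (celOf κ y) x) := by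
      unfold ArrV984.jdst
      rw [hcst]
      rfl
    rw [h4]
    have h5 : (G y : ℝ) ≤ G (ArrB147.zof P (celOf κ y) x) +
        (Alg45.dist y (ArrB147.zof P (celOf κ y) x) : ℕ) := by exact_mod_cast h3
    linarith

/-! ### the lanes -/

theorem laneG (hS : SH P W I K0 leaf G) (hF : FG P I K0 F G)
    (hX : ∀ i < k, ∀ κ' ≤ K0, ∀ z, Dom P I z → G z ≤ X i κ' z) (i : ℕ) :
    ∀ κ z, z.i = i → Dom P I z → Cell488.InC P (celOf κ z) z →
      (G z : ℝ) ≤ RS P W (fun c => arrT P leaf F X k i c) κ z := by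
  induction i with
  | zero =>
    intro κ z hi hz hc
    have e : RS P W (fun c => arrT P leaf F X k 0 c) κ z = (botNum P leaf F κ z : ℝ) := by
      unfold RS
      show (RT.ret (tabC P (celOf κ z) fun y => botNum P leaf F (celOf κ z).κ y)).Ev W _ = _
      rw [Ev_ret, Cell488.rdt_tabC P hc]
      rfl
    rw [e]
    unfold botNum
    split_ifs with ha
    · exact_mod_cast hF.ge z hz
    · cases hl : leaf z with
      | none => 
        simp only [Option.getD_none]
        exact_mod_cast hS.bot z hz hi hl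
      | some c => 
        simp only [Option.getD_some]
        exact_mod_cast hS.leaf_ge z hz c hl
  | succ i ih =>
    intro κ z hi hz hc
    refine arr_lowG hS hF hz hc fun κ' x hxi hx hxc => ?_
    refine body_low hS hF hX hx (by omega) hxc fun κ'' w hw hwD hwc => ?_
    exact ih κ'' w (by omega) hwD hwc

/-- **the mean of a lane is at least the cost** -/
theorem lane_low (hS : SH P W I K0 leaf G) (hF : FG P I K0 F G)
    (hX : ∀ i < k, ∀ κ' ≤ K0, ∀ z, Dom P I z → G z ≤ X i κ' z) {κ : ℕ} {z : St}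
    (hz : Dom P I z) (hc : Cell488.InC P (celOf κ z) z) :
    (G z : ℝ) ≤ (lanePair P leaf F X k κ z).Ev W fun a : ℕ => (a : ℝ) := by
  unfold lanePair
  simp only [Ev_bind, Ev_ret]
  exact laneG hS hF hX z.i κ z rfl hz hc

end Crest.Agent.R288.Sound468
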