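import Crest.Agent.R288.SoundT_548

/-!
# R288 [SOUND], part A (helper548): the deterministic functions of ALG-U (`AlgA_45` v2) are above the exact cost

`G : St → ℕ` with `GSt442.Exact P.N Dm G`. `t : RT α` = any draw.

* `hv_spec`, `wts_congr`, `wts_pos`, `hv_congr`, `VV_congr` : the linear weights (exact, positive) and hedge values;
* `VV_ge_Ev`, `VV_ge` : the in-window DP is above the minimum over letter paths;
* `G_le_pieces`, `Vst_ge`, `Wm_ge`, `wild_ge`, `hull_ge`, `numSt_ge`, `FNext_ge`;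
* **`bodyNum_ge_Ev`** : if the spawned numbers of rank `k` are above `G` IN EXPECTATION, so is `bodyNum`;
* `bodyNum_ge` : the pointwise form.
-/

set_option autoImplicit false

namespace Crest.Agent.R288.Sound548

open Finset Crest.Agent.R295.Rnd627 Crest.Agent.R295.Rnd627.RT
open Crest.Agent.R288.Alg45 Crest.Agent.R288.GSt442 Crest.Agent.R288.El260

/-! ## Ceiling division -/

theorem le_mul_cdiv (a : ℕ) {b : ℕ} (hb : 0 < b) : a ≤ b * cdiv a b := by
  unfold cdiv
  have h1 := Nat.div_add_mod (a + (b - 1)) b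
  have h2 := Nat.mod_lt (a + (b - 1)) hb
  omega

theorem le_cdiv_of_mul_le {a b c : ℕ} (hb : 0 < b) (h : c * b ≤ a) : c ≤ cdiv a b := by
  unfold cdiv
  rw [Nat.le_div_iff_mul_le hb]
  omega

/-! ## The weights -/

section weights

variable {gn gd B U : ℕ} {w0 : ℕ → ℕ} {us us' : ℕ → ℕ → ℕ} {i : ℕ}

theorem fac_pos (h : 0 < gd) (hU : 0 < U) (x : ℕ) : 0 < fac gn gd U x := by
  have h1 : 0 < gd * U := Nat.mul_pos h hU
  have h2 : min (gd * U) (2 * gn * x) ≤ gd * U := min_le_left _ _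
  have h3 : 2 * gd * U = gd * U + gd * U := by ring
  unfold fac
  omega

theorem wts_pos (h : 0 < gd) (hU : 0 < U) (us : ℕ → ℕ → ℕ) {z : ℕ} (h0 : 0 < w0 z) :
    ∀ i, 0 < wts gn gd B U w0 us i z
  | 0 => h0
  | i + 1 => Nat.mul_pos (wts_pos h hU us h0 i) (fac_pos h hU _)

theorem wts_congr : ∀ {i : ℕ}, (∀ i' < i, us i' = us' i') →
    wts gn gd B U w0 us i = wts gn gd B U w0 us' i
  | 0, _ => rfl
  | i + 1, h => by
    funext z
    simp only [wts]
    rw [wts_congr (i := i) fun i' hi' => h i' (by omega), h i (by omega)]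

theorem hv_congr (h : ∀ i' ≤ i, us i' = us' i') :
    hv gn gd B U w0 us i = hv gn gd B U w0 us' i := by
  unfold hv
  rw [wts_congr (i := i) fun i' hi' => h i' hi'.le, h i le_rfl]

theorem sumR_pos {B : ℕ} {f : ℕ → ℕ} {z : ℕ} (hz : z < B) (h : 0 < f z) : 0 < sumR B f :=
  h.trans_le (le_sumR hz)

theorem hv_spec (h : 0 < sumR B (wts gn gd B U w0 us i)) :
    sumR B (fun z => wts gn gd B U w0 us i z * us i z) ≤
      sumR B (wts gn gd B U w0 us i) * hv gn gd B U w0 us i := le_mul_cdiv _ h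

end weights

/-! ## The in-window DP -/

section vv

variable {γ B : ℕ} {U : ℕ → ℕ → ℕ}

theorem VV_congr {E E' : ℕ → ℕ → ℕ → ℕ → ℕ} : ∀ {t i : ℕ}, (∀ i' ≤ i, E i' = E' i') →
    VV γ B U E t i = VV γ B U E' t i
  | 0, i, h => by
    funext p a b
    simp only [VV]
    rw [h i le_rfl]
  | t + 1, i, h => by
    funext p a b
    simp only [VV]
    refine hv_congr fun i' hi' => ?_
    funext z
    rw [VV_congr (t := t) (i := i') fun i'' h'' => h i'' (h''.trans hi')]

/-- **the in-window DP in expectation**: the end tables of the ranks `i < k` are deterministic, the end table of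
rank `k` is above `G` in expectation -/
theorem VV_ge_Ev {α : Type} {M : ℕ} {t : RT α} {E : α → ℕ → ℕ → ℕ → ℕ → ℕ}
    {E0 : ℕ → ℕ → ℕ → ℕ → ℕ} {G : ℕ → ℕ → ℕ → ℕ} {k : ℕ}
    (hB : 0 < B) (hU : ∀ t p, 0 < U t p) (hE : ∀ ω, ∀ i < k, E ω i = E0 i) (n : ℕ)
    (hG : ∀ p < 2 ^ n, ∀ a b, (G p a b : ℝ) ≤ t.Ev M fun ω => (E ω k p a b : ℝ)) (a b : ℕ) :
    (Mn B G n 0 a b : ℝ) ≤ t.Ev M fun ω => (VV γ B U (E ω) n k 0 a b : ℝ) := by
  refine tree_ge (fun ω s p a b => VV γ B U (E ω) s k p a b)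
    (fun s p a b => wts γ 1 B (U (s + 1) p) (fun _ => 1)
      (fun i' z => VV γ B U E0 s i' (2 * p) a z + VV γ B U E0 s i' (2 * p + 1) z b) k)
    G n ?_ ?_ hG n le_rfl 0 (by positivity) a b
  · intro s p a b
    exact sumR_pos hB (wts_pos one_pos (hU _ _) _ one_pos k)
  · intro ω s p a b
    have h1 : wts γ 1 B (U (s + 1) p) (fun _ => 1)
        (fun i' z => VV γ B U E0 s i' (2 * p) a z + VV γ B U E0 s i' (2 * p + 1) z b) k
        = wts γ 1 B (U (s + 1) p) (fun _ => 1)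
        (fun i' z => VV γ B U (E ω) s i' (2 * p) a z
          + VV γ B U (E ω) s i' (2 * p + 1) z b) k := by
      refine wts_congr fun i' hi' => ?_
      funext z
      rw [VV_congr (t := s) (i := i') fun i'' h'' => (hE ω i'' (by omega)).symm]
    simp only [h1]
    exact hv_spec (sumR_pos hB (wts_pos one_pos (hU _ _) _ one_pos k))

theorem VV_ge {E : ℕ → ℕ → ℕ → ℕ → ℕ} {G : ℕ → ℕ → ℕ → ℕ} {i : ℕ}
    (hB : 0 < B) (hU : ∀ t p, 0 < U t p) (n : ℕ) (hG : ∀ p < 2 ^ n, ∀ a b, G p a b ≤ E i p a b)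
    (a b : ℕ) : Mn B G n 0 a b ≤ VV γ B U E n i 0 a b := by
  have h := VV_ge_Ev (M := 1) (t := RT.ret ()) (E := fun _ => E) (E0 := E) (γ := γ) (k := i)
    hB hU (fun _ _ _ => rfl) n (G := G) (fun p hp a b => by simpa using hG p hp a b) a b
  simpa using h

end vv

/-! ## Staircases -/

variable {P : Par} {Dm : ℕ} {G : St → ℕ}

/-- `G` of a state is at most the sum over every staircase of window pieces -/
theorem G_le_pieces (E : Exact P.N Dm G) {κ : ℕ} {x : St} (hx : 0 < x.i) (c : ℕ → ℕ) :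
    G x ≤ ∑ q ∈ range P.N, G (piece P κ x q (c q) (c (q + 1))) := by
  obtain ⟨i, hi⟩ := Nat.exists_eq_add_of_lt hx
  have hi' : x.i = i + 1 := by omega
  have h := E.le_cuts hi' (m := fun q => cut P κ x q (c q)) (cut_zero _ _ _) (cut_N _ _ _)
  refine h.trans (le_of_eq ?_)
  unfold ssum piece
  rw [hi']
  rfl

theorem Vst_ge (E : Exact P.N Dm G) {κ : ℕ} {x : St} (hx : 0 < x.i) {f : St → ℕ}
    (hf : ∀ q < P.N, ∀ a b, G (piece P κ x q a b) ≤ f (piece P κ x q a b)) : G x ≤ Vst P κ x f := by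
  unfold Vst
  obtain ⟨c, _, _, h⟩ := exists_minSt (A := WA P κ) (WA_pos κ)
    (fun q a b => f (piece P κ x q a b)) P.N
  rw [h]
  exact (G_le_pieces E hx c).trans (sum_le_sum fun q hq => hf _ (mem_range.1 hq) _ _)

theorem Wm_ge {g F : ℕ} {V : ℕ → ℕ} (hF : g ≤ F) : ∀ {k : ℕ}, (∀ i < k, g ≤ V i) → g ≤ Wm F V k
  | 0, _ => hF
  | k + 1, h => le_min (Wm_ge hF fun i hi => h i (by omega)) (h k (by omega))

/-- the tree minimum over the near letters -/
theorem Mn_near_ge (E : Exact P.N Dm G) {F : St → ℕ} {κ : ℕ} {x : St} (hx : 0 < x.i) {B : ℕ}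
    (hB : 0 < B) (a b : ℕ) :
    G x ≤ Mn B (fun q a b => G (npiece P F κ x q a b)) P.n 0 a b := by
  obtain ⟨c, _, _, h⟩ := exists_Mn hB (fun q a b => G (npiece P F κ x q a b)) P.n 0 a b
  rw [h]
  refine (G_le_pieces E hx (κ := κ) fun q => near P F κ x q (c q)).trans (le_of_eq ?_)
  unfold Par.N
  refine sum_congr rfl fun q _ => ?_
  rw [Nat.zero_mul, Nat.zero_add]
  rfl

/-! ## Hull and numbers of states -/

/-- a price `dist y z + f` with `G z ≤ f`, `z` in the block of `y` -/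
theorem dist_add_ge (E : Exact P.N Dm G) {y z : St} (hi : y.i = z.i) (hj : y.j = z.j) {f : ℕ}
    (h : G z ≤ f) : G y ≤ dist y z + f := by
  have := E.lip y z hi hj
  omega

/-- the states of a menu belong to the block -/
theorem menu_blk {κ' ρ : ℕ} {y z : St} (hz : z ∈ menu P κ' ρ y) : z.i = y.i ∧ z.j = y.j := by
  unfold menu at hz
  simp only [List.mem_flatMap, List.mem_map] at hz
  obtain ⟨a, _, b, _, rfl⟩ := hz
  exact ⟨rfl, rfl⟩

theorem hull_ge (E : Exact P.N Dm G) {F : St → ℕ} {f : ℕ → St → ℕ} {y : St} (hF : G y ≤ F y)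
    (hf : ∀ κ' ∈ rngC (cls F y - P.al) (cls F y + P.a2), ∀ z ∈ menu P κ' (2 * F y) y,
      G z ≤ f κ' z) : G y ≤ hull P F f y := by
  unfold hull
  refine le_lmin hF fun b hb => ?_
  simp only [List.mem_flatMap, List.mem_map] at hb
  obtain ⟨κ', hκ, z, hz, rfl⟩ := hb
  obtain ⟨h1, h2⟩ := menu_blk hz
  exact dist_add_ge E h1.symm h2.symm (hf κ' hκ z hz)

theorem numSt_ge (E : Exact P.N Dm G) {F : St → ℕ} {κ : ℕ} {f : ℕ → St → ℕ} {y : St}
    (hF : G y ≤ F y) (hf : G (rdn P (cls F y) y) ≤ f (cls F y) (rdn P (cls F y) y)) :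
    G y ≤ numSt P F κ f y := by
  unfold numSt
  split_ifs
  · exact hF
  · exact dist_add_ge (y := y) (z := rdn P (cls F y) y) E rfl rfl hf

theorem Xbar_ge {X : ℕ → ℕ → St → ℕ} {κ : ℕ} {z : St} (hK : 0 < P.K)
    (h : ∀ i < P.K, G z ≤ X i κ z) : G z ≤ Xbar P X κ z := by
  unfold Xbar
  refine le_cdiv_of_mul_le hK ?_
  rw [sumR_eq, mul_comm]
  calc P.K * G z = ∑ _i ∈ range P.K, G z := by rw [sum_const, card_range, smul_eq_mul]
    _ ≤ _ := sum_le_sum fun i hi => h i (mem_range.1 hi)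

theorem FNext_ge (E : Exact P.N Dm G) {F : St → ℕ} {X : ℕ → ℕ → St → ℕ} {y : St} (hK : 0 < P.K)
    (hF : G y ≤ F y)
    (hX : ∀ i < P.K, ∀ κ' ∈ rngC (cls F y - P.al) (cls F y + P.a2), ∀ z ∈ menu P κ' (2 * F y) y,
      G z ≤ X i κ' z) : G y ≤ FNext P F X y :=
  hull_ge E hF fun κ' hκ z hz => Xbar_ge hK fun i hi => hX i hi κ' hκ z hz

/-! ## The body value -/

theorem wild_ge (E : Exact P.N Dm G) {F : St → ℕ} {X : ℕ → ℕ → St → ℕ} {κ k : ℕ} {x : St}
    (hx : 0 < x.i) (hF : G x ≤ F x)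
    (hX : ∀ i < k, ∀ q < P.N, ∀ a b,
      G (piece P κ x q a b) ≤ hull P F (X i) (piece P κ x q a b)) :
    G x ≤ wild P F X κ x k := Wm_ge hF fun i hi => Vst_ge E hx (hX i hi)

theorem nlet_pos (F : St → ℕ) (κ : ℕ) (x : St) : 0 < nlet P F κ x := Nat.succ_pos _

theorem unt_pos (F : St → ℕ) (κ : ℕ) (x : St) (t p : ℕ) : 0 < unt P F κ x t p := Nat.succ_pos _

section body

variable {α : Type} {M : ℕ} {t : RT α} {F : St → ℕ} {X : ℕ → ℕ → St → ℕ} {k κ : ℕ} {x : St}
  {S : α → ℕ → ℕ → St → ℕ}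

/-- the calm value of rank `k` in expectation -/
theorem calm_ge_Ev (E : Exact P.N Dm G) (hx : 0 < x.i)
    (hS : ∀ q < P.N, ∀ a b, (G (npiece P F κ x q a b) : ℝ) ≤
      t.Ev M fun ω => (numSt P F κ (S ω q) (npiece P F κ x q a b) : ℝ)) :
    (G x : ℝ) ≤ t.Ev M fun ω => (calm P F X k (S ω) κ x k : ℝ) := by
  have h1 : (G x : ℝ) ≤ Mn (nlet P F κ x) (fun q a b => G (npiece P F κ x q a b)) P.n 0 0 0 := by
    exact_mod_cast Mn_near_ge E hx (nlet_pos F κ x) 0 0
  refine h1.trans ?_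
  refine VV_ge_Ev
    (E := fun ω i q a b => numSt P F κ (if i < k then X i else S ω q) (npiece P F κ x q a b))
    (E0 := fun i q a b => numSt P F κ (X i) (npiece P F κ x q a b))
    (nlet_pos F κ x) (unt_pos F κ x) ?_ P.n ?_ 0 0
  · intro ω i hi
    funext q a b
    simp only [if_pos hi]
  · intro q hq a b
    simpa using hS q hq a b

/-- calm values of the lower ranks do not depend on the spawned numbers -/
theorem calm_congr {i : ℕ} (hi : i < k) (S S' : ℕ → ℕ → St → ℕ) :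
    calm P F X k S κ x i = calm P F X k S' κ x i := by
  unfold calm
  rw [VV_congr (t := P.n) (i := i)]
  intro i' hi'
  funext q a b
  simp only [if_pos (lt_of_le_of_lt hi' hi)]

/-- the root decision in expectation -/
theorem modal_ge_Ev [Inhabited α] (E : Exact P.N Dm G) (hx : 0 < x.i) (hM : 0 < M)
    (hum : 0 < P.um) (hF : G x ≤ F x)
    (hX : ∀ i < k, ∀ q < P.N, ∀ a b,
      G (piece P κ x q a b) ≤ hull P F (X i) (piece P κ x q a b))
    (hS : ∀ q < P.N, ∀ a b, (G (npiece P F κ x q a b) : ℝ) ≤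
      t.Ev M fun ω => (numSt P F κ (S ω q) (npiece P F κ x q a b) : ℝ)) :
    (G x : ℝ) ≤ t.Ev M fun ω => (modal P F X k (S ω) κ x : ℝ) := by
  set us : α → ℕ → ℕ → ℕ := fun ω i z =>
    if z = 0 then calm P F X k (S ω) κ x i else wild P F X κ x i with hus
  set w := wts 1 P.um 2 (F x + 1) (fun z => if z = 0 then P.pm else 1) (us default) k with hw
  have hcg : ∀ ω, wts 1 P.um 2 (F x + 1) (fun z => if z = 0 then P.pm else 1) (us ω) k = w := by
    intro ω
    refine wts_congr fun i' hi' => ?_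
    funext z
    simp only [hus]
    rw [calm_congr hi' (S ω) (S default)]
  have hpos : 0 < sumR 2 w :=
    sumR_pos (z := 1) (by norm_num) (wts_pos hum (Nat.succ_pos _) _ (by norm_num) k)
  refine Ev_wmean_ge (w := w) (u := fun ω z => us ω k z) hpos ?_ ?_
  · intro ω
    have h := hv_spec (gn := 1) (gd := P.um) (B := 2) (U := F x + 1)
      (w0 := fun z => if z = 0 then P.pm else 1) (us := us ω) (i := k) (by rw [hcg ω]; exact hpos)
    rw [hcg ω] at h
    exact h
  · intro z _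
    simp only [hus]
    by_cases h0 : z = 0
    · simp only [if_pos h0]
      exact calm_ge_Ev E hx hS
    · simp only [if_neg h0]
      rw [Ev_const hM]
      exact_mod_cast wild_ge E hx hF hX

/-- **SOUNDNESS OF THE BODY VALUE, in expectation over the spawned numbers** -/
theorem bodyNum_ge_Ev [Inhabited α] (E : Exact P.N Dm G) {leaf : St → Option ℕ} (hx : 0 < x.i)
    (hM : 0 < M) (hum : 0 < P.um) (hg : 0 < P.g) (hleaf : ∀ c, leaf x = some c → G x ≤ c)
    (hF : G x ≤ F x)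
    (hX : leaf x = none → adm P F κ x = true → ∀ i < k, ∀ q < P.N, ∀ a b,
      G (piece P κ x q a b) ≤ hull P F (X i) (piece P κ x q a b))
    (hS : leaf x = none → adm P F κ x = true → ∀ q < P.N, ∀ a b, (G (npiece P F κ x q a b) : ℝ) ≤
      t.Ev M fun ω => (numSt P F κ (S ω q) (npiece P F κ x q a b) : ℝ)) :
    (G x : ℝ) ≤ t.Ev M fun ω => (bodyNum P leaf F X k (S ω) κ x : ℝ) := by
  unfold bodyNum
  by_cases ha : adm P F κ x = false
  · simp only [if_pos ha]
    rw [Ev_const hM]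
    exact_mod_cast hF
  have ha' : adm P F κ x = true := by simpa using ha
  simp only [if_neg ha]
  cases hl : leaf x with
  | some c =>
    simp only
    rw [Ev_const hM]
    exact_mod_cast hleaf c hl
  | none =>
    simp only
    have hW := wild_ge E hx hF (hX hl ha')
    by_cases hr : R1 P F x ∨ ¬ regular P F κ x
    · simp only [if_pos hr]
      rw [Ev_const hM]
      exact_mod_cast hW
    · simp only [if_neg hr]
      have hm := modal_ge_Ev (M := M) (t := t) E hx hM hum hF (hX hl ha') (hS hl ha')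
      have h1 : (t.Ev M fun ω =>
          ((((P.g - 1) * modal P F X k (S ω) κ x + wild P F X κ x k : ℕ)) : ℝ)) ≤
          t.Ev M fun ω => (P.g : ℝ) *
            (cdiv ((P.g - 1) * modal P F X k (S ω) κ x + wild P F X κ x k) P.g : ℝ) :=
        Ev_mono fun ω => by exact_mod_cast le_mul_cdiv _ hg
      rw [Ev_mul_left, Ev_add_nat, Ev_const hM] at h1
      have h2 : (t.Ev M fun ω => (((P.g - 1) * modal P F X k (S ω) κ x : ℕ) : ℝ))
          = ((P.g - 1 : ℕ) : ℝ) * t.Ev M fun ω => (modal P F X k (S ω) κ x : ℝ) := by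
        rw [← Ev_mul_left]; congr 1; funext ω; push_cast; rfl
      rw [h2] at h1
      have h3 : ((P.g - 1 : ℕ) : ℝ) * G x + G x ≤
          ((P.g - 1 : ℕ) : ℝ) * (t.Ev M fun ω => (modal P F X k (S ω) κ x : ℝ))
            + (wild P F X κ x k : ℝ) :=
        add_le_add (mul_le_mul_of_nonneg_left hm (Nat.cast_nonneg _)) (by exact_mod_cast hW)
      have h4 : ((P.g - 1 : ℕ) : ℝ) * G x + G x = (P.g : ℝ) * G x := by
        have : ((P.g - 1 : ℕ) : ℝ) = (P.g : ℝ) - 1 := by
          rw [Nat.cast_sub hg]; simp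
        rw [this]; ring
      rw [h4] at h3
      exact le_of_mul_le_mul_left (h3.trans h1) (by exact_mod_cast hg)

end body

/-- pointwise form -/
theorem bodyNum_ge (E : Exact P.N Dm G) {leaf : St → Option ℕ} {F : St → ℕ} {X : ℕ → ℕ → St → ℕ}
    {k κ : ℕ} {x : St} {S : ℕ → ℕ → St → ℕ} (hx : 0 < x.i)
    (hum : 0 < P.um) (hg : 0 < P.g) (hleaf : ∀ c, leaf x = some c → G x ≤ c) (hF : G x ≤ F x)
    (hX : leaf x = none → adm P F κ x = true → ∀ i < k, ∀ q < P.N, ∀ a b,
      G (piece P κ x q a b) ≤ hull P F (X i) (piece P κ x q a b))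
    (hS : leaf x = none → adm P F κ x = true → ∀ q < P.N, ∀ a b, G (npiece P F κ x q a b) ≤
      numSt P F κ (S q) (npiece P F κ x q a b)) :
    G x ≤ bodyNum P leaf F X k S κ x := by
  have h := bodyNum_ge_Ev (α := Unit) (M := 1) (t := RT.ret ()) (S := fun _ => S) E hx one_pos hum
    hg hleaf hF hX (fun h1 h2 q hq a b => by simpa using hS h1 h2 q hq a b)
  simpa using h

/-- macro height `0` -/
theorem botNum_ge {leaf : St → Option ℕ} {F : St → ℕ} {κ : ℕ} {x : St} (hF : G x ≤ F x)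
    (hleaf : ∀ c, leaf x = some c → G x ≤ c) (h0 : leaf x = none → G x ≤ 1 + (x.v - x.u).natAbs) :
    G x ≤ botNum P leaf F κ x := by
  unfold botNum
  split_ifs
  · exact hF
  · cases hl : leaf x with
    | some c => exact hleaf c hl
    | none => exact h0 hl

end Crest.Agent.R288.Sound548
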