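import Crest.Agent.R288.ArrX_984
import Crest.Agent.R288.LaneM_540
import Crest.Agent.R288.Geo_105
import Crest.Agent.R288.AlgS_125
import Crest.Agent.R288.GSt_442

/-!
# R288, [SOUND] part A (helper829): the means of all tables are at least the exact cost

`G : St → ℕ` with `GSt442.Exact P.N P.Dm G`.
* `Env`: `G ≤ F`, `G ≤` leaf values, classes and grids, `FOk`.
* `AboveX f`: `G ≤ f κ z` at all pairs of the domain.
* `le_hull`, `le_wild`, `le_numR`.
* `body_low`, `arr_low` (arbitrary families below), **`lane_low : G z ≤ Ev (lanePair κ z)`**.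
-/

set_option autoImplicit false

namespace Crest.Agent.R288.Sound829

open Finset Crest.Agent.R295.Rnd627 Crest.Agent.R295.Rnd627.RT
open Crest.Agent.R288.Alg45 Crest.Agent.R288.Dom20 Crest.Agent.R288.GSt442
open Crest.Agent.R288.XB715 Crest.Agent.R288.AdmR944 Crest.Agent.R288.LaneM540
open Crest.Agent.R288.LawU944

variable {P : Par} {I K0 Λ : ℕ} {leaf : St → Option ℕ} {F G : St → ℕ}

/-- what soundness uses of the unit function -/
structure Env (P : Par) (I K0 Λ : ℕ) (leaf : St → Option ℕ) (F G : St → ℕ) : Prop where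
  ex : Exact P.N P.Dm G
  gd : GrdOK P (K0 + 1)
  r : 8 ≤ P.r
  pb : 10 ≤ P.pb
  g : 0 < P.g
  um : 0 < P.um
  cl : ∀ y, Dom P I y → cls F y + P.a2 ≤ K0
  GF : ∀ y, Dom P I y → G y ≤ F y
  le : ∀ y, Dom P I y → ∀ c, leaf y = some c → G y ≤ c
  l0 : ∀ y, Dom P I y → y.i = 0 → ∃ c, leaf y = some c
  fok : FOk leaf F (Dom P I) Λ

/-- the numbers of a rank are above the exact cost -/
def AboveX (P : Par) (I K0 : ℕ) (G : St → ℕ) (f : ℕ → St → ℕ) : Prop :=
  ∀ κ ≤ K0, ∀ z, Dom P I z → G z ≤ f κ z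

theorem Env.cl' (E : Env P I K0 Λ leaf F G) {y : St} (hy : Dom P I y) : cls F y ≤ K0 :=
  (Nat.le_add_right _ _).trans (E.cl y hy)

theorem Env.hat (E : Env P I K0 Λ leaf F G) {y : St} (hy : Dom P I y) :
    Dom P I (rdn P (cls F y) y) :=
  hy.rdn (E.gd _ ((E.cl' hy).trans (Nat.le_succ _)))

/-! ### hull, staircases -/

theorem le_hull (E : Env P I K0 Λ leaf F G) {f : ℕ → St → ℕ} (hf : AboveX P I K0 G f) {y : St}
    (hy : Dom P I y) : G y ≤ hull P F f y := by
  unfold hull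
  refine AlgS125.le_lmin (E.GF y hy) fun b hb => ?_
  obtain ⟨κ', hκ, hb⟩ := List.mem_flatMap.1 hb
  obtain ⟨z, hz, rfl⟩ := List.mem_map.1 hb
  have h1 := AlgS125.mem_rngC.1 hκ
  have h2 := menu_ij hz
  have h3 := hf κ' (h1.2.trans (E.cl y hy)) z (Dom.menu hy hz)
  have h4 := E.ex.lip y z h2.1.symm h2.2.symm
  omega

/-- the sum over a letter staircase is at least the cost of the state -/
theorem le_stair (hE : Exact P.N P.Dm G) {x : St} (hi : 1 ≤ x.i) (κ : ℕ) (c : ℕ → ℕ) :
    G x ≤ ∑ q ∈ range P.N, G (piece P κ x q (c q) (c (q + 1))) := by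
  have h1 : cut P κ x 0 (c 0) = x.u := by unfold cut; rw [if_pos rfl]
  have h2 : cut P κ x P.N (c P.N) = x.v := by
    unfold cut; rw [if_neg (N_pos P).ne', if_pos rfl]
  have h := hE.le_cuts (x := x) (i := x.i - 1) (by omega) (m := fun q => cut P κ x q (c q)) h1 h2
  exact h

theorem le_Vst (E : Env P I K0 Λ leaf F G) {f : St → ℕ} (hf : ∀ y, Dom P I y → G y ≤ f y)
    {x : St} (hx : Dom P I x) (hi : 1 ≤ x.i) (κ : ℕ) : G x ≤ Vst P κ x f := by
  obtain ⟨c, -, -, h⟩ := AlgS125.exists_Vst_letters P κ x f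
  rw [h]
  refine (le_stair E.ex hi κ c).trans (sum_le_sum fun q hq => hf _ ?_)
  exact Dom.piece hx (by have := E.r; omega) hi (mem_range.1 hq) κ _ _

theorem le_wild (E : Env P I K0 Λ leaf F G) {X : ℕ → ℕ → St → ℕ} {x : St} (hx : Dom P I x)
    (hi : 1 ≤ x.i) (κ : ℕ) {k : ℕ} (hX : ∀ i < k, AboveX P I K0 G (X i)) :
    G x ≤ wild P F X κ x k := by
  unfold wild
  induction k with
  | zero => exact E.GF x hx
  | succ k ih =>
    show G x ≤ min (Wm (F x) (fun i' => Vst P κ x (hull P F (X i'))) k)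
      (Vst P κ x (hull P F (X k)))
    refine le_min (ih fun i hi' => hX i (by omega)) ?_
    exact le_Vst E (fun y hy => le_hull E (hX k (Nat.lt_succ_self k)) hy) hx hi κ

/-! ### the end values -/

theorem le_numR (E : Env P I K0 Λ leaf F G) {f : ℕ → St → ℝ} {y : St} (hy : Dom P I y) (κ : ℕ)
    (hf : ∀ z, z.i = y.i → Dom P I z → adm P F (cls F y) z = true → (G z : ℝ) ≤ f (cls F y) z) :
    (G y : ℝ) ≤ numR P F κ f y := by
  unfold numR
  split_ifs with h
  · exact_mod_cast E.GF y hy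
  · have h1 := hf (rdn P (cls F y) y) rfl (E.hat hy) (adm_rdn E.fok E.pb hy (E.hat hy))
    have h2 : G y ≤ G (rdn P (cls F y) y) + Alg45.dist y (rdn P (cls F y) y) :=
      E.ex.lip _ _ rfl rfl
    have h3 : (G y : ℝ) ≤ G (rdn P (cls F y) y) + (Alg45.dist y (rdn P (cls F y) y) : ℕ) := by
      exact_mod_cast h2
    linarith

/-! ### tables -/

theorem inC_of {c : Cel} {y : St} (h : Cell488.InC P c y) : Cel734.InC P c y :=
  ⟨h.dom, h.hi, h.hj, h.gr.1, h.gr.2, h.u1, h.u2, h.v1, h.v2⟩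

section

variable {W : ℕ} (hW : 0 < W) (hd : 2 ^ P.dl ∣ W) (E : Env P I K0 Λ leaf F G)
  {X : ℕ → ℕ → St → ℕ} {k : ℕ} (hX : ∀ i < k, AboveX P I K0 G (X i))

include hW hd E hX

/-- **one window** : arbitrary family `sub` below -/
theorem body_low {sub : Cel → RT (List ℕ)} {κ : ℕ} {x : St} (hx : Dom P I x) (hi : 1 ≤ x.i)
    (hin : Cell488.InC P (celOf κ x) x)
    (hsub : ∀ κ' z, z.i + 1 = x.i → Dom P I z → adm P F κ' z = true →
      (G z : ℝ) ≤ RS P W sub κ' z) :
    (G x : ℝ) ≤ RS P W (fun c => bodyT P leaf F X k sub c) κ x := by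
  have hr : 1 ≤ P.r := by have := E.r; omega
  have hin' := inC_of hin
  have hgeo := Geo105.hgeo P hr (E.gd.mono P (Nat.le_succ K0)) hin' hx hi (F := F)
    (fun y hy => E.cl' hy)
  have h : (G x : ℝ) ≤ BM P W leaf F X k sub (celOf κ x) x := by
    refine le_body hW hd E.g E.um (fun f => Cell488.rdt_tabC P hin f)
      (fun q hq a ha b hb => (hgeo q hq a ha b hb).1) (by exact_mod_cast E.GF x hx)
      (fun v hv => by exact_mod_cast E.le x hx v hv)
      (by exact_mod_cast le_wild E hx hi κ hX) fun _ m hm => ?_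
    have h1 : (G x : ℝ) ≤ ∑ q ∈ range P.N, (G (npiece P F κ x q (m q) (m (q + 1))) : ℝ) := by
      have := le_stair E.ex hi κ fun q => near P F κ x q (m q)
      exact_mod_cast this
    refine h1.trans (sum_le_sum fun q hq => ?_)
    obtain ⟨-, h2, -⟩ := hgeo q (mem_range.1 hq) (m q) (hm q) (m (q + 1)) (hm (q + 1))
    refine le_numR E h2 κ fun z hz hDz ha => hsub _ z ?_ hDz ha
    have h3 : (npiece P F κ x q (m q) (m (q + 1))).i = x.i - 1 := rfl
    have h4 : z.i = x.i - 1 := hz.trans h3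
    omega
  exact h

/-- **one jump** : the family is a family of body tables -/
theorem arr_low {sub : Cel → RT (List ℕ)} {κ : ℕ} {y : St} (hy : Dom P I y) (hi : 1 ≤ y.i)
    (ha : adm P F κ y = true)
    (hsub : ∀ κ' z, z.i + 1 = y.i → Dom P I z → adm P F κ' z = true →
      (G z : ℝ) ≤ RS P W sub κ' z) :
    (G y : ℝ) ≤ RS P W (fun c => arrOf P F (fun c => bodyT P leaf F X k sub c) c) κ y := by
  have hD : ArrX984.GD P (κ + P.a2) := by
    intro κ' hκ'
    have h1 := (adm_iff.1 ha).2.2.1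
    have h2 := E.cl y hy
    exact Int.natCast_dvd_natCast.2 (E.gd κ' (by omega))
  refine ArrX984.law_low (Dom.inD P hy) ha hW (ArrX984.isTab_bodyT W leaf F X k sub) hD _
    (by exact_mod_cast E.GF y hy) fun κ' z hz => ?_
  obtain ⟨h1, h2, h3, -, -, -⟩ := hz
  have hDz : Dom P I z := by
    obtain ⟨a1, a2, -, -⟩ := hy
    have h4 := h3.dom
    refine ⟨by rw [h1]; exact a1, by rw [h1, h2]; exact a2, ?_, ?_⟩
    · have := h4.1; omega
    · have := h4.2; omega
  have h5 := body_low hW hd E hX (sub := sub) (κ := κ') hDz (by omega) h3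
    fun κ'' z' hz' => hsub κ'' z' (by omega)
  have h6 : G y ≤ G z + Alg45.dist y z := E.ex.lip _ _ h1.symm h2.symm
  have h7 : (G y : ℝ) ≤ G z + (Alg45.dist y z : ℕ) := by exact_mod_cast h6
  linarith

/-- all macro heights -/
theorem arrT_low (i : ℕ) : ∀ κ z, z.i = i → Dom P I z → adm P F κ z = true →
    (G z : ℝ) ≤ RS P W (fun c => arrT P leaf F X k i c) κ z := by
  induction i with
  | zero =>
    intro κ z hz hDz ha
    have e : ms P W (fun c => arrT P leaf F X k 0 c) κ z =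
        ((botNum P leaf F κ z : ℝ), (botNum P leaf F κ z : ℝ) ^ 2) :=
      ms_ret (f := fun c => botNum P leaf F c.κ) (Dom.inD P hDz) ha
    have e1 : RS P W (fun c => arrT P leaf F X k 0 c) κ z = (botNum P leaf F κ z : ℝ) :=
      congrArg Prod.fst e
    rw [e1]
    obtain ⟨c, hc⟩ := E.l0 z hDz hz
    have h1 := E.le z hDz c hc
    unfold botNum
    rw [if_neg (by simp [ha]), hc]
    exact_mod_cast h1
  | succ i ih =>
    intro κ z hz hDz ha
    exact arr_low hW hd E hX hDz (by omega) ha fun κ' z' hz' => ih κ' z' (by omega)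

/-- **every lane** -/
theorem lane_low {κ : ℕ} {z : St} (hz : Dom P I z) (ha : adm P F κ z = true) :
    (G z : ℝ) ≤ (lanePair P leaf F X k κ z).Ev W fun a => (a : ℝ) := by
  have h := arrT_low hW hd E hX z.i κ z rfl hz ha
  unfold lanePair
  simp only [Ev_bind, Ev_ret]
  exact h

end

end Crest.Agent.R288.Sound829
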