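import Crest.Agent.R288.SoundA_468
import Crest.Agent.R288.ProbB_829

/-!
# R288, ANA.N1 (A4) SOUND, part B (helper468): all numbers of a good history are sound

`C : Asm331.Cfg` arbitrary, `G` = exact cost. `GX C Λ X` = the history `X` is good below the index `Λ`
(829); `C.Good X` = good below `E K + 1`.

* `ND` : the hypotheses on the configuration (`SH` + `0 < K` + INIT is sound and has small classes);
* `clsOK` : `ClsOK C (FE C.P X e)`;
* **`sound`** : `G y ≤ FE C.P X e y` (`1 + e K ≤ Λ`) and `G z ≤ X (idx e k) (κ, z)` (`idx e k < Λ`);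
* `FE_sound`, `X_sound`, `Rk_sound`, `R_sound` : the same for `C.Good X`, with the exact means
  (`Rk` of `GoodI_829`, `Cfg.R` of `AsmC_331`), at all admissible pairs of the domain.
-/

set_option autoImplicit false

namespace Crest.Agent.R288.Sound468

open Finset Crest.Agent.R295.Rnd627 Crest.Agent.R295.Rnd627.RT Crest.Agent.R288.Alg45
  Crest.Agent.R288.XB715 Crest.Agent.R288.Dom20 Crest.Agent.R288.GSt442
  Crest.Agent.R288.Asm331 Crest.Agent.R288.Good829 Crest.Agent.R288.ProbB829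
  Crest.Agent.R288.Tape829

/-- the hypotheses of SOUND on a configuration -/
structure ND (C : Cfg) (G : St → ℕ) : Prop where
  sh : SH C.P (2 ^ C.W) C.I C.K0 C.leaf G
  K_pos : 0 < C.P.K
  init_ge : ∀ y, Dom C.P C.I y → ∀ b, C.GU y b → G y ≤ b
  init_cl : ∀ y, Dom C.P C.I y → ∀ b, C.GU y b → Nat.log 2 b + C.P.a2 ≤ C.K0

variable {C : Cfg} {G : St → ℕ} {X : ℕ → ℕ × St → ℕ} {Λ : ℕ}

theorem init_good (h : GX C Λ X) {y : St} (hy : Dom C.P C.I y) : C.GU y (X 0 (0, y)) :=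
  h.init (0, y) (ProbB829.mem_Om.2 ⟨Nat.zero_le _, hy⟩)

/-- the classes of all unit functions are small -/
theorem clsOK (hN : ND C G) (h : GX C Λ X) (e : ℕ) : ClsOK C (FE C.P X e) := by
  intro y hy
  have h1 := hN.init_cl y hy _ (init_good h hy)
  have h2 : Nat.log 2 (FE C.P X e y) ≤ Nat.log 2 (X 0 (0, y)) :=
    Nat.log_mono_right (FE_le_init (P := C.P) X e y)
  unfold cls
  omega

theorem le_Xbar {P : Par} (hK : 0 < P.K) {Y : ℕ → ℕ → St → ℕ} {κ g : ℕ} {z : St}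
    (h : ∀ i < P.K, g ≤ Y i κ z) : g ≤ Xbar P Y κ z := by
  have h1 : P.K * g ≤ sumR P.K fun i => Y i κ z := by
    rw [HullB407.sumR_eq]
    calc P.K * g = ∑ _i ∈ range P.K, g := by rw [sum_const, card_range, smul_eq_mul]
      _ ≤ _ := sum_le_sum fun i hi => h i (mem_range.1 hi)
  unfold Xbar cdiv
  rw [Nat.le_div_iff_mul_le hK]
  rw [Nat.mul_comm g]
  omega

/-- the unit function of epoch `0` -/
theorem FE_zero_sound (hN : ND C G) (h : GX C Λ X) {y : St} (hy : Dom C.P C.I y) :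
    G y ≤ FE C.P X 0 y := by
  obtain ⟨D, E⟩ := hN.sh.ex
  have h0 : ∀ z, Dom C.P C.I z → G z ≤ X 0 (0, z) := fun z hz =>
    hN.init_ge z hz _ (init_good h hz)
  exact le_hullG (F := fun z => X 0 (0, z)) E.lip hy (h0 y hy) fun _ _ z hz => h0 z hz

/-- the next unit function -/
theorem FE_succ_sound (hN : ND C G) (h : GX C Λ X) {e : ℕ}
    (hF : ∀ y, Dom C.P C.I y → G y ≤ FE C.P X e y)
    (hX : ∀ k < C.P.K, ∀ κ ≤ C.K0, ∀ z, Dom C.P C.I z → G z ≤ X (idx C.P e k) (κ, z)) {y : St}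
    (hy : Dom C.P C.I y) : G y ≤ FE C.P X (e + 1) y := by
  obtain ⟨D, E⟩ := hN.sh.ex
  rw [Good829.FE_succ]
  refine le_hullG (F := FE C.P X e) E.lip hy (hF y hy) fun κ' hκ' z hz =>
    le_Xbar hN.K_pos fun i hi => hX i hi κ' ?_ z hz
  have := clsOK hN h e y hy
  omega

/-- the exact mean of a lane of rank `k` of epoch `e` -/
theorem Rk_low (hN : ND C G) (h : GX C Λ X) {e k : ℕ}
    (hF : ∀ y, Dom C.P C.I y → G y ≤ FE C.P X e y)
    (hX : ∀ i < k, ∀ κ ≤ C.K0, ∀ z, Dom C.P C.I z → G z ≤ X (idx C.P e i) (κ, z)) {κ : ℕ}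
    {z : St} (hz : Dom C.P C.I z) (hc : Cell488.InC C.P (celOf κ z) z) :
    (G z : ℝ) ≤ Rk C.P C.leaf (2 ^ C.W) X e k κ z :=
  lane_low hN.sh ⟨hF, clsOK hN h e⟩ hX hz hc

/-- the numbers of epoch `e` -/
theorem X_epoch (hN : ND C G) (h : GX C Λ X) {e : ℕ}
    (hF : ∀ y, Dom C.P C.I y → G y ≤ FE C.P X e y) (k : ℕ) :
    k < C.P.K → idx C.P e k < Λ → ∀ κ ≤ C.K0, ∀ z, Dom C.P C.I z →
      G z ≤ X (idx C.P e k) (κ, z) := by
  induction k using Nat.strong_induction_on with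
  | _ k ih =>
    intro hk hΛ κ hκ z hz
    have hs : (κ, z) ∈ C.Om (idx C.P e k) := ProbB829.mem_Om.2 ⟨hκ, hz⟩
    cases ha : adm C.P (FE C.P X e) κ z with
    | false => rw [h.bad e k hk hΛ κ z hs ha]; exact hF z hz
    | true =>
      have h1 := h.low e k hk hΛ κ z hs ha
      have h2 : (G z : ℝ) ≤ Rk C.P C.leaf (2 ^ C.W) X e k κ z := by
        refine Rk_low hN h hF (fun i hi κ' hκ' z' hz' => ih i hi (by omega) ?_ κ' hκ' z' hz') hz
          (LawV944.inC_of_adm hz ha)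
        unfold idx at hΛ ⊢
        omega
      exact_mod_cast h2.trans h1

/-- **SOUND**: everything below the index `Λ` is at least the exact cost -/
theorem sound (hN : ND C G) (h : GX C Λ X) (e : ℕ) (he : 1 + e * C.P.K ≤ Λ) :
    (∀ y, Dom C.P C.I y → G y ≤ FE C.P X e y) ∧
    (∀ k < C.P.K, idx C.P e k < Λ → ∀ κ ≤ C.K0, ∀ z, Dom C.P C.I z →
      G z ≤ X (idx C.P e k) (κ, z)) := by
  have key : ∀ e, 1 + e * C.P.K ≤ Λ → ∀ y, Dom C.P C.I y → G y ≤ FE C.P X e y := by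
    intro e
    induction e with
    | zero => exact fun _ y hy => FE_zero_sound hN h hy
    | succ e ih =>
      intro he y hy
      have h1 : 1 + e * C.P.K ≤ Λ := by rw [Nat.succ_mul] at he; omega
      have h2 := ih h1
      refine FE_succ_sound hN h h2 (fun k hk κ hκ z hz => X_epoch hN h h2 k hk ?_ κ hκ z hz) hy
      rw [Nat.succ_mul] at he
      unfold idx
      omega
  exact ⟨key e he, fun k hk hΛ => X_epoch hN h (key e he) k hk hΛ⟩

/-- the exact means below the index `Λ` -/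
theorem Rk_sound_GX (hN : ND C G) (h : GX C Λ X) {e k : ℕ} (hk : k < C.P.K)
    (hΛ : idx C.P e k ≤ Λ) {κ : ℕ} {z : St} (hz : Dom C.P C.I z)
    (ha : adm C.P (FE C.P X e) κ z = true) : (G z : ℝ) ≤ Rk C.P C.leaf (2 ^ C.W) X e k κ z := by
  have h1 := sound hN h e (by unfold idx at hΛ; omega)
  refine Rk_low hN h h1.1 (fun i hi κ' hκ' z' hz' => h1.2 i (by omega) ?_ κ' hκ' z' hz') hz
    (LawV944.inC_of_adm hz ha)
  unfold idx at hΛ ⊢
  omega

/-! ### good histories -/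

/-- **`G ≤ F_e` on the domain** -/
theorem FE_sound (hN : ND C G) (h : C.Good X) {e : ℕ} (he : e ≤ C.P.E) {y : St}
    (hy : Dom C.P C.I y) : G y ≤ FE C.P X e y :=
  (sound hN (good_GX h) e (by have := Nat.mul_le_mul_right C.P.K he; omega)).1 y hy

theorem clsOK_good (hN : ND C G) (h : C.Good X) (e : ℕ) : ClsOK C (FE C.P X e) :=
  clsOK hN (good_GX h) e

/-- **`G ≤ X` at all pairs of the domain** -/
theorem X_sound (hN : ND C G) (h : C.Good X) {e k κ : ℕ} (he : e < C.P.E) (hk : k < C.P.K)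
    (hκ : κ ≤ C.K0) {z : St} (hz : Dom C.P C.I z) : G z ≤ X (idx C.P e k) (κ, z) :=
  (sound hN (good_GX h) e (by have := Nat.mul_le_mul_right C.P.K he.le; omega)).2 k hk
    (Asm331.idx_lt he hk) κ hκ z hz

/-- **`G ≤ R` at all admissible pairs of the domain**, `R` = exact mean (form of `GoodI_829`) -/
theorem Rk_sound (hN : ND C G) (h : C.Good X) {e k κ : ℕ} (he : e < C.P.E) (hk : k < C.P.K)
    {z : St} (hz : Dom C.P C.I z) (ha : adm C.P (FE C.P X e) κ z = true) :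
    (G z : ℝ) ≤ Rk C.P C.leaf (2 ^ C.W) X e k κ z :=
  Rk_sound_GX hN (good_GX h) hk (Asm331.idx_lt he hk).le hz ha

/-- the two forms of the exact mean agree -/
theorem R_eq_Rk {e k κ : ℕ} {z : St} :
    C.R X e k κ z = Rk C.P C.leaf (2 ^ C.W) X e k κ z := by
  unfold Cfg.R Rk
  rw [lanePair_congr C.P (fun i hi => Xe_lo hi) κ z]
  rfl

/-- **`G ≤ R`**, form of `AsmC_331` -/
theorem R_sound (hN : ND C G) (h : C.Good X) {e k κ : ℕ} (he : e < C.P.E) (hk : k < C.P.K)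
    {z : St} (hz : Dom C.P C.I z) (ha : adm C.P (FE C.P X e) κ z = true) :
    (G z : ℝ) ≤ C.R X e k κ z := by
  rw [R_eq_Rk]
  exact Rk_sound hN h he hk hz ha

/-- the mean of a lane of rank `k` at every grid pair in its cell, admissible or not -/
theorem R_sound' (hN : ND C G) (h : C.Good X) {e k κ : ℕ} (he : e < C.P.E) (hk : k < C.P.K)
    {z : St} (hz : Dom C.P C.I z) (hc : Cell488.InC C.P (celOf κ z) z) :
    (G z : ℝ) ≤ C.R X e k κ z := by
  rw [R_eq_Rk]
  exact Rk_low hN (good_GX h) (fun y hy => FE_sound hN h he.le hy)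
    (fun i hi κ' hκ' z' hz' => X_sound hN h he (by omega) hκ' hz') hz hc

end Crest.Agent.R288.Sound468
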