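import Crest.Agent.R288.SoundA_548
import Crest.Agent.R288.ArrW_984
import Crest.Agent.R288.Geo_105
import Crest.Agent.R288.XB_715

/-!
# R288 [SOUND], part B (helper548): the random part of ALG-U is above the exact cost IN THE MEAN

`G : St → ℕ` with `GSt442.Exact P.N D' G`; `Dom P I` = domain (20); classes `≤ K0` have steps which divide `Dm`.

* `SOk P I K0 G leaf F X k` : what is known about the numbers which are read (F, leaf, ranks `i < k`);
* **`body_ge`** : entries of `bodyT` for an arbitrary family `sub` with `G ≤ RS` at the pairs of the domain;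
* **`arr_ge`** : pairs of `arrOf` for an arbitrary family `body` with `G ≤` mean of every entry of the cells which
  meet the domain;
* **`arrT_ge`** (recursion on the macro height), `bdy_ge`, **`lane_ge`** : `G z ≤ Ev (lanePair .. κ z)`.
-/

set_option autoImplicit false

namespace Crest.Agent.R288.SoundB548

open Finset Crest.Agent.R295.Rnd627 Crest.Agent.R295.Rnd627.RT
open Crest.Agent.R288.Alg45 Crest.Agent.R288.GSt442 Crest.Agent.R288.Dom20 Crest.Agent.R288.Cel734
open Crest.Agent.R288.XB715 Crest.Agent.R288.Geo105 Crest.Agent.R288.ArrV984 Crest.Agent.R288.ArrW984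
open Crest.Agent.R288.ArrB147 (mnu jks zof kof)
open Crest.Agent.R288.Sound548

/-- what soundness needs of the numbers which are read by rank `k` -/
structure SOk (P : Par) (I K0 : ℕ) (G : St → ℕ) (leaf : St → Option ℕ) (F : St → ℕ)
    (X : ℕ → ℕ → St → ℕ) (k : ℕ) : Prop where
  F_ge : ∀ y, Dom P I y → G y ≤ F y
  cls_le : ∀ y, Dom P I y → cls F y + P.a2 ≤ K0
  leaf_ge : ∀ y, Dom P I y → ∀ c, leaf y = some c → G y ≤ c
  bot : ∀ y, Dom P I y → y.i = 0 → leaf y = none → G y ≤ 1 + (y.v - y.u).natAbs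
  X_ge : ∀ i < k, ∀ κ ≤ K0, ∀ z, Dom P I z → G z ≤ X i κ z

variable {P : Par} {I K0 D' W : ℕ} {G : St → ℕ} {leaf : St → Option ℕ} {F : St → ℕ}
  {X : ℕ → ℕ → St → ℕ} {k : ℕ}

theorem SOk.coer (h : SOk P I K0 G leaf F X k) (E : Exact P.N D' G) {y : St} (hy : Dom P I y) :
    (y.v - y.u).natAbs ≤ F y := (E.ge y).trans (h.F_ge y hy)

theorem SOk.adm_le (h : SOk P I K0 G leaf F X k) (ha2 : 1 ≤ P.a2) {κ : ℕ} {y : St}
    (hy : Dom P I y) (ha : adm P F κ y = true) : κ ≤ K0 := by
  have h1 := ((adm_iff P).1 ha).2.2.1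
  have h2 := h.cls_le y hy
  omega

/-- the hull numbers of the lower ranks -/
theorem SOk.hull_ge (h : SOk P I K0 G leaf F X k) (E : Exact P.N D' G) {i : ℕ} (hi : i < k) {y : St}
    (hy : Dom P I y) : G y ≤ hull P F (X i) y := by
  refine Sound548.hull_ge E (h.F_ge y hy) fun κ' hκ z hz => ?_
  have h1 : κ' ≤ cls F y + P.a2 := by
    unfold rngC at hκ
    simp only [List.mem_map, List.mem_range] at hκ
    obtain ⟨t, ht, rfl⟩ := hκ
    omega
  exact h.X_ge i hi κ' (h1.trans (h.cls_le y hy)) z (hy.menu hz)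

/-! ## The body -/

/-- the end number of a state, real form -/
theorem numR_ge (h : SOk P I K0 G leaf F X k) (E : Exact P.N D' G) (hg : GrdOK P K0)
    {sub : Cel → RT (List ℕ)} {κ : ℕ} {y : St} (hy : Dom P I y)
    (hsub : ∀ κ' ≤ K0, ∀ z, Dom P I z → z.i = y.i → InC P (celOf κ' z) z →
      (G z : ℝ) ≤ RS P W sub κ' z) :
    (G y : ℝ) ≤ numR P F κ (RS P W sub) y := by
  unfold numR
  have hc : cls F y ≤ K0 := (Nat.le_add_right _ _).trans (h.cls_le y hy)
  split_ifs
  · exact_mod_cast h.F_ge y hy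
  · have hgd := hg _ hc
    have h1 := hsub (cls F y) hc (rdn P (cls F y) y) (hy.rdn hgd) rfl
      (inC_own P F hgd hy.inD (h.coer E hy))
    have h2 : G y ≤ G (rdn P (cls F y) y) + Alg45.dist y (rdn P (cls F y) y) := E.lip _ _ rfl rfl
    have h3 : (G y : ℝ) ≤ G (rdn P (cls F y) y) + Alg45.dist y (rdn P (cls F y) y) := by
      exact_mod_cast h2
    linarith

/-- **the body table** of a cell which meets the domain -/
theorem body_ge (h : SOk P I K0 G leaf F X k) (E : Exact P.N D' G) (hg : GrdOK P K0) (hW : 0 < W)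
    (hd : 2 ^ P.dl ∣ W) (hum : 0 < P.um) (hgg : 0 < P.g) (hr : 1 ≤ P.r) (ha2 : 1 ≤ P.a2)
    {sub : Cel → RT (List ℕ)} {c : Cel}
    (hsub : ∀ κ' ≤ K0, ∀ z, Dom P I z → z.i + 1 = c.i → InC P (celOf κ' z) z →
      (G z : ℝ) ≤ RS P W sub κ' z)
    (hm : Meets P c.κ c.m) (h1 : c.i ≤ I) (h2 : c.j < P.N ^ (I - c.i)) (hi : 0 < c.i) {t : ℕ}
    (ht : t < csz P c.κ) :
    (G (cst P c t) : ℝ) ≤ emn W (bodyT P leaf F X k sub c) t := by
  have hy : Dom P I (cst P c t) := Dom.cst h1 h2 t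
  have hev : emn W (bodyT P leaf F X k sub c) t = (win P c sub).Ev W fun x =>
      ((bodyNum P leaf F X k (spF P c.κ x.2) c.κ (cst P c t) : ℕ) : ℝ) := by
    unfold emn
    rw [bodyT_eq, Ev_map]
    congr 1
    funext x
    rw [getD_tabC P ht]
  rw [hev]
  refine bodyNum_ge_Ev (S := fun x : List ℕ × (Key → Option (List ℕ)) => spF P c.κ x.2) E hi hW hum
    hgg (h.leaf_ge _ hy) (h.F_ge _ hy) ?_ ?_
  · intro _ _ i hik q hq a b
    exact h.hull_ge E hik (hy.piece hr hi hq c.κ a b)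
  · intro _ ha q hq a b
    have hκ := h.adm_le ha2 hy ha
    have hC := cst_inC_of_meets P (hg _ hκ) hm ht
    have hyp : Dom P I (npiece P F c.κ (cst P c t) q a b) := hy.npiece hr hi hq F c.κ a b
    refine le_trans ?_ (le_Ev_XF hW hd hq (endOk_npiece P hr hC F hq a b))
    refine numR_ge h E hg hyp fun κ' hκ' z hz hzi hzC => hsub κ' hκ' z hz ?_ hzC
    rw [hzi]
    show c.i - 1 + 1 = c.i
    omega

/-! ## The jump -/

/-- **the arrival table** -/
theorem arr_ge (h : SOk P I K0 G leaf F X k) (E : Exact P.N D' G) (hW : 0 < W)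
    {body : Cel → RT (List ℕ)} {κ : ℕ} {y : St} (hy : Dom P I y) (hC : InC P (celOf κ y) y)
    (hbody : ∀ c : Cel, c.i = y.i → c.j = y.j → Meets P c.κ c.m → ∀ t < csz P c.κ,
      (G (cst P c t) : ℝ) ≤ emn W (body c) t) :
    (G y : ℝ) ≤ RS P W (fun c => arrOf P F body c) κ y := by
  set c := celOf κ y with hc
  have hac : (c.κ, c.m) ∈ acells P c.κ c.m := self_mem_acells P hC.meets
  have ht := cidx_lt P hC
  have hcst := cst_cidx P hC
  have hRS : RS P W (fun c => arrOf P F body c) κ y =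
      aev P W F body c (cidx P c y) (fun a => (a : ℝ)) := rfl
  rw [hRS]
  have hF : G y ≤ F y := h.F_ge y hy
  cases ha : adm P F c.κ (cst P c (cidx P c y)) with
  | false =>
    have h1 := arr_nadm (P := P) (W := W) (F := F) (body := body) hac ht ha
    unfold aev
    rw [Ev_congr_all (h1.mono fun T hT => by rw [hT] :
      (arrOf P F body c).All W fun T => ((T.getD (cidx P c y) 0 : ℕ) : ℝ) =
        (F (cst P c (cidx P c y)) : ℝ)), Ev_const hW, hcst]
    exact_mod_cast hF
  | true =>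
    refine arr_low hac ht ha hW _ (by rw [hcst]; exact_mod_cast hF) fun x hx => ?_
    have hx1 := ((ArrB147.mem_mnu P).1 hx).1
    obtain ⟨hx2, hx3⟩ := (ArrB147.mem_jks P).1 hx1
    obtain ⟨-, -, -, -, hx4⟩ := acell_spec P c hx2
    have hb := hbody (acell P c x.1) rfl rfl hx4 x.2 hx3
    have h2 : G y ≤ G (zof P c x) + Alg45.dist y (zof P c x) := E.lip _ _ rfl rfl
    have h3 : (G y : ℝ) ≤ G (zof P c x) + Alg45.dist y (zof P c x) := by exact_mod_cast h2
    have h4 : (jdst P c (cidx P c y) x : ℝ) = Alg45.dist y (zof P c x) := by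
      unfold jdst
      rw [hcst]
      rfl
    have h5 : jmn P W body c x = emn W (body (acell P c x.1)) x.2 := rfl
    have h6 : (G (zof P c x) : ℝ) ≤ emn W (body (acell P c x.1)) x.2 := hb
    rw [h4, h5]
    linarith

/-! ## All macro heights -/

section rec

variable (h : SOk P I K0 G leaf F X k) (E : Exact P.N D' G) (hg : GrdOK P K0) (hW : 0 < W)
  (hd : 2 ^ P.dl ∣ W) (hum : 0 < P.um) (hgg : 0 < P.g) (hr : 1 ≤ P.r) (ha2 : 1 ≤ P.a2)

include h E hg hW hd hum hgg hr ha2

theorem arrT_ge (i : ℕ) : ∀ κ ≤ K0, ∀ z, Dom P I z → z.i = i → InC P (celOf κ z) z →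
    (G z : ℝ) ≤ RS P W (fun c => arrT P leaf F X k i c) κ z := by
  induction i with
  | zero =>
    intro κ hκ z hz hi hC
    have h1 : RS P W (fun c => arrT P leaf F X k 0 c) κ z = (botNum P leaf F κ z : ℝ) := by
      show ((rdt P (celOf κ z) (tabC P (celOf κ z) fun y => botNum P leaf F κ y) z : ℕ) : ℝ) = _
      rw [rdt_tabC P hC]
    rw [h1]
    exact_mod_cast botNum_ge (h.F_ge z hz) (h.leaf_ge z hz) (h.bot z hz hi)
  | succ i ih =>
    intro κ hκ z hz hi hC
    refine arr_ge (body := fun c' => bodyT P leaf F X k (fun c'' => arrT P leaf F X k i c'') c')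
      h E hW hz hC fun c hci hcj hm t ht => ?_
    refine body_ge h E hg hW hd hum hgg hr ha2 (fun κ' hκ' z' hz' hi' hC' => ?_) hm ?_ ?_ ?_ ht
    · exact ih κ' hκ' z' hz' (by omega) hC'
    · rw [hci]; exact hz.i_le
    · rw [hci, hcj]; exact hz.2.1
    · omega

/-- **SOUNDNESS OF A LANE** -/
theorem lane_ge {κ : ℕ} (hκ : κ ≤ K0) {z : St} (hz : Dom P I z) (hC : InC P (celOf κ z) z) :
    (G z : ℝ) ≤ (lanePair P leaf F X k κ z).Ev W fun a : ℕ => (a : ℝ) := by
  have h1 := arrT_ge h E hg hW hd hum hgg hr ha2 z.i κ hκ z hz rfl hC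
  unfold lanePair
  simp only [Ev_bind, Ev_ret]
  exact h1

/-- **SOUNDNESS OF A LANE at an admissible pair** -/
theorem lane_ge_adm {κ : ℕ} {z : St} (hz : Dom P I z) (ha : adm P F κ z = true) :
    (G z : ℝ) ≤ (lanePair P leaf F X k κ z).Ev W fun a : ℕ => (a : ℝ) :=
  lane_ge h E hg hW hd hum hgg hr ha2 (h.adm_le ha2 hz ha) hz (adm_inC P hz.inD ha)

/-- soundness of the body entries called by the arrival tables of macro height `i + 1` -/
theorem bdy_ge (i : ℕ) {c : Cel} (hi : c.i = i + 1) (hm : Meets P c.κ c.m) (h1 : c.i ≤ I)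
    (h2 : c.j < P.N ^ (I - c.i)) {t : ℕ} (ht : t < csz P c.κ) :
    (G (cst P c t) : ℝ) ≤
      emn W (bodyT P leaf F X k (fun c'' => arrT P leaf F X k i c'') c) t := by
  refine body_ge h E hg hW hd hum hgg hr ha2 (fun κ' hκ' z' hz' hi' hC' => ?_) hm h1 h2 (by omega) ht
  exact arrT_ge h E hg hW hd hum hgg hr ha2 i κ' hκ' z' hz' (by omega) hC'

end rec

end Crest.Agent.R288.SoundB548
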