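import Crest.Agent.R288.SoundA_548
import Crest.Agent.R288.Geo_105
import Crest.Agent.R288.PgA_172

/-!
# R288 [SOUND] (helper715): the BODY step in the random program (ALG v2.2)

`GeAt P W G I K0 i sub` = at every pair `(κ', z)` of the domain, `z.i = i`, `κ' ≤ K0`, which lies in its
own cell, the mean number of the family `sub` is at least the exact cost `G z`.

* `win_ge`  : one state of one cell: `G x ≤ Ev (bodyNum ..)` over the window of the cell.
* `body_ge` : `GeAt .. i sub → GeAt .. (i+1) (bodyT .. sub)`.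
-/

set_option autoImplicit false

namespace Crest.Agent.R288.SoundB715

open Finset Crest.Agent.R295.Rnd627 Crest.Agent.R295.Rnd627.RT
open Crest.Agent.R288.Alg45 Crest.Agent.R288.XB715 Crest.Agent.R288.GSt442

/-- the means of the family `sub` at macro height `i` are above the exact cost -/
def GeAt (P : Par) (W : ℕ) (G : St → ℕ) (I K0 i : ℕ) (sub : Cel → RT (List ℕ)) : Prop :=
  ∀ κ' ≤ K0, ∀ z, z.i = i → Dom20.Dom P I z → Cel734.InC P (celOf κ' z) z →
    (G z : ℝ) ≤ RS P W sub κ' z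

variable {P : Par} {D I K0 W k : ℕ} {G : St → ℕ} {leaf : St → Option ℕ} {F : St → ℕ}
  {X : ℕ → ℕ → St → ℕ} {sub : Cel → RT (List ℕ)}

/-- the end value of a piece of the window, in the mean -/
theorem end_ge (E : Exact P.N D G) (hG : Dom20.GrdOK P K0) {F : St → ℕ} {c : Cel} {q : ℕ} {y : St}
    (hy : Dom20.Dom P I y) (h : EndOk P F c q y) (hF : G y ≤ F y) (hc : cls F y ≤ K0)
    (hsub : GeAt P W G I K0 (c.i - 1) sub) : (G y : ℝ) ≤ numR P F c.κ (RS P W sub) y := by
  unfold numR
  split_ifs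
  · exact_mod_cast hF
  · have hC := Geo105.inC_own P F (y := y) (hG _ hc) (hy.inD) ((E.ge y).trans hF)
    have h1 := hsub (cls F y) hc (rdn P (cls F y) y) h.hi (hy.rdn (hG _ hc)) hC
    have h2 := E.lip y (rdn P (cls F y) y) rfl rfl
    have h3 : (G y : ℝ) ≤ G (rdn P (cls F y) y) + Alg45.dist y (rdn P (cls F y) y) := by
      exact_mod_cast h2
    linarith

/-- **one state of a cell** -/
theorem win_ge (E : Exact P.N D G) (hW : 0 < W) (hd : 2 ^ P.dl ∣ W) (hr : 1 ≤ P.r)
    (hum : 0 < P.um) (hg : 0 < P.g) (hG : Dom20.GrdOK P K0)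
    (hcls : ∀ y, Dom20.Dom P I y → cls F y + P.a2 ≤ K0)
    (hF : ∀ y, Dom20.Dom P I y → G y ≤ F y)
    (hX : ∀ i < k, ∀ κ' ≤ K0, ∀ z, Dom20.Dom P I z → G z ≤ X i κ' z)
    {c : Cel} {x : St} (hx : Cel734.InC P c x) (hD : Dom20.Dom P I x) (hi : 1 ≤ x.i)
    (hleaf : ∀ a, leaf x = some a → G x ≤ a) (hsub : GeAt P W G I K0 (c.i - 1) sub) :
    (G x : ℝ) ≤ (win P c sub).Ev W fun ω =>
      (bodyNum P leaf F X k (spF P c.κ ω.2) c.κ x : ℝ) := by
  set F' : St → ℕ := fun y => max (F y) (G y) with hF'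
  set X' : ℕ → ℕ → St → ℕ := fun i κ' z => max (X i κ' z) (G z) with hX'
  set S' : List ℕ × (Key → Option (List ℕ)) → ℕ → ℕ → St → ℕ := fun ω q κ' z =>
    if q < P.N then spF P c.κ ω.2 q κ' z else G z with hS'
  have hFF : ∀ y, Dom20.Dom P I y → F y = F' y := fun y hy => (max_eq_left (hF y hy)).symm
  have hpc : ∀ y ∈ PgA172.pcs P c.κ x, Dom20.Dom P I y := by
    intro y hy
    unfold PgA172.pcs at hy
    simp only [List.mem_flatMap, List.mem_map, List.mem_range] at hy
    obtain ⟨q, hq, a, -, b, -, rfl⟩ := hy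
    exact hD.piece hr hi hq _ _ _
  have hgd : ∀ y, Dom20.Dom P I y → gst P (cls F y) ∣ P.Dm := fun y hy =>
    hG _ (by have := hcls y hy; omega)
  have e : ∀ ω : List ℕ × (Key → Option (List ℕ)),
      bodyNum P leaf F X k (spF P c.κ ω.2) c.κ x = bodyNum P leaf F' X' k (S' ω) c.κ x := by
    intro ω
    refine PgA172.bodyNum_congr P rfl ?_ ?_ ?_
    · intro y hy
      rcases List.mem_cons.1 hy with rfl | hy
      · exact hFF _ hD
      · exact hFF _ (hpc y hy)
    · intro i hi' p hp
      refine (max_eq_left ?_).symm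
      unfold PgA172.wpr at hp
      rw [List.mem_flatMap] at hp
      obtain ⟨y, hy, hp⟩ := hp
      have hy' := hpc y hy
      have hc := hcls y hy'
      rcases List.mem_cons.1 hp with rfl | hp
      · exact hX i hi' _ (by show cls F y ≤ K0; omega) _ (hy'.rdn (hgd y hy'))
      · unfold PgA172.hmenu at hp
        simp only [List.mem_flatMap, List.mem_map] at hp
        obtain ⟨κ', hκ, z, hz, rfl⟩ := hp
        refine hX i hi' κ' ?_ z (hy'.menu hz)
        have := (Cel734.mem_rngC).1 hκ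
        omega
    · intro q hq y _
      show _ = if q < P.N then _ else _
      rw [if_pos hq]
  simp only [e]
  have hGF : ∀ y, G y ≤ F' y := fun y => le_max_right _ _
  refine Sound548.bodyNum_ge_Ev E hi hW hum hg hleaf (hGF x) ?_ ?_
  · intro _ _ i _ q _ a b
    exact Sound548.hull_ge E (hGF _) fun κ' _ z _ => le_max_right _ _
  · intro _ _ q _ a b
    by_cases hq : q < P.N
    · have hS : ∀ ω, S' ω q = spF P c.κ ω.2 q := by
        intro ω
        funext κ' z
        show (if q < P.N then _ else _) = _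
        rw [if_pos hq]
      simp only [hS]
      have hEnd := Geo105.endOk_npiece P hr hx F' hq a b
      have hy : Dom20.Dom P I (npiece P F' c.κ x q a b) := hD.npiece hr hi hq F' c.κ a b
      have hcl : cls F' (npiece P F' c.κ x q a b) ≤ K0 := by
        have h1 := hcls _ hy
        have h2 : cls F' (npiece P F' c.κ x q a b) = cls F (npiece P F' c.κ x q a b) := by
          unfold cls
          rw [← hFF _ hy]
        omega
      exact (end_ge E hG hy hEnd (hGF _) hcl hsub).trans (le_Ev_XF hW hd hq hEnd)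
    · have hS : ∀ ω, S' ω q = fun _ z => G z := by
        intro ω
        funext κ' z
        show (if q < P.N then _ else _) = _
        rw [if_neg hq]
      simp only [hS]
      rw [Ev_const hW]
      exact_mod_cast Sound548.numSt_ge E (hGF _) le_rfl

/-- **the BODY step** -/
theorem body_ge (E : Exact P.N D G) (hW : 0 < W) (hd : 2 ^ P.dl ∣ W) (hr : 1 ≤ P.r)
    (hum : 0 < P.um) (hg : 0 < P.g) (hG : Dom20.GrdOK P K0)
    (hcls : ∀ y, Dom20.Dom P I y → cls F y + P.a2 ≤ K0)
    (hF : ∀ y, Dom20.Dom P I y → G y ≤ F y)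
    (hX : ∀ i < k, ∀ κ' ≤ K0, ∀ z, Dom20.Dom P I z → G z ≤ X i κ' z)
    (hleaf : ∀ x, Dom20.Dom P I x → 1 ≤ x.i → ∀ a, leaf x = some a → G x ≤ a) {i : ℕ}
    (hsub : GeAt P W G I K0 i sub) :
    GeAt P W G I K0 (i + 1) (fun c => bodyT P leaf F X k sub c) := by
  intro κ' _ z hz hD hC
  have hi : 1 ≤ z.i := by omega
  show (G z : ℝ) ≤ (bodyT P leaf F X k sub (celOf κ' z)).Ev W fun T =>
    (rdt P (celOf κ' z) T z : ℝ)
  rw [bodyT_eq, Ev_map]
  simp only [Cel734.rdt_tabC P hC]
  refine win_ge E hW hd hr hum hg hG hcls hF hX hC hD hi (hleaf z hD hi) ?_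
  have : (celOf κ' z).i - 1 = i := by
    show z.i - 1 = i
    omega
  rw [this]
  exact hsub

end Crest.Agent.R288.SoundB715
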