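import Crest.Agent.R288.SoundB_548
import Crest.Agent.R288.AsmC_331

/-!
# R288 [SOUND], part C (helper548): (A4) — on a good history nothing is below the exact cost

`C : Asm331.Cfg` arbitrary, `G : St → ℕ` with the facts `SoundIn C G D'`.

* `FE_anti`, `FE_le_init`, `cls_FE` : `F_{e+1} ≤ F_e ≤ X 0 (0, ·)`, classes on the domain;
* **`sound`** : for a good history, every epoch: `G ≤ F_e` on the domain and `G ≤ X` at every pair of the domain;
* **`F_ge`** (= 616's `SoundF`), **`X_ge`**, **`R_ge`** (`G ≤ C.R` at the admissible pairs), `sok` (the structure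
  `SOk` for the numbers read by rank `k`), `hull_ge`, `leaf_le` (HG: leaf values are `≤ F_e + 1`), `out_ge`.
-/

set_option autoImplicit false

namespace Crest.Agent.R288.SoundC548

open Finset Crest.Agent.R295.Rnd627 Crest.Agent.R288.Tape829 Crest.Agent.R288.Good829
open Crest.Agent.R288.Alg45 Crest.Agent.R288.GSt442 Crest.Agent.R288.Dom20
open Crest.Agent.R288.Asm331 Crest.Agent.R288.Sound548 Crest.Agent.R288.SoundB548

/-- what [SOUND] needs of a configuration -/
structure SoundIn (C : Cfg) (G : St → ℕ) (D' : ℕ) : Prop where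
  E : Exact C.P.N D' G
  grd : GrdOK C.P C.K0
  dl : C.P.dl ≤ C.W
  um : 0 < C.P.um
  g : 0 < C.P.g
  r : 1 ≤ C.P.r
  a2 : 1 ≤ C.P.a2
  K : 0 < C.P.K
  leaf : ∀ y, Dom C.P C.I y → ∀ c, C.leaf y = some c → G y ≤ c
  bot : ∀ y, Dom C.P C.I y → y.i = 0 → C.leaf y = none → G y ≤ 1 + (y.v - y.u).natAbs
  init : ∀ y, Dom C.P C.I y → ∀ w, C.GU y w → G y ≤ w
  init_le : ∀ y, Dom C.P C.I y → ∀ w, C.GU y w → Nat.log 2 w + C.P.a2 ≤ C.K0

section anti

variable (P : Par) (X : ℕ → ℕ × St → ℕ)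

theorem hull_le (F : St → ℕ) (f : ℕ → St → ℕ) (y : St) : hull P F f y ≤ F y :=
  El260.lmin_le_init _ _

theorem FE_anti (e : ℕ) (y : St) : FE P X (e + 1) y ≤ FE P X e y := hull_le P _ _ y

theorem FE_le_init (e : ℕ) (y : St) : FE P X e y ≤ X 0 (0, y) := by
  induction e with
  | zero => exact hull_le P _ _ y
  | succ e ih => exact (FE_anti P X e y).trans ih

theorem FE_mono {e e' : ℕ} (h : e ≤ e') (y : St) : FE P X e' y ≤ FE P X e y := by
  induction h with
  | refl => exact le_rfl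
  | step _ ih => exact (FE_anti P X _ y).trans ih

end anti

section main

variable {C : Cfg} {G : St → ℕ} {D' : ℕ} {X : ℕ → ℕ × St → ℕ}

theorem mem_pair {κ : ℕ} {z : St} (hκ : κ ≤ C.K0) (hz : Dom C.P C.I z) :
    (κ, z) ∈ OmP C.P.N C.I C.P.Dm C.K0 := (mem_OmP (N_pos C.P)).2 ⟨hκ, hz⟩

variable (S : SoundIn C G D') (hX : C.Good X)

include S hX

/-- the classes of all unit functions on the domain -/
theorem cls_FE (e : ℕ) {y : St} (hy : Dom C.P C.I y) : cls (FE C.P X e) y + C.P.a2 ≤ C.K0 := by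
  have h1 := S.init_le y hy _ (Cfg.good_init hX (s := (0, y)) (mem_pair (Nat.zero_le _) hy))
  have h2 : Nat.log 2 (FE C.P X e y) ≤ Nat.log 2 (X 0 (0, y)) :=
    Nat.log_mono_right (FE_le_init C.P X e y)
  unfold cls
  omega

theorem F0_ge {y : St} (hy : Dom C.P C.I y) : G y ≤ FE C.P X 0 y := by
  have h0 : ∀ z, Dom C.P C.I z → G z ≤ X 0 (0, z) := fun z hz =>
    S.init z hz _ (Cfg.good_init hX (s := (0, z)) (mem_pair (Nat.zero_le _) hz))
  exact Sound548.hull_ge S.E (F := fun z => X 0 (0, z)) (f := fun _ z => X 0 (0, z)) (h0 y hy)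
    fun κ' _ z hz => h0 z (hy.menu hz)

/-- the structure `SOk` from soundness of the unit function and of the lower ranks -/
theorem sok_of {e k : ℕ} (hF : ∀ y, Dom C.P C.I y → G y ≤ FE C.P X e y)
    (hk : ∀ i < k, ∀ κ ≤ C.K0, ∀ z, Dom C.P C.I z → G z ≤ X (idx C.P e i) (κ, z)) :
    SOk C.P C.I C.K0 G C.leaf (FE C.P X e) (Xe C.P (lo (idx C.P e k) X) e) k where
  F_ge := hF
  cls_le := fun _ hy => cls_FE S hX e hy
  leaf_ge := S.leaf
  bot := S.bot
  X_ge := by
    intro i hi κ hκ z hz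
    rw [Xe_lo hi]
    exact hk i hi κ hκ z hz

theorem R_ge_of {e k : ℕ} (hF : ∀ y, Dom C.P C.I y → G y ≤ FE C.P X e y)
    (hk : ∀ i < k, ∀ κ ≤ C.K0, ∀ z, Dom C.P C.I z → G z ≤ X (idx C.P e i) (κ, z))
    {κ : ℕ} {z : St} (hz : Dom C.P C.I z) (ha : adm C.P (FE C.P X e) κ z = true) :
    (G z : ℝ) ≤ C.R X e k κ z :=
  lane_ge_adm (sok_of S hX hF hk) S.E S.grd (by positivity) (pow_dvd_pow 2 S.dl) S.um S.g S.r S.a2
    hz ha

/-- the numbers of an epoch, from the unit function of the epoch -/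
theorem X_ge_of {e : ℕ} (he : e < C.P.E) (hF : ∀ y, Dom C.P C.I y → G y ≤ FE C.P X e y) (k : ℕ) :
    k < C.P.K → ∀ κ ≤ C.K0, ∀ z, Dom C.P C.I z → G z ≤ X (idx C.P e k) (κ, z) := by
  induction k using Nat.strong_induction_on with
  | _ k ih =>
    intro hk κ hκ z hz
    cases ha : adm C.P (FE C.P X e) κ z with
    | false =>
      rw [Cfg.good_alt hX he hk (mem_pair hκ hz) ha]
      exact hF z hz
    | true =>
      have h1 := R_ge_of S hX hF (k := k) (fun i hi => ih i hi (hi.trans hk)) hz ha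
      have h2 := (Cfg.good_num hX he hk (mem_pair hκ hz) ha).1
      exact_mod_cast h1.trans h2

/-- **(A4)** -/
theorem F_ge (e : ℕ) : e ≤ C.P.E → ∀ y, Dom C.P C.I y → G y ≤ FE C.P X e y := by
  induction e with
  | zero => exact fun _ y hy => F0_ge S hX hy
  | succ e ih =>
    intro he y hy
    have hF := ih (by omega)
    refine FNext_ge S.E S.K (hF y hy) fun i hi κ' hκ z hz => ?_
    have h1 : κ' ≤ cls (FE C.P X e) y + C.P.a2 := by
      unfold rngC at hκ
      simp only [List.mem_map, List.mem_range] at hκ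
      obtain ⟨t, ht, rfl⟩ := hκ
      omega
    exact X_ge_of S hX (by omega) hF i hi κ' (h1.trans (cls_FE S hX e hy)) z (hy.menu hz)

/-- every number of every pair of the domain -/
theorem X_ge {e k : ℕ} (he : e < C.P.E) (hk : k < C.P.K) {κ : ℕ} (hκ : κ ≤ C.K0) {z : St}
    (hz : Dom C.P C.I z) : G z ≤ X (idx C.P e k) (κ, z) :=
  X_ge_of S hX he (F_ge S hX e he.le) k hk κ hκ z hz

/-- the structure `SOk` for the numbers which rank `k` of epoch `e` reads -/
theorem sok {e k : ℕ} (he : e < C.P.E) (hk : k ≤ C.P.K) :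
    SOk C.P C.I C.K0 G C.leaf (FE C.P X e) (Xe C.P (lo (idx C.P e k) X) e) k :=
  sok_of S hX (F_ge S hX e he.le) fun _ hi _ hκ _ hz => X_ge S hX he (by omega) hκ hz

/-- the means of the lanes at the admissible pairs of the domain -/
theorem R_ge {e k : ℕ} (he : e < C.P.E) (hk : k ≤ C.P.K) {κ : ℕ} {z : St} (hz : Dom C.P C.I z)
    (ha : adm C.P (FE C.P X e) κ z = true) : (G z : ℝ) ≤ C.R X e k κ z :=
  R_ge_of S hX (F_ge S hX e he.le) (fun _ hi _ hκ _ hz => X_ge S hX he (by omega) hκ hz) hz ha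

/-- index `0` -/
theorem X0_ge {z : St} (hz : Dom C.P C.I z) {κ : ℕ} (hκ : κ ≤ C.K0) : G z ≤ X 0 (κ, z) :=
  S.init z hz _ (Cfg.good_init hX (s := (κ, z)) (mem_pair hκ hz))

/-- the hull numbers of a rank -/
theorem hull_ge {e k : ℕ} (he : e < C.P.E) (hk : k < C.P.K) {y : St} (hy : Dom C.P C.I y) :
    G y ≤ hull C.P (FE C.P X e) (Xe C.P X e k) y := by
  refine Sound548.hull_ge S.E (F_ge S hX e he.le y hy) fun κ' hκ z hz => ?_
  have h1 : κ' ≤ cls (FE C.P X e) y + C.P.a2 := by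
    unfold rngC at hκ
    simp only [List.mem_map, List.mem_range] at hκ
    obtain ⟨t, ht, rfl⟩ := hκ
    omega
  exact X_ge S hX he hk (h1.trans (cls_FE S hX e hy)) (hy.menu hz)

/-- the number of a state of a rank -/
theorem numSt_ge {e k κ : ℕ} (he : e < C.P.E) (hk : k < C.P.K) {y : St} (hy : Dom C.P C.I y) :
    G y ≤ numSt C.P (FE C.P X e) κ (Xe C.P X e k) y := by
  have hc : cls (FE C.P X e) y ≤ C.K0 := (Nat.le_add_right _ _).trans (cls_FE S hX e hy)
  exact Sound548.numSt_ge S.E (F_ge S hX e he.le y hy) (X_ge S hX he hk hc (hy.rdn (S.grd _ hc)))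

/-- **HG**: leaf values are at most `F_e + 1` if they are at most `G + 1` -/
theorem leaf_le {e : ℕ} (he : e ≤ C.P.E) {y : St} (hy : Dom C.P C.I y)
    {c : ℕ} (hc : c ≤ G y + 1) : c ≤ FE C.P X e y + 1 :=
  hc.trans (Nat.add_le_add_right (F_ge S hX e he y hy) 1)

/-- the output -/
theorem out_ge (hr : Dom C.P C.I C.root) : G C.root ≤ outNum C.P C.leaf X C.root := by
  unfold outNum
  cases hl : C.leaf C.root with
  | some c => exact S.leaf _ hr c hl
  | none => exact F_ge S hX _ le_rfl _ hr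

end main

end Crest.Agent.R288.SoundC548
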