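import Crest.Agent.R288.Sound_744
import Crest.Agent.R288.AnaLip_364
import Crest.Agent.R288.LeafO_690

/-!
# Row 288, (A4) SOUND, instance (helper744): leaf values `leafO`, INIT `GdI`, `G = gst x y n`

* `SndNum` : the parameter conditions; `sndOk` : `Sound744.SndOk`
* `gst_le_FE`, `gst_le_X`, `gst_le_R`, `gst_le_R'`, `gst_le_BM`
* `leaf_le_FE` : `leaf y = some c → c ≤ FE e y + 1`; `lt_FE_of_none` : `leaf y = none → Λ < FE e y`
* `coer_FE` : `|v - u| ≤ FE e y`
-/

set_option autoImplicit false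

namespace Crest.Agent.R288.SoundI744

open Finset Crest.Agent.R295.Rnd627 Crest.Agent.R295.Rnd627.RT Crest.Agent.R288.Alg45
open Crest.Agent.R288.Dom20 Crest.Agent.R288.Asm331 Crest.Agent.R288.Tape829
open Crest.Agent.R288.AnaLip364 Crest.Agent.R288.LeafO690 Crest.Agent.R288.Sound744
open Crest.Agent.R288.GSt442 (gst exact_gst)

variable {C : Cfg} {X : ℕ → ℕ × St → ℕ} {x y : List ℕ} {g p L Λ : ℕ} {ζ : ℝ}

/-- parameter conditions of soundness -/
structure SndNum (C : Cfg) : Prop where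
  r1 : 1 ≤ C.P.r
  g0 : 0 < C.P.g
  um : 0 < C.P.um
  dl : C.P.dl ≤ C.W
  grd : GrdOK C.P C.K0

theorem sndOk (N : SndNum C) (hO : LipOk C x y g p L ζ) (hl : C.leaf = leafO x y C.P.n Λ) :
    SndOk C (gst x y C.P.n) C.P.Dm where
  E := exact_gst x y C.P.n hO.x_le hO.y_le
  r1 := N.r1
  a2 := by have := hO.a2; omega
  g0 := N.g0
  um := N.um
  K := hO.K
  dl := N.dl
  grd := N.grd
  leaf_le s _ c h := by
    rw [hl] at h
    exact (leafO_le h).1
  leaf0 s _ hi h := by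
    rw [hl] at h
    have := leafO_isSome (x := x) (y := y) (k := C.P.n) (Lam := Λ) hi
    rw [h] at this
    simp at this
  GU s w _ h := (hO.GU s w h).gst_le

section

variable (N : SndNum C) (hO : LipOk C x y g p L ζ) (hl : C.leaf = leafO x y C.P.n Λ)
  (hG : C.Good X)

include N hO hl hG

theorem gst_le_FE {e : ℕ} (he : e ≤ C.P.E) {s : St} (hs : Dom C.P C.I s) :
    gst x y C.P.n s ≤ FE C.P X e s :=
  sound_FE (sndOk N hO hl) hG (fun e _ _ hs => cls_le hG hO e hs) e he s hs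

theorem gst_le_X {e k κ : ℕ} (he : e < C.P.E) (hk : k < C.P.K) (hκ : κ ≤ C.K0) {s : St}
    (hs : Dom C.P C.I s) : gst x y C.P.n s ≤ X (idx C.P e k) (κ, s) :=
  sound_X (sndOk N hO hl) hG (fun e _ _ hs => cls_le hG hO e hs) he hk hκ hs

theorem gst_le_R {e k κ : ℕ} (he : e < C.P.E) (hk : k < C.P.K) {s : St} (hs : Dom C.P C.I s)
    (ha : adm C.P (FE C.P X e) κ s = true) : (gst x y C.P.n s : ℝ) ≤ C.R X e k κ s :=
  sound_R (sndOk N hO hl) hG (fun e _ _ hs => cls_le hG hO e hs) he hk hs ha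

theorem gst_le_R' {e k κ : ℕ} (he : e < C.P.E) (hk : k < C.P.K) {s : St} (hs : Dom C.P C.I s)
    (hC : Cell488.InC C.P (celOf κ s) s) : (gst x y C.P.n s : ℝ) ≤ C.R X e k κ s :=
  sound_R' (sndOk N hO hl) hG (fun e _ _ hs => cls_le hG hO e hs) he hk hs hC

theorem gst_le_BM {e k κ i : ℕ} (he : e < C.P.E) (hk : k < C.P.K) {s : St} (hs : Dom C.P C.I s)
    (hi : s.i = i + 1) (ha : adm C.P (FE C.P X e) κ s = true) :
    (gst x y C.P.n s : ℝ) ≤ LaneM540.BM C.P (2 ^ C.W) C.leaf (FE C.P X e)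
      (Xe C.P (lo (idx C.P e k) X) e) k
      (fun c => arrT C.P C.leaf (FE C.P X e) (Xe C.P (lo (idx C.P e k) X) e) k i c)
      (celOf κ s) s :=
  sound_BM (sndOk N hO hl) hG (fun e _ _ hs => cls_le hG hO e hs) he hk hs hi ha

/-- (HG) a leaf value is at most the unit function plus one -/
theorem leaf_le_FE {e : ℕ} (he : e ≤ C.P.E) {s : St} (hs : Dom C.P C.I s) {c : ℕ}
    (h : C.leaf s = some c) : c ≤ FE C.P X e s + 1 := by
  have h1 := gst_le_FE N hO hl hG he hs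
  rw [hl] at h
  have h2 := (leafO_le h).2
  omega

theorem lt_FE_of_none {e : ℕ} (he : e ≤ C.P.E) {s : St} (hs : Dom C.P C.I s)
    (h : C.leaf s = none) : Λ < FE C.P X e s := by
  have h1 := gst_le_FE N hO hl hG he hs
  rw [hl] at h
  exact lt_of_lt_of_le (leafO_none h).1 h1

theorem coer_FE {e : ℕ} (he : e ≤ C.P.E) {s : St} (hs : Dom C.P C.I s) :
    (s.v - s.u).natAbs ≤ FE C.P X e s :=
  ((exact_gst x y C.P.n hO.x_le hO.y_le).ge s).trans (gst_le_FE N hO hl hG he hs)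

/-- the rounded own pair lies in its cell -/
theorem inC_own {e : ℕ} (he : e ≤ C.P.E) {s : St} (hs : Dom C.P C.I s) :
    Cell488.InC C.P (celOf (cls (FE C.P X e) s) (rdn C.P (cls (FE C.P X e) s) s))
      (rdn C.P (cls (FE C.P X e) s) s) :=
  inC_conv (Geo105.inC_own C.P (FE C.P X e)
    (N.grd _ (by have := cls_le hG hO e hs; omega)) hs.inD (coer_FE N hO hl hG he hs))

/-- the mean at the own pair, in the form `G y ≤ dist y ŷ + R` -/
theorem gst_le_own {e k : ℕ} (he : e < C.P.E) (hk : k < C.P.K) {s : St} (hs : Dom C.P C.I s) :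
    (gst x y C.P.n s : ℝ) ≤ Alg45.dist s (rdn C.P (cls (FE C.P X e) s) s) +
      C.R X e k (cls (FE C.P X e) s) (rdn C.P (cls (FE C.P X e) s) s) := by
  have h1 := gst_le_R' N hO hl hG he hk
    (hs.rdn (N.grd _ (by have := cls_le hG hO e hs; omega)))
    (inC_own N hO hl hG he.le hs)
  have h2 : (gst x y C.P.n s : ℝ) ≤ Alg45.dist s (rdn C.P (cls (FE C.P X e) s) s) +
      gst x y C.P.n (rdn C.P (cls (FE C.P X e) s) s) := by
    exact_mod_cast G_le_dist (exact_gst x y C.P.n hO.x_le hO.y_le) (y := s)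
      (z := rdn C.P (cls (FE C.P X e) s) s) rfl rfl
  linarith

end

end Crest.Agent.R288.SoundI744
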