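import Crest.Agent.R288.ArrG_147
import Crest.Agent.R288.LaneM_540
import Crest.Agent.R288.Geo_105
import Crest.Agent.R288.AlgS_125
import Crest.Agent.R288.AsmC_331
import Crest.Agent.R288.GSt_442

/-!
# Row 288, (A4) SOUND (helper744): `G ≤ FE e`, `G ≤ X`, `G ≤ R` on the domain for a good history

`G` = the exact cost (`GSt442.Exact`).
-/

set_option autoImplicit false

namespace Crest.Agent.R288.Sound744

open Finset Crest.Agent.R295.Rnd627 Crest.Agent.R295.Rnd627.RT Crest.Agent.R288.Alg45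
open Crest.Agent.R288.XB715 Crest.Agent.R288.LaneM540 Crest.Agent.R288.Dom20
open Crest.Agent.R288.GSt442 (Exact ssum)

/-! ## minima -/

theorem le_foldl_min {c : ℕ} : ∀ (l : List ℕ) (a : ℕ), c ≤ a → (∀ b ∈ l, c ≤ b) → c ≤ l.foldl min a
  | [], _, ha, _ => ha
  | b :: l, a, ha, h => le_foldl_min l (min a b) (le_min ha (h b (by simp)))
      fun b' hb' => h b' (by simp [hb'])

theorem le_lmin {c a : ℕ} {l : List ℕ} (ha : c ≤ a) (h : ∀ b ∈ l, c ≤ b) : c ≤ lmin a l :=
  le_foldl_min l a ha h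

variable {P : Par} {G : St → ℕ} {I K0 D' : ℕ}

/-- lower bound of a hull -/
theorem le_hull' {F : St → ℕ} {f : ℕ → St → ℕ} {y : St} {c : ℕ} (hF : c ≤ F y)
    (h : ∀ κ' ≤ cls F y + P.a2, ∀ z ∈ menu P κ' (2 * F y) y, c ≤ Alg45.dist y z + f κ' z) :
    c ≤ hull P F f y := by
  refine le_lmin hF fun b hb => ?_
  simp only [List.mem_flatMap, List.mem_map] at hb
  obtain ⟨κ', hκ, z, hz, rfl⟩ := hb
  unfold rngC at hκ
  simp only [List.mem_map, List.mem_range] at hκ
  obtain ⟨t, ht, rfl⟩ := hκ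
  exact h _ (by omega) z hz

theorem G_le_dist (E : Exact P.N D' G) {y z : St} (hi : z.i = y.i) (hj : z.j = y.j) :
    G y ≤ Alg45.dist y z + G z := by
  rw [add_comm]
  exact E.lip y z hi.symm hj.symm

/-- hull of sound numbers -/
theorem sound_hull (E : Exact P.N D' G) {F : St → ℕ} {f : ℕ → St → ℕ} {y : St} (hy : Dom P I y)
    (hF : G y ≤ F y) (hc : cls F y + P.a2 ≤ K0)
    (hf : ∀ κ' ≤ K0, ∀ z, Dom P I z → G z ≤ f κ' z) : G y ≤ hull P F f y := by
  refine le_hull' hF fun κ' hκ z hz => ?_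
  have h1 := menu_ij hz
  refine (G_le_dist E h1.1 h1.2).trans ?_
  have := hf κ' (hκ.trans hc) z (hy.menu hz)
  omega

/-- staircases of a state of the domain -/
theorem sound_stair (E : Exact P.N D' G) (κ : ℕ) {x : St} (hi : 1 ≤ x.i) (c : ℕ → ℕ) :
    G x ≤ ∑ q ∈ range P.N, G (piece P κ x q (c q) (c (q + 1))) := by
  have hN : P.N ≠ 0 := (Nat.two_pow_pos P.n).ne'
  have h := E.le_cuts (x := x) (i := x.i - 1) (by omega)
    (m := fun q => cut P κ x q (c q)) (by simp [cut]) (by simp [cut, hN])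
  exact h

theorem sound_Vst (E : Exact P.N D' G) (hr : 1 ≤ P.r) (κ : ℕ) {x : St} (hx : Dom P I x)
    (hi : 1 ≤ x.i) {f : St → ℕ} (hf : ∀ y, Dom P I y → G y ≤ f y) : G x ≤ Vst P κ x f := by
  refine AlgS125.le_Vst_letters P fun c hc hN => ?_
  refine (sound_stair E κ hi c).trans (sum_le_sum fun q hq => ?_)
  exact hf _ (hx.piece hr hi (mem_range.1 hq) κ _ _)

theorem le_Wm {c F : ℕ} {V : ℕ → ℕ} {k : ℕ} (hF : c ≤ F) (hV : ∀ i < k, c ≤ V i) :
    c ≤ Wm F V k := by
  induction k with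
  | zero => exact hF
  | succ k ih =>
    exact le_min (ih fun i hi => hV i (by omega)) (hV k (by omega))

theorem sound_wild (E : Exact P.N D' G) (hr : 1 ≤ P.r) {F : St → ℕ} {X : ℕ → ℕ → St → ℕ} {k : ℕ}
    (hF : ∀ y, Dom P I y → G y ≤ F y) (hc : ∀ y, Dom P I y → cls F y + P.a2 ≤ K0)
    (hX : ∀ i < k, ∀ κ' ≤ K0, ∀ z, Dom P I z → G z ≤ X i κ' z) (κ : ℕ) {x : St}
    (hx : Dom P I x) (hi : 1 ≤ x.i) : G x ≤ wild P F X κ x k := by
  refine le_Wm (hF x hx) fun i hik => sound_Vst E hr κ hx hi fun y hy => ?_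
  exact sound_hull E hy (hF y hy) (hc y hy) (hX i hik)

/-! ## the lane -/

/-- 734's cells as 488's cells -/
theorem inC_conv {c : Cel} {y : St} (h : Cel734.InC P c y) : Cell488.InC P c y :=
  ⟨h.hi, h.hj, ⟨h.du, h.dv⟩, h.hD, h.ulo, h.uhi, h.vlo, h.vhi⟩

theorem inC_conv' {c : Cel} {y : St} (h : Cell488.InC P c y) : Cel734.InC P c y :=
  ⟨h.dom, h.hi, h.hj, h.gr.1, h.gr.2, h.u1, h.u2, h.v1, h.v2⟩

section lane

variable {W : ℕ} {leaf : St → Option ℕ} {F : St → ℕ} {X : ℕ → ℕ → St → ℕ} {k : ℕ}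

/-- what the lower numbers give -/
structure Low (P : Par) (I K0 D' : ℕ) (G : St → ℕ) (leaf : St → Option ℕ) (F : St → ℕ)
    (X : ℕ → ℕ → St → ℕ) (k : ℕ) : Prop where
  E : Exact P.N D' G
  r1 : 1 ≤ P.r
  a2 : 1 ≤ P.a2
  g0 : 0 < P.g
  um : 0 < P.um
  grd : GrdOK P K0
  bot : ∀ y : St, Dom P I y → y.i = 0 → leaf y = none → G y ≤ 1 + (y.v - y.u).natAbs
  F_le : ∀ y, Dom P I y → G y ≤ F y
  cls_le : ∀ y, Dom P I y → cls F y + P.a2 ≤ K0
  leaf_le : ∀ y, Dom P I y → ∀ c, leaf y = some c → G y ≤ c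
  X_le : ∀ i < k, ∀ κ' ≤ K0, ∀ z, Dom P I z → G z ≤ X i κ' z

/-- the body entry at an admissible pair -/
theorem sound_body (H : Low P I K0 D' G leaf F X k) (hW : 0 < W) (hd : 2 ^ P.dl ∣ W)
    {sub : Cel → RT (List ℕ)} {κ : ℕ} {x : St} (hx : Dom P I x) (hi : 1 ≤ x.i)
    (ha : adm P F κ x = true)
    (hsub : ∀ y, y.i + 1 = x.i → Dom P I y → cls F y ≤ K0 →
      (G (rdn P (cls F y) y) : ℝ) ≤ RS P W sub (cls F y) (rdn P (cls F y) y)) :
    (G x : ℝ) ≤ BM P W leaf F X k sub (celOf κ x) x := by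
  have hinC : Cel734.InC P (celOf κ x) x := Cel734.adm_inC P hx.inD ha
  have hz : RdOk P (celOf κ x) x := fun f => Cel734.rdt_tabC P hinC f
  have hok : EndsOk P F (celOf κ x) x := fun q hq a _ b _ =>
    Geo105.endOk_npiece P H.r1 hinC F hq a b
  refine le_body hW hd H.g0 H.um hz hok (G := (G x : ℝ)) (by exact_mod_cast H.F_le x hx)
    (fun v hv => by exact_mod_cast H.leaf_le x hx v hv)
    (by exact_mod_cast sound_wild H.E H.r1 H.F_le H.cls_le H.X_le κ hx hi) fun hl m hm => ?_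
  have h1 := sound_stair H.E κ hi (x := x) fun q => near P F κ x q (m q)
  have h2 : (G x : ℝ) ≤ ∑ q ∈ range P.N,
      (G (npiece P F κ x q (m q) (m (q + 1))) : ℝ) := by
    have h3 : G x ≤ ∑ q ∈ range P.N, G (npiece P F κ x q (m q) (m (q + 1))) := h1
    exact_mod_cast h3
  refine h2.trans (sum_le_sum fun q hq => ?_)
  have hy : Dom P I (npiece P F κ x q (m q) (m (q + 1))) :=
    hx.npiece H.r1 hi (mem_range.1 hq) F κ _ _
  have hyi : (npiece P F κ x q (m q) (m (q + 1))).i + 1 = x.i := by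
    show x.i - 1 + 1 = x.i
    omega
  show (G (npiece P F κ x q (m q) (m (q + 1))) : ℝ) ≤
    numR P F κ (RS P W sub) (npiece P F κ x q (m q) (m (q + 1)))
  generalize npiece P F κ x q (m q) (m (q + 1)) = y at hy hyi ⊢
  unfold numR
  split_ifs with hc
  · exact_mod_cast H.F_le y hy
  · have h4 := hsub y hyi hy (by have := H.cls_le y hy; omega)
    have h5 : (G y : ℝ) ≤ Alg45.dist y (rdn P (cls F y) y) + G (rdn P (cls F y) y) := by
      exact_mod_cast G_le_dist H.E (y := y) (z := rdn P (cls F y) y) rfl rfl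
    linarith

/-- macro height `0` -/
theorem sound_bot (H : Low P I K0 D' G leaf F X k) {κ : ℕ} {y : St} (hy : Dom P I y)
    (hi : y.i = 0) (hC : Cell488.InC P (celOf κ y) y) :
    (G y : ℝ) ≤ RS P W (fun c => arrT P leaf F X k 0 c) κ y := by
  have h1 : RS P W (fun c => arrT P leaf F X k 0 c) κ y = (botNum P leaf F κ y : ℕ) := by
    unfold RS
    show (RT.ret (tabC P (celOf κ y) fun z => botNum P leaf F (celOf κ y).κ z)).Ev W _ = _
    rw [Ev_ret, Cell488.rdt_tabC P hC]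
    rfl
  rw [h1]
  have h2 : G y ≤ botNum P leaf F κ y := by
    unfold botNum
    split_ifs with ha
    · exact H.F_le y hy
    · cases hl : leaf y with
      | none => exact H.bot y hy hi hl
      | some c => exact H.leaf_le y hy c hl
  exact_mod_cast h2

/-- the jump -/
theorem sound_jump (H : Low P I K0 D' G leaf F X k) (hW : 0 < W) {sub : Cel → RT (List ℕ)} {i : ℕ}
    (hbody : ∀ κ z, z.i = i → Dom P I z → adm P F κ z = true →
      (G z : ℝ) ≤ BM P W leaf F X k sub (celOf κ z) z)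
    {κ : ℕ} {y : St} (hy : Dom P I y) (hi : y.i = i) (hC : Cell488.InC P (celOf κ y) y) :
    (G y : ℝ) ≤ RS P W (fun c => arrOf P F (bodyT P leaf F X k sub) c) κ y := by
  have hown := ArrG147.own_mem_acells P (ArrG147.meets_of_inC P hC)
  have ht := Cell488.cidx_lt P hC
  have hcst := Cell488.cst_cidx P hC
  have hFy : (G y : ℝ) ≤ F y := by exact_mod_cast H.F_le y hy
  unfold RS rdt
  show (G y : ℝ) ≤ (arrOf P F (bodyT P leaf F X k sub) (celOf κ y)).Ev W
    fun T => ((fun n : ℕ => (n : ℝ)) (T.getD (cidx P (celOf κ y) y) 0))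
  by_cases ha : adm P F (celOf κ y).κ (cst P (celOf κ y) (cidx P (celOf κ y) y)) = false
  · rw [ArrB147.Ev_arrOf_nadm hW F _ hown ht ha, hcst]
    exact hFy
  · rw [ArrB147.Ev_arrOf_adm W F _ hown ht (by simpa using ha)]
    refine const_le_Ev hW (All.of_forall fun E => ?_)
    have hmem := (ArrB147.sel_choice (P := P) (F := F) (ArrB147.own_mem hown ht)
      (ArrB147.zof_own hown _)).mem E
    generalize ArrB147.sel P (celOf κ y) F (cst P (celOf κ y) (cidx P (celOf κ y) y))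
      (ArrB147.own P (celOf κ y), cidx P (celOf κ y) y) E = o at hmem ⊢
    have h1 := Jump984.Ev_oval hW (jdraw P (bodyT P leaf F X k sub) (celOf κ y)) ArrB147.jval
      (F (cst P (celOf κ y) (cidx P (celOf κ y) y)))
      (fun i => Alg45.dist (cst P (celOf κ y) (cidx P (celOf κ y) y))
        (ArrB147.zof P (celOf κ y) i)) o
    rw [h1]
    cases o with
    | none =>
      show (G y : ℝ) ≤ (F (cst P (celOf κ y) (cidx P (celOf κ y) y)) : ℝ)
      rw [hcst]
      exact hFy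
    | some j =>
      rw [Finset.some_mem_insertNone, ArrB147.mem_mnu] at hmem
      have hj := (ArrB147.mem_jks P).1 hmem.1
      show (G y : ℝ) ≤ (Alg45.dist (cst P (celOf κ y) (cidx P (celOf κ y) y))
        (ArrB147.zof P (celOf κ y) j) : ℝ) +
        (jdraw P (bodyT P leaf F X k sub) (celOf κ y)).Ev W fun B => (ArrB147.jval B j : ℝ)
      rw [hcst]
      have hz : Dom P I (ArrB147.zof P (celOf κ y) j) := by
        exact Dom.cst (c := acell P (celOf κ y) j.1) hy.i_le ((dom_iff P).1 hy).2.1 j.2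
      have hzi : (ArrB147.zof P (celOf κ y) j).i = i := hi
      have hzj : (ArrB147.zof P (celOf κ y) j).j = y.j := rfl
      have hd : (G y : ℝ) ≤ Alg45.dist y (ArrB147.zof P (celOf κ y) j) +
          G (ArrB147.zof P (celOf κ y) j) := by
        exact_mod_cast G_le_dist H.E (y := y) (z := ArrB147.zof P (celOf κ y) j) rfl rfl
      have h2 := ArrB147.Ev_jval (P := P) hW (bodyT P leaf F X k sub) hmem.1
        (fun n : ℕ => (n : ℝ))
      rw [h2]
      have h3 : (G (ArrB147.zof P (celOf κ y) j) : ℝ) ≤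
          (bodyT P leaf F X k sub (acell P (celOf κ y) j.1)).Ev W
            fun T => ((T.getD j.2 0 : ℕ) : ℝ) := by
        by_cases haz : adm P F (ArrB147.kof P (celOf κ y) j) (ArrB147.zof P (celOf κ y) j) = true
        · have hκ : ArrB147.kof P (celOf κ y) j ≤ K0 := by
            have h4 := (ArrG147.adm_iff.1 haz).2.2.1
            have h5 := H.cls_le _ hz
            have := H.a2
            omega
          have hin : Cell488.InC P (acell P (celOf κ y) j.1) (ArrB147.zof P (celOf κ y) j) :=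
            ArrG147.cst_inC P (ArrG147.acell_meets P hj.1)
              (by exact_mod_cast H.grd _ hκ) hj.2
          have h4 := ArrG147.Ev_body_entry (P := P) (leaf := leaf) (F := F) (X := X) (k := k)
            (sub := sub) W hj.2 hin (fun n : ℕ => (n : ℝ))
          rw [h4]
          have h5 := hbody _ _ hzi hz haz
          have h6 : celOf (ArrB147.kof P (celOf κ y) j) (ArrB147.zof P (celOf κ y) j) =
              acell P (celOf κ y) j.1 := hin.celOf_eq
          rw [h6] at h5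
          exact h5
        · have haz' : adm P F (ArrB147.kof P (celOf κ y) j) (ArrB147.zof P (celOf κ y) j) =
              false := by simpa using haz
          have h4 := ArrG147.All_body_entry (P := P) (leaf := leaf) (F := F) (X := X) (k := k)
            (sub := sub) (W := W) hj.2 (Q := fun n => n = F (ArrB147.zof P (celOf κ y) j))
            fun S => ArrG147.bodyNum_nadm haz'
          refine const_le_Ev hW (h4.mono fun T hT => ?_)
          rw [hT]
          exact_mod_cast H.F_le _ hz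
      linarith

/-- **all heights** -/
theorem sound_arr (H : Low P I K0 D' G leaf F X k) (hW : 0 < W) (hd : 2 ^ P.dl ∣ W) (i : ℕ) :
    (∀ κ y, y.i = i → Dom P I y → Cell488.InC P (celOf κ y) y →
      (G y : ℝ) ≤ RS P W (fun c => arrT P leaf F X k i c) κ y) ∧
    (∀ κ z, z.i = i + 1 → Dom P I z → adm P F κ z = true →
      (G z : ℝ) ≤ BM P W leaf F X k (fun c => arrT P leaf F X k i c) (celOf κ z) z) := by
  have key : ∀ i, (∀ κ y, y.i = i → Dom P I y → Cell488.InC P (celOf κ y) y →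
      (G y : ℝ) ≤ RS P W (fun c => arrT P leaf F X k i c) κ y) →
      ∀ κ z, z.i = i + 1 → Dom P I z → adm P F κ z = true →
      (G z : ℝ) ≤ BM P W leaf F X k (fun c => arrT P leaf F X k i c) (celOf κ z) z := by
    intro i h κ z hz hD ha
    refine sound_body H hW hd hD (by omega) ha fun y hy hDy hc => ?_
    have hgy : gst P (cls F y) ∣ P.Dm := H.grd _ hc
    have h1 : Cell488.InC P (celOf (cls F y) (rdn P (cls F y) y)) (rdn P (cls F y) y) :=
      inC_conv (Geo105.inC_own P F hgy hDy.inD ((H.E.ge y).trans (H.F_le y hDy)))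
    exact h _ _ (by show y.i = i; omega) (Dom.rdn hDy hgy) h1
  induction i with
  | zero =>
    have h0 : ∀ κ y, y.i = 0 → Dom P I y → Cell488.InC P (celOf κ y) y →
        (G y : ℝ) ≤ RS P W (fun c => arrT P leaf F X k 0 c) κ y :=
      fun κ y hi hD hC => sound_bot H hD hi hC
    exact ⟨h0, key 0 h0⟩
  | succ i ih =>
    have h1 : ∀ κ y, y.i = i + 1 → Dom P I y → Cell488.InC P (celOf κ y) y →
        (G y : ℝ) ≤ RS P W (fun c => arrT P leaf F X k (i + 1) c) κ y :=
      fun κ y hi hD hC => sound_jump H hW (sub := fun c => arrT P leaf F X k i c) ih.2 hD hi hC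
    exact ⟨h1, key _ h1⟩

/-- **the lane is sound at every pair in its cell** -/
theorem sound_lane (H : Low P I K0 D' G leaf F X k) (hW : 0 < W) (hd : 2 ^ P.dl ∣ W) {κ : ℕ}
    {z : St} (hz : Dom P I z) (hC : Cell488.InC P (celOf κ z) z) :
    (G z : ℝ) ≤ (lanePair P leaf F X k κ z).Ev W fun a => (a : ℝ) := by
  have h := (sound_arr H hW hd z.i).1 κ z rfl hz hC
  unfold lanePair
  simp only [Ev_bind, Ev_ret]
  exact h

/-- every admissible pair -/
theorem sound_lane_adm (H : Low P I K0 D' G leaf F X k) (hW : 0 < W) (hd : 2 ^ P.dl ∣ W) {κ : ℕ}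
    {z : St} (hz : Dom P I z) (ha : adm P F κ z = true) :
    (G z : ℝ) ≤ (lanePair P leaf F X k κ z).Ev W fun a => (a : ℝ) :=
  sound_lane H hW hd hz (ArrG147.adm_inC ha hz.inD)

end lane

/-! ## a good history -/

open Crest.Agent.R288.Asm331 Crest.Agent.R288.Tape829

/-- what is used of the configuration -/
structure SndOk (C : Cfg) (G : St → ℕ) (D' : ℕ) : Prop where
  E : Exact C.P.N D' G
  r1 : 1 ≤ C.P.r
  a2 : 1 ≤ C.P.a2
  g0 : 0 < C.P.g
  um : 0 < C.P.um
  K : 0 < C.P.K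
  dl : C.P.dl ≤ C.W
  grd : GrdOK C.P C.K0
  leaf_le : ∀ y, Dom C.P C.I y → ∀ c, C.leaf y = some c → G y ≤ c
  leaf0 : ∀ y, Dom C.P C.I y → y.i = 0 → C.leaf y ≠ none
  GU : ∀ s w, Dom C.P C.I s → C.GU s w → G s ≤ w

variable {C : Cfg} {X : ℕ → ℕ × St → ℕ}

theorem mem_OmP_of {κ : ℕ} {z : St} (hκ : κ ≤ C.K0) (hz : Dom C.P C.I z) :
    (κ, z) ∈ OmP C.P.N C.I C.P.Dm C.K0 := (mem_OmP (N_pos C.P)).2 ⟨hκ, hz⟩

/-- the lower numbers at rank `k` of epoch `e` -/
theorem low_of (S : SndOk C G D') {e k : ℕ}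
    (hcls : ∀ s, Dom C.P C.I s → cls (FE C.P X e) s + C.P.a2 ≤ C.K0)
    (hF : ∀ y, Dom C.P C.I y → G y ≤ FE C.P X e y)
    (hX : ∀ i < k, ∀ κ ≤ C.K0, ∀ z, Dom C.P C.I z → G z ≤ X (idx C.P e i) (κ, z)) :
    Low C.P C.I C.K0 D' G C.leaf (FE C.P X e) (Xe C.P (lo (idx C.P e k) X) e) k where
  E := S.E
  r1 := S.r1
  a2 := S.a2
  g0 := S.g0
  um := S.um
  grd := S.grd
  bot y hy hi hl := absurd hl (S.leaf0 y hy hi)
  F_le := hF
  cls_le := hcls
  leaf_le := S.leaf_le
  X_le i hi κ hκ z hz := by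
    rw [Xe_lo hi]
    exact hX i hi κ hκ z hz

theorem W_pos (C : Cfg) : 0 < 2 ^ C.W := Nat.two_pow_pos _

/-- one rank -/
theorem sound_rank (S : SndOk C G D') (hG : C.Good X) {e k : ℕ} (he : e < C.P.E) (hk : k < C.P.K)
    (hcls : ∀ s, Dom C.P C.I s → cls (FE C.P X e) s + C.P.a2 ≤ C.K0)
    (hF : ∀ y, Dom C.P C.I y → G y ≤ FE C.P X e y)
    (hX : ∀ i < k, ∀ κ ≤ C.K0, ∀ z, Dom C.P C.I z → G z ≤ X (idx C.P e i) (κ, z)) :
    ∀ κ ≤ C.K0, ∀ z, Dom C.P C.I z → G z ≤ X (idx C.P e k) (κ, z) := by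
  intro κ hκ z hz
  by_cases ha : adm C.P (FE C.P X e) κ z = true
  · have h1 := (C.good_num hG he hk (mem_OmP_of hκ hz) ha).1
    have h2 : (G z : ℝ) ≤ C.R X e k κ z :=
      sound_lane_adm (low_of S hcls hF hX) (W_pos C) (pow_dvd_pow 2 S.dl) hz ha
    exact_mod_cast h2.trans h1
  · rw [C.good_alt hG he hk (mem_OmP_of hκ hz) (by simpa using ha)]
    exact hF z hz

theorem sound_ranks (S : SndOk C G D') (hG : C.Good X) {e : ℕ} (he : e < C.P.E)
    (hcls : ∀ s, Dom C.P C.I s → cls (FE C.P X e) s + C.P.a2 ≤ C.K0)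
    (hF : ∀ y, Dom C.P C.I y → G y ≤ FE C.P X e y) (k : ℕ) (hk : k < C.P.K) :
    ∀ κ ≤ C.K0, ∀ z, Dom C.P C.I z → G z ≤ X (idx C.P e k) (κ, z) := by
  induction k using Nat.strong_induction_on with
  | _ k ih => exact sound_rank S hG he hk hcls hF fun i hi => ih i hi (hi.trans hk)

theorem le_cdiv {a b c : ℕ} (hb : 0 < b) (h : c * b ≤ a) : c ≤ cdiv a b := by
  unfold cdiv
  rw [Nat.le_div_iff_mul_le hb]
  omega

theorem le_sumR {n c : ℕ} {f : ℕ → ℕ} (h : ∀ i < n, c ≤ f i) : c * n ≤ sumR n f := by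
  unfold sumR
  induction n with
  | zero => simp
  | succ n ih =>
    rw [List.range_succ, List.map_append, List.sum_append]
    have := ih fun i hi => h i (by omega)
    have := h n (by omega)
    simp only [List.map_cons, List.map_nil, List.sum_cons, List.sum_nil]
    rw [Nat.mul_succ]
    omega

/-- **(A4)** the unit functions -/
theorem sound_FE (S : SndOk C G D') (hG : C.Good X)
    (hcls : ∀ e ≤ C.P.E, ∀ s, Dom C.P C.I s → cls (FE C.P X e) s + C.P.a2 ≤ C.K0) :
    ∀ e ≤ C.P.E, ∀ y, Dom C.P C.I y → G y ≤ FE C.P X e y := by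
  intro e
  induction e with
  | zero =>
    intro _ y hy
    have hU : ∀ s, Dom C.P C.I s → G s ≤ X 0 (0, s) := fun s hs =>
      S.GU s _ hs (C.good_init hG (s := (0, s)) (mem_OmP_of (Nat.zero_le _) hs))
    show G y ≤ hull C.P (fun z => X 0 (0, z)) (fun _ z => X 0 (0, z)) y
    refine le_hull' (hU y hy) fun κ' _ z hz => ?_
    have h1 := menu_ij hz
    have h2 := G_le_dist S.E h1.1 h1.2
    have h3 := hU z (hy.menu hz)
    omega
  | succ e ih =>
    intro he y hy
    have hF := ih (by omega)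
    have hX := sound_ranks S hG (e := e) (by omega) (hcls e (by omega)) hF
    show G y ≤ hull C.P (FE C.P X e) (Xbar C.P (fun i κ z => X (idx C.P e i) (κ, z))) y
    refine sound_hull S.E hy (hF y hy) (hcls e (by omega) y hy) fun κ hκ z hz => ?_
    exact le_cdiv S.K (le_sumR fun i hi => hX i hi κ hκ z hz)

/-- **(A4)** the numbers, at every pair of the domain -/
theorem sound_X (S : SndOk C G D') (hG : C.Good X)
    (hcls : ∀ e ≤ C.P.E, ∀ s, Dom C.P C.I s → cls (FE C.P X e) s + C.P.a2 ≤ C.K0) {e k κ : ℕ}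
    (he : e < C.P.E) (hk : k < C.P.K) (hκ : κ ≤ C.K0) {z : St} (hz : Dom C.P C.I z) :
    G z ≤ X (idx C.P e k) (κ, z) :=
  sound_ranks S hG he (hcls e he.le) (sound_FE S hG hcls e he.le) k hk κ hκ z hz

/-- what the lower numbers give, for every index -/
theorem low_all (S : SndOk C G D') (hG : C.Good X)
    (hcls : ∀ e ≤ C.P.E, ∀ s, Dom C.P C.I s → cls (FE C.P X e) s + C.P.a2 ≤ C.K0) {e k : ℕ}
    (he : e < C.P.E) (hk : k ≤ C.P.K) :
    Low C.P C.I C.K0 D' G C.leaf (FE C.P X e) (Xe C.P (lo (idx C.P e k) X) e) k :=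
  low_of S (hcls e he.le) (sound_FE S hG hcls e he.le) fun i hi κ hκ z hz =>
    sound_X S hG hcls he (lt_of_lt_of_le hi hk) hκ hz

/-- **(A4)** the means of the lanes: every pair which lies in its cell -/
theorem sound_R' (S : SndOk C G D') (hG : C.Good X)
    (hcls : ∀ e ≤ C.P.E, ∀ s, Dom C.P C.I s → cls (FE C.P X e) s + C.P.a2 ≤ C.K0) {e k κ : ℕ}
    (he : e < C.P.E) (hk : k < C.P.K) {z : St} (hz : Dom C.P C.I z)
    (hC : Cell488.InC C.P (celOf κ z) z) : (G z : ℝ) ≤ C.R X e k κ z :=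
  sound_lane (low_all S hG hcls he hk.le) (W_pos C) (pow_dvd_pow 2 S.dl) hz hC

/-- **(A4)** the means of the lanes at the admissible pairs -/
theorem sound_R (S : SndOk C G D') (hG : C.Good X)
    (hcls : ∀ e ≤ C.P.E, ∀ s, Dom C.P C.I s → cls (FE C.P X e) s + C.P.a2 ≤ C.K0) {e k κ : ℕ}
    (he : e < C.P.E) (hk : k < C.P.K) {z : St} (hz : Dom C.P C.I z)
    (ha : adm C.P (FE C.P X e) κ z = true) : (G z : ℝ) ≤ C.R X e k κ z :=
  sound_R' S hG hcls he hk hz (ArrG147.adm_inC ha hz.inD)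

/-- **(A4)** the means of the body entries at the admissible pairs of macro height `i + 1` -/
theorem sound_BM (S : SndOk C G D') (hG : C.Good X)
    (hcls : ∀ e ≤ C.P.E, ∀ s, Dom C.P C.I s → cls (FE C.P X e) s + C.P.a2 ≤ C.K0) {e k κ i : ℕ}
    (he : e < C.P.E) (hk : k < C.P.K) {z : St} (hz : Dom C.P C.I z) (hi : z.i = i + 1)
    (ha : adm C.P (FE C.P X e) κ z = true) :
    (G z : ℝ) ≤ BM C.P (2 ^ C.W) C.leaf (FE C.P X e) (Xe C.P (lo (idx C.P e k) X) e) k
      (fun c => arrT C.P C.leaf (FE C.P X e) (Xe C.P (lo (idx C.P e k) X) e) k i c) (celOf κ z) z :=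
  (sound_arr (low_all S hG hcls he hk.le) (W_pos C) (pow_dvd_pow 2 S.dl) i).2 κ z hi hz ha

end Crest.Agent.R288.Sound744
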