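import Crest.Agent.R288.SpawnA_944

/-!
# R288: moments of lists of independent calls (spawn, part B)

* `trav f l`: run `f` on the elements of `l`, one after the other (same equations as
  `Alg453.trav`).
* `zs g l r`: sum of `g a b` over the pairs of two lists; `Ev_trav`, `Vr_trav`, `All_trav`,
  `Ev_sq_trav` (mean, variance, support, second moment of `c + zs`), `sq_trav_le` (upper bounds).
* `Ev_sq_mix`: second moment of a mixture (Cauchy-Schwarz).
* `filt e idx l r`: the elements of `l` with index `≡ r` mod `2^e`; `resid`: one word, then the calls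
  of the residue class; `Ev_resid`, `sq_resid`: a fixed element is called with probability exactly
  `2^-e`.
-/

set_option autoImplicit false

namespace Crest.Agent.R288.SpawnB944

open Finset Crest.Agent.R295.Rnd627 Crest.Agent.R295.Rnd627.RT Crest.Agent.R288.SpawnA944

section trav

variable {α β : Type}

/-- run one after the other -/
def trav (f : α → RT β) : List α → RT (List β)
  | [] => ret []
  | a :: l => (f a).bind fun b => (trav f l).bind fun r => ret (b :: r)

@[simp] theorem trav_nil (f : α → RT β) : trav f [] = ret [] := rfl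

@[simp] theorem trav_cons (f : α → RT β) (a : α) (l : List α) :
    trav f (a :: l) = (f a).bind fun b => (trav f l).bind fun r => ret (b :: r) := rfl

/-- sum over the pairs of two lists -/
def zs (g : α → β → ℝ) : List α → List β → ℝ
  | a :: l, b :: r => g a b + zs g l r
  | _, _ => 0

@[simp] theorem zs_nil (g : α → β → ℝ) (r : List β) : zs g [] r = 0 := rfl

@[simp] theorem zs_cons (g : α → β → ℝ) (a : α) (l : List α) (b : β) (r : List β) :
    zs g (a :: l) (b :: r) = g a b + zs g l r := rfl

variable {M : ℕ} {f : α → RT β}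

theorem All_trav {P : α → β → Prop} {l : List α} (h : ∀ a ∈ l, (f a).All M (P a)) :
    (trav f l).All M fun r => List.Forall₂ P l r := by
  induction l with
  | nil => simp
  | cons a l ih =>
    rw [trav_cons, All_bind]
    refine (h a (by simp)).mono fun b hb => ?_
    rw [All_bind]
    refine (ih fun a' ha' => h a' (by simp [ha'])).mono fun r hr => ?_
    simp only [All_ret]
    exact List.Forall₂.cons hb hr

theorem Ev_trav (hM : 0 < M) (g : α → β → ℝ) (l : List α) :
    (trav f l).Ev M (zs g l) = (l.map fun a => (f a).Ev M (g a)).sum := by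
  induction l with
  | nil => simp
  | cons a l ih =>
    rw [trav_cons, Ev_bind]
    simp only [Ev_bind, Ev_ret, zs_cons, List.map_cons, List.sum_cons]
    have h1 : ∀ b, (trav f l).Ev M (fun r => g a b + zs g l r) = g a b + (trav f l).Ev M (zs g l) := by
      intro b
      rw [Ev_add, Ev_const hM]
    simp only [h1]
    rw [Ev_add, Ev_const hM, ih]

theorem Vr_trav (hM : 0 < M) (g : α → β → ℝ) (l : List α) :
    Vr M (trav f l) (zs g l) = (l.map fun a => Vr M (f a) (g a)).sum := by
  induction l with
  | nil => simp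
  | cons a l ih =>
    rw [trav_cons, Vr_bind]
    have h1 : ∀ b, Vr M ((trav f l).bind fun r => ret (b :: r)) (zs g (a :: l))
        = Vr M (trav f l) (zs g l) := by
      intro b
      have : ((trav f l).bind fun r => ret (b :: r)) = (trav f l).map fun r => b :: r := rfl
      rw [this, Vr_map]
      simp only [zs_cons]
      rw [Vr_add_const hM]
    have h2 : ∀ b, ((trav f l).bind fun r => ret (b :: r)).Ev M (zs g (a :: l))
        = (trav f l).Ev M (zs g l) + g a b := by
      intro b
      rw [Ev_bind]
      simp only [Ev_ret, zs_cons]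
      rw [Ev_add, Ev_const hM]
      ring
    simp only [h1, h2]
    rw [Ev_const hM, Vr_add_const hM, ih, List.map_cons, List.sum_cons]
    ring

/-- second moment of a constant plus independent terms -/
theorem Ev_sq_trav (hM : 0 < M) (g : α → β → ℝ) (l : List α) (c : ℝ) :
    (trav f l).Ev M (fun r => (c + zs g l r) ^ 2) =
      (c + (l.map fun a => (f a).Ev M (g a)).sum) ^ 2 + (l.map fun a => Vr M (f a) (g a)).sum := by
  rw [Ev_sq_eq, Vr_add_const hM, Vr_trav hM, Ev_add, Ev_const hM, Ev_trav hM]
  ring

theorem sum_map_le_map {l : List α} {u v : α → ℝ} (h : ∀ a ∈ l, u a ≤ v a) :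
    (l.map u).sum ≤ (l.map v).sum := by
  induction l with
  | nil => simp
  | cons a l ih =>
    simp only [List.map_cons, List.sum_cons]
    exact add_le_add (h a (by simp)) (ih fun b hb => h b (by simp [hb]))

/-- upper bound: value at most a constant plus independent terms with means `≤ m`, second moments
`≤ s` -/
theorem sq_trav_le (hM : 0 < M) {g : α → β → ℝ} {l : List α} {c : ℝ} {m s : α → ℝ}
    {val : List β → ℝ} (hval : (trav f l).All M fun r => 0 ≤ val r ∧ val r ≤ c + zs g l r)
    (h0 : 0 ≤ c + (l.map fun a => (f a).Ev M (g a)).sum)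
    (hm : ∀ a ∈ l, (f a).Ev M (g a) ≤ m a)
    (hs : ∀ a ∈ l, (f a).Ev M (fun b => g a b ^ 2) ≤ s a) :
    (trav f l).Ev M val ≤ c + (l.map m).sum ∧
      (trav f l).Ev M (fun r => val r ^ 2) ≤ (c + (l.map m).sum) ^ 2 + (l.map s).sum := by
  have hms : (l.map fun a => (f a).Ev M (g a)).sum ≤ (l.map m).sum := sum_map_le_map hm
  constructor
  · calc (trav f l).Ev M val ≤ (trav f l).Ev M (fun r => c + zs g l r) :=
          Ev_mono_all (hval.mono fun r hr => hr.2)
      _ = c + (l.map fun a => (f a).Ev M (g a)).sum := by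
          rw [Ev_add, Ev_const hM, Ev_trav hM]
      _ ≤ _ := by linarith
  · calc (trav f l).Ev M (fun r => val r ^ 2) ≤ (trav f l).Ev M (fun r => (c + zs g l r) ^ 2) :=
          Ev_mono_all (hval.mono fun r hr => pow_le_pow_left₀ hr.1 hr.2 2)
      _ = (c + (l.map fun a => (f a).Ev M (g a)).sum) ^ 2
            + (l.map fun a => Vr M (f a) (g a)).sum := Ev_sq_trav hM g l c
      _ ≤ _ := by
          refine add_le_add (pow_le_pow_left₀ h0 (by linarith) 2) (sum_map_le_map fun a ha => ?_)
          exact (Vr_le_sq _ _).trans (hs a ha)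

end trav

/-! ## mixtures -/

/-- second moment of a mixture with non negative coefficients -/
theorem Ev_sq_mix {α : Type} {M : ℕ} {ι : Type} (t : RT α) (s : Finset ι) (c : ι → ℝ)
    (X : ι → α → ℝ) (hc : ∀ i ∈ s, 0 ≤ c i) :
    t.Ev M (fun a => (∑ i ∈ s, c i * X i a) ^ 2) ≤
      (∑ i ∈ s, c i) * ∑ i ∈ s, c i * t.Ev M (fun a => X i a ^ 2) := by
  have h1 : ∀ a, (∑ i ∈ s, c i * X i a) ^ 2 ≤ (∑ i ∈ s, c i) * ∑ i ∈ s, c i * X i a ^ 2 := by
    intro a
    refine sum_sq_le_sum_mul_sum_of_sq_le_mul s hc
      (fun i hi => mul_nonneg (hc i hi) (sq_nonneg _)) (fun i _ => le_of_eq (by ring))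
  refine (Ev_mono h1).trans (le_of_eq ?_)
  rw [Ev_mul_left, Ev_sum]
  congr 1
  exact sum_congr rfl fun i _ => Ev_mul_left _ _ _ _

/-- the same with all second moments `≤ B` -/
theorem Ev_sq_mix_le {α : Type} {M : ℕ} {ι : Type} {t : RT α} {s : Finset ι} {c : ι → ℝ}
    {X : ι → α → ℝ} {B : ℝ} (hc : ∀ i ∈ s, 0 ≤ c i) (hc1 : ∑ i ∈ s, c i ≤ 1)
    (hX : ∀ i ∈ s, 0 < c i → t.Ev M (fun a => X i a ^ 2) ≤ B) :
    t.Ev M (fun a => (∑ i ∈ s, c i * X i a) ^ 2) ≤ B * ∑ i ∈ s, c i := by
  refine (Ev_sq_mix t s c X hc).trans ?_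
  have h0 : 0 ≤ ∑ i ∈ s, c i := sum_nonneg hc
  have h1 : ∑ i ∈ s, c i * t.Ev M (fun a => X i a ^ 2) ≤ ∑ i ∈ s, c i * B := by
    refine sum_le_sum fun i hi => ?_
    rcases (hc i hi).eq_or_lt with h | h
    · rw [← h]; simp
    · exact mul_le_mul_of_nonneg_left (hX i hi h) h.le
  rw [← sum_mul] at h1
  have h2 : (∑ i ∈ s, c i) * ∑ i ∈ s, c i * t.Ev M (fun a => X i a ^ 2) ≤
      1 * ((∑ i ∈ s, c i) * B) := by
    refine mul_le_mul hc1 h1 (sum_nonneg fun i hi => mul_nonneg (hc i hi) ?_) zero_le_one
    exact Ev_nonneg fun a => sq_nonneg _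
  linarith

/-! ## residues -/

section resid

variable {α β : Type} {M : ℕ}

/-- the elements whose index is `≡ r` mod `2^e` -/
def filt (e : ℕ) (idx : α → ℕ) (l : List α) (r : ℕ) : List α :=
  l.filter fun a => decide (idx a % 2 ^ e = r % 2 ^ e)

/-- one word, then the calls of the residue class; the result contains the word -/
def resid (e : ℕ) (idx : α → ℕ) (l : List α) (f : α → RT β) : RT (ℕ × List β) :=
  draw.bind fun r => (trav f (filt e idx l r)).map fun x => (r, x)

/-- value of the element `a` in the result of `resid`: weight `2^e`, `0` if it was not called -/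
noncomputable def rv [DecidableEq α] (e : ℕ) (idx : α → ℕ) (l : List α) (a : α) (g : β → ℝ)
    (x : ℕ × List β) : ℝ :=
  2 ^ e * zs (fun a' b => if a' = a then g b else 0) (filt e idx l x.1) x.2

theorem sum_map_ite [DecidableEq α] {l : List α} (hl : l.Nodup) (a : α) (c : ℝ) :
    (l.map fun a' => if a' = a then c else 0).sum = if a ∈ l then c else 0 := by
  induction l with
  | nil => simp
  | cons b l ih =>
    rw [List.nodup_cons] at hl
    rw [List.map_cons, List.sum_cons, ih hl.2]
    by_cases h : b = a
    · subst h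
      simp [hl.1]
    · have h' : ¬ a = b := fun h2 => h h2.symm
      simp [h, h']

theorem Ev_ind_trav [DecidableEq α] (hM : 0 < M) (f : α → RT β) {l : List α} (hl : l.Nodup) (a : α)
    (g : β → ℝ) :
    (trav f l).Ev M (zs (fun a' b => if a' = a then g b else 0) l) =
      if a ∈ l then (f a).Ev M g else 0 := by
  rw [Ev_trav hM]
  have : ∀ a' : α, (f a').Ev M (fun b => if a' = a then g b else 0)
      = if a' = a then (f a).Ev M g else 0 := by
    intro a'
    by_cases h : a' = a
    · subst h; simp
    · simp only [h, if_false]; rw [Ev_const hM]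
  simp only [this]
  exact sum_map_ite hl a _

/-- the square of an indicator sum -/
theorem zs_ind_sq [DecidableEq α] {l : List α} (hl : l.Nodup) (a : α) (g : β → ℝ) (x : List β) :
    zs (fun a' b => if a' = a then g b else 0) l x ^ 2
      = zs (fun a' b => if a' = a then g b ^ 2 else 0) l x := by
  induction l generalizing x with
  | nil => simp
  | cons b l ih =>
    rw [List.nodup_cons] at hl
    cases x with
    | nil => simp [zs]
    | cons y x =>
      rw [zs_cons, zs_cons]
      by_cases h : b = a
      · subst h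
        have hz : ∀ (u : β → ℝ) (x : List β) (l : List α), b ∉ l →
            zs (fun a' b' => if a' = b then u b' else 0) l x = 0 := by
          intro u x l
          induction l generalizing x with
          | nil => intro _; simp
          | cons c l ih2 =>
            intro hc
            rw [List.mem_cons, not_or] at hc
            cases x with
            | nil => simp [zs]
            | cons y x =>
              rw [zs_cons, ih2 x hc.2]
              have : ¬ c = b := fun h => hc.1 h.symm
              simp [this]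
        rw [hz g x l hl.1, hz (fun b => g b ^ 2) x l hl.1]
        simp
      · simp only [h, if_false, zero_add]
        exact ih hl.2 x

theorem mem_filt {e : ℕ} {idx : α → ℕ} {l : List α} {r : ℕ} {a : α} :
    a ∈ filt e idx l r ↔ a ∈ l ∧ idx a % 2 ^ e = r % 2 ^ e := by
  unfold filt; simp

theorem nodup_filt {e : ℕ} {idx : α → ℕ} {l : List α} (hl : l.Nodup) (r : ℕ) :
    (filt e idx l r).Nodup := hl.filter _

theorem Ev_res_ind {e k : ℕ} (hM : 0 < M) (he : 2 ^ e ∣ M) (c : ℝ) :
    draw.Ev M (fun r => if k % 2 ^ e = r % 2 ^ e then c else 0) = c / 2 ^ e := by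
  refine (Ev_mod_eq hM he (fun r => if k % 2 ^ e = r then c else 0)).trans ?_
  rw [Finset.sum_ite_eq]
  have : k % 2 ^ e ∈ range (2 ^ e) := mem_range.2 (Nat.mod_lt _ (by positivity))
  simp [this]

/-- **mean of a residue thinned call: exact** -/
theorem Ev_resid [DecidableEq α] {e : ℕ} (hM : 0 < M) (he : 2 ^ e ∣ M) (idx : α → ℕ) {l : List α}
    (hl : l.Nodup) (f : α → RT β) {a : α} (ha : a ∈ l) (g : β → ℝ) :
    (resid e idx l f).Ev M (rv e idx l a g) = (f a).Ev M g := by
  have hp : (0 : ℝ) < 2 ^ e := by positivity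
  unfold resid rv
  rw [Ev_bind]
  simp only [Ev_map, Ev_mul_left]
  have h1 : ∀ r, (trav f (filt e idx l r)).Ev M
      (zs (fun a' b => if a' = a then g b else 0) (filt e idx l r))
      = if idx a % 2 ^ e = r % 2 ^ e then (f a).Ev M g else 0 := by
    intro r
    rw [Ev_ind_trav hM f (nodup_filt hl r)]
    simp [mem_filt, ha]
  simp only [h1]
  rw [Ev_res_ind hM he]
  field_simp

/-- **second moment of a residue thinned call: exact** -/
theorem sq_resid [DecidableEq α] {e : ℕ} (hM : 0 < M) (he : 2 ^ e ∣ M) (idx : α → ℕ) {l : List α}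
    (hl : l.Nodup) (f : α → RT β) {a : α} (ha : a ∈ l) (g : β → ℝ) :
    (resid e idx l f).Ev M (fun x => rv e idx l a g x ^ 2) =
      2 ^ e * (f a).Ev M (fun b => g b ^ 2) := by
  have hp : (0 : ℝ) < 2 ^ e := by positivity
  have h0 : (fun x : ℕ × List β => rv e idx l a g x ^ 2)
      = fun x => 2 ^ e * rv e idx l a (fun b => g b ^ 2) x := by
    funext x
    have hx : zs (fun a' b => if a' = a then g b else 0) (filt e idx l x.1) x.2 ^ 2
        = zs (fun a' b => if a' = a then g b ^ 2 else 0) (filt e idx l x.1) x.2 :=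
      zs_ind_sq (nodup_filt hl x.1) a g x.2
    unfold rv
    rw [mul_pow, hx]
    ring
  rw [h0, Ev_mul_left, Ev_resid hM he idx hl f ha (fun b => g b ^ 2)]

/-- number of calls of a residue class of consecutive indices -/
theorem length_filt_range {e N c r : ℕ} :
    (filt e (fun i : ℕ => c + i) (List.range N) r).length ≤ N / 2 ^ e + 2 := by
  have hp : 0 < 2 ^ e := by positivity
  unfold filt
  have h1 : ((List.range N).filter fun i => decide ((c + i) % 2 ^ e = r % 2 ^ e)).length
      = ((Finset.range N).filter fun i => (c + i) % 2 ^ e = r % 2 ^ e).card := by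
    rw [← List.toFinset_card_of_nodup ((List.nodup_range).filter _)]
    congr 1
    ext i
    simp
  rw [h1]
  -- inject the quotients
  have h2 : ((Finset.range N).filter fun i => (c + i) % 2 ^ e = r % 2 ^ e).card
      ≤ (Finset.Icc (c / 2 ^ e) ((c + N) / 2 ^ e)).card := by
    refine Finset.card_le_card_of_injOn (fun i => (c + i) / 2 ^ e) ?_ ?_
    · intro i hi
      rw [Finset.coe_filter] at hi
      have hi1 : i < N := by simpa using hi.1
      rw [Finset.coe_Icc, Set.mem_Icc]
      exact ⟨Nat.div_le_div_right (by omega), Nat.div_le_div_right (by omega)⟩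
    · intro i hi j hj hij
      rw [Finset.coe_filter] at hi hj
      have hi2 : (c + i) % 2 ^ e = r % 2 ^ e := hi.2
      have hj2 : (c + j) % 2 ^ e = r % 2 ^ e := hj.2
      have hij' : (c + i) / 2 ^ e = (c + j) / 2 ^ e := hij
      have e1 := Nat.div_add_mod (c + i) (2 ^ e)
      have e2 := Nat.div_add_mod (c + j) (2 ^ e)
      rw [hi2] at e1
      rw [hj2, ← hij'] at e2
      omega
  refine h2.trans ?_
  rw [Nat.card_Icc]
  have h3 : (c + N) / 2 ^ e ≤ c / 2 ^ e + N / 2 ^ e + 1 := by
    have h4 : (c + N) / 2 ^ e < c / 2 ^ e + N / 2 ^ e + 2 := by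
      rw [Nat.div_lt_iff_lt_mul hp]
      have a1 := Nat.lt_mul_div_succ c hp
      have a2 := Nat.lt_mul_div_succ N hp
      nlinarith
    exact Nat.lt_succ_iff.1 h4
  generalize (c + N) / 2 ^ e = q3 at h3 ⊢
  generalize c / 2 ^ e = q1 at h3 ⊢
  generalize N / 2 ^ e = q2 at h3 ⊢
  omega

end resid

end Crest.Agent.R288.SpawnB944
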