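import Mathlib

/-!
# R288 (S0433): the stop price with the 2-adic surcharge (post GAP + REPAIR 288-700)

The stop price of the relative round must be (i) EXACTLY 1-Lipschitz on all integer states and
(ii) computable from the values of the previous round `Tt` on a grid of `poly(L)` points, up to
`L^-6 T`, although `Tt` itself is only known to satisfy `T ≤ Tt ≤ (1 + e) T` with `T` 1-Lipschitz.

`price y = 3 Tt y + sur (3 Tt y) y`, where `sur t y = δ (t - Q 2^{i(y)})⁺`, `i(y)` = 2-adic level of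
the state `y`; `S x = inf_y (d x y + price y)` over ALL states.

* abstract part: distance `d`, nested grids `gr a`, surcharge `sur`;
  `round_price` : for every state `y` and every `a` there is `y'` in grid `a` with
  `d y y' + price y' ≤ price y + 8 Q 2^a`;
  `S_lip`, `S_le_price`, `T_le_S`, `S_approx`;
* unit version (`uprice`, `uS`, `uS_lip`, `uS_le_self`, `le_uS`, `round_uprice`, `uS_menu`): value `R`
  only 1-Lipschitz up to `b F`, surcharge `lam (F y - Q 2^{i(y)})⁺`, `b ≤ lam / 4`;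
* `Z2` part: states `ℤ × ℤ` (node fixed), `lev`, `sur`, all hypotheses verified, the infimum is
  attained, `S_menu` : the minimum over any finite set which contains the grid points of a ball is
  `S x` up to `8 Q 2^a`; `price_near` (noise).
-/

set_option autoImplicit false

namespace Crest.Agent.R288.StopP700

section Abstract

variable {X : Type*} (d : X → X → ℝ) (gr : ℕ → X → Prop) (sur : ℝ → X → ℝ) (Tt T : X → ℝ)

/-- price of stopping at `y` -/
def price (y : X) : ℝ := 3 * Tt y + sur (3 * Tt y) y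

/-- stop price: inf-convolution of `price` with the distance -/
noncomputable def S (x : X) : ℝ := ⨅ y, (d x y + price sur Tt y)

/-- the hypotheses on distance, grids and surcharge -/
structure Hyp (Q δ : ℝ) : Prop where
  d_self : ∀ x, d x x = 0
  d_nonneg : ∀ x y, 0 ≤ d x y
  d_tri : ∀ x y z, d x z ≤ d x y + d y z
  gr_zero : ∀ y, gr 0 y
  gr_anti : ∀ a b y, a ≤ b → gr b y → gr a y
  round : ∀ a y, ∃ y', gr a y' ∧ d y y' ≤ 2 ^ a ∧ d y' y ≤ 2 ^ a
  sur_nonneg : ∀ t y, 0 ≤ sur t y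
  sur_zero : ∀ a t y, gr a y → t ≤ Q * 2 ^ a → sur t y = 0
  le_sur : ∀ a t y, ¬ gr a y → δ * (t - Q * 2 ^ a / 2) ≤ sur t y
  sur_le : ∀ t y, 0 ≤ t → sur t y ≤ δ * t

variable {d gr sur Tt T} {Q δ e : ℝ}

/-- the known function: `T ≤ Tt ≤ (1 + e) T`, `T ≥ 0` 1-Lipschitz -/
structure Prom (d : X → X → ℝ) (Tt T : X → ℝ) (e : ℝ) : Prop where
  nn : ∀ x, 0 ≤ T x
  lip : ∀ x y, T x ≤ T y + d x y
  le : ∀ x, T x ≤ Tt x
  ge : ∀ x, Tt x ≤ (1 + e) * T x

theorem price_nonneg (H : Hyp d gr sur Q δ) (P : Prom d Tt T e) (y : X) :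
    0 ≤ price sur Tt y := by
  have h1 := H.sur_nonneg (3 * Tt y) y
  have h2 := P.nn y
  have h3 := P.le y
  unfold price
  linarith

theorem three_le_price (H : Hyp d gr sur Q δ) (y : X) : 3 * Tt y ≤ price sur Tt y := by
  have h1 := H.sur_nonneg (3 * Tt y) y
  unfold price
  linarith

theorem price_le (H : Hyp d gr sur Q δ) (P : Prom d Tt T e) (y : X) :
    price sur Tt y ≤ 3 * (1 + δ) * Tt y := by
  have h2 := P.nn y
  have h3 := P.le y
  have h1 := H.sur_le (3 * Tt y) y (by linarith)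
  unfold price
  linarith

theorem bdd (H : Hyp d gr sur Q δ) (P : Prom d Tt T e) (x : X) :
    BddBelow (Set.range fun y => d x y + price sur Tt y) := by
  refine ⟨0, ?_⟩
  rintro _ ⟨y, rfl⟩
  have := H.d_nonneg x y
  have := price_nonneg H P y
  simp only
  linarith

theorem S_le (H : Hyp d gr sur Q δ) (P : Prom d Tt T e) (x y : X) :
    S d sur Tt x ≤ d x y + price sur Tt y :=
  ciInf_le (bdd H P x) y

theorem S_le_price (H : Hyp d gr sur Q δ) (P : Prom d Tt T e) (x : X) :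
    S d sur Tt x ≤ price sur Tt x := by
  have := S_le H P x x
  rw [H.d_self] at this
  linarith

/-- `S` is exactly 1-Lipschitz -/
theorem S_lip (H : Hyp d gr sur Q δ) (P : Prom d Tt T e) (x x' : X) :
    S d sur Tt x ≤ S d sur Tt x' + d x x' := by
  have : Nonempty X := ⟨x⟩
  have h : S d sur Tt x - d x x' ≤ S d sur Tt x' := by
    refine le_ciInf fun y => ?_
    have h1 := S_le H P x y
    have h2 := H.d_tri x x' y
    linarith
  linarith

/-- `T ≤ S` -/
theorem T_le_S (H : Hyp d gr sur Q δ) (P : Prom d Tt T e) (x : X) : T x ≤ S d sur Tt x := by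
  have : Nonempty X := ⟨x⟩
  refine le_ciInf fun y => ?_
  have h1 := three_le_price (Tt := Tt) H y
  have h2 := P.lip x y
  have h3 := P.le y
  have h4 := P.nn y
  linarith

/-- any lower bound `r * (G y)` of `3 Tt` passes to `S`: `V ≥ (3/B) G` uses `r = 3/B ≤ 1` -/
theorem le_S_of {r : ℝ} {G : X → ℝ} (H : Hyp d gr sur Q δ) (hr0 : 0 ≤ r) (hr1 : r ≤ 1)
    (hG : ∀ x y, G x ≤ G y + d x y) (h : ∀ y, r * G y ≤ 3 * Tt y) (x : X) :
    r * G x ≤ S d sur Tt x := by
  have : Nonempty X := ⟨x⟩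
  refine le_ciInf fun y => ?_
  have h1 := three_le_price (Tt := Tt) H y
  have h2 := h y
  have h3 : r * G x ≤ r * (G y + d x y) := mul_le_mul_of_nonneg_left (hG x y) hr0
  have h4 : r * d x y ≤ 1 * d x y := mul_le_mul_of_nonneg_right hr1 (H.d_nonneg x y)
  linarith

/-- value of the known function at a rounded state -/
theorem Tt_round (P : Prom d Tt T e) (he : 0 ≤ e) {y y' : X} {r : ℝ} (h : d y' y ≤ r) :
    Tt y' ≤ (1 + e) * (Tt y + r) := by
  have h1 := P.ge y'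
  have h2 := P.lip y' y
  have h3 := P.le y
  have h4 : T y' ≤ Tt y + r := by linarith
  exact h1.trans (mul_le_mul_of_nonneg_left h4 (by linarith))

/-- **rounding lemma** -/
theorem round_price (H : Hyp d gr sur Q δ) (P : Prom d Tt T e) (hδ : 0 < δ) (hδ1 : δ ≤ 1)
    (he : 0 ≤ e) (heδ : e ≤ δ / 4) (hQ : 200 ≤ δ * Q) (a : ℕ) (y : X) :
    ∃ y', gr a y' ∧ d y y' + price sur Tt y' ≤ price sur Tt y + 8 * Q * 2 ^ a := by
  have hQ200 : 200 ≤ Q := by
    have hQ0 : 0 < Q := by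
      by_contra hcon
      have : δ * Q ≤ 0 := mul_nonpos_of_nonneg_of_nonpos hδ.le (not_lt.mp hcon)
      linarith
    have : δ * Q ≤ 1 * Q := mul_le_mul_of_nonneg_right hδ1 hQ0.le
    linarith
  have he4 : e ≤ 1 / 4 := by linarith
  have hs : (0 : ℝ) < 2 ^ a := by positivity
  have hs' : 0 < Q * 2 ^ a := by positivity
  by_cases hg : gr a y
  · refine ⟨y, hg, ?_⟩
    rw [H.d_self]
    linarith
  have hTt : 0 ≤ Tt y := (P.nn y).trans (P.le y)
  obtain ⟨t, ht⟩ : ∃ t, t = 3 * Tt y := ⟨_, rfl⟩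
  have ht0 : 0 ≤ t := by linarith
  have hpy : t ≤ price sur Tt y := by rw [ht]; exact three_le_price H y
  by_cases hA : (1 + e) * (t + 3 * 2 ^ a) ≤ Q * 2 ^ a
  · -- case A: round to grid `a`
    obtain ⟨y', hy', hd, hd'⟩ := H.round a y
    refine ⟨y', hy', ?_⟩
    have h1 : 3 * Tt y' ≤ (1 + e) * (t + 3 * 2 ^ a) := by
      have := Tt_round P he hd'
      rw [ht]
      linarith
    have h2 : sur (3 * Tt y') y' = 0 := H.sur_zero a _ y' hy' (h1.trans hA)
    have h3 : price sur Tt y' = 3 * Tt y' := by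
      show 3 * Tt y' + sur (3 * Tt y') y' = 3 * Tt y'
      rw [h2, add_zero]
    have h4 : t ≤ Q * 2 ^ a := by
      have h5 : t ≤ (1 + e) * (t + 3 * 2 ^ a) := by
        have : 0 ≤ e * (t + 3 * 2 ^ a) := by positivity
        nlinarith
      linarith
    have h5 : e * t ≤ 1 * (Q * 2 ^ a) :=
      mul_le_mul (by linarith) h4 ht0 (by norm_num)
    have h6 : (1 + e) * (t + 3 * 2 ^ a) = t + e * t + 3 * (1 + e) * 2 ^ a := by ring
    have h7 : 3 * (1 + e) * (2 : ℝ) ^ a ≤ 4 * 2 ^ a :=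
      mul_le_mul_of_nonneg_right (by linarith) hs.le
    have h8 : (5 : ℝ) * 2 ^ a ≤ Q * 2 ^ a := mul_le_mul_of_nonneg_right (by linarith) hs.le
    rw [h3]
    nlinarith
  · -- case B: round to the coarser grid
    have hex : ∃ b : ℕ, 2 * t ≤ (Q - 6) * 2 ^ b := by
      obtain ⟨b, hb⟩ := pow_unbounded_of_one_lt (2 * t) (by norm_num : (1 : ℝ) < 2)
      refine ⟨b, hb.le.trans ?_⟩
      have : (1 : ℝ) * 2 ^ b ≤ (Q - 6) * 2 ^ b :=
        mul_le_mul_of_nonneg_right (by linarith) (by positivity)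
      linarith
    classical
    obtain ⟨b, hb, hmin⟩ : ∃ b : ℕ, 2 * t ≤ (Q - 6) * 2 ^ b ∧
        ∀ c < b, ¬ (2 * t ≤ (Q - 6) * 2 ^ c) :=
      ⟨Nat.find hex, Nat.find_spec hex, fun c hc => Nat.find_min hex hc⟩
    push Not at hA
    have hab : a ≤ b := by
      by_contra hcon
      push Not at hcon
      have h1 : (2 : ℝ) ^ b * 2 ≤ 2 ^ a := by
        rw [← pow_succ]
        exact pow_le_pow_right₀ (by norm_num) hcon
      have h2 : 2 * (2 * t) ≤ (Q - 6) * 2 ^ a := by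
        have : (Q - 6) * ((2 : ℝ) ^ b * 2) ≤ (Q - 6) * 2 ^ a :=
          mul_le_mul_of_nonneg_left h1 (by linarith)
        nlinarith
      have h3 : (1 + e) * (t + 3 * 2 ^ a) ≤ (5 / 4) * (t + 3 * 2 ^ a) :=
        mul_le_mul_of_nonneg_right (by linarith) (by positivity)
      have h4 : (200 : ℝ) * 2 ^ a ≤ Q * 2 ^ a := mul_le_mul_of_nonneg_right hQ200 hs.le
      nlinarith
    have ha1 : 1 ≤ a := by
      rcases Nat.eq_zero_or_pos a with h | h
      · subst h
        exact absurd (H.gr_zero y) hg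
      · exact h
    obtain ⟨c, rfl⟩ : ∃ c, b = c + 1 := ⟨b - 1, by omega⟩
    have hc := hmin c (by omega)
    push Not at hc
    obtain ⟨y', hy', hd, hd'⟩ := H.round (c + 1) y
    refine ⟨y', H.gr_anti a (c + 1) y' hab hy', ?_⟩
    obtain ⟨s', hs2⟩ : ∃ s' : ℝ, s' = 2 ^ (c + 1) := ⟨_, rfl⟩
    have hs20 : 0 < s' := by rw [hs2]; positivity
    rw [← hs2] at hb hd hd'
    have hcs : (2 : ℝ) ^ c = s' / 2 := by rw [hs2, pow_succ]; ring
    rw [hcs] at hc
    have h1 : 3 * Tt y' ≤ (1 + e) * (t + 3 * s') := by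
      have := Tt_round P he hd'
      rw [ht]
      linarith
    have h1' : (1 + e) * (t + 3 * s') ≤ (5 / 4) * (t + 3 * s') :=
      mul_le_mul_of_nonneg_right (by linarith) (by positivity)
    have h2 : (1 + e) * (t + 3 * s') ≤ Q * s' := by nlinarith
    have h3 : sur (3 * Tt y') y' = 0 :=
      H.sur_zero (c + 1) _ y' hy' (by rw [← hs2]; exact h1.trans h2)
    have h4 : price sur Tt y' = 3 * Tt y' := by
      show 3 * Tt y' + sur (3 * Tt y') y' = 3 * Tt y'
      rw [h3, add_zero]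
    have h5 := H.le_sur a t y hg
    have h6 : price sur Tt y = t + sur t y := by rw [ht]; rfl
    -- `Q 2^a < 1.28 t`
    have h7 : Q * 2 ^ a * (1 - 4 / 200) ≤ (5 / 4) * t := by
      have h8 : (1 + e) * (t + 3 * 2 ^ a) ≤ (5 / 4) * (t + 3 * 2 ^ a) :=
        mul_le_mul_of_nonneg_right (by linarith) (by positivity)
      have h9 : (200 : ℝ) * 2 ^ a ≤ Q * 2 ^ a := mul_le_mul_of_nonneg_right hQ200 hs.le
      nlinarith
    have h8 : δ * (t * (36 / 100)) ≤ δ * (t - Q * 2 ^ a / 2) :=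
      mul_le_mul_of_nonneg_left (by nlinarith) hδ.le
    -- `(Q - 6) s' < 4 t`
    have h9 : (Q - 6) * s' ≤ 4 * t := by linarith
    have h10 : 5 * s' ≤ δ * t * (11 / 100) := by
      have h11 : 182 ≤ δ * (Q - 6) := by nlinarith
      have h12 : δ * ((Q - 6) * s') ≤ δ * (4 * t) := mul_le_mul_of_nonneg_left h9 hδ.le
      have h13 : 182 * s' ≤ δ * (Q - 6) * s' := mul_le_mul_of_nonneg_right h11 hs20.le
      nlinarith
    have h11 : e * t ≤ δ / 4 * t := mul_le_mul_of_nonneg_right heδ ht0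
    have h12 : (1 + e) * (t + 3 * s') = t + e * t + 3 * (1 + e) * s' := by ring
    have h13 : 3 * (1 + e) * s' ≤ 4 * s' := mul_le_mul_of_nonneg_right (by linarith) hs20.le
    rw [h4, h6]
    nlinarith

/-- `S` is approximated from grid `a` -/
theorem S_approx (H : Hyp d gr sur Q δ) (P : Prom d Tt T e) (hδ : 0 < δ) (hδ1 : δ ≤ 1)
    (he : 0 ≤ e) (heδ : e ≤ δ / 4) (hQ : 200 ≤ δ * Q) (a : ℕ) (x y : X)
    (hy : S d sur Tt x = d x y + price sur Tt y) :
    ∃ y', gr a y' ∧ d x y' + price sur Tt y' ≤ S d sur Tt x + 8 * Q * 2 ^ a ∧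
      d x y' ≤ price sur Tt x + 8 * Q * 2 ^ a := by
  obtain ⟨y', hg, h⟩ := round_price H P hδ hδ1 he heδ hQ a y
  have h1 := H.d_tri x y y'
  have h2 : d x y' + price sur Tt y' ≤ S d sur Tt x + 8 * Q * 2 ^ a := by linarith
  refine ⟨y', hg, h2, ?_⟩
  have h3 := price_nonneg H P y'
  have h4 := S_le_price H P x
  linarith

end Abstract

/-! ### unit version (base text FROM ABOVE): `R` = honest value, 1-Lipschitz up to `b F`, `F` = unit -/

section Unit

variable {X : Type*} {d : X → X → ℝ} {gr : ℕ → X → Prop} {sur : ℝ → X → ℝ} {R F : X → ℝ}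
variable {Q lam b : ℝ}

/-- price of the target `y` when the unit is `F` -/
def uprice (sur : ℝ → X → ℝ) (R F : X → ℝ) (y : X) : ℝ := R y + sur (F y) y

/-- `f x = inf_y (d x y + R y + sur (F y) y)` -/
noncomputable def uS (d : X → X → ℝ) (sur : ℝ → X → ℝ) (R F : X → ℝ) (x : X) : ℝ :=
  ⨅ y, (d x y + uprice sur R F y)

/-- `R` is 1-Lipschitz up to `b F`, at most `(1 + b) F`; `F` is 1-Lipschitz -/
structure Near (d : X → X → ℝ) (R F : X → ℝ) (b : ℝ) : Prop where
  nn : ∀ x, 0 ≤ R x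
  fnn : ∀ x, 0 ≤ F x
  flip : ∀ x y, F x ≤ F y + d x y
  le : ∀ x, R x ≤ (1 + b) * F x
  near : ∀ x y, R x ≤ R y + d x y + b * F y

theorem uprice_nonneg (H : Hyp d gr sur Q lam) (P : Near d R F b) (y : X) :
    0 ≤ uprice sur R F y := by
  have h1 := H.sur_nonneg (F y) y
  have h2 := P.nn y
  unfold uprice
  linarith

theorem uS_le (H : Hyp d gr sur Q lam) (P : Near d R F b) (x y : X) :
    uS d sur R F x ≤ d x y + uprice sur R F y := by
  refine ciInf_le ⟨0, ?_⟩ y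
  rintro _ ⟨z, rfl⟩
  have := H.d_nonneg x z
  have := uprice_nonneg H P z
  simp only
  linarith

/-- exactly 1-Lipschitz -/
theorem uS_lip (H : Hyp d gr sur Q lam) (P : Near d R F b) (x x' : X) :
    uS d sur R F x ≤ uS d sur R F x' + d x x' := by
  have : Nonempty X := ⟨x⟩
  have h : uS d sur R F x - d x x' ≤ uS d sur R F x' := by
    refine le_ciInf fun y => ?_
    have h1 := uS_le H P x y
    have h2 := H.d_tri x x' y
    linarith
  linarith

/-- `f ≤ R + lam F` -/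
theorem uS_le_self (H : Hyp d gr sur Q lam) (P : Near d R F b) (x : X) :
    uS d sur R F x ≤ R x + lam * F x := by
  have h1 := uS_le H P x x
  rw [H.d_self] at h1
  have h2 := H.sur_le (F x) x (P.fnn x)
  unfold uprice at h1
  linarith

/-- a 1-Lipschitz lower bound of `R` is a lower bound of `f` -/
theorem le_uS {G : X → ℝ} (H : Hyp d gr sur Q lam) (hG : ∀ x y, G x ≤ G y + d x y)
    (hR : ∀ y, G y ≤ R y) (x : X) : G x ≤ uS d sur R F x := by
  have : Nonempty X := ⟨x⟩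
  refine le_ciInf fun y => ?_
  have h1 := H.sur_nonneg (F y) y
  have h2 := hG x y
  have h3 := hR y
  unfold uprice
  linarith

/-- **rounding lemma, unit version** -/
theorem round_uprice (H : Hyp d gr sur Q lam) (P : Near d R F b) (hl : 0 < lam) (hl1 : lam ≤ 1)
    (hbl : b ≤ lam / 4) (hQ : 60 ≤ lam * Q) (a : ℕ) (y : X) :
    ∃ y', gr a y' ∧ d y y' + uprice sur R F y' ≤ uprice sur R F y + 2 * Q * 2 ^ a := by
  have hQ60 : 60 ≤ Q := by
    have hQ0 : 0 < Q := by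
      by_contra hcon
      have : lam * Q ≤ 0 := mul_nonpos_of_nonneg_of_nonpos hl.le (not_lt.mp hcon)
      linarith
    have : lam * Q ≤ 1 * Q := mul_le_mul_of_nonneg_right hl1 hQ0.le
    linarith
  have hs : (0 : ℝ) < 2 ^ a := by positivity
  have hs60 : (60 : ℝ) * 2 ^ a ≤ Q * 2 ^ a := mul_le_mul_of_nonneg_right hQ60 hs.le
  have hF := P.fnn y
  have hR := P.nn y
  by_cases hg : gr a y
  · refine ⟨y, hg, ?_⟩
    rw [H.d_self]
    nlinarith
  by_cases hA : F y + 2 ^ a ≤ Q * 2 ^ a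
  · obtain ⟨y', hy', hd, hd'⟩ := H.round a y
    refine ⟨y', hy', ?_⟩
    have h1 : F y' ≤ Q * 2 ^ a := by
      have := P.flip y' y
      linarith
    have h2 : sur (F y') y' = 0 := H.sur_zero a _ y' hy' h1
    have h3 := P.le y'
    have h4 : (1 + b) * F y' ≤ (5 / 4) * (Q * 2 ^ a) :=
      mul_le_mul (by linarith) h1 (P.fnn y') (by norm_num)
    have h5 := uprice_nonneg H P y
    have h6 : uprice sur R F y' = R y' := by
      show R y' + sur (F y') y' = R y'
      rw [h2, add_zero]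
    rw [h6]
    nlinarith
  · push Not at hA
    have hex : ∃ c : ℕ, F y ≤ (Q - 1) * 2 ^ c := by
      obtain ⟨c, hc⟩ := pow_unbounded_of_one_lt (F y) (by norm_num : (1 : ℝ) < 2)
      refine ⟨c, hc.le.trans ?_⟩
      have : (1 : ℝ) * 2 ^ c ≤ (Q - 1) * 2 ^ c :=
        mul_le_mul_of_nonneg_right (by linarith) (by positivity)
      linarith
    classical
    obtain ⟨c, hc, hmin⟩ : ∃ c : ℕ, F y ≤ (Q - 1) * 2 ^ c ∧
        ∀ i < c, ¬ (F y ≤ (Q - 1) * 2 ^ i) :=
      ⟨Nat.find hex, Nat.find_spec hex, fun i hi => Nat.find_min hex hi⟩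
    have hac : a ≤ c := by
      by_contra hcon
      push Not at hcon
      have h1 : (2 : ℝ) ^ c ≤ 2 ^ a := pow_le_pow_right₀ (by norm_num) hcon.le
      have h2 : (Q - 1) * (2 : ℝ) ^ c ≤ (Q - 1) * 2 ^ a :=
        mul_le_mul_of_nonneg_left h1 (by linarith)
      linarith
    have ha1 : 1 ≤ a := by
      rcases Nat.eq_zero_or_pos a with h | h
      · subst h
        exact absurd (H.gr_zero y) hg
      · exact h
    obtain ⟨i, rfl⟩ : ∃ i, c = i + 1 := ⟨c - 1, by omega⟩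
    have hi := hmin i (by omega)
    push Not at hi
    obtain ⟨y', hy', hd, hd'⟩ := H.round (i + 1) y
    refine ⟨y', H.gr_anti a (i + 1) y' hac hy', ?_⟩
    obtain ⟨s', hs2⟩ : ∃ s' : ℝ, s' = 2 ^ (i + 1) := ⟨_, rfl⟩
    have hs20 : 0 < s' := by rw [hs2]; positivity
    rw [← hs2] at hc hd hd'
    have his : (2 : ℝ) ^ i = s' / 2 := by rw [hs2, pow_succ]; ring
    rw [his] at hi
    have h1 : F y' ≤ Q * s' := by
      have := P.flip y' y
      linarith
    have h2 : sur (F y') y' = 0 := H.sur_zero (i + 1) _ y' hy' (by rw [← hs2]; exact h1)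
    have h3 : uprice sur R F y' = R y' := by
      show R y' + sur (F y') y' = R y'
      rw [h2, add_zero]
    have h4 := P.near y' y
    have h5 := H.le_sur a (F y) y hg
    have h6 : uprice sur R F y = R y + sur (F y) y := rfl
    -- `Q 2^a / 2 ≤ 0.51 F y`
    have h7 : Q * 2 ^ a ≤ (60 / 59) * F y := by nlinarith
    have h8 : lam * (F y * (49 / 100)) ≤ lam * (F y - Q * 2 ^ a / 2) :=
      mul_le_mul_of_nonneg_left (by nlinarith) hl.le
    have h9 : b * F y ≤ lam / 4 * F y := mul_le_mul_of_nonneg_right hbl hF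
    -- `s' ≤ 2 F y / (Q - 1)`
    have h10 : 2 * s' ≤ lam * F y * (24 / 100) := by
      have h11 : 59 ≤ lam * (Q - 1) := by nlinarith
      have h12 : lam * ((Q - 1) * s') ≤ lam * (2 * F y) :=
        mul_le_mul_of_nonneg_left (by linarith) hl.le
      have h13 : 59 * s' ≤ lam * (Q - 1) * s' := mul_le_mul_of_nonneg_right h11 hs20.le
      nlinarith
    have h14 : 0 ≤ 2 * Q * 2 ^ a := by nlinarith
    rw [h3, h6]
    nlinarith

end Unit

/-! ### integer states -/

/-- distance of two states of a node -/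
def dZ (x y : ℤ × ℤ) : ℝ := |(x.1 : ℝ) - y.1| + |(x.2 : ℝ) - y.2|

/-- grid of step `2 ^ a` -/
def grZ (a : ℕ) (y : ℤ × ℤ) : Prop := (2 : ℤ) ^ a ∣ y.1 ∧ (2 : ℤ) ^ a ∣ y.2

/-- 2-adic level of a state `≠ 0` -/
def lev (y : ℤ × ℤ) : ℕ := padicValNat 2 (Int.gcd y.1 y.2)

/-- surcharge -/
noncomputable def surZ (Q δ t : ℝ) (y : ℤ × ℤ) : ℝ :=
  if y = 0 then 0 else δ * max 0 (t - Q * 2 ^ lev y)

theorem grZ_iff (a : ℕ) (y : ℤ × ℤ) (hy : y ≠ 0) : grZ a y ↔ a ≤ lev y := by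
  have hg : Int.gcd y.1 y.2 ≠ 0 := by
    rw [Ne, Int.gcd_eq_zero_iff]
    rintro ⟨h1, h2⟩
    exact hy (Prod.ext h1 h2)
  unfold grZ lev
  have h1 : ((2 : ℤ) ^ a ∣ y.1 ∧ (2 : ℤ) ^ a ∣ y.2) ↔ (2 ^ a : ℕ) ∣ Int.gcd y.1 y.2 := by
    constructor
    · rintro ⟨ha, hb⟩
      have := Int.dvd_coe_gcd ha hb
      exact_mod_cast this
    · intro h
      have h' : ((2 : ℤ) ^ a) ∣ (Int.gcd y.1 y.2 : ℤ) := by exact_mod_cast h
      exact ⟨h'.trans (Int.gcd_dvd_left ..), h'.trans (Int.gcd_dvd_right ..)⟩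
  rw [h1]
  exact padicValNat_dvd_iff_le hg

theorem exists_round (a : ℕ) (u : ℤ) : ∃ v : ℤ, (2 : ℤ) ^ a ∣ v ∧ |(u : ℝ) - v| ≤ 2 ^ a / 2 := by
  refine ⟨2 ^ a * round ((u : ℝ) / 2 ^ a), dvd_mul_right _ _, ?_⟩
  have hp : (0 : ℝ) < 2 ^ a := by positivity
  have h := abs_sub_round ((u : ℝ) / 2 ^ a)
  have h2 : (u : ℝ) - ((2 ^ a * round ((u : ℝ) / 2 ^ a) : ℤ) : ℝ)
      = 2 ^ a * ((u : ℝ) / 2 ^ a - round ((u : ℝ) / 2 ^ a)) := by
    push_cast
    field_simp
  rw [h2, abs_mul, abs_of_pos hp]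
  nlinarith

theorem hypZ {Q δ : ℝ} (hδ : 0 ≤ δ) (hQ : 0 ≤ Q) : Hyp dZ grZ (surZ Q δ) Q δ where
  d_self x := by simp [dZ]
  d_nonneg x y := by unfold dZ; positivity
  d_tri x y z := by
    unfold dZ
    have h1 := abs_sub_le (x.1 : ℝ) y.1 z.1
    have h2 := abs_sub_le (x.2 : ℝ) y.2 z.2
    linarith
  gr_zero y := by simp [grZ]
  gr_anti a b y hab h := ⟨(pow_dvd_pow 2 hab).trans h.1, (pow_dvd_pow 2 hab).trans h.2⟩
  round a y := by
    obtain ⟨u, hu, hu'⟩ := exists_round a y.1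
    obtain ⟨v, hv, hv'⟩ := exists_round a y.2
    refine ⟨(u, v), ⟨hu, hv⟩, ?_, ?_⟩
    · unfold dZ
      simp only
      linarith
    · unfold dZ
      simp only
      rw [abs_sub_comm (u : ℝ), abs_sub_comm (v : ℝ)]
      linarith
  sur_nonneg t y := by
    unfold surZ
    split_ifs
    · exact le_rfl
    · exact mul_nonneg hδ (le_max_left _ _)
  sur_zero a t y hg ht := by
    unfold surZ
    split_ifs with h
    · rfl
    · have h1 := (grZ_iff a y h).mp hg
      have h2 : (2 : ℝ) ^ a ≤ 2 ^ lev y := pow_le_pow_right₀ (by norm_num) h1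
      have h3 : Q * 2 ^ a ≤ Q * 2 ^ lev y := mul_le_mul_of_nonneg_left h2 hQ
      rw [max_eq_left (by linarith), mul_zero]
  le_sur a t y hg := by
    have hy : y ≠ 0 := by
      rintro rfl
      exact hg ⟨dvd_zero _, dvd_zero _⟩
    unfold surZ
    rw [if_neg hy]
    have h1 : ¬ a ≤ lev y := fun h => hg ((grZ_iff a y hy).mpr h)
    have h2 : (2 : ℝ) ^ lev y * 2 ≤ 2 ^ a := by
      rw [← pow_succ]
      exact pow_le_pow_right₀ (by norm_num) (by omega)
    refine mul_le_mul_of_nonneg_left ?_ hδ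
    refine le_trans ?_ (le_max_right _ _)
    have h3 : Q * (2 ^ lev y * 2) ≤ Q * 2 ^ a := mul_le_mul_of_nonneg_left h2 hQ
    linarith
  sur_le t y ht := by
    unfold surZ
    split_ifs
    · positivity
    · refine mul_le_mul_of_nonneg_left (max_le ht ?_) hδ
      have : 0 ≤ Q * 2 ^ lev y := by positivity
      linarith

/-- a ball of `ℤ × ℤ` is finite -/
theorem ball_finite (x : ℤ × ℤ) (r : ℝ) : {y : ℤ × ℤ | dZ x y ≤ r}.Finite := by
  obtain ⟨n, hn⟩ := exists_nat_ge r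
  refine Set.Finite.subset
    ((Set.finite_Icc (x.1 - n) (x.1 + n)).prod (Set.finite_Icc (x.2 - n) (x.2 + n))) ?_
  intro y hy
  have hy1 : dZ x y ≤ r := hy
  have hy' : dZ x y ≤ n := hy1.trans hn
  unfold dZ at hy'
  have h1 : |(x.1 : ℝ) - y.1| ≤ n := by
    have := abs_nonneg ((x.2 : ℝ) - y.2)
    linarith
  have h2 : |(x.2 : ℝ) - y.2| ≤ n := by
    have := abs_nonneg ((x.1 : ℝ) - y.1)
    linarith
  rw [abs_le] at h1 h2
  have a1 : (x.1 : ℝ) - n ≤ y.1 := by linarith [h1.2]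
  have a2 : (y.1 : ℝ) ≤ x.1 + n := by linarith [h1.1]
  have a3 : (x.2 : ℝ) - n ≤ y.2 := by linarith [h2.2]
  have a4 : (y.2 : ℝ) ≤ x.2 + n := by linarith [h2.1]
  refine ⟨⟨?_, ?_⟩, ⟨?_, ?_⟩⟩
  · exact_mod_cast a1
  · exact_mod_cast a2
  · exact_mod_cast a3
  · exact_mod_cast a4

section Z

variable {Tt T : ℤ × ℤ → ℝ} {Q δ e : ℝ}

/-- the infimum is attained -/
theorem S_attained (hδ : 0 ≤ δ) (hQ : 0 ≤ Q) (P : Prom dZ Tt T e) (x : ℤ × ℤ) :
    ∃ y, S dZ (surZ Q δ) Tt x = dZ x y + price (surZ Q δ) Tt y := by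
  have H := hypZ hδ hQ
  have hfin := ball_finite x (price (surZ Q δ) Tt x)
  have hne : ({y : ℤ × ℤ | dZ x y ≤ price (surZ Q δ) Tt x}).Nonempty :=
    ⟨x, by show dZ x x ≤ _; rw [H.d_self]; exact price_nonneg H P x⟩
  obtain ⟨y, hy, hmin⟩ := Set.exists_min_image _ (fun y => dZ x y + price (surZ Q δ) Tt y) hfin hne
  refine ⟨y, le_antisymm (S_le H P x y) (le_ciInf fun z => ?_)⟩
  by_cases hz : dZ x z ≤ price (surZ Q δ) Tt x
  · exact hmin z hz
  · push Not at hz
    have h1 := hmin x (by show dZ x x ≤ _; rw [H.d_self]; exact price_nonneg H P x)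
    rw [H.d_self] at h1
    have h2 := price_nonneg H P z
    linarith

/-- **the stop price is computed on a grid**: minimum over any finite set which contains the points of
grid `a` in the ball of radius `price x + 8 Q 2^a` -/
theorem S_menu (P : Prom dZ Tt T e) (hδ : 0 < δ) (hδ1 : δ ≤ 1) (he : 0 ≤ e) (heδ : e ≤ δ / 4)
    (hQ : 200 ≤ δ * Q) (a : ℕ) (x : ℤ × ℤ) (M : Finset (ℤ × ℤ))
    (hM : ∀ y, grZ a y → dZ x y ≤ price (surZ Q δ) Tt x + 8 * Q * 2 ^ a → y ∈ M) :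
    (∀ y ∈ M, S dZ (surZ Q δ) Tt x ≤ dZ x y + price (surZ Q δ) Tt y) ∧
      ∃ y ∈ M, dZ x y + price (surZ Q δ) Tt y ≤ S dZ (surZ Q δ) Tt x + 8 * Q * 2 ^ a := by
  have hQ0 : 0 ≤ Q := by
    by_contra hcon
    have : δ * Q ≤ 0 := mul_nonpos_of_nonneg_of_nonpos hδ.le (not_le.mp hcon).le
    linarith
  have H := hypZ hδ.le hQ0
  refine ⟨fun y _ => S_le H P x y, ?_⟩
  obtain ⟨y, hy⟩ := S_attained hδ.le hQ0 P x
  obtain ⟨y', hg, h1, h2⟩ := S_approx H P hδ hδ1 he heδ hQ a x y hy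
  exact ⟨y', hM y' hg h2, h1⟩

/-- attained, unit version -/
theorem uS_attained {R F : ℤ × ℤ → ℝ} {lam b : ℝ} (hl : 0 ≤ lam) (hQ : 0 ≤ Q)
    (P : Near dZ R F b) (x : ℤ × ℤ) :
    ∃ y, uS dZ (surZ Q lam) R F x = dZ x y + uprice (surZ Q lam) R F y := by
  have H := hypZ hl hQ
  have hfin := ball_finite x (uprice (surZ Q lam) R F x)
  have hne : ({y : ℤ × ℤ | dZ x y ≤ uprice (surZ Q lam) R F x}).Nonempty :=
    ⟨x, by show dZ x x ≤ _; rw [H.d_self]; exact uprice_nonneg H P x⟩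
  obtain ⟨y, hy, hmin⟩ :=
    Set.exists_min_image _ (fun y => dZ x y + uprice (surZ Q lam) R F y) hfin hne
  refine ⟨y, le_antisymm (uS_le H P x y) (le_ciInf fun z => ?_)⟩
  by_cases hz : dZ x z ≤ uprice (surZ Q lam) R F x
  · exact hmin z hz
  · push Not at hz
    have h1 := hmin x (by show dZ x x ≤ _; rw [H.d_self]; exact uprice_nonneg H P x)
    rw [H.d_self] at h1
    have h2 := uprice_nonneg H P z
    linarith

/-- **unit version of `S_menu`**: the inf-convolution over ALL integer states is computed on grid `a`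
up to `2 Q 2^a` -/
theorem uS_menu {R F : ℤ × ℤ → ℝ} {lam b : ℝ} (P : Near dZ R F b) (hl : 0 < lam) (hl1 : lam ≤ 1)
    (hbl : b ≤ lam / 4) (hQ : 60 ≤ lam * Q) (a : ℕ) (x : ℤ × ℤ)
    (M : Finset (ℤ × ℤ))
    (hM : ∀ y, grZ a y → dZ x y ≤ uprice (surZ Q lam) R F x + 2 * Q * 2 ^ a → y ∈ M) :
    (∀ y ∈ M, uS dZ (surZ Q lam) R F x ≤ dZ x y + uprice (surZ Q lam) R F y) ∧
      ∃ y ∈ M, dZ x y + uprice (surZ Q lam) R F y ≤ uS dZ (surZ Q lam) R F x + 2 * Q * 2 ^ a := by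
  have hQ0 : 0 ≤ Q := by
    by_contra hcon
    have : lam * Q ≤ 0 := mul_nonpos_of_nonneg_of_nonpos hl.le (not_le.mp hcon).le
    linarith
  have H := hypZ hl.le hQ0
  refine ⟨fun y _ => uS_le H P x y, ?_⟩
  obtain ⟨y, hy⟩ := uS_attained hl.le hQ0 P x
  obtain ⟨y', hg, h⟩ := round_uprice H P hl hl1 hbl hQ a y
  have h1 := H.d_tri x y y'
  have h2 : dZ x y' + uprice (surZ Q lam) R F y'
      ≤ uS dZ (surZ Q lam) R F x + 2 * Q * 2 ^ a := by linarith
  refine ⟨y', hM y' hg ?_, h2⟩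
  have h3 := uprice_nonneg H P y'
  have h4 := uS_le H P x x
  rw [H.d_self] at h4
  linarith

/-- the price depends on the value with Lipschitz constant `1 + δ` (noise of the estimates) -/
theorem price_near (hδ : 0 ≤ δ) (t t' : ℝ) (y : ℤ × ℤ) :
    |(t + surZ Q δ t y) - (t' + surZ Q δ t' y)| ≤ (1 + δ) * |t - t'| := by
  have h0 : |surZ Q δ t y - surZ Q δ t' y| ≤ δ * |t - t'| := by
    unfold surZ
    split_ifs
    · simpa using mul_nonneg hδ (abs_nonneg (t - t'))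
    · rw [← mul_sub, abs_mul, abs_of_nonneg hδ]
      refine mul_le_mul_of_nonneg_left ?_ hδ
      have := abs_max_sub_max_le_abs (t - Q * 2 ^ lev y) (t' - Q * 2 ^ lev y) 0
      rw [max_comm 0, max_comm 0]
      refine this.trans (le_of_eq ?_)
      congr 1
      ring
  have h1 : (t + surZ Q δ t y) - (t' + surZ Q δ t' y)
      = (t - t') + (surZ Q δ t y - surZ Q δ t' y) := by ring
  rw [h1]
  refine (abs_add_le _ _).trans ?_
  linarith

end Z

end Crest.Agent.R288.StopP700
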