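import Mathlib

/-!
# R288: [TL] of post 4274 (helper974 v2): telescoping over the comparator tree, the SUM line

Abstract macro tree: a state `x` with `h + 1` macro levels below it; a staircase `a` of `x` has the
pieces `pc h x a j`, `j : J` (states with `h` macro levels below).  Comparator `zs h x : Option A`:
`none` = stop (retire, jump and stop, ...), `some a` = staircase `a`.

* `acc pc zs h δ x`: sum of `δ` over the states of the comparator tree below `x` at which the
  comparator continues (`δ h' y` at the state `y` with `h' + 1` macro levels below it).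
* `EF p h f`: expectation over the flags of the `h` macro levels (any finite type `Φ` of flags of one
  window, e.g. `Bool`, or `Fin n → Bool`), from the top of the list (own window) down.
* `telescope`: if at every comparator state that continues the sum over the ranks of the arrival
  values, averaged over the flags of the own window for fixed deeper flags, is at most the sum over
  the ranks and over the pieces of the comparator plus `reg h x`, and at stops and leaves every rank
  is at most `c0 * V`, then `EF (∑ k, R k) ≤ K c0 V + acc reg`.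
* `mass_le`: `acc V ≤ h V`, so every local term `≤ C * V` (e.g. everything of the size of `T(x)` or
  of `∑ j, T(y*_j)`) costs at most `C h V(root)`.
* `SUM`, `SUM_avg`: the SUM line.
-/

set_option autoImplicit false

namespace Crest.Agent.R288.TL846

open Finset

variable {X A J : Type*} [Fintype J]

/-- sum of `δ` over the continuing states of the comparator tree -/
def acc (pc : ℕ → X → A → J → X) (zs : ℕ → X → Option A) : ℕ → (ℕ → X → ℝ) → X → ℝ
  | 0, _, _ => 0
  | h + 1, δ, x =>
    match zs h x with
    | none => 0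
    | some a => δ h x + ∑ j, acc pc zs h δ (pc h x a j)

variable (pc : ℕ → X → A → J → X) (zs : ℕ → X → Option A)

@[simp] theorem acc_zero (δ : ℕ → X → ℝ) (x : X) : acc pc zs 0 δ x = 0 := rfl

theorem acc_none {h : ℕ} {x : X} (δ : ℕ → X → ℝ) (hz : zs h x = none) :
    acc pc zs (h + 1) δ x = 0 := by
  simp only [acc, hz]

theorem acc_some {h : ℕ} {x : X} {a : A} (δ : ℕ → X → ℝ) (hz : zs h x = some a) :
    acc pc zs (h + 1) δ x = δ h x + ∑ j, acc pc zs h δ (pc h x a j) := by
  simp only [acc, hz]

/-- a class of states closed under the moves of the comparator; `Cl h x`: `x` has `h` macro levels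
below it -/
def Closed (Cl : ℕ → X → Prop) : Prop :=
  ∀ h x a, Cl (h + 1) x → zs h x = some a → ∀ j, Cl h (pc h x a j)

variable {pc zs}

theorem acc_mono {Cl : ℕ → X → Prop} (hCl : Closed pc zs Cl) {δ δ' : ℕ → X → ℝ}
    (hδ : ∀ h x a, Cl (h + 1) x → zs h x = some a → δ h x ≤ δ' h x) (H : ℕ) (x : X) (hx : Cl H x) :
    acc pc zs H δ x ≤ acc pc zs H δ' x := by
  induction H generalizing x with
  | zero => simp
  | succ h ih =>
    cases hz : zs h x with
    | none => rw [acc_none pc zs _ hz, acc_none pc zs _ hz]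
    | some a =>
      rw [acc_some pc zs _ hz, acc_some pc zs _ hz]
      exact add_le_add (hδ h x a hx hz) (sum_le_sum fun j _ => ih _ (hCl h x a hx hz j))

theorem acc_nonneg {Cl : ℕ → X → Prop} (hCl : Closed pc zs Cl) {δ : ℕ → X → ℝ}
    (hδ : ∀ h x a, Cl (h + 1) x → zs h x = some a → 0 ≤ δ h x) (H : ℕ) (x : X) (hx : Cl H x) :
    0 ≤ acc pc zs H δ x := by
  induction H generalizing x with
  | zero => simp
  | succ h ih =>
    cases hz : zs h x with
    | none => rw [acc_none pc zs _ hz]
    | some a =>
      rw [acc_some pc zs _ hz]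
      exact add_nonneg (hδ h x a hx hz) (sum_nonneg fun j _ => ih _ (hCl h x a hx hz j))

theorem acc_add (δ δ' : ℕ → X → ℝ) (H : ℕ) (x : X) :
    acc pc zs H (fun h x => δ h x + δ' h x) x = acc pc zs H δ x + acc pc zs H δ' x := by
  induction H generalizing x with
  | zero => simp
  | succ h ih =>
    cases hz : zs h x with
    | none => rw [acc_none pc zs _ hz, acc_none pc zs _ hz, acc_none pc zs _ hz, add_zero]
    | some a =>
      rw [acc_some pc zs _ hz, acc_some pc zs _ hz, acc_some pc zs _ hz]
      simp only [ih, sum_add_distrib]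
      ring

theorem acc_smul (r : ℝ) (δ : ℕ → X → ℝ) (H : ℕ) (x : X) :
    acc pc zs H (fun h x => r * δ h x) x = r * acc pc zs H δ x := by
  induction H generalizing x with
  | zero => simp
  | succ h ih =>
    cases hz : zs h x with
    | none => rw [acc_none pc zs _ hz, acc_none pc zs _ hz, mul_zero]
    | some a =>
      rw [acc_some pc zs _ hz, acc_some pc zs _ hz, mul_add, mul_sum]
      simp only [ih]

/-- **mass**: `V` is at least the sum of `V` over the pieces of the comparator, so the total of `V`
over the comparator tree is at most `h V` -/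
theorem mass_le {Cl : ℕ → X → Prop} (hCl : Closed pc zs Cl) {V : ℕ → X → ℝ}
    (hV0 : ∀ h x, Cl h x → 0 ≤ V h x)
    (hV : ∀ h x a, Cl (h + 1) x → zs h x = some a → ∑ j, V h (pc h x a j) ≤ V (h + 1) x)
    (H : ℕ) (x : X) (hx : Cl H x) :
    acc pc zs H (fun h x => V (h + 1) x) x ≤ H * V H x := by
  induction H generalizing x with
  | zero => simp
  | succ h ih =>
    cases hz : zs h x with
    | none =>
      rw [acc_none pc zs _ hz]
      exact mul_nonneg (by positivity) (hV0 _ _ hx)
    | some a =>
      rw [acc_some pc zs _ hz]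
      have h1 : ∑ j, acc pc zs h (fun h x => V (h + 1) x) (pc h x a j)
          ≤ ∑ j, (h : ℝ) * V h (pc h x a j) :=
        sum_le_sum fun j _ => ih _ (hCl h x a hx hz j)
      rw [← mul_sum] at h1
      have h2 : (h : ℝ) * ∑ j, V h (pc h x a j) ≤ h * V (h + 1) x :=
        mul_le_mul_of_nonneg_left (hV h x a hx hz) (by positivity)
      push_cast
      linarith

/-- potential lemma: a function `φ` with `δ + ∑ φ(pieces) ≤ φ` along the comparator bounds the
total of `δ` -/
theorem acc_le_potential {Cl : ℕ → X → Prop} (hCl : Closed pc zs Cl) {δ φ : ℕ → X → ℝ}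
    (h0 : ∀ h x, Cl h x → 0 ≤ φ h x)
    (hφ : ∀ h x a, Cl (h + 1) x → zs h x = some a →
      δ h x + ∑ j, φ h (pc h x a j) ≤ φ (h + 1) x)
    (H : ℕ) (x : X) (hx : Cl H x) : acc pc zs H δ x ≤ φ H x := by
  induction H generalizing x with
  | zero => simpa using h0 0 x hx
  | succ h ih =>
    cases hz : zs h x with
    | none =>
      rw [acc_none pc zs _ hz]
      exact h0 _ _ hx
    | some a =>
      rw [acc_some pc zs _ hz]
      have h1 : ∑ j, acc pc zs h δ (pc h x a j) ≤ ∑ j, φ h (pc h x a j) :=
        sum_le_sum fun j _ => ih _ (hCl h x a hx hz j)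
      linarith [hφ h x a hx hz]


/-! ### general comparator cost, stopping rules -/

/-- cost of the comparator: `st h x` at stops (`h` macro levels below `x`; leaves have `h = 0`) -/
def cost (pc : ℕ → X → A → J → X) (zs : ℕ → X → Option A) (st : ℕ → X → ℝ) : ℕ → X → ℝ
  | 0, x => st 0 x
  | h + 1, x =>
    match zs h x with
    | none => st (h + 1) x
    | some a => ∑ j, cost pc zs st h (pc h x a j)

theorem cost_none {h : ℕ} {x : X} (st : ℕ → X → ℝ) (hz : zs h x = none) :
    cost pc zs st (h + 1) x = st (h + 1) x := by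
  simp only [cost, hz]

theorem cost_some {h : ℕ} {x : X} {a : A} (st : ℕ → X → ℝ) (hz : zs h x = some a) :
    cost pc zs st (h + 1) x = ∑ j, cost pc zs st h (pc h x a j) := by
  simp only [cost, hz]

/-- the comparator's cost is at most any `W` that dominates the stop costs and is at least the sum
over the pieces of the comparator -/
theorem cost_le {Cl : ℕ → X → Prop} (hCl : Closed pc zs Cl) {st W : ℕ → X → ℝ}
    (h0 : ∀ x, Cl 0 x → st 0 x ≤ W 0 x)
    (hs : ∀ h x, Cl (h + 1) x → zs h x = none → st (h + 1) x ≤ W (h + 1) x)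
    (hW : ∀ h x a, Cl (h + 1) x → zs h x = some a → ∑ j, W h (pc h x a j) ≤ W (h + 1) x)
    (H : ℕ) (x : X) (hx : Cl H x) : cost pc zs st H x ≤ W H x := by
  induction H generalizing x with
  | zero => exact h0 x hx
  | succ h ih =>
    cases hz : zs h x with
    | none => rw [cost_none st hz]; exact hs h x hx hz
    | some a =>
      rw [cost_some st hz]
      exact (sum_le_sum fun j _ => ih _ (hCl h x a hx hz j)).trans (hW h x a hx hz)

/-- reversed inequality -/
theorem le_cost {Cl : ℕ → X → Prop} (hCl : Closed pc zs Cl) {st W : ℕ → X → ℝ}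
    (h0 : ∀ x, Cl 0 x → W 0 x ≤ st 0 x)
    (hs : ∀ h x, Cl (h + 1) x → zs h x = none → W (h + 1) x ≤ st (h + 1) x)
    (hW : ∀ h x a, Cl (h + 1) x → zs h x = some a → W (h + 1) x ≤ ∑ j, W h (pc h x a j))
    (H : ℕ) (x : X) (hx : Cl H x) : W H x ≤ cost pc zs st H x := by
  induction H generalizing x with
  | zero => exact h0 x hx
  | succ h ih =>
    cases hz : zs h x with
    | none => rw [cost_none st hz]; exact hs h x hx hz
    | some a =>
      rw [cost_some st hz]
      exact (hW h x a hx hz).trans (sum_le_sum fun j _ => ih _ (hCl h x a hx hz j))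

/-- the part of the comparator tree above the first states with `stop` (a stopping rule = an
antichain of the tree) -/
def cut (zs : ℕ → X → Option A) (stop : ℕ → X → Prop) [∀ h x, Decidable (stop h x)] :
    ℕ → X → Option A := fun h x => if stop (h + 1) x then none else zs h x

/-- `M` bounds the sum of `f` over every antichain of the comparator tree below `x` -/
def MassLe (pc : ℕ → X → A → J → X) (zs : ℕ → X → Option A) (f : ℕ → X → ℝ) (H : ℕ) (x : X)
    (M : ℝ) : Prop :=
  ∀ (stop : ℕ → X → Prop) [∀ h x, Decidable (stop h x)], cost pc (cut zs stop) f H x ≤ M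

/-- the sum of `f` over the states that continue is at most `H` times the antichain mass: one
antichain per level -/
theorem acc_le_mul_mass {Cl : ℕ → X → Prop} (hCl : Closed pc zs Cl) {f : ℕ → X → ℝ}
    (hf : ∀ h x, Cl h x → 0 ≤ f h x) (H : ℕ) (x : X) (hx : Cl H x) {M : ℝ}
    (hM : ∀ m ≤ H, cost pc (cut zs fun h _ => h ≤ m) f H x ≤ M) :
    acc pc zs H (fun h x => f (h + 1) x) x ≤ H * M := by
  classical
  -- `L m H x`: sum of `f` over the states of the tree with exactly `m + 1` levels below that continue
  have key : ∀ H x, Cl H x → acc pc zs H (fun h x => f (h + 1) x) x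
      ≤ ∑ m ∈ range H, cost pc (cut zs fun h _ => h ≤ m + 1) f H x := by
    intro H
    induction H with
    | zero => intro x _; simp
    | succ h ih =>
      intro x hx
      cases hz : zs h x with
      | none =>
        rw [acc_none pc zs _ hz]
        refine sum_nonneg fun m _ => ?_
        have : cut zs (fun h _ => h ≤ m + 1) h x = none := by
          unfold cut; split <;> simp_all
        rw [cost_none f this]
        exact hf _ _ hx
      | some a =>
        rw [acc_some pc zs _ hz, sum_range_succ]
        have htop' : cost pc (cut zs fun i _ => i ≤ h + 1) f (h + 1) x = f (h + 1) x := by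
          refine cost_none f ?_
          unfold cut
          simp
        rw [htop']
        have h1 : ∑ j, acc pc zs h (fun h x => f (h + 1) x) (pc h x a j)
            ≤ ∑ j, ∑ m ∈ range h, cost pc (cut zs fun i _ => i ≤ m + 1) f h (pc h x a j) :=
          sum_le_sum fun j _ => ih _ (hCl h x a hx hz j)
        have h2 : ∑ j, ∑ m ∈ range h, cost pc (cut zs fun i _ => i ≤ m + 1) f h (pc h x a j)
            = ∑ m ∈ range h, cost pc (cut zs fun i _ => i ≤ m + 1) f (h + 1) x := by
          rw [sum_comm]
          refine sum_congr rfl fun m hm => ?_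
          have hm' := mem_range.mp hm
          have : cut zs (fun i _ => i ≤ m + 1) h x = some a := by
            unfold cut
            rw [if_neg (by omega), hz]
          rw [cost_some f this]
        linarith
  refine (key H x hx).trans ?_
  calc ∑ m ∈ range H, cost pc (cut zs fun h _ => h ≤ m + 1) f H x
      ≤ ∑ _m ∈ range H, M := sum_le_sum fun m hm => hM (m + 1) (by have := mem_range.mp hm; omega)
    _ = H * M := by rw [sum_const, card_range, nsmul_eq_mul]

/-! ### expectation over the flags -/

section flags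

variable {Φ : Type*} [Fintype Φ]

/-- expectation over the flags of `h` macro levels; the flag of the window with `i` macro levels
below it has the law `p i` -/
def EF (p : ℕ → Φ → ℝ) : ℕ → (List Φ → ℝ) → ℝ
  | 0, f => f []
  | h + 1, f => EF p h fun l => ∑ c, p h c * f (c :: l)

variable {p : ℕ → Φ → ℝ}

theorem EF_mono (hp : ∀ i c, 0 ≤ p i c) (h : ℕ) {f g : List Φ → ℝ}
    (hfg : ∀ l, l.length = h → f l ≤ g l) : EF p h f ≤ EF p h g := by
  induction h generalizing f g with
  | zero => exact hfg [] rfl
  | succ h ih =>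
    refine ih fun l hl => ?_
    exact sum_le_sum fun c _ => mul_le_mul_of_nonneg_left (hfg _ (by simp [hl])) (hp h c)

theorem EF_congr (h : ℕ) {f g : List Φ → ℝ} (hfg : ∀ l, l.length = h → f l = g l) :
    EF p h f = EF p h g := by
  induction h generalizing f g with
  | zero => exact hfg [] rfl
  | succ h ih =>
    refine ih fun l hl => ?_
    exact sum_congr rfl fun c _ => by rw [hfg _ (by simp [hl])]

theorem EF_add (h : ℕ) (f g : List Φ → ℝ) :
    EF p h (fun l => f l + g l) = EF p h f + EF p h g := by
  induction h generalizing f g with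
  | zero => rfl
  | succ h ih =>
    simp only [EF, mul_add, sum_add_distrib]
    rw [ih]

theorem EF_smul (h : ℕ) (r : ℝ) (f : List Φ → ℝ) :
    EF p h (fun l => r * f l) = r * EF p h f := by
  induction h generalizing f with
  | zero => rfl
  | succ h ih =>
    simp only [EF]
    rw [← ih]
    congr 1
    funext l
    rw [mul_sum]
    exact sum_congr rfl fun c _ => by ring

theorem EF_const (hp : ∀ i, ∑ c, p i c = 1) (h : ℕ) (r : ℝ) : EF p h (fun _ => r) = r := by
  induction h with
  | zero => rfl
  | succ h ih =>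
    simp only [EF, ← sum_mul, hp, one_mul]
    exact ih

theorem EF_sum (h : ℕ) {ι : Type*} (t : Finset ι) (f : ι → List Φ → ℝ) :
    EF p h (fun l => ∑ i ∈ t, f i l) = ∑ i ∈ t, EF p h (f i) := by
  classical
  induction t using Finset.induction_on with
  | empty =>
    simp only [sum_empty]
    have := EF_smul (p := p) h 0 (fun _ => (0 : ℝ))
    simpa using this
  | insert i t hi ih =>
    have : (fun l => ∑ x ∈ insert i t, f x l) = fun l => f i l + ∑ x ∈ t, f x l := by
      funext l
      rw [sum_insert hi]
    rw [this, EF_add, ih, sum_insert hi]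

/-! ### telescoping -/

variable {ι : Type*} [Fintype ι]

/-- **[TL]** telescoping over the comparator tree -/
theorem telescope {Cl : ℕ → X → Prop} (hCl : Closed pc zs Cl)
    (hp0 : ∀ i c, 0 ≤ p i c) (hp1 : ∀ i, ∑ c, p i c = 1)
    {R : ι → List Φ → X → ℝ} {V reg : ℕ → X → ℝ} {c0 : ℝ} (hc0 : 0 ≤ c0)
    (hleaf : ∀ k x, Cl 0 x → R k [] x ≤ c0 * V 0 x)
    (hstop : ∀ h x, Cl (h + 1) x → zs h x = none →
      ∀ l, l.length = h + 1 → ∀ k, R k l x ≤ c0 * V (h + 1) x)
    (hcont : ∀ h x a, Cl (h + 1) x → zs h x = some a → ∀ l, l.length = h →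
      ∑ c, p h c * ∑ k, R k (c :: l) x ≤ ∑ k, ∑ j, R k l (pc h x a j) + reg h x)
    (hV : ∀ h x a, Cl (h + 1) x → zs h x = some a → ∑ j, V h (pc h x a j) ≤ V (h + 1) x)
    (H : ℕ) (x : X) (hx : Cl H x) :
    EF p H (fun l => ∑ k, R k l x) ≤ Fintype.card ι * (c0 * V H x) + acc pc zs H reg x := by
  induction H generalizing x with
  | zero =>
    simp only [EF, acc_zero, add_zero]
    calc ∑ k, R k [] x ≤ ∑ _k : ι, c0 * V 0 x := sum_le_sum fun k _ => hleaf k x hx
      _ = _ := by rw [sum_const, card_univ, nsmul_eq_mul]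
  | succ h ih =>
    cases hz : zs h x with
    | none =>
      rw [acc_none pc zs _ hz, add_zero]
      calc EF p (h + 1) (fun l => ∑ k, R k l x)
          ≤ EF p (h + 1) (fun _ => (Fintype.card ι : ℝ) * (c0 * V (h + 1) x)) := by
            refine EF_mono hp0 _ fun l hl => ?_
            calc ∑ k, R k l x ≤ ∑ _k : ι, c0 * V (h + 1) x :=
                  sum_le_sum fun k _ => hstop h x hx hz l hl k
              _ = _ := by rw [sum_const, card_univ, nsmul_eq_mul]
        _ = _ := EF_const hp1 _ _
    | some a =>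
      rw [acc_some pc zs _ hz]
      have h1 : EF p (h + 1) (fun l => ∑ k, R k l x)
          ≤ EF p h (fun l => ∑ k, ∑ j, R k l (pc h x a j) + reg h x) := by
        simp only [EF]
        exact EF_mono hp0 h fun l hl => hcont h x a hx hz l hl
      have h2 : EF p h (fun l => ∑ k, ∑ j, R k l (pc h x a j) + reg h x)
          = ∑ j, EF p h (fun l => ∑ k, R k l (pc h x a j)) + reg h x := by
        rw [EF_add, EF_const hp1, ← EF_sum]
        congr 1
        refine EF_congr h fun l _ => ?_
        exact sum_comm
      have h3 : ∑ j, EF p h (fun l => ∑ k, R k l (pc h x a j))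
          ≤ ∑ j, ((Fintype.card ι : ℝ) * (c0 * V h (pc h x a j))
              + acc pc zs h reg (pc h x a j)) :=
        sum_le_sum fun j _ => ih _ (hCl h x a hx hz j)
      rw [sum_add_distrib, ← mul_sum, ← mul_sum] at h3
      have h4 : (Fintype.card ι : ℝ) * (c0 * ∑ j, V h (pc h x a j))
          ≤ Fintype.card ι * (c0 * V (h + 1) x) := by
        refine mul_le_mul_of_nonneg_left ?_ (by positivity)
        exact mul_le_mul_of_nonneg_left (hV h x a hx hz) hc0
      linarith

/-- **the SUM line**: local regrets of the form `r1 * V(x) + r2 * B(x)`, where the total of `B` over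
the comparator tree is at most `N` (bad windows: `B = T` on bad states, `0` on good ones) -/
theorem SUM {Cl : ℕ → X → Prop} (hCl : Closed pc zs Cl)
    (hp0 : ∀ i c, 0 ≤ p i c) (hp1 : ∀ i, ∑ c, p i c = 1)
    {R : ι → List Φ → X → ℝ} {V B : ℕ → X → ℝ} {c0 r1 r2 N : ℝ}
    (hc0 : 0 ≤ c0) (hr1 : 0 ≤ r1) (hr2 : 0 ≤ r2)
    (hV0 : ∀ h x, Cl h x → 0 ≤ V h x)
    (hleaf : ∀ k x, Cl 0 x → R k [] x ≤ c0 * V 0 x)
    (hstop : ∀ h x, Cl (h + 1) x → zs h x = none →
      ∀ l, l.length = h + 1 → ∀ k, R k l x ≤ c0 * V (h + 1) x)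
    (hcont : ∀ h x a, Cl (h + 1) x → zs h x = some a → ∀ l, l.length = h →
      ∑ c, p h c * ∑ k, R k (c :: l) x
        ≤ ∑ k, ∑ j, R k l (pc h x a j) + (r1 * V (h + 1) x + r2 * B h x))
    (hV : ∀ h x a, Cl (h + 1) x → zs h x = some a → ∑ j, V h (pc h x a j) ≤ V (h + 1) x)
    (H : ℕ) (x : X) (hx : Cl H x) (hB : acc pc zs H B x ≤ N) :
    EF p H (fun l => ∑ k, R k l x)
      ≤ Fintype.card ι * (c0 * V H x) + r1 * (H * V H x) + r2 * N := by
  have h1 := telescope (pc := pc) (zs := zs) (reg := fun h x => r1 * V (h + 1) x + r2 * B h x)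
    hCl hp0 hp1 hc0 hleaf hstop hcont hV H x hx
  have h2 : acc pc zs H (fun h x => r1 * V (h + 1) x + r2 * B h x) x
      = r1 * acc pc zs H (fun h x => V (h + 1) x) x + r2 * acc pc zs H B x := by
    rw [acc_add (pc := pc) (zs := zs) (fun h x => r1 * V (h + 1) x) (fun h x => r2 * B h x),
      acc_smul, acc_smul]
  have h3 : r1 * acc pc zs H (fun h x => V (h + 1) x) x ≤ r1 * (H * V H x) :=
    mul_le_mul_of_nonneg_left (mass_le hCl hV0 hV H x hx) hr1
  have h4 : r2 * acc pc zs H B x ≤ r2 * N := mul_le_mul_of_nonneg_left hB hr2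
  linarith

/-- the SUM line for the average over the ranks -/
theorem SUM_avg {Cl : ℕ → X → Prop} (hCl : Closed pc zs Cl)
    (hp0 : ∀ i c, 0 ≤ p i c) (hp1 : ∀ i, ∑ c, p i c = 1) [Nonempty ι]
    {R : ι → List Φ → X → ℝ} {V B : ℕ → X → ℝ} {c0 r1 r2 N : ℝ}
    (hc0 : 0 ≤ c0) (hr1 : 0 ≤ r1) (hr2 : 0 ≤ r2)
    (hV0 : ∀ h x, Cl h x → 0 ≤ V h x)
    (hleaf : ∀ k x, Cl 0 x → R k [] x ≤ c0 * V 0 x)
    (hstop : ∀ h x, Cl (h + 1) x → zs h x = none →
      ∀ l, l.length = h + 1 → ∀ k, R k l x ≤ c0 * V (h + 1) x)
    (hcont : ∀ h x a, Cl (h + 1) x → zs h x = some a → ∀ l, l.length = h →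
      ∑ c, p h c * ∑ k, R k (c :: l) x
        ≤ ∑ k, ∑ j, R k l (pc h x a j) + (r1 * V (h + 1) x + r2 * B h x))
    (hV : ∀ h x a, Cl (h + 1) x → zs h x = some a → ∑ j, V h (pc h x a j) ≤ V (h + 1) x)
    (H : ℕ) (x : X) (hx : Cl H x) (hB : acc pc zs H B x ≤ N) :
    EF p H (fun l => (∑ k, R k l x) / Fintype.card ι)
      ≤ (c0 + r1 * H / Fintype.card ι) * V H x + r2 * N / Fintype.card ι := by
  have hK : (0 : ℝ) < Fintype.card ι := by exact_mod_cast Fintype.card_pos
  have h1 := SUM hCl hp0 hp1 hc0 hr1 hr2 hV0 hleaf hstop hcont hV H x hx hB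
  have h2 : EF p H (fun l => (∑ k, R k l x) / Fintype.card ι)
      = (Fintype.card ι : ℝ)⁻¹ * EF p H (fun l => ∑ k, R k l x) := by
    rw [← EF_smul]
    exact EF_congr H fun l _ => by rw [div_eq_inv_mul]
  rw [h2, inv_mul_le_iff₀ hK]
  refine h1.trans (le_of_eq ?_)
  field_simp

/-- telescoping with general stop costs -/
theorem telescope_cost {Cl : ℕ → X → Prop} (hCl : Closed pc zs Cl)
    (hp0 : ∀ i c, 0 ≤ p i c) (hp1 : ∀ i, ∑ c, p i c = 1)
    {R : ι → List Φ → X → ℝ} {st reg : ℕ → X → ℝ}
    (hleaf : ∀ x, Cl 0 x → ∑ k, R k [] x ≤ Fintype.card ι * st 0 x)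
    (hstop : ∀ h x, Cl (h + 1) x → zs h x = none →
      ∀ l, l.length = h + 1 → ∑ k, R k l x ≤ Fintype.card ι * st (h + 1) x)
    (hcont : ∀ h x a, Cl (h + 1) x → zs h x = some a → ∀ l, l.length = h →
      ∑ c, p h c * ∑ k, R k (c :: l) x ≤ ∑ k, ∑ j, R k l (pc h x a j) + reg h x)
    (H : ℕ) (x : X) (hx : Cl H x) :
    EF p H (fun l => ∑ k, R k l x)
      ≤ Fintype.card ι * cost pc zs st H x + acc pc zs H reg x := by
  induction H generalizing x with
  | zero =>
    simp only [EF, acc_zero, add_zero]
    exact hleaf x hx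
  | succ h ih =>
    cases hz : zs h x with
    | none =>
      rw [acc_none pc zs _ hz, add_zero, cost_none st hz]
      calc EF p (h + 1) (fun l => ∑ k, R k l x)
          ≤ EF p (h + 1) (fun _ => (Fintype.card ι : ℝ) * st (h + 1) x) :=
            EF_mono hp0 _ fun l hl => hstop h x hx hz l hl
        _ = _ := EF_const hp1 _ _
    | some a =>
      rw [acc_some pc zs _ hz, cost_some st hz]
      have h1 : EF p (h + 1) (fun l => ∑ k, R k l x)
          ≤ EF p h (fun l => ∑ k, ∑ j, R k l (pc h x a j) + reg h x) := by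
        simp only [EF]
        exact EF_mono hp0 h fun l hl => hcont h x a hx hz l hl
      have h2 : EF p h (fun l => ∑ k, ∑ j, R k l (pc h x a j) + reg h x)
          = ∑ j, EF p h (fun l => ∑ k, R k l (pc h x a j)) + reg h x := by
        rw [EF_add, EF_const hp1, ← EF_sum]
        congr 1
        refine EF_congr h fun l _ => ?_
        exact sum_comm
      have h3 : ∑ j, EF p h (fun l => ∑ k, R k l (pc h x a j))
          ≤ ∑ j, ((Fintype.card ι : ℝ) * cost pc zs st h (pc h x a j)
              + acc pc zs h reg (pc h x a j)) :=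
        sum_le_sum fun j _ => ih _ (hCl h x a hx hz j)
      rw [sum_add_distrib, ← mul_sum] at h3
      linarith

end flags

end Crest.Agent.R288.TL846
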