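import Crest.Agent.R288.Smp_984

/-!
# R288: power tails of lanes in the relative game (helper476)

In the relative (sparse) round a lane value is a product of weights `ρ ≥ 1` along the path, so only
a moment of order `1 + ε` is bounded.  `rpow_tail`: if every mean cost-to-go of an action is at most
`C` and every leaf costs at least `1`, then `E X^(1+ε) ≤ 2 E X - 1` for `ε ≤ 1/(2C-1)`.
-/

set_option autoImplicit false

namespace Crest.Agent.R288.TailW476

open Finset Real Crest.Agent.R295.Rnd627 Crest.Agent.R295.Rnd627.RT Crest.Agent.R288.TreeA330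
  Crest.Agent.R288.Smp984

/-- the key inequality -/
theorem key {C ε t x : ℝ} (ht : 1 ≤ t) (hx : 1 ≤ x) (htx : t * x ≤ C) (hε : 0 ≤ ε)
    (hεC : ε * (2 * C - 1) ≤ 1) : t ^ (1 + ε) * (2 * x - 1) ≤ 2 * (t * x) - 1 := by
  have ht0 : 0 < t := by linarith
  have htx1 : 1 ≤ t * x := by nlinarith
  have hA : 0 < 2 * (t * x) - 1 := by linarith
  have hB : 0 < t * (2 * x - 1) := mul_pos ht0 (by linarith)
  have hD : 0 < (2 * (t * x) - 1) / (t * (2 * x - 1)) := div_pos hA hB
  have h1 : ε * log t ≤ log ((2 * (t * x) - 1) / (t * (2 * x - 1))) := by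
    have h2 := one_sub_inv_le_log_of_pos hD
    have h3 : 1 - ((2 * (t * x) - 1) / (t * (2 * x - 1)))⁻¹ = (t - 1) / (2 * (t * x) - 1) := by
      rw [inv_div, eq_div_iff hA.ne', sub_mul, div_mul_cancel₀ _ hA.ne']
      ring
    rw [h3] at h2
    refine le_trans ?_ h2
    have h4 : log t ≤ t - 1 := log_le_sub_one_of_pos ht0
    rw [le_div_iff₀ hA]
    have h5 : ε * log t ≤ ε * (t - 1) := mul_le_mul_of_nonneg_left h4 hε
    have h6 : ε * (2 * (t * x) - 1) ≤ 1 := by
      refine le_trans ?_ hεC
      exact mul_le_mul_of_nonneg_left (by linarith) hε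
    calc ε * log t * (2 * (t * x) - 1) ≤ ε * (t - 1) * (2 * (t * x) - 1) :=
          mul_le_mul_of_nonneg_right h5 hA.le
      _ = (ε * (2 * (t * x) - 1)) * (t - 1) := by ring
      _ ≤ 1 * (t - 1) := mul_le_mul_of_nonneg_right h6 (by linarith)
      _ = t - 1 := one_mul _
  have h7 : t ^ ε ≤ (2 * (t * x) - 1) / (t * (2 * x - 1)) := by
    rw [rpow_def_of_pos ht0, mul_comm, ← exp_log hD]
    exact exp_le_exp.2 h1
  rw [rpow_add ht0, rpow_one]
  rw [le_div_iff₀ hB] at h7
  calc t * t ^ ε * (2 * x - 1) = t ^ ε * (t * (2 * x - 1)) := by ring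
    _ ≤ _ := h7

/-- `F^(1+ε) ≤ 2 F - 1` on `[1, C]` -/
theorem key_leaf {C ε F : ℝ} (h1 : 1 ≤ F) (hC : F ≤ C) (hε : 0 ≤ ε)
    (hεC : ε * (2 * C - 1) ≤ 1) : F ^ (1 + ε) ≤ 2 * F - 1 := by
  have := key (C := C) (ε := ε) (t := F) (x := 1) h1 le_rfl (by linarith) hε hεC
  simpa using (by linarith : F ^ (1 + ε) ≤ 2 * (F * 1) - 1)

/-- Jensen for `x ^ (1+ε)`, weights of sum `t` together with the constant `c` (value `1`) -/
theorem rpow_affine_le {ι : Type*} [Fintype ι] {w : ι → ℝ} (hw : ∀ i, 0 ≤ w i) {c ε : ℝ}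
    (hc : 0 ≤ c) (hε : 0 ≤ ε) (ht : 0 < c + ∑ i, w i) {x : ι → ℝ} (hx : ∀ i, 0 ≤ x i) :
    (c + ∑ i, w i * x i) ^ (1 + ε)
      ≤ (c + ∑ i, w i) ^ (1 + ε) * ((c + ∑ i, w i * x i ^ (1 + ε)) / (c + ∑ i, w i)) := by
  set t : ℝ := c + ∑ i, w i with htdef
  have hconv := convexOn_rpow (show (1 : ℝ) ≤ 1 + ε by linarith)
  have h := hconv.map_sum_le (t := (univ : Finset (Option ι)))
    (w := fun o => (Option.elim o c w) / t) (p := fun o => Option.elim o 1 x)
    (fun o _ => div_nonneg (by cases o <;> simp [hc, hw]) ht.le)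
    (by
      rw [← sum_div, Fintype.sum_option]
      simp only [Option.elim]
      exact div_self ht.ne')
    (fun o _ => by cases o <;> simp [hx])
  rw [Fintype.sum_option, Fintype.sum_option] at h
  simp only [Option.elim, smul_eq_mul, one_rpow, mul_one] at h
  have e1 : c / t + ∑ i, w i / t * x i = (c + ∑ i, w i * x i) / t := by
    rw [add_div, sum_div]
    congr 1
    exact sum_congr rfl fun i _ => by ring
  have e2 : c / t + ∑ i, w i / t * x i ^ (1 + ε) = (c + ∑ i, w i * x i ^ (1 + ε)) / t := by
    rw [add_div, sum_div]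
    congr 1
    exact sum_congr rfl fun i _ => by ring
  rw [e1, e2] at h
  have h0 : 0 ≤ c + ∑ i, w i * x i :=
    add_nonneg hc (sum_nonneg fun i _ => mul_nonneg (hw i) (hx i))
  calc (c + ∑ i, w i * x i) ^ (1 + ε) = (t * ((c + ∑ i, w i * x i) / t)) ^ (1 + ε) := by
        rw [mul_div_cancel₀ _ ht.ne']
    _ = t ^ (1 + ε) * ((c + ∑ i, w i * x i) / t) ^ (1 + ε) :=
        mul_rpow ht.le (div_nonneg h0 ht.le)
    _ ≤ _ := mul_le_mul_of_nonneg_left h (rpow_nonneg ht.le _)

section lanes

variable {S A J : Type} [Fintype A] [Fintype J]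

/-- pathwise lower bound `1` of a lane (kernels may be supported on allowed actions `al`) -/
theorem All_lane_one {W : ℕ} {G : Game S A J} {sel : ℕ → S → A → J → ℕ → ℝ}
    {dec : ℕ → Bool → List Bool → RT (S → A → ℝ)} {lane : ℕ → List Bool → RT (S → ℝ)}
    (H : Lanes G sel W dec lane) {ok : ℕ → S → Prop} {al : ℕ → S → A → Prop}
    (hok : ∀ h s a j, ok (h + 1) s → al h s a → ok h (G.nx h s a j))
    (hF : ∀ s, ok 0 s → 1 ≤ G.F s)
    (hsel0 : ∀ h s a j, ∀ u < W, 0 ≤ sel h s a j u)
    (hsel1 : ∀ h s a, ok (h + 1) s → al h s a → ∀ u < W, 1 ≤ G.c h s a + ∑ j, sel h s a j u)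
    (hκ : ∀ k b l, (dec k b l).All W fun p => ∀ s, ok (l.length + 1) s →
      (∀ a, 0 ≤ p s a) ∧ (∀ a, ¬ al l.length s a → p s a = 0) ∧ ∑ a, p s a = 1)
    (k : ℕ) (l : List Bool) :
    (lane k l).All W fun X => ∀ s, ok l.length s → 1 ≤ X s := by
  induction l with
  | nil => rw [H.nil, All_ret]; exact hF
  | cons b l ih =>
    rw [H.cons]
    unfold play
    rw [All_bind]
    refine (hκ k b l).mono fun p hp => ?_
    unfold RT.map samp draw
    rw [All_bind, All_bind, All_rnd]
    intro u hu
    unfold RT.map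
    rw [All_ret, All_bind]
    refine ih.mono fun X hX => ?_
    rw [All_ret, All_ret]
    intro s hs
    obtain ⟨p0, p2, p1⟩ := hp s hs
    calc (1 : ℝ) = ∑ a, p s a * 1 := by simp [p1]
      _ ≤ _ := by
        refine sum_le_sum fun a _ => ?_
        by_cases ha : al l.length s a
        · refine mul_le_mul_of_nonneg_left ?_ (p0 a)
          refine (hsel1 _ s a hs ha u hu).trans (add_le_add le_rfl (sum_le_sum fun j _ => ?_))
          calc sel l.length s a j u = sel l.length s a j u * 1 := (mul_one _).symm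
            _ ≤ _ := mul_le_mul_of_nonneg_left (hX _ (hok _ _ _ _ hs ha)) (hsel0 _ _ _ _ u hu)
        · rw [p2 a ha]; simp

/-- **power tail of a lane in the relative game** -/
theorem rpow_tail {W : ℕ} (hW : 0 < W) {G : Game S A J} {sel : ℕ → S → A → J → ℕ → ℝ}
    {dec : ℕ → Bool → List Bool → RT (S → A → ℝ)} {lane : ℕ → List Bool → RT (S → ℝ)}
    (H : Lanes G sel W dec lane) {ok : ℕ → S → Prop} {al : ℕ → S → A → Prop} {C ε : ℝ}
    (hε : 0 ≤ ε) (hεC : ε * (2 * C - 1) ≤ 1)
    (hok : ∀ h s a j, ok (h + 1) s → al h s a → ok h (G.nx h s a j))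
    (hF : ∀ s, ok 0 s → 1 ≤ G.F s ∧ G.F s ≤ C)
    (hc : ∀ h s a, ok (h + 1) s → 0 ≤ G.c h s a)
    (hsel0 : ∀ h s a j, ∀ u < W, 0 ≤ sel h s a j u)
    (hsel1 : ∀ h s a, ok (h + 1) s → al h s a → ∀ u < W, 1 ≤ G.c h s a + ∑ j, sel h s a j u)
    (hκ : ∀ k b l, (dec k b l).All W fun p => ∀ s, ok (l.length + 1) s →
      (∀ a, 0 ≤ p s a) ∧ (∀ a, ¬ al l.length s a → p s a = 0) ∧ ∑ a, p s a = 1)
    (hQ : ∀ k l s a, ok (l.length + 1) s → al l.length s a → ∀ u < W,
      G.c l.length s a + ∑ j, sel l.length s a j u *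
        (lane k l).Ev W (fun X => X (G.nx l.length s a j)) ≤ C)
    (k : ℕ) (l : List Bool) (s : S) (hs : ok l.length s) :
    (lane k l).Ev W (fun X => X s ^ (1 + ε))
      ≤ 2 * (lane k l).Ev W (fun X => X s) - 1 := by
  have hone := All_lane_one H hok (fun s hs => (hF s hs).1) hsel0 hsel1 hκ
  have hR1 : ∀ k l s, ok l.length s → 1 ≤ (lane k l).Ev W (fun X => X s) := by
    intro k l s hs
    have h := Ev_mono_all (M := W) (t := lane k l) (f := fun _ => (1 : ℝ)) (g := fun X => X s)
      ((hone k l).mono fun X hX => hX s hs)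
    rwa [Ev_const hW] at h
  induction l generalizing s with
  | nil =>
    rw [H.nil, Ev_ret, Ev_ret]
    exact key_leaf (hF s hs).1 (hF s hs).2 hε hεC
  | cons b l ih =>
    have hlen : (b :: l).length = l.length + 1 := rfl
    rw [hlen] at hs
    rw [H.cons, Ev_play]
    set q : A → ℝ := fun a => (dec k b l).Ev W (fun p => p s a) with hq
    have hq0 : ∀ a, 0 ≤ q a := fun a =>
      Ev_nonneg_all ((hκ k b l).mono fun p hp => (hp s hs).1 a)
    have hq2 : ∀ a, ¬ al l.length s a → q a = 0 := fun a ha => by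
      rw [hq]
      simp only
      rw [Ev_congr_all (g := fun _ => (0 : ℝ)) ((hκ k b l).mono fun p hp => (hp s hs).2.1 a ha),
        Ev_const hW]
    have hq1 : ∑ a, q a = 1 := by
      rw [hq]
      rw [← Ev_sum, Ev_congr_all (g := fun _ => (1 : ℝ)), Ev_const hW]
      exact (hκ k b l).mono fun p hp => (hp s hs).2.2
    -- one action
    have hsamp : ∀ a, al l.length s a →
        (samp G sel l.length (lane k l)).Ev W (fun V => V s a ^ (1 + ε))
        ≤ 2 * (samp G sel l.length (lane k l)).Ev W (fun V => V s a) - 1 := by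
      intro a ha
      unfold samp
      simp only [Ev_bind, Ev_map]
      have e0 : (2 : ℝ) * (draw.Ev W fun u => (lane k l).Ev W fun X => G.c l.length s a +
            ∑ j, sel l.length s a j u * X (G.nx l.length s a j)) - 1
          = draw.Ev W fun u => 2 * ((lane k l).Ev W fun X => G.c l.length s a +
            ∑ j, sel l.length s a j u * X (G.nx l.length s a j)) - 1 := by
        rw [Ev_sub, Ev_mul_left, Ev_const hW]
      rw [e0]
      refine Ev_mono_all ?_
      unfold draw
      rw [All_rnd]
      intro u hu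
      rw [All_ret]
      set w : J → ℝ := fun j => sel l.length s a j u with hw
      have hw0 : ∀ j, 0 ≤ w j := fun j => hsel0 _ _ _ _ u hu
      have hc0 := hc l.length s a hs
      set c : ℝ := G.c l.length s a with hcdef
      have ht1 : 1 ≤ c + ∑ j, w j := hsel1 _ s a hs ha u hu
      have ht0 : 0 < c + ∑ j, w j := by linarith
      set R : J → ℝ := fun j => (lane k l).Ev W (fun X => X (G.nx l.length s a j)) with hR
      have hRj : ∀ j, 1 ≤ R j := fun j => hR1 k l _ (hok _ _ _ _ hs ha)
      have hv : c + ∑ j, w j * R j ≤ C := hQ k l s a hs ha u hu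
      have hmean : (lane k l).Ev W (fun X => c + ∑ j, w j * X (G.nx l.length s a j))
          = c + ∑ j, w j * R j := by
        rw [Ev_add, Ev_const hW, Ev_sum]
        congr 1
        exact sum_congr rfl fun j _ => Ev_mul_left _ _ _ _
      rw [hmean]
      have hJ : (lane k l).Ev W (fun X => (c + ∑ j, w j * X (G.nx l.length s a j)) ^ (1 + ε))
          ≤ (c + ∑ j, w j) ^ (1 + ε) * ((c + ∑ j, w j * (2 * R j - 1)) / (c + ∑ j, w j)) := by
        calc _ ≤ (lane k l).Ev W (fun X => (c + ∑ j, w j) ^ (1 + ε) *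
                ((c + ∑ j, w j * X (G.nx l.length s a j) ^ (1 + ε)) / (c + ∑ j, w j))) := by
              refine Ev_mono_all ((hone k l).mono fun X hX => ?_)
              exact rpow_affine_le hw0 hc0 hε ht0 fun j =>
                zero_le_one.trans (hX _ (hok _ _ _ _ hs ha))
          _ = (c + ∑ j, w j) ^ (1 + ε) * ((c + ∑ j, w j *
                (lane k l).Ev W (fun X => X (G.nx l.length s a j) ^ (1 + ε)))
                / (c + ∑ j, w j)) := by
              rw [Ev_mul_left]
              congr 1
              simp only [div_eq_mul_inv]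
              rw [Ev_mul_right, Ev_add, Ev_const hW, Ev_sum]
              congr 2
              exact sum_congr rfl fun j _ => Ev_mul_left _ _ _ _
          _ ≤ _ := by
              refine mul_le_mul_of_nonneg_left ?_ (rpow_nonneg ht0.le _)
              refine div_le_div_of_nonneg_right ?_ ht0.le
              refine add_le_add le_rfl (sum_le_sum fun j _ => ?_)
              exact mul_le_mul_of_nonneg_left (ih _ (hok _ _ _ _ hs ha)) (hw0 j)
      refine hJ.trans ?_
      have hx1 : 1 ≤ (c + ∑ j, w j * R j) / (c + ∑ j, w j) := by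
        rw [le_div_iff₀ ht0, one_mul]
        refine add_le_add le_rfl (sum_le_sum fun j _ => ?_)
        calc w j = w j * 1 := (mul_one _).symm
          _ ≤ _ := mul_le_mul_of_nonneg_left (hRj j) (hw0 j)
      have htx : (c + ∑ j, w j) * ((c + ∑ j, w j * R j) / (c + ∑ j, w j))
          = c + ∑ j, w j * R j := mul_div_cancel₀ _ ht0.ne'
      have hk := key (C := C) ht1 hx1 (by rw [htx]; exact hv) hε hεC
      rw [htx] at hk
      refine le_trans (le_of_eq ?_) hk
      congr 1
      have e3 : ∑ j, w j * (2 * R j - 1) = 2 * ∑ j, w j * R j - ∑ j, w j := by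
        rw [mul_sum, ← sum_sub_distrib]
        exact sum_congr rfl fun j _ => by ring
      rw [e3]
      field_simp
      ring
    have e2 : (play (dec k b l) (samp G sel l.length (lane k l))).Ev W
          (fun X => X s ^ (1 + ε)) ≤
        ∑ a, q a * (samp G sel l.length (lane k l)).Ev W (fun V => V s a ^ (1 + ε)) := by
      have hsone : (samp G sel l.length (lane k l)).All W fun V => ∀ a, al l.length s a →
          0 ≤ V s a := by
        unfold samp draw
        rw [All_bind, All_rnd]
        intro u hu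
        unfold RT.map
        rw [All_ret, All_bind]
        refine (hone k l).mono fun X hX => ?_
        rw [All_ret]
        intro a ha
        exact add_nonneg (hc _ s a hs) (sum_nonneg fun j _ => mul_nonneg (hsel0 _ _ _ _ u hu)
          (zero_le_one.trans (hX _ (hok _ _ _ _ hs ha))))
      unfold play
      simp only [Ev_bind, Ev_map]
      calc (dec k b l).Ev W (fun p => (samp G sel l.length (lane k l)).Ev W
              (fun V => (∑ a, p s a * V s a) ^ (1 + ε)))
          ≤ (dec k b l).Ev W (fun p => ∑ a, p s a *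
              (samp G sel l.length (lane k l)).Ev W (fun V => V s a ^ (1 + ε))) := by
            refine Ev_mono_all ((hκ k b l).mono fun p hp => ?_)
            obtain ⟨p0, p2, p1⟩ := hp s hs
            calc _ ≤ (samp G sel l.length (lane k l)).Ev W
                  (fun V => ∑ a, p s a * V s a ^ (1 + ε)) := by
                  refine Ev_mono_all (hsone.mono fun V hV => ?_)
                  -- replace the forbidden actions by the value `0`
                  have hz : ∀ a, p s a * V s a = p s a * max 0 (V s a) := fun a => by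
                    by_cases ha : al l.length s a
                    · rw [max_eq_right (hV a ha)]
                    · rw [p2 a ha]; simp
                  have hz' : ∀ a, p s a * V s a ^ (1 + ε) = p s a * (max 0 (V s a)) ^ (1 + ε) :=
                    fun a => by
                    by_cases ha : al l.length s a
                    · rw [max_eq_right (hV a ha)]
                    · rw [p2 a ha]; simp
                  rw [sum_congr rfl fun a _ => hz a, sum_congr rfl fun a _ => hz' a]
                  have h := (convexOn_rpow (show (1 : ℝ) ≤ 1 + ε by linarith)).map_sum_le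
                    (t := univ) (w := p s) (p := fun a => max 0 (V s a))
                    (fun a _ => p0 a) p1 (fun a _ => Set.mem_Ici.2 (le_max_left _ _))
                  simpa only [smul_eq_mul] using h
              _ = _ := by
                  rw [Ev_sum]
                  exact sum_congr rfl fun a _ => Ev_mul_left _ _ _ _
        _ = _ := by
            rw [Ev_sum]
            exact sum_congr rfl fun a _ => Ev_mul_right _ _ _ _
    refine e2.trans ?_
    calc ∑ a, q a * (samp G sel l.length (lane k l)).Ev W (fun V => V s a ^ (1 + ε))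
        ≤ ∑ a, q a * (2 * (samp G sel l.length (lane k l)).Ev W (fun V => V s a) - 1) := by
          refine sum_le_sum fun a _ => ?_
          by_cases ha : al l.length s a
          · exact mul_le_mul_of_nonneg_left (hsamp a ha) (hq0 a)
          · rw [hq2 a ha]; simp
      _ = 2 * (∑ a, q a * (samp G sel l.length (lane k l)).Ev W (fun V => V s a)) - ∑ a, q a := by
          rw [mul_sum, ← sum_sub_distrib]
          exact sum_congr rfl fun a _ => by ring
      _ = _ := by rw [hq1]

/-- truncation: the mean excess over `lam` from a moment of order `1 + ε` -/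
theorem Ev_excess_rpow {α : Type} {W : ℕ} {t : RT α} {f : α → ℝ} {M lam ε : ℝ} (hε : 0 ≤ ε)
    (hlam : 0 < lam) (hf : t.All W fun x => 0 ≤ f x)
    (h : t.Ev W (fun x => f x ^ (1 + ε)) ≤ M) :
    t.Ev W (fun x => max 0 (f x - lam)) ≤ lam ^ (-ε) * M := by
  have h1 : t.Ev W (fun x => max 0 (f x - lam)) ≤
      t.Ev W (fun x => lam ^ (-ε) * f x ^ (1 + ε)) := by
    refine Ev_mono_all (hf.mono fun x hx => ?_)
    refine max_le (mul_nonneg (rpow_nonneg hlam.le _) (rpow_nonneg hx _)) ?_
    rcases le_or_gt (f x) lam with hl | hl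
    · exact (by linarith : f x - lam ≤ 0).trans
        (mul_nonneg (rpow_nonneg hlam.le _) (rpow_nonneg hx _))
    · have hx0 : 0 < f x := hlam.trans hl
      rw [rpow_add hx0, rpow_one, rpow_neg hlam.le]
      have h2 : lam ^ ε ≤ f x ^ ε := rpow_le_rpow hlam.le hl.le hε
      have h3 : 0 < lam ^ ε := rpow_pos_of_pos hlam _
      have h4 : f x ≤ (lam ^ ε)⁻¹ * (f x * f x ^ ε) := by
        rw [← div_eq_inv_mul, le_div_iff₀ h3]
        exact mul_le_mul_of_nonneg_left h2 hx0.le
      linarith
  refine h1.trans ?_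
  rw [Ev_mul_left]
  exact mul_le_mul_of_nonneg_left h (rpow_nonneg hlam.le _)

/-- the truncated sample `min X lam` has almost the same mean -/
theorem Ev_trunc {α : Type} {W : ℕ} {t : RT α} {f : α → ℝ} {M lam ε : ℝ} (hε : 0 ≤ ε)
    (hlam : 0 < lam) (hf : t.All W fun x => 0 ≤ f x)
    (h : t.Ev W (fun x => f x ^ (1 + ε)) ≤ M) :
    t.Ev W (fun x => min (f x) lam) ≤ t.Ev W f ∧
      t.Ev W f - lam ^ (-ε) * M ≤ t.Ev W (fun x => min (f x) lam) := by
  refine ⟨Ev_mono fun x => min_le_left _ _, ?_⟩
  have h1 := Ev_excess_rpow hε hlam hf h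
  have h2 : t.Ev W f - t.Ev W (fun x => max 0 (f x - lam))
      = t.Ev W (fun x => min (f x) lam) := by
    rw [← Ev_sub]
    refine congrArg _ (funext fun x => ?_)
    rcases le_total (f x) lam with hl | hl
    · rw [min_eq_left hl, max_eq_left (by linarith)]; ring
    · rw [min_eq_right hl, max_eq_right (by linarith)]; ring
  linarith

end lanes

end Crest.Agent.R288.TailW476
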