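import Crest.Agent.R288.TapeP_468
import Crest.Agent.R288.Bridge_331

/-!
# R288: the machine half of the tape layer (helper468)

* `HPR.of_words`: an event on the next `D` words of the stream.
* `HPR_fill`: fill an array with `D` random words (`drawAll`), then run a command that behaves well
  whenever the contents of the array are good.
* `HPR_tapes`: with the functions `X` of `TapeP_468` and the union bound `Pr_good`.
-/

set_option autoImplicit false

namespace Crest.Agent.R288.TapeH468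

open Finset Crest.Agent.R295 Crest.Agent.R295.HL Crest.Agent.R295.HL.Cmd
open Crest.Agent.R295.Rnd627 Crest.Agent.R295.TopH791 Crest.Agent.R288.Bridge331
open Crest.Agent.R288.TapeP468

universe u v

section

variable {w L n D : ℕ} {p : Cmd} {s : State} {Q : State → Prop} {δ : ℝ}

/-- number of draws of `words` -/
theorem cnt_words_all (M D : ℕ) : (words D).cnt.All M fun x => x.2 = D := by
  refine (all_cnt_of_val (words D) (fun _ m => m = D) 0 fun ρ => ?_).mono fun x hx => hx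
  rw [nxt_words]
  omega

/-- an event on the next `D` words of the stream -/
theorem HPR.of_words (Good : List ℕ → Prop) (hD : D ≤ n)
    (h : ∀ ρ : ℕ → ℕ, Good ((List.range D).map fun j => ρ (s.drawn + j) % 2 ^ w) →
      Runs ⟨2 ^ w, L, ρ⟩ p s n Q)
    (hP : (words D).Pr (2 ^ w) (fun x => ¬ Good x) ≤ δ) : HPR w L p s n Q δ := by
  refine HPR.of_rt (t := words D) Good (fun ρ hρ _ => h ρ ?_) ?_
  · rwa [val_words] at hρ
  · refine le_trans (RT.Pr_mono_all (Q := fun x : List ℕ × ℕ => ¬ Good x.1) ?_) ?_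
    · refine (cnt_words_all (2 ^ w) D).mono fun x hx h1 h2 => h1 ⟨h2, ?_⟩
      omega
    · rw [RT.Pr_cnt (2 ^ w) (words D) fun a => ¬ Good a]
      exact hP

/-- **fill an array with random words, then run `p`.** `Good` = predicate on the contents of the
array below `D` -/
theorem HPR_fill {k x y z : ℕ} (Good : (ℕ → ℕ) → Prop)
    (hloc : ∀ σ σ' : ℕ → ℕ, (∀ i < D, σ i = σ' i) → Good σ → Good σ')
    (hy : s.reg y = D) (hDL : D ≤ L) (hDB : D < 2 ^ w) (hxy : x ≠ y) (hyz : y ≠ z) (hxz : x ≠ z)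
    (h : ∀ (ρ : ℕ → ℕ) (s' : State), (drawAll k x y z).Frame s s' →
      (∀ i < D, s'.arr k i < 2 ^ w) → (∀ i, D ≤ i → s'.arr k i = s.arr k i) →
      s'.drawn = s.drawn + D → Good (s'.arr k) → Runs ⟨2 ^ w, L, ρ⟩ p s' n Q)
    (hP : (words D).Pr (2 ^ w) (fun x => ¬ Good (st x)) ≤ δ) :
    HPR w L (drawAll k x y z ;; p) s (4 * D + 2 + n) Q δ := by
  refine HPR.of_words (D := D) (fun l => Good (st l)) (by omega) (fun ρ hρ => ?_) hP
  have hfill := drawAll_runs (e := ⟨2 ^ w, L, ρ⟩) (s := s) (k := k) (x := x) (y := y) (z := z)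
    (D := D) hy hDL hDB hxy hyz hxz
  refine hfill.seqF (fun s' h1 h2 => h ρ s' h2 (fun i hi => ?_) h1.2.1 h1.2.2 ?_) le_rfl
  · rw [h1.1 i hi]
    exact Nat.mod_lt _ (Nat.two_pow_pos w)
  · refine hloc _ _ (fun i hi => ?_) hρ
    rw [h1.1 i hi]
    have h3 := st_val_words (M := 2 ^ w) (n := D) (ρ := ρ) (i := s.drawn) (j := i) hi
    rw [val_words] at h3
    exact h3

end

/-- **the tape layer**: all values of all indices are good and the core behaves well then -/
theorem HPR_tapes {α : Type u} {β : Type v} {w L n S Λ k x y z : ℕ} {p : Cmd} {s : State}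
    {Q : State → Prop} (d : β) (t : ℕ → (ℕ → α → β) → α → RT β)
    (hS : ∀ q F a, ∀ ρ : ℕ → ℕ, (t q F a).nxt (2 ^ w) ρ 0 ≤ S)
    (A : ℕ → Finset α) (B : ℕ → (ℕ → α → β) → α → β → Prop) (pr : ℕ → ℝ)
    (hB : ∀ q < Λ, ∀ F : ℕ → α → β,
      (∀ q' < q, ∀ a ∈ A q', ¬ B q' (below d q' F) a (F q' a)) →
      ∀ a ∈ A q, (t q (below d q F) a).Pr (2 ^ w) (B q (below d q F) a) ≤ pr q)
    (hp : ∀ q < Λ, 0 ≤ pr q)
    (hy : s.reg y = S * Λ) (hDL : S * Λ ≤ L) (hDB : S * Λ < 2 ^ w) (hxy : x ≠ y) (hyz : y ≠ z)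
    (hxz : x ≠ z)
    (h : ∀ (ρ : ℕ → ℕ) (s' : State), (drawAll k x y z).Frame s s' →
      (∀ i < S * Λ, s'.arr k i < 2 ^ w) → (∀ i, S * Λ ≤ i → s'.arr k i = s.arr k i) →
      s'.drawn = s.drawn + S * Λ →
      (∀ q < Λ, ∀ a ∈ A q, ¬ B q (below d q (X (2 ^ w) S d t (s'.arr k))) a
        (X (2 ^ w) S d t (s'.arr k) q a)) → Runs ⟨2 ^ w, L, ρ⟩ p s' n Q) :
    HPR w L (drawAll k x y z ;; p) s (4 * (S * Λ) + 2 + n) Q
      (∑ q ∈ range Λ, (A q).card * pr q) := by
  refine HPR_fill (D := S * Λ) (fun σ => ∀ q < Λ, ∀ a ∈ A q,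
    ¬ B q (below d q (X (2 ^ w) S d t σ)) a (X (2 ^ w) S d t σ q a)) ?_ hy hDL hDB hxy hyz hxz
    (fun ρ s' h1 h2 h3 h4 h5 => h ρ s' h1 h2 h3 h4 h5) ?_
  · intro σ σ' hσ hg q hq a ha
    have e : ∀ q' < Λ, X (2 ^ w) S d t σ q' = X (2 ^ w) S d t σ' q' := fun q' hq' =>
      X_congr d t hS q' fun i hi => hσ i (lt_of_lt_of_le hi (Nat.mul_le_mul_left _ hq'))
    have h1 := hg q hq a ha
    rwa [e q hq, below_congr (d := d) fun r hr => e r (by omega)] at h1
  · refine le_trans (RT.Pr_mono fun l hl => ?_)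
      (Pr_good (Nat.two_pow_pos w) d t hS A B pr Λ hB hp)
    simp only [not_forall, not_not] at hl
    obtain ⟨q, hq, a, ha, h2⟩ := hl
    exact ⟨q, hq, a, ha, h2⟩

end Crest.Agent.R288.TapeH468
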