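import Crest.Agent.R288.Bridge_331

/-!
# R288 [TAPES/GOOD] part 1 (helper829): one random tape per index

The program draws all its random words at the start. Index `l` (any linear order of the pairs
(rank, height)) owns the words at the positions `d + o l ≤ i < d + o (l + 1)` (tape `l`).
* `lo l X`: the functions of the indices `< l` only.
* **`Xv M o t ρ d`**: the value functions of all indices: `t l X x : RT β` is the randomized
  computation of the value of index `l` at the state `x` from the lower functions, run on tape `l`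
  from its first word (`Xv_eq`, `Xv_unique`). `Xv_congr`: only the words of the tapes matter.
* **`cnt_bad`**: if for every good history one state of one index is bad with probability `≤ δ l`,
  then all states of all indices `< Λ` are good, except for a fraction `∑ l, |Ω l| δ l` of all
  tables of words. The words of the table may be longer (`M ∣ N`: words are read modulo `M`).
* `Rmod`: a randomized computation that reads its words modulo `M`.
-/

set_option autoImplicit false

namespace Crest.Agent.R288.Tape829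

open Finset
open Crest.Agent.R295 Crest.Agent.R295.Rnd627 Crest.Agent.R295.Prob791
open Crest.Agent.R288.Bridge331

universe u v

/-! ### reading the words modulo `M` -/

section rmod

variable {α : Type u}

/-- the same computation; every word is reduced modulo `M` -/
def Rmod (M : ℕ) : RT α → RT α
  | .ret a => .ret a
  | .rnd k => .rnd fun v => Rmod M (k (v % M))

theorem run_Rmod {M N : ℕ} (h : M ∣ N) (t : RT α) (ρ : ℕ → ℕ) (i : ℕ) :
    (Rmod M t).run N ρ i = t.run M ρ i := by
  induction t generalizing i with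
  | ret a => rfl
  | rnd k ih =>
    show (Rmod M (k (ρ i % N % M))).run N ρ (i + 1) = (k (ρ i % M)).run M ρ (i + 1)
    rw [Nat.mod_mod_of_dvd _ h, ih]

theorem val_Rmod {M N : ℕ} (h : M ∣ N) (t : RT α) (ρ : ℕ → ℕ) (i : ℕ) :
    (Rmod M t).val N ρ i = t.val M ρ i := by
  unfold RT.val
  rw [run_Rmod h]

theorem Ev_Rmod {M N : ℕ} (hN : 0 < N) (h : M ∣ N) (t : RT α) (f : α → ℝ) :
    (Rmod M t).Ev N f = t.Ev M f := by
  induction t with
  | ret a => rfl
  | rnd k ih =>
    show (∑ v ∈ range N, (Rmod M (k (v % M))).Ev N f) / N = (∑ v ∈ range M, (k v).Ev M f) / M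
    simp only [ih]
    exact RT.Ev_mod_eq hN h fun v => (k v).Ev M f

theorem Pr_Rmod {M N : ℕ} (hN : 0 < N) (h : M ∣ N) (t : RT α) (P : α → Prop) :
    (Rmod M t).Pr N P = t.Pr M P := Ev_Rmod hN h t _

theorem cnt_Rmod (M : ℕ) (t : RT α) : (Rmod M t).cnt = Rmod M t.cnt := by
  induction t with
  | ret a => rfl
  | rnd k ih =>
    show (RT.rnd fun v => (Rmod M (k (v % M))).cnt.map fun x => (x.1, x.2 + 1)) =
      RT.rnd fun v => Rmod M ((k (v % M)).cnt.map fun x => (x.1, x.2 + 1))
    congr 1
    funext v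
    rw [ih]
    generalize (k (v % M)).cnt = s
    induction s with
    | ret a => rfl
    | rnd k' ih' =>
      show (RT.rnd fun v => ((Rmod M (k' (v % M))).map fun x : α × ℕ => (x.1, x.2 + 1))) =
        RT.rnd fun v => Rmod M ((k' (v % M)).map fun x : α × ℕ => (x.1, x.2 + 1))
      congr 1
      funext v
      exact ih' _

end rmod

/-! ### splitting a table of words -/

/-- if the fraction of bad continuations is at most `c` after any first `A` words, then it is at
most `c` in total -/
theorem cnt_split {N B : ℕ} {E : (ℕ → ℕ) → Prop} {c : ℝ} (A : ℕ) :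
    ∀ (d : ℕ) (ρ0 : ℕ → ℕ),
      (∀ ρ1, cnt N B (d + A) ρ1 E ≤ c * (N : ℝ) ^ B) →
      cnt N (A + B) d ρ0 E ≤ c * (N : ℝ) ^ (A + B) := by
  induction A with
  | zero =>
    intro d ρ0 h
    rw [Nat.zero_add]
    exact h ρ0
  | succ A ih =>
    intro d ρ0 h
    rw [show A + 1 + B = A + B + 1 by omega, cnt_succ]
    have h1 : ∀ v : Fin N, cnt N (A + B) (d + 1) (Function.update ρ0 d v) E ≤
        c * (N : ℝ) ^ (A + B) := fun v => ih (d + 1) _ fun ρ1 => by
      rw [show d + 1 + A = d + (A + 1) by omega]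
      exact h ρ1
    refine (Finset.sum_le_sum fun v _ => h1 v).trans_eq ?_
    rw [Finset.sum_const, Finset.card_univ, Fintype.card_fin, nsmul_eq_mul, pow_succ]
    ring

/-- finite union bound -/
theorem cnt_exists_le {N T d : ℕ} {ρ0 : ℕ → ℕ} {ι : Type*} (s : Finset ι)
    (E : ι → (ℕ → ℕ) → Prop) (F : (ℕ → ℕ) → Prop) (h : ∀ ρ, F ρ → ∃ i ∈ s, E i ρ) :
    cnt N T d ρ0 F ≤ ∑ i ∈ s, cnt N T d ρ0 (E i) := by
  classical
  induction s using Finset.induction_on generalizing F with
  | empty =>
    rw [sum_empty]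
    refine le_of_eq (cnt_eq_zero fun tab h1 => ?_)
    obtain ⟨i, hi, -⟩ := h _ h1
    exact absurd hi (Finset.notMem_empty i)
  | insert a s ha ih =>
    rw [sum_insert ha]
    refine le_trans (cnt_mono (E' := fun ρ => E a ρ ∨ (F ρ ∧ ¬ E a ρ)) fun tab h1 => ?_) ?_
    · by_cases h2 : E a (splice ρ0 d tab)
      · exact Or.inl h2
      · exact Or.inr ⟨h1, h2⟩
    · refine cnt_or.trans (add_le_add le_rfl (ih (fun ρ => F ρ ∧ ¬ E a ρ) fun ρ h1 => ?_))
      obtain ⟨i, hi, h2⟩ := h ρ h1.1
      rcases Finset.mem_insert.1 hi with rfl | hi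
      · exact absurd h2 h1.2
      · exact ⟨i, hi, h2⟩

/-! ### the value functions -/

section values

variable {σ : Type u} {β : Type v} [Inhabited β]

/-- the functions of the indices `< l` -/
def lo (l : ℕ) (X : ℕ → σ → β) : ℕ → σ → β := fun i => if i < l then X i else fun _ => default

theorem lo_lt {l i : ℕ} (h : i < l) (X : ℕ → σ → β) : lo l X i = X i := if_pos h

theorem lo_ge {l i : ℕ} (h : l ≤ i) (X : ℕ → σ → β) : lo l X i = fun _ => default :=
  if_neg (Nat.not_lt.2 h)

theorem lo_congr {l : ℕ} {X Y : ℕ → σ → β} (h : ∀ i < l, X i = Y i) : lo l X = lo l Y := by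
  funext i
  unfold lo
  split
  · rename_i hi
    exact h i hi
  · rfl

theorem lo_lo {l m : ℕ} (h : l ≤ m) (X : ℕ → σ → β) : lo l (lo m X) = lo l X :=
  lo_congr fun _ hi => lo_lt (by omega) X

variable (M : ℕ) (o : ℕ → ℕ) (t : ℕ → (ℕ → σ → β) → σ → RT β)

/-- the functions of the indices `< l`, by recursion -/
def hist (ρ : ℕ → ℕ) (d : ℕ) : ℕ → ℕ → σ → β
  | 0 => fun _ _ => default
  | l + 1 => fun i => if i = l then fun x => (t l (hist ρ d l) x).val M ρ (d + o l)
      else hist ρ d l i

/-- **the value functions**: index `l` at the state `x` is computed by `t l (lower functions) x` on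
the words of `ρ` from position `d + o l` on -/
def Xv (ρ : ℕ → ℕ) (d : ℕ) : ℕ → σ → β := fun l => hist M o t ρ d (l + 1) l

variable {M o t} {ρ ρ' : ℕ → ℕ} {d d' : ℕ}

theorem hist_eq (l : ℕ) : hist M o t ρ d l = lo l (Xv M o t ρ d) := by
  induction l with
  | zero =>
    funext i
    rw [lo_ge (Nat.zero_le i)]
    rfl
  | succ l ih =>
    funext i
    by_cases hi : i = l
    · subst hi
      rw [lo_lt (Nat.lt_succ_self _)]
      rfl
    · have h1 : hist M o t ρ d (l + 1) i = hist M o t ρ d l i := if_neg hi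
      rw [h1, ih]
      rcases Nat.lt_or_ge i l with h2 | h2
      · rw [lo_lt h2, lo_lt (by omega)]
      · rw [lo_ge h2, lo_ge (by omega)]

theorem Xv_eq (l : ℕ) (x : σ) : Xv M o t ρ d l x =
    (t l (lo l (Xv M o t ρ d)) x).val M ρ (d + o l) := by
  have h1 : Xv M o t ρ d l = fun x => (t l (hist M o t ρ d l) x).val M ρ (d + o l) := if_pos rfl
  rw [h1, hist_eq]

/-- the recursion determines the value functions -/
theorem Xv_unique {Λ : ℕ} {Y : ℕ → σ → β}
    (h : ∀ l < Λ, ∀ x, Y l x = (t l (lo l Y) x).val M ρ (d + o l)) :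
    ∀ l < Λ, Y l = Xv M o t ρ d l := by
  intro l
  induction l using Nat.strong_induction_on with
  | _ l ih =>
    intro hl
    funext x
    rw [h l hl x, Xv_eq, lo_congr fun i hi => ih i hi (by omega)]

/-- only the words of the tapes matter (`ρ'` may be the contents of an array, `d' = 0`) -/
theorem Xv_congr {Λ T : ℕ}
    (hS : ∀ l < Λ, ∀ X x, (t l (lo l X) x).cnt.All M fun y => o l + y.2 ≤ T) (hM : 0 < M)
    (h : ∀ i < T, ρ' (d' + i) % M = ρ (d + i) % M) :
    ∀ l < Λ, Xv M o t ρ' d' l = Xv M o t ρ d l := by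
  intro l
  induction l using Nat.strong_induction_on with
  | _ l ih =>
    intro hl
    have h0 : lo l (Xv M o t ρ' d') = lo l (Xv M o t ρ d) :=
      lo_congr fun i hi => ih i hi (by omega)
    funext x
    rw [Xv_eq, Xv_eq, h0]
    set s := t l (lo l (Xv M o t ρ d)) x with hs
    have h1 : ∀ (r : RT β) (T' i j : ℕ), (r.cnt.All M fun y => y.2 ≤ T') →
        (∀ a < T', ρ' (i + a) % M = ρ (j + a) % M) → r.val M ρ' i = r.val M ρ j := by
      intro r
      induction r with
      | ret a => intro T' i j _ _; rfl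
      | rnd k ihk =>
        intro T' i j hc ha
        have hc' : ∀ v < M, (k v).cnt.All M fun y => y.2 + 1 ≤ T' := by
          intro v hv
          have h2 := hc v hv
          unfold RT.map at h2
          rw [RT.All_bind] at h2
          exact h2
        cases T' with
        | zero =>
          exfalso
          have h2 := (hc' 0 hM).val hM (fun _ => 0) 0
          omega
        | succ T' =>
          have h3 : ρ' i % M = ρ j % M := by simpa using ha 0 (Nat.succ_pos _)
          show (k (ρ' i % M)).val M ρ' (i + 1) = (k (ρ j % M)).val M ρ (j + 1)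
          rw [h3]
          refine ihk _ T' _ _ ((hc' _ (Nat.mod_lt _ hM)).mono fun y hy => by omega) fun a ha' => ?_
          have := ha (a + 1) (by omega)
          rwa [show i + 1 + a = i + (a + 1) by omega, show j + 1 + a = j + (a + 1) by omega]
    refine h1 s (T - o l) _ _ ((hS l hl _ x).mono fun y hy => by omega) fun a ha => ?_
    have := h (o l + a) (by omega)
    rwa [show d' + o l + a = d' + (o l + a) by omega, show d + o l + a = d + (o l + a) by omega]

end values

/-! ### everything is good with high probability -/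

section good

variable {σ : Type u} {β : Type v} [Inhabited β]

/-- all indices `< Λ` are good: `Gd l X x b` = the value `b` of index `l` at `x` is good, given the
lower functions `X` -/
def AllGood (Λ : ℕ) (Ω : ℕ → Finset σ) (Gd : ℕ → (ℕ → σ → β) → σ → β → Prop)
    (X : ℕ → σ → β) : Prop :=
  ∀ l < Λ, ∀ x ∈ Ω l, Gd l (lo l X) x (X l x)

theorem AllGood.congr {Λ : ℕ} {Ω : ℕ → Finset σ} {Gd : ℕ → (ℕ → σ → β) → σ → β → Prop}
    {X Y : ℕ → σ → β} (h : ∀ l < Λ, X l = Y l) (hX : AllGood Λ Ω Gd X) : AllGood Λ Ω Gd Y := by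
  intro l hl x hx
  rw [← h l hl, ← lo_congr fun i hi => h i (by omega)]
  exact hX l hl x hx

/-- **everything is good** (words of the stream are read modulo `M`, `M ∣ N`) -/
theorem cnt_bad {N M Λ T d : ℕ} (hM : 0 < M) (hN : 0 < N) (hMN : M ∣ N) {o : ℕ → ℕ}
    {t : ℕ → (ℕ → σ → β) → σ → RT β} {Ω : ℕ → Finset σ}
    {Gd : ℕ → (ℕ → σ → β) → σ → β → Prop} {δ : ℕ → ℝ} (ρ0 : ℕ → ℕ)
    (ho : ∀ l < Λ, o l ≤ o (l + 1)) (hT : o Λ ≤ T)
    (hS : ∀ l < Λ, ∀ X x, (t l (lo l X) x).cnt.All M fun y => o l + y.2 ≤ o (l + 1))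
    (hδ0 : ∀ l < Λ, 0 ≤ δ l)
    (hδ : ∀ l < Λ, ∀ X, AllGood l Ω Gd X → ∀ x ∈ Ω l,
      (t l (lo l X) x).Pr M (fun b => ¬ Gd l (lo l X) x b) ≤ δ l) :
    cnt N T d ρ0 (fun ρ => ¬ AllGood Λ Ω Gd (Xv M o t ρ d)) ≤
      (∑ l ∈ range Λ, (Ω l).card * δ l) * (N : ℝ) ^ T := by
  have hmono : ∀ l ≤ Λ, ∀ i ≤ l, o i ≤ o l := by
    intro l
    induction l with
    | zero => intro _ i hi; rw [Nat.le_zero.1 hi]
    | succ l ih =>
      intro hl i hi
      rcases Nat.lt_or_ge i (l + 1) with h | h
      · exact (ih (by omega) i (by omega)).trans (ho l (by omega))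
      · rw [show i = l + 1 by omega]
  induction Λ generalizing T with
  | zero =>
    rw [range_zero, sum_empty, zero_mul]
    exact le_of_eq (cnt_eq_zero fun tab h => h fun l hl => absurd hl (Nat.not_lt_zero l))
  | succ Λ ih =>
    have hoT : o Λ ≤ T := (hmono (Λ + 1) le_rfl Λ (Nat.le_succ Λ)).trans hT
    refine le_trans (cnt_mono (E' := fun ρ => (¬ AllGood Λ Ω Gd (Xv M o t ρ d)) ∨
      (AllGood Λ Ω Gd (Xv M o t ρ d) ∧
        ¬ ∀ x ∈ Ω Λ, Gd Λ (lo Λ (Xv M o t ρ d)) x (Xv M o t ρ d Λ x))) ?_) ?_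
    · intro tab h
      by_cases h1 : AllGood Λ Ω Gd (Xv M o t (splice ρ0 d tab) d)
      · refine Or.inr ⟨h1, fun h2 => h fun l hl x hx => ?_⟩
        rcases Nat.lt_succ_iff_lt_or_eq.1 hl with h3 | rfl
        · exact h1 l h3 x hx
        · exact h2 x hx
      · exact Or.inl h1
    · refine cnt_or.trans ?_
      rw [sum_range_succ, add_mul]
      refine add_le_add (ih (fun l hl => ho l (by omega)) hoT (fun l hl => hS l (by omega))
        (fun l hl => hδ0 l (by omega)) (fun l hl => hδ l (by omega))
        fun l hl => hmono l (by omega)) ?_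
      refine (cnt_exists_le (Ω Λ) (fun x ρ => AllGood Λ Ω Gd (Xv M o t ρ d) ∧
        ¬ Gd Λ (lo Λ (Xv M o t ρ d)) x (Xv M o t ρ d Λ x)) _ fun ρ h => ?_).trans ?_
      · obtain ⟨h1, h2⟩ := h
        push Not at h2
        obtain ⟨x, hx, h3⟩ := h2
        exact ⟨x, hx, h1, h3⟩
      · rw [mul_assoc, ← nsmul_eq_mul]
        refine Finset.sum_le_card_nsmul _ _ _ fun x hx => ?_
        obtain ⟨B, rfl⟩ := Nat.exists_eq_add_of_le hoT
        refine cnt_split (o Λ) d ρ0 fun ρ1 => ?_
        -- the history is fixed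
        have hh : ∀ tab : Fin B → Fin N,
            ∀ l < Λ, Xv M o t (splice ρ1 (d + o Λ) tab) d l = Xv M o t ρ1 d l := by
          intro tab
          refine Xv_congr (T := o Λ) (fun l hl X x => (hS l (by omega) X x).mono fun y hy => ?_)
            hM fun i hi => ?_
          · exact hy.trans (hmono Λ (by omega) (l + 1) (by omega))
          · rw [splice_lt ρ1 tab (by omega)]
        by_cases hg : AllGood Λ Ω Gd (Xv M o t ρ1 d)
        · set H := lo Λ (Xv M o t ρ1 d) with hH
          set s := t Λ H x with hs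
          have hs1 : s.cnt.All M fun y => o Λ + y.2 ≤ o (Λ + 1) := hS Λ (by omega) _ x
          have h1 : ∀ tab : Fin B → Fin N,
              (AllGood Λ Ω Gd (Xv M o t (splice ρ1 (d + o Λ) tab) d) ∧
                ¬ Gd Λ (lo Λ (Xv M o t (splice ρ1 (d + o Λ) tab) d)) x
                  (Xv M o t (splice ρ1 (d + o Λ) tab) d Λ x)) →
              (fun a m => ¬ Gd Λ H x a ∨ B < m)
                ((Rmod M s).val N (splice ρ1 (d + o Λ) tab) (d + o Λ))
                ((Rmod M s).nxt N (splice ρ1 (d + o Λ) tab) (d + o Λ) - (d + o Λ)) := by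
            intro tab h2
            left
            have h3 := h2.2
            rw [Xv_eq, lo_congr (hh tab)] at h3
            rw [val_Rmod hMN]
            exact h3
          refine (cnt_mono (E' := fun ρ => (fun a m => ¬ Gd Λ H x a ∨ B < m)
            ((Rmod M s).val N ρ (d + o Λ)) ((Rmod M s).nxt N ρ (d + o Λ) - (d + o Λ))) h1).trans ?_
          rw [cnt_rt hN (Rmod M s) B (fun a m => ¬ Gd Λ H x a ∨ B < m)
            (fun a m hm => Or.inr hm) (d + o Λ) ρ1]
          refine mul_le_mul_of_nonneg_right ?_ (by positivity)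
          rw [cnt_Rmod, Pr_Rmod hN hMN]
          refine le_trans (RT.Pr_mono_all (Q := fun y : β × ℕ => ¬ Gd Λ H x y.1) ?_) ?_
          · refine hs1.mono fun y hy h4 => ?_
            rcases h4 with h4 | h4
            · exact h4
            · omega
          · rw [RT.Pr_cnt M s fun b => ¬ Gd Λ H x b]
            exact hδ Λ (by omega) _ hg x hx
        · rw [cnt_eq_zero fun tab h2 => hg (h2.1.congr (hh tab))]
          exact mul_nonneg (hδ0 Λ (by omega)) (by positivity)

end good

end Crest.Agent.R288.Tape829
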