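import Crest.Agent.R288.CpU_776
import Crest.Agent.R288.ParO_331
import Crest.Agent.R288.PadK_901

/-!
# R288, [PROG] numbers of the cost of the program at the official table (helper589)

* `ev_tb` : `Tb 40 (parOf h) h` eventually (`CpU_776.tb_table` speaks about the old `gX`, `gJ`).
* **`ev_fuel`** : the fuel of the root call in the shape of `Main901.runPL_main`; **`ev_depth`**.
-/

set_option autoImplicit false

open Filter

namespace Crest.Agent.R288.TbO589

open Crest.Agent.R288.Par806 Crest.Agent.R288.ParO331 Crest.Agent.R288.CpU776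
open Crest.Agent.R288.Alg45 (Par)

/-- **the growth of the official table** -/
theorem ev_tb : ∀ᶠ h : ℕ in atTop, Tb 40 (parOf h) h := by
  filter_upwards [ev_KK_pos, ev_le_W 40] with h hK hW40
  have hW := W_pos h
  have hL := Lg_pos h
  have hM := Mg_pos h
  have hWL : 1 ≤ W h * Lg h := Nat.mul_pos hW hL
  have hLW : Lg h ≤ W h * Lg h := Nat.le_mul_of_pos_left _ hW
  refine ⟨le_rfl, ?_, ?_, ?_, ?_, ?_, ?_, ?_, ?_, ?_, ?_, le_rfl, le_rfl, hK⟩
  · rw [parOf_r]
  · rw [parOf_a1]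
    unfold Par806.a1 bb
    omega
  · rw [parOf_a2]
    norm_num
  · rw [parOf_dl]
    unfold Par806.dl
    calc 8 * W h * Lg h = 8 * (W h * Lg h) := by ring
      _ ≤ _ := Nat.mul_le_mul_right _ (by norm_num)
  · rw [parOf_du]
    norm_num
  · rw [parOf_c0]
    unfold Par806.c0
    omega
  · rw [parOf_gJ]
    unfold sJ
    have h1 : 1 ≤ W h ^ 2 * Lg h := Nat.mul_pos (pow_pos hW 2) hL
    calc 12 * (W h ^ 2 * Lg h) + 1 ≤ 13 * (W h ^ 2 * Lg h) := by omega
      _ ≤ 40 * (W h ^ 40 * Lg h ^ 40) := by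
          refine Nat.mul_le_mul (by norm_num) (Nat.mul_le_mul
            (Nat.pow_le_pow_right hW (by norm_num)) ?_)
          calc Lg h = Lg h ^ 1 := (pow_one _).symm
            _ ≤ Lg h ^ 40 := Nat.pow_le_pow_right hL (by norm_num)
      _ = 40 * W h ^ 40 * Lg h ^ 40 * 1 := by ring
      _ ≤ _ := Nat.mul_le_mul_left _ (pow_pos hM 40)
  · rw [parOf_mJ]
    unfold Par806.mJ bb
    rw [show (4 : ℕ) = 2 ^ 2 by norm_num, ← pow_mul]
    exact Nat.pow_le_pow_right (by norm_num) (by omega)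
  · rw [parOf_gX]
    unfold sX
    have h1 : W h ≤ 2 ^ Lg h := (W_le_Lg h).trans (Nat.lt_two_pow_self (n := Lg h)).le
    have h2 : h ≤ 2 ^ Lg h := (lt_two_pow_Lg h).le
    calc 12 * (W h * h) + 1 ≤ 12 * (2 ^ Lg h * 2 ^ Lg h) + 2 ^ Lg h * 2 ^ Lg h := by
          have h3 : 1 ≤ 2 ^ Lg h * 2 ^ Lg h := Nat.mul_pos (by positivity) (by positivity)
          exact Nat.add_le_add (Nat.mul_le_mul_left _ (Nat.mul_le_mul h1 h2)) h3
      _ = 13 * 2 ^ (Lg h + Lg h) := by rw [pow_add]; ring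
      _ ≤ 2 ^ 4 * 2 ^ (Lg h + Lg h) := Nat.mul_le_mul_right _ (by norm_num)
      _ = 2 ^ (4 + (Lg h + Lg h)) := (pow_add _ _ _).symm
      _ ≤ _ := by
          refine Nat.pow_le_pow_right (by norm_num) ?_
          have h4 : 40 * W h * Lg h = 40 * (W h * Lg h) := by ring
          omega
  · rw [parOf_mX]
    unfold Par806.mX nb
    refine Nat.pow_le_pow_right (by norm_num) ?_
    calc 2 * (8 * W h * Lg h) + W h * Lg h = 17 * (W h * Lg h) := by ring
      _ ≤ 40 * (W h * Lg h) := Nat.mul_le_mul_right _ (by norm_num)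
      _ = _ := by ring

/-! ### fuel and depth of the root call -/

open Crest.Agent.R288.Shell12 Crest.Agent.R288.PgG8i654 Crest.Agent.R288.PadK901 in
/-- **fuel of the root call** in the shape of `Main901.runPL_main` (cost `cF E I + x'` of the root) -/
theorem ev_fuel (C : ℕ) : ∃ c r : ℕ, ∀ c' r' k : ℕ, c ≤ c' → r ≤ r' → ∀ᶠ h : ℕ in atTop,
    ∀ L : ℕ, Nat.clog 2 L = h → ∀ Z t0 lf b0 x' : ℕ, Z ≤ 2 ^ (C * (W h ^ 4 * Lg h)) →
      t0 ≤ 2 ^ (C * (W h ^ 4 * Lg h)) → lf ≤ 2 ^ (C * (W h ^ 4 * Lg h)) → b0 ≤ sui C h →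
      x' ≤ sui C h →
      2 * cPad h + 40 * ((cpOf (parOf h) Z t0 lf (II h) b0).cF (EE h) (II h) + x') + 30 ≤
        fuc c' k r' 3 L := by
  obtain ⟨c, r, h0⟩ := root_time (C + 200)
  refine ⟨c, r, fun c' r' k hc hr => ?_⟩
  filter_upwards [h0, ev_tb] with h h1 h2 L hL Z t0 lf b0 x' hZ ht hl hb hx'
  have hW := W_pos h
  have hLg := Lg_pos h
  have hWL : 1 ≤ W h * Lg h := Nat.mul_pos hW hLg
  have hup : 2 ^ (C * (W h ^ 4 * Lg h)) ≤ 2 ^ ((C + 200) * (W h ^ 4 * Lg h)) :=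
    Nat.pow_le_pow_right (by norm_num) (Nat.mul_le_mul_right _ (Nat.le_add_right C 200))
  have hx : 2 * cPad h + 5 ≤ sui (C + 200) h := by
    have h3 : 2 * cPad h + 5 ≤ 2 ^ (200 * (W h * Lg h)) := by
      have h4 : 2 * cPad h + 5 ≤ 200 * (W h * Lg h) := by
        unfold cPad
        have : 64 * W h * Lg h = 64 * (W h * Lg h) := by ring
        omega
      exact h4.trans (Nat.lt_two_pow_self).le
    refine h3.trans (two_pow_le_sui ?_)
    have hM := Mg_pos h
    have hp : W h * Lg h ≤ W h ^ (C + 200) * Lg h ^ (C + 200) * Mg h ^ (C + 200) := by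
      generalize hE : C + 200 = E
      have hE1 : 1 ≤ E := by omega
      have p1 : W h ^ 1 ≤ W h ^ E := Nat.pow_le_pow_right hW hE1
      have p2 : Lg h ^ 1 ≤ Lg h ^ E := Nat.pow_le_pow_right hLg hE1
      have p3 : 1 ≤ Mg h ^ E := pow_pos hM _
      rw [pow_one] at p1 p2
      exact (Nat.mul_le_mul p1 p2).trans (Nat.le_mul_of_pos_right _ p3)
    calc 200 * (W h * Lg h)
        ≤ (C + 200) * (W h ^ (C + 200) * Lg h ^ (C + 200) * Mg h ^ (C + 200)) :=
          Nat.mul_le_mul (by omega) hp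
      _ = (C + 200) * W h ^ (C + 200) * Lg h ^ (C + 200) * Mg h ^ (C + 200) := by ring
      _ ≤ _ := Nat.le_add_right _ _
  have hm : sui C h ≤ sui (C + 200) h := sui_mono (Nat.le_add_right C 200) h
  have hb' : b0 ≤ sui (C + 200) h := le_trans hb hm
  have hx'' : x' ≤ sui (C + 200) h := le_trans hx' hm
  have hI : II h ≤ II h + (C + 200) := Nat.le_add_right _ _
  have h3 := h1 L hL (parOf h) (h2.mono (by omega)) Z t0 lf (II h) b0 (2 * cPad h + 5) x'
    (hZ.trans hup) (ht.trans hup) (hl.trans hup) hI hb' hx hx''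
  have h4 : (parOf h).E = EE h := rfl
  rw [h4] at h3
  have h5 := PgG8155.fuc_mono hc (Nat.zero_le k) hr 3 L
  generalize (cpOf (parOf h) Z t0 lf (II h) b0).cF (EE h) (II h) = q at h3 ⊢
  generalize fuc c' k r' 3 L = q' at h5 ⊢
  generalize fuc c 0 r 3 L = q'' at h3 h5
  omega

open Crest.Agent.R288.PgG8155 in
/-- **depth of the root call** -/
theorem ev_depth (C : ℕ) : ∀ᶠ h : ℕ in atTop, ∀ L : ℕ, Nat.clog 2 L = h →
    ∀ Z t0 lf b0 p x : ℕ, p ≤ sub C h → x ≤ sub C h →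
      (cpOf (parOf h) Z t0 lf (II h) b0).dF p (EE h) + x + 1 ≤ L := by
  filter_upwards [root_depth (C + 41), ev_tb] with h h1 h2 L hL Z t0 lf b0 p x hp hx
  have hW := W_pos h
  have hLg := Lg_pos h
  have hM := Mg_pos h
  have hm : sub C h * 2 ≤ sub (C + 41) h := by
    unfold sub
    rw [← pow_succ]
    refine Nat.pow_le_pow_right (by norm_num) ?_
    generalize hE : C + 41 = E
    have hCE : C ≤ E := by omega
    have p1 : W h ^ C * Lg h ^ C * Mg h ^ C ≤ W h ^ E * Lg h ^ E * Mg h ^ E :=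
      Nat.mul_le_mul (Nat.mul_le_mul (Nat.pow_le_pow_right hW hCE)
        (Nat.pow_le_pow_right hLg hCE)) (Nat.pow_le_pow_right hM hCE)
    have p2 : 1 ≤ W h ^ E * Lg h ^ E * Mg h ^ E := Nat.mul_pos (Nat.mul_pos (pow_pos hW _)
      (pow_pos hLg _)) (pow_pos hM _)
    calc C * W h ^ C * Lg h ^ C * Mg h ^ C + 1
        = C * (W h ^ C * Lg h ^ C * Mg h ^ C) + 1 := by ring
      _ ≤ C * (W h ^ E * Lg h ^ E * Mg h ^ E) + W h ^ E * Lg h ^ E * Mg h ^ E :=
          Nat.add_le_add (Nat.mul_le_mul_left _ p1) p2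
      _ = (C + 1) * (W h ^ E * Lg h ^ E * Mg h ^ E) := by ring
      _ ≤ E * (W h ^ E * Lg h ^ E * Mg h ^ E) := Nat.mul_le_mul_right _ (by omega)
      _ = _ := by ring
  have hs : 1 ≤ sub C h := Nat.one_le_two_pow
  have h3 := h1 L hL (parOf h) (h2.mono (by omega)) Z t0 lf (II h) b0 p (x + 1)
    (Nat.le_add_right _ _) (by omega) (by omega)
  have h4 : (parOf h).E = EE h := rfl
  rw [h4] at h3
  generalize (cpOf (parOf h) Z t0 lf (II h) b0).dF p (EE h) = q at h3 ⊢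
  omega

end Crest.Agent.R288.TbO589
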