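import Crest.Agent.R288.AlgB_45

/-!
# Row 288, L6 of RT.LANE2: tiny classes (helper67), on ALG v2

At a class `κ` with `κ + a2 + 2 ≤ T`, where every state with `F z < 2 ^ T` is a leaf, every body entry
read by the jump is a CONSTANT (leaf value or `F z`), so the estimates are exact and no threshold is
needed.

* `All_seqL`, `All_seqL_eq` : sure properties of `seqL`;
* `med_mem`, `medMean_const` : robust mean of equal numbers;
* `cvl P leaf F κ z` : the constant; `Fix P leaf F κ'` : all grid states of class `κ'` which are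
  admissible are leaves (`Fix.of_lt`);
* `bodyNum_fix`, `All_bodyT` : the body table is `tabC P c (cvl ..)` for every outcome;
* `jtab`, `All_jdraw`, `jent_jtab` : the joint draw; `jest_const` : the estimates;
* `All_arrOf`, `All_arrT`, `All_lanePair` : the arrival table / the lane is a constant too.
-/

set_option autoImplicit false

namespace Crest.Agent.R288.Tiny67

open Crest.Agent.R295.Rnd627 Crest.Agent.R295.Rnd627.RT Crest.Agent.R288.Alg45

/-! ### sure properties of lists of computations -/

section seq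

variable {α β : Type}

theorem All_seqL {W : ℕ} (sub : β → RT α) (Q : β → α → Prop) (ks : List β)
    (h : ∀ k ∈ ks, (sub k).All W (Q k)) :
    (seqL (ks.map sub)).All W fun res => List.Forall₂ Q ks res := by
  induction ks with
  | nil => exact List.Forall₂.nil
  | cons k ks ih =>
    rw [List.map_cons, seqL, All_bind]
    refine (h k (by simp)).mono fun a ha => ?_
    rw [All_bind]
    refine (ih fun k' hk' => h k' (by simp [hk'])).mono fun res hres => ?_
    exact List.Forall₂.cons ha hres

/-- all answers are known -/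
theorem All_seqL_eq {W : ℕ} (sub : β → RT α) (v : β → α) (ks : List β)
    (h : ∀ k ∈ ks, (sub k).All W fun a => a = v k) :
    (seqL (ks.map sub)).All W fun res => res = ks.map v := by
  refine (All_seqL sub (fun k a => a = v k) ks h).mono fun res hres => ?_
  induction hres with
  | nil => rfl
  | cons h1 _ ih => rw [List.map_cons, h1, ih (fun k hk => h k (List.mem_cons_of_mem _ hk))]

end seq

/-! ### robust mean of equal numbers -/

theorem mem_ins {a b : ℕ} {l : List ℕ} : b ∈ ins a l ↔ b = a ∨ b ∈ l := by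
  induction l with
  | nil => simp [ins]
  | cons c l ih =>
    unfold ins
    split_ifs with h
    · simp
    · simp only [List.mem_cons, ih]
      tauto

theorem mem_isort {b : ℕ} {l : List ℕ} : b ∈ isort l ↔ b ∈ l := by
  unfold isort
  induction l with
  | nil => simp
  | cons a l ih => rw [List.foldr_cons, mem_ins, ih]; simp

theorem length_ins (a : ℕ) (l : List ℕ) : (ins a l).length = l.length + 1 := by
  induction l with
  | nil => rfl
  | cons c l ih =>
    unfold ins
    split_ifs with h
    · rfl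
    · simp [ih]

theorem length_isort (l : List ℕ) : (isort l).length = l.length := by
  unfold isort
  induction l with
  | nil => rfl
  | cons a l ih => rw [List.foldr_cons, length_ins, ih]; simp

/-- a median is one of the numbers -/
theorem med_mem {l : List ℕ} (h : l ≠ []) : med l ∈ l := by
  unfold med
  have h1 : l.length / 2 < (isort l).length := by
    rw [length_isort]
    have := List.length_pos_iff.2 h
    omega
  rw [List.getD_eq_getElem _ _ h1]
  exact mem_isort.1 (List.getElem_mem h1)

theorem sumR_const' (M c : ℕ) : sumR M (fun _ => c) = M * c := by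
  unfold sumR
  rw [List.map_const', List.sum_replicate, List.length_range, smul_eq_mul]

/-- robust mean of equal numbers -/
theorem medMean_const {G M : ℕ} (hG : 0 < G) (hM : 0 < M) {x : ℕ → ℕ → ℕ} {c : ℕ}
    (h : ∀ a < G, ∀ b < M, x a b = c) : medMean G M x = c := by
  have hs : ∀ a < G, sumR M (x a) = M * c := by
    intro a ha
    rw [← sumR_const' M c]
    unfold sumR
    congr 1
    exact List.map_congr_left fun b hb => h a ha b (List.mem_range.1 hb)
  unfold medMean
  set l := (List.range G).map fun a => sumR M (x a) / M with hl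
  have hne : l ≠ [] := by
    rw [hl]
    simp only [ne_eq, List.map_eq_nil_iff, List.range_eq_nil]
    omega
  have hm := med_mem hne
  rw [hl, List.mem_map] at hm
  obtain ⟨a, ha, he⟩ := hm
  rw [← he, hs a (List.mem_range.1 ha)]
  exact Nat.mul_div_cancel_left c hM

/-! ### the constant body entries -/

variable {P : Par}

theorem mem_rngC {lo hi t : ℕ} : t ∈ rngC lo hi ↔ lo ≤ t ∧ t ≤ hi := by
  unfold rngC
  simp only [List.mem_map, List.mem_range]
  constructor
  · rintro ⟨a, ha, rfl⟩; omega
  · rintro ⟨h1, h2⟩; exact ⟨t - lo, by omega, by omega⟩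

theorem adm_cls {F : St → ℕ} {κ : ℕ} {z : St} (h : adm P F κ z = true) : cls F z ≤ κ + 1 := by
  unfold adm at h
  simp only [Bool.and_eq_true, decide_eq_true_eq] at h
  exact h.2

theorem adm_lt {F : St → ℕ} {κ : ℕ} {z : St} (h : adm P F κ z = true) : F z < 2 ^ (κ + 2) := by
  have h1 := adm_cls h
  unfold cls at h1
  have h2 := Nat.lt_pow_succ_log_self (b := 2) (by norm_num) (F z)
  exact h2.trans_le (Nat.pow_le_pow_right (by norm_num) (by omega))

/-- the constant value of the pair `(κ, z)` -/
def cvl (P : Par) (leaf : St → Option ℕ) (F : St → ℕ) (κ : ℕ) (z : St) : ℕ :=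
  if adm P F κ z = false then F z else (leaf z).getD 0

/-- all admissible states of class `κ` are leaves -/
def Fix (P : Par) (leaf : St → Option ℕ) (F : St → ℕ) (κ : ℕ) : Prop :=
  ∀ z, adm P F κ z = true → (leaf z).isSome

theorem Fix.of_lt {leaf : St → Option ℕ} {F : St → ℕ} {T κ : ℕ}
    (hT : ∀ z, F z < 2 ^ T → (leaf z).isSome) (h : κ + 2 ≤ T) : Fix P leaf F κ :=
  fun z hz => hT z ((adm_lt hz).trans_le (Nat.pow_le_pow_right (by norm_num) h))

theorem bodyNum_fix {leaf : St → Option ℕ} {F : St → ℕ} {κ : ℕ} (h : Fix P leaf F κ)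
    (X : ℕ → ℕ → St → ℕ) (k : ℕ) (S : ℕ → ℕ → St → ℕ) (z : St) :
    bodyNum P leaf F X k S κ z = cvl P leaf F κ z := by
  unfold bodyNum cvl
  by_cases ha : adm P F κ z = false
  · rw [if_pos ha, if_pos ha]
  · rw [if_neg ha, if_neg ha]
    have h1 := h z (by simpa using ha)
    obtain ⟨c, hc⟩ := Option.isSome_iff_exists.1 h1
    rw [hc]
    rfl

theorem botNum_fix {leaf : St → Option ℕ} {F : St → ℕ} {κ : ℕ} (h : Fix P leaf F κ) (z : St) :
    botNum P leaf F κ z = cvl P leaf F κ z := by
  unfold botNum cvl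
  by_cases ha : adm P F κ z = false
  · rw [if_pos ha, if_pos ha]
  · rw [if_neg ha, if_neg ha]
    have h1 := h z (by simpa using ha)
    obtain ⟨c, hc⟩ := Option.isSome_iff_exists.1 h1
    rw [hc]
    rfl

/-- **the body table of a tiny class is constant** -/
theorem All_bodyT {W : ℕ} {leaf : St → Option ℕ} {F : St → ℕ} {X : ℕ → ℕ → St → ℕ} {k : ℕ}
    {sub : Cel → RT (List ℕ)} {c : Cel} (h : Fix P leaf F c.κ) :
    (bodyT P leaf F X k sub c).All W fun T => T = tabC P c (cvl P leaf F c.κ) := by
  unfold bodyT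
  rw [All_bind]
  refine All.of_forall fun rs => ?_
  simp only
  rw [All_bind]
  refine All.of_forall fun res => ?_
  rw [All_ret]
  congr 1
  funext z
  exact bodyNum_fix h X k _ z

/-! ### the joint draw -/

/-- the tables of a joint draw, for a known value of every pair -/
def jtab (P : Par) (v : ℕ → St → ℕ) (c : Cel) : List (List ℕ) :=
  (List.range (acells P c.κ c.m).length).map fun p => tabC P (acell P c p) (v (acell P c p).κ)

theorem mem_acells {κ κ' : ℕ} {m m' : ℤ} : (κ', m') ∈ acells P κ m ↔
    (κ - P.a1 ≤ κ' ∧ κ' ≤ κ + P.a2) ∧ m' ∈ cellsIn P.r κ m κ' ∧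
      m' * 2 ^ κ' ≤ (P.Dm : ℤ) ∧ -(P.Dm : ℤ) < (m' + 1) * 2 ^ κ' := by
  unfold acells jCl
  simp only [List.mem_flatMap, List.mem_map, List.mem_filter, mem_rngC, Prod.mk.injEq,
    Bool.and_eq_true, decide_eq_true_eq]
  constructor
  · rintro ⟨a, ha, b, hb, rfl, rfl⟩; exact ⟨ha, hb⟩
  · rintro ⟨h1, h2⟩; exact ⟨κ', h1, m', h2, rfl, rfl⟩

/-- the class of the cells of a joint draw -/
theorem acell_class {c : Cel} {p : ℕ} (hp : p < (acells P c.κ c.m).length) :
    c.κ - P.a1 ≤ (acell P c p).κ ∧ (acell P c p).κ ≤ c.κ + P.a2 := by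
  have h1 : (acells P c.κ c.m).getD p (0, 0) ∈ acells P c.κ c.m := by
    rw [List.getD_eq_getElem _ _ hp]; exact List.getElem_mem hp
  have h2 : (((acells P c.κ c.m).getD p (0, 0)).1, ((acells P c.κ c.m).getD p (0, 0)).2) ∈
      acells P c.κ c.m := h1
  exact (mem_acells.1 h2).1

theorem All_jdraw {W : ℕ} {body : Cel → RT (List ℕ)} {c : Cel} {v : ℕ → St → ℕ}
    (h : ∀ p < (acells P c.κ c.m).length,
      (body (acell P c p)).All W fun T => T = tabC P (acell P c p) (v (acell P c p).κ)) :
    (jdraw P body c).All W fun B => B = jtab P v c :=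
  All_seqL_eq (fun p => body (acell P c p)) _ _ fun p hp => h p (List.mem_range.1 hp)

theorem jent_jtab {v : ℕ → St → ℕ} {c : Cel} {p t : ℕ} (hp : p < (acells P c.κ c.m).length)
    (ht : t < csz P (acell P c p).κ) :
    jent (jtab P v c) p t = v (acell P c p).κ (cst P (acell P c p) t) := by
  have h1 : (jtab P v c).getD p [] = tabC P (acell P c p) (v (acell P c p).κ) := by
    unfold jtab
    rw [List.getD_eq_getElem _ _ (by simpa using hp), List.getElem_map, List.getElem_range]
  unfold jent
  rw [h1]
  unfold tabC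
  rw [List.getD_eq_getElem _ _ (by simpa using ht), List.getElem_map, List.getElem_range]

/-- **exact estimates** -/
theorem jest_const (hg : 0 < P.gJ) (hm : 0 < P.mJ) {B : List (List ℕ)} {Es : List (List (List ℕ))}
    (hl : Es.length = P.gJ * P.mJ) (h : ∀ E ∈ Es, E = B) (p t : ℕ) :
    jest P Es p t = jent B p t := by
  unfold jest
  refine medMean_const hg hm fun a ha b hb => ?_
  have h1 : a * P.mJ + b < Es.length := by
    have : (a + 1) * P.mJ ≤ P.gJ * P.mJ := Nat.mul_le_mul_right _ ha
    rw [Nat.add_mul, Nat.one_mul] at this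
    omega
  rw [List.getD_eq_getElem _ _ h1, h _ (List.getElem_mem h1)]

/-- the arrival table for known body values -/
def atab (P : Par) (F : St → ℕ) (v : ℕ → St → ℕ) (c : Cel) : List ℕ :=
  let B := jtab P v c
  let p0 := (acells P c.κ c.m).idxOf (c.κ, c.m)
  (List.range (csz P c.κ)).map fun t =>
    arrNum P F c.κ (cst P c t) (jent B p0 t) (jent B p0 t)
      ((List.range (acells P c.κ c.m).length).flatMap fun p =>
        (List.range (csz P (acell P c p).κ)).map fun t =>
          (cst P (acell P c p) t, jent B p t, jent B p t))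

/-- **the arrival table of a cell whose body tables are known** -/
theorem All_arrOf {W : ℕ} (hg : 0 < P.gJ) (hm : 0 < P.mJ) {F : St → ℕ}
    {body : Cel → RT (List ℕ)} {c : Cel} {v : ℕ → St → ℕ}
    (h : ∀ p < (acells P c.κ c.m).length,
      (body (acell P c p)).All W fun T => T = tabC P (acell P c p) (v (acell P c p).κ)) :
    (arrOf P F body c).All W fun T => T = atab P F v c := by
  have hj := All_jdraw h
  unfold arrOf
  rw [All_bind]
  refine (All_reps hj _).mono fun Es hE => ?_
  rw [All_bind]
  refine hj.mono fun B hB => ?_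
  obtain ⟨hl, hE⟩ := hE
  rw [All_ret]
  subst hB
  have he : ∀ p t, jest P Es p t = jent (jtab P v c) p t := jest_const hg hm hl hE
  simp only [jcand, he, atab]

/-- **tiny cells at positive height** -/
theorem All_arrOf_tiny {W : ℕ} (hg : 0 < P.gJ) (hm : 0 < P.mJ) {leaf : St → Option ℕ}
    {F : St → ℕ} {X : ℕ → ℕ → St → ℕ} {k : ℕ} {sub : Cel → RT (List ℕ)} {c : Cel}
    (h : ∀ κ' ≤ c.κ + P.a2, Fix P leaf F κ') :
    (arrOf P F (fun c' => bodyT P leaf F X k sub c') c).All W fun T =>
      T = atab P F (cvl P leaf F) c :=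
  All_arrOf hg hm fun _ hp => All_bodyT (h _ (acell_class hp).2)

/-- the arrival table of a tiny cell at every height -/
def ltab (P : Par) (leaf : St → Option ℕ) (F : St → ℕ) : ℕ → Cel → List ℕ
  | 0, c => tabC P c fun y => botNum P leaf F c.κ y
  | _ + 1, c => atab P F (cvl P leaf F) c

theorem All_arrT {W : ℕ} (hg : 0 < P.gJ) (hm : 0 < P.mJ) {leaf : St → Option ℕ}
    {F : St → ℕ} (X : ℕ → ℕ → St → ℕ) (k : ℕ) {c : Cel}
    (h : ∀ κ' ≤ c.κ + P.a2, Fix P leaf F κ') (i : ℕ) :
    (arrT P leaf F X k i c).All W fun T => T = ltab P leaf F i c := by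
  cases i with
  | zero => rw [arrT, All_ret]; rfl
  | succ i =>
    rw [arrT]
    exact All_arrOf_tiny hg hm h

/-- the lane at a pair of a tiny class -/
theorem All_lanePair {W : ℕ} (hg : 0 < P.gJ) (hm : 0 < P.mJ) {leaf : St → Option ℕ}
    {F : St → ℕ} (X : ℕ → ℕ → St → ℕ) (k : ℕ) {κ : ℕ}
    (h : ∀ κ' ≤ κ + P.a2, Fix P leaf F κ') (z : St) :
    (lanePair P leaf F X k κ z).All W fun r =>
      r = rdt P (celOf κ z) (ltab P leaf F z.i (celOf κ z)) z := by
  unfold lanePair
  rw [All_bind]
  refine (All_arrT hg hm X k (c := celOf κ z) h z.i).mono fun T hT => ?_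
  rw [All_ret, hT]

/-- **the number at a pair of a tiny class is exact up to the shift** -/
theorem All_numPair {W : ℕ} (hg : 0 < P.gJ) (hm : 0 < P.mJ) (hgX : 0 < P.gX) (hmX : 0 < P.mX)
    {leaf : St → Option ℕ} {F : St → ℕ} (X : ℕ → ℕ → St → ℕ) (k : ℕ) {κ : ℕ}
    (h : ∀ κ' ≤ κ + P.a2, Fix P leaf F κ') (z : St) :
    (numPair P leaf F X k κ z).All W fun r => r = if adm P F κ z = false then F z
      else rdt P (celOf κ z) (ltab P leaf F z.i (celOf κ z)) z + (cdiv (2 ^ κ) (2 ^ P.nb) + 1) := by
  unfold numPair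
  by_cases ha : adm P F κ z = false
  · rw [if_pos ha, if_pos ha, All_ret]
  · rw [if_neg ha, if_neg ha, All_bind]
    refine (All_reps (All_lanePair hg hm X k h z) _).mono fun l hl => ?_
    rw [All_ret]
    congr 1
    refine medMean_const hgX hmX fun a ha' b hb => ?_
    have h1 : a * P.mX + b < l.length := by
      have : (a + 1) * P.mX ≤ P.gX * P.mX := Nat.mul_le_mul_right _ ha'
      rw [Nat.add_mul, Nat.one_mul] at this
      rw [hl.1]
      omega
    rw [List.getD_eq_getElem _ _ h1]
    exact hl.2 _ (List.getElem_mem h1)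

/-! ### laws -/

theorem Ev_known {α : Type} {W : ℕ} (hW : 0 < W) {t : RT α} {a₀ : α}
    (h : t.All W fun a => a = a₀) (f : α → ℝ) : t.Ev W f = f a₀ := by
  rw [Ev_congr_all (g := fun _ => f a₀) (h.mono fun a ha => by rw [ha])]
  exact Ev_const hW _ _

/-- law of an entry of the joint draw of a tiny cell -/
theorem Ev_jent_tiny {W : ℕ} (hW : 0 < W) {leaf : St → Option ℕ}
    {F : St → ℕ} {X : ℕ → ℕ → St → ℕ} {k : ℕ} {sub : Cel → RT (List ℕ)} {c : Cel}
    (h : ∀ κ' ≤ c.κ + P.a2, Fix P leaf F κ') {p t : ℕ} (hp : p < (acells P c.κ c.m).length)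
    (ht : t < csz P (acell P c p).κ) (f : ℕ → ℝ) :
    (jdraw P (fun c' => bodyT P leaf F X k sub c') c).Ev W (fun B => f (jent B p t)) =
      f (cvl P leaf F (acell P c p).κ (cst P (acell P c p) t)) := by
  rw [Ev_known hW (All_jdraw (v := cvl P leaf F) fun _ hp => All_bodyT (h _ (acell_class hp).2)),
    jent_jtab hp ht]

/-! ### the jump with exact estimates -/

theorem jpr_some {F : ℕ} {y z : St} {cands : List (St × ℕ × ℕ)} {i e w : ℕ}
    (h : cands[i]? = some (z, e, w)) :
    jpr F y cands i = if dist y z ≤ 2 * F then dist y z + e else 3 * F + 1 := by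
  unfold jpr; rw [h]

theorem jpr_none {F : ℕ} {y : St} {cands : List (St × ℕ × ℕ)} {i : ℕ}
    (h : cands[i]? = none) : jpr F y cands i = 3 * F + 1 := by
  unfold jpr; rw [h]

/-- never loses: stay -/
theorem arrNum_le_stay {F : St → ℕ} {κ : ℕ} {y : St} {s : ℕ} {cands : List (St × ℕ × ℕ)}
    (ha : adm P F κ y = true) (hc : ∀ x ∈ cands, x.2.1 = x.2.2) :
    arrNum P F κ y s s cands ≤ s := by
  unfold arrNum
  generalize 2 ^ κ / 2 ^ P.bb = th
  rw [if_neg (by simp [ha])]
  simp only
  split_ifs with h1 h2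
  · exact le_rfl
  · omega
  · split
    · rename_i z e w he
      have h3 := hc _ (List.mem_of_getElem? he)
      simp only at h3
      have h7 := jpr_some (F := F y) (y := y) he
      rw [h7] at h1 h2
      split_ifs at h1 h2 with h6
      · omega
      · omega
    · exact le_rfl

/-- nearly minimal -/
theorem arrNum_le_best {F : St → ℕ} {κ : ℕ} {y : St} {s : ℕ} {cands : List (St × ℕ × ℕ)}
    (ha : adm P F κ y = true) (hc : ∀ x ∈ cands, x.2.1 = x.2.2) :
    arrNum P F κ y s s cands ≤
      min (F y) (jpr (F y) y cands (argR cands.length (jpr (F y) y cands))) + 2 ^ κ / 2 ^ P.bb := by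
  unfold arrNum
  generalize 2 ^ κ / 2 ^ P.bb = th
  rw [if_neg (by simp [ha])]
  simp only
  split_ifs with h1 h2
  · omega
  · omega
  · split
    · rename_i z e w he
      have h3 := hc _ (List.mem_of_getElem? he)
      simp only at h3
      have h7 := jpr_some (F := F y) (y := y) he
      rw [h7] at h1 h2 ⊢
      split_ifs at h1 h2 ⊢ with h6
      · omega
      · omega
    · rename_i he
      have h7 := jpr_none (F := F y) (y := y) he
      rw [h7] at h1 h2
      omega

/-- lower bound -/
theorem le_arrNum {F : St → ℕ} {κ : ℕ} {y : St} {s m : ℕ} {cands : List (St × ℕ × ℕ)} (e : ℕ)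
    (hF : m ≤ F y) (hs : m ≤ s) (hc : ∀ x ∈ cands, m ≤ dist y x.1 + x.2.2) :
    m ≤ arrNum P F κ y e s cands := by
  unfold arrNum
  split_ifs with h0
  · exact hF
  · simp only
    split_ifs with h1 h2
    · exact hs
    · exact hF
    · split
      · rename_i z e' w he
        exact hc _ (List.mem_of_getElem? he)
      · exact hs

end Crest.Agent.R288.Tiny67
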