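import Crest.Agent.R288.TopB_791

/-!
# R288: top layer of S0433, part C (helper791)

The part after the front end: small inputs (exact routine), equal strings, clocked main program.
-/

set_option autoImplicit false

namespace Crest.Agent.R288.Top791

open Crest.WordRAM Crest.Agent.R295.Core690 Crest.Agent.R295.Clock791 Crest.Agent.R295.Prob791
open Crest.Agent.R295.Top791 Crest.GraphRAM
open Crest.Agent.R295 Crest.Agent.R295.TopH791

section tail

variable {r w : ℕ} {pq pm : Prog} {input : List ℕ} {J cw : ℕ}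

theorem sim_trans {r : ℕ} {s σ τ : St} (h : Sim r s σ) (h' : Sim r σ τ) : Sim r s τ :=
  ⟨fun i hi => (h'.1 i hi).trans (h.1 i hi), h'.2.1.trans h.2.1, h'.2.2.trans h.2.2⟩

theorem testBlk_nw {r J d : ℕ} (h4 : d ≠ r + 4) (h5 : d ≠ r + 5) :
    ¬ (Prog.blk (testBlk r J)).writes d := by
  rintro ⟨i, hi, h⟩
  simp only [testBlk, List.mem_append, List.mem_cons, List.not_mem_nil, or_false,
    List.mem_replicate] at hi
  rcases hi with (h' | h') | ⟨_, h'⟩ <;> subst h' <;> simp only [Op.dst, Option.some.injEq] at h <;>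
    omega

theorem wloop_nw {r d : ℕ} (h : d < r + 3 ∨ r + 7 ≤ d) : ¬ (wloop r).writes d := by
  rintro (⟨i, hi, h'⟩ | ⟨i, hi, h'⟩) <;>
    simp only [List.mem_cons, List.not_mem_nil, or_false] at hi
  · rcases hi with h1 | h1 | h1 | h1 <;> subst h1 <;> simp only [Op.dst, Option.some.injEq] at h' <;>
      omega
  · rcases hi with h1 | h1 | h1 <;> subst h1 <;> simp only [Op.dst, Option.some.injEq] at h' <;>
      omega

theorem wloop_ns {r : ℕ} : (wloop r).noStore ∧ (wloop r).noRand := by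
  refine ⟨⟨?_, ?_⟩, ?_, ?_⟩ <;> intro i hi <;>
    simp only [List.mem_cons, List.not_mem_nil, or_false] at hi
  · rcases hi with h | h | h | h <;> subst h <;> trivial
  · rcases hi with h | h | h <;> subst h <;> trivial
  · rcases hi with h | h | h | h <;> subst h <;> trivial
  · rcases hi with h | h | h <;> subst h <;> trivial

/-- the state after the size test -/
theorem test_step {ρ : ℕ → ℕ} (hr : 1 < r) (hw : 1 < w) (h1 : 1 ≤ input.length)
    (hlen : input.length < 2 ^ w) {σ : St} (hs : Sim r (initSt w input) σ) :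
    ∃ σ1, Ex w ρ (fun _ => True) (.blk (testBlk r J)) σ σ1 (J + 2) ∧ Sim r (initSt w input) σ1 ∧
      (σ1.regs (r + 4) = 0 ↔ input.length < 2 ^ J) ∧
      ∀ i, r + 6 ≤ i → σ1.regs i = σ.regs i := by
  have h0 : σ.regs 0 = (input.length - 1) + 1 := by
    rw [hs.1 0 (by omega)]
    show (if 0 = 0 then input.length % 2 ^ w else 0) = _
    rw [if_pos rfl, Nat.mod_eq_of_lt hlen]
    omega
  obtain ⟨σ1, e1, e2, _, e4⟩ := test_ex (r := r) (w := w) (j₀ := J) (ρ := ρ)
    (W := fun _ => True) (by omega) hw σ h0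
  refine ⟨σ1, e1, sim_trans hs e2, ?_, fun i hi => ?_⟩
  · rw [e4]
    have : input.length - 1 + 1 = input.length := by omega
    rw [this]
  · exact e1.reg_frame (testBlk_nw (by omega) (by omega))

theorem one_lt_pow {w : ℕ} (hw : 1 < w) : 1 < 2 ^ w := Nat.one_lt_two_pow (by omega)

/-- small inputs or mode `1`: the exact routine -/
theorem tail_quad {ρ : ℕ → ℕ} (hr : 1 < r) (hw : 1 < w) (h1 : 1 ≤ input.length)
    (hlen : input.length < 2 ^ w) (hq : pq.ok r) {σ : St} (hs : Sim r (initSt w input) σ)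
    (hc : input.length < 2 ^ J ∨ σ.regs (r + 8) = 1) {m v : ℕ}
    (h : Runs w ρ (fun _ => True) pq (initSt w input) m (fun s => s.regs 0 = v)) :
    Runs w ρ (fun _ => True) (tailP r pq pm J cw) σ (J + m + 12) (fun s => s.out = [v]) := by
  obtain ⟨σ1, e1, e2, e3, e4⟩ := test_step (ρ := ρ) (J := J) hr hw h1 hlen hs
  have hpw := one_lt_pow hw
  -- the middle part
  have hmid : Runs w ρ (fun _ => True)
      (.ite (.zero (r + 4)) pq
        (.ite (.zero (r + 8)) (.blk [.const 0 0])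
          (.seq (.blk [.const (r + 10) 1])
            (.ite (.eq (r + 8) (r + 10)) pq
              (.seq (wloop r) (.seq (.blk (fuelBlk r cw)) (clk r pm))))))) σ1 (m + 6)
      (fun s => s.regs 0 = v) := by
    by_cases hz : input.length < 2 ^ J
    · obtain ⟨σ2, t, f1, f2, s', f3, f4⟩ := runs_sim h hq e2
      refine ⟨σ2, _, Ex.ite_true (show Cond.eval (.zero (r + 4)) σ1 from e3.mpr hz) f1, by omega, ?_⟩
      show σ2.regs 0 = v
      rw [f4.1 0 (by omega), f3]
    · have h8 : σ1.regs (r + 8) = 1 := by rw [e4 _ (by omega)]; exact hc.resolve_left hz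
      set σ2 : St := { σ1 with regs := Function.update σ1.regs (r + 10) 1 } with hσ2
      have g : Ex w ρ (fun _ => True) (.blk [.const (r + 10) 1]) σ1 σ2 1 := by
        have := Ex.blk (w := w) (ρ := ρ) (W := fun _ => True) [.const (r + 10) 1] σ1 ⟨trivial, trivial⟩
        simpa [effs, Op.eff, Nat.mod_eq_of_lt hpw] using this
      have hs2 : Sim r (initSt w input) σ2 := sim_upd e2 (by omega)
      obtain ⟨σ3, t, f1, f2, s', f3, f4⟩ := runs_sim h hq hs2
      refine ⟨σ3, _, Ex.ite_false (fun hh => hz (e3.mp hh)) (Ex.ite_false (fun hh => ?_)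
        (Ex.seq g (Ex.ite_true ?_ f1))), by omega, ?_⟩
      · have : σ1.regs (r + 8) = 0 := hh
        omega
      · show σ2.regs (r + 8) = σ2.regs (r + 10)
        rw [hσ2]
        show Function.update σ1.regs (r + 10) 1 (r + 8) = Function.update σ1.regs (r + 10) 1 (r + 10)
        rw [Function.update_of_ne (by omega), Function.update_self, h8]
      · show σ3.regs 0 = v
        rw [f4.1 0 (by omega), f3]
  obtain ⟨σ2, t2, f1, f2, f3⟩ := hmid
  obtain ⟨σ3, t3, g1, g2, g3⟩ := post_runs (ρ := ρ) (W := fun _ => True) (w := w) (by omega) hr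
    trivial σ2 v f3
  exact ⟨σ3, _, Ex.seq e1 (Ex.seq f1 g1), by omega, g3⟩

/-- equal strings -/
theorem tail_zero {ρ : ℕ → ℕ} (hr : 1 < r) (hw : 1 < w) (h1 : 1 ≤ input.length)
    (hlen : input.length < 2 ^ w) {σ : St} (hs : Sim r (initSt w input) σ)
    (hJ : 2 ^ J ≤ input.length) (h8 : σ.regs (r + 8) = 0) :
    Runs w ρ (fun _ => True) (tailP r pq pm J cw) σ (J + 12) (fun s => s.out = [0]) := by
  obtain ⟨σ1, e1, e2, e3, e4⟩ := test_step (ρ := ρ) (J := J) hr hw h1 hlen hs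
  set σ2 : St := { σ1 with regs := Function.update σ1.regs 0 0 } with hσ2
  have g : Ex w ρ (fun _ => True) (.blk [.const 0 0]) σ1 σ2 1 := by
    have := Ex.blk (w := w) (ρ := ρ) (W := fun _ => True) [.const 0 0] σ1 ⟨trivial, trivial⟩
    simpa [effs, Op.eff] using this
  obtain ⟨σ3, t3, g1, g2, g3⟩ := post_runs (ρ := ρ) (W := fun _ => True) (w := w) (by omega) hr
    trivial σ2 0 (by rw [hσ2]; show Function.update σ1.regs 0 0 0 = 0; rw [Function.update_self])
  refine ⟨σ3, _, Ex.seq e1 (Ex.seq (Ex.ite_false (fun hh => ?_) (Ex.ite_true ?_ g)) g1), by omega, g3⟩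
  · have := e3.mp hh
    omega
  · show σ1.regs (r + 8) = 0
    rw [e4 _ (by omega), h8]

theorem fuelBlk_effs {ρ : ℕ → ℕ} {fu l : ℕ} (s : St) (h7 : s.regs (r + 7) = l)
    (h9 : s.regs (r + 9) = fu) (hbig : fu * cw + 6 * l + 7 < 2 ^ w) (hcw : cw < 2 ^ w)
    (h7w : 7 < 2 ^ w) :
    (effs w ρ (fuelBlk r cw) s).regs r = fu * cw + 6 * l + 7 ∧
      (effs w ρ (fuelBlk r cw) s).regs (r + 2) = 0 ∧
      (effs w ρ (fuelBlk r cw) s).regs (r + 3) = s.regs (r + 3) ∧
      (effs w ρ (fuelBlk r cw) s).mem = s.mem ∧ (effs w ρ (fuelBlk r cw) s).drawn = s.drawn ∧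
      ∀ i < r, (effs w ρ (fuelBlk r cw) s).regs i = s.regs i := by
  have m1 : cw % 2 ^ w = cw := Nat.mod_eq_of_lt hcw
  have m2 : 6 % 2 ^ w = 6 := Nat.mod_eq_of_lt (by omega)
  have m3 : 7 % 2 ^ w = 7 := Nat.mod_eq_of_lt h7w
  have m4 : fu * cw % 2 ^ w = fu * cw := Nat.mod_eq_of_lt (by omega)
  have m5 : l * 6 % 2 ^ w = l * 6 := Nat.mod_eq_of_lt (by omega)
  have m6 : (fu * cw + l * 6) % 2 ^ w = fu * cw + l * 6 := Nat.mod_eq_of_lt (by omega)
  have m7 : (fu * cw + l * 6 + 7) % 2 ^ w = fu * cw + l * 6 + 7 := Nat.mod_eq_of_lt (by omega)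
  have n1 : ∀ k : ℕ, (r = r + (k + 1)) = False := fun k => by simp
  have n2 : ∀ k : ℕ, (r + (k + 1) = r) = False := fun k => by simp
  simp only [fuelBlk, effs_cons, effs_nil, Op.eff]
  have e1 : (r = r + 2) = False := n1 1
  have e2 : (r = r + 4) = False := n1 3
  have e3 : (r = r + 5) = False := n1 4
  have e4 : (r + 4 = r) = False := n2 3
  have e5 : (r + 5 = r) = False := n2 4
  have e7 : (r + 7 = r) = False := n2 6
  refine ⟨?_, ?_, ?_, trivial, trivial, fun i hi => ?_⟩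
  · simp only [Function.update_apply, Nat.add_left_cancel_iff, if_true, e1, e2, e3, e4, e5, e7,
      if_false, show ((4 : ℕ) = 2) = False by simp, show ((9 : ℕ) = 4) = False by simp,
      show ((7 : ℕ) = 4) = False by simp, show ((5 : ℕ) = 4) = False by simp,
      show ((4 : ℕ) = 5) = False by simp, h7, h9, m1, m2, m3, m4, m5, m6, m7]
    omega
  · simp only [Function.update_apply, if_true, Nat.zero_mod]
  · have e1 : (r + 3 = r) = False := n2 2
    simp only [Function.update_apply, Nat.add_left_cancel_iff, e1, if_false,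
      show ((3 : ℕ) = 2) = False by simp, show ((3 : ℕ) = 4) = False by simp,
      show ((3 : ℕ) = 5) = False by simp]
  · simp only [Function.update_apply, if_neg (show i ≠ r + 2 by omega), if_neg (show i ≠ r by omega),
      if_neg (show i ≠ r + 4 by omega), if_neg (show i ≠ r + 5 by omega)]

theorem fuelBlk_length {r cw : ℕ} : (fuelBlk r cw).length = 8 := rfl

/-- mode `2`: the clocked main program -/
theorem tail_main {ρ : ℕ → ℕ} (hr : 1 < r) (hw : 2 < w) (h1 : 1 ≤ input.length)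
    (hlen : input.length < 2 ^ w) (hp : pm.ok r) {σ : St} (hs : Sim r (initSt w input) σ)
    {fu : ℕ} (hJ : 2 ^ J ≤ input.length) (h7 : σ.regs (r + 7) = input.length)
    (h8 : σ.regs (r + 8) = 2) (h9 : σ.regs (r + 9) = fu)
    (hbig : fu * cw + 6 * input.length + 7 < 2 ^ w) (hcw : cw < 2 ^ w) :
    ∃ σ' T, Ex w ρ (fun _ => True) (tailP r pq pm J cw) σ σ' T ∧
      T ≤ J + 5 * w + 30 + cost pm * (fu * cw + 6 * input.length + 8) ∧
      ∀ Q : St → Prop, Runs w ρ (fun a => a < 2 ^ w) pm (initSt w input)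
        (fu * cw + 6 * input.length + 6) Q → ∃ s', Q s' ∧ σ'.out = [s'.regs 0] := by
  obtain ⟨σ1, e1, e2, e3, e4⟩ := test_step (ρ := ρ) (J := J) hr (by omega) h1 hlen hs
  have hpw := one_lt_pow (show 1 < w by omega)
  have h7w : 7 < 2 ^ w := by
    have : 2 ^ 3 ≤ 2 ^ w := Nat.pow_le_pow_right (by norm_num) hw
    omega
  set σ2 : St := { σ1 with regs := Function.update σ1.regs (r + 10) 1 } with hσ2
  have g2 : Ex w ρ (fun _ => True) (.blk [.const (r + 10) 1]) σ1 σ2 1 := by
    have := Ex.blk (w := w) (ρ := ρ) (W := fun _ => True) [.const (r + 10) 1] σ1 ⟨trivial, trivial⟩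
    simpa [effs, Op.eff, Nat.mod_eq_of_lt hpw] using this
  have hs2 : Sim r (initSt w input) σ2 := sim_upd e2 (by omega)
  have hr2 : ∀ i, r + 6 ≤ i → i ≠ r + 10 → σ2.regs i = σ.regs i := by
    intro i hi hi'
    show Function.update σ1.regs (r + 10) 1 i = _
    rw [Function.update_of_ne hi', e4 i hi]
  obtain ⟨σ3, t3, f1, f2, f5, f3, f6⟩ := wloop_runs (ρ := ρ) (W := fun _ => True) (r := r)
    (show 1 ≤ w by omega) σ2
  have hs3 : Sim r (initSt w input) σ3 :=
    sim_high hs2 f1 wloop_ns.1 wloop_ns.2 fun d hd => wloop_nw (Or.inl (by omega))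
  have h37 : σ3.regs (r + 7) = input.length := by
    rw [f1.reg_frame (wloop_nw (Or.inr le_rfl)), hr2 _ (by omega) (by omega), h7]
  have h39 : σ3.regs (r + 9) = fu := by
    rw [f1.reg_frame (wloop_nw (Or.inr (by omega))), hr2 _ (by omega) (by omega), h9]
  have hsafe : safes w ρ (fun _ => True) (fuelBlk r cw) σ3 := safes_true _ _
  have g4 := Ex.blk (fuelBlk r cw) σ3 hsafe
  obtain ⟨k1, k2, k3, k4, k5, k6⟩ := fuelBlk_effs (ρ := ρ) (r := r) (cw := cw) σ3 h37 h39 hbig hcw h7w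
  set σ4 := effs w ρ (fuelBlk r cw) σ3 with hσ4
  have hs4 : Sim r (initSt w input) σ4 :=
    ⟨fun i hi => (k6 i hi).trans (hs3.1 i hi), k4.trans hs3.2.1, k5.trans hs3.2.2⟩
  rw [f3] at k3
  obtain ⟨σ5, t5, c1, _, _, c4, c5⟩ := clk_total (w := w) (ρ := ρ) (lo := 0) (hi := 2 ^ w - 1)
    (show 1 ≤ w by omega) pm hp σ4 k2 k3
  have hpost : ∃ σ6, Ex w ρ (fun _ => True) (post r) σ5 σ6 4 ∧ σ6.out = [σ5.regs 0] := by
    obtain ⟨σ6, t6, d1, d2, d3⟩ := post_runs (ρ := ρ) (W := fun _ => True) (w := w) (by omega) hr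
      trivial σ5 _ rfl
    have hd : t6 = 4 := by
      cases d1
      rfl
    subst hd
    exact ⟨σ6, d1, d3⟩
  obtain ⟨σ6, d1, d2⟩ := hpost
  refine ⟨σ6, _, Ex.seq e1 (Ex.seq (Ex.ite_false (fun hh => ?_) (Ex.ite_false (fun hh => ?_)
    (Ex.seq g2 (Ex.ite_false (fun hh => ?_) (Ex.seq f1 (Ex.seq g4 (c1.mono fun _ _ => trivial)))))))
      d1), ?_, ?_⟩
  · have := e3.mp hh
    omega
  · have : σ1.regs (r + 8) = 0 := hh
    rw [e4 _ (by omega), h8] at this
    omega
  · have h' : σ2.regs (r + 8) = σ2.regs (r + 10) := hh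
    rw [hr2 _ (by omega) (by omega), h8] at h'
    rw [hσ2] at h'
    simp only [Function.update_self] at h'
    omega
  · rw [fuelBlk_length]
    have h5 : t5 ≤ cost pm * (fu * cw + 6 * input.length + 8) := by
      refine c5.trans (Nat.mul_le_mul_left _ ?_)
      rw [k1]
      omega
    omega
  · intro Q hQ
    have hW : ∀ a, a < 2 ^ w → Guard 0 (2 ^ w - 1) a := fun a ha => ⟨Nat.zero_le _, by omega⟩
    obtain ⟨s', t, q1, q2, q3⟩ := hQ
    obtain ⟨σ5', t5', a1, a2, _⟩ := clk_sim (w := w) (ρ := ρ) (show 1 ≤ w by omega) hW q1 hp σ4 hs4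
      (by rw [k1]; omega) k2 k3
    obtain ⟨rfl, _⟩ := Ex.det a1 c1
    exact ⟨s', q3, by rw [d2, a2.1 0 (by omega)]⟩

end tail

end Crest.Agent.R288.Top791
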