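import Crest.Agent.R288.PlT_726
import Crest.Agent.R288.PtX_949

/-!
# R288, typed frames for PL (helper393)

Frames (environments), keys and results of the language PL of `Pl_726` are lists of words. Here
every value `a : α` of a type with `PTCode α` gets the frame `fr a` (its code, one bit per word,
`sz a` words). Every poly-time function `f : α → β` lifts to frames: `lf hf (fr a) = fr (f a)`,
without decoding functions: the lift is the raw function of the certificate.

* `lf hf`  : `fr a ↦ fr (f a)`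
* `lfW hf` : `r :: fr a ↦ fr (f (r, a))` (after `rnd` or `rd`)
* `lfC hf` : `(fr b).length :: (fr b ++ fr a) ↦ fr (f (b, a))` (after `call`)
* `tst hg`, `num hg` : tests and indices `α → Bool`, `α → ℕ`
* `inF`, `outN` : from raw words, to one raw word.
-/

set_option autoImplicit false

namespace Crest.Agent.R288.TyF393

open Crest.Agent.Lib.PT Crest.Agent.R288.PtX949
open Crest.Agent.R288.Pl726

variable {α β γ : Type} [PTCode α] [PTCode β] [PTCode γ]

/-! ### frames -/

/-- the frame of a typed value: one bit of the code per word -/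
def fr (a : α) : List ℕ := (enc a).map Bool.toNat

@[simp] theorem length_fr (a : α) : (fr a).length = sz a := by
  unfold fr sz
  rw [List.length_map]

theorem fr_le_one {a : α} {x : ℕ} (h : x ∈ fr a) : x ≤ 1 := by
  unfold fr at h
  obtain ⟨b, -, rfl⟩ := List.mem_map.1 h
  cases b <;> decide

theorem fr_inj {a b : α} (h : fr a = fr b) : a = b := by
  apply enc_injective
  unfold fr at h
  refine List.map_injective_iff.2 ?_ h
  intro x y hxy
  cases x <;> cases y <;> first | rfl | (exact absurd hxy (by decide))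

/-- words to bits -/
def wb (l : List ℕ) : List Bool := l.map (fun x => decide (x ≠ 0))

theorem wb_map (l : List Bool) : wb (l.map Bool.toNat) = l := by
  unfold wb
  rw [List.map_map]
  conv_rhs => rw [← List.map_id l]
  refine List.map_congr_left (fun b _ => ?_)
  cases b <;> rfl

@[simp] theorem wb_fr (a : α) : wb (fr a) = enc a := wb_map _

@[fun_prop]
theorem ptf_wb {l : γ → List ℕ} (hl : PTF l) : PTF (fun c => wb (l c)) := by
  unfold wb
  fun_prop

/-- bits to words -/
def bw (x : Bits) : List ℕ := x.val.map Bool.toNat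

@[fun_prop]
theorem ptf_bw {x : γ → Bits} (hx : PTF x) : PTF (fun c => bw (x c)) := by
  have h1 : PTF (fun b : Bool => Bool.toNat b) := by
    have h2 : PTF (fun b : Bool => bif b then (1 : ℕ) else 0) := by fun_prop
    refine PTF.of_eq h2 (fun b => ?_)
    cases b <;> rfl
  have h3 : PTF (fun b : Bits => b.val.map Bool.toNat) := by
    have h4 : PTF (fun b : Bits => b.val) := PTF.bitsVal PTF.id
    fun_prop
  exact PTF.comp (g := fun b : Bits => b.val.map Bool.toNat) h3 hx

theorem bw_toBits (a : α) : bw (toBits a) = fr a := rfl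

/-! ### lifts -/

/-- the raw function of a certificate -/
noncomputable def rawF {f : α → β} (hf : PTF f) : List Bool → List Bool := hf.choose

theorem rawF_enc {f : α → β} (hf : PTF f) (a : α) : rawF hf (enc a) = enc (f a) :=
  hf.choose_spec.2 a

theorem ptf_rawF {f : α → β} (hf : PTF f) : PTF (fun x : Bits => Bits.mk (rawF hf x.val)) :=
  PT.toPTF hf.choose_spec.1

/-- the raw function on words -/
noncomputable def lfB {f : α → β} (hf : PTF f) (x : Bits) : List ℕ := bw ⟨rawF hf x.val⟩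

@[fun_prop]
theorem ptf_lfB {f : α → β} (hf : PTF f) {x : γ → Bits} (hx : PTF x) :
    PTF (fun c => lfB hf (x c)) := by
  have h : PTF (fun x : Bits => bw (Bits.mk (rawF hf x.val))) := ptf_bw (ptf_rawF hf)
  exact PTF.comp (g := fun x : Bits => bw (Bits.mk (rawF hf x.val))) h hx

theorem lfB_toBits {f : α → β} (hf : PTF f) (a : α) : lfB hf (toBits a) = fr (f a) := by
  unfold lfB
  have : (toBits a).val = enc a := rfl
  rw [this, rawF_enc]
  rfl

/-- lift to frames -/
noncomputable def lf {f : α → β} (hf : PTF f) (v : List ℕ) : List ℕ := lfB hf ⟨wb v⟩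

theorem ptf_lf {f : α → β} (hf : PTF f) : PTF (lf hf) := by
  unfold lf
  exact ptf_lfB hf (PTF.bitsMk (ptf_wb PTF.id))

@[simp] theorem lf_fr {f : α → β} (hf : PTF f) (a : α) : lf hf (fr a) = fr (f a) := by
  unfold lf
  rw [wb_fr]
  exact lfB_toBits hf a

/-- codes of pairs from raw bits -/
def pb (x y : Bits) : Bits := ⟨pair x.val y.val⟩

@[fun_prop]
theorem ptf_pb {x y : γ → Bits} (hx : PTF x) (hy : PTF y) : PTF (fun c => pb (x c) (y c)) := by
  have h : PTF (fun p : Bits × Bits => toBits p) := PTF.toBits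
  have h2 : PTF (fun c => (x c, y c)) := by fun_prop
  exact PTF.of_eq (PTF.comp (g := fun p : Bits × Bits => toBits p) h h2) (fun c => rfl)

theorem pb_enc (a : α) (b : β) : pb ⟨enc a⟩ ⟨enc b⟩ = toBits (a, b) := rfl

/-- lift with one raw word in front -/
noncomputable def lfW {f : ℕ × α → β} (hf : PTF f) (v : List ℕ) : List ℕ :=
  lfB hf (pb (toBits (v.headD 0)) ⟨wb v.tail⟩)

theorem ptf_lfW {f : ℕ × α → β} (hf : PTF f) : PTF (lfW hf) := by
  unfold lfW
  refine ptf_lfB hf (ptf_pb ?_ (PTF.bitsMk (ptf_wb (by fun_prop))))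
  exact PTF.comp (g := fun n : ℕ => toBits n) PTF.toBits (by fun_prop)

@[simp] theorem lfW_fr {f : ℕ × α → β} (hf : PTF f) (r : ℕ) (a : α) :
    lfW hf (r :: fr a) = fr (f (r, a)) := by
  unfold lfW
  rw [List.headD_cons, List.tail_cons, wb_fr]
  exact lfB_toBits hf (r, a)

/-- lift after a call: result and old frame -/
noncomputable def lfC {f : β × α → γ} (hf : PTF f) (v : List ℕ) : List ℕ :=
  lfB hf (pb ⟨wb (v.tail.take (v.headD 0))⟩ ⟨wb (v.tail.drop (v.headD 0))⟩)

theorem ptf_lfC {f : β × α → γ} (hf : PTF f) : PTF (lfC hf) := by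
  unfold lfC
  exact ptf_lfB hf (ptf_pb (PTF.bitsMk (ptf_wb (by fun_prop)))
    (PTF.bitsMk (ptf_wb (by fun_prop))))

@[simp] theorem lfC_fr {f : β × α → γ} (hf : PTF f) (b : β) (a : α) :
    lfC hf ((fr b).length :: (fr b ++ fr a)) = fr (f (b, a)) := by
  unfold lfC
  rw [List.headD_cons, List.tail_cons, List.take_left, List.drop_left, wb_fr, wb_fr]
  exact lfB_toBits hf (b, a)

/-- tests on frames -/
noncomputable def tst {g : α → Bool} (hg : PTF g) (v : List ℕ) : Bool :=
  (rawF hg (wb v)).headD false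

theorem ptf_tst {g : α → Bool} (hg : PTF g) : PTF (tst hg) := by
  unfold tst
  have h : PTF (fun v : List ℕ => Bits.mk (rawF hg (wb v))) :=
    PTF.comp (g := fun x : Bits => Bits.mk (rawF hg x.val)) (ptf_rawF hg)
      (f := fun v : List ℕ => Bits.mk (wb v)) (PTF.bitsMk (ptf_wb PTF.id))
  have h2 : PTF (fun v : List ℕ => (Bits.mk (rawF hg (wb v))).val) := PTF.bitsVal h
  exact PTF.of_eq (f := fun v : List ℕ => (Bits.mk (rawF hg (wb v))).val.headD false)
    (by fun_prop) (fun v => rfl)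

@[simp] theorem tst_fr {g : α → Bool} (hg : PTF g) (a : α) : tst hg (fr a) = g a := by
  unfold tst
  rw [wb_fr, rawF_enc]
  rfl

/-- numbers from frames -/
noncomputable def num {g : α → ℕ} (hg : PTF g) (v : List ℕ) : ℕ :=
  (rawF hg (wb v)).foldr (fun b n => Nat.bit b n) 0

theorem ptf_num {g : α → ℕ} (hg : PTF g) : PTF (num hg) := by
  unfold num
  have h : PTF (fun v : List ℕ => Bits.mk (rawF hg (wb v))) :=
    PTF.comp (g := fun x : Bits => Bits.mk (rawF hg x.val)) (ptf_rawF hg)
      (f := fun v : List ℕ => Bits.mk (wb v)) (PTF.bitsMk (ptf_wb PTF.id))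
  have h2 : PTF (fun v : List ℕ => (Bits.mk (rawF hg (wb v))).val) := PTF.bitsVal h
  exact PTF.of_eq (PTF.ofBits h2) (fun v => rfl)

theorem foldr_bits (n : ℕ) : n.bits.foldr (fun b n => Nat.bit b n) 0 = n := by
  induction n using Nat.binaryRec' with
  | zero => simp
  | bit b n h ih => rw [Nat.bits_append_bit n b h]; simp [ih]

@[simp] theorem num_fr {g : α → ℕ} (hg : PTF g) (a : α) : num hg (fr a) = g a := by
  unfold num
  rw [wb_fr, rawF_enc]
  exact foldr_bits _

/-- typed value of a raw frame, as a frame -/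
def inF (f : List ℕ → β) (v : List ℕ) : List ℕ := fr (f v)

theorem ptf_inF {f : List ℕ → β} (hf : PTF f) : PTF (inF f) := by
  have h : PTF (fun v => toBits (f v)) := PTF.comp (g := fun b : β => toBits b) PTF.toBits hf
  exact PTF.of_eq (ptf_bw h) (fun v => rfl)

/-- one raw word as result -/
noncomputable def outN {g : α → ℕ} (hg : PTF g) (v : List ℕ) : List ℕ := [num hg v]

theorem ptf_outN {g : α → ℕ} (hg : PTF g) : PTF (outN hg) := by
  have h := ptf_num hg
  unfold outN
  fun_prop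

@[simp] theorem outN_fr {g : α → ℕ} (hg : PTF g) (a : α) : outN hg (fr a) = [g a] := by
  unfold outN
  rw [num_fr]

/-! ### typed rules for the semantics of PL -/

section rules

variable {e : PEnv} {pr : List PS}

theorem fits_fr {a : α} (hB : 1 < e.B) (ha : sz a ≤ e.S) : e.Fits (fr a) :=
  ⟨by rwa [length_fr], fun _ hx => lt_of_le_of_lt (fr_le_one hx) hB⟩

theorem fits_cons {a : α} {r : ℕ} (hB : 1 < e.B) (hr : r < e.B) (ha : sz a + 1 ≤ e.S) :
    e.Fits (r :: fr a) :=
  ⟨by rwa [List.length_cons, length_fr], fun x hx => by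
    rcases List.mem_cons.1 hx with rfl | hx
    · exact hr
    · exact lt_of_le_of_lt (fr_le_one hx) hB⟩

theorem fits_join {a : α} {b : β} (hB : e.S < e.B) (h : sz b + sz a + 1 ≤ e.S) :
    e.Fits ((fr b).length :: (fr b ++ fr a)) := by
  refine ⟨by simpa only [List.length_cons, List.length_append, length_fr] using h, ?_⟩
  intro x hx
  rcases List.mem_cons.1 hx with rfl | hx
  · rw [length_fr]; omega
  · rcases List.mem_append.1 hx with hx | hx
    · exact lt_of_le_of_lt (fr_le_one hx) (by omega)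
    · exact lt_of_le_of_lt (fr_le_one hx) (by omega)

/-- `a := f a` -/
noncomputable def asgT {f : α → β} (hf : PTF f) : PS := .asg (lf hf) (ptf_lf hf)

theorem PEx.asgT {f : α → β} {hf : PTF f} {a : α} {i : ℕ} (hB : 1 < e.B) (h : sz (f a) ≤ e.S) :
    PEx e pr (asgT hf) (fr a) i (fr (f a)) i 1 0 := by
  have := PEx.asg (e := e) (pr := pr) (f := lf hf) (hf := ptf_lf hf) (v := fr a) (i := i)
    (by rw [lf_fr]; exact fits_fr hB h)
  rwa [lf_fr] at this

/-- `a := f (fresh word, a)` -/
noncomputable def rndT {f : ℕ × α → β} (hf : PTF f) : PS := .seq .rnd (.asg (lfW hf) (ptf_lfW hf))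

theorem PEx.rndT {f : ℕ × α → β} {hf : PTF f} {a : α} {i : ℕ} (hB : 1 < e.B)
    (hr : e.ρ i < e.B) (ha : sz a + 1 ≤ e.S) (h : sz (f (e.ρ i, a)) ≤ e.S) :
    PEx e pr (rndT hf) (fr a) i (fr (f (e.ρ i, a))) (i + 1) 3 0 := by
  have h1 := PEx.rnd (e := e) (pr := pr) (v := fr a) (i := i) (fits_cons hB hr ha)
  have h2 := PEx.asg (e := e) (pr := pr) (f := lfW hf) (hf := ptf_lfW hf) (v := e.ρ i :: fr a)
    (i := i + 1) (by rw [lfW_fr]; exact fits_fr hB h)
  rw [lfW_fr] at h2
  exact PEx.seq h1 h2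

/-- `a := f (array k at index g a, a)` -/
noncomputable def rdT (k : ℕ) {g : α → ℕ} (hg : PTF g) {f : ℕ × α → β} (hf : PTF f) : PS :=
  .seq (.rd k (num hg) (ptf_num hg)) (.asg (lfW hf) (ptf_lfW hf))

theorem PEx.rdT {k : ℕ} {g : α → ℕ} {hg : PTF g} {f : ℕ × α → β} {hf : PTF f} {a : α} {i : ℕ}
    (hk : k < 50) (hL : g a < e.L) (hB : 1 < e.B) (hr : e.O k (g a) < e.B)
    (ha : sz a + 1 ≤ e.S) (h : sz (f (e.O k (g a), a)) ≤ e.S) :
    PEx e pr (rdT k hg hf) (fr a) i (fr (f (e.O k (g a), a))) i 3 0 := by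
  have h1 := PEx.rd (e := e) (pr := pr) (k := k) (g := num hg) (hg := ptf_num hg) (v := fr a)
    (i := i) hk (by rwa [num_fr]) (by rw [num_fr]; exact fits_cons hB hr ha)
  rw [num_fr] at h1
  have h2 := PEx.asg (e := e) (pr := pr) (f := lfW hf) (hf := ptf_lfW hf)
    (v := e.O k (g a) :: fr a) (i := i) (by rw [lfW_fr]; exact fits_fr hB h)
  rw [lfW_fr] at h2
  exact PEx.seq h1 h2

/-- `b := result of procedure j on g a; a := f (b, a)` -/
noncomputable def callT (j : ℕ) {g : α → γ} (hg : PTF g) {δ ζ : Type} [PTCode δ] [PTCode ζ]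
    {f : δ × α → ζ} (hf : PTF f) : PS :=
  .seq (.call j (lf hg) (ptf_lf hg)) (.asg (lfC hf) (ptf_lfC hf))

theorem PEx.callT {j : ℕ} {g : α → γ} {hg : PTF g} {δ ζ : Type} [PTCode δ] [PTCode ζ]
    {f : δ × α → ζ} {hf : PTF f} {a : α} {b : δ} {i i' t d : ℕ} (hB : e.S < e.B) (h1B : 1 < e.B)
    (hga : sz (g a) ≤ e.S) (hc : PEx e pr (pbody pr j) (fr (g a)) i (fr b) i' t d)
    (hba : sz b + sz a + 1 ≤ e.S) (h : sz (f (b, a)) ≤ e.S) :
    PEx e pr (callT j hg hf) (fr a) i (fr (f (b, a))) i' (t + 3) (d + 1) := by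
  have h1 := PEx.call (e := e) (pr := pr) (j := j) (g := lf hg) (hg := ptf_lf hg) (v := fr a)
    (u := fr b) (i := i) (i' := i') (t := t) (d := d) (by rw [lf_fr]; exact fits_fr h1B hga)
    (by rwa [lf_fr]) (fits_join hB hba)
  have h2 := PEx.asg (e := e) (pr := pr) (f := lfC hf) (hf := ptf_lfC hf)
    (v := (fr b).length :: (fr b ++ fr a)) (i := i')
    (by rw [lfC_fr]; exact fits_fr h1B h)
  rw [lfC_fr] at h2
  have h3 := PEx.seq h1 h2
  rwa [max_eq_left (Nat.zero_le _)] at h3

/-- test -/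
noncomputable def iteT {g : α → Bool} (hg : PTF g) (p q : PS) : PS := .ite (tst hg) (ptf_tst hg) p q

theorem PEx.iteT {g : α → Bool} {hg : PTF g} {p q : PS} {a : α} {v' : List ℕ} {i i' t d : ℕ}
    (h : PEx e pr (bif g a then p else q) (fr a) i v' i' t d) :
    PEx e pr (iteT hg p q) (fr a) i v' i' (t + 1) d := by
  unfold TyF393.iteT
  cases hb : g a with
  | true => exact PEx.ite_true (by rw [tst_fr, hb]) (by simpa [hb] using h)
  | false => exact PEx.ite_false (by rw [tst_fr, hb]) (by simpa [hb] using h)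

/-- loop -/
noncomputable def whlT {g : α → Bool} (hg : PTF g) (p : PS) : PS := .whl (tst hg) (ptf_tst hg) p

theorem PEx.whlT_done {g : α → Bool} {hg : PTF g} {p : PS} {a : α} {i : ℕ} (h : g a = false) :
    PEx e pr (whlT hg p) (fr a) i (fr a) i 1 0 :=
  PEx.whl_done (by rw [tst_fr, h])

theorem PEx.whlT_step {g : α → Bool} {hg : PTF g} {p : PS} {a : α} {v' v'' : List ℕ}
    {i i' i'' t t' d d' : ℕ} (h : g a = true) (h1 : PEx e pr p (fr a) i v' i' t d)
    (h2 : PEx e pr (whlT hg p) v' i' v'' i'' t' d') :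
    PEx e pr (whlT hg p) (fr a) i v'' i'' (t + t' + 1) (max d d') :=
  PEx.whl_step (by rw [tst_fr, h]) h1 h2

/-- counted form of a loop: states `st 0, st 1, ..., st n` -/
theorem PEx.whlT_seq {g : α → Bool} {hg : PTF g} {p : PS} (st : ℕ → α) (ix : ℕ → ℕ) (n T D : ℕ)
    (h : ∀ k < n, g (st k) = true ∧ ∃ t d, t ≤ T ∧ d ≤ D ∧
      PEx e pr p (fr (st k)) (ix k) (fr (st (k + 1))) (ix (k + 1)) t d)
    (hn : g (st n) = false) :
    ∃ t d, t ≤ n * (T + 1) + 1 ∧ d ≤ D ∧
      PEx e pr (whlT hg p) (fr (st 0)) (ix 0) (fr (st n)) (ix n) t d := by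
  induction n generalizing st ix with
  | zero => exact ⟨1, 0, by omega, Nat.zero_le _, PEx.whlT_done hn⟩
  | succ n ih =>
    obtain ⟨h0, t0, d0, ht0, hd0, e0⟩ := h 0 (Nat.succ_pos n)
    obtain ⟨t1, d1, ht1, hd1, e1⟩ := ih (fun k => st (k + 1)) (fun k => ix (k + 1))
      (fun k hk => h (k + 1) (by omega)) hn
    refine ⟨t0 + t1 + 1, max d0 d1, ?_, max_le hd0 hd1, PEx.whlT_step h0 e0 e1⟩
    have : (n + 1) * (T + 1) = n * (T + 1) + (T + 1) := by ring
    omega

end rules

end Crest.Agent.R288.TyF393
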