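import Crest.Agent.R288.VI_684

/-!
# R288: the computed value iteration (finite menus, relative errors)

On `VI_684`.

* `Net M u c s` : every integer within `c` of `u` is within `s` of a point of the finite menu `M`.
* `WM M f r j` : the window DP of `VI_684` with all inner cuts in `M`; `W_le_WM`, `WM_le_stair`
  (rounding the cuts of a staircase costs `2 s (2 ^ r - 1)`), `WM_le_W`.
* `CH` : value iteration with computed stops `Sh` and menus `Mn`; `le_CH`, `CH_le` : relative error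
  `(1 - e) C ≤ CH ≤ (1 + e) (1 + t) ^ k C`; `FH` the mean, `le_FH`, `FH_le`.
* `multi` : the multi-scale menu satisfies the hypothesis `Menu` for every value of `c`.
* `CF` : value iteration with the floor `q * S`; `FF` the mean: `FF_lip`, `le_FF`, `FF_le_S`,
  `FF_le_stair` with defect `(1 / K + q) S`; `floor_le` : every iterate is at least `q * S`.
-/

set_option autoImplicit false

namespace Crest.Agent.R288.VIm692

open Finset Crest.Agent.R288.VI684

/-! ### nets and the restricted window DP -/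

/-- `M` is an `s`-net of the integers within `c` of `u` -/
def Net (M : Finset ℤ) (u : ℤ) (c s : ℝ) : Prop := ∀ w : ℤ, dz u w ≤ c → ∃ w' ∈ M, dz w w' ≤ s

/-- the window DP with the inner cuts in `M` -/
noncomputable def WM (M : Finset ℤ) (f : ℕ → ℤ → ℤ → ℝ) : ℕ → ℕ → ℤ → ℤ → ℝ
  | 0, j => f j
  | r + 1, j => fun u v => ⨅ w : M, (WM M f r (2 * j) u w + WM M f r (2 * j + 1) w v)

@[simp] theorem WM_zero (M : Finset ℤ) (f : ℕ → ℤ → ℤ → ℝ) (j : ℕ) : WM M f 0 j = f j := rfl

theorem WM_succ (M : Finset ℤ) (f : ℕ → ℤ → ℤ → ℝ) (r j : ℕ) (u v : ℤ) :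
    WM M f (r + 1) j u v = ⨅ w : M, (WM M f r (2 * j) u w + WM M f r (2 * j + 1) w v) := rfl

theorem WM_le_split {M : Finset ℤ} (f : ℕ → ℤ → ℤ → ℝ) (r j : ℕ) (u v : ℤ) {w : ℤ} (hw : w ∈ M) :
    WM M f (r + 1) j u v ≤ WM M f r (2 * j) u w + WM M f r (2 * j + 1) w v :=
  ciInf_le (Set.finite_range _).bddBelow (⟨w, hw⟩ : M)

theorem exists_WM_split {M : Finset ℤ} (hM : M.Nonempty) (f : ℕ → ℤ → ℤ → ℝ) (r j : ℕ)
    (u v : ℤ) : ∃ w ∈ M, WM M f (r + 1) j u v
      = WM M f r (2 * j) u w + WM M f r (2 * j + 1) w v := by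
  have : Nonempty M := hM.to_subtype
  obtain ⟨w, hw⟩ := exists_eq_ciInf_of_finite
    (f := fun w : M => WM M f r (2 * j) u w + WM M f r (2 * j + 1) w v)
  exact ⟨w, w.2, hw.symm⟩

theorem W_le_WM {M : Finset ℤ} (hM : M.Nonempty) {f : ℕ → ℤ → ℤ → ℝ} (hf : ∀ j, Coer (f j))
    (r j : ℕ) (u v : ℤ) : W f r j u v ≤ WM M f r j u v := by
  induction r generalizing j u v with
  | zero => exact le_rfl
  | succ r ih =>
    obtain ⟨w, -, hw⟩ := exists_WM_split hM f r j u v
    rw [hw]
    exact (W_le_split hf r j u v w).trans (add_le_add (ih _ _ _) (ih _ _ _))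

theorem WM_mono {M : Finset ℤ} (hM : M.Nonempty) {f f' : ℕ → ℤ → ℤ → ℝ} (r j : ℕ)
    (h : ∀ t < 2 ^ r, ∀ u v, f (2 ^ r * j + t) u v ≤ f' (2 ^ r * j + t) u v) (u v : ℤ) :
    WM M f r j u v ≤ WM M f' r j u v := by
  induction r generalizing j u v with
  | zero => simpa using h 0 (by simp) u v
  | succ r ih =>
    obtain ⟨w, hwM, hw⟩ := exists_WM_split hM f' r j u v
    rw [hw]
    refine (WM_le_split f r j u v hwM).trans (add_le_add (ih _ (fun t ht u v => ?_) u w)
      (ih _ (fun t ht u v => ?_) w v))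
    · have := h t (by rw [pow_succ]; omega) u v
      rwa [pow_succ, mul_assoc] at this
    · have := h (2 ^ r + t) (by rw [pow_succ]; omega) u v
      have e : 2 ^ (r + 1) * j + (2 ^ r + t) = 2 ^ r * (2 * j + 1) + t := by ring
      rwa [e] at this

theorem WM_smul {M : Finset ℤ} (hM : M.Nonempty) (f : ℕ → ℤ → ℤ → ℝ) {c : ℝ} (hc : 0 ≤ c)
    (r j : ℕ) (u v : ℤ) : WM M (fun j u v => c * f j u v) r j u v = c * WM M f r j u v := by
  induction r generalizing j u v with
  | zero => rfl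
  | succ r ih =>
    apply le_antisymm
    · obtain ⟨w, hwM, hw⟩ := exists_WM_split hM f r j u v
      rw [hw, mul_add, ← ih, ← ih]
      exact WM_le_split _ r j u v hwM
    · obtain ⟨w, hwM, hw⟩ := exists_WM_split hM (fun j u v => c * f j u v) r j u v
      rw [hw, ih, ih, ← mul_add]
      exact mul_le_mul_of_nonneg_left (WM_le_split f r j u v hwM) hc

/-! ### rounding the cuts -/

theorem stair_congr_ends {f : ℕ → ℤ → ℤ → ℝ} (r j : ℕ) {m m' : ℕ → ℤ}
    (h : ∀ t ≤ 2 ^ r, m t = m' t) : stair f r j m = stair f r j m' := by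
  unfold stair
  refine sum_congr rfl fun t ht => ?_
  have := mem_range.1 ht
  rw [h t (by omega), h (t + 1) (by omega)]

/-- changing the right end -/
theorem stair_right {f : ℕ → ℤ → ℤ → ℝ} (hf : ∀ j, Lip (f j)) (r j : ℕ) (m : ℕ → ℤ) (w : ℤ) :
    stair f r j (Function.update m (2 ^ r) w) ≤ stair f r j m + dz w (m (2 ^ r)) := by
  unfold stair
  obtain ⟨N, hN⟩ : ∃ N, 2 ^ r = N + 1 := ⟨2 ^ r - 1, (Nat.succ_pred_eq_of_pos (by positivity)).symm⟩
  rw [hN, sum_range_succ, sum_range_succ, add_assoc]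
  refine add_le_add (le_of_eq (sum_congr rfl fun t ht => ?_)) ?_
  · have := mem_range.1 ht
    rw [Function.update_of_ne (by omega), Function.update_of_ne (by omega)]
  · rw [Function.update_of_ne (by omega), Function.update_self]
    exact (hf _).right _ _ _

/-- changing the left end -/
theorem stair_left {f : ℕ → ℤ → ℤ → ℝ} (hf : ∀ j, Lip (f j)) (r j : ℕ) (m : ℕ → ℤ) (w : ℤ) :
    stair f r j (Function.update m 0 w) ≤ stair f r j m + dz w (m 0) := by
  unfold stair
  obtain ⟨N, hN⟩ : ∃ N, 2 ^ r = N + 1 := ⟨2 ^ r - 1, (Nat.succ_pred_eq_of_pos (by positivity)).symm⟩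
  rw [hN, sum_range_succ', sum_range_succ', add_assoc]
  refine add_le_add (le_of_eq (sum_congr rfl fun t ht => ?_)) ?_
  · rw [Function.update_of_ne (by omega), Function.update_of_ne (by omega)]
  · rw [Function.update_self, Function.update_of_ne (by omega)]
    exact (hf _).left _ _ _

/-- **rounding all the inner cuts of a staircase to the menu costs `2 s (2 ^ r - 1)`** -/
theorem WM_le_stair {M : Finset ℤ} {f : ℕ → ℤ → ℤ → ℝ} (hf : ∀ j, Lip (f j)) {s : ℝ}
    (r j : ℕ) (m : ℕ → ℤ) (hm : ∀ t, 0 < t → t < 2 ^ r → ∃ w ∈ M, dz (m t) w ≤ s) :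
    WM M f r j (m 0) (m (2 ^ r)) ≤ stair f r j m + 2 * s * (2 ^ r - 1) := by
  induction r generalizing j m with
  | zero => simp [stair_zero]
  | succ r ih =>
    have hp : 0 < 2 ^ r := by positivity
    have e : 2 ^ (r + 1) = 2 ^ r + 2 ^ r := by rw [pow_succ]; ring
    obtain ⟨w, hwM, hws⟩ := hm (2 ^ r) hp (by omega)
    rw [stair_succ]
    have h1 := ih (2 * j) (Function.update m (2 ^ r) w) (fun t h0 ht => by
      obtain ⟨w', hw', hd⟩ := hm t h0 (by omega)
      exact ⟨w', hw', by rwa [Function.update_of_ne (by omega)]⟩)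
    have h2 := ih (2 * j + 1) (Function.update (fun t => m (2 ^ r + t)) 0 w) (fun t h0 ht => by
      obtain ⟨w', hw', hd⟩ := hm (2 ^ r + t) (by omega) (by omega)
      exact ⟨w', hw', by rwa [Function.update_of_ne (by omega)]⟩)
    rw [Function.update_of_ne (by omega), Function.update_self] at h1
    rw [Function.update_self, Function.update_of_ne (by omega), ← e] at h2
    have h3 := stair_right hf r (2 * j) m w
    have h4 := stair_left hf r (2 * j + 1) (fun t => m (2 ^ r + t)) w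
    have h5 := WM_le_split (M := M) f r j (m 0) (m (2 ^ (r + 1))) hwM
    simp only [add_zero] at h4
    rw [dz_comm] at h3 h4
    have e2 : (2 : ℝ) ^ (r + 1) = 2 * 2 ^ r := by rw [pow_succ]; ring
    rw [e2]
    linarith

/-- the cuts of a staircase are within its cost of the left end -/
theorem dz_le_stair {f : ℕ → ℤ → ℤ → ℝ} (hf : ∀ j, Coer (f j)) (r j : ℕ) (m : ℕ → ℤ) {t : ℕ}
    (ht : t ≤ 2 ^ r) : dz (m 0) (m t) ≤ stair f r j m := by
  have h : ∀ k ≤ 2 ^ r, dz (m 0) (m k) ≤ ∑ t ∈ range k, f (2 ^ r * j + t) (m t) (m (t + 1)) := by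
    intro k
    induction k with
    | zero => intro _; simp [dz_self]
    | succ k ih =>
      intro hk
      rw [sum_range_succ]
      exact (dz_tri _ (m k) _).trans (add_le_add (ih (by omega)) (hf _ _ _))
  refine (h t ht).trans ?_
  unfold stair
  exact sum_le_sum_of_subset_of_nonneg (range_mono ht) fun t _ _ => (hf _).nonneg _ _

/-- the restricted DP against the exact one -/
theorem WM_le_W {M : Finset ℤ} {f : ℕ → ℤ → ℤ → ℝ} (hc : ∀ j, Coer (f j))
    (hf : ∀ j, Lip (f j)) {s : ℝ} (r j : ℕ) (u v : ℤ) (hn : Net M u (W f r j u v) s) :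
    WM M f r j u v ≤ W f r j u v + 2 * s * (2 ^ r - 1) := by
  obtain ⟨m, h0, h1, h2⟩ := exists_stair hc r j u v
  rw [← h2]
  have h3 := WM_le_stair (M := M) hf (s := s) r j m (fun t _ ht => by
    refine hn (m t) ?_
    rw [← h2, ← h0]
    exact dz_le_stair hc r j m ht.le)
  rwa [h0, h1] at h3

/-! ### the computed value iteration -/

section comp

variable (S Sh : ℕ → ℕ → ℤ → ℤ → ℝ) (P : ℕ → ℤ → ℤ → ℝ) (n : ℕ)
  (Mn : ℕ → ℕ → ℤ → ℤ → Finset ℤ)

/-- value iteration with computed stops and finite menus -/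
noncomputable def CH : ℕ → ℕ → ℕ → ℤ → ℤ → ℝ
  | _, 0, j => P j
  | 0, i + 1, j => Sh (i + 1) j
  | k + 1, i + 1, j => fun u v =>
      min (Sh (i + 1) j u v) (WM (Mn (i + 1) j u v) (CH k i) n j u v)

@[simp] theorem CH_term (k j : ℕ) : CH Sh P n Mn k 0 j = P j := by cases k <;> rfl

theorem CH_zero (i j : ℕ) : CH Sh P n Mn 0 (i + 1) j = Sh (i + 1) j := rfl

theorem CH_succ (k i j : ℕ) (u v : ℤ) : CH Sh P n Mn (k + 1) (i + 1) j u v
    = min (Sh (i + 1) j u v) (WM (Mn (i + 1) j u v) (CH Sh P n Mn k i) n j u v) := rfl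

/-- the menus are good: relative rounding loss at most `t` for every value `c ≤ b` -/
def Menu (n : ℕ) (t : ℝ) (M : Finset ℤ) (u : ℤ) (b : ℝ) : Prop :=
  M.Nonempty ∧ ∀ c, 0 ≤ c → c ≤ b → ∃ s, 0 ≤ s ∧ Net M u c s ∧ 2 * s * (2 ^ n - 1) ≤ t * c

variable {S Sh P n Mn}
variable (hS : ∀ i j, Coer (S i j)) (hP : ∀ j, Coer (P j))

include hS hP

/-- lower bound -/
theorem le_CH {a : ℝ} (ha0 : 0 ≤ a) (ha : a ≤ 1) (hM : ∀ i j u v, (Mn i j u v).Nonempty)
    (h : ∀ i j u v, a * S i j u v ≤ Sh i j u v) (k i j : ℕ) (u v : ℤ) :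
    a * C S P n k i j u v ≤ CH Sh P n Mn k i j u v := by
  have hPa : ∀ j u v, a * P j u v ≤ P j u v := fun j u v =>
    mul_le_of_le_one_left ((hP j).nonneg u v) ha
  induction k generalizing i j u v with
  | zero =>
    cases i with
    | zero => simpa using hPa j u v
    | succ i => exact h _ _ _ _
  | succ k ih =>
    cases i with
    | zero => simpa using hPa j u v
    | succ i =>
      rw [C_succ, CH_succ, mul_min_of_nonneg _ _ ha0]
      refine min_le_min (h _ _ _ _) ?_
      calc a * W (C S P n k i) n j u v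
          ≤ a * WM (Mn (i + 1) j u v) (C S P n k i) n j u v :=
            mul_le_mul_of_nonneg_left (W_le_WM (hM _ _ _ _) (fun j => C_coer hS hP k i j) n j u v)
              ha0
        _ = WM (Mn (i + 1) j u v) (fun j u v => a * C S P n k i j u v) n j u v :=
            (WM_smul (hM _ _ _ _) _ ha0 _ _ _ _).symm
        _ ≤ _ := WM_mono (hM _ _ _ _) n j (fun t _ u v => ih i _ u v) u v

/-- upper bound: every step loses a relative error `t` -/
theorem CH_le {b t : ℝ} (hb : 1 ≤ b) (ht : 0 ≤ t)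
    (hSl : ∀ i j, Lip (S i j)) (hPl : ∀ j, Lip (P j))
    (hM : ∀ i j u v, Menu n t (Mn i j u v) u (S i j u v))
    (h : ∀ i j u v, Sh i j u v ≤ b * S i j u v) (k i j : ℕ) (u v : ℤ) :
    CH Sh P n Mn k i j u v ≤ b * (1 + t) ^ k * C S P n k i j u v := by
  have h1t : ∀ k, 1 ≤ b * (1 + t) ^ k := fun k => by
    have : 1 ≤ (1 + t) ^ k := one_le_pow₀ (by linarith)
    nlinarith
  have hPa : ∀ k j u v, P j u v ≤ b * (1 + t) ^ k * P j u v := fun k j u v =>
    le_mul_of_one_le_left ((hP j).nonneg u v) (h1t k)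
  induction k generalizing i j u v with
  | zero =>
    cases i with
    | zero => simpa using hPa 0 j u v
    | succ i =>
      rw [pow_zero, mul_one]
      exact h _ _ _ _
  | succ k ih =>
    cases i with
    | zero => simpa using hPa (k + 1) j u v
    | succ i =>
      rw [C_succ, CH_succ]
      have hbt : 0 ≤ b * (1 + t) ^ k := zero_le_one.trans (h1t k)
      have hSt : Sh (i + 1) j u v ≤ b * (1 + t) ^ (k + 1) * S (i + 1) j u v := by
        refine (h _ _ _ _).trans (mul_le_mul_of_nonneg_right ?_ ((hS _ _).nonneg _ _))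
        have : 1 ≤ (1 + t) ^ (k + 1) := one_le_pow₀ (by linarith)
        nlinarith
      rcases le_total (S (i + 1) j u v) (W (C S P n k i) n j u v) with hle | hle
      · rw [min_eq_left hle]
        exact (min_le_left _ _).trans hSt
      · rw [min_eq_right hle]
        have hc := fun j => C_coer hS hP (n := n) k i j
        have hl := fun j => C_lip hS hP (n := n) hSl hPl k i j
        obtain ⟨hne, hnet⟩ := hM (i + 1) j u v
        obtain ⟨s, hs0, hs, hst⟩ := hnet (W (C S P n k i) n j u v) ((W_coer hc n j).nonneg u v) hle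
        refine (min_le_right _ _).trans ?_
        calc WM (Mn (i + 1) j u v) (CH Sh P n Mn k i) n j u v
            ≤ WM (Mn (i + 1) j u v) (fun j u v => b * (1 + t) ^ k * C S P n k i j u v) n j u v :=
              WM_mono hne n j (fun t _ u v => ih i _ u v) u v
          _ = b * (1 + t) ^ k * WM (Mn (i + 1) j u v) (C S P n k i) n j u v :=
              WM_smul hne _ hbt _ _ _ _
          _ ≤ b * (1 + t) ^ k * ((1 + t) * W (C S P n k i) n j u v) := by
              refine mul_le_mul_of_nonneg_left ?_ hbt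
              have := WM_le_W hc hl n j u v hs
              linarith
          _ = _ := by rw [pow_succ]; ring

variable {K : ℕ}

variable (Sh P n Mn) in
/-- the computed mean -/
noncomputable def FH (K i j : ℕ) (u v : ℤ) : ℝ := (∑ k ∈ range K, CH Sh P n Mn k i j u v) / K

theorem le_FH {a : ℝ} (ha0 : 0 ≤ a) (ha : a ≤ 1)
    (hM : ∀ i j u v, (Mn i j u v).Nonempty) (h : ∀ i j u v, a * S i j u v ≤ Sh i j u v)
    (i j : ℕ) (u v : ℤ) : a * F S P n K i j u v ≤ FH Sh P n Mn K i j u v := by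
  unfold F FH
  rw [← mul_div_assoc, mul_sum]
  exact div_le_div_of_nonneg_right (sum_le_sum fun k _ => le_CH hS hP ha0 ha hM h k i j u v)
    (Nat.cast_nonneg K)

theorem FH_le {b t : ℝ} (hb : 1 ≤ b) (ht : 0 ≤ t)
    (hSl : ∀ i j, Lip (S i j)) (hPl : ∀ j, Lip (P j))
    (hM : ∀ i j u v, Menu n t (Mn i j u v) u (S i j u v))
    (h : ∀ i j u v, Sh i j u v ≤ b * S i j u v) (i j : ℕ) (u v : ℤ) :
    FH Sh P n Mn K i j u v ≤ b * (1 + t) ^ K * F S P n K i j u v := by
  unfold F FH
  rw [← mul_div_assoc, mul_sum]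
  refine div_le_div_of_nonneg_right (sum_le_sum fun k hk => ?_) (Nat.cast_nonneg K)
  refine (CH_le hS hP hb ht hSl hPl hM h k i j u v).trans
    (mul_le_mul_of_nonneg_right ?_ ((C_coer hS hP k i j).nonneg _ _))
  exact mul_le_mul_of_nonneg_left
    (pow_le_pow_right₀ (by linarith) (mem_range.1 hk).le) (by linarith)

end comp

/-! ### the multi-scale menu -/

/-- the points of scale `a`: multiples of `2 ^ (a - p)` within `2 ^ (a + 1)` of `u` -/
noncomputable def scale (p a : ℕ) (u : ℤ) : Finset ℤ :=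
  (Finset.Icc (u - 2 ^ (a + 1)) (u + 2 ^ (a + 1))).filter fun z => (2 : ℤ) ^ (a - p) ∣ z

/-- the multi-scale menu: all scales up to `A` -/
noncomputable def multi (p A : ℕ) (u : ℤ) : Finset ℤ := insert u ((range (A + 1)).biUnion fun a => scale p a u)

theorem multi_menu {n p A : ℕ} {t : ℝ} (hp : (2 : ℝ) ^ (n + 2) ≤ t * 2 ^ p) {u : ℤ} {b : ℝ}
    (hb : b ≤ 2 ^ A) : Menu n t (multi p A u) u b := by
  have ht : 0 ≤ t := by
    have h1 : (0 : ℝ) < 2 ^ (n + 2) := by positivity
    have h2 : (0 : ℝ) < 2 ^ p := by positivity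
    by_contra h
    push Not at h
    nlinarith
  refine ⟨⟨u, mem_insert_self _ _⟩, fun c hc0 hcb => ?_⟩
  rcases lt_or_ge c 1 with hc | hc
  · refine ⟨0, le_rfl, fun w hw => ⟨u, mem_insert_self _ _, ?_⟩, by
      rw [mul_zero, zero_mul]; positivity⟩
    have h1 : |(u : ℝ) - w| < 1 := lt_of_le_of_lt hw hc
    have h2 : |u - w| < 1 := by exact_mod_cast h1
    have h3 : w = u := by
      have := abs_lt.1 h2
      omega
    rw [h3, dz_self]
  · -- the least scale above `c`
    obtain ⟨a, haA, hca, hac⟩ : ∃ a ≤ A, c ≤ 2 ^ a ∧ (2 : ℝ) ^ a ≤ 2 * c := by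
      classical
      have hex : ∃ a : ℕ, c ≤ 2 ^ a := ⟨A, hcb.trans hb⟩
      refine ⟨Nat.find hex, Nat.find_min' hex (hcb.trans hb), Nat.find_spec hex, ?_⟩
      rcases Nat.eq_zero_or_pos (Nat.find hex) with h0 | h0
      · rw [h0]
        norm_num
        linarith
      · have h1 := Nat.find_min hex (Nat.sub_lt h0 one_pos)
        push Not at h1
        have h2 : (2 : ℝ) ^ (Nat.find hex) = 2 * 2 ^ (Nat.find hex - 1) := by
          rw [← pow_succ', Nat.sub_add_cancel h0]
        rw [h2]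
        linarith
    have hg : (0 : ℤ) < 2 ^ (a - p) := by positivity
    have hg2 : (2 : ℤ) ^ (a - p) ≤ 2 ^ a := pow_le_pow_right₀ (by norm_num) (Nat.sub_le _ _)
    refine ⟨(2 : ℝ) ^ (a - p) - 1, ?_, fun w hw => ?_, ?_⟩
    · have : (1 : ℝ) ≤ 2 ^ (a - p) := one_le_pow₀ (by norm_num)
      linarith
    · have hwu : |u - w| ≤ 2 ^ a := by
        have h1 : |(u : ℝ) - w| ≤ 2 ^ a := hw.trans hca
        exact_mod_cast h1
      have hwu' := abs_le.1 hwu
      have hd := Int.emod_add_mul_ediv w (2 ^ (a - p))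
      have hm0 := Int.emod_nonneg w hg.ne'
      have hm1 := Int.emod_lt_of_pos w hg
      refine ⟨2 ^ (a - p) * (w / 2 ^ (a - p)), ?_, ?_⟩
      · refine mem_insert_of_mem (mem_biUnion.2 ⟨a, mem_range.2 (by omega), ?_⟩)
        refine mem_filter.2 ⟨mem_Icc.2 ?_, dvd_mul_right _ _⟩
        have e : (2 : ℤ) ^ (a + 1) = 2 ^ a + 2 ^ a := by rw [pow_succ]; ring
        constructor <;> linarith
      · unfold dz
        have h1 : |w - 2 ^ (a - p) * (w / 2 ^ (a - p))| ≤ 2 ^ (a - p) - 1 := by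
          rw [abs_le]
          constructor <;> linarith [Int.lt_iff_add_one_le.1 hm1]
        exact_mod_cast h1
    · rcases lt_or_ge a p with h | h
      · rw [Nat.sub_eq_zero_of_le h.le]
        have : 0 ≤ t * c := by positivity
        simpa using this
      · have h1 : (2 : ℝ) ^ (a - p) * 2 ^ p = 2 ^ a := by rw [← pow_add, Nat.sub_add_cancel h]
        have h2 : (0 : ℝ) < 2 ^ p := by positivity
        have h3 : (1 : ℝ) ≤ 2 ^ n := one_le_pow₀ (by norm_num)
        have h4 : (0 : ℝ) ≤ 2 ^ (a - p) - 1 := by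
          have : (1 : ℝ) ≤ 2 ^ (a - p) := one_le_pow₀ (by norm_num)
          linarith
        have h5 : 2 * ((2 : ℝ) ^ (a - p) - 1) * (2 ^ n - 1) ≤ 2 * 2 ^ (a - p) * 2 ^ n := by
          have : (0 : ℝ) < 2 ^ (a - p) := by positivity
          nlinarith
        refine h5.trans ?_
        have h6 : (2 : ℝ) ^ (a - p) * 2 ^ p ≤ 2 * c := by rw [h1]; exact hac
        have h7 : (2 : ℝ) ^ (n + 2) = 4 * 2 ^ n := by rw [pow_add]; ring
        rw [h7] at hp
        have h8 : 2 * (2 : ℝ) ^ (a - p) * 2 ^ n * 2 ^ p ≤ t * c * 2 ^ p := by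
          calc 2 * (2 : ℝ) ^ (a - p) * 2 ^ n * 2 ^ p = 2 * 2 ^ n * (2 ^ (a - p) * 2 ^ p) := by ring
            _ ≤ 2 * 2 ^ n * (2 * c) := mul_le_mul_of_nonneg_left h6 (by positivity)
            _ = (4 * 2 ^ n) * c := by ring
            _ ≤ (t * 2 ^ p) * c := mul_le_mul_of_nonneg_right hp hc0
            _ = _ := by ring
        exact le_of_mul_le_mul_right h8 h2

/-! ### value iteration with a floor -/

section floor

variable (S : ℕ → ℕ → ℤ → ℤ → ℝ) (P : ℕ → ℤ → ℤ → ℝ) (n : ℕ) (q : ℝ)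

/-- value iteration with the floor `q * S` -/
noncomputable def CF : ℕ → ℕ → ℕ → ℤ → ℤ → ℝ
  | _, 0, j => P j
  | 0, i + 1, j => S (i + 1) j
  | k + 1, i + 1, j => fun u v =>
      max (q * S (i + 1) j u v) (min (S (i + 1) j u v) (W (CF k i) n j u v))

/-- its mean -/
noncomputable def FF (K i j : ℕ) (u v : ℤ) : ℝ := (∑ k ∈ range K, CF S P n q k i j u v) / K

@[simp] theorem CF_term (k j : ℕ) : CF S P n q k 0 j = P j := by cases k <;> rfl

theorem CF_zero (i j : ℕ) : CF S P n q 0 (i + 1) j = S (i + 1) j := rfl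

theorem CF_succ (k i j : ℕ) (u v : ℤ) : CF S P n q (k + 1) (i + 1) j u v
    = max (q * S (i + 1) j u v) (min (S (i + 1) j u v) (W (CF S P n q k i) n j u v)) := rfl

variable {S P n q}
variable (hS : ∀ i j, Coer (S i j)) (hP : ∀ j, Coer (P j)) (hq0 : 0 ≤ q) (hq1 : q ≤ 1)

include hS hP in
theorem CF_coer (k i j : ℕ) : Coer (CF S P n q k i j) := by
  induction k generalizing i j with
  | zero =>
    cases i with
    | zero => exact hP j
    | succ i => exact hS _ _
  | succ k ih =>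
    cases i with
    | zero => exact hP j
    | succ i =>
      exact fun u v => (min_coer (hS _ _) (W_coer (fun j => ih i j) n j) u v).trans
        (le_max_right _ _)

include hS hP hq0 hq1 in
theorem CF_lip (hSl : ∀ i j, Lip (S i j)) (hPl : ∀ j, Lip (P j)) (k i j : ℕ) :
    Lip (CF S P n q k i j) := by
  induction k generalizing i j with
  | zero =>
    cases i with
    | zero => exact hPl j
    | succ i => exact hSl _ _
  | succ k ih =>
    cases i with
    | zero => exact hPl j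
    | succ i =>
      intro u v u' v'
      have h1 := min_lip (hSl (i + 1) j)
        (W_lip (fun j => CF_coer hS hP (n := n) (q := q) k i j) (fun j => ih i j) n j) u v u' v'
      have h2 := hSl (i + 1) j u v u' v'
      have h3 : 0 ≤ dz u u' + dz v v' := add_nonneg (dz_nonneg _ _) (dz_nonneg _ _)
      rw [CF_succ, CF_succ, ← max_add_add_right]
      refine max_le_max ?_ h1
      nlinarith

include hS hq1 in
theorem CF_le_S (k i j : ℕ) (u v : ℤ) : CF S P n q k (i + 1) j u v ≤ S (i + 1) j u v := by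
  cases k with
  | zero => exact le_rfl
  | succ k =>
    exact max_le (mul_le_of_le_one_left ((hS _ _).nonneg _ _) hq1) (min_le_left _ _)

include hS hq1 in
/-- the floor -/
theorem floor_le (k i j : ℕ) (u v : ℤ) :
    q * S (i + 1) j u v ≤ CF S P n q k (i + 1) j u v := by
  cases k with
  | zero => exact mul_le_of_le_one_left ((hS _ _).nonneg _ _) hq1
  | succ k => exact le_max_left _ _

/-- below every hard subsolution's data -/
theorem le_CF {T : ℕ → ℕ → ℤ → ℤ → ℝ} (hT : ∀ i j, Coer (T i j))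
    (h0 : ∀ j u v, T 0 j u v ≤ P j u v) (h1 : ∀ i j u v, T (i + 1) j u v ≤ S (i + 1) j u v)
    (h2 : ∀ i j u v, T (i + 1) j u v ≤ W (T i) n j u v) (k i j : ℕ) (u v : ℤ) :
    T i j u v ≤ CF S P n q k i j u v := by
  induction k generalizing i j u v with
  | zero =>
    cases i with
    | zero => simpa using h0 j u v
    | succ i => exact h1 _ _ _ _
  | succ k ih =>
    cases i with
    | zero => simpa using h0 j u v
    | succ i =>
      exact le_max_of_le_right (le_min (h1 _ _ _ _) ((h2 _ _ _ _).trans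
        (W_mono (hT i) n j (fun t _ u v => ih i _ u v) u v)))

include hS hP hq0 in
theorem CF_le_stair (k i j : ℕ) (m : ℕ → ℤ) :
    CF S P n q (k + 1) (i + 1) j (m 0) (m (2 ^ n))
      ≤ stair (CF S P n q k i) n j m + q * S (i + 1) j (m 0) (m (2 ^ n)) := by
  rw [CF_succ]
  have h1 := W_le_stair (f := CF S P n q k i) (fun j => CF_coer hS hP k i j) n j m
  have h2 : 0 ≤ q * S (i + 1) j (m 0) (m (2 ^ n)) := mul_nonneg hq0 ((hS _ _).nonneg _ _)
  have h3 : 0 ≤ stair (CF S P n q k i) n j m :=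
    sum_nonneg fun t _ => (CF_coer hS hP k i _).nonneg _ _
  refine max_le (by linarith) ((min_le_right _ _).trans (h1.trans (by linarith)))

variable {K : ℕ}

theorem mul_FF (hK : 0 < K) (i j : ℕ) (u v : ℤ) :
    (K : ℝ) * FF S P n q K i j u v = ∑ k ∈ range K, CF S P n q k i j u v := by
  unfold FF
  field_simp

theorem FF_zero (hK : 0 < K) (j : ℕ) : FF S P n q K 0 j = P j := by
  funext u v
  unfold FF
  simp only [CF_term, sum_const, card_range, nsmul_eq_mul]
  field_simp

include hS hP in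
theorem FF_coer (hK : 0 < K) (i j : ℕ) : Coer (FF S P n q K i j) := fun u v => by
  have hK' : (0 : ℝ) < K := by exact_mod_cast hK
  unfold FF
  rw [le_div_iff₀ hK']
  calc dz u v * K = ∑ _k ∈ range K, dz u v := by simp [mul_comm]
    _ ≤ _ := sum_le_sum fun k _ => CF_coer hS hP k i j u v

include hS hP hq0 hq1 in
/-- **(F1)** -/
theorem FF_lip (hK : 0 < K) (hSl : ∀ i j, Lip (S i j)) (hPl : ∀ j, Lip (P j)) (i j : ℕ) :
    Lip (FF S P n q K i j) := fun u v u' v' => by
  have hK' : (0 : ℝ) < K := by exact_mod_cast hK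
  unfold FF
  rw [div_le_iff₀ hK', add_mul, div_mul_cancel₀ _ hK'.ne']
  calc ∑ k ∈ range K, CF S P n q k i j u v
      ≤ ∑ k ∈ range K, (CF S P n q k i j u' v' + (dz u u' + dz v v')) :=
        sum_le_sum fun k _ => CF_lip hS hP hq0 hq1 hSl hPl k i j u v u' v'
    _ = _ := by rw [sum_add_distrib]; simp only [sum_const, card_range, nsmul_eq_mul]; ring

include hS hq1 in
theorem FF_le_S (hK : 0 < K) (i j : ℕ) (u v : ℤ) :
    FF S P n q K (i + 1) j u v ≤ S (i + 1) j u v := by
  have hK' : (0 : ℝ) < K := by exact_mod_cast hK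
  unfold FF
  rw [div_le_iff₀ hK']
  calc ∑ k ∈ range K, CF S P n q k (i + 1) j u v ≤ ∑ _k ∈ range K, S (i + 1) j u v :=
        sum_le_sum fun k _ => CF_le_S hS hq1 k i j u v
    _ = _ := by simp [mul_comm]

include hS hq1 in
theorem qS_le_FF (hK : 0 < K) (i j : ℕ) (u v : ℤ) :
    q * S (i + 1) j u v ≤ FF S P n q K (i + 1) j u v := by
  have hK' : (0 : ℝ) < K := by exact_mod_cast hK
  unfold FF
  rw [le_div_iff₀ hK']
  calc q * S (i + 1) j u v * K = ∑ _k ∈ range K, q * S (i + 1) j u v := by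
        simp [mul_comm, mul_left_comm]
    _ ≤ _ := sum_le_sum fun k _ => floor_le hS hq1 k i j u v

theorem le_FF (hK : 0 < K) {T : ℕ → ℕ → ℤ → ℤ → ℝ} (hT : ∀ i j, Coer (T i j))
    (h0 : ∀ j u v, T 0 j u v ≤ P j u v) (h1 : ∀ i j u v, T (i + 1) j u v ≤ S (i + 1) j u v)
    (h2 : ∀ i j u v, T (i + 1) j u v ≤ W (T i) n j u v) (i j : ℕ) (u v : ℤ) :
    T i j u v ≤ FF S P n q K i j u v := by
  have hK' : (0 : ℝ) < K := by exact_mod_cast hK
  unfold FF
  rw [le_div_iff₀ hK']
  calc T i j u v * K = ∑ _k ∈ range K, T i j u v := by simp [mul_comm]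
    _ ≤ _ := sum_le_sum fun k _ => le_CF hT h0 h1 h2 k i j u v

include hS hP hq0 in
/-- **(F3)** with the floor: defect `(1 / K + q) S`, for EVERY staircase -/
theorem FF_le_stair (hK : 0 < K) (i j : ℕ) (m : ℕ → ℤ) :
    FF S P n q K (i + 1) j (m 0) (m (2 ^ n))
      ≤ stair (FF S P n q K i) n j m + (1 / K + q) * S (i + 1) j (m 0) (m (2 ^ n)) := by
  have hK' : (0 : ℝ) < K := by exact_mod_cast hK
  have hst : (K : ℝ) * stair (FF S P n q K i) n j m
      = ∑ k ∈ range K, stair (CF S P n q k i) n j m := by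
    unfold stair
    rw [mul_sum, sum_comm]
    exact sum_congr rfl fun t _ => mul_FF hK i _ _ _
  have hSn : 0 ≤ S (i + 1) j (m 0) (m (2 ^ n)) := (hS _ _).nonneg _ _
  have hmain : (K : ℝ) * FF S P n q K (i + 1) j (m 0) (m (2 ^ n))
      ≤ (1 + K * q) * S (i + 1) j (m 0) (m (2 ^ n)) + (K : ℝ) * stair (FF S P n q K i) n j m := by
    rw [mul_FF hK, hst]
    obtain ⟨K', rfl⟩ : ∃ K', K = K' + 1 := ⟨K - 1, by omega⟩
    rw [sum_range_succ', sum_range_succ (fun k => stair (CF S P n q k i) n j m)]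
    have h1 : ∑ k ∈ range K', CF S P n q (k + 1) (i + 1) j (m 0) (m (2 ^ n))
        ≤ ∑ k ∈ range K', (stair (CF S P n q k i) n j m + q * S (i + 1) j (m 0) (m (2 ^ n))) :=
      sum_le_sum fun k _ => CF_le_stair hS hP hq0 k i j m
    rw [sum_add_distrib, sum_const, card_range, nsmul_eq_mul] at h1
    have h2 : 0 ≤ stair (CF S P n q K' i) n j m :=
      sum_nonneg fun t _ => (CF_coer hS hP K' i _).nonneg _ _
    have h3 : CF S P n q 0 (i + 1) j (m 0) (m (2 ^ n)) = S (i + 1) j (m 0) (m (2 ^ n)) := rfl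
    push_cast
    nlinarith [mul_nonneg hq0 hSn]
  have : FF S P n q K (i + 1) j (m 0) (m (2 ^ n)) ≤ ((1 + K * q) * S (i + 1) j (m 0) (m (2 ^ n))
      + (K : ℝ) * stair (FF S P n q K i) n j m) / K := by
    rw [le_div_iff₀ hK']
    linarith
  rw [add_div, mul_div_cancel_left₀ _ hK'.ne', mul_comm (1 + K * q), mul_div_assoc] at this
  have e : (1 + (K : ℝ) * q) / K = 1 / K + q := by field_simp
  rw [e] at this
  linarith

end floor

end Crest.Agent.R288.VIm692
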