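import Crest.Agent.R288.Vec_500

/-!
# R288: HL kit on segments of arrays, part 2

`argmin`, `argmax`, `eqSeg`, `dot`; `mapW` (a loop whose body is any command that writes one cell);
`minplus`: product of two matrices over (min, +), stored row by row in segments.
-/

set_option autoImplicit false

namespace Crest.Agent.R288.Vec500

open Crest.Agent.R295.HL Crest.Agent.R295.HL.Exp Crest.Agent.R295.HL.Cnd
open Crest.Agent.R295.HL.Cmd Crest.Agent.R295.HA100 Crest.Agent.R295.HLib100

/-! ### argmin, argmax -/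

/-- `z` := minimum of the (nonempty) segment, `y` := first index where it is attained -/
def argmin (x z y n k1 o1 : ℕ) : Cmd :=
  set y 0 ;; set z (get k1 (var o1)) ;;
    forUp x 0 (var n) (when (lt (rd k1 o1 x) (var z)) (set z (rd k1 o1 x) ;; set y (var x)))

/-- `z` := maximum of the (nonempty) segment, `y` := first index where it is attained -/
def argmax (x z y n k1 o1 : ℕ) : Cmd :=
  set y 0 ;; set z (get k1 (var o1)) ;;
    forUp x 0 (var n) (when (lt (var z) (rd k1 o1 x)) (set z (rd k1 o1 x) ;; set y (var x)))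

/-- common loop of `argmin` and `argmax` -/
theorem argR_runs {e : Env} {s : State} {x z y n N k1 o1 : ℕ} {l : List ℕ}
    (R : ℕ → ℕ → Prop) (C : Exp → Exp → Cnd)
    (hCok : ∀ s' r r', r.ok e s' → r'.ok e s' → (C r r').ok e s')
    (hC : ∀ (s' : State) r r', (C r r').holds s' ↔ R (r.val s') (r'.val s'))
    (hirr : ∀ u, ¬ R u u) (htr : ∀ u v w, R u v → R v w → R u w)
    (hng : ∀ u v w, R u v → ¬ R w v → R u w)
    (h : RSrc e s x z n N k1 o1 l) (hyx : y ≠ x) (hyz : y ≠ z) (hyn : y ≠ n) (hyo : y ≠ o1)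
    (hN : 0 < N) :
    Runs e (set y 0 ;; set z (get k1 (var o1)) ;;
      forUp x 0 (var n) (when (C (rd k1 o1 x) (var z)) (set z (rd k1 o1 x) ;; set y (var x)))) s
      (5 * N + 4) (fun s' => RF s s' [x, z, y] ∧ s'.reg y < N ∧ s'.reg z = l.getD (s'.reg y) 0 ∧
        (∀ v ∈ l, ¬ R v (s'.reg z)) ∧ ∀ i < s'.reg y, R (s'.reg z) (l.getD i 0)) := by
  have hNB := h.hN
  have hB := h.hB
  have hL := h.hL
  have hlen := h.len
  have ho1y := Ne.symm hyo
  have ho1z := Ne.symm h.zo
  have ho1x := Ne.symm h.xo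
  have hnx := Ne.symm h.xn
  have hnz := Ne.symm h.zn
  have hny := Ne.symm hyn
  have hxz := Ne.symm h.zx
  have hxy := Ne.symm hyx
  have hzy := Ne.symm hyz
  have h0l : 0 < l.length := by omega
  have hseg0 : s.arr k1 (s.reg o1) = l[0] := h.seg 0 h0l
  refine (Runs.set (Q := fun s2 => s2 = s.setReg y 0) (by simp only [Exp.ok_zero]; omega)
    rfl).seq (m := 5 * N + 3) ?_ (by omega)
  rintro s2 rfl
  refine (Runs.set (Q := fun s2 => s2 = (s.setReg y 0).setReg z l[0]) ?_ ?_).seq
    (m := 5 * N + 2) ?_ (by omega)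
  · simp only [Exp.ok_get, Exp.ok_var, Exp.val_var, State.setReg_reg, if_neg ho1y, true_and]
    omega
  · simp only [Exp.val_get, Exp.val_var, State.setReg_reg, if_neg ho1y, State.setReg_arr, hseg0]
  rintro s2 rfl
  refine Runs.forUp (A := 0) (N := N) (m := 3)
    (I := fun j s' => RF s s' [x, z, y] ∧ s'.reg y < N ∧ (s'.reg y ≤ j) ∧
      s'.reg z = l.getD (s'.reg y) 0 ∧
      (∀ i < j, ¬ R (l.getD i 0) (s'.reg z)) ∧ ∀ i < s'.reg y, R (s'.reg z) (l.getD i 0))
    ?_ rfl (by omega) hNB ?_ ?_ ?_ ?_ (by omega)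
  · simp only [Exp.ok_zero]; omega
  · have e1 : (((s.setReg y 0).setReg z l[0]).setReg x 0).reg y = 0 := by
      simp only [State.setReg_reg, if_neg hyx, if_neg hyz, if_true]
    have e2 : (((s.setReg y 0).setReg z l[0]).setReg x 0).reg z = l[0] := by
      simp only [State.setReg_reg, if_neg h.zx, if_true]
    rw [e1, e2]
    refine ⟨?_, by omega, le_rfl, ?_, fun i hi => absurd hi (Nat.not_lt_zero i),
      fun i hi => absurd hi (Nat.not_lt_zero i)⟩
    · exact (((RF.refl s [x, z, y]).set (by simp)).set (by simp)).set (by simp)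
    · rw [List.getD_eq_getElem _ _ h0l]
  · rintro j s' - hj ⟨g1, g2, g3, g4, g5, g6⟩ g7
    refine ⟨trivial, ?_⟩
    have hn' : n ∉ [x, z, y] := by
      simp only [List.mem_cons, List.not_mem_nil, or_false, not_or]
      exact ⟨hnx, hnz, hny⟩
    rw [Exp.val_var, g1.reg n hn', h.hn]
  · rintro j s' - hj ⟨g1, g2, g3, g4, g5, g6⟩ g7
    have ho' : o1 ∉ [x, z, y] := by
      simp only [List.mem_cons, List.not_mem_nil, or_false, not_or]
      exact ⟨ho1x, ho1z, ho1y⟩
    have ho1 : s'.reg o1 = s.reg o1 := g1.reg o1 ho'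
    have hjl : j < l.length := by omega
    have hrd : (rd k1 o1 x).ok e s' := rd_ok ho1 g7 (by omega) (by omega)
    have hrv : (rd k1 o1 x).val s' = l[j] := by
      rw [rd_val ho1 g7, g1.arr]
      exact h.seg j _
    have hgj : l.getD j 0 = l[j] := List.getD_eq_getElem _ _ hjl
    refine Runs.when (n := 2) (hCok _ _ _ hrd trivial) ?_ ?_ (by omega)
    · intro hc
      rw [hC, hrv, Exp.val_var] at hc
      refine (Runs.set (Q := fun s2 => s2 = s'.setReg z l[j]) hrd (by rw [hrv])).seq
        (m := 1) ?_ le_rfl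
      rintro s2 rfl
      refine Runs.set (by simp) ?_
      have e0 : (var x).val (s'.setReg z l[j]) = j := by
        rw [Exp.val_var, State.setReg_reg, if_neg hxz, g7]
      rw [e0]
      have e1 : (((s'.setReg z l[j]).setReg y j).setReg x (j + 1)).reg y = j := by
        simp only [State.setReg_reg, if_neg hyx, if_true]
      have e2 : (((s'.setReg z l[j]).setReg y j).setReg x (j + 1)).reg z = l[j] := by
        simp only [State.setReg_reg, if_neg h.zx, if_neg hzy, if_true]
      rw [e1, e2]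
      refine ⟨?_, ?_, hj, by omega, hgj.symm, ?_, ?_⟩
      · simp only [State.setReg_reg, if_neg hxy, if_neg hxz, g7]
      · exact ((g1.set (by simp)).set (by simp)).set (by simp)
      · intro i hi hR
        rcases Nat.lt_succ_iff_lt_or_eq.1 hi with hi | rfl
        · exact g5 i hi (htr _ _ _ hR hc)
        · rw [hgj] at hR
          exact hirr _ hR
      · intro i hi
        exact hng _ _ _ hc (g5 i hi)
    · intro hc
      rw [hC, hrv, Exp.val_var] at hc
      have e1 : (s'.setReg x (j + 1)).reg y = s'.reg y := by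
        rw [State.setReg_reg, if_neg hyx]
      have e2 : (s'.setReg x (j + 1)).reg z = s'.reg z := by
        rw [State.setReg_reg, if_neg h.zx]
      rw [e1, e2]
      refine ⟨g7, g1.set (by simp), g2, by omega, g4, ?_, g6⟩
      intro i hi
      rcases Nat.lt_succ_iff_lt_or_eq.1 hi with hi | rfl
      · exact g5 i hi
      · rw [hgj]; exact hc
  · rintro s' ⟨g1, g2, g3, g4, g5, g6⟩ -
    refine ⟨g1, g2, g4, ?_, g6⟩
    intro v hv
    obtain ⟨i, hi, rfl⟩ := List.getElem_of_mem hv
    have := g5 i (by omega)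
    rwa [List.getD_eq_getElem _ _ hi] at this


theorem argmin_runs {e : Env} {s : State} {x z y n N k1 o1 : ℕ} {l : List ℕ}
    (h : RSrc e s x z n N k1 o1 l) (hyx : y ≠ x) (hyz : y ≠ z) (hyn : y ≠ n) (hyo : y ≠ o1)
    (hN : 0 < N) :
    Runs e (argmin x z y n k1 o1) s (5 * N + 4) (fun s' => RF s s' [x, z, y] ∧ s'.reg y < N ∧
      s'.reg z = l.getD (s'.reg y) 0 ∧ (∀ v ∈ l, s'.reg z ≤ v) ∧
      ∀ i < s'.reg y, s'.reg z < l.getD i 0) := by
  refine (argR_runs (fun u v => u < v) (fun r r' => lt r r') (fun _ _ _ h1 h2 => ⟨h1, h2⟩)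
    (fun _ _ _ => Iff.rfl) (fun u => lt_irrefl u) (fun u v w h1 h2 => by omega)
    (fun u v w h1 h2 => by omega) h hyx hyz hyn hyo hN).post ?_
  rintro s' ⟨g1, g2, g3, g4, g5⟩
  exact ⟨g1, g2, g3, fun v hv => not_lt.1 (g4 v hv), g5⟩

theorem argmax_runs {e : Env} {s : State} {x z y n N k1 o1 : ℕ} {l : List ℕ}
    (h : RSrc e s x z n N k1 o1 l) (hyx : y ≠ x) (hyz : y ≠ z) (hyn : y ≠ n) (hyo : y ≠ o1)
    (hN : 0 < N) :
    Runs e (argmax x z y n k1 o1) s (5 * N + 4) (fun s' => RF s s' [x, z, y] ∧ s'.reg y < N ∧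
      s'.reg z = l.getD (s'.reg y) 0 ∧ (∀ v ∈ l, v ≤ s'.reg z) ∧
      ∀ i < s'.reg y, l.getD i 0 < s'.reg z) := by
  refine (argR_runs (fun u v => v < u) (fun r r' => lt r' r) (fun _ _ _ h1 h2 => ⟨h2, h1⟩)
    (fun _ _ _ => Iff.rfl) (fun u => lt_irrefl u) (fun u v w h1 h2 => by omega)
    (fun u v w h1 h2 => by omega) h hyx hyz hyn hyo hN).post ?_
  rintro s' ⟨g1, g2, g3, g4, g5⟩
  exact ⟨g1, g2, g3, fun v hv => not_lt.1 (g4 v hv), g5⟩

/-! ### equality of segments -/

/-- `z := 1` if the segments `(k1, o1)` and `(k2, o2)` of length `n` are equal, else `0` -/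
def eqSeg (x z n k1 o1 k2 o2 : ℕ) : Cmd :=
  set z 1 ;; forUp x 0 (var n) (when (ne (rd k1 o1 x) (rd k2 o2 x)) (set z 0))

theorem eqSeg_runs {e : Env} {s : State} {x z n N k1 o1 k2 o2 : ℕ} {l1 l2 : List ℕ}
    (h1 : RSrc e s x z n N k1 o1 l1) (h2 : RSrc e s x z n N k2 o2 l2) (h1B : 1 < e.B) :
    Runs e (eqSeg x z n k1 o1 k2 o2) s (4 * N + 3) (fun s' => RF s s' [x, z] ∧
      s'.reg z = if l1 = l2 then 1 else 0) := by
  have hNB := h1.hN
  have hxz := Ne.symm h1.zx
  have hzx := h1.zx
  have hlen1 := h1.len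
  have hlen2 := h2.len
  refine (Runs.set (Q := fun s2 => s2 = s.setReg z 1) (by simpa using h1B)
    rfl).seq (m := 4 * N + 2) ?_ (by omega)
  rintro s2 rfl
  refine Runs.forUp (A := 0) (N := N) (m := 2)
    (I := fun j s' => RF s s' [x, z] ∧ s'.reg z = if l1.take j = l2.take j then 1 else 0)
    ?_ rfl (by omega) hNB ?_ ?_ ?_ ?_ (by omega)
  · simp only [Exp.ok_zero]; omega
  · refine ⟨((RF.refl s [x, z]).set (by simp)).set (by simp), ?_⟩
    rw [State.setReg_reg, if_neg hzx, State.setReg_reg, if_pos rfl]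
    simp
  · rintro j s' - hj ⟨g1, g2⟩ g7
    refine ⟨trivial, ?_⟩
    have hn' : n ∉ [x, z] := by
      simp only [List.mem_cons, List.not_mem_nil, or_false, not_or]
      exact ⟨Ne.symm h1.xn, Ne.symm h1.zn⟩
    rw [Exp.val_var, g1.reg n hn', h1.hn]
  · rintro j s' - hj ⟨g1, g2⟩ g7
    obtain ⟨a1, a2⟩ := h1.rd hj g7 g1
    obtain ⟨b1, b2⟩ := h2.rd hj g7 g1
    have hj1 : j < l1.length := by omega
    have hj2 : j < l2.length := by omega
    have hiff : l1.take (j + 1) = l2.take (j + 1) ↔ l1.take j = l2.take j ∧ l1[j] = l2[j] := by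
      rw [List.take_succ_eq_append_getElem hj1, List.take_succ_eq_append_getElem hj2]
      constructor
      · intro h
        have := List.append_inj h (by rw [List.length_take, List.length_take]; omega)
        exact ⟨this.1, by simpa using this.2⟩
      · rintro ⟨h, h'⟩
        rw [h, h']
    refine Runs.when (n := 1) ⟨a1, b1⟩ ?_ ?_ le_rfl
    · intro hc
      rw [Cnd.holds_ne, a2, b2] at hc
      refine Runs.set (by simp only [Exp.ok_zero]; omega) ?_
      refine ⟨?_, (g1.set (by simp)).set (by simp), ?_⟩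
      · rw [State.setReg_reg, if_neg hxz, g7]
      · rw [State.setReg_reg, if_neg hzx, State.setReg_reg, if_pos rfl, if_neg]
        · rfl
        · rw [hiff]; exact fun h => hc h.2
    · intro hc
      rw [Cnd.holds_ne, not_not, a2, b2] at hc
      refine ⟨g7, g1.set (by simp), ?_⟩
      rw [State.setReg_reg, if_neg hzx, g2]
      by_cases h : l1.take j = l2.take j
      · rw [if_pos h, if_pos (hiff.2 ⟨h, hc⟩)]
      · rw [if_neg h, if_neg (fun h' => h (hiff.1 h').1)]
  · rintro s' ⟨g1, g2⟩ -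
    refine ⟨g1, ?_⟩
    rw [g2, List.take_of_length_le (by omega), List.take_of_length_le (by omega)]

/-! ### dot product -/

/-- `z := Σ l1[i] * l2[i]` -/
def dot (x z n k1 o1 k2 o2 : ℕ) : Cmd :=
  set z 0 ;; reduce x z n (var z + rd k1 o1 x * rd k2 o2 x)

theorem dot_runs {e : Env} {s : State} {x z n N k1 o1 k2 o2 : ℕ} {l1 l2 : List ℕ}
    (h1 : RSrc e s x z n N k1 o1 l1) (h2 : RSrc e s x z n N k2 o2 l2)
    (hB : (List.zipWith (fun u v => u * v) l1 l2).sum < e.B) :
    Runs e (dot x z n k1 o1 k2 o2) s (3 * N + 3) (fun s' => RF s s' [x, z] ∧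
      s'.reg z = (List.zipWith (fun u v => u * v) l1 l2).sum) := by
  have hNB := h1.hN
  have hlen1 := h1.len
  have hlen2 := h2.len
  set l := List.zipWith (fun u v => u * v) l1 l2 with hl
  have hlen : l.length = N := by rw [hl, List.length_zipWith, hlen1, hlen2, min_self]
  refine (Runs.set (Q := fun s2 => s2 = s.setReg z 0) (by simp only [Exp.ok_zero]; omega)
    rfl).seq (m := 3 * N + 2) ?_ (by omega)
  rintro s2 rfl
  have h1' := h1.setz 0
  have h2' := h2.setz 0
  refine (reduce_runs (fun j => (l.take j).sum) h1'.hn h1.xn h1.hN h1.zx h1.zn (by simp) ?_).post ?_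
  · intro j s' hj hx hz hf
    obtain ⟨a1, a2⟩ := h1'.rd hj hx hf
    obtain ⟨b1, b2⟩ := h2'.rd hj hx hf
    have hjl : j < l.length := by omega
    have g3 := take_sum_le l (j + 1)
    have g4 := take_succ_sum hjl
    have g5 : l[j] = l1[j]'(by omega) * l2[j]'(by omega) := by
      simp only [hl, List.getElem_zipWith]
    rw [g5] at g4
    simp only [Exp.ok_add, Exp.val_add, Exp.ok_mul, Exp.val_mul, Exp.ok_var, Exp.val_var, a1, a2,
      b1, b2, hz, g4, true_and, and_true]
    constructor <;> omega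
  · rintro s' ⟨g1, g2⟩
    refine ⟨g1.of_setReg (by simp), ?_⟩
    rw [g2, ← hlen, List.take_length]


/-! ### product of matrices over (min, +) -/

/-- `min C (min_{t < T} a t + b t)` -/
def mpv (C : ℕ) (a b : ℕ → ℕ) : ℕ → ℕ
  | 0 => C
  | t + 1 => min (mpv C a b t) (a t + b t)

theorem mpv_le (C : ℕ) (a b : ℕ → ℕ) (T : ℕ) : mpv C a b T ≤ C := by
  induction T with
  | zero => exact le_rfl
  | succ T ih => exact (min_le_left _ _).trans ih

theorem mpv_le_add (C : ℕ) (a b : ℕ → ℕ) {T t : ℕ} (h : t < T) : mpv C a b T ≤ a t + b t := by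
  induction T with
  | zero => exact absurd h (Nat.not_lt_zero t)
  | succ T ih =>
    rcases Nat.lt_succ_iff_lt_or_eq.1 h with h | rfl
    · exact (min_le_left _ _).trans (ih h)
    · exact min_le_right _ _

theorem mpv_eq (C : ℕ) (a b : ℕ → ℕ) (T : ℕ) :
    mpv C a b T = C ∨ ∃ t < T, mpv C a b T = a t + b t := by
  induction T with
  | zero => exact Or.inl rfl
  | succ T ih =>
    rcases le_total (mpv C a b T) (a T + b T) with h | h
    · have e1 : mpv C a b (T + 1) = mpv C a b T := min_eq_left h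
      rw [e1]
      rcases ih with ih | ⟨t, ht, ih⟩
      · exact Or.inl ih
      · exact Or.inr ⟨t, by omega, ih⟩
    · exact Or.inr ⟨T, by omega, min_eq_right h⟩

theorem mpv_congr {C T : ℕ} {a b a' b' : ℕ → ℕ} (ha : ∀ t < T, a t = a' t)
    (hb : ∀ t < T, b t = b' t) : mpv C a b T = mpv C a' b' T := by
  induction T with
  | zero => rfl
  | succ T ih =>
    simp only [mpv]
    rw [ih (fun t ht => ha t (by omega)) (fun t ht => hb t (by omega)), ha T (by omega),
      hb T (by omega)]

/-- entry `A[i, t]` of a matrix with rows of length `T`, row by row at `(ka, oa)` -/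
def mrd (ka oa i T t : ℕ) : Exp := get ka (var oa + var i * var T + var t)

/-- `target[i, j] := min C (min_t A[i, t] + B[t, j])`, `r × m` from `r × T` and `T × m`;
`i j t z` scratch; `r m T c` variables holding the dimensions and the cap -/
def minplus (i j t z k o ka oa kb ob r m T c : ℕ) : Cmd :=
  forUp i 0 (var r) (forUp j 0 (var m) (
    set z (var c) ;;
    reduce t z T (var z - (var z - (mrd ka oa i T t + mrd kb ob t m j))) ;;
    put k (var o + var i * var m + var j) (var z)))

theorem minplus_runs {e : Env} {s : State} {i j t z k o ka oa kb ob r m T c : ℕ}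
    {O Oa Ob R M N C : ℕ} (hnd : (i :: j :: t :: z :: []).Nodup)
    (hdis : ∀ y ∈ [o, oa, ob, r, m, T, c], y ∉ [i, j, t, z])
    (ho : s.reg o = O) (hoa : s.reg oa = Oa) (hob : s.reg ob = Ob) (hr : s.reg r = R)
    (hm : s.reg m = M) (hT : s.reg T = N) (hc : s.reg c = C)
    (hRB : R < e.B) (hMB : M < e.B) (hNB : N < e.B)
    (hB : O + R * M ≤ e.B) (hL : O + R * M ≤ e.L)
    (haB : Oa + R * N ≤ e.B) (haL : Oa + R * N ≤ e.L)
    (hbB : Ob + N * M ≤ e.B) (hbL : Ob + N * M ≤ e.L)
    (hda : ka ≠ k ∨ Oa + R * N ≤ O ∨ O + R * M ≤ Oa)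
    (hdb : kb ≠ k ∨ Ob + N * M ≤ O ∨ O + R * M ≤ Ob)
    (hsum : ∀ i' < R, ∀ j' < M, ∀ t' < N,
      s.arr ka (Oa + i' * N + t') + s.arr kb (Ob + t' * M + j') < e.B) :
    Runs e (minplus i j t z k o ka oa kb ob r m T c) s (R * (M * (3 * N + 6) + 4) + 2) (fun s' =>
      SF s s' [i, j, t, z] k O (R * M) ∧ ∀ i' < R, ∀ j' < M, s'.arr k (O + i' * M + j') =
        mpv C (fun t' => s.arr ka (Oa + i' * N + t')) (fun t' => s.arr kb (Ob + t' * M + j')) N) := by
  have hij : i ≠ j := by intro h; simp [h] at hnd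
  have hit : i ≠ t := by intro h; simp [h] at hnd
  have hiz : i ≠ z := by intro h; simp [h] at hnd
  have hjt : j ≠ t := by intro h; simp [h] at hnd
  have hjz : j ≠ z := by intro h; simp [h] at hnd
  have htz : t ≠ z := by intro h; simp [h] at hnd
  set xs := [i, j, t, z] with hxs
  have do_ := hdis o (by simp)
  have doa := hdis oa (by simp)
  have dob := hdis ob (by simp)
  have dr := hdis r (by simp)
  have dm := hdis m (by simp)
  have dT := hdis T (by simp)
  have dc := hdis c (by simp)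
  -- value of a cell
  set val : ℕ → ℕ → ℕ := fun i' j' =>
    mpv C (fun t' => s.arr ka (Oa + i' * N + t')) (fun t' => s.arr kb (Ob + t' * M + j')) N with hval
  set I : ℕ → State → Prop := fun q s' => SF s s' xs k O q ∧
    ∀ q' < q, s'.arr k (O + q') = val (q' / M) (q' % M) with hI
  have hIset : ∀ q s' y v, y ∈ xs → I q s' → I q (s'.setReg y v) := by
    rintro q s' y v hy ⟨h1, h2⟩
    exact ⟨h1.set hy, h2⟩
  -- one cell
  have hcell : ∀ i' j' s', i' < R → j' < M → I (i' * M + j') s' → s'.reg i = i' → s'.reg j = j' →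
      Runs e (set z (var c) ;;
        reduce t z T (var z - (var z - (mrd ka oa i T t + mrd kb ob t m j))) ;;
        put k (var o + var i * var m + var j) (var z)) s' (3 * N + 4)
        (fun s'' => I (i' * M + (j' + 1)) s'' ∧ s''.reg i = i' ∧ s''.reg j = j') := by
    rintro i' j' s' hi' hj' ⟨h1, h2⟩ hi hj
    have hiM : i' * M + M ≤ R * M := by
      have := Nat.mul_le_mul_right M (show i' + 1 ≤ R by omega)
      rwa [Nat.succ_mul] at this
    have hiN : i' * N + N ≤ R * N := by
      have := Nat.mul_le_mul_right N (show i' + 1 ≤ R by omega)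
      rwa [Nat.succ_mul] at this
    have eo := h1.reg o do_
    have eoa := h1.reg oa doa
    have eob := h1.reg ob dob
    have em := h1.reg m dm
    have eT := h1.reg T dT
    have ec := h1.reg c dc
    rw [ho] at eo
    rw [hoa] at eoa
    rw [hob] at eob
    rw [hm] at em
    rw [hT] at eT
    rw [hc] at ec
    have nz : ∀ y, y ∉ xs → y ≠ z := fun y hy h => hy (by rw [h]; simp [hxs])
    have nt : ∀ y, y ∉ xs → y ≠ t := fun y hy h => hy (by rw [h]; simp [hxs])
    refine (Runs.set (Q := fun s2 => s2 = s'.setReg z C) (by simp) (by rw [Exp.val_var, ec])).seq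
      (m := 3 * N + 3) ?_ (by omega)
    rintro s2 rfl
    have hA : ∀ t' < N, s'.arr ka (Oa + i' * N + t') = s.arr ka (Oa + i' * N + t') := by
      intro t' ht'
      exact h1.cell (by omega)
    have hBb : ∀ t' < N, s'.arr kb (Ob + t' * M + j') = s.arr kb (Ob + t' * M + j') := by
      intro t' ht'
      have : t' * M + M ≤ N * M := by
        have := Nat.mul_le_mul_right M (show t' + 1 ≤ N by omega)
        rwa [Nat.succ_mul] at this
      exact h1.cell (by omega)
    have hred := reduce_runs (e := e) (s := s'.setReg z C) (x := t) (z := z) (n := T)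
      (a := var z - (var z - (mrd ka oa i T t + mrd kb ob t m j))) (N := N)
      (mpv C (fun t' => s.arr ka (Oa + i' * N + t')) (fun t' => s.arr kb (Ob + t' * M + j')))
      (by rw [State.setReg_reg, if_neg (nz T dT), eT]) (Ne.symm (nt T dT)) hNB (Ne.symm htz)
      (Ne.symm (nz T dT)) (by rw [State.setReg_reg, if_pos rfl]; rfl) ?_
    · refine Runs.seq hred (m := 1) ?_ (by omega)
      rintro s3 ⟨g1, g2⟩
      have r3 : ∀ y, y ≠ z → y ≠ t → s3.reg y = s'.reg y := by
        intro y hyz hyt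
        rw [g1.reg y (by simp [hyz, hyt]), State.setReg_reg, if_neg hyz]
      have e1 : (var o + var i * var m + var j).val s3 = O + i' * M + j' := by
        simp only [Exp.val_add, Exp.val_mul, Exp.val_var, r3 o (nz o do_) (nt o do_),
          r3 i hiz hit, r3 m (nz m dm) (nt m dm), r3 j hjz hjt, eo, em, hi, hj]
      refine Runs.put ?_ ?_ trivial ?_
      · simp only [Exp.ok_add, Exp.ok_mul, Exp.ok_var, Exp.val_add, Exp.val_mul, Exp.val_var,
          r3 o (nz o do_) (nt o do_), r3 i hiz hit, r3 m (nz m dm) (nt m dm), r3 j hjz hjt, eo, em,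
          hi, hj, true_and]
        refine ⟨⟨?_, ?_⟩, ?_⟩ <;> omega
      · rw [e1]; omega
      · rw [e1, Exp.val_var, g2]
        refine ⟨⟨?_, ?_⟩, ?_, ?_⟩
        · have f1 : SF s s3 xs k O (i' * M + (j' + 1)) := by
            have f2 : SF s (s'.setReg z C) xs k O (i' * M + (j' + 1)) :=
              (h1.monoN (by omega)).set (by simp [hxs])
            refine f2.trans ((g1.toSF k O _).monoX ?_)
            intro y hy
            simp only [hxs, List.mem_cons, List.not_mem_nil, or_false] at hy ⊢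
            tauto
          rw [show O + i' * M + j' = O + (i' * M + j') by omega]
          exact f1.put ⟨by omega, by omega⟩
        · intro q' hq'
          rw [State.setArr_arr]
          by_cases hq : q' = i' * M + j'
          · subst hq
            rw [if_pos ⟨rfl, by omega⟩]
            have hM : 0 < M := by omega
            have d1 : (i' * M + j') / M = i' := by
              rw [Nat.mul_comm, Nat.mul_add_div hM, Nat.div_eq_of_lt hj', Nat.add_zero]
            have d2 : (i' * M + j') % M = j' := by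
              rw [Nat.mul_comm, Nat.mul_add_mod, Nat.mod_eq_of_lt hj']
            rw [d1, d2]
          · rw [if_neg (by omega), g1.arr, State.setReg_arr]
            exact h2 q' (by omega)
        · rw [State.setArr_reg, r3 i hiz hit, hi]
        · rw [State.setArr_reg, r3 j hjz hjt, hj]
    · intro t' s2 ht' ht hz hf
      have r2 : ∀ y, y ≠ z → y ≠ t → s2.reg y = s'.reg y := by
        intro y hyz hyt
        rw [hf.reg y (by simp [hyz, hyt]), State.setReg_reg, if_neg hyz]
      have htM : t' * M + M ≤ N * M := by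
        have := Nat.mul_le_mul_right M (show t' + 1 ≤ N by omega)
        rwa [Nat.succ_mul] at this
      have v1 : (mrd ka oa i T t).val s2 = s.arr ka (Oa + i' * N + t') := by
        simp only [mrd, Exp.val_get, Exp.val_add, Exp.val_mul, Exp.val_var,
          r2 oa (nz oa doa) (nt oa doa), r2 i hiz hit, r2 T (nz T dT) (nt T dT), ht, eoa, eT, hi,
          hf.arr, State.setReg_arr]
        exact hA t' ht'
      have v2 : (mrd kb ob t m j).val s2 = s.arr kb (Ob + t' * M + j') := by
        simp only [mrd, Exp.val_get, Exp.val_add, Exp.val_mul, Exp.val_var,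
          r2 ob (nz ob dob) (nt ob dob), r2 m (nz m dm) (nt m dm), r2 j hjz hjt, ht, eob, em, hj,
          hf.arr, State.setReg_arr]
        exact hBb t' ht'
      have o1 : (mrd ka oa i T t).ok e s2 := by
        simp only [mrd, Exp.ok_get, Exp.ok_add, Exp.ok_mul, Exp.ok_var, Exp.val_add, Exp.val_mul,
          Exp.val_var, r2 oa (nz oa doa) (nt oa doa), r2 i hiz hit, r2 T (nz T dT) (nt T dT), ht,
          eoa, eT, hi, true_and]
        refine ⟨⟨⟨?_, ?_⟩, ?_⟩, ?_⟩ <;> omega
      have o2 : (mrd kb ob t m j).ok e s2 := by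
        simp only [mrd, Exp.ok_get, Exp.ok_add, Exp.ok_mul, Exp.ok_var, Exp.val_add, Exp.val_mul,
          Exp.val_var, r2 ob (nz ob dob) (nt ob dob), r2 m (nz m dm) (nt m dm), r2 j hjz hjt, ht,
          eob, em, hj, true_and]
        refine ⟨⟨⟨?_, ?_⟩, ?_⟩, ?_⟩ <;> omega
      have hs := hsum i' hi' j' hj' t' ht'
      refine ⟨?_, ?_⟩
      · simp only [Exp.ok_sub, Exp.ok_add, Exp.ok_var, o1, o2, v1, v2, true_and]
        exact hs
      · simp only [Exp.val_sub, Exp.val_add, Exp.val_var, v1, v2, hz, mpv]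
        omega
  -- the loops
  refine Runs.forUp (A := 0) (N := R) (m := M * (3 * N + 6) + 2)
    (I := fun i' s' => I (i' * M) s') ?_ rfl (by omega) hRB ?_ ?_ ?_ ?_
    (by rw [Nat.sub_zero, Nat.add_assoc (M * (3 * N + 6))])
  · simp only [Exp.ok_zero]; omega
  · refine ⟨?_, ?_⟩
    · rw [Nat.zero_mul]; exact (SF.refl s xs k O 0).set (by simp [hxs])
    · intro q' hq'; rw [Nat.zero_mul] at hq'; exact absurd hq' (Nat.not_lt_zero q')
  · rintro i' s' - - h -
    exact ⟨trivial, by rw [Exp.val_var, h.1.reg r dr, hr]⟩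
  · rintro i' s' - hi' h hi
    refine Runs.forUp (A := 0) (N := M) (m := 3 * N + 4)
      (I := fun j' s' => I (i' * M + j') s' ∧ s'.reg i = i') ?_ rfl (by omega) hMB ?_ ?_ ?_ ?_ ?_
    · simp only [Exp.ok_zero]; omega
    · exact ⟨hIset _ _ _ _ (by simp [hxs]) h, by rw [State.setReg_reg, if_neg hij, hi]⟩
    · rintro j' s2 - - h2 -
      exact ⟨trivial, by rw [Exp.val_var, h2.1.1.reg m dm, hm]⟩
    · rintro j' s2 - hj' ⟨h2, h3⟩ hj
      refine (hcell i' j' s2 hi' hj' h2 h3 hj).post ?_
      rintro s3 ⟨g1, g2, g3⟩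
      exact ⟨g3, hIset _ _ _ _ (by simp [hxs]) g1, by rw [State.setReg_reg, if_neg hij, g2]⟩
    · rintro s2 ⟨g1, g2⟩ -
      refine ⟨g2, ?_⟩
      rw [Nat.succ_mul]
      exact hIset _ _ _ _ (by simp [hxs]) g1
    · rw [Nat.sub_zero]
  · rintro s' ⟨g1, g2⟩ -
    refine ⟨g1, fun i' hi' j' hj' => ?_⟩
    have hM : 0 < M := by omega
    have d1 : (i' * M + j') / M = i' := by
      rw [Nat.mul_comm, Nat.mul_add_div hM, Nat.div_eq_of_lt hj', Nat.add_zero]
    have d2 : (i' * M + j') % M = j' := by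
      rw [Nat.mul_comm, Nat.mul_add_mod, Nat.mod_eq_of_lt hj']
    have hiM : i' * M + M ≤ R * M := by
      have := Nat.mul_le_mul_right M (show i' + 1 ≤ R by omega)
      rwa [Nat.succ_mul] at this
    have := g2 (i' * M + j') (by omega)
    rw [d1, d2] at this
    rw [show O + i' * M + j' = O + (i' * M + j') by omega, this]

end Crest.Agent.R288.Vec500
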