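import Crest.Agent.R288.GSt_442

/-!
# Row 288, (w5) of post 4867 (helper442), ALG v2: the rounded optimal staircase of a state

Names of `AlgA_45` (ALG v2.2: letters in `[wlo, whi]`), exact cost = any `G` with `GSt442.Exact`.

`D ≤ P.Dm` is the bound of the comparators (`D = Dm`, or `D = Dm / 2` as in post 4928: then no letter of a
comparator is clamped, and `plan` can use `|pos c_j| + F / 2^sb < Dm`); both must be multiples of the step.

* `exists_letter` : every integer `w ∈ [-D, D]` within `r 2^κ` of `x.u` has the letter `rd κ w`;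
* **`opt_letters`** : at a state `z` of macro height `i + 1` with `G z ≤ r 2^κ`, letters `c q < WA κ` with
  `∑ G(pieces) ≤ G z + 2 N gst`, every cut within `gst` (from below) of an optimal one: sum of the distances to
  both ends at most `G z + 2 gst`, inner cuts on the grid and in `[-D, D]`;
* **`opt_V`** : the same with `V = G + C0` and the factor `1 + ρ`.
-/

set_option autoImplicit false

namespace Crest.Agent.R288.W5442

open Finset
open Crest.Agent.R288.GSt442 (ssum Exact)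
open Crest.Agent.R288.Alg45 (St Par gst gpt WA cut piece pos rd wlo whi)

variable (P : Par) {G : St → ℕ} {D : ℕ}

theorem gst_pos (κ : ℕ) : 0 < gst P κ := by unfold gst; positivity

theorem gst_mul_gpt (κ : ℕ) : gst P κ * gpt P κ = 2 ^ κ := by
  unfold gst gpt
  rw [← pow_add]
  congr 1
  omega

theorem rd_le (κ : ℕ) (u : ℤ) : rd P κ u ≤ u := by
  have h : (0 : ℤ) < (gst P κ : ℤ) := by exact_mod_cast gst_pos P κ
  unfold rd
  exact Int.ediv_mul_le u h.ne'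

theorem lt_rd (κ : ℕ) (u : ℤ) : u < rd P κ u + (gst P κ : ℤ) := by
  have h : (0 : ℤ) < (gst P κ : ℤ) := by exact_mod_cast gst_pos P κ
  have h1 := Int.lt_ediv_add_one_mul_self u h
  unfold rd
  linarith [add_mul (u / (gst P κ : ℤ)) 1 (gst P κ : ℤ)]

theorem dvd_rd (κ : ℕ) (u : ℤ) : (gst P κ : ℤ) ∣ rd P κ u := Dvd.intro_left _ rfl

/-- a multiple of the step below `u` is below `rd u` -/
theorem le_rd {κ : ℕ} {a u : ℤ} (h : (gst P κ : ℤ) ∣ a) (hu : a ≤ u) : a ≤ rd P κ u := by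
  have hg : (0 : ℤ) < (gst P κ : ℤ) := by exact_mod_cast gst_pos P κ
  obtain ⟨t, rfl⟩ := h
  unfold rd
  have h1 : t ≤ u / (gst P κ : ℤ) := by
    rw [Int.le_ediv_iff_mul_le hg]
    linarith [mul_comm t (gst P κ : ℤ)]
  have := mul_le_mul_of_nonneg_right h1 hg.le
  linarith [mul_comm t (gst P κ : ℤ)]

/-- rounding stays in the domain -/
theorem rd_mem {κ : ℕ} (hD : (gst P κ : ℤ) ∣ (D : ℤ)) {u : ℤ} (h1 : -(D : ℤ) ≤ u) (h2 : u ≤ D) :
    -(D : ℤ) ≤ rd P κ u ∧ rd P κ u ≤ D :=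
  ⟨le_rd P ((dvd_neg).2 hD) h1, (rd_le P κ u).trans h2⟩

/-- **every integer of the window and of `[-D, D]` has the letter `rd w`** -/
theorem exists_letter (hD' : D ≤ P.Dm) {κ : ℕ} (hDm : (gst P κ : ℤ) ∣ (P.Dm : ℤ))
    (hD : (gst P κ : ℤ) ∣ (D : ℤ)) {x : St} {w : ℤ} (h1 : -(D : ℤ) ≤ w) (h2 : w ≤ D)
    (h : |w - x.u| ≤ P.r * 2 ^ κ) : ∃ a < WA P κ, pos P κ x a = rd P κ w := by
  have hg : (0 : ℤ) < (gst P κ : ℤ) := by exact_mod_cast gst_pos P κ
  have a1 := rd_le P κ x.u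
  have a3 := rd_le P κ w
  obtain ⟨a5, a6⟩ := abs_le.1 h
  have hdv : (gst P κ : ℤ) ∣ 2 ^ κ := ⟨(gpt P κ : ℤ), by exact_mod_cast (gst_mul_gpt P κ).symm⟩
  have hlo : (gst P κ : ℤ) ∣ rd P κ x.u - P.r * 2 ^ κ := dvd_sub (dvd_rd P κ _) (hdv.mul_left _)
  have h3 : rd P κ x.u - P.r * 2 ^ κ ≤ rd P κ w := le_rd P hlo (by linarith)
  have h4 : rd P κ w - P.r * 2 ^ κ ≤ rd P κ x.u :=
    le_rd P (dvd_sub (dvd_rd P κ _) (hdv.mul_left _)) (by linarith)
  have h12 := rd_mem P hD h1 h2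
  have hwl : wlo P κ x ≤ rd P κ w := by
    unfold wlo
    exact max_le (by omega) h3
  have hwh : rd P κ w ≤ whi P κ x := by
    unfold whi
    exact le_min (by omega) (by linarith)
  have hwd : (gst P κ : ℤ) ∣ wlo P κ x := by
    unfold wlo
    rcases max_choice (-(P.Dm : ℤ)) (rd P κ x.u - P.r * 2 ^ κ) with e | e
    · rw [e]; exact (dvd_neg).2 hDm
    · rw [e]; exact hlo
  obtain ⟨t, ht⟩ := dvd_sub (dvd_rd P κ w) hwd
  have ht0 : 0 ≤ t := by
    by_contra hc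
    push Not at hc
    nlinarith
  have hW : ((WA P κ : ℕ) : ℤ) * gst P κ = 2 * (P.r * 2 ^ κ) + gst P κ := by
    have e : ((gpt P κ : ℕ) : ℤ) * gst P κ = 2 ^ κ := by
      have := gst_mul_gpt P κ
      rw [mul_comm]; exact_mod_cast this
    unfold WA
    push_cast
    rw [add_mul, mul_assoc (2 * (P.r : ℤ)), e]
    ring
  have hwl' : rd P κ x.u - P.r * 2 ^ κ ≤ wlo P κ x := le_max_right _ _
  have et : t * (gst P κ : ℤ) = rd P κ w - wlo P κ x := by rw [ht]; ring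
  have ht1 : t < WA P κ := by
    by_contra hc
    push Not at hc
    have := mul_le_mul_of_nonneg_right hc hg.le
    rw [hW, et] at this
    linarith
  have h11 : ((t.toNat : ℕ) : ℤ) = t := Int.toNat_of_nonneg ht0
  refine ⟨t.toNat, by omega, ?_⟩
  unfold pos
  rw [h11, et]
  have e : wlo P κ x + (rd P κ w - wlo P κ x) = rd P κ w := by ring
  rw [e]
  exact min_eq_right hwh

theorem N_pos : 0 < P.N := by unfold Par.N; positivity

theorem cut_zero (κ : ℕ) (x : St) (a : ℕ) : cut P κ x 0 a = x.u := by simp [cut]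

theorem cut_N (κ : ℕ) (x : St) (a : ℕ) : cut P κ x P.N a = x.v := by
  have := (N_pos P).ne'
  simp [cut, this]

theorem cut_mid {κ : ℕ} {x : St} {q a : ℕ} (h0 : 0 < q) (hN : q < P.N) :
    cut P κ x q a = pos P κ x a := by
  simp [cut, h0.ne', hN.ne]

/-- **every integer staircase of `x` (inner cuts in the domain and in the window) has the letters of its
rounded cuts** -/
theorem exists_letters (hD' : D ≤ P.Dm) {κ : ℕ} (hDm : (gst P κ : ℤ) ∣ (P.Dm : ℤ))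
    (hD : (gst P κ : ℤ) ∣ (D : ℤ)) {x : St} {m : ℕ → ℤ} (h0 : m 0 = x.u) (hN : m P.N = x.v) (hm : ∀ q, 0 < q → q < P.N → -(D : ℤ) ≤ m q ∧ m q ≤ D)
    (hr : ∀ q, 0 < q → q < P.N → |m q - x.u| ≤ P.r * 2 ^ κ) :
    ∃ c : ℕ → ℕ, (∀ q, c q < WA P κ) ∧ (∀ q, P.N ≤ q → c q = 0) ∧
      (∀ q, 0 < q → q < P.N → cut P κ x q (c q) = rd P κ (m q)) ∧
      (∀ q ≤ P.N, cut P κ x q (c q) ≤ m q ∧ m q < cut P κ x q (c q) + gst P κ) := by
  have hg : (0 : ℤ) < (gst P κ : ℤ) := by exact_mod_cast gst_pos P κ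
  have hW : 0 < WA P κ := Nat.succ_pos _
  have key : ∀ q, ∃ a < WA P κ, (P.N ≤ q → a = 0) ∧
      (0 < q → q < P.N → cut P κ x q a = rd P κ (m q)) ∧
      (q ≤ P.N → cut P κ x q a ≤ m q ∧ m q < cut P κ x q a + gst P κ) := by
    intro q
    rcases Nat.eq_zero_or_pos q with h | h
    · subst h
      refine ⟨0, hW, fun _ => rfl, fun h => absurd h (lt_irrefl _), fun _ => ?_⟩
      rw [cut_zero, h0]
      constructor <;> linarith
    rcases Nat.lt_or_ge q P.N with h' | h'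
    · obtain ⟨a, ha, h1⟩ := exists_letter P hD' hDm hD (hm q h h').1 (hm q h h').2 (hr q h h')
      refine ⟨a, ha, fun hc => absurd hc (by omega), fun _ _ => by rw [cut_mid P h h', h1], fun _ => ?_⟩
      rw [cut_mid P h h', h1]
      exact ⟨rd_le P κ _, lt_rd P κ _⟩
    · refine ⟨0, hW, fun _ => rfl, fun _ hc => absurd hc (by omega), fun hq => ?_⟩
      have : q = P.N := le_antisymm hq h'
      rw [this, cut_N, hN]
      constructor <;> linarith
  choose c hc using key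
  exact ⟨c, fun q => (hc q).1, fun q => (hc q).2.1, fun q => (hc q).2.2.1, fun q => (hc q).2.2.2⟩

/-- the cuts of a letter sequence are a staircase of `x` -/
theorem ssum_cut (f : St → ℕ) {κ : ℕ} {x : St} {i : ℕ} (hx : x.i = i + 1) (c : ℕ → ℕ) :
    ssum P.N f i x.j (fun q => cut P κ x q (c q)) = ∑ q ∈ range P.N, f (piece P κ x q (c q) (c (q + 1))) := by
  unfold ssum piece
  rw [hx]
  rfl

/-- `G` is at most the sum over every letter staircase -/
theorem le_letters (E : Exact P.N D G) {κ : ℕ} {x : St} {i : ℕ} (hx : x.i = i + 1) (c : ℕ → ℕ) :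
    G x ≤ ∑ q ∈ range P.N, G (piece P κ x q (c q) (c (q + 1))) := by
  rw [← ssum_cut P G hx c]
  exact E.le_cuts hx (cut_zero P κ x _) (cut_N P κ x _)

/-- **the rounded optimal staircase** -/
theorem opt_letters (E : Exact P.N D G) (hD' : D ≤ P.Dm) {z : St} {i κ : ℕ} (hz : z.i = i + 1)
    (hDm : (gst P κ : ℤ) ∣ (P.Dm : ℤ)) (hD : (gst P κ : ℤ) ∣ (D : ℤ)) (hr : G z ≤ P.r * 2 ^ κ) :
    ∃ c : ℕ → ℕ, (∀ q, c q < WA P κ) ∧ (∀ q, P.N ≤ q → c q = 0) ∧
      (∑ q ∈ range P.N, G (piece P κ z q (c q) (c (q + 1))) ≤ G z + 2 * P.N * gst P κ) ∧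
      (∀ q ≤ P.N, (cut P κ z q (c q) - z.u).natAbs + (z.v - cut P κ z q (c q)).natAbs
        ≤ G z + 2 * gst P κ) ∧
      (∀ q, 0 < q → q < P.N → (gst P κ : ℤ) ∣ cut P κ z q (c q) ∧
        -(D : ℤ) ≤ cut P κ z q (c q) ∧ cut P κ z q (c q) ≤ D) := by
  obtain ⟨m, h0, h1, h2, h3, h4⟩ := E.exists_opt hz
  obtain ⟨c, c1, c2, c3, c4⟩ := exists_letters P hD' hDm hD h0 h1 h3 (fun q _ hq => by
    have h5 := h4 q hq.le
    have h6 : |m q - z.u| = ((m q - z.u).natAbs : ℤ) := by simp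
    rw [h6]
    have h7 : (m q - z.u).natAbs ≤ P.r * 2 ^ κ := by omega
    exact_mod_cast h7)
  have hd : ∀ q ≤ P.N, (cut P κ z q (c q) - m q).natAbs ≤ gst P κ := by
    intro q hq
    have h5 := c4 q hq
    omega
  refine ⟨c, c1, c2, ?_, ?_, ?_⟩
  · rw [← ssum_cut P G hz c, ← h2]
    exact E.round i z.j hd
  · intro q hq
    have h5 := h4 q hq
    have h6 := hd q hq
    omega
  · intro q h5 h6
    rw [c3 q h5 h6]
    exact ⟨dvd_rd P κ _, rd_mem P hD (h3 q h5 h6).1 (h3 q h5 h6).2⟩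

/-- **the same for `V = G + C0`** (real numbers, `449`'s form): `N C0 + 2 N gst ≤ ρ (G z + C0)` -/
theorem opt_V (E : Exact P.N D G) (hD' : D ≤ P.Dm) {z : St} {i κ : ℕ} (hz : z.i = i + 1)
    (hDm : (gst P κ : ℤ) ∣ (P.Dm : ℤ)) (hD : (gst P κ : ℤ) ∣ (D : ℤ)) (hr : G z ≤ P.r * 2 ^ κ) {C0 ρ : ℝ} (hC : 0 ≤ C0)
    (hρ : P.N * C0 + 2 * P.N * gst P κ ≤ ρ * (G z + C0)) :
    ∃ c : ℕ → ℕ, (∀ q, c q < WA P κ) ∧ (∀ q, P.N ≤ q → c q = 0) ∧
      (∑ q ∈ range P.N, ((G (piece P κ z q (c q) (c (q + 1))) : ℝ) + C0) ≤ (1 + ρ) * (G z + C0)) ∧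
      (∀ q ≤ P.N, (cut P κ z q (c q) - z.u).natAbs + (z.v - cut P κ z q (c q)).natAbs
        ≤ G z + 2 * gst P κ) ∧
      (∀ q, 0 < q → q < P.N → (gst P κ : ℤ) ∣ cut P κ z q (c q) ∧
        -(D : ℤ) ≤ cut P κ z q (c q) ∧ cut P κ z q (c q) ≤ D) := by
  obtain ⟨c, c1, c2, c3, c4, c5⟩ := opt_letters P E hD' hz hDm hD hr
  refine ⟨c, c1, c2, ?_, c4, c5⟩
  have h : (∑ q ∈ range P.N, (G (piece P κ z q (c q) (c (q + 1))) : ℝ)) ≤ G z + 2 * P.N * gst P κ := by
    exact_mod_cast c3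
  rw [sum_add_distrib, sum_const, card_range, nsmul_eq_mul]
  have e : (1 + ρ) * ((G z : ℝ) + C0) = G z + C0 + ρ * (G z + C0) := by ring
  rw [e]
  linarith

end Crest.Agent.R288.W5442
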