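import Crest.Agent.Lib.PT.ListFns2
import Crest.Agent.Lib.PT.ArithMore
import Crest.Agent.Lib.PT.ArithInt

/-!
# R288 [WDP]: the dynamic programs inside a window, as total list functions with PTF certificates

* `tab n f = [f 0, ..., f (n-1)]`, `g1, g2, g3, g4, g5`: entries of nested lists with default `0`.
* `mn n f`, `am n f`: minimum and first minimiser over `0, ..., n-1`.
-/

set_option autoImplicit false

namespace Crest.Agent.R288.WDP569

open Crest.Agent.Lib.PT Finset

/-! ### tables -/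

section tab

variable {α : Type}

/-- `[f 0, ..., f (n-1)]` -/
def tab (n : ℕ) (f : ℕ → α) : List α := (List.range n).map f

@[simp] theorem tab_length (n : ℕ) (f : ℕ → α) : (tab n f).length = n := by simp [tab]

theorem tab_getD {n : ℕ} {f : ℕ → α} {i : ℕ} (d : α) (h : i < n) : (tab n f).getD i d = f i := by
  simp [tab, List.getD_eq_getElem?_getD, List.getElem?_map, List.getElem?_range h]

theorem tab_getD_ge {n : ℕ} {f : ℕ → α} {i : ℕ} (d : α) (h : n ≤ i) : (tab n f).getD i d = d := by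
  rw [List.getD_eq_default]
  simpa using h

theorem tab_congr {n : ℕ} {f g : ℕ → α} (h : ∀ i < n, f i = g i) : tab n f = tab n g := by
  unfold tab
  exact List.map_congr_left fun i hi => h i (List.mem_range.1 hi)

theorem mem_tab {n : ℕ} {f : ℕ → α} {x : α} : x ∈ tab n f ↔ ∃ i < n, f i = x := by
  simp [tab]

theorem tab_succ (n : ℕ) (f : ℕ → α) : tab (n + 1) f = tab n f ++ [f n] := by
  simp [tab, List.range_succ]

theorem tab_getD_self (l : List α) (d : α) : tab l.length (fun i => l.getD i d) = l := by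
  apply List.ext_getElem
  · simp
  · intro i h1 h2
    simp only [tab, List.getElem_map, List.getElem_range]
    rw [List.getD_eq_getElem _ _ h2]

end tab

/-- entry of a vector -/
def g1 (l : List ℕ) (a : ℕ) : ℕ := l.getD a 0
/-- entry of a matrix -/
def g2 (l : List (List ℕ)) (a b : ℕ) : ℕ := g1 (l.getD a []) b
/-- entry of a list of matrices -/
def g3 (l : List (List (List ℕ))) (p a b : ℕ) : ℕ := g2 (l.getD p []) a b
/-- entry, four indices -/
def g4 (l : List (List (List (List ℕ)))) (p a b c : ℕ) : ℕ := g3 (l.getD p []) a b c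
/-- entry, five indices -/
def g5 (l : List (List (List (List (List ℕ))))) (t p a b c : ℕ) : ℕ := g4 (l.getD t []) p a b c

theorem g1_tab {n : ℕ} {f : ℕ → ℕ} {a : ℕ} (h : a < n) : g1 (tab n f) a = f a := tab_getD 0 h

theorem g2_tab {m n : ℕ} {f : ℕ → ℕ → ℕ} {a b : ℕ} (ha : a < m) (hb : b < n) :
    g2 (tab m fun a => tab n (f a)) a b = f a b := by
  unfold g2; rw [tab_getD _ ha, g1_tab hb]

theorem g3_tab {k m n : ℕ} {f : ℕ → ℕ → ℕ → ℕ} {p a b : ℕ} (hp : p < k) (ha : a < m) (hb : b < n) :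
    g3 (tab k fun p => tab m fun a => tab n (f p a)) p a b = f p a b := by
  unfold g3; rw [tab_getD _ hp, g2_tab ha hb]

/-! ### PTF lemmas for tables -/

section ptf

variable {α β γ : Type} [PTCode α] [PTCode β] [PTCode γ]

theorem ptf_tab {n : γ → ℕ} {f : γ → ℕ → α} (hn : PTU n) (hf : PTF (fun q : γ × ℕ => f q.1 q.2)) :
    PTF (fun c => tab (n c) (f c)) := PTF.tabulate hn hf

/-- access with a binary index -/
theorem ptf_getD {l : γ → List α} {i : γ → ℕ} {d : γ → α} (hl : PTF l) (hi : PTF i) (hd : PTF d) :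
    PTF (fun c => (l c).getD (i c) (d c)) := by
  have h1 : PTU (fun c => min (i c) (l c).length) := PTF.natMinUn hi (PTU.length hl)
  refine PTF.of_eq (PTF.getD h1 hl hd) fun c => ?_
  rcases le_total (i c) (l c).length with h | h
  · rw [min_eq_left h]
  · rw [min_eq_right h, List.getD_eq_default _ _ le_rfl, List.getD_eq_default _ _ h]

@[fun_prop]
theorem ptf_g1 {l : γ → List ℕ} {a : γ → ℕ} (hl : PTF l) (ha : PTF a) :
    PTF (fun c => g1 (l c) (a c)) := ptf_getD hl ha (PTF.const 0)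

@[fun_prop]
theorem ptf_g2 {l : γ → List (List ℕ)} {a b : γ → ℕ} (hl : PTF l) (ha : PTF a) (hb : PTF b) :
    PTF (fun c => g2 (l c) (a c) (b c)) := ptf_g1 (ptf_getD hl ha (PTF.const [])) hb

@[fun_prop]
theorem ptf_g3 {l : γ → List (List (List ℕ))} {p a b : γ → ℕ} (hl : PTF l) (hp : PTF p)
    (ha : PTF a) (hb : PTF b) : PTF (fun c => g3 (l c) (p c) (a c) (b c)) :=
  ptf_g2 (ptf_getD hl hp (PTF.const [])) ha hb

@[fun_prop]
theorem ptf_g4 {l : γ → List (List (List (List ℕ)))} {p a b d : γ → ℕ} (hl : PTF l) (hp : PTF p)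
    (ha : PTF a) (hb : PTF b) (hd : PTF d) : PTF (fun c => g4 (l c) (p c) (a c) (b c) (d c)) :=
  ptf_g3 (ptf_getD hl hp (PTF.const [])) ha hb hd

@[fun_prop]
theorem ptf_g5 {l : γ → List (List (List (List (List ℕ))))} {t p a b d : γ → ℕ} (hl : PTF l)
    (ht : PTF t) (hp : PTF p) (ha : PTF a) (hb : PTF b) (hd : PTF d) :
    PTF (fun c => g5 (l c) (t c) (p c) (a c) (b c) (d c)) :=
  ptf_g4 (ptf_getD hl ht (PTF.const [])) hp ha hb hd

/-- size of a table -/
theorem sz_tab_le {n : ℕ} {f : ℕ → α} {m : ℕ} (h : ∀ i < n, sz (f i) ≤ m) :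
    sz (tab n f) ≤ n * (2 * m + 1) := by
  have := sz_list_le (l := tab n f) (m := m) (by
    intro a ha
    obtain ⟨i, hi, rfl⟩ := mem_tab.1 ha
    exact h i hi)
  simpa using this

end ptf

/-! ### minimum and first minimiser over a range -/

/-- first minimiser of `f` over `0, ..., n-1` (`0` if `n = 0`) -/
def am : ℕ → (ℕ → ℕ) → ℕ
  | 0, _ => 0
  | n + 1, f => if f n < f (am n f) then n else am n f

/-- minimum of `f` over `0, ..., n-1` (`f 0` if `n = 0`) -/
def mn (n : ℕ) (f : ℕ → ℕ) : ℕ := f (am n f)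

theorem am_lt {n : ℕ} (f : ℕ → ℕ) (h : 0 < n) : am n f < n := by
  induction n with
  | zero => exact absurd h (lt_irrefl 0)
  | succ n ih =>
    rw [am]
    split
    · exact Nat.lt_succ_self n
    · rcases Nat.eq_zero_or_pos n with h0 | h0
      · subst h0; exact Nat.one_pos
      · exact (ih h0).trans (Nat.lt_succ_self n)

theorem mn_le {n : ℕ} (f : ℕ → ℕ) {i : ℕ} (h : i < n) : mn n f ≤ f i := by
  unfold mn
  induction n with
  | zero => exact absurd h (Nat.not_lt_zero i)
  | succ n ih =>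
    rw [am]
    rcases Nat.lt_succ_iff_lt_or_eq.1 h with h | h
    · split
      · exact (le_of_lt (by assumption)).trans (ih h)
      · exact ih h
    · subst h
      split
      · exact le_rfl
      · omega

theorem mn_eq {n : ℕ} (f : ℕ → ℕ) (h : 0 < n) : ∃ i < n, mn n f = f i :=
  ⟨am n f, am_lt f h, rfl⟩

theorem mn_mono {n : ℕ} {f g : ℕ → ℕ} (h0 : 0 < n) (h : ∀ i < n, f i ≤ g i) :
    mn n f ≤ mn n g := by
  obtain ⟨i, hi, e⟩ := mn_eq g h0
  rw [e]
  exact (mn_le f hi).trans (h i hi)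

theorem le_mn {n : ℕ} {f : ℕ → ℕ} {m : ℕ} (h0 : 0 < n) (h : ∀ i < n, m ≤ f i) : m ≤ mn n f := by
  obtain ⟨i, hi, e⟩ := mn_eq f h0
  rw [e]; exact h i hi

theorem am_congr {n : ℕ} {f g : ℕ → ℕ} (h : ∀ i < n, f i = g i) : am n f = am n g := by
  induction n with
  | zero => rfl
  | succ n ih =>
    have ih := ih fun i hi => h i (by omega)
    rw [am, am, ih, h n (by omega)]
    rcases Nat.eq_zero_or_pos n with h0 | h0
    · subst h0
      simp only [am]
      have := h 0 (by omega)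
      simp [this]
    · rw [h _ (by have := am_lt g h0; omega)]

theorem mn_congr {n : ℕ} {f g : ℕ → ℕ} (h0 : 0 < n) (h : ∀ i < n, f i = g i) :
    mn n f = mn n g := by
  unfold mn
  rw [am_congr h, h _ (am_lt g h0)]

section ptf2

variable {α β γ : Type} [PTCode α] [PTCode β] [PTCode γ]

theorem ptf_am {n : γ → ℕ} {f : γ → ℕ → ℕ} (hn : PTU n)
    (hf : PTF (fun q : γ × ℕ => f q.1 q.2)) : PTF (fun c => am (n c) (f c)) := by
  refine PTF.natRec (r := fun c i => am i (f c)) (b := fun _ => 0)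
    (s := fun c i m => if f c i < f c m then i else m) hn (PTF.const 0) ?_ (fun _ => rfl)
    (fun _ _ _ => rfl) (B := n) hn.pb ?_
  · have h1 : PTF (fun p : γ × ℕ × ℕ => f p.1 p.2.1) :=
      PTF.comp (g := fun q : γ × ℕ => f q.1 q.2) (f := fun p : γ × ℕ × ℕ => (p.1, p.2.1)) hf
        (by fun_prop)
    have h2 : PTF (fun p : γ × ℕ × ℕ => f p.1 p.2.2) :=
      PTF.comp (g := fun q : γ × ℕ => f q.1 q.2) (f := fun p : γ × ℕ × ℕ => (p.1, p.2.2)) hf
        (by fun_prop)
    exact PTF.ite (PTPred.natLt h1 h2) (by fun_prop) (by fun_prop)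
  · intro c i hi
    refine (sz_nat_le _).trans (le_trans ?_ hi)
    rcases Nat.eq_zero_or_pos i with h0 | h0
    · subst h0; exact le_rfl
    · exact (am_lt (f c) h0).le

theorem ptf_mn {n : γ → ℕ} {f : γ → ℕ → ℕ} (hn : PTU n)
    (hf : PTF (fun q : γ × ℕ => f q.1 q.2)) : PTF (fun c => mn (n c) (f c)) :=
  PTF.comp (g := fun q : γ × ℕ => f q.1 q.2) (f := fun c => (c, am (n c) (f c))) hf
    (PTF.prodMk PTF.id (ptf_am hn hf))

end ptf2

end Crest.Agent.R288.WDP569
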