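import Crest.Agent.R288.WDP_569

/-!
# R288 [WDP], part 2: the inner game of a window

`n` levels, `N` pieces (leaves of the inner tree), `A` letters at every cut.
`R p a b` = value of piece `p` with left cut letter `a` and right cut letter `b`.
Node `(t, p)` = height `t` above the window ends, number `p`; its pieces are
`p * 2^t, ..., (p+1) * 2^t - 1`, its own cut separates the nodes `(t-1, 2p)` and `(t-1, 2p+1)`.
Weights of the letters at node `(t+1, p)` with ends `a, b`: `K t p a b z`.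
-/

set_option autoImplicit false

namespace Crest.Agent.R288.WDP569

open Crest.Agent.Lib.PT Finset

/-! ### weighted average, rounded up -/

/-- weighted average, rounded up (`0` if all weights are `0`) -/
def wav (A : ℕ) (w f : ℕ → ℕ) : ℕ :=
  (∑ z ∈ range A, w z * f z + (∑ z ∈ range A, w z - 1)) / ∑ z ∈ range A, w z

theorem wav_congr {A : ℕ} {w w' f f' : ℕ → ℕ} (hw : ∀ z < A, w z = w' z)
    (hf : ∀ z < A, f z = f' z) : wav A w f = wav A w' f' := by
  unfold wav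
  rw [sum_congr rfl fun z hz => by rw [hw z (mem_range.1 hz), hf z (mem_range.1 hz)],
    sum_congr rfl fun z hz => hw z (mem_range.1 hz)]

theorem wav_lt {A : ℕ} {w f : ℕ → ℕ} {M : ℕ} (hM : 0 < M) (h : ∀ z < A, f z < M) :
    wav A w f < M := by
  unfold wav
  rcases Nat.eq_zero_or_pos (∑ z ∈ range A, w z) with h0 | h0
  · rw [h0, Nat.div_zero]; exact hM
  · rw [Nat.div_lt_iff_lt_mul h0]
    have h1 : (∑ z ∈ range A, w z * f z) ≤ (M - 1) * ∑ z ∈ range A, w z := by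
      rw [mul_sum]
      refine sum_le_sum fun z hz => ?_
      rw [mul_comm]
      exact Nat.mul_le_mul_right _ (by have := h z (mem_range.1 hz); omega)
    have h2 : (M - 1) * (∑ z ∈ range A, w z) + ∑ z ∈ range A, w z =
        M * ∑ z ∈ range A, w z := by
      obtain ⟨m, rfl⟩ : ∃ m, M = m + 1 := ⟨M - 1, by omega⟩
      rw [Nat.add_sub_cancel]; ring
    omega

theorem wav_le {A : ℕ} {w f : ℕ → ℕ} {M : ℕ} (h : ∀ z < A, f z ≤ M) : wav A w f ≤ M :=
  Nat.lt_succ_iff.1 (wav_lt (Nat.succ_pos M) fun z hz => Nat.lt_succ_of_le (h z hz))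

theorem wav_mono {A : ℕ} {w f g : ℕ → ℕ} (h : ∀ z < A, f z ≤ g z) : wav A w f ≤ wav A w g := by
  unfold wav
  refine Nat.div_le_div_right (Nat.add_le_add_right (sum_le_sum fun z hz => ?_) _)
  exact Nat.mul_le_mul_left _ (h z (mem_range.1 hz))

/-- a common lower bound of the letters of the support -/
theorem le_wav {A : ℕ} {w f : ℕ → ℕ} {m : ℕ} (h0 : 0 < ∑ z ∈ range A, w z)
    (h : ∀ z < A, w z ≠ 0 → m ≤ f z) : m ≤ wav A w f := by
  unfold wav
  rw [Nat.le_div_iff_mul_le h0]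
  refine le_trans ?_ (Nat.le_add_right _ _)
  rw [mul_sum]
  refine sum_le_sum fun z hz => ?_
  rw [mul_comm]
  by_cases hw : w z = 0
  · simp [hw]
  · exact Nat.mul_le_mul_left _ (h z (mem_range.1 hz) hw)

/-- the exact average -/
noncomputable def ravg (A : ℕ) (w : ℕ → ℕ) (f : ℕ → ℝ) : ℝ :=
  (∑ z ∈ range A, (w z : ℝ) * f z) / ∑ z ∈ range A, (w z : ℝ)

theorem ravg_mono {A : ℕ} {w : ℕ → ℕ} {f g : ℕ → ℝ} (h : ∀ z < A, f z ≤ g z) :
    ravg A w f ≤ ravg A w g := by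
  unfold ravg
  exact div_le_div_of_nonneg_right (sum_le_sum fun z hz =>
    mul_le_mul_of_nonneg_left (h z (mem_range.1 hz)) (Nat.cast_nonneg _))
    (sum_nonneg fun z _ => Nat.cast_nonneg _)

theorem ravg_add_const {A : ℕ} {w : ℕ → ℕ} (f : ℕ → ℝ) (c : ℝ)
    (h : 0 < ∑ z ∈ range A, w z) : ravg A w (fun z => f z + c) = ravg A w f + c := by
  unfold ravg
  have h' : (0 : ℝ) < ∑ z ∈ range A, (w z : ℝ) := by exact_mod_cast h
  have : (∑ z ∈ range A, (w z : ℝ) * (f z + c)) =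
      (∑ z ∈ range A, (w z : ℝ) * f z) + (∑ z ∈ range A, (w z : ℝ)) * c := by
    rw [sum_mul, ← sum_add_distrib]; exact sum_congr rfl fun z _ => by ring
  rw [this]; field_simp

theorem ravg_add_const_le {A : ℕ} {w : ℕ → ℕ} (f : ℕ → ℝ) {c : ℝ} (hc : 0 ≤ c) :
    ravg A w (fun z => f z + c) ≤ ravg A w f + c := by
  rcases Nat.eq_zero_or_pos (∑ z ∈ range A, w z) with h | h
  · have h' : (∑ z ∈ range A, (w z : ℝ)) = 0 := by exact_mod_cast h
    unfold ravg
    rw [h', div_zero, div_zero, zero_add]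
    exact hc
  · exact (ravg_add_const f c h).le

theorem ravg_le_wav (A : ℕ) (w f : ℕ → ℕ) : (ravg A w fun z => (f z : ℝ)) ≤ wav A w f := by
  unfold wav ravg
  rcases Nat.eq_zero_or_pos (∑ z ∈ range A, w z) with h | h
  · have h' : (∑ z ∈ range A, (w z : ℝ)) = 0 := by exact_mod_cast h
    rw [h', h, div_zero]; exact Nat.cast_nonneg _
  · have h' : (0 : ℝ) < ∑ z ∈ range A, (w z : ℝ) := by exact_mod_cast h
    rw [div_le_iff₀ h']
    have h1 := Nat.lt_div_mul_add (a := ∑ z ∈ range A, w z * f z + (∑ z ∈ range A, w z - 1)) h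
    have h2 : (∑ z ∈ range A, w z * f z) ≤
        (∑ z ∈ range A, w z * f z + (∑ z ∈ range A, w z - 1)) / (∑ z ∈ range A, w z) *
          (∑ z ∈ range A, w z) := by omega
    simp only
    exact_mod_cast h2

theorem wav_le_ravg (A : ℕ) (w f : ℕ → ℕ) :
    (wav A w f : ℝ) ≤ (ravg A w fun z => (f z : ℝ)) + 1 := by
  unfold wav ravg
  rcases Nat.eq_zero_or_pos (∑ z ∈ range A, w z) with h | h
  · have h' : (∑ z ∈ range A, (w z : ℝ)) = 0 := by exact_mod_cast h
    rw [h', h, div_zero]; norm_num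
  · have h' : (0 : ℝ) < ∑ z ∈ range A, (w z : ℝ) := by exact_mod_cast h
    refine (Nat.cast_div_le).trans ?_
    have h3 : ((∑ z ∈ range A, w z * f z + (∑ z ∈ range A, w z - 1) : ℕ) : ℝ) ≤
        (∑ z ∈ range A, (w z : ℝ) * f z) + ∑ z ∈ range A, (w z : ℝ) := by
      have : (∑ z ∈ range A, w z * f z + (∑ z ∈ range A, w z - 1)) ≤
        ∑ z ∈ range A, w z * f z + ∑ z ∈ range A, w z := by omega
      exact_mod_cast this
    have h4 : (((∑ z ∈ range A, w z : ℕ)) : ℝ) = ∑ z ∈ range A, (w z : ℝ) := by push_cast; rfl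
    rw [h4, div_le_iff₀ h', add_mul, div_mul_cancel₀ _ h'.ne', one_mul]
    exact h3

/-! ### values of the inner game -/

/-- value of the play with kernel `K` -/
def hv (A : ℕ) (K : ℕ → ℕ → ℕ → ℕ → ℕ → ℕ) (R : ℕ → ℕ → ℕ → ℕ) : ℕ → ℕ → ℕ → ℕ → ℕ
  | 0, p, a, b => R p a b
  | t + 1, p, a, b => wav A (K t p a b)
      fun z => hv A K R t (2 * p) a z + hv A K R t (2 * p + 1) z b

/-- value of the letter `z` at node `(t+1, p)` -/
def uv (A : ℕ) (K : ℕ → ℕ → ℕ → ℕ → ℕ → ℕ) (R : ℕ → ℕ → ℕ → ℕ) (t p a b z : ℕ) : ℕ :=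
  hv A K R t (2 * p) a z + hv A K R t (2 * p + 1) z b

theorem hv_zero (A : ℕ) (K : ℕ → ℕ → ℕ → ℕ → ℕ → ℕ) (R : ℕ → ℕ → ℕ → ℕ) (p a b : ℕ) :
    hv A K R 0 p a b = R p a b := rfl

theorem hv_succ (A : ℕ) (K : ℕ → ℕ → ℕ → ℕ → ℕ → ℕ) (R : ℕ → ℕ → ℕ → ℕ) (t p a b : ℕ) :
    hv A K R (t + 1) p a b = wav A (K t p a b) (uv A K R t p a b) := rfl

/-- the same with real numbers, no rounding -/
noncomputable def hr (A : ℕ) (K : ℕ → ℕ → ℕ → ℕ → ℕ → ℕ) (R : ℕ → ℕ → ℕ → ℝ) :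
    ℕ → ℕ → ℕ → ℕ → ℝ
  | 0, p, a, b => R p a b
  | t + 1, p, a, b => ravg A (K t p a b)
      fun z => hr A K R t (2 * p) a z + hr A K R t (2 * p + 1) z b

theorem hr_le_hv (A : ℕ) (K : ℕ → ℕ → ℕ → ℕ → ℕ → ℕ) (R : ℕ → ℕ → ℕ → ℕ) (t p a b : ℕ) :
    hr A K (fun p a b => (R p a b : ℝ)) t p a b ≤ hv A K R t p a b := by
  induction t generalizing p a b with
  | zero => exact le_rfl
  | succ t ih =>
    refine (ravg_mono fun z _ => ?_).trans (ravg_le_wav _ _ _)
    push_cast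
    exact add_le_add (ih _ _ _) (ih _ _ _)

/-- total rounding error `2^t - 1` -/
theorem hv_le_hr {A : ℕ} {K : ℕ → ℕ → ℕ → ℕ → ℕ → ℕ} (R : ℕ → ℕ → ℕ → ℕ) (t p a b : ℕ) :
    (hv A K R t p a b : ℝ) ≤ hr A K (fun p a b => (R p a b : ℝ)) t p a b + (2 ^ t - 1) := by
  induction t generalizing p a b with
  | zero => simp [hr, hv]
  | succ t ih =>
    have hc : (0 : ℝ) ≤ 2 * (2 ^ t - 1) := by
      have : (1 : ℝ) ≤ 2 ^ t := one_le_pow₀ (by norm_num)
      linarith
    have h1 : (ravg A (K t p a b) fun z => ((uv A K R t p a b z : ℕ) : ℝ)) ≤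
        ravg A (K t p a b) (fun z => (hr A K (fun p a b => (R p a b : ℝ)) t (2 * p) a z +
          hr A K (fun p a b => (R p a b : ℝ)) t (2 * p + 1) z b) + 2 * (2 ^ t - 1)) := by
      refine ravg_mono fun z _ => ?_
      have := ih (2 * p) a z
      have := ih (2 * p + 1) z b
      unfold uv
      push_cast
      linarith
    have h3 := ravg_add_const_le (A := A) (w := K t p a b)
      (fun z => hr A K (fun p a b => (R p a b : ℝ)) t (2 * p) a z +
          hr A K (fun p a b => (R p a b : ℝ)) t (2 * p + 1) z b) hc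
    have h2 := wav_le_ravg A (K t p a b) (uv A K R t p a b)
    rw [hv_succ, pow_succ]
    have h4 : hr A K (fun p a b => (R p a b : ℝ)) (t + 1) p a b =
      ravg A (K t p a b) (fun z => hr A K (fun p a b => (R p a b : ℝ)) t (2 * p) a z +
          hr A K (fun p a b => (R p a b : ℝ)) t (2 * p + 1) z b) := rfl
    rw [h4]
    linarith

/-- monotone in the end table -/
theorem hv_mono {A : ℕ} (K : ℕ → ℕ → ℕ → ℕ → ℕ → ℕ) {R R' : ℕ → ℕ → ℕ → ℕ}
    (h : ∀ p a b, R p a b ≤ R' p a b) (t p a b : ℕ) : hv A K R t p a b ≤ hv A K R' t p a b := by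
  induction t generalizing p a b with
  | zero => exact h p a b
  | succ t ih =>
    rw [hv_succ, hv_succ]
    exact wav_mono fun z _ => Nat.add_le_add (ih _ _ _) (ih _ _ _)

/-- dependence only on the entries of the subtree -/
theorem hv_congr {A : ℕ} {K K' : ℕ → ℕ → ℕ → ℕ → ℕ → ℕ} {R R' : ℕ → ℕ → ℕ → ℕ} {N : ℕ}
    (hR : ∀ p < N, ∀ a < A, ∀ b < A, R p a b = R' p a b) {n : ℕ}
    (hK : ∀ t < n, ∀ p < N / 2 ^ (t + 1), ∀ a < A, ∀ b < A, ∀ z < A, K t p a b z = K' t p a b z) :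
    ∀ t ≤ n, ∀ p < N / 2 ^ t, ∀ a < A, ∀ b < A, hv A K R t p a b = hv A K' R' t p a b := by
  intro t
  induction t with
  | zero =>
    intro _ p hp a ha b hb
    exact hR p (by simpa using hp) a ha b hb
  | succ t ih =>
    intro ht p hp a ha b hb
    have h2 : 2 * p + 1 < N / 2 ^ t := by
      have h3 : N / 2 ^ (t + 1) = N / 2 ^ t / 2 := by rw [pow_succ, Nat.div_div_eq_div_mul]
      rw [h3] at hp
      omega
    refine wav_congr (hK t (by omega) p hp a ha b hb) fun z hz => ?_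
    rw [ih (by omega) _ (by omega) a ha z hz, ih (by omega) _ h2 z hz b hb]

/-! ### the exact optimum -/

/-- optimum over all letters -/
def ov (A : ℕ) (R : ℕ → ℕ → ℕ → ℕ) : ℕ → ℕ → ℕ → ℕ → ℕ
  | 0, p, a, b => R p a b
  | t + 1, p, a, b => mn A fun z => ov A R t (2 * p) a z + ov A R t (2 * p + 1) z b

/-- the optimal kernel: weight `1` on the first minimiser -/
def okK (A : ℕ) (R : ℕ → ℕ → ℕ → ℕ) (t p a b z : ℕ) : ℕ :=
  if z = am A (fun z => ov A R t (2 * p) a z + ov A R t (2 * p + 1) z b) then 1 else 0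

theorem ov_zero (A : ℕ) (R : ℕ → ℕ → ℕ → ℕ) (p a b : ℕ) : ov A R 0 p a b = R p a b := rfl

theorem ov_succ (A : ℕ) (R : ℕ → ℕ → ℕ → ℕ) (t p a b : ℕ) : ov A R (t + 1) p a b =
    mn A fun z => ov A R t (2 * p) a z + ov A R t (2 * p + 1) z b := rfl

theorem wav_single {A z0 : ℕ} (h : z0 < A) (f : ℕ → ℕ) :
    wav A (fun z => if z = z0 then 1 else 0) f = f z0 := by
  unfold wav
  simp only [ite_mul, one_mul, zero_mul, sum_ite_eq', mem_range, if_pos h, Nat.div_one,
    Nat.sub_self, Nat.add_zero]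

/-- the play with the optimal kernel has the optimal value -/
theorem hv_okK {A : ℕ} (hA : 0 < A) (R : ℕ → ℕ → ℕ → ℕ) (t p a b : ℕ) :
    hv A (okK A R) R t p a b = ov A R t p a b := by
  induction t generalizing p a b with
  | zero => rfl
  | succ t ih =>
    rw [hv_succ, ov_succ]
    have h1 : uv A (okK A R) R t p a b = fun z =>
        ov A R t (2 * p) a z + ov A R t (2 * p + 1) z b := by
      funext z; unfold uv; rw [ih, ih]
    rw [h1]
    exact wav_single (am_lt _ hA) _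

/-- the optimum is at most the value of any play -/
theorem ov_le_hv {A : ℕ} (R : ℕ → ℕ → ℕ → ℕ) {K : ℕ → ℕ → ℕ → ℕ → ℕ → ℕ}
    (hK : ∀ t p a b, 0 < ∑ z ∈ range A, K t p a b z) (t p a b : ℕ) :
    ov A R t p a b ≤ hv A K R t p a b := by
  induction t generalizing p a b with
  | zero => exact le_rfl
  | succ t ih =>
    rw [hv_succ, ov_succ]
    refine le_wav (hK t p a b) fun z hz _ => (mn_le _ hz).trans ?_
    exact Nat.add_le_add (ih _ _ _) (ih _ _ _)

/-- the optimum is at most the cost of every staircase `c` (`c` = letters of the cuts) -/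
theorem ov_le_sum {A : ℕ} (R : ℕ → ℕ → ℕ → ℕ) {c : ℕ → ℕ} (hc : ∀ i, c i < A) (t p : ℕ) :
    ov A R t p (c (p * 2 ^ t)) (c ((p + 1) * 2 ^ t)) ≤
      ∑ j ∈ range (2 ^ t), R (p * 2 ^ t + j) (c (p * 2 ^ t + j)) (c (p * 2 ^ t + j + 1)) := by
  induction t generalizing p with
  | zero => simp [ov]
  | succ t ih =>
    rw [ov_succ]
    refine (mn_le _ (hc ((2 * p + 1) * 2 ^ t))).trans ?_
    have h1 := ih (2 * p)
    have h2 := ih (2 * p + 1)
    have e1 : 2 * p * 2 ^ t = p * 2 ^ (t + 1) := by rw [pow_succ]; ring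
    have e2 : (2 * p + 1 + 1) * 2 ^ t = (p + 1) * 2 ^ (t + 1) := by rw [pow_succ]; ring
    have e3 : 2 ^ (t + 1) = 2 ^ t + 2 ^ t := by rw [pow_succ]; ring
    have e4 : (2 * p + 1) * 2 ^ t = p * 2 ^ (t + 1) + 2 ^ t := by rw [pow_succ]; ring
    rw [e2] at h2
    rw [e1] at h1
    rw [e4] at h2 h1 ⊢
    generalize p * 2 ^ (t + 1) = q at h1 h2 ⊢
    generalize (p + 1) * 2 ^ (t + 1) = q' at h1 h2 ⊢
    rw [e3, sum_range_add]
    refine Nat.add_le_add h1 (h2.trans (le_of_eq ?_))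
    refine sum_congr rfl fun j _ => ?_
    rw [Nat.add_assoc q (2 ^ t) j]

end Crest.Agent.R288.WDP569
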