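import Crest.Agent.R288.WDPc_569

/-!
# R288 [WDP], part 4: the product (hedge) weights of a window over the ranks

`hedK A tn td U W0 C k`: kernel of rank `k`.  Start weights `W0 t p z` (zero outside the menu of the
cut of node `(t+1, p)`), unit `U t p`, rate `tn / td`, end tables `C i` of the ranks `i < k`:
`w (i+1) z = ⌊w i z * (td U - tn (u z - m)) / (td U)⌋`, `u = uv` with the kernel and the end table of
rank `i`, `m` = minimum of `u` over the menu.
-/

set_option autoImplicit false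

namespace Crest.Agent.R288.WDP569

open Crest.Agent.Lib.PT Finset

/-! ### one step -/

/-- hedge step with rounding -/
def hst (D e w : ℕ) : ℕ := w * (D - e) / D

theorem hst_le (D e w : ℕ) : hst D e w ≤ w := by
  unfold hst
  rcases Nat.eq_zero_or_pos D with h | h
  · subst h; simp
  · calc w * (D - e) / D ≤ w * D / D := Nat.div_le_div_right (Nat.mul_le_mul_left _ (Nat.sub_le _ _))
      _ = w := Nat.mul_div_cancel _ h

theorem hst_zero (D e : ℕ) : hst D e 0 = 0 := by simp [hst]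

theorem hst_le_real {D e : ℕ} (w : ℕ) (hD : 0 < D) (he : e ≤ D) :
    (hst D e w : ℝ) ≤ w * (1 - e / D) := by
  unfold hst
  have hD' : (0 : ℝ) < D := by exact_mod_cast hD
  refine (Nat.cast_div_le).trans (le_of_eq ?_)
  push_cast [Nat.cast_sub he]
  field_simp

theorem le_hst_real {D e : ℕ} (w : ℕ) (hD : 0 < D) (he : e ≤ D) :
    (w : ℝ) * (1 - e / D) ≤ hst D e w + 1 := by
  unfold hst
  have hD' : (0 : ℝ) < D := by exact_mod_cast hD
  have h1 := Nat.lt_div_mul_add (a := w * (D - e)) hD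
  have h2 : ((w * (D - e) : ℕ) : ℝ) ≤ ((w * (D - e) / D * D + D : ℕ) : ℝ) := by exact_mod_cast h1.le
  push_cast [Nat.cast_sub he] at h2
  have h3 : (w : ℝ) * (1 - e / D) = w * (D - e) / D := by field_simp
  rw [h3, div_le_iff₀ hD']
  linarith

/-- minimum of `f` over the support of `w` (all indices if the support is empty) -/
def mnw (A : ℕ) (w f : ℕ → ℕ) : ℕ := mn A fun z => if w z = 0 then ∑ z ∈ range A, f z else f z

theorem mnw_le {A : ℕ} {w : ℕ → ℕ} (f : ℕ → ℕ) {z : ℕ} (hz : z < A) (h : w z ≠ 0) :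
    mnw A w f ≤ f z := by
  have := mn_le (n := A) (fun z => if w z = 0 then ∑ z ∈ range A, f z else f z) hz
  simp only [if_neg h] at this
  exact this

theorem mnw_ex {A : ℕ} {w : ℕ → ℕ} (f : ℕ → ℕ) (h : ∃ z < A, w z ≠ 0) :
    ∃ z < A, w z ≠ 0 ∧ mnw A w f = f z := by
  obtain ⟨z0, hz0, hw0⟩ := h
  obtain ⟨z, hz, e⟩ := mn_eq (n := A) (fun z => if w z = 0 then ∑ z ∈ range A, f z else f z)
    (by omega)
  change mnw A w f = _ at e
  by_cases hw : w z = 0
  · simp only [if_pos hw] at e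
    refine ⟨z0, hz0, hw0, le_antisymm (mnw_le f hz0 hw0) ?_⟩
    rw [e]
    exact single_le_sum (f := f) (fun _ _ => Nat.zero_le _) (mem_range.2 hz0)
  · simp only [if_neg hw] at e
    exact ⟨z, hz, hw, e⟩

theorem mnw_congr {A : ℕ} (hA : 0 < A) {w w' f f' : ℕ → ℕ} (hw : ∀ z < A, w z = w' z)
    (hf : ∀ z < A, f z = f' z) : mnw A w f = mnw A w' f' := by
  unfold mnw
  rw [sum_congr rfl fun z hz => hf z (mem_range.1 hz)]
  exact mn_congr hA fun z hz => by rw [hw z hz, hf z hz]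

/-! ### the kernels of the ranks -/

/-- the kernel of rank `k` -/
def hedK (A tn td : ℕ) (U : ℕ → ℕ → ℕ) (W0 : ℕ → ℕ → ℕ → ℕ) (C : ℕ → ℕ → ℕ → ℕ → ℕ) :
    ℕ → ℕ → ℕ → ℕ → ℕ → ℕ → ℕ
  | 0 => fun t p _ _ z => W0 t p z
  | i + 1 => fun t p a b z =>
      hst (td * U t p)
        (tn * (uv A (hedK A tn td U W0 C i) (C i) t p a b z -
          mnw A (W0 t p) (uv A (hedK A tn td U W0 C i) (C i) t p a b)))
        (hedK A tn td U W0 C i t p a b z)

theorem hedK_zero (A tn td : ℕ) (U : ℕ → ℕ → ℕ) (W0 : ℕ → ℕ → ℕ → ℕ)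
    (C : ℕ → ℕ → ℕ → ℕ → ℕ) (t p a b z : ℕ) : hedK A tn td U W0 C 0 t p a b z = W0 t p z := rfl

theorem hedK_succ (A tn td : ℕ) (U : ℕ → ℕ → ℕ) (W0 : ℕ → ℕ → ℕ → ℕ)
    (C : ℕ → ℕ → ℕ → ℕ → ℕ) (i t p a b z : ℕ) : hedK A tn td U W0 C (i + 1) t p a b z =
      hst (td * U t p)
        (tn * (uv A (hedK A tn td U W0 C i) (C i) t p a b z -
          mnw A (W0 t p) (uv A (hedK A tn td U W0 C i) (C i) t p a b)))
        (hedK A tn td U W0 C i t p a b z) := rfl

theorem hedK_anti (A tn td : ℕ) (U : ℕ → ℕ → ℕ) (W0 : ℕ → ℕ → ℕ → ℕ)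
    (C : ℕ → ℕ → ℕ → ℕ → ℕ) (i t p a b z : ℕ) :
    hedK A tn td U W0 C (i + 1) t p a b z ≤ hedK A tn td U W0 C i t p a b z := hst_le _ _ _

theorem hedK_le (A tn td : ℕ) (U : ℕ → ℕ → ℕ) (W0 : ℕ → ℕ → ℕ → ℕ)
    (C : ℕ → ℕ → ℕ → ℕ → ℕ) (i t p a b z : ℕ) :
    hedK A tn td U W0 C i t p a b z ≤ W0 t p z := by
  induction i with
  | zero => exact le_rfl
  | succ i ih => exact (hedK_anti _ _ _ _ _ _ _ _ _ _ _ _).trans ih

/-- the kernel of rank `k` depends only on the tables of the ranks `i < k` -/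
theorem hedK_congr {A tn td : ℕ} {U U' : ℕ → ℕ → ℕ} {W0 W0' : ℕ → ℕ → ℕ → ℕ}
    {C C' : ℕ → ℕ → ℕ → ℕ → ℕ} {N n k : ℕ}
    (hU : ∀ t < n, ∀ p < N / 2 ^ (t + 1), U t p = U' t p)
    (hW : ∀ t < n, ∀ p < N / 2 ^ (t + 1), ∀ z < A, W0 t p z = W0' t p z)
    (hC : ∀ i < k, ∀ p < N, ∀ a < A, ∀ b < A, C i p a b = C' i p a b) :
    ∀ i ≤ k, ∀ t < n, ∀ p < N / 2 ^ (t + 1), ∀ a < A, ∀ b < A, ∀ z < A,
      hedK A tn td U W0 C i t p a b z = hedK A tn td U' W0' C' i t p a b z := by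
  intro i
  induction i with
  | zero => intro _ t ht p hp a _ b _ z hz; exact hW t ht p hp z hz
  | succ i ih =>
    intro hi t ht p hp a ha b hb z hz
    have ih := ih (by omega)
    have h2 := nodes_child hp
    have hu : ∀ z < A, uv A (hedK A tn td U W0 C i) (C i) t p a b z =
        uv A (hedK A tn td U' W0' C' i) (C' i) t p a b z := by
      intro z hz
      unfold uv
      have key := hv_congr (A := A) (N := N) (n := n) (hC i (by omega)) ih t ht.le
      rw [key (2 * p) (by omega) a ha z hz, key (2 * p + 1) h2 z hz b hb]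
    rw [hedK_succ, hedK_succ, ih t ht p hp a ha b hb z hz, hU t ht p hp, hu z hz,
      mnw_congr (by omega) (hW t ht p hp) hu]

/-! ### lists -/

/-- value of a letter from the level lists -/
def uvL (A N : ℕ) (KL : List (List (List (List (List ℕ))))) (RL : List (List (List ℕ)))
    (t p a b z : ℕ) : ℕ :=
  g3 (lv A N KL RL t) (2 * p) a z + g3 (lv A N KL RL t) (2 * p + 1) z b

/-- kernel list of rank `k` -/
def hedL (A N n tn td : ℕ) (UL : List (List ℕ)) (WL : List (List (List ℕ)))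
    (CL : List (List (List (List ℕ)))) : ℕ → List (List (List (List (List ℕ))))
  | 0 => tb5 n N A fun t p _ _ z => g3 WL t p z
  | i + 1 => tb5 n N A fun t p a b z =>
      hst (td * g2 UL t p)
        (tn * (uvL A N (hedL A N n tn td UL WL CL i) (CL.getD i []) t p a b z -
          mnw A (g3 WL t p) (uvL A N (hedL A N n tn td UL WL CL i) (CL.getD i []) t p a b)))
        (g5 (hedL A N n tn td UL WL CL i) t p a b z)

theorem g5_hedL {A N n tn td : ℕ} (UL : List (List ℕ)) (WL : List (List (List ℕ)))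
    (CL : List (List (List (List ℕ)))) (i : ℕ) : ∀ t < n, ∀ p < N / 2 ^ (t + 1), ∀ a < A,
      ∀ b < A, ∀ z < A, g5 (hedL A N n tn td UL WL CL i) t p a b z =
        hedK A tn td (g2 UL) (g3 WL) (g4 CL) i t p a b z := by
  induction i with
  | zero =>
    intro t ht p hp a ha b hb z hz
    rw [hedL, g5_tb5 ht hp ha hb hz]; rfl
  | succ i ih =>
    intro t ht p hp a ha b hb z hz
    rw [hedL, g5_tb5 ht hp ha hb hz, hedK_succ, ih t ht p hp a ha b hb z hz]
    have h2 := nodes_child hp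
    have hu : ∀ z < A, uvL A N (hedL A N n tn td UL WL CL i) (CL.getD i []) t p a b z =
        uv A (hedK A tn td (g2 UL) (g3 WL) (g4 CL) i) (g4 CL i) t p a b z := by
      intro z hz
      unfold uvL uv
      rw [g3_lv _ _ (by omega) ha hz, g3_lv _ _ h2 hz hb]
      have key := hv_congr (A := A) (N := N) (n := n) (R := g3 (CL.getD i []))
        (R' := g4 CL i) (fun _ _ _ _ _ _ => rfl) ih t ht.le
      rw [key (2 * p) (by omega) a ha z hz, key (2 * p + 1) h2 z hz b hb]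
    rw [hu z hz, mnw_congr (by omega) (fun _ _ => rfl) hu]

theorem sz_hedL_le (A N n tn td : ℕ) (UL : List (List ℕ)) (WL : List (List (List ℕ)))
    (CL : List (List (List (List ℕ)))) (i : ℕ) :
    sz (hedL A N n tn td UL WL CL i) ≤ P5 n N A (sz WL) := by
  have key : ∀ t < n, ∀ p < N / 2 ^ (t + 1), ∀ a < A, ∀ b < A, ∀ z < A,
      (g5 (hedL A N n tn td UL WL CL i) t p a b z).size ≤ sz WL := by
    intro t ht p hp a ha b hb z hz
    rw [g5_hedL UL WL CL i t ht p hp a ha b hb z hz]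
    exact (Nat.size_le_size (hedK_le _ _ _ _ _ _ _ _ _ _ _ _)).trans (size_g3_le _ _ _ _)
  cases i with
  | zero =>
    refine sz_tb5_le fun t ht p hp a ha b hb z hz => ?_
    have := key t ht p hp a ha b hb z hz
    rwa [hedL, g5_tb5 ht hp ha hb hz] at this
  | succ i =>
    refine sz_tb5_le fun t ht p hp a ha b hb z hz => ?_
    have := key t ht p hp a ha b hb z hz
    rwa [hedL, g5_tb5 ht hp ha hb hz] at this

section ptf

variable {γ : Type} [PTCode γ]

@[fun_prop]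
theorem ptf_hst {D e w : γ → ℕ} (hD : PTF D) (he : PTF e) (hw : PTF w) :
    PTF (fun c => hst (D c) (e c) (w c)) := by
  unfold hst; fun_prop

theorem ptf_mnw {A : γ → ℕ} {w f : γ → ℕ → ℕ} (hA : PTU A)
    (hw : PTF (fun q : γ × ℕ => w q.1 q.2)) (hf : PTF (fun q : γ × ℕ => f q.1 q.2)) :
    PTF (fun c => mnw (A c) (w c) (f c)) := by
  unfold mnw
  have hs : PTF (fun c => ∑ z ∈ range (A c), f c z) := PTF.natSumRange hA hf
  refine ptf_mn hA (PTF.ite (PTPred.natEq hw (PTF.const 0)) 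
    (PTF.comp (g := fun c => ∑ z ∈ range (A c), f c z) (f := fun q : γ × ℕ => q.1) hs PTF.fst) hf)

theorem ptf_uvL {A N n t p a b z : γ → ℕ} {KL : γ → List (List (List (List (List ℕ))))}
    {RL : γ → List (List (List ℕ))} (hA : PTU A) (hN : PTU N) (hn : PTU n) (hK : PTF KL)
    (hR : PTF RL) (ht : PTF t) (hp : PTF p) (ha : PTF a) (hb : PTF b) (hz : PTF z) :
    PTF (fun c => uvL (A c) (N c) (KL c) (RL c) (min (t c) (n c)) (p c) (a c) (b c) (z c)) := by
  have h1 : PTF (fun c => lv (A c) (N c) (KL c) (RL c) (min (t c) (n c))) :=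
    ptf_lv hA hN (PTF.natMinUn ht hn) hK hR
  unfold uvL
  fun_prop

theorem ptf_hedL {A N n tn td k : γ → ℕ} {UL : γ → List (List ℕ)}
    {WL : γ → List (List (List ℕ))} {CL : γ → List (List (List (List ℕ)))} (hA : PTU A)
    (hN : PTU N) (hn : PTU n) (htn : PTF tn) (htd : PTF td) (hU : PTF UL) (hW : PTF WL)
    (hC : PTF CL) (hk : PTU k) :
    PTF (fun c => hedL (A c) (N c) (n c) (tn c) (td c) (UL c) (WL c) (CL c) (k c)) := by
  refine PTF.natRec (r := fun c i => hedL (A c) (N c) (n c) (tn c) (td c) (UL c) (WL c) (CL c) i)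
    (b := fun c => tb5 (n c) (N c) (A c) fun t p _ _ z => g3 (WL c) t p z)
    (s := fun c i KL => tb5 (n c) (N c) (A c) fun t p a b z =>
      hst (td c * g2 (UL c) t p)
        (tn c * (uvL (A c) (N c) KL ((CL c).getD i []) (min t (n c)) p a b z -
          mnw (A c) (g3 (WL c) t p)
            (uvL (A c) (N c) KL ((CL c).getD i []) (min t (n c)) p a b)))
        (g5 KL t p a b z))
    hk ?_ ?_ (fun _ => rfl) ?_ (B := fun c => P5 (n c) (N c) (A c) (sz (WL c))) ?_ ?_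
  · refine ptf_tb5 hn hN hA ?_
    have : PTF (fun q : γ × ℕ × ℕ × ℕ × ℕ × ℕ => WL q.1) := PTF.comp hW PTF.fst
    fun_prop
  · refine ptf_tb5 (γ := γ × ℕ × List (List (List (List (List ℕ))))) (n := fun q => n q.1)
      (N := fun q => N q.1) (A := fun q => A q.1) (PTU.comp hn PTF.fst) (PTU.comp hN PTF.fst)
      (PTU.comp hA PTF.fst) ?_
    -- the context of an entry
    have e1 : PTF (fun q : (γ × ℕ × List (List (List (List (List ℕ))))) × ℕ × ℕ × ℕ × ℕ × ℕ =>
        UL q.1.1) := PTF.comp hU (by fun_prop)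
    have e2 : PTF (fun q : (γ × ℕ × List (List (List (List (List ℕ))))) × ℕ × ℕ × ℕ × ℕ × ℕ =>
        td q.1.1) := PTF.comp htd (by fun_prop)
    have e3 : PTF (fun q : (γ × ℕ × List (List (List (List (List ℕ))))) × ℕ × ℕ × ℕ × ℕ × ℕ =>
        tn q.1.1) := PTF.comp htn (by fun_prop)
    have e4 : PTF (fun q : (γ × ℕ × List (List (List (List (List ℕ))))) × ℕ × ℕ × ℕ × ℕ × ℕ =>
        (CL q.1.1).getD q.1.2.1 []) :=
      ptf_getD (PTF.comp hC (by fun_prop)) (by fun_prop) (PTF.const [])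
    have e5 : PTF (fun q : (γ × ℕ × List (List (List (List (List ℕ))))) × ℕ × ℕ × ℕ × ℕ × ℕ =>
        uvL (A q.1.1) (N q.1.1) q.1.2.2 ((CL q.1.1).getD q.1.2.1 []) (min q.2.1 (n q.1.1))
          q.2.2.1 q.2.2.2.1 q.2.2.2.2.1 q.2.2.2.2.2) :=
      ptf_uvL (PTU.comp hA (by fun_prop)) (PTU.comp hN (by fun_prop))
        (PTU.comp hn (by fun_prop)) (by fun_prop) e4 (by fun_prop) (by fun_prop) (by fun_prop)
        (by fun_prop) (by fun_prop)
    have e6 : PTF (fun q : (γ × ℕ × List (List (List (List (List ℕ))))) × ℕ × ℕ × ℕ × ℕ × ℕ =>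
        mnw (A q.1.1) (g3 (WL q.1.1) q.2.1 q.2.2.1)
          (uvL (A q.1.1) (N q.1.1) q.1.2.2 ((CL q.1.1).getD q.1.2.1 []) (min q.2.1 (n q.1.1))
            q.2.2.1 q.2.2.2.1 q.2.2.2.2.1)) := by
      refine ptf_mnw (γ := (γ × ℕ × List (List (List (List (List ℕ))))) × ℕ × ℕ × ℕ × ℕ × ℕ)
        (A := fun q => A q.1.1) (w := fun q => g3 (WL q.1.1) q.2.1 q.2.2.1)
        (f := fun q => uvL (A q.1.1) (N q.1.1) q.1.2.2 ((CL q.1.1).getD q.1.2.1 [])
          (min q.2.1 (n q.1.1)) q.2.2.1 q.2.2.2.1 q.2.2.2.2.1) (PTU.comp hA (by fun_prop)) ?_ ?_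
      · have : PTF (fun q : ((γ × ℕ × List (List (List (List (List ℕ))))) × ℕ × ℕ × ℕ × ℕ × ℕ) × ℕ
            => WL q.1.1.1) := PTF.comp hW (by fun_prop)
        fun_prop
      · refine ptf_uvL (γ := ((γ × ℕ × List (List (List (List (List ℕ))))) × ℕ × ℕ × ℕ × ℕ × ℕ) × ℕ)
          (A := fun q => A q.1.1.1) (N := fun q => N q.1.1.1) (n := fun q => n q.1.1.1)
          (t := fun q => q.1.2.1) (p := fun q => q.1.2.2.1) (a := fun q => q.1.2.2.2.1)
          (b := fun q => q.1.2.2.2.2.1) (z := fun q => q.2) (KL := fun q => q.1.1.2.2)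
          (RL := fun q => (CL q.1.1.1).getD q.1.1.2.1 [])
          (PTU.comp hA (by fun_prop)) (PTU.comp hN (by fun_prop))
          (PTU.comp hn (by fun_prop)) (by fun_prop) ?_ (by fun_prop) (by fun_prop) (by fun_prop)
          (by fun_prop) (by fun_prop)
        exact ptf_getD (PTF.comp hC (by fun_prop)) (by fun_prop) (PTF.const [])
    refine ptf_hst (PTF.natMul e2 (ptf_g2 e1 (by fun_prop) (by fun_prop)))
      (PTF.natMul e3 (PTF.natSub e5 e6)) (by fun_prop)
  · intro c i hi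
    show hedL (A c) (N c) (n c) (tn c) (td c) (UL c) (WL c) (CL c) (i + 1) = _
    rw [hedL]
    exact tb5_congr fun t ht p _ a _ b _ z _ => by rw [min_eq_left ht.le]
  · exact pb_P5 hn.pb hN.pb hA.pb (PB.comp PB.sz hW)
  · intro c i hi
    exact sz_hedL_le _ _ _ _ _ _ _ _ _

end ptf

end Crest.Agent.R288.WDP569
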