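import Crest.Agent.R288.WinFar_974
import Crest.Agent.R288.RegF_711
import Crest.Agent.R288.WinF3_131
import Crest.Agent.R288.GSt_442

/-!
# R288, fields f3, df0, dfV of `WinStm330.WinIn` for a configuration (helper131)

`Y` = good history, epoch `e + 1`, `h = StmA616.hat C Y (e+1) x`; the defect of epoch `e + 1` comes from the
numbers of epoch `e`.

* `dfC C Y e ζ τ η h` = defect at `h`;
* `opt_cfg` : 131's `Opt` at the own pair (epoch `e`) of every state of the domain, from (J), `bodyNum`, leaves;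
* **`f3_cfg`**, **`df0_cfg`**, **`dfV_cfg`** : the three fields.
-/

set_option autoImplicit false

namespace Crest.Agent.R288.WinF3C131

open Finset Crest.Agent.R288.Alg45 Crest.Agent.R288.FarA131 Crest.Agent.R288.WinF3131
  Crest.Agent.R288.WinFar974 Crest.Agent.R288.Asm331 Crest.Agent.R288.Dom20
  Crest.Agent.R288.RegE711 Crest.Agent.R288.GSt442
open Crest.Agent.R288.AlgS125 (IsSt pc)

variable {C : Cfg} {Y : ℕ → ℕ × St → ℕ} {e : ℕ}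

/-- defect of (F3') of `F_(e+1)` at the state `h` -/
noncomputable def dfC (C : Cfg) (Y : ℕ → ℕ × St → ℕ) (e : ℕ) (ζ τ η : ℝ) (h : St) : ℝ :=
  dfF C.P (FE C.P Y e) (FE C.P Y (e + 1)) ζ τ η h

theorem FE_succ_eq : FE C.P Y (e + 1) = FNext C.P (FE C.P Y e) (Xe C.P Y e) := rfl

/-- soundness of the hull numbers of the ranks -/
theorem hull_ge_cfg {G : St → ℕ} (E : Exact C.P.N C.P.Dm G)
    (hK2 : ∀ y, InD C.P.N C.I C.P.Dm y → cls (FE C.P Y e) y + C.P.a2 ≤ C.K0)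
    (hSF : ∀ y, InD C.P.N C.I C.P.Dm y → G y ≤ FE C.P Y e y)
    (hSX : ∀ k < C.P.K, ∀ κ z, (κ, z) ∈ OmP C.P.N C.I C.P.Dm C.K0 → G z ≤ Xe C.P Y e k κ z)
    {k : ℕ} (hk : k < C.P.K) {y : St} (hy : InD C.P.N C.I C.P.Dm y) :
    G y ≤ hull C.P (FE C.P Y e) (Xe C.P Y e k) y := by
  refine HullB407.le_hull_of_lip (hSF y hy) (fun p hp => ?_) fun p hp => ?_
  · have h1 := E.lip y p.2 (HullB407.cmenu_i hp).symm (HullB407.cmenu_j hp).symm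
    omega
  · have h1 := StmA616.inD_iff.1 (HullB407.cmenu_inD hp)
    have h2 : InD C.P.N C.I C.P.Dm p.2 := by
      refine ⟨?_, ?_, h1.1, h1.2⟩
      · rw [HullB407.cmenu_i hp]; exact hy.1
      · rw [HullB407.cmenu_i hp, HullB407.cmenu_j hp]; exact hy.2.1
    have h3 : p.1 ≤ C.K0 := by
      have := (HullB407.mem_cmenu.1 hp).1.2
      have := hK2 y hy
      omega
    exact hSX k hk _ _ (StmA616.mem_pair h3 h2)

/-- the body means of the own pair (epoch `e`) of a state of the domain of macro height `≥ 1` -/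
theorem opt_cfg (hX : C.Good Y) (he : e < C.P.E) {G : St → ℕ} (E : Exact C.P.N C.P.Dm G)
    {ζ τu c8 : ℝ} {Gc : ℕ} {A : ℕ → ℕ → St → ℝ}
    (hFL : ∀ i j, i ≤ C.I → j < C.P.N ^ (C.I - i) → ArrLip195.FL C.P (FE C.P Y e) ζ i j)
    (hK2 : ∀ y, InD C.P.N C.I C.P.Dm y → cls (FE C.P Y e) y + C.P.a2 ≤ C.K0)
    (hSF : ∀ y, InD C.P.N C.I C.P.Dm y → G y ≤ FE C.P Y e y)
    (hSX : ∀ k < C.P.K, ∀ κ z, (κ, z) ∈ OmP C.P.N C.I C.P.Dm C.K0 → G z ≤ Xe C.P Y e k κ z)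
    (hUF : ∀ k < C.P.K, ∀ κ z, (κ, z) ∈ OmP C.P.N C.I C.P.Dm C.K0 →
      adm C.P (FE C.P Y e) κ z = true → C.R Y e k κ z ≤ FE C.P Y e z + τu * 2 ^ κ)
    (hB : ∀ k < C.P.K, ∀ κ z, (κ, z) ∈ OmP C.P.N C.I C.P.Dm C.K0 → 1 ≤ z.i →
      adm C.P (FE C.P Y e) κ z = true →
      A k κ z ≤ bodyNum C.P C.leaf (FE C.P Y e) (Xe C.P Y e) k (fun _ => Xe C.P Y e k) κ z + c8)
    (hlf : ∀ z, InD C.P.N C.I C.P.Dm z → ∀ v, C.leaf z = some v → v ≤ G z + 1)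
    (hF4 : ∀ z, InD C.P.N C.I C.P.Dm z → C.leaf z = none → C.P.N * 4 ≤ FE C.P Y e z)
    (hg : 1 ≤ C.P.g) (hpm : 0 < C.P.pm) (hr : 1 ≤ C.P.r) (hnb : 1 ≤ C.P.nb)
    (hG2 : 2 ≤ Gc) (hGg : (C.P.n + 1) * C.P.g ≤ Gc) (hGum : Gc * (4 * C.P.Creg + 1) ≤ C.P.um)
    (hτu : τu ≤ 1) {h : St} (hh : InD C.P.N C.I C.P.Dm h) (hi : 1 ≤ h.i) :
    Opt C.P (FE C.P Y e) (Xe C.P Y e) (cls (FE C.P Y e) h) (own C.P (FE C.P Y e) h)
      (fun k => A k (cls (FE C.P Y e) h) (own C.P (FE C.P Y e) h)) (c8 + 2) := by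
  set F := FE C.P Y e with hF
  have hblk : ∀ {y : St}, InD C.P.N C.I C.P.Dm y → ArrLip195.Blk C.P y.i y.j y :=
    fun h => ⟨rfl, rfl, inD_of_InD h⟩
  have hFLy : ∀ {y : St}, InD C.P.N C.I C.P.Dm y → ArrLip195.FL C.P F ζ y.i y.j :=
    fun h => hFL _ _ h.1 h.2.1
  have hdvd : ∀ {y : St}, InD C.P.N C.I C.P.Dm y → gst C.P (cls F y) ∣ C.P.Dm :=
    fun h => (hFLy h).dvd _ (hblk h)
  have hadm : ∀ {y : St}, InD C.P.N C.I C.P.Dm y → adm C.P F (cls F y) (own C.P F y) = true :=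
    fun h => ((hFLy h).own_adm (hblk h)).2
  have hK0 : ∀ {y : St}, InD C.P.N C.I C.P.Dm y → cls F y ≤ C.K0 := fun h => by
    have := hK2 _ h; omega
  have hxr : ∀ {y : St}, InD C.P.N C.I C.P.Dm y → XR C.P F (Xe C.P Y e) (C.R Y e) y :=
    fun h => XR_of_good hX he h (hK0 h) (hdvd h) (hadm h)
  have hox : InD C.P.N C.I C.P.Dm (own C.P F h) := own_InD (hdvd hh) hh
  have hoi : 1 ≤ (own C.P F h).i := hi
  have hmem : ∀ {y : St}, InD C.P.N C.I C.P.Dm y → (cls F y, own C.P F y) ∈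
      OmP C.P.N C.I C.P.Dm C.K0 := fun h => StmA616.mem_pair (hK0 h) (own_InD (hdvd h) h)
  have hnp : ∀ q < C.P.N, ∀ a b, InD C.P.N C.I C.P.Dm
      (npiece C.P F (cls F h) (own C.P F h) q a b) := by
    intro q hq a b
    have h1 := StmA616.inD_iff.1
      (inD_npiece (P := C.P) (F := F) (κ := cls F h) hr (inD_of_InD hox) q a b)
    exact hox.child hoi hq h1.1 h1.2
  have hGs : ∀ m : ℕ → ℤ, IsSt C.P (cls F h) (own C.P F h) m →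
      G (own C.P F h) ≤ ∑ q ∈ range C.P.N, G (pc C.P (own C.P F h) m q) := by
    intro m hm
    obtain ⟨i, hi'⟩ : ∃ i, (own C.P F h).i = i + 1 := ⟨(own C.P F h).i - 1, by omega⟩
    have h1 := E.le_cuts hi' hm.zero hm.last
    refine h1.trans (le_of_eq ?_)
    unfold ssum pc
    refine sum_congr rfl fun q _ => ?_
    rw [hi']
    rfl
  refine RegF711.opt_of_body (leaf := C.leaf) (G := Gc) (C := 4) (c' := 4) (Gf := G)
    (fun k hk => hB k hk _ _ (hmem hh) hoi (hadm hh)) (hadm hh) hg hG2 hGg hGum hpm hr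
    (inD_of_InD hox) (fun _ _ q hq a _ b _ => hdvd (hnp q hq a b))
    (fun _ _ k hk q hq a _ b _ => ?_) (fun hl => hF4 _ hox hl)
    (fun v hv => hlf _ hox v hv) (fun _ m hm => hGs m hm)
    (fun _ m hm k hk q hq => hull_ge_cfg E hK2 hSF hSX hk (pc_InD hox hoi hm hq))
  have h1 := hnp q hq a b
  exact numSt_le (Rk := C.R Y e) (hFLy h1) hnb hτu (hblk h1) (hxr h1 k hk)
    (hUF k hk _ _ (hmem h1) (hadm h1)) (cls F h)

/-- **the field `f3`** at a state `h` of the domain of macro height `≥ 1`, every window staircase of every class -/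
theorem f3_cfg (hX : C.Good Y) (he : e < C.P.E) {G : St → ℕ} (E : Exact C.P.N C.P.Dm G)
    {ζ τ τu c8 : ℝ} {Gc : ℕ} {A : ℕ → ℕ → St → ℝ}
    (hFL : ∀ i j, i ≤ C.I → j < C.P.N ^ (C.I - i) → ArrLip195.FL C.P (FE C.P Y e) ζ i j)
    (hFL' : ∀ i j, i ≤ C.I → j < C.P.N ^ (C.I - i) → ArrLip195.FL C.P (FE C.P Y (e + 1)) ζ i j)
    (hK2 : ∀ y, InD C.P.N C.I C.P.Dm y → cls (FE C.P Y e) y + C.P.a2 ≤ C.K0)
    (hSF : ∀ y, InD C.P.N C.I C.P.Dm y → G y ≤ FE C.P Y e y)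
    (hSX : ∀ k < C.P.K, ∀ κ z, (κ, z) ∈ OmP C.P.N C.I C.P.Dm C.K0 → G z ≤ Xe C.P Y e k κ z)
    (hJ : ∀ k < C.P.K, ∀ κ z, (κ, z) ∈ OmP C.P.N C.I C.P.Dm C.K0 →
      adm C.P (FE C.P Y e) κ z = true → C.R Y e k κ z ≤ A k κ z + τ * 2 ^ κ)
    (hUF : ∀ k < C.P.K, ∀ κ z, (κ, z) ∈ OmP C.P.N C.I C.P.Dm C.K0 →
      adm C.P (FE C.P Y e) κ z = true → C.R Y e k κ z ≤ FE C.P Y e z + τu * 2 ^ κ)
    (hB : ∀ k < C.P.K, ∀ κ z, (κ, z) ∈ OmP C.P.N C.I C.P.Dm C.K0 → 1 ≤ z.i →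
      adm C.P (FE C.P Y e) κ z = true →
      A k κ z ≤ bodyNum C.P C.leaf (FE C.P Y e) (Xe C.P Y e) k (fun _ => Xe C.P Y e k) κ z + c8)
    (hlf : ∀ z, InD C.P.N C.I C.P.Dm z → ∀ v, C.leaf z = some v → v ≤ G z + 1)
    (hF4 : ∀ z, InD C.P.N C.I C.P.Dm z → C.leaf z = none → C.P.N * 4 ≤ FE C.P Y e z)
    (hK : 0 < C.P.K) (hg : 1 ≤ C.P.g) (hpm : 0 < C.P.pm) (hr : 3 ≤ C.P.r) (hnb : 1 ≤ C.P.nb)
    (hG2 : 2 ≤ Gc) (hGg : (C.P.n + 1) * C.P.g ≤ Gc) (hGum : Gc * (4 * C.P.Creg + 1) ≤ C.P.um)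
    (hτ0 : 0 ≤ τ) (hτu : τu ≤ 1) (hc8 : 0 ≤ c8) {h : St} (hh : InD C.P.N C.I C.P.Dm h)
    (hi : 1 ≤ h.i) {κ : ℕ} {m : ℕ → ℤ} (hm : IsSt C.P κ h m) :
    (FE C.P Y (e + 1) h : ℝ)
      ≤ WinStm330.sm C.P.N (fun y => (FE C.P Y (e + 1) y : ℝ)) h m + dfC C Y e ζ τ (c8 + 2) h := by
  set F := FE C.P Y e with hF
  have hζ : 0 ≤ ζ := (hFL _ _ hh.1 hh.2.1).ζ0
  have hblk : ∀ {y : St}, InD C.P.N C.I C.P.Dm y → ArrLip195.Blk C.P y.i y.j y :=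
    fun h => ⟨rfl, rfl, inD_of_InD h⟩
  have hFLy : ∀ {y : St}, InD C.P.N C.I C.P.Dm y → ArrLip195.FL C.P F ζ y.i y.j :=
    fun h => hFL _ _ h.1 h.2.1
  have hdvd : gst C.P (cls F h) ∣ C.P.Dm := (hFLy hh).dvd _ (hblk hh)
  have hadm : adm C.P F (cls F h) (own C.P F h) = true := ((hFLy hh).own_adm (hblk hh)).2
  have hK0 : cls F h ≤ C.K0 := by have := hK2 _ hh; omega
  have hox : InD C.P.N C.I C.P.Dm (own C.P F h) := own_InD hdvd hh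
  have hmem : (cls F h, own C.P F h) ∈ OmP C.P.N C.I C.P.Dm C.K0 := StmA616.mem_pair hK0 hox
  have hO := opt_cfg hX he E hFL hK2 hSF hSX hUF hB hlf hF4 hg hpm (by omega) hnb hG2 hGg hGum
    hτu hh hi
  -- pieces of an integer staircase of the domain
  have hpc : ∀ m' : ℕ → ℤ, m' 0 = h.u → m' C.P.N = h.v →
      (∀ q, 0 < q → q < C.P.N → |m' q| ≤ C.P.Dm) → ∀ q < C.P.N,
      InD C.P.N C.I C.P.Dm (pc C.P h m' q) := by
    intro m' e0 eN hd q hq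
    have key : ∀ q ≤ C.P.N, -(C.P.Dm : ℤ) ≤ m' q ∧ m' q ≤ C.P.Dm := by
      intro q hq
      rcases Nat.eq_zero_or_pos q with rfl | hq0
      · rw [e0]; exact hh.2.2.1
      · rcases Nat.lt_or_ge q C.P.N with hq1 | hq1
        · exact abs_le.1 (hd q hq0 hq1)
        · obtain rfl : q = C.P.N := by omega
          rw [eN]; exact hh.2.2.2
    exact hh.child hi hq (key q hq.le) (key (q + 1) hq)
  refine f3_hat (P := C.P) hK (F' := F) (X := Xe C.P Y e)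
    (R := fun k => C.R Y e k (cls F h) (own C.P F h))
    (A := fun k => A k (cls F h) (own C.P F h)) hζ hτ0 (by linarith) hr (inD_of_InD hh) hdvd
    ?_ ?_ (fun k hk => hJ k hk _ _ hmem hadm) hO ?_ hm
  · intro m' e0 eN hd q hq
    have h1 := hpc m' e0 eN hd q hq
    exact (hFL' _ _ h1.1 h1.2.1).coer _ (hblk h1)
  · intro k hk
    have h1 := (Cfg.good_num hX he hk hmem hadm).2
    show (Y (idx C.P e k) (cls F h, own C.P F h) : ℝ) ≤ _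
    refine h1.trans (le_of_eq ?_)
    unfold shf
    rw [hF]
    ring
  · intro q hq z z' h1 h2 h3 h4 h5 h6
    have h7 : InD C.P.N C.I C.P.Dm (⟨h.i - 1, C.P.N * h.j + q, z.u, z.v⟩ : St) :=
      hh.child hi hq (StmA616.inD_iff.1 h5).1 (StmA616.inD_iff.1 h5).2
    exact (hFL' _ _ h7.1 h7.2.1).lip z z' ⟨h1, h3, h5⟩ ⟨h2, h4, h6⟩

theorem df0_cfg {ζ τ η : ℝ} (hζ : 0 ≤ ζ) (hτ : 0 ≤ τ) (hη : 0 ≤ η) (h : St) :
    0 ≤ dfC C Y e ζ τ η h := dfF_nonneg hζ hτ hη h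

/-- **the field `dfV`**: `h` = rounded state of `x` (any grid), `p F(x)` = rounding distance, `b V` bounds
`F_e` and `F_(e+1)` -/
theorem dfV_cfg {G : St → ℕ} {C₀ : ℕ} (E : Exact C.P.N C.P.Dm G) {ζ τ η b p kd Lam : ℝ}
    (hFL : ∀ i j, i ≤ C.I → j < C.P.N ^ (C.I - i) → ArrLip195.FL C.P (FE C.P Y e) ζ i j)
    (hK : 0 < C.P.K) (hg : 1 ≤ C.P.g) (hτ : 0 ≤ τ) (hη : 0 ≤ η) (hb : 0 ≤ b) (hp : 0 ≤ p)
    (hFB : ∀ y, InD C.P.N C.I C.P.Dm y → (FE C.P Y e y : ℝ) ≤ b * (G y + C₀))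
    (hFB' : ∀ y, InD C.P.N C.I C.P.Dm y → (FE C.P Y (e + 1) y : ℝ) ≤ b * (G y + C₀))
    {x h : St} (hx : InD C.P.N C.I C.P.Dm x) (hh : InD C.P.N C.I C.P.Dm h) (hi : h.i = x.i)
    (hj : h.j = x.j) (hd : (Alg45.dist x h : ℝ) ≤ p * FE C.P Y (e + 1) x)
    (hLam : 0 < Lam) (hG : Lam < G x)
    (hkd : (ζ + kA C.P τ) * (b * (1 + p * b)) + kB C.P τ η / Lam ≤ kd) :
    dfC C Y e ζ τ η h ≤ kd * (G x + C₀) := by
  have hL := hFL _ _ hh.1 hh.2.1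
  have hblk : ArrLip195.Blk C.P h.i h.j h := ⟨rfl, rfl, inD_of_InD hh⟩
  have hC0 : (0 : ℝ) ≤ C₀ := Nat.cast_nonneg _
  have hGx : (0 : ℝ) ≤ G x := Nat.cast_nonneg _
  have hV0 : 0 ≤ (G x : ℝ) + C₀ := by linarith
  have h1 : (G h : ℝ) ≤ G x + Alg45.dist x h := by
    have := E.lip h x hi hj
    rw [AlgS125.dist_comm] at this
    exact_mod_cast this
  have h2 : (Alg45.dist x h : ℝ) ≤ p * b * (G x + C₀) := by
    calc (Alg45.dist x h : ℝ) ≤ p * FE C.P Y (e + 1) x := hd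
      _ ≤ p * (b * (G x + C₀)) := mul_le_mul_of_nonneg_left (hFB' x hx) hp
      _ = _ := by ring
  have h3 : b * ((G h : ℝ) + C₀) ≤ b * (1 + p * b) * (G x + C₀) := by
    calc b * ((G h : ℝ) + C₀) ≤ b * ((1 + p * b) * (G x + C₀)) :=
          mul_le_mul_of_nonneg_left (by linarith) hb
      _ = _ := by ring
  refine dfF_le (b := b * (1 + p * b)) (b' := b * (1 + p * b)) hK hg (by have := hL.pb; omega)
    hL.ζ0 (by have := hL.ζ1; linarith) hτ hη ?_ hLam (by linarith) ((hFB' h hh).trans h3)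
    ((hFB h hh).trans h3) (by linarith)
  exact hL.lip _ _ (hL.own_adm hblk).1 hblk

end Crest.Agent.R288.WinF3C131
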