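import Crest.Agent.R288.WinFarB_974
import Crest.Agent.R288.WinNearC_482
import Crest.Agent.R288.WinF3C_131
import Crest.Agent.R288.WinSmC_588

/-!
# R288 [A13.WIN] (helper330): the window instance and the epoch bound over `C : Asm331.Cfg`

* `HIn`  : the facts of one good history (Lipschitz parameters, leaves, soundness, law, `OscR`);
* `WNum` : the numbers (in `P`, `Λ`, `C0` and the letters only);
* `fl`   : `ArrLip195.FL` on every block;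
* **`win_cfg`** : `WinH330.Win` at the epoch `e + 1` from the bounds `F e, F (e+1) ≤ B V`, `1 ≤ B ≤ B₀`;
* `EpNum`, **`ep_cfg`** : `StmA616.Ep`.
-/

set_option autoImplicit false

namespace Crest.Agent.R288.WinA330

open Finset Crest.Agent.R288.Alg45 Crest.Agent.R288.Dom20 Crest.Agent.R288.Asm331
open Crest.Agent.R288.AnaLip364 (LipOk)
open Crest.Agent.R288.OscI283 (OscR)
open Crest.Agent.R288.ArrLip195 (numR)
open Crest.Agent.R288.WinNear482 (NearNum kn an)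
open Crest.Agent.R288.WinF3131 (kA kB)

/-- **the facts of one good history**; `A e k κ z` = mean of the body entry -/
structure HIn (C : Cfg) (X : ℕ → ℕ × St → ℕ) (x y : List ℕ) (g p L Λ : ℕ)
    (ζ τ τF c8 b ν c1 c2 : ℝ) (A : ℕ → ℕ → ℕ → St → ℝ) : Prop where
  good : C.Good X
  lip : LipOk C x y g p L ζ
  grd : ∀ κ ≤ C.K0, gst C.P κ ∣ C.P.Dm
  leaf : C.leaf = LeafO690.leafO x y C.P.n Λ
  sound : StmA616.SoundF C X (GSt442.gst x y C.P.n)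
  soundX : ∀ e < C.P.E, ∀ k < C.P.K, ∀ κ z, (κ, z) ∈ OmP C.P.N C.I C.P.Dm C.K0 →
    GSt442.gst x y C.P.n z ≤ Xe C.P X e k κ z
  law : ∀ e < C.P.E, WinH330.Law C X e (A e) τ τF c8
  osc : ∀ e < C.P.E, ∀ k < C.P.K, OscR C.P (FE C.P X e) (InD C.P.N C.I C.P.Dm) (Xe C.P X e k)
    (numR C.P (FE C.P X e) (C.R X e k)) b ν ζ c1 c2 0

/-- **the numbers** -/
structure WNum (P : Par) (Λ C0 Gc : ℕ)
    (B₀ ζ τ τF c8 b ν c1 c2 b1 k1 σ kd0 kd1 e4 e50 e51 r1 : ℝ) : Prop where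
  ζ8 : ζ ≤ 1 / 8
  ζp : 2 * (ζ + 2 / 2 ^ P.pb) ≤ 1 / 2
  τ0 : 0 ≤ τ
  τF1 : τF ≤ 1
  c80 : 0 ≤ c8
  C00 : 0 < C0
  Λ0 : 0 < Λ
  K0 : 0 < P.K
  g1 : 1 ≤ P.g
  pm0 : 0 < P.pm
  r4 : 4 ≤ P.r
  nb1 : 1 ≤ P.nb
  δ4 : 4 < P.δi
  pb : 10 ≤ P.pb
  G2 : 2 ≤ Gc
  Gg : (P.n + 1) * P.g ≤ Gc
  Gum : Gc * (4 * P.Creg + 1) ≤ P.um
  N4 : P.N * 4 ≤ Λ
  /-- leaves are their own grid state -/
  sm : B₀ * (Λ + C0) < 2 ^ (P.pb + 1)
  e50 : (1 + c8 + τ) / C0 ≤ e50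
  e51 : 2 * (2 / 2 ^ P.pb) + τ ≤ e51
  b1 : c8 / Λ + 2 * τ ≤ b1
  r1 : P.N * (2 / 2 ^ P.pb * B₀) + 2 * P.N / Λ ≤ r1
  k1 : ((P.um : ℝ) * Real.log (P.pm + 1) + 1 + 1 / P.g) / P.K + 2 * τ + 2 / 2 ^ P.nb ≤ k1
  e40 : 0 ≤ e4
  e4f : (P.um : ℝ) * Real.log (P.pm + 1) / P.K + (2 + c8) + P.N * (2 / 2 ^ P.nb + 2) ≤ e4 * Λ
  e4n : an P c1 c2 c8 ≤ e4 * Λ
  near : ∀ (F : St → ℕ) (κ : ℕ) (z : St), (2 : ℝ) ^ κ ≤ 2 * F z → (Λ : ℝ) ≤ F z →
    NearNum P F κ z b ν ζ c1 c2 0 σ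
  kd0 : kB P τ (c8 + 2) / Λ ≤ kd0
  kd1 : (ζ + kA P τ) * (1 + 2 / 2 ^ P.pb * B₀) ≤ kd1

variable {C : Cfg} {X : ℕ → ℕ × St → ℕ} {x y : List ℕ} {g p L Λ C0 Gc : ℕ}
  {ζ τ τF c8 b ν c1 c2 b1 k1 σ kd0 kd1 e4 e50 e51 r1 B₀ : ℝ} {A : ℕ → ℕ → ℕ → St → ℝ}

section

variable (H : HIn C X x y g p L Λ ζ τ τF c8 b ν c1 c2 A)
  (W : WNum C.P Λ C0 Gc B₀ ζ τ τF c8 b ν c1 c2 b1 k1 σ kd0 kd1 e4 e50 e51 r1)

include H in
theorem cls_le {e : ℕ} {s : St} (hs : InD C.P.N C.I C.P.Dm s) :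
    cls (FE C.P X e) s + C.P.a2 ≤ C.K0 := AnaLip364.cls_le H.good H.lip e hs

include H in
theorem coer {e : ℕ} (he : e ≤ C.P.E) {s : St} (hs : InD C.P.N C.I C.P.Dm s) :
    (s.v - s.u).natAbs ≤ FE C.P X e s := AnaStart364.coer_of H.lip (H.sound e he s hs)

include H W in
/-- **the unit function on every block** -/
theorem fl {e : ℕ} (he : e ≤ C.P.E) {i j : ℕ} (hi : i ≤ C.I) (hj : j < C.P.N ^ (C.I - i)) :
    ArrLip195.FL C.P (FE C.P X e) ζ i j where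
  pb := by have := W.pb; omega
  ζ0 := H.lip.z0
  ζ1 := W.ζ8
  lip := (AnaLip364.lip H.good H.lip hi hj he).2
  coer := fun s hs => coer H he (AnaLip364.InD_of_Blk hi hj hs)
  dvd := fun s hs => H.grd _ ((Nat.le_add_right _ _).trans
    (cls_le H (AnaLip364.InD_of_Blk hi hj hs)))

include H in
theorem act {s : St} (hs : ¬ WinH330.lf C s) : (Λ : ℝ) < GSt442.gst x y C.P.n s :=
  WinSmC588.act_cfg H.leaf hs

include H in
theorem F_ge {e : ℕ} (he : e ≤ C.P.E) {s : St} (hs : InD C.P.N C.I C.P.Dm s)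
    (hn : ¬ WinH330.lf C s) : (Λ : ℝ) < FE C.P X e s :=
  (act H hn).trans_le (by exact_mod_cast H.sound e he s hs)

include H W in
/-- **the window instance of the epoch `e + 1`** -/
theorem win_cfg {e : ℕ} (he : e + 2 ≤ C.P.E) {B : ℝ} (hB0 : 0 ≤ B) (hB : B ≤ B₀)
    (hFB : ∀ s, InD C.P.N C.I C.P.Dm s →
      (FE C.P X e s : ℝ) ≤ B * ((GSt442.gst x y C.P.n s : ℝ) + C0))
    (hFB' : ∀ s, InD C.P.N C.I C.P.Dm s →
      (FE C.P X (e + 1) s : ℝ) ≤ B * ((GSt442.gst x y C.P.n s : ℝ) + C0)) :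
    WinH330.Win C X (e + 1) (GSt442.gst x y C.P.n)
      (fun s => WinF3C131.dfC C X e ζ τ (c8 + 2) (StmA616.hat C X (e + 1) s)) C0 Λ B
      (2 / 2 ^ C.P.pb) (2 * (ζ + 2 / 2 ^ C.P.pb)) (4 / (C.P.δi : ℝ)) b1 k1 (kn C.P ν σ τ) σ
      (kd0 + kd1 * B) e4 (e50 + e51 * B) r1 := by
  have he1 : e + 1 ≤ C.P.E := by omega
  have he1' : e + 1 < C.P.E := by omega
  have he0 : e < C.P.E := by omega
  have hE : GSt442.Exact C.P.N C.P.Dm (GSt442.gst x y C.P.n) :=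
    GSt442.exact_gst x y C.P.n H.lip.x_le H.lip.y_le
  have hζ0 := H.lip.z0
  have hΛ : (0 : ℝ) < Λ := by exact_mod_cast W.Λ0
  have hC0 : (0 : ℝ) ≤ C0 := Nat.cast_nonneg _
  have hgrd : ∀ {s : St}, InD C.P.N C.I C.P.Dm s → gst C.P (cls (FE C.P X (e + 1)) s) ∣ C.P.Dm :=
    fun hs => H.grd _ ((Nat.le_add_right _ _).trans (cls_le H hs))
  have hhat : ∀ {s : St}, InD C.P.N C.I C.P.Dm s →
      InD C.P.N C.I C.P.Dm (StmA616.hat C X (e + 1) s) := fun hs => StmA616.hat_dom (hgrd hs) hs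
  have hadm : ∀ s, InD C.P.N C.I C.P.Dm s →
      adm C.P (FE C.P X (e + 1)) (cls (FE C.P X (e + 1)) s) (StmA616.hat C X (e + 1) s) = true :=
    fun s hs => ((fl H W he1 hs.1 hs.2.1).own_adm
      (show ArrLip195.Blk C.P s.i s.j s from ⟨rfl, rfl, WinFar974.inD_of_InD hs⟩)).2
  have hi1 : ∀ {s : St}, ¬ WinH330.lf C s → 1 ≤ s.i := by
    intro s hn
    by_contra h
    exact hn (Or.inl (by omega))
  -- the small fields
  have hSm : WinSmC588.SmNum C.P C0 (Λ : ℝ) B ζ τ c8 b1 (e50 + e51 * B) r1 :=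
    { τ0 := W.τ0
      c80 := W.c80
      C00 := W.C00
      Lam0 := hΛ
      β0 := hB0
      ζ0 := hζ0
      ζp := W.ζp
      r4 := W.r4
      δ4 := W.δ4.le
      sm := (mul_le_mul_of_nonneg_right hB (by positivity)).trans_lt W.sm
      e5 := by
        have h1 := mul_le_mul_of_nonneg_right W.e51 hB0
        have h2 := W.e50
        linarith
      b1 := W.b1
      r1 := by
        refine le_trans ?_ W.r1
        have h1 : (2 : ℝ) / 2 ^ C.P.pb * B ≤ 2 / 2 ^ C.P.pb * B₀ :=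
          mul_le_mul_of_nonneg_left hB (by positivity)
        have h2 : (C.P.N : ℝ) * (2 / 2 ^ C.P.pb * B) ≤ C.P.N * (2 / 2 ^ C.P.pb * B₀) :=
          mul_le_mul_of_nonneg_left h1 (Nat.cast_nonneg _)
        linarith }
  have hS := WinSmC588.small_cfg H.good H.lip (by linarith [W.ζ8]) W.pb H.grd H.leaf he1
    (H.sound (e + 1) he1) hFB' (H.law (e + 1) he1') hSm
  -- (F3')
  have hf3 : WinH330.F3F C X (e + 1)
      (fun s => WinF3C131.dfC C X e ζ τ (c8 + 2) (StmA616.hat C X (e + 1) s)) := by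
    intro s hs _ hnh m hm
    exact WinF3C131.f3_cfg H.good he0 hE (A := A e) (τu := τF) (Gc := Gc)
      (fun i j hi hj => fl H W he0.le hi hj) (fun i j hi hj => fl H W he1 hi hj)
      (fun s hs => cls_le H hs) (H.sound e he0.le) (H.soundX e he0) (H.law e he0).J
      (H.law e he0).upF (H.law e he0).body
      (fun z _ v hv => (LeafO690.leafO_le (H.leaf ▸ hv)).2)
      (fun z hz hl => by
        have h1 : (Λ : ℝ) < GSt442.gst x y C.P.n z := by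
          rw [H.leaf] at hl
          exact_mod_cast (LeafO690.leafO_none hl).1
        have h2 := H.sound e he0.le z hz
        have h3 : Λ < GSt442.gst x y C.P.n z := by exact_mod_cast h1
        have h4 := W.N4
        omega)
      W.K0 W.g1 W.pm0 (by have := W.r4; omega) W.nb1 W.G2 W.Gg W.Gum W.τ0 W.τF1 W.c80
      (hhat hs) (hi1 hnh) hm
  refine WinH330.win_of C X (e + 1) (fun s _ => WinSmC588.ge_cfg H.lip s)
    (H.sound (e + 1) he1) hFB' (fun s _ hn => act H hn) hS hf3 ?_ ?_ ?_ ?_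
  · intro s hs _
    exact WinF3C131.df0_cfg hζ0 W.τ0 (by linarith [W.c80]) _
  · intro s hs hn
    refine WinF3C131.dfV_cfg (b := B) (p := 2 / 2 ^ C.P.pb) (Lam := Λ) hE
      (fun i j hi hj => fl H W he0.le hi hj) W.K0 W.g1 W.τ0 (by linarith [W.c80]) hB0
      (by positivity) hFB hFB' hs (hhat hs) rfl rfl (hS.hat_dist s hs hn) hΛ (act H hn) ?_
    have h1 : (ζ + kA C.P τ) * (B * (1 + 2 / 2 ^ C.P.pb * B)) ≤ kd1 * B := by
      have h2 : (2 : ℝ) / 2 ^ C.P.pb * B ≤ 2 / 2 ^ C.P.pb * B₀ :=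
        mul_le_mul_of_nonneg_left hB (by positivity)
      have h3 : 0 ≤ ζ + kA C.P τ := add_nonneg hζ0 (WinF3131.kA_nonneg W.τ0)
      calc (ζ + kA C.P τ) * (B * (1 + 2 / 2 ^ C.P.pb * B))
          = (ζ + kA C.P τ) * (1 + 2 / 2 ^ C.P.pb * B) * B := by ring
        _ ≤ (ζ + kA C.P τ) * (1 + 2 / 2 ^ C.P.pb * B₀) * B :=
            mul_le_mul_of_nonneg_right (mul_le_mul_of_nonneg_left (by linarith) h3) hB0
        _ ≤ kd1 * B := mul_le_mul_of_nonneg_right W.kd1 hB0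
    have h2 := W.kd0
    linarith
  · exact WinFar974.farF H.good he1' (A := A (e + 1)) (Gc := Gc) (τu := τF) (Lam := Λ)
      (fun i j hi hj => fl H W he1 hi hj)
      (fun s hs => (Nat.le_add_right _ _).trans (cls_le H hs)) (H.law _ he1').J
      (H.law _ he1').upF (H.law _ he1').body (H.sound (e + 1) he1) (fun s _ hn => act H hn)
      W.K0 W.g1 W.pm0 (by have := W.r4; omega) W.nb1 W.G2 W.Gg W.Gum W.τ0 W.τF1 W.k1
      (by exact_mod_cast W.N4) W.e40 W.e4f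
  · refine WinNearC482.nearF (A := A (e + 1)) (c8 := c8) (H.osc _ he1') H.grd
      (fun s hs => (Nat.le_add_right _ _).trans (cls_le H hs)) (fun s hs => coer H he1 hs)
      hadm ?_ ?_ W.τ0 (H.law _ he1').J (H.law _ he1').body hf3 ?_
    · intro s hs _ hnh
      have h1 := F_ge H he1 (hhat hs) hnh
      have h2 : (0 : ℝ) < FE C.P X (e + 1) (StmA616.hat C X (e + 1) s) := hΛ.trans h1
      exact_mod_cast h2
    · intro s hs _ hnh
      have h1 := F_ge H he1 (hhat hs) hnh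
      have h2 : (0 : ℝ) < FE C.P X (e + 1) (StmA616.hat C X (e + 1) s) := hΛ.trans h1
      have h3 : FE C.P X (e + 1) (StmA616.hat C X (e + 1) s) ≠ 0 := by
        intro h
        rw [h] at h2
        simp at h2
      refine W.near _ _ _ ?_ h1.le
      exact_mod_cast AdmR944.ge_of_adm (hadm s hs) h3
    · intro s hs hn
      refine W.e4n.trans (mul_le_mul_of_nonneg_left ?_ W.e40)
      have := act H hn
      linarith

end

/-! ### the epoch bound -/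

/-- numbers of the chain step, `p = 2 / 2^pb`, `ζ' = 2 (ζ + p)`, `κn = kn P ν σ τ` -/
structure EpNum (P : Par) (I Λ C0 : ℕ)
    (B₀ ζ τ ν b1 k1 σ kd0 kd1 e4 e50 e51 r1 lam ρ θ ca cq κa κq : ℝ) : Prop where
  b10 : 0 ≤ b1
  k10 : 0 ≤ k1
  kn0 : 0 ≤ kn P ν σ τ
  σ0 : 0 < σ
  σ1 : σ ≤ 1
  kd00 : 0 ≤ kd0
  kd10 : 0 ≤ kd1
  r10 : 0 ≤ r1
  e510 : 0 ≤ e51
  hlam : k1 * (1 + σ ^ 2) ≤ lam * σ ^ 2
  rho : 2 / 2 ^ P.pb * B₀ + r1 + P.N * C0 / Λ ≤ ρ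
  tht : (1 + ρ) ^ I ≤ 1 + θ
  hc : (1 + b1) * (1 + 2 / 2 ^ P.pb * B₀) ≤ (1 - 4 / (P.δi : ℝ)) * (1 + ca - 2 / 2 ^ P.pb * B₀)
  hca : e50 + 2 * (2 / 2 ^ P.pb * B₀) ≤ ca
  hcq : e51 + 3 * lam ≤ cq
  hκa : (2 * lam + k1 / σ) * kd0 + e4 ≤ κa
  hκq : kn P ν σ τ * (1 + 2 * (ζ + 2 / 2 ^ P.pb)) + (2 * lam + k1 / σ) * kd1 + 2 / 2 ^ P.pb
    + 5 * lam * (2 / 2 ^ P.pb + 2 * (ζ + 2 / 2 ^ P.pb)) ≤ κq

/-- **(A13)-(A14) for every epoch** -/
theorem ep_cfg {lam ρ θ ca cq κa κq : ℝ} (H : HIn C X x y g p L Λ ζ τ τF c8 b ν c1 c2 A)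
    (W : WNum C.P Λ C0 Gc B₀ ζ τ τF c8 b ν c1 c2 b1 k1 σ kd0 kd1 e4 e50 e51 r1)
    (E : EpNum C.P C.I Λ C0 B₀ ζ τ ν b1 k1 σ kd0 kd1 e4 e50 e51 r1 lam ρ θ ca cq κa κq) :
    StmA616.Ep C X (GSt442.gst x y C.P.n) C0 (InD C.P.N C.I C.P.Dm)
      ((1 + θ) * (1 + ca + κa * C.I)) ((1 + θ) * (cq + κq * C.I)) B₀ := by
  intro e he B hB1 hB hFB hFB' s hs
  have hB0 : (0 : ℝ) ≤ B := by linarith
  have hδ : (4 : ℝ) / C.P.δi < 1 := by
    have h1 : (4 : ℝ) < C.P.δi := by exact_mod_cast W.δ4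
    rw [div_lt_one (by linarith)]
    exact h1
  exact WinStm330.WinIn.ep (win_cfg H W he hB0 hB hFB hFB') (Nat.two_pow_pos _)
    (by exact_mod_cast W.Λ0) hB0 hB (by positivity)
    (mul_nonneg (by norm_num) (add_nonneg H.lip.z0 (by positivity))) (by positivity) hδ E.b10
    E.k10 E.kn0 E.σ0 E.σ1 W.e40 E.kd00 E.kd10 E.r10 E.e510 E.hlam E.rho E.tht E.hc E.hca E.hcq
    E.hκa E.hκq s hs

end Crest.Agent.R288.WinA330
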