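import Crest.Agent.R288.W5_442
import Crest.Agent.R288.WinStm_330

/-!
# Row 288 (helper442): comparator staircases of `WinStm_330` in the letters of ALG v2.2

* `ScL P F hat x m` : the cut sequence `m` is given by letters of the window `(cls F x, hat x)`;
* `ScL.pcs_eq`, `sm_eq`, `enS_eq` : the pieces and sums of `WinStm_330` = sums over the pieces of the letters;
* `ScL.m_zero`, `ScL.m_N`;
* **`cmp_letters`** = field `cmp` of `WinStm330.WinIn`.
-/

set_option autoImplicit false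

namespace Crest.Agent.R288.WinCmp442

open Finset
open Crest.Agent.R288.GSt442 (Exact)
open Crest.Agent.R288.Alg45 (St Par gst gpt WA cut piece pos rd wlo whi cls)
open Crest.Agent.R288.WinStm330 (pcs sm enS av)

variable (P : Par) {F G : St → ℕ} {hat : St → St} {D : ℕ}

/-- `m` = cuts of a letter sequence `c` of the window `(cls F x, hat x)` -/
def ScL (F : St → ℕ) (hat : St → St) (x : St) (m : ℕ → ℤ) : Prop :=
  ∃ c : ℕ → ℕ, (∀ q, c q < WA P (cls F x)) ∧ (∀ q, P.N ≤ q → c q = 0) ∧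
    (∀ q ≤ P.N, m q = cut P (cls F x) (hat x) q (c q)) ∧
    ∀ q ≤ P.N, -(P.Dm : ℤ) ≤ m q ∧ m q ≤ P.Dm

variable {P}

theorem pcs_eq {κ : ℕ} {z : St} {c : ℕ → ℕ} {m : ℕ → ℤ}
    (hm : ∀ q ≤ P.N, m q = cut P κ z q (c q)) {q : ℕ} (hq : q < P.N) :
    pcs P.N z m q = piece P κ z q (c q) (c (q + 1)) := by
  unfold pcs piece
  rw [hm q hq.le, hm (q + 1) hq]

theorem sm_eq {κ : ℕ} {z : St} {c : ℕ → ℕ} {m : ℕ → ℤ}
    (hm : ∀ q ≤ P.N, m q = cut P κ z q (c q)) (f : St → ℝ) :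
    sm P.N f z m = ∑ q ∈ range P.N, f (piece P κ z q (c q) (c (q + 1))) := by
  unfold sm
  exact sum_congr rfl fun q hq => by rw [pcs_eq hm (mem_range.1 hq)]

theorem enS_eq {κ : ℕ} {z : St} {c : ℕ → ℕ} {m : ℕ → ℤ}
    (hm : ∀ q ≤ P.N, m q = cut P κ z q (c q)) (F : St → ℕ) (θ : ℝ) :
    enS P.N F θ z m = ∑ q ∈ range P.N, (F (piece P κ z q (c q) (c (q + 1))) : ℝ)
      * (av (piece P κ z q (c q) (c (q + 1))) / F (piece P κ z q (c q) (c (q + 1))) - θ) ^ 2 := by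
  unfold enS
  exact sum_congr rfl fun q hq => by rw [pcs_eq hm (mem_range.1 hq)]

theorem m_zero {κ : ℕ} {z : St} {c : ℕ → ℕ} {m : ℕ → ℤ}
    (hm : ∀ q ≤ P.N, m q = cut P κ z q (c q)) : m 0 = z.u := by
  rw [hm 0 (Nat.zero_le _), W5442.cut_zero]

theorem m_N {κ : ℕ} {z : St} {c : ℕ → ℕ} {m : ℕ → ℤ}
    (hm : ∀ q ≤ P.N, m q = cut P κ z q (c q)) : m P.N = z.v := by
  rw [hm P.N le_rfl, W5442.cut_N]

/-- **the field `cmp`**: the optimal staircase of `hat x`, rounded to the grid of the window -/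
theorem cmp_letters (E : Exact P.N D G) (hD' : D ≤ P.Dm) {x : St} (hi : 1 ≤ (hat x).i)
    (hDm : (gst P (cls F x) : ℤ) ∣ (P.Dm : ℤ)) (hD : (gst P (cls F x) : ℤ) ∣ (D : ℤ))
    (hu : (hat x).u.natAbs ≤ D) (hv : (hat x).v.natAbs ≤ D)
    (hr : G (hat x) ≤ P.r * 2 ^ cls F x) {p : ℝ} (hp : (gst P (cls F x) : ℝ) ≤ p * F x) :
    ∃ m, ScL P F hat x m ∧ m 0 = (hat x).u ∧ m P.N = (hat x).v ∧
      (∀ q ≤ P.N, -(D : ℤ) ≤ m q ∧ m q ≤ D) ∧
      (∀ q ≤ P.N, (m q - (hat x).u).natAbs + ((hat x).v - m q).natAbs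
        ≤ G (hat x) + 2 * gst P (cls F x)) ∧
      sm P.N (fun y => G y) (hat x) m ≤ G (hat x) + 2 * P.N * (p * F x) := by
  obtain ⟨c, c1, c2, c3, c4, c5⟩ := W5442.opt_letters (i := (hat x).i - 1) P E hD' (by omega) hDm hD hr
  have hm : ∀ q ≤ P.N, (fun q => cut P (cls F x) (hat x) q (c q)) q
      = cut P (cls F x) (hat x) q (c q) := fun q _ => rfl
  have hDq : ∀ q ≤ P.N, -(D : ℤ) ≤ cut P (cls F x) (hat x) q (c q) ∧
      cut P (cls F x) (hat x) q (c q) ≤ D := by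
    intro q hq
    rcases Nat.eq_zero_or_pos q with h | h
    · subst h; rw [W5442.cut_zero]; omega
    rcases hq.lt_or_eq with h' | h'
    · exact (c5 q h h').2
    · rw [h', W5442.cut_N]; omega
  refine ⟨fun q => cut P (cls F x) (hat x) q (c q), ⟨c, c1, c2, hm, fun q hq => ?_⟩, m_zero hm, m_N hm,
    hDq, c4, ?_⟩
  · have := hDq q hq
    show -(P.Dm : ℤ) ≤ cut P (cls F x) (hat x) q (c q) ∧ cut P (cls F x) (hat x) q (c q) ≤ P.Dm
    omega
  · rw [sm_eq hm]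
    have h1 : (∑ q ∈ range P.N, (G (piece P (cls F x) (hat x) q (c q) (c (q + 1))) : ℝ))
        ≤ G (hat x) + 2 * P.N * gst P (cls F x) := by exact_mod_cast c3
    have h2 : (2 * P.N : ℝ) * gst P (cls F x) ≤ 2 * P.N * (p * F x) :=
      mul_le_mul_of_nonneg_left hp (by positivity)
    linarith

end Crest.Agent.R288.WinCmp442
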