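import Crest.Agent.R288.RegE_711
import Crest.Agent.R288.AlgS_125
import Crest.Agent.R288.WinStm_330
import Crest.Agent.R288.ArrLipA_195
import Crest.Agent.R288.StmA_616

/-!
# R288, [A13.FAR] (helper974): the field `far` of `WinStm330.WinIn`

* `own P F y` = rounded state of the own class, `RpG`, `RmG` = mean arrival number of the own pair (`Rp`) and
  of the state (`Rm`), for an ARBITRARY family `Rk k κ z` of means.
* `bodies` : sum over the ranks of the arrival means at one admissible pair, every window staircase.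
* `far_mean` : the mean over the ranks, ends replaced by `RmG`.
* **`far_field`** : the field `far`, numeric needs as plain inequalities, arbitrary family of means.
* `numSt_le` : numbers are at most `4 F + 4`.
* **`far_cfg`** : the field `far` for `C : Asm331.Cfg`, `C.Good X`, names of `StmA616` (`hat`, `Rp`, `Rm`).
-/

set_option autoImplicit false

namespace Crest.Agent.R288.WinFar974

open Finset
open Crest.Agent.R288.Alg45 Crest.Agent.R288.RegD711 Crest.Agent.R288.RegE711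
open Crest.Agent.R288.AlgS125 (IsSt pc)

variable {P : Par} {leaf : St → Option ℕ} {F : St → ℕ} {X : ℕ → ℕ → St → ℕ}
  {Rk : ℕ → ℕ → St → ℝ}

/-- the rounded state of the own class -/
def own (P : Par) (F : St → ℕ) (y : St) : St := rdn P (cls F y) y

/-- mean over the ranks of the value of the own pair -/
noncomputable def RpG (P : Par) (F : St → ℕ) (Rk : ℕ → ℕ → St → ℝ) (y : St) : ℝ :=
  (∑ k ∈ range P.K, Rk k (cls F y) (own P F y)) / P.K

/-- the mean arrival number of a state -/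
noncomputable def RmG (P : Par) (F : St → ℕ) (Rk : ℕ → ℕ → St → ℝ) (y : St) : ℝ :=
  Alg45.dist y (own P F y) + RpG P F Rk y

theorem K_mul_RpG (hK : 0 < P.K) (y : St) :
    (P.K : ℝ) * RpG P F Rk y = ∑ k ∈ range P.K, Rk k (cls F y) (own P F y) := by
  have h : (P.K : ℝ) ≠ 0 := by exact_mod_cast hK.ne'
  unfold RpG
  field_simp

theorem K_mul_RmG (hK : 0 < P.K) (y : St) :
    (P.K : ℝ) * RmG P F Rk y = ∑ k ∈ range P.K, ((Alg45.dist y (own P F y) : ℝ)
      + Rk k (cls F y) (own P F y)) := by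
  unfold RmG
  rw [mul_add, K_mul_RpG hK, sum_add_distrib, sum_const, card_range, nsmul_eq_mul]

/-- **the sum over the ranks at one admissible pair `(κ, z)`, against every window staircase**:
`R k ≤ A k + τ`, `A k ≤ bodyNum .. + c8` -/
theorem bodies {κ G : ℕ} {z : St} {m : ℕ → ℤ} {R A : ℕ → ℝ} {τ c8 : ℝ}
    (hg : 1 ≤ P.g) (hum : 0 < P.um) (hpm : 0 < P.pm) (hD : gst P κ ∣ P.Dm)
    (hadm : adm P F κ z = true) (hl : leaf z = none)
    (hwin : ¬ R1 P F z → regular P F κ z → WinX P F X κ z P.K G)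
    (hJ : ∀ k < P.K, R k ≤ A k + τ)
    (hA : ∀ k < P.K, A k ≤ bodyNum P leaf F X k (fun _ => X k) κ z + c8)
    (hm : IsSt P κ z m) :
    ∑ k ∈ range P.K, R k ≤ ∑ k ∈ range P.K, ∑ q ∈ range P.N, (hull P F (X k) (pc P z m q) : ℝ)
      + (P.um : ℝ) * (F z + 1) * Real.log (P.pm + 1) + (1 + 1 / (P.g : ℝ)) * F z
      + P.K * (2 + c8 + τ) := by
  have hV : ∀ k < P.K, (Vk P F X κ z k : ℝ)
      ≤ ∑ q ∈ range P.N, (hull P F (X k) (pc P z m q) : ℝ) := by
    intro k _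
    have := AlgS125.Vst_le P hD (hull P F (X k)) hm
    unfold Vk
    exact_mod_cast this
  have hlog : 0 ≤ (P.um : ℝ) * (F z + 1) * Real.log (P.pm + 1) := by
    have : 0 ≤ Real.log ((P.pm : ℝ) + 1) :=
      Real.log_nonneg (by linarith [Nat.cast_nonneg (α := ℝ) P.pm])
    positivity
  have hF : (0 : ℝ) ≤ 1 / (P.g : ℝ) * F z := by positivity
  have hK0 : (0 : ℝ) ≤ P.K := Nat.cast_nonneg _
  by_cases hw : R1 P F z ∨ ¬ regular P F κ z
  · have h1 := wild_pair (P := P) (F := F) (X := X) (κ := κ) (x := z) (K := P.K) (A := R)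
      (η := c8 + τ) (fun k hk => by
        have h2 := hA k hk
        rw [bodyNum_wild hadm hl hw] at h2
        have h3 := hJ k hk
        linarith) hV
    nlinarith
  · push Not at hw
    have h1 := far_pair (P := P) (F := F) (X := X) (κ := κ) (x := z) (K := P.K) (G := G)
      (hwin hw.1 hw.2) (A := R) (η := 2 + c8 + τ) (fun k hk => by
        have h2 := hA k hk
        have h3 := hJ k hk
        have h4 := bodyNum_le (P := P) (F := F) (X := X) (κ := κ) (x := z) (k := k)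
          (S := fun _ => X k) hadm hl hw.1 hw.2 (by omega) hum hpm
        have e : calm P F X k (fun _ => X k) κ z k = cal P F X κ z k := calm_const le_rfl
        rw [e] at h4
        linarith) hV
    linarith

/-- **the mean over the ranks**; `σ q` = error of the numbers of the own pair of the piece `q` -/
theorem far_mean {κ G : ℕ} {z : St} {m : ℕ → ℤ} {R A : ℕ → ℝ} {τ c8 : ℝ} {σ : ℕ → ℝ}
    (hK : 0 < P.K) (hg : 1 ≤ P.g) (hum : 0 < P.um) (hpm : 0 < P.pm) (hD : gst P κ ∣ P.Dm)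
    (hadm : adm P F κ z = true) (hl : leaf z = none)
    (hwin : ¬ R1 P F z → regular P F κ z → WinX P F X κ z P.K G)
    (hJ : ∀ k < P.K, R k ≤ A k + τ)
    (hA : ∀ k < P.K, A k ≤ bodyNum P leaf F X k (fun _ => X k) κ z + c8)
    (hm : IsSt P κ z m)
    (hin : ∀ q < P.N, inD P (pc P z m q))
    (hgst : ∀ q < P.N, gst P (cls F (pc P z m q)) ∣ P.Dm)
    (hX : ∀ k < P.K, ∀ q < P.N,
      (X k (cls F (pc P z m q)) (own P F (pc P z m q)) : ℝ)
        ≤ Rk k (cls F (pc P z m q)) (own P F (pc P z m q)) + σ q) :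
    (∑ k ∈ range P.K, R k) / P.K ≤ ∑ q ∈ range P.N, RmG P F Rk (pc P z m q)
      + ((P.um : ℝ) * (F z + 1) * Real.log (P.pm + 1) + (1 + 1 / (P.g : ℝ)) * F z) / P.K
      + (2 + c8 + τ) + ∑ q ∈ range P.N, σ q := by
  have hK' : (0 : ℝ) < P.K := by exact_mod_cast hK
  have h1 := bodies (X := X) hg hum hpm hD hadm hl hwin hJ hA hm
  have h2 : ∑ k ∈ range P.K, ∑ q ∈ range P.N, (hull P F (X k) (pc P z m q) : ℝ)
      ≤ P.K * (∑ q ∈ range P.N, RmG P F Rk (pc P z m q)) + P.K * ∑ q ∈ range P.N, σ q := by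
    have h3 : ∀ k ∈ range P.K, ∀ q ∈ range P.N, (hull P F (X k) (pc P z m q) : ℝ)
        ≤ ((Alg45.dist (pc P z m q) (own P F (pc P z m q)) : ℝ)
          + Rk k (cls F (pc P z m q)) (own P F (pc P z m q))) + σ q := by
      intro k hk q hq
      have hk := mem_range.1 hk
      have hq := mem_range.1 hq
      have h4 : hull P F (X k) (pc P z m q)
          ≤ Alg45.dist (pc P z m q) (own P F (pc P z m q))
            + X k (cls F (pc P z m q)) (own P F (pc P z m q)) :=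
        RegE711.hull_le (by omega) (by omega) (rdn_mem_menu (hgst q hq) (hin q hq))
      have h5 : (hull P F (X k) (pc P z m q) : ℝ)
          ≤ (Alg45.dist (pc P z m q) (own P F (pc P z m q)) : ℝ)
            + X k (cls F (pc P z m q)) (own P F (pc P z m q)) := by exact_mod_cast h4
      have h6 := hX k hk q hq
      linarith
    calc ∑ k ∈ range P.K, ∑ q ∈ range P.N, (hull P F (X k) (pc P z m q) : ℝ)
        ≤ ∑ k ∈ range P.K, ∑ q ∈ range P.N,
          (((Alg45.dist (pc P z m q) (own P F (pc P z m q)) : ℝ)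
            + Rk k (cls F (pc P z m q)) (own P F (pc P z m q))) + σ q) :=
          sum_le_sum fun k hk => sum_le_sum fun q hq => h3 k hk q hq
      _ = ∑ q ∈ range P.N, (P.K * RmG P F Rk (pc P z m q) + P.K * σ q) := by
          rw [sum_comm]
          refine sum_congr rfl fun q _ => ?_
          rw [sum_add_distrib, K_mul_RmG hK, sum_const, card_range, nsmul_eq_mul]
      _ = _ := by rw [sum_add_distrib, mul_sum, mul_sum]
  rw [div_le_iff₀ hK']
  have h7 : ((P.um : ℝ) * (F z + 1) * Real.log (P.pm + 1) + (1 + 1 / (P.g : ℝ)) * F z) / P.K * P.K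
      = (P.um : ℝ) * (F z + 1) * Real.log (P.pm + 1) + (1 + 1 / (P.g : ℝ)) * F z := by
    field_simp
  nlinarith

/-! ### the pieces of a window staircase -/

theorem inD_pc {κ : ℕ} {z : St} {m : ℕ → ℤ} (hz : inD P z) (hm : IsSt P κ z m) {q : ℕ} (hq : q < P.N) :
    inD P (pc P z m q) := by
  have key : ∀ q ≤ P.N, (m q).natAbs ≤ P.Dm := by
    intro q hq
    rcases Nat.eq_zero_or_pos q with h | h
    · subst h; rw [hm.zero]; exact hz.1
    rcases hq.lt_or_eq with h' | h'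
    · have := abs_le.1 (hm.dom q h h')
      omega
    · rw [h', hm.last]; exact hz.2
  exact ⟨key q hq.le, key (q + 1) hq⟩

theorem two_pow_cls_le (y : St) : (2 : ℝ) ^ cls F y ≤ F y + 1 := by
  exact_mod_cast ArrLip195.two_pow_cls_le F y

/-- a number of an own pair with the error of (A3) -/
def XR (P : Par) (F : St → ℕ) (X : ℕ → ℕ → St → ℕ) (Rk : ℕ → ℕ → St → ℝ) (y : St) : Prop :=
  ∀ k < P.K, (X k (cls F y) (own P F y) : ℝ)
    ≤ Rk k (cls F y) (own P F y) + 2 * ((2 : ℝ) ^ cls F y / 2 ^ P.nb) + 2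

/-- **the field `far`** (`V = G x + C0`) -/
theorem far_field {x : St} {m : ℕ → ℤ} {G : ℕ} {A : ℕ → ℝ} {τ c8 k1 e4 V : ℝ}
    (hK : 0 < P.K) (hg : 1 ≤ P.g) (hum : 0 < P.um) (hpm : 0 < P.pm) (hτ : 0 ≤ τ)
    (hdx : gst P (cls F x) ∣ P.Dm)
    (hdvd : ∀ q < P.N, gst P (cls F (pc P (own P F x) m q)) ∣ P.Dm)
    (hox : inD P (own P F x))
    (hadm : adm P F (cls F x) (own P F x) = true) (hl : leaf (own P F x) = none)
    (hwin : ¬ R1 P F (own P F x) → regular P F (cls F x) (own P F x) →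
      WinX P F X (cls F x) (own P F x) P.K G)
    (hJ : ∀ k < P.K, Rk k (cls F x) (own P F x) ≤ A k + τ * 2 ^ cls F x)
    (hA : ∀ k < P.K, A k ≤ bodyNum P leaf F X k (fun _ => X k) (cls F x) (own P F x) + c8)
    (hm : IsSt P (cls F x) (own P F x) m)
    (hXR : ∀ q < P.N, XR P F X Rk (pc P (own P F x) m q))
    (hF1 : 1 ≤ F x) (hF2 : (F x : ℝ) ≤ 2 * F (own P F x))
    (hk1 : ((P.um : ℝ) * Real.log (P.pm + 1) + 1 + 1 / P.g) / P.K + 2 * τ + 2 / 2 ^ P.nb ≤ k1)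
    (he4 : (P.um : ℝ) * Real.log (P.pm + 1) / P.K + (2 + c8) + P.N * (2 / 2 ^ P.nb + 2) ≤ e4 * V) :
    RpG P F Rk x ≤ WinStm330.sm P.N (RmG P F Rk) (own P F x) m
      + k1 * max (F (own P F x) : ℝ) (WinStm330.sm P.N (fun y => F y) (own P F x) m)
      + e4 * V := by
  set z := own P F x with hz
  have hK' : (0 : ℝ) < P.K := by exact_mod_cast hK
  have hlog : 0 ≤ Real.log ((P.pm : ℝ) + 1) :=
    Real.log_nonneg (by linarith [Nat.cast_nonneg (α := ℝ) P.pm])
  have h1 := far_mean (leaf := leaf) (F := F) (X := X) (Rk := Rk) (κ := cls F x) (G := G) (z := z)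
    (m := m) (R := fun k => Rk k (cls F x) z) (A := A) (τ := τ * 2 ^ cls F x) (c8 := c8)
    (σ := fun q => 2 * ((2 : ℝ) ^ cls F (pc P z m q) / 2 ^ P.nb) + 2)
    hK hg hum hpm hdx hadm hl hwin hJ hA hm (fun q hq => inD_pc hox hm hq)
    hdvd (fun k hk q hq => by
      have := hXR q hq k hk
      linarith)
  have e0 : RpG P F Rk x = (∑ k ∈ range P.K, Rk k (cls F x) z) / P.K := rfl
  rw [← e0] at h1
  -- sums over the pieces
  have e1 : ∀ f : St → ℝ, WinStm330.sm P.N f z m = ∑ q ∈ range P.N, f (pc P z m q) :=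
    fun f => rfl
  rw [e1, e1]
  set M : ℝ := max (F z : ℝ) (∑ q ∈ range P.N, (F (pc P z m q) : ℝ)) with hM
  have hM1 : (F z : ℝ) ≤ M := le_max_left _ _
  have hM2 : ∑ q ∈ range P.N, (F (pc P z m q) : ℝ) ≤ M := le_max_right _ _
  have hFz : (0 : ℝ) ≤ F z := Nat.cast_nonneg _
  have hM0 : 0 ≤ M := hFz.trans hM1
  have hnb : (0 : ℝ) < 2 ^ P.nb := by positivity
  -- the errors of the ends
  have h2 : ∑ q ∈ range P.N, (2 * ((2 : ℝ) ^ cls F (pc P z m q) / 2 ^ P.nb) + 2)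
      ≤ 2 / 2 ^ P.nb * M + P.N * (2 / 2 ^ P.nb + 2) := by
    calc ∑ q ∈ range P.N, (2 * ((2 : ℝ) ^ cls F (pc P z m q) / 2 ^ P.nb) + 2)
        ≤ ∑ q ∈ range P.N, (2 / 2 ^ P.nb * (F (pc P z m q) : ℝ) + (2 / 2 ^ P.nb + 2)) := by
          refine sum_le_sum fun q _ => ?_
          have h3 := two_pow_cls_le (F := F) (pc P z m q)
          have h4 : 2 * ((2 : ℝ) ^ cls F (pc P z m q) / 2 ^ P.nb)
              = 2 / 2 ^ P.nb * 2 ^ cls F (pc P z m q) := by ring
          rw [h4]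
          have h5 := mul_le_mul_of_nonneg_left h3 (show (0 : ℝ) ≤ 2 / 2 ^ P.nb by positivity)
          linarith
      _ = 2 / 2 ^ P.nb * (∑ q ∈ range P.N, (F (pc P z m q) : ℝ)) + P.N * (2 / 2 ^ P.nb + 2) := by
          rw [sum_add_distrib, mul_sum, sum_const, card_range, nsmul_eq_mul]
      _ ≤ _ := by
          have := mul_le_mul_of_nonneg_left hM2 (show (0 : ℝ) ≤ 2 / 2 ^ P.nb by positivity)
          linarith
  -- the class of the pair
  have h3 : τ * 2 ^ cls F x ≤ 2 * τ * M := by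
    have h4 : (2 : ℝ) ^ cls F x ≤ F x := by
      exact_mod_cast Nat.pow_log_le_self 2 (by omega : F x ≠ 0)
    have h5 : (2 : ℝ) ^ cls F x ≤ 2 * M := by linarith
    nlinarith
  -- the regret
  have h4 : ((P.um : ℝ) * (F z + 1) * Real.log (P.pm + 1) + (1 + 1 / (P.g : ℝ)) * F z) / P.K
      ≤ ((P.um : ℝ) * Real.log (P.pm + 1) + 1 + 1 / P.g) / P.K * M
        + (P.um : ℝ) * Real.log (P.pm + 1) / P.K := by
    have e : ((P.um : ℝ) * (F z + 1) * Real.log (P.pm + 1) + (1 + 1 / (P.g : ℝ)) * F z) / P.K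
        = ((P.um : ℝ) * Real.log (P.pm + 1) + 1 + 1 / P.g) / P.K * F z
          + (P.um : ℝ) * Real.log (P.pm + 1) / P.K := by
      ring
    rw [e]
    have h5 : 0 ≤ ((P.um : ℝ) * Real.log (P.pm + 1) + 1 + 1 / P.g) / P.K := by positivity
    have := mul_le_mul_of_nonneg_left hM1 h5
    linarith
  have h5 := mul_le_mul_of_nonneg_right hk1 hM0
  have h6 : (((P.um : ℝ) * Real.log (P.pm + 1) + 1 + 1 / P.g) / P.K + 2 * τ + 2 / 2 ^ P.nb) * M
      = ((P.um : ℝ) * Real.log (P.pm + 1) + 1 + 1 / P.g) / P.K * M + 2 * τ * M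
        + 2 / 2 ^ P.nb * M := by ring
  rw [h6] at h5
  linarith

/-! ### the numbers of near pieces, the window structure -/

/-- numbers are at most `4 F + 4`: `X ≤ R + ..` and `R ≤ F + τ 2^κ` at the own pair -/
theorem numSt_le {ζ τ : ℝ} {i j : ℕ} (h : ArrLip195.FL P F ζ i j) (hnb : 1 ≤ P.nb) (hτ1 : τ ≤ 1)
    {y : St} (hy : ArrLip195.Blk P i j y) {k : ℕ}
    (hX : (X k (cls F y) (own P F y) : ℝ)
      ≤ Rk k (cls F y) (own P F y) + 2 * ((2 : ℝ) ^ cls F y / 2 ^ P.nb) + 2)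
    (hR : Rk k (cls F y) (own P F y) ≤ F (own P F y) + τ * 2 ^ cls F y) (κ : ℕ) :
    numSt P F κ (X k) y ≤ 4 * F y + 4 := by
  unfold numSt
  split_ifs with h0
  · omega
  · have h1 : (Alg45.dist y (rdn P (cls F y) y) : ℝ) ≤ 2 / 2 ^ P.pb * F y := ArrLip195.dist_own y
    have h2 := h.lip (own P F y) y (h.own_adm hy).1 hy
    have h3 := two_pow_cls_le (F := F) y
    have hpb : (2 : ℝ) / 2 ^ P.pb ≤ 1 / 16 := by
      have : (2 : ℝ) ^ 5 ≤ 2 ^ P.pb := pow_le_pow_right₀ (by norm_num) h.pb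
      rw [div_le_div_iff₀ (by positivity) (by norm_num)]
      linarith
    have hF0 : (0 : ℝ) ≤ F y := Nat.cast_nonneg _
    have h4 : (Alg45.dist y (rdn P (cls F y) y) : ℝ) ≤ 1 / 16 * F y :=
      h1.trans (mul_le_mul_of_nonneg_right hpb hF0)
    have h5 : Alg45.dist (own P F y) y = Alg45.dist y (rdn P (cls F y) y) := by
      unfold own; rw [AlgS125.dist_comm]
    rw [h5] at h2
    have h6 : 2 * ((2 : ℝ) ^ cls F y / 2 ^ P.nb) ≤ 2 ^ cls F y := by
      have : (2 : ℝ) ^ 1 ≤ 2 ^ P.nb := pow_le_pow_right₀ (by norm_num) hnb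
      have h7 : (2 : ℝ) ^ cls F y / 2 ^ P.nb ≤ 2 ^ cls F y / 2 ^ 1 :=
        div_le_div_of_nonneg_left (by positivity) (by positivity) this
      rw [pow_one] at h7
      linarith
    have h7 : τ * 2 ^ cls F y ≤ 2 ^ cls F y := by
      have : (0 : ℝ) < 2 ^ cls F y := by positivity
      nlinarith
    have h8 : (F (own P F y) : ℝ) ≤ 9 / 8 * (F y + 1 / 16 * F y) := by
      refine h2.trans ?_
      have z0 := h.ζ0
      have z1 := h.ζ1
      have hd : (0 : ℝ) ≤ Alg45.dist y (rdn P (cls F y) y) := Nat.cast_nonneg _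
      exact mul_le_mul (by linarith) (by linarith) (by linarith) (by norm_num)
    have h9 : ((Alg45.dist y (rdn P (cls F y) y) : ℝ) + X k (cls F y) (rdn P (cls F y) y))
        ≤ 4 * F y + 4 := by
      have h10 : (X k (cls F y) (rdn P (cls F y) y) : ℝ) = X k (cls F y) (own P F y) := rfl
      rw [h10]
      linarith
    exact_mod_cast h9

/-! ### the field `far` for a configuration -/

section cfg

open Crest.Agent.R288.Asm331 Crest.Agent.R288.Dom20

variable {C : Cfg} {Y : ℕ → ℕ × St → ℕ} {e : ℕ}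

theorem inD_of_InD {y : St} (h : InD C.P.N C.I C.P.Dm y) : inD C.P y :=
  StmA616.inD_iff.2 ⟨h.2.2.1, h.2.2.2⟩

theorem own_InD {F : St → ℕ} {y : St} (hd : gst C.P (cls F y) ∣ C.P.Dm) (h : InD C.P.N C.I C.P.Dm y) :
    InD C.P.N C.I C.P.Dm (own C.P F y) := by
  have h1 := StmA616.inD_iff.1 (ArrLip195.inD_rdn hd (inD_of_InD h))
  exact ⟨h.1, h.2.1, h1.1, h1.2⟩

/-- (A3) at an own pair -/
theorem XR_of_good (hX : C.Good Y) (he : e < C.P.E) {y : St} (hy : InD C.P.N C.I C.P.Dm y)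
    (hK0 : cls (FE C.P Y e) y ≤ C.K0) (hd : gst C.P (cls (FE C.P Y e) y) ∣ C.P.Dm)
    (ha : adm C.P (FE C.P Y e) (cls (FE C.P Y e) y) (own C.P (FE C.P Y e) y) = true) :
    XR C.P (FE C.P Y e) (Xe C.P Y e) (C.R Y e) y := by
  intro k hk
  have h1 := (Cfg.good_num hX he hk (StmA616.mem_pair hK0 (own_InD hd hy)) ha).2
  have h2 : ((cdiv (2 ^ cls (FE C.P Y e) y) (2 ^ C.P.nb) : ℕ) : ℝ)
      ≤ (2 : ℝ) ^ cls (FE C.P Y e) y / 2 ^ C.P.nb + 1 := by
    have := cdiv_le_real (a := 2 ^ cls (FE C.P Y e) y) (b := 2 ^ C.P.nb) (Nat.two_pow_pos _)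
    push_cast at this
    exact this
  show (Y (idx C.P e k) (cls (FE C.P Y e) y, own C.P (FE C.P Y e) y) : ℝ) ≤ _
  linarith

/-- the domain of a window piece -/
theorem pc_InD {κ : ℕ} {z : St} {m : ℕ → ℤ} (hz : InD C.P.N C.I C.P.Dm z) (hi : 1 ≤ z.i)
    (hm : IsSt C.P κ z m) {q : ℕ} (hq : q < C.P.N) : InD C.P.N C.I C.P.Dm (pc C.P z m q) := by
  have h1 := StmA616.inD_iff.1 (inD_pc (inD_of_InD hz) hm hq)
  exact hz.child hi hq h1.1 h1.2

/-- **the field `far`** of `WinStm330.WinIn` (`V = G x + C0`), for the history `Y`; `A k κ z` = body means;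
`τ` (jump to the body option) enters `k1`, `τu` (`R ≤ F + τu 2^κ`) only needs `τu ≤ 1` -/
theorem far_cfg (hX : C.Good Y) (he : e < C.P.E) {ζ τ τu c8 k1 e4 V : ℝ} {Gc : ℕ} {A : ℕ → ℕ → St → ℝ}
    (hFL : ∀ i j, i ≤ C.I → j < C.P.N ^ (C.I - i) → ArrLip195.FL C.P (FE C.P Y e) ζ i j)
    (hK0 : ∀ y, InD C.P.N C.I C.P.Dm y → cls (FE C.P Y e) y ≤ C.K0)
    (hJ : ∀ k < C.P.K, ∀ κ z, (κ, z) ∈ OmP C.P.N C.I C.P.Dm C.K0 →
      adm C.P (FE C.P Y e) κ z = true → C.R Y e k κ z ≤ A k κ z + τ * 2 ^ κ)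
    (hUF : ∀ k < C.P.K, ∀ κ z, (κ, z) ∈ OmP C.P.N C.I C.P.Dm C.K0 →
      adm C.P (FE C.P Y e) κ z = true → C.R Y e k κ z ≤ FE C.P Y e z + τu * 2 ^ κ)
    (hB : ∀ k < C.P.K, ∀ κ z, (κ, z) ∈ OmP C.P.N C.I C.P.Dm C.K0 → 1 ≤ z.i →
      adm C.P (FE C.P Y e) κ z = true →
      A k κ z ≤ bodyNum C.P C.leaf (FE C.P Y e) (Xe C.P Y e) k (fun _ => Xe C.P Y e k) κ z + c8)
    (hK : 0 < C.P.K) (hg : 1 ≤ C.P.g) (hpm : 0 < C.P.pm) (hr : 1 ≤ C.P.r) (hnb : 1 ≤ C.P.nb)
    (hG2 : 2 ≤ Gc) (hGg : (C.P.n + 1) * C.P.g ≤ Gc) (hGum : Gc * (4 * C.P.Creg + 1) ≤ C.P.um)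
    (hτ0 : 0 ≤ τ) (hτu : τu ≤ 1)
    (hk1 : ((C.P.um : ℝ) * Real.log (C.P.pm + 1) + 1 + 1 / C.P.g) / C.P.K + 2 * τ
      + 2 / 2 ^ C.P.nb ≤ k1)
    (he4 : (C.P.um : ℝ) * Real.log (C.P.pm + 1) / C.P.K + (2 + c8)
      + C.P.N * (2 / 2 ^ C.P.nb + 2) ≤ e4 * V)
    {x : St} (hx : InD C.P.N C.I C.P.Dm x) (hi : 1 ≤ x.i)
    (hl : C.leaf (StmA616.hat C Y e x) = none)
    (hF4 : C.P.N * 4 ≤ FE C.P Y e (StmA616.hat C Y e x))
    {m : ℕ → ℤ} (hm : IsSt C.P (cls (FE C.P Y e) x) (StmA616.hat C Y e x) m) :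
    StmA616.Rp C Y e x ≤ WinStm330.sm C.P.N (StmA616.Rm C Y e) (StmA616.hat C Y e x) m
      + k1 * max (FE C.P Y e (StmA616.hat C Y e x) : ℝ)
        (WinStm330.sm C.P.N (fun y => FE C.P Y e y) (StmA616.hat C Y e x) m)
      + e4 * V := by
  set F := FE C.P Y e with hF
  have hblk : ∀ {y : St}, InD C.P.N C.I C.P.Dm y → ArrLip195.Blk C.P y.i y.j y :=
    fun h => ⟨rfl, rfl, inD_of_InD h⟩
  have hFLy : ∀ {y : St}, InD C.P.N C.I C.P.Dm y → ArrLip195.FL C.P F ζ y.i y.j :=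
    fun h => hFL _ _ h.1 h.2.1
  have hdvd : ∀ {y : St}, InD C.P.N C.I C.P.Dm y → gst C.P (cls F y) ∣ C.P.Dm :=
    fun h => (hFLy h).dvd _ (hblk h)
  have hadm : ∀ {y : St}, InD C.P.N C.I C.P.Dm y → adm C.P F (cls F y) (own C.P F y) = true :=
    fun h => ((hFLy h).own_adm (hblk h)).2
  have hxr : ∀ {y : St}, InD C.P.N C.I C.P.Dm y → XR C.P F (Xe C.P Y e) (C.R Y e) y :=
    fun h => XR_of_good hX he h (hK0 _ h) (hdvd h) (hadm h)
  have hox : InD C.P.N C.I C.P.Dm (own C.P F x) := own_InD (hdvd hx) hx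
  have hoi : 1 ≤ (own C.P F x).i := hi
  have hmem : ∀ {y : St}, InD C.P.N C.I C.P.Dm y → (cls F y, own C.P F y) ∈
      OmP C.P.N C.I C.P.Dm C.K0 := fun h => StmA616.mem_pair (hK0 _ h) (own_InD (hdvd h) h)
  -- sizes
  have hz0 := (hFLy hx).ζ0
  have hz1 := (hFLy hx).ζ1
  have hpb := (hFLy hx).pb
  have hN1 : 1 ≤ C.P.N := Nat.one_le_two_pow
  have hFz1 : 1 ≤ F (own C.P F x) := le_trans (by omega) hF4
  have hd1 : (Alg45.dist x (own C.P F x) : ℝ) ≤ 2 / 2 ^ C.P.pb * F x := ArrLip195.dist_own x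
  have hpb' : (2 : ℝ) / 2 ^ C.P.pb ≤ 1 / 16 := by
    have : (2 : ℝ) ^ 5 ≤ 2 ^ C.P.pb := pow_le_pow_right₀ (by norm_num) hpb
    rw [div_le_div_iff₀ (by positivity) (by norm_num)]
    linarith
  have hFx0 : (0 : ℝ) ≤ F x := Nat.cast_nonneg _
  have hd2 : (Alg45.dist x (own C.P F x) : ℝ) ≤ 1 / 16 * F x :=
    hd1.trans (mul_le_mul_of_nonneg_right hpb' hFx0)
  have hbx := hblk hx
  have hbo : ArrLip195.Blk C.P x.i x.j (own C.P F x) := ⟨rfl, rfl, inD_of_InD hox⟩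
  have hl1 := (hFLy hx).lip x (own C.P F x) hbx hbo
  have hl2 := (hFLy hx).lip (own C.P F x) x hbo hbx
  rw [AlgS125.dist_comm] at hl2
  have hF2 : (F x : ℝ) ≤ 2 * F (own C.P F x) := by
    have hFo : (0 : ℝ) ≤ F (own C.P F x) := Nat.cast_nonneg _
    have hd0 : (0 : ℝ) ≤ Alg45.dist x (own C.P F x) := Nat.cast_nonneg _
    have h1 : (1 + ζ) * ((F (own C.P F x) : ℝ) + Alg45.dist x (own C.P F x))
        ≤ 9 / 8 * (F (own C.P F x) + 1 / 16 * F x) :=
      mul_le_mul (by linarith) (by linarith) (by linarith) (by norm_num)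
    linarith
  have hF1 : 1 ≤ F x := by
    rcases Nat.eq_zero_or_pos (F x) with h | h
    · exfalso
      rw [h] at hl2 hd1
      have h1 : (1 : ℝ) ≤ F (own C.P F x) := by exact_mod_cast hFz1
      have hd0 : (0 : ℝ) ≤ Alg45.dist x (own C.P F x) := Nat.cast_nonneg _
      simp only [Nat.cast_zero, mul_zero] at hd1 hl2
      have h3 : (Alg45.dist x (own C.P F x) : ℝ) = 0 := le_antisymm hd1 hd0
      rw [h3] at hl2
      simp at hl2
      linarith
    · exact h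
  have hum : 0 < C.P.um := by
    have : 1 ≤ Gc * (4 * C.P.Creg + 1) := Nat.mul_pos (by omega) (by omega)
    omega
  refine far_field (leaf := C.leaf) (F := F) (X := Xe C.P Y e) (Rk := C.R Y e) (G := Gc)
    (A := fun k => A k (cls F x) (own C.P F x)) hK hg hum hpm hτ0 (hdvd hx)
    (fun q hq => hdvd (pc_InD hox hoi hm hq))
    (inD_of_InD hox) (hadm hx) hl ?_ (fun k hk => hJ k hk _ _ (hmem hx) (hadm hx))
    (fun k hk => hB k hk _ _ (hmem hx) hoi (hadm hx)) hm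
    (fun q hq => hxr (pc_InD hox hoi hm hq)) hF1 hF2 hk1 he4
  -- the window structure at a regular state
  intro _ hreg
  have hnp : ∀ q < C.P.N, ∀ a b, InD C.P.N C.I C.P.Dm
      (npiece C.P F (cls F x) (own C.P F x) q a b) := by
    intro q hq a b
    have h1 := StmA616.inD_iff.1
      (inD_npiece (P := C.P) (F := F) (κ := cls F x) hr (inD_of_InD hox) q a b)
    exact hox.child hoi hq h1.1 h1.2
  have hnum : ∀ k < C.P.K, ∀ q < C.P.N, ∀ a < nlet C.P F (cls F x) (own C.P F x),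
      ∀ b < nlet C.P F (cls F x) (own C.P F x),
      numSt C.P F (cls F x) (Xe C.P Y e k) (npiece C.P F (cls F x) (own C.P F x) q a b)
        ≤ 4 * F (npiece C.P F (cls F x) (own C.P F x) q a b) + 4 := by
    intro k hk q hq a _ b _
    have h1 := hnp q hq a b
    exact numSt_le (Rk := C.R Y e) (hFLy h1) hnb hτu (hblk h1) (hxr h1 k hk)
      (hUF k hk _ _ (hmem h1) (hadm h1)) (cls F x)
  refine natWin_modal hg hG2 hGg ?_ hpm ?_ ?_
  · calc Gc = Gc * 1 := (mul_one _).symm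
      _ ≤ Gc * (4 * C.P.Creg + 1) := Nat.mul_le_mul_left _ (by omega)
      _ ≤ C.P.um := hGum
  · intro k _ q hq a _ b _
    have h1 := hnp q hq a b
    exact hull_le_numSt (hdvd h1) (inD_of_InD h1)
  · intro k hk
    calc Gc * cal C.P F (Xe C.P Y e) (cls F x) (own C.P F x) k
        ≤ Gc * (4 * (C.P.Creg * F (own C.P F x)) + C.P.N * 4) :=
          Nat.mul_le_mul_left _ (cal_le_reg hreg (hnum k hk))
      _ ≤ Gc * (4 * (C.P.Creg * F (own C.P F x)) + F (own C.P F x)) :=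
          Nat.mul_le_mul_left _ (Nat.add_le_add_left hF4 _)
      _ = Gc * (4 * C.P.Creg + 1) * F (own C.P F x) := by ring
      _ ≤ C.P.um * (F (own C.P F x) + 1) := Nat.mul_le_mul hGum (Nat.le_succ _)

end cfg

end Crest.Agent.R288.WinFar974
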