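import Crest.Agent.R288.TreeA_330
import Crest.Agent.R288.ProdG_504

/-!
# R288: the greedy flag of a whole window, product weights (posts 4257, 4259, 4264, 4284)

One window = `n` decision levels of a `TreeA330.Game` (weights `om ≥ 0`, any sum). `g k` = end
values of rank `k` (arbitrary), `Hv k` = value of the player of rank `k` in the window, `V k` = any
function which is below the end values and below `Q V` at the comparator's letters (the exact
optimum), `cv k` = cost of the comparator in the window with the end values `g k`.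

* `window`: if at every comparator state the small loss inequality
  `∑ Hv k (h+1) s ≤ (1+κ) ∑ Q(Hv k) s z* - κ ∑ V k (h+1) s + reg h s` holds, then
  `∑ Hv - ∑ V ≤ (1+κ)^n (∑ cv - ∑ V + acc reg)`.
* `window_flag`: with a flag of probability `q` for the exact optimum, `(1-q)(1+κ)^n ≤ 1`:
  `∑ ((1-q) Hv + q V) ≤ ∑ cv + acc reg`.
* `step_prod`: the small loss inequality for the product weights of `ProdG504` at one state.
* `window_prod`: the two together: regret `log (1/π z*)/γ` per comparator state, leading constant 1.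
-/

set_option autoImplicit false

namespace Crest.Agent.R288.WinL794

open Finset Crest.Agent.R288.TreeA330

variable {S A J : Type*} [Fintype J]

/-- cost of the comparator in the window with end values `g` -/
def cv (G : Game S A J) (zs : ℕ → S → A) (g : S → ℝ) : ℕ → S → ℝ
  | 0, s => g s
  | h + 1, s => Q G h (cv G zs g h) s (zs h s)

theorem Q_mono (G : Game S A J) (hom : ∀ h s a j, 0 ≤ G.om h s a j) {h : ℕ} {V W : S → ℝ} {s : S}
    {a : A} (hVW : ∀ j, V (G.nx h s a j) ≤ W (G.nx h s a j)) : Q G h V s a ≤ Q G h W s a := by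
  unfold Q
  gcongr with j _
  · exact hom _ _ _ _
  · exact hVW j

/-- sums of `Q` over the ranks -/
theorem sum_Q {ι : Type*} (G : Game S A J) (T : Finset ι) (h : ℕ) (W : ι → S → ℝ) (s : S) (a : A) :
    ∑ k ∈ T, Q G h (W k) s a
      = T.card * G.c h s a + ∑ j, G.om h s a j * ∑ k ∈ T, W k (G.nx h s a j) := by
  unfold Q
  rw [sum_add_distrib, sum_const, nsmul_eq_mul, sum_comm]
  congr 1
  exact sum_congr rfl fun j _ => by rw [mul_sum]

section window

variable {ι : Type*} (G : Game S A J) (zs : ℕ → S → A) (T : Finset ι) (g : ι → S → ℝ)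
  (V Hv : ι → ℕ → S → ℝ) (reg : ℕ → S → ℝ) (On : ℕ → S → Prop) (κ : ℝ) (n : ℕ)

/-- the optimum is below the comparator -/
theorem le_cv (hom : ∀ h s a j, 0 ≤ G.om h s a j)
    (hOn : ∀ h s, On (h + 1) s → ∀ j, On h (G.nx h s (zs h s) j))
    (hV0 : ∀ k ∈ T, ∀ s, On 0 s → V k 0 s ≤ g k s)
    (hV : ∀ k ∈ T, ∀ h < n, ∀ s, On (h + 1) s → V k (h + 1) s ≤ Q G h (V k h) s (zs h s)) :
    ∀ h ≤ n, ∀ s, On h s → ∀ k ∈ T, V k h s ≤ cv G zs (g k) h s := by
  intro h
  induction h with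
  | zero => intro _ s hs k hk; exact hV0 k hk s hs
  | succ h ih =>
    intro hn s hs k hk
    refine (hV k hk h hn s hs).trans ?_
    exact Q_mono G hom fun j => ih (by omega) _ (hOn h s hs j) k hk

/-- **window lemma** -/
theorem window (hom : ∀ h s a j, 0 ≤ G.om h s a j) (hκ : 0 ≤ κ)
    (hOn : ∀ h s, On (h + 1) s → ∀ j, On h (G.nx h s (zs h s) j))
    (hV : ∀ k ∈ T, ∀ h < n, ∀ s, On (h + 1) s → V k (h + 1) s ≤ Q G h (V k h) s (zs h s))
    (hH0 : ∀ k ∈ T, ∀ s, On 0 s → Hv k 0 s ≤ g k s)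
    (hstep : ∀ h < n, ∀ s, On (h + 1) s →
      ∑ k ∈ T, Hv k (h + 1) s ≤ (1 + κ) * ∑ k ∈ T, Q G h (Hv k h) s (zs h s)
        - κ * ∑ k ∈ T, V k (h + 1) s + reg h s)
    (hreg : ∀ h < n, ∀ s, On (h + 1) s → 0 ≤ reg h s) :
    ∀ h ≤ n, ∀ s, On h s → ∑ k ∈ T, Hv k h s - ∑ k ∈ T, V k h s
      ≤ (1 + κ) ^ h * (∑ k ∈ T, cv G zs (g k) h s - ∑ k ∈ T, V k h s + acc G zs h reg s) := by
  intro h
  induction h with
  | zero =>
    intro _ s hs
    simp only [pow_zero, one_mul, acc_zero, add_zero]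
    have : ∑ k ∈ T, Hv k 0 s ≤ ∑ k ∈ T, cv G zs (g k) 0 s :=
      sum_le_sum fun k hk => hH0 k hk s hs
    linarith
  | succ h ih =>
    intro hn s hs
    have h1 := hstep h hn s hs
    have hP : (1 : ℝ) ≤ (1 + κ) ^ h := one_le_pow₀ (by linarith)
    set z := zs h s with hz
    set P := (1 + κ) ^ h with hPd
    -- the three sums over the successors
    have e1 := sum_Q G T h (fun k => Hv k h) s z
    have e2 := sum_Q G T h (fun k => V k h) s z
    have e3 : ∑ k ∈ T, cv G zs (g k) (h + 1) s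
        = T.card * G.c h s z + ∑ j, G.om h s z j * ∑ k ∈ T, cv G zs (g k) h (G.nx h s z j) :=
      sum_Q G T h (fun k => cv G zs (g k) h) s z
    have e4 : acc G zs (h + 1) reg s
        = reg h s + ∑ j, G.om h s z j * acc G zs h reg (G.nx h s z j) := rfl
    have hD : ∑ k ∈ T, V k (h + 1) s ≤ ∑ k ∈ T, Q G h (V k h) s z :=
      sum_le_sum fun k hk => hV k hk h hn s hs
    have hj : ∀ j, G.om h s z j * ∑ k ∈ T, Hv k h (G.nx h s z j)
        ≤ G.om h s z j * (∑ k ∈ T, V k h (G.nx h s z j)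
          + P * (∑ k ∈ T, cv G zs (g k) h (G.nx h s z j) - ∑ k ∈ T, V k h (G.nx h s z j)
            + acc G zs h reg (G.nx h s z j))) := fun j => by
      refine mul_le_mul_of_nonneg_left ?_ (hom _ _ _ _)
      have := ih (by omega) _ (hOn h s hs j)
      linarith
    have hjs := sum_le_sum (s := (univ : Finset J)) fun j _ => hj j
    have e5 : ∑ j, G.om h s z j * (∑ k ∈ T, V k h (G.nx h s z j)
          + P * (∑ k ∈ T, cv G zs (g k) h (G.nx h s z j) - ∑ k ∈ T, V k h (G.nx h s z j)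
            + acc G zs h reg (G.nx h s z j)))
        = ∑ j, G.om h s z j * ∑ k ∈ T, V k h (G.nx h s z j)
          + P * (∑ j, G.om h s z j * ∑ k ∈ T, cv G zs (g k) h (G.nx h s z j)
            - ∑ j, G.om h s z j * ∑ k ∈ T, V k h (G.nx h s z j)
            + ∑ j, G.om h s z j * acc G zs h reg (G.nx h s z j)) := by
      rw [mul_add P, mul_sub P, mul_sum, mul_sum, mul_sum, ← sum_sub_distrib, ← sum_add_distrib,
        ← sum_add_distrib]
      exact sum_congr rfl fun j _ => by ring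
    rw [e5] at hjs
    rw [e1] at h1
    rw [e2] at hD
    rw [e3, e4, pow_succ]
    have hr := hreg h hn s hs
    set SH := ∑ j, G.om h s z j * ∑ k ∈ T, Hv k h (G.nx h s z j)
    set SV := ∑ j, G.om h s z j * ∑ k ∈ T, V k h (G.nx h s z j)
    set SC := ∑ j, G.om h s z j * ∑ k ∈ T, cv G zs (g k) h (G.nx h s z j)
    set SA := ∑ j, G.om h s z j * acc G zs h reg (G.nx h s z j)
    set c := (T.card : ℝ) * G.c h s z
    set v := ∑ k ∈ T, V k (h + 1) s
    have h2 : c + SH - v ≤ P * (c + SC - v + SA) := by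
      have : c + SV - v ≤ P * (c + SV - v) := le_mul_of_one_le_left (by linarith) hP
      nlinarith
    have h3 : (1 + κ) * (c + SH - v) ≤ (1 + κ) * (P * (c + SC - v + SA)) :=
      mul_le_mul_of_nonneg_left h2 (by linarith)
    have h4 : reg h s ≤ P * (1 + κ) * reg h s :=
      le_mul_of_one_le_left hr (by nlinarith)
    rw [← hPd]
    nlinarith

/-- **window lemma with the flag of the window**: probability `q` for the exact optimum -/
theorem window_flag (hom : ∀ h s a j, 0 ≤ G.om h s a j) (hκ : 0 ≤ κ)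
    {q : ℝ} (hq : q ≤ 1) (hqκ : (1 - q) * (1 + κ) ^ n ≤ 1)
    (hOn : ∀ h s, On (h + 1) s → ∀ j, On h (G.nx h s (zs h s) j))
    (hV0 : ∀ k ∈ T, ∀ s, On 0 s → V k 0 s ≤ g k s)
    (hV : ∀ k ∈ T, ∀ h < n, ∀ s, On (h + 1) s → V k (h + 1) s ≤ Q G h (V k h) s (zs h s))
    (hH0 : ∀ k ∈ T, ∀ s, On 0 s → Hv k 0 s ≤ g k s)
    (hstep : ∀ h < n, ∀ s, On (h + 1) s →
      ∑ k ∈ T, Hv k (h + 1) s ≤ (1 + κ) * ∑ k ∈ T, Q G h (Hv k h) s (zs h s)
        - κ * ∑ k ∈ T, V k (h + 1) s + reg h s)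
    (hreg : ∀ h < n, ∀ s, On (h + 1) s → 0 ≤ reg h s) {s : S} (hs : On n s) :
    ∑ k ∈ T, ((1 - q) * Hv k n s + q * V k n s)
      ≤ ∑ k ∈ T, cv G zs (g k) n s + acc G zs n reg s := by
  have h1 := window G zs T g V Hv reg On κ n hom hκ hOn hV hH0 hstep hreg n le_rfl s hs
  have h2 : ∑ k ∈ T, V k n s ≤ ∑ k ∈ T, cv G zs (g k) n s :=
    sum_le_sum fun k hk => le_cv G zs T g V On n hom hOn hV0 hV n le_rfl s hs k hk
  have h3 : 0 ≤ acc G zs n reg s := by
    clear h1 h2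
    have : ∀ h ≤ n, ∀ s, On h s → 0 ≤ acc G zs h reg s := by
      intro h
      induction h with
      | zero => intro _ s _; simp
      | succ h ih =>
        intro hn s hs
        rw [acc_succ]
        exact add_nonneg (hreg h hn s hs)
          (sum_nonneg fun j _ => mul_nonneg (hom _ _ _ _) (ih (by omega) _ (hOn h s hs j)))
    exact this n le_rfl s hs
  rw [sum_add_distrib, ← mul_sum, ← mul_sum]
  set X := ∑ k ∈ T, Hv k n s
  set v := ∑ k ∈ T, V k n s
  set c := ∑ k ∈ T, cv G zs (g k) n s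
  set a := acc G zs n reg s
  have h4 : (1 - q) * (X - v) ≤ (1 - q) * ((1 + κ) ^ n * (c - v + a)) :=
    mul_le_mul_of_nonneg_left h1 (by linarith)
  have h5 : (1 - q) * ((1 + κ) ^ n * (c - v + a)) ≤ c - v + a := by
    rw [← mul_assoc]
    exact mul_le_of_le_one_left (by linarith) hqκ
  linarith

end window

/-- the product weights at one state: small loss inequality in the form used by `window` -/
theorem step_prod {S0 : Finset A} {π : A → ℝ} {γ o κ : ℝ} {K : ℕ} {u : ℕ → A → ℝ} {m v : ℕ → ℝ}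
    (hπ : ∀ z ∈ S0, 0 ≤ π z) (h1 : ∑ z ∈ S0, π z = 1) (hγ : 0 < γ) (ho : γ * o ≤ 1 / 2)
    (hκ : γ * o ≤ κ)
    (hx : ∀ k < K, ∀ z ∈ S0, m k ≤ u k z ∧ u k z ≤ m k + o) (hv : ∀ k < K, v k ≤ m k)
    {z : A} (hz : z ∈ S0) (hp : 0 < π z) :
    ∑ k ∈ range K, ∑ y ∈ S0, ProdG504.ker S0 π γ (fun i a => u i a - m i) k y * u k y
      ≤ (1 + κ) * ∑ k ∈ range K, u k z - κ * ∑ k ∈ range K, v k + Real.log (1 / π z) / γ := by
  have hx' : ∀ k < K, ∀ z ∈ S0, 0 ≤ (fun i a => u i a - m i) k z ∧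
      (fun i a => u i a - m i) k z ≤ o := fun k hk z hz => by
    have := hx k hk z hz
    exact ⟨by simp only; linarith [this.1], by simp only; linarith [this.2]⟩
  have h := ProdG504.small_loss hπ h1 hγ ho hx' hz hp
  have e1 : ∑ k ∈ range K, ∑ y ∈ S0, ProdG504.ker S0 π γ (fun i a => u i a - m i) k y * u k y
      = ∑ k ∈ range K, ∑ y ∈ S0, ProdG504.ker S0 π γ (fun i a => u i a - m i) k y
          * (u k y - m k) + ∑ k ∈ range K, m k := by
    rw [← sum_add_distrib]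
    refine sum_congr rfl fun k hk => ?_
    have hs := ProdG504.ker_sum hπ h1 hγ.le ho hx' (k := k) (mem_range.mp hk).le
    calc ∑ y ∈ S0, ProdG504.ker S0 π γ (fun i a => u i a - m i) k y * u k y
        = ∑ y ∈ S0, (ProdG504.ker S0 π γ (fun i a => u i a - m i) k y * (u k y - m k)
          + ProdG504.ker S0 π γ (fun i a => u i a - m i) k y * m k) :=
          sum_congr rfl fun y _ => by ring
      _ = _ := by rw [sum_add_distrib, ← sum_mul, hs, one_mul]
  rw [e1]
  have e2 : ∑ k ∈ range K, (u k z - m k) = ∑ k ∈ range K, u k z - ∑ k ∈ range K, m k :=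
    sum_sub_distrib _ _
  rw [e2] at h
  have h3 : ∑ k ∈ range K, v k ≤ ∑ k ∈ range K, m k :=
    sum_le_sum fun k hk => hv k (mem_range.mp hk)
  have h4 : 0 ≤ ∑ k ∈ range K, u k z - ∑ k ∈ range K, m k := by
    rw [← e2]
    exact sum_nonneg fun k hk => (hx' k (mem_range.mp hk) z hz).1
  have h5 : (1 + γ * o) * (∑ k ∈ range K, u k z - ∑ k ∈ range K, m k)
      ≤ (1 + κ) * (∑ k ∈ range K, u k z - ∑ k ∈ range K, m k) :=
    mul_le_mul_of_nonneg_right (by linarith) h4
  have h6 : 0 ≤ κ * (∑ k ∈ range K, m k - ∑ k ∈ range K, v k) := by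
    by_cases hK : K = 0
    · subst hK; simp
    have ho' : 0 ≤ o := by
      have := hx 0 (Nat.pos_of_ne_zero hK) z hz
      linarith [this.1, this.2]
    exact mul_nonneg ((mul_nonneg hγ.le ho').trans hκ) (by linarith)
  linarith

/-- **WINDOW-(B) with product weights.** `Hv k` plays the product weights with letter sets `L h s`,
prior `pi h s`, rate `ga h s`, reference numbers `m k h s` (`V ≤ m ≤` all letters `≤ m + o`) at the
comparator's states. -/
theorem window_prod (G : Game S A J) (zs : ℕ → S → A) (K : ℕ) (g : ℕ → S → ℝ)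
    (V Hv : ℕ → ℕ → S → ℝ) (On : ℕ → S → Prop) (κ : ℝ) (n : ℕ)
    (hom : ∀ h s a j, 0 ≤ G.om h s a j) (hκ : 0 ≤ κ) (hκ2 : κ ≤ 1 / 2)
    {q : ℝ} (hq : q ≤ 1) (hqκ : (1 - q) * (1 + κ) ^ n ≤ 1)
    (hOn : ∀ h s, On (h + 1) s → ∀ j, On h (G.nx h s (zs h s) j))
    (hV0 : ∀ k < K, ∀ s, On 0 s → V k 0 s ≤ g k s)
    (hV : ∀ k < K, ∀ h < n, ∀ s, On (h + 1) s → V k (h + 1) s ≤ Q G h (V k h) s (zs h s))
    (hH0 : ∀ k < K, ∀ s, On 0 s → Hv k 0 s ≤ g k s)
    (L : ℕ → S → Finset A) (pi : ℕ → S → A → ℝ) (ga o : ℕ → S → ℝ) (m : ℕ → ℕ → S → ℝ)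
    (hLz : ∀ h < n, ∀ s, On (h + 1) s → zs h s ∈ L h s)
    (hpi : ∀ h < n, ∀ s, On (h + 1) s → ∀ a ∈ L h s, 0 ≤ pi h s a)
    (hpi1 : ∀ h < n, ∀ s, On (h + 1) s → ∑ a ∈ L h s, pi h s a = 1)
    (hpz : ∀ h < n, ∀ s, On (h + 1) s → 0 < pi h s (zs h s))
    (hga : ∀ h < n, ∀ s, On (h + 1) s → 0 < ga h s)
    (hgo : ∀ h < n, ∀ s, On (h + 1) s → ga h s * o h s ≤ κ)
    (hm : ∀ k < K, ∀ h < n, ∀ s, On (h + 1) s → ∀ a ∈ L h s,
      m k h s ≤ Q G h (Hv k h) s a ∧ Q G h (Hv k h) s a ≤ m k h s + o h s)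
    (hVm : ∀ k < K, ∀ h < n, ∀ s, On (h + 1) s → V k (h + 1) s ≤ m k h s)
    (hHv : ∀ k < K, ∀ h < n, ∀ s, On (h + 1) s → Hv k (h + 1) s
      ≤ ∑ a ∈ L h s, ProdG504.ker (L h s) (pi h s) (ga h s)
          (fun i a => Q G h (Hv i h) s a - m i h s) k a * Q G h (Hv k h) s a)
    {s : S} (hs : On n s) :
    ∑ k ∈ range K, ((1 - q) * Hv k n s + q * V k n s)
      ≤ ∑ k ∈ range K, cv G zs (g k) n s
        + acc G zs n (fun h s => Real.log (1 / pi h s (zs h s)) / ga h s) s := by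
  refine window_flag G zs (range K) g V Hv _ On κ n hom hκ hq hqκ hOn
    (fun k hk => hV0 k (mem_range.mp hk)) (fun k hk => hV k (mem_range.mp hk))
    (fun k hk => hH0 k (mem_range.mp hk)) ?_ ?_ hs
  · intro h hh s hs
    refine (sum_le_sum fun k hk => hHv k (mem_range.mp hk) h hh s hs).trans ?_
    exact step_prod (u := fun k a => Q G h (Hv k h) s a) (m := fun k => m k h s)
      (v := fun k => V k (h + 1) s) (hpi h hh s hs) (hpi1 h hh s hs) (hga h hh s hs)
      ((hgo h hh s hs).trans hκ2) (hgo h hh s hs) (fun k hk => hm k hk h hh s hs)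
      (fun k hk => hVm k hk h hh s hs) (hLz h hh s hs) (hpz h hh s hs)
  · intro h hh s hs
    refine div_nonneg (Real.log_nonneg ?_) (hga h hh s hs).le
    rw [le_div_iff₀ (hpz h hh s hs), one_mul, ← hpi1 h hh s hs]
    exact single_le_sum (f := fun a => pi h s a) (hpi h hh s hs) (hLz h hh s hs)

/-- a sufficient condition for `(1-q)(1+κ)^n ≤ 1`: `n κ ≤ q` -/
theorem cond {q κ : ℝ} {n : ℕ} (hκ : 0 ≤ κ) (h : n * κ ≤ q) :
    (1 - q) * (1 + κ) ^ n ≤ 1 := by
  have h1 : (1 + κ) ^ n ≤ Real.exp (n * κ) := by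
    rw [Real.exp_nat_mul]
    exact pow_le_pow_left₀ (by linarith) (by linarith [Real.add_one_le_exp κ]) n
  have h2 : 1 - q ≤ Real.exp (-q) := by linarith [Real.add_one_le_exp (-q)]
  calc (1 - q) * (1 + κ) ^ n ≤ Real.exp (-q) * Real.exp (n * κ) :=
        mul_le_mul h2 h1 (by positivity) (Real.exp_pos _).le
    _ = Real.exp (n * κ - q) := by rw [← Real.exp_add]; congr 1; ring
    _ ≤ 1 := by rw [Real.exp_le_one_iff]; linarith

end Crest.Agent.R288.WinL794
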