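import Crest.Agent.R288.WinB_892
import Crest.Agent.R288.HedLin_283

/-!
# R288: WINDOW-(B) with LINEAR weights (helper283; posts 4257, 4259, 4284)

`window_lin`: one window of `N` decision levels, ranks `k < K`.  Everything is PATHWISE: `H k 0` =
arbitrary end tables (the sampled tables), `H k (h+1) s` = mean of `Q G h (H k h) s` under the
weights `W k h s`, and the weights are updated by
`W (k+1) z ≤ W k z * (1 - th * e k z)` (all `z`; equality up to a factor `1 - r` for the comparator),
`e` = excess over a lower bound `m` of the values, in the unit `U`, possibly clipped: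
`U * e ≤ u - m`, and `mean u ≤ m + U * mean e + η` (`η = 0` when nothing is clipped).
`V k h s` = value of the flagged window (`V ≤ m + er`, `V ≤ Q (V) z* + er`).
`window_lin_exact`: no rounding, no clipping, `V` = any function below all letters.
-/

set_option autoImplicit false

namespace Crest.Agent.R288.WinLin283

open Finset Crest.Agent.R288.TreeA330 Crest.Agent.R288.CmpT184 Crest.Agent.R288.WinB892
open Crest.Agent.R288.HedLin283

variable {S A J : Type*} [Fintype A] [Fintype J] (G : Game S A J) (zs : ℕ → S → A)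

/-- the regret term of one state -/
noncomputable def rg (g' th U lg : ℝ) : ℝ := (1 - 1 / g') * U * lg / th

/-- **WINDOW-(B), linear weights, rounding and clipping allowed.** -/
theorem window_lin (hom : ∀ h s a j, 0 ≤ G.om h s a j) {P : ℕ → S → Prop} (hP : Cl G zs P)
    (K N : ℕ) (hN : 0 < N) {g : ℝ} (hg : 1 ≤ g) (hg' : 1 < g * N) (H V : ℕ → ℕ → S → ℝ)
    (W e : ℕ → ℕ → S → A → ℝ) (m r er η : ℕ → ℕ → S → ℝ) (th U : ℕ → S → ℝ)
    (hth : ∀ h < N, ∀ s, P (h + 1) s → 0 < th h s) (hU : ∀ h < N, ∀ s, P (h + 1) s → 0 < U h s)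
    (hW : ∀ k ≤ K, ∀ h < N, ∀ s, P (h + 1) s → ∀ a, 0 ≤ W k h s a)
    (hW0 : ∀ h < N, ∀ s, P (h + 1) s → 0 < W 0 h s (zs h s))
    (he0 : ∀ k < K, ∀ h < N, ∀ s, P (h + 1) s → ∀ a, 0 ≤ e k h s a)
    (he1 : ∀ k < K, ∀ h < N, ∀ s, P (h + 1) s → th h s * e k h s (zs h s) ≤ 1 / (g * N))
    (heu : ∀ k < K, ∀ h < N, ∀ s, P (h + 1) s → ∀ a, (W k h s a ≠ 0 ∨ a = zs h s) →
      U h s * e k h s a ≤ Q G h (H k h) s a - m k h s)
    (hclip : ∀ k < K, ∀ h < N, ∀ s, P (h + 1) s →
      av (W k h s) (Q G h (H k h) s) ≤ m k h s + U h s * av (W k h s) (e k h s) + η k h s)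
    (hη : ∀ k < K, ∀ h < N, ∀ s, P (h + 1) s → 0 ≤ η k h s)
    (hr0 : ∀ k < K, ∀ h < N, ∀ s, P (h + 1) s → 0 ≤ r k h s)
    (hr1 : ∀ k < K, ∀ h < N, ∀ s, P (h + 1) s → r k h s < 1)
    (hup : ∀ k < K, ∀ h < N, ∀ s, P (h + 1) s → ∀ a,
      W (k + 1) h s a ≤ W k h s a * (1 - th h s * e k h s a))
    (hlo : ∀ k < K, ∀ h < N, ∀ s, P (h + 1) s →
      W k h s (zs h s) * (1 - th h s * e k h s (zs h s)) * (1 - r k h s) ≤ W (k + 1) h s (zs h s))
    (hH : ∀ k < K, ∀ h < N, ∀ s, P (h + 1) s →
      H k (h + 1) s = av (W k h s) (Q G h (H k h) s))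
    (her : ∀ k < K, ∀ h < N, ∀ s, P (h + 1) s → 0 ≤ er k h s)
    (hV1 : ∀ k < K, ∀ h < N, ∀ s, P (h + 1) s → V k (h + 1) s ≤ m k h s + er k h s)
    (hV2 : ∀ k < K, ∀ h < N, ∀ s, P (h + 1) s →
      V k (h + 1) s ≤ Q G h (V k h) s (zs h s) + er k h s)
    (x : S) (hx : P N x) :
    ∑ k ∈ range K, ((1 - 1 / g) * H k N x + 1 / g * V k N x)
      ≤ ∑ k ∈ range K, cmp (withF G (H k 0)) zs N x
        + acc G zs N (fun h s => rg (g * N) (th h s) (U h s)
            (Real.log ((∑ a, W 0 h s a) / W 0 h s (zs h s))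
              - ∑ k ∈ range K, Real.log (1 - r k h s))) x
        + ∑ k ∈ range K, acc G zs N (η k) x + (∑ k ∈ range K, acc G zs N (er k) x) / g := by
  have hN0 : (0 : ℝ) < N := by exact_mod_cast hN
  have hg0 : 0 < g := by linarith
  have hgN : 0 < g * N := mul_pos hg0 hN0
  have h1g : 0 ≤ 1 - 1 / (g * N) := by
    rw [sub_nonneg, div_le_one hgN]; exact hg'.le
  -- positivity of the comparator's weight
  have hpos : ∀ h < N, ∀ s, P (h + 1) s → ∀ k ≤ K, 0 < W k h s (zs h s) := by
    intro h hh s hs k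
    induction k with
    | zero => intro _; exact hW0 h hh s hs
    | succ k ih =>
      intro hk
      have h1 := ih (by omega)
      have h2 : 0 < 1 - th h s * e k h s (zs h s) := by
        have := he1 k (by omega) h hh s hs
        have h3 : 1 / (g * N) < 1 := by rw [div_lt_one hgN]; exact hg'
        linarith
      have h3 : 0 < 1 - r k h s := by linarith [hr1 k (by omega) h hh s hs]
      exact lt_of_lt_of_le (mul_pos (mul_pos h1 h2) h3) (hlo k (by omega) h hh s hs)
  have hS : ∀ h < N, ∀ s, P (h + 1) s → ∀ k ≤ K, 0 < ∑ a, W k h s a := fun h hh s hs k hk =>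
    lt_of_lt_of_le (hpos h hh s hs k hk)
      (single_le_sum (f := fun a => W k h s a) (fun a _ => hW k hk h hh s hs a) (mem_univ (zs h s)))
  have hae0 : ∀ k < K, ∀ h < N, ∀ s, P (h + 1) s → 0 ≤ av (W k h s) (e k h s) :=
    fun k hk h hh s hs => av_nonneg (hW k hk.le h hh s hs) (he0 k hk h hh s hs)
  -- `m + U * mean e ≤ mean u`
  have hcred : ∀ k < K, ∀ h < N, ∀ s, P (h + 1) s →
      m k h s + U h s * av (W k h s) (e k h s) ≤ av (W k h s) (Q G h (H k h) s) := by
    intro k hk h hh s hs
    have hSk := hS h hh s hs k hk.le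
    have e1 : m k h s + U h s * av (W k h s) (e k h s)
        = (∑ a, W k h s a * (U h s * e k h s a + m k h s)) / ∑ a, W k h s a := by
      have := av_affine (W k h s) (e k h s) (U h s) (m k h s) hSk.ne'
      unfold av at this
      rw [this]
      unfold av
      ring
    rw [e1]
    unfold av
    refine div_le_div_of_nonneg_right (sum_le_sum fun a _ => ?_) hSk.le
    by_cases h0 : W k h s a = 0
    · simp [h0]
    · refine mul_le_mul_of_nonneg_left ?_ (hW k hk.le h hh s hs a)
      have := heu k hk h hh s hs a (Or.inl h0)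
      linarith
  have hlg : ∀ h < N, ∀ s, P (h + 1) s → 0 ≤ Real.log ((∑ a, W 0 h s a) / W 0 h s (zs h s))
      - ∑ k ∈ range K, Real.log (1 - r k h s) := by
    intro h hh s hs
    have h1 : 0 ≤ Real.log ((∑ a, W 0 h s a) / W 0 h s (zs h s)) := by
      refine Real.log_nonneg ?_
      rw [one_le_div (hW0 h hh s hs)]
      exact single_le_sum (f := fun a => W 0 h s a) (fun a _ => hW 0 (by omega) h hh s hs a)
        (mem_univ (zs h s))
    have h2 : ∑ k ∈ range K, Real.log (1 - r k h s) ≤ 0 :=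
      Finset.sum_nonpos fun k hk => Real.log_nonpos
        (by linarith [hr1 k (mem_range.1 hk) h hh s hs])
        (by linarith [hr0 k (mem_range.1 hk) h hh s hs])
    linarith
  have hrg0 : ∀ h < N, ∀ s, P (h + 1) s → 0 ≤ rg (g * N) (th h s) (U h s)
      (Real.log ((∑ a, W 0 h s a) / W 0 h s (zs h s)) - ∑ k ∈ range K, Real.log (1 - r k h s)) :=
    fun h hh s hs => div_nonneg (mul_nonneg (mul_nonneg h1g (hU h hh s hs).le) (hlg h hh s hs))
      (hth h hh s hs).le
  have main := window_abs G zs hom hP K N hN hg H V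
    (fun k h s => U h s * av (W k h s) (e k h s)) er
    (fun h s => rg (g * N) (th h s) (U h s)
        (Real.log ((∑ a, W 0 h s a) / W 0 h s (zs h s)) - ∑ k ∈ range K, Real.log (1 - r k h s))
      + ∑ k ∈ range K, η k h s)
    (fun k hk h hh s hs => mul_nonneg (hU h hh s hs).le (hae0 k hk h hh s hs))
    her
    (fun h hh s hs => add_nonneg (hrg0 h hh s hs)
      (Finset.sum_nonneg fun k hk => hη k (mem_range.1 hk) h hh s hs))
    (fun k hk h hh s hs => by
      have h1 := hV1 k hk h hh s hs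
      have h2 := hcred k hk h hh s hs
      rw [hH k hk h hh s hs]
      linarith)
    hV2
    (fun h hh s hs => by
      have hm := HedLin283.main (K := K) (w := fun k => W k h s) (e := fun k => e k h s)
        (r := fun k => r k h s) (th := th h s) (g := g * N) (zs h s) hg' (hth h hh s hs)
        (fun k hk a => hW k hk h hh s hs a) (hW0 h hh s hs)
        (fun k hk => he0 k hk h hh s hs _) (fun k hk => he1 k hk h hh s hs)
        (fun k hk => hr1 k hk h hh s hs) (fun k hk a => hup k hk h hh s hs a)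
        (fun k hk => hlo k hk h hh s hs)
      have hU' := hU h hh s hs
      have hm' := mul_le_mul_of_nonneg_left hm hU'.le
      have hls : ∑ k ∈ range K, ls G zs (H k) h s
          ≤ U h s * ∑ k ∈ range K, av (W k h s) (e k h s)
            - U h s * ∑ k ∈ range K, e k h s (zs h s) + ∑ k ∈ range K, η k h s := by
        rw [mul_sum, mul_sum, ← sum_sub_distrib, ← sum_add_distrib]
        refine Finset.sum_le_sum fun k hk => ?_
        have hk' := mem_range.1 hk
        unfold ls
        rw [hH k hk' h hh s hs]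
        have h1 := hclip k hk' h hh s hs
        have h2 := heu k hk' h hh s hs (zs h s) (Or.inr rfl)
        linarith
      have e1 : (∑ k ∈ range K, U h s * av (W k h s) (e k h s)) / (g * N)
          = 1 / (g * N) * (U h s * ∑ k ∈ range K, av (W k h s) (e k h s)) := by
        rw [← mul_sum]; ring
      show ∑ k ∈ range K, ls G zs (H k) h s ≤ rg (g * N) (th h s) (U h s)
          (Real.log ((∑ a, W 0 h s a) / W 0 h s (zs h s)) - ∑ k ∈ range K, Real.log (1 - r k h s))
        + ∑ k ∈ range K, η k h s + (∑ k ∈ range K, U h s * av (W k h s) (e k h s)) / (g * N)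
      rw [e1]
      unfold rg
      have e2 : U h s * ((1 - 1 / (g * N)) * ∑ k ∈ range K, av (W k h s) (e k h s))
          = U h s * ∑ k ∈ range K, av (W k h s) (e k h s)
            - 1 / (g * N) * (U h s * ∑ k ∈ range K, av (W k h s) (e k h s)) := by ring
      have e3 : U h s * (∑ k ∈ range K, e k h s (zs h s) + (1 - 1 / (g * N)) *
            (Real.log ((∑ z, W 0 h s z) / W 0 h s (zs h s))
              - ∑ k ∈ range K, Real.log (1 - r k h s)) / th h s)
          = U h s * ∑ k ∈ range K, e k h s (zs h s) + (1 - 1 / (g * N)) * U h s *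
            (Real.log ((∑ z, W 0 h s z) / W 0 h s (zs h s))
              - ∑ k ∈ range K, Real.log (1 - r k h s)) / th h s := by ring
      rw [e2, e3] at hm'
      linarith)
    x hx
  refine main.trans (le_of_eq ?_)
  rw [acc_add, acc_sum]
  ring

/-- **WINDOW-(B), linear weights, exact**: weights `pi * ∏ (1 - th * e)`, `e = (u - min u)/U` on the
support of the prior `pi`; `V` = any function with `V 0 ≤ H 0` and `V (h+1) s ≤ Q (V h) s a` for the
letters `a` of the support (e.g. the exact optimum with the same end values). -/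
theorem window_lin_exact (hom : ∀ h s a j, 0 ≤ G.om h s a j) {P : ℕ → S → Prop} (hP : Cl G zs P)
    (K N : ℕ) (hN : 0 < N) {g : ℝ} (hg : 1 ≤ g) (hg' : 1 < g * N) (H V : ℕ → ℕ → S → ℝ)
    (e : ℕ → ℕ → S → A → ℝ) (m : ℕ → ℕ → S → ℝ) (th U : ℕ → S → ℝ) (pi : ℕ → S → A → ℝ)
    (hth : ∀ h < N, ∀ s, 0 < th h s) (hU : ∀ h < N, ∀ s, 0 < U h s)
    (hpi : ∀ h < N, ∀ s a, 0 ≤ pi h s a) (hpi1 : ∀ h < N, ∀ s, 0 < ∑ a, pi h s a)
    (hz : ∀ h < N, ∀ s, P (h + 1) s → 0 < pi h s (zs h s))
    (he : ∀ k < K, ∀ h < N, ∀ s a, pi h s a ≠ 0 →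
      U h s * e k h s a = Q G h (H k h) s a - m k h s)
    (he0 : ∀ k < K, ∀ h < N, ∀ s a, 0 ≤ e k h s a)
    (he1 : ∀ k < K, ∀ h < N, ∀ s a, th h s * e k h s a ≤ 1 / (g * N))
    (hm : ∀ k < K, ∀ h < N, ∀ s, ∃ a, pi h s a ≠ 0 ∧ e k h s a = 0)
    (hH : ∀ k < K, ∀ h < N, ∀ s,
      H k (h + 1) s = av (wt (pi h s) (th h s) (fun i => e i h s) k) (Q G h (H k h) s))
    (hV0 : ∀ k < K, ∀ s, V k 0 s ≤ H k 0 s)
    (hV : ∀ k < K, ∀ h < N, ∀ s a, pi h s a ≠ 0 → V k (h + 1) s ≤ Q G h (V k h) s a)
    (x : S) (hx : P N x) :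
    ∑ k ∈ range K, ((1 - 1 / g) * H k N x + 1 / g * V k N x)
      ≤ ∑ k ∈ range K, cmp (withF G (H k 0)) zs N x
        + acc G zs N (fun h s => rg (g * N) (th h s) (U h s)
            (Real.log ((∑ a, pi h s a) / pi h s (zs h s)))) x := by
  have hN0 : (0 : ℝ) < N := by exact_mod_cast hN
  have hgN : 0 < g * N := by linarith
  have hlt : 1 / (g * N) < 1 := by rw [div_lt_one hgN]; exact hg'
  have hfac : ∀ k < K, ∀ h < N, ∀ s a, 0 < 1 - th h s * e k h s a := fun k hk h hh s a => by
    linarith [he1 k hk h hh s a]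
  have hWn : ∀ k ≤ K, ∀ h < N, ∀ s a, 0 ≤ wt (pi h s) (th h s) (fun i => e i h s) k a := by
    intro k hk h hh s a
    exact mul_nonneg (hpi h hh s a) (prod_nonneg fun i hi =>
      (hfac i (by have := mem_range.1 hi; omega) h hh s a).le)
  have hWp : ∀ k ≤ K, ∀ h < N, ∀ s, 0 < ∑ a, wt (pi h s) (th h s) (fun i => e i h s) k a := by
    intro k hk h hh s
    have h1 : ∃ a, pi h s a ≠ 0 := by
      by_contra hc
      push Not at hc
      have := hpi1 h hh s
      simp [hc] at this
    obtain ⟨a, ha⟩ := h1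
    have h2 : 0 < wt (pi h s) (th h s) (fun i => e i h s) k a :=
      mul_pos (lt_of_le_of_ne (hpi h hh s a) (Ne.symm ha)) (prod_pos fun i hi =>
        hfac i (by have := mem_range.1 hi; omega) h hh s a)
    exact lt_of_lt_of_le h2 (single_le_sum (f := fun a => wt (pi h s) (th h s) (fun i => e i h s) k a)
      (fun a _ => hWn k hk h hh s a) (mem_univ a))
  have hWs : ∀ k h s a, wt (pi h s) (th h s) (fun i => e i h s) k a ≠ 0 → pi h s a ≠ 0 :=
    fun k h s a h0 hc => h0 (by simp [wt, hc])
  -- `V ≤ H`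
  have hVH : ∀ k < K, ∀ h ≤ N, ∀ s, V k h s ≤ H k h s := by
    intro k hk h
    induction h with
    | zero => intro _ s; exact hV0 k hk s
    | succ h ih =>
      intro hh s
      have hhN : h < N := by omega
      rw [hH k hk h hhN s]
      unfold av
      rw [le_div_iff₀ (hWp k hk.le h hhN s), mul_sum]
      refine sum_le_sum fun a _ => ?_
      by_cases h0 : wt (pi h s) (th h s) (fun i => e i h s) k a = 0
      · simp [h0]
      · rw [mul_comm]
        refine mul_le_mul_of_nonneg_left ?_ (hWn k hk.le h hhN s a)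
        exact (hV k hk h hhN s a (hWs k h s a h0)).trans
          (Q_mono G hom (fun t => ih (by omega) t) h s a)
  have h := window_lin G zs hom hP K N hN hg hg' H V
    (fun k h s => wt (pi h s) (th h s) (fun i => e i h s) k) e m (fun _ _ _ => 0)
    (fun _ _ _ => 0) (fun _ _ _ => 0) th U
    (fun h hh s _ => hth h hh s) (fun h hh s _ => hU h hh s)
    (fun k hk h hh s _ a => hWn k hk h hh s a)
    (fun h hh s hs => by simpa [wt] using hz h hh s hs)
    (fun k hk h hh s _ a => he0 k hk h hh s a)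
    (fun k hk h hh s _ => he1 k hk h hh s _)
    (fun k hk h hh s hs a ha => by
      rcases ha with ha | rfl
      · exact (he k hk h hh s a (hWs k h s a ha)).le
      · exact (he k hk h hh s _ (hz h hh s hs).ne').le)
    (fun k hk h hh s _ => by
      have hp := hWp k hk.le h hh s
      have e1 := av_affine (wt (pi h s) (th h s) (fun i => e i h s) k) (e k h s) (U h s)
        (m k h s) hp.ne'
      have e2 : av (wt (pi h s) (th h s) (fun i => e i h s) k) (Q G h (H k h) s)
          = av (wt (pi h s) (th h s) (fun i => e i h s) k) (fun a => U h s * e k h s a + m k h s) := by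
        unfold av
        congr 1
        refine sum_congr rfl fun a _ => ?_
        by_cases h0 : wt (pi h s) (th h s) (fun i => e i h s) k a = 0
        · simp [h0]
        · show _ = _ * (U h s * e k h s a + m k h s)
          rw [he k hk h hh s a (hWs k h s a h0)]; ring
      rw [e2, e1]
      linarith)
    (fun _ _ _ _ _ _ => le_rfl) (fun _ _ _ _ _ _ => le_rfl) (fun _ _ _ _ _ _ => by norm_num)
    (fun k hk h hh s _ a => by
      show wt (pi h s) (th h s) (fun i => e i h s) (k + 1) a
        ≤ wt (pi h s) (th h s) (fun i => e i h s) k a * (1 - th h s * e k h s a)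
      unfold wt; rw [prod_range_succ]; exact le_of_eq (by ring))
    (fun k hk h hh s _ => by
      show wt (pi h s) (th h s) (fun i => e i h s) k (zs h s)
          * (1 - th h s * e k h s (zs h s)) * (1 - 0)
        ≤ wt (pi h s) (th h s) (fun i => e i h s) (k + 1) (zs h s)
      unfold wt; rw [prod_range_succ]; exact le_of_eq (by ring))
    (fun k hk h hh s _ => hH k hk h hh s)
    (fun _ _ _ _ _ _ => le_rfl)
    (fun k hk h hh s _ => by
      obtain ⟨a, ha, ha0⟩ := hm k hk h hh s
      have h1 := (hV k hk h hh s a ha).trans (Q_mono G hom (fun t => hVH k hk h hh.le t) h s a)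
      have h2 := he k hk h hh s a ha
      rw [ha0] at h2
      linarith)
    (fun k hk h hh s hs => by
      have := hV k hk h hh s (zs h s) (hz h hh s hs).ne'
      linarith)
    x hx
  have h0 : acc G zs N (fun _ _ => (0 : ℝ)) x = 0 := by
    have := acc_smul G zs 0 (fun _ _ => (0 : ℝ)) N x
    simpa using this
  simpa [h0, wt] using h

end Crest.Agent.R288.WinLin283
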