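import Crest.Agent.R288.WinNear_440
import Crest.Agent.R288.WinFar_974
import Crest.Agent.R288.OscD_283

/-!
# R288 [A13.WIN], field NEAR of `WinStm330.WinIn` for `C : Asm331.Cfg` (helper440)

* `NumN` : ALL numbers of the near window, as inequalities in the parameters and the threshold `Lam`
  (`Lam ≤ F` at the rounded state);
* `num_of` : they give the numbers of `WinNear440.NH` at every pair with `Lam ≤ F x`, `2 ^ κ ≤ 2 F x`;
* **`near_cfg`** : the field, names of `StmA616` (`hat`, `Rp`, `Rm`), `OscR` as hypothesis;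
* **`near_cfgJ`** : the same with `OscR` from the chain (J) (`OscD283.oscR_cfg`).
-/

set_option autoImplicit false

namespace Crest.Agent.R288.WinNearC440

open Finset
open Crest.Agent.R288.Alg45 Crest.Agent.R288.Dom20 Crest.Agent.R288.Asm331
open Crest.Agent.R288.AlgS125 (pc IsSt)
open Crest.Agent.R288.ArrLip195 (Blk FL numR JA)
open Crest.Agent.R288.OscI283 (OscR)
open Crest.Agent.R288.WinNear440 (NH Ch)
open Crest.Agent.R288.WinFar974 (own inD_of_InD own_InD pc_InD)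

/-- **the numbers of the near window** -/
structure NumN (P : Par) (Lam ζ b ν c1 c2 s δ τ c8 κn : ℝ) (Gc : ℕ) : Prop where
  K0 : 0 < P.K
  r1 : 1 ≤ P.r
  δ4 : 4 < P.δi
  hδ : 4 / (P.δi : ℝ) ≤ δ
  Lam1 : 1 ≤ Lam
  s0 : 0 ≤ s
  s1 : s ≤ 1
  small : 7 * s + ζ * (4 + 12 * P.r) ≤ 4 * (1 / (P.δi : ℝ)) * (1 / 2 ^ P.sb)
  creg : (1 + ζ) * ((1 + s) + 4 * P.N * (1 / 2 ^ P.sb)) ≤ P.Creg
  du : 4 * P.Creg ≤ 2 ^ P.du
  g0 : 0 < P.g
  gG : P.g * (P.n + 1) ≤ Gc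
  G2 : 2 ≤ Gc
  γ0 : 0 < P.γ
  um0 : 0 < P.um
  pm0 : 0 < P.pm
  bν : (b + ν) * (1 + ζ) ≤ 1
  dl : 8 * 2 ^ P.sb ≤ 2 ^ P.dl
  cc : (c1 + 2 * c2) * 2 ^ P.sb ≤ Lam
  clip : (24 * 4 ^ P.n / 2 ^ P.sb + 2 * ((b + ν) * (1 + ζ))) * (P.γ * Gc) ≤ 1
  rng : (Gc : ℝ) * ((2 + ν) * P.Creg + 1) ≤ P.um
  rng2 : 2 ^ P.n * (c1 + c2 + 1) ≤ Lam
  τ0 : 0 ≤ τ
  hκn : ((P.um : ℝ) / P.pm + (P.pb + 3) / P.γ * (P.n * P.Creg + 1) + 1 / P.g) / P.K
      + 2 * ν + 8 * P.N / 2 ^ P.dl + 2 * τ ≤ κn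

/-- the additive constant of the near window -/
noncomputable def cN (P : Par) (c1 c2 τ c8 : ℝ) : ℝ :=
  ((P.um : ℝ) / P.pm + (P.pb + 3) / P.γ * 2 ^ P.n) / P.K + (2 * 2 ^ P.n + 2) + c8 + 2 * τ
      + P.N * (c1 + c2) + 8 * P.N / 2 ^ P.dl

section num

variable {P : Par} {leaf : St → Option ℕ} {F : St → ℕ} {X : ℕ → ℕ → St → ℕ}
  {R : ℕ → ℕ → St → ℝ} {κ : ℕ} {x : St} {Lam ζ b ν c1 c2 s δ τ c8 κn d c9 : ℝ} {Gc : ℕ}

/-- **the numbers at one pair** -/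
theorem num_of (N : NumN P Lam ζ b ν c1 c2 s δ τ c8 κn Gc) (hν : 0 ≤ ν) (hζ : 0 ≤ ζ)
    (hF : Lam ≤ F x) (hκ : (2 : ℝ) ^ κ ≤ 2 * F x) (hds : d ≤ s * F x)
    (adm : Alg45.adm P F κ x = true) (nleaf : leaf x = none) (nR1 : ¬ R1 P F x) (dom : inD P x)
    (dvd : gst P κ ∣ P.Dm) (fl : ∀ q < P.N, FL P F ζ (x.i - 1) (P.N * x.j + q))
    (osc : ∀ k < P.K, OscR P F (Ch P x) (X k) (numR P F (R k)) b ν ζ c1 c2 0)
    (body : ∀ k < P.K, R k κ x ≤ bodyNum P leaf F X k (fun _ => X k) κ x + c9)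
    (f3 : ∀ m, IsSt P κ x m → (F x : ℝ) ≤ ∑ q ∈ range P.N, (F (pc P x m q) : ℝ) + d) :
    NH P leaf F X R κ x ζ b ν c1 c2 s d c9 Gc := by
  have hF1 : (1 : ℝ) ≤ F x := N.Lam1.trans hF
  have hF0 : (0 : ℝ) ≤ F x := by linarith
  refine
    { K0 := N.K0, adm := adm, nleaf := nleaf, nR1 := nR1, dom := dom, dvd := dvd, r1 := N.r1,
      δi := N.δ4, F0 := by exact_mod_cast (lt_of_lt_of_le one_pos hF1), fl := fl, osc := osc,
      body := body, f3 := f3, s0 := N.s0, s1 := N.s1, ds := hds, du := N.du, g0 := N.g0,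
      gG := N.gG, G2 := N.G2, γ0 := N.γ0, um0 := N.um0, pm0 := N.pm0, bν := N.bν,
      clip := N.clip, small := ?_, creg := ?_, cc := ?_, rng := ?_, rngF := ?_ }
  · have h1 := mul_le_mul_of_nonneg_right N.small hF0
    have h2 : (0 : ℝ) ≤ P.r := Nat.cast_nonneg _
    have h3 : ζ * (P.r * 2 ^ κ) ≤ ζ * (P.r * (2 * F x)) :=
      mul_le_mul_of_nonneg_left (mul_le_mul_of_nonneg_left hκ h2) hζ
    calc 7 * s * F x + (ζ * (4 * F x + 3 * (2 * (P.r : ℝ) * 2 ^ κ)) + 2 * 0)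
        = 7 * s * F x + ζ * (4 * F x) + 6 * (ζ * (P.r * 2 ^ κ)) := by ring
      _ ≤ 7 * s * F x + ζ * (4 * F x) + 6 * (ζ * (P.r * (2 * F x))) := by linarith
      _ = (7 * s + ζ * (4 + 12 * P.r)) * F x := by ring
      _ ≤ _ := h1
  · have h1 := mul_le_mul_of_nonneg_right N.creg hF0
    calc _ = (1 + ζ) * ((1 + s) + 4 * P.N * (1 / 2 ^ P.sb)) * F x := by ring
      _ ≤ _ := h1
  · have hs : (0 : ℝ) < 2 ^ P.sb := by positivity
    have hd : (0 : ℝ) < 2 ^ P.dl := by positivity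
    have h1 : c1 + 2 * c2 ≤ (1 / 2 ^ P.sb) * F x := by
      rw [one_div, ← div_eq_inv_mul, le_div_iff₀ hs]
      exact N.cc.trans hF
    have h2 : 4 * ((2 : ℝ) ^ κ / 2 ^ P.dl) ≤ (1 / 2 ^ P.sb) * F x := by
      rw [mul_div_assoc', div_le_iff₀ hd, one_div, ← div_eq_inv_mul, div_mul_eq_mul_div, le_div_iff₀ hs]
      have h0 : (8 : ℝ) * 2 ^ P.sb ≤ 2 ^ P.dl := by exact_mod_cast N.dl
      have h3 := mul_le_mul_of_nonneg_left h0 hF0
      have h4 := mul_le_mul_of_nonneg_right hκ hs.le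
      nlinarith
    linarith
  · have hG : (0 : ℝ) ≤ Gc := Nat.cast_nonneg _
    have hum : (0 : ℝ) ≤ P.um := Nat.cast_nonneg _
    have h1 : (2 : ℝ) ^ P.n * (c1 + c2 + 1) ≤ F x := N.rng2.trans hF
    calc (Gc : ℝ) * ((2 + ν) * (P.Creg * F x) + 2 ^ P.n * (c1 + c2 + 1))
        ≤ Gc * ((2 + ν) * (P.Creg * F x) + F x) :=
          mul_le_mul_of_nonneg_left (by linarith) hG
      _ = Gc * ((2 + ν) * P.Creg + 1) * F x := by ring
      _ ≤ P.um * F x := mul_le_mul_of_nonneg_right N.rng hF0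
      _ ≤ _ := mul_le_mul_of_nonneg_left (by linarith) hum
  · have hG : (0 : ℝ) ≤ Gc := Nat.cast_nonneg _
    have hC : (0 : ℝ) ≤ P.Creg := Nat.cast_nonneg _
    have h1 : (Gc : ℝ) ≤ P.um := by
      refine le_trans ?_ N.rng
      have : (1 : ℝ) ≤ (2 + ν) * P.Creg + 1 := by
        have : 0 ≤ (2 + ν) * P.Creg := by positivity
        linarith
      calc (Gc : ℝ) = Gc * 1 := (mul_one _).symm
        _ ≤ _ := mul_le_mul_of_nonneg_left this hG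
    have h2 : Gc ≤ P.um := by exact_mod_cast h1
    exact Nat.mul_le_mul h2 (Nat.le_succ _)

end num

variable {C : Cfg} {Y : ℕ → ℕ × St → ℕ} {e : ℕ}

theorem sum_numR (hK : 0 < C.P.K) (y : St) :
    (∑ k ∈ range C.P.K, numR C.P (FE C.P Y e) (C.R Y e k) y) / C.P.K = StmA616.Rm C Y e y := by
  have hK' : (C.P.K : ℝ) ≠ 0 := by exact_mod_cast hK.ne'
  unfold StmA616.Rm StmA616.Rp StmA616.dh StmA616.hat StmA616.cl numR
  rw [sum_add_distrib, sum_const, card_range, nsmul_eq_mul]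
  field_simp

/-- **the field `near`** of `WinStm330.WinIn` (`e4V = e4 * (G x + C0)`), for the history `Y`;
`A k κ z` = body means -/
theorem near_cfg {Lam ζ b ν c1 c2 s δ τ c8 κn df e4V : ℝ} {Gc : ℕ} {A : ℕ → ℕ → St → ℝ}
    (N : NumN C.P Lam ζ b ν c1 c2 s δ τ c8 κn Gc)
    (hFL : ∀ i j, i ≤ C.I → j < C.P.N ^ (C.I - i) → FL C.P (FE C.P Y e) ζ i j)
    (hK0 : ∀ y, InD C.P.N C.I C.P.Dm y → cls (FE C.P Y e) y ≤ C.K0)
    (hosc : ∀ k < C.P.K, OscR C.P (FE C.P Y e) (Dom C.P C.I) (Xe C.P Y e k)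
      (numR C.P (FE C.P Y e) (C.R Y e k)) b ν ζ c1 c2 0)
    (hJ : ∀ k < C.P.K, ∀ κ z, (κ, z) ∈ OmP C.P.N C.I C.P.Dm C.K0 →
      adm C.P (FE C.P Y e) κ z = true → C.R Y e k κ z ≤ A k κ z + τ * 2 ^ κ)
    (hB : ∀ k < C.P.K, ∀ κ z, (κ, z) ∈ OmP C.P.N C.I C.P.Dm C.K0 → 1 ≤ z.i →
      adm C.P (FE C.P Y e) κ z = true →
      A k κ z ≤ bodyNum C.P C.leaf (FE C.P Y e) (Xe C.P Y e) k (fun _ => Xe C.P Y e k) κ z + c8)
    (he4 : cN C.P c1 c2 τ c8 ≤ e4V)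
    {x : St} (hx : InD C.P.N C.I C.P.Dm x) (hi : 1 ≤ x.i)
    (hl : C.leaf (StmA616.hat C Y e x) = none)
    (hLam : Lam ≤ FE C.P Y e (StmA616.hat C Y e x))
    (hsl : |WinStm330.av (StmA616.hat C Y e x)| < (1 - δ) * FE C.P Y e (StmA616.hat C Y e x))
    (h3 : ∀ m, IsSt C.P (cls (FE C.P Y e) x) (StmA616.hat C Y e x) m →
      (FE C.P Y e (StmA616.hat C Y e x) : ℝ)
        ≤ WinStm330.sm C.P.N (fun y => FE C.P Y e y) (StmA616.hat C Y e x) m + df)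
    {m : ℕ → ℤ} (hm : IsSt C.P (cls (FE C.P Y e) x) (StmA616.hat C Y e x) m)
    (hen : WinStm330.enS C.P.N (FE C.P Y e) (WinStm330.av (StmA616.hat C Y e x)
        / FE C.P Y e (StmA616.hat C Y e x)) (StmA616.hat C Y e x) m
      ≤ s ^ 2 * FE C.P Y e (StmA616.hat C Y e x))
    (hgr : WinStm330.sm C.P.N (fun y => FE C.P Y e y) (StmA616.hat C Y e x) m
      - FE C.P Y e (StmA616.hat C Y e x) ≤ s * FE C.P Y e (StmA616.hat C Y e x))
    (hdf : df ≤ s * FE C.P Y e (StmA616.hat C Y e x)) :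
    StmA616.Rp C Y e x ≤ WinStm330.sm C.P.N (StmA616.Rm C Y e) (StmA616.hat C Y e x) m
      + κn * FE C.P Y e (StmA616.hat C Y e x) + e4V := by
  set F := FE C.P Y e with hF
  have hblk : ∀ {y : St}, InD C.P.N C.I C.P.Dm y → Blk C.P y.i y.j y :=
    fun h => ⟨rfl, rfl, inD_of_InD h⟩
  have hFLy : ∀ {y : St}, InD C.P.N C.I C.P.Dm y → FL C.P F ζ y.i y.j :=
    fun h => hFL _ _ h.1 h.2.1
  have hdvd : ∀ {y : St}, InD C.P.N C.I C.P.Dm y → gst C.P (cls F y) ∣ C.P.Dm :=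
    fun h => (hFLy h).dvd _ (hblk h)
  have hadm : ∀ {y : St}, InD C.P.N C.I C.P.Dm y → adm C.P F (cls F y) (own C.P F y) = true :=
    fun h => ((hFLy h).own_adm (hblk h)).2
  have hox : InD C.P.N C.I C.P.Dm (own C.P F x) := own_InD (hdvd hx) hx
  have hoi : 1 ≤ (own C.P F x).i := hi
  have hmem : (cls F x, own C.P F x) ∈ OmP C.P.N C.I C.P.Dm C.K0 :=
    StmA616.mem_pair (hK0 _ hx) hox
  have hchild : ∀ {y : St}, Ch C.P (own C.P F x) y → InD C.P.N C.I C.P.Dm y := by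
    rintro y ⟨q, hq, h1, h2, h3⟩
    have h4 := StmA616.inD_iff.1 h3
    have h5 : InD C.P.N C.I C.P.Dm ⟨(own C.P F x).i - 1, C.P.N * (own C.P F x).j + q, y.u, y.v⟩ :=
      hox.child hoi hq h4.1 h4.2
    have h6 : y = ⟨(own C.P F x).i - 1, C.P.N * (own C.P F x).j + q, y.u, y.v⟩ := by
      cases y; simp_all
    rw [h6]; exact h5
  -- sizes
  have hz0 := (hFLy hx).ζ0
  have hz1 := (hFLy hx).ζ1
  have hpb := (hFLy hx).pb
  have hFz1 : (1 : ℝ) ≤ F (own C.P F x) := N.Lam1.trans hLam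
  have hd1 : (Alg45.dist x (own C.P F x) : ℝ) ≤ 2 / 2 ^ C.P.pb * F x := ArrLip195.dist_own x
  have hpb' : (2 : ℝ) / 2 ^ C.P.pb ≤ 1 / 16 := by
    have : (2 : ℝ) ^ 5 ≤ 2 ^ C.P.pb := pow_le_pow_right₀ (by norm_num) hpb
    rw [div_le_div_iff₀ (by positivity) (by norm_num)]
    linarith
  have hFx0 : (0 : ℝ) ≤ F x := Nat.cast_nonneg _
  have hd2 : (Alg45.dist x (own C.P F x) : ℝ) ≤ 1 / 16 * F x :=
    hd1.trans (mul_le_mul_of_nonneg_right hpb' hFx0)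
  have hbx := hblk hx
  have hbo : Blk C.P x.i x.j (own C.P F x) := ⟨rfl, rfl, inD_of_InD hox⟩
  have hl1 := (hFLy hx).lip x (own C.P F x) hbx hbo
  have hl2 := (hFLy hx).lip (own C.P F x) x hbo hbx
  rw [AlgS125.dist_comm] at hl2
  have hF2 : (F x : ℝ) ≤ 2 * F (own C.P F x) := by
    have h1 : (1 + ζ) * ((F (own C.P F x) : ℝ) + Alg45.dist x (own C.P F x))
        ≤ 9 / 8 * (F (own C.P F x) + 1 / 16 * F x) :=
      mul_le_mul (by linarith) (by linarith) (by positivity) (by norm_num)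
    linarith
  have hFx : F x ≠ 0 := by
    intro h
    rw [h] at hl2 hd1
    have hd0 : (0 : ℝ) ≤ Alg45.dist x (own C.P F x) := Nat.cast_nonneg _
    simp only [Nat.cast_zero, mul_zero] at hd1 hl2
    have h3 : (Alg45.dist x (own C.P F x) : ℝ) = 0 := le_antisymm hd1 hd0
    rw [h3, add_zero, mul_zero] at hl2
    linarith
  have hκ : (2 : ℝ) ^ cls F x ≤ 2 * F (own C.P F x) := by
    have h1 : 2 ^ cls F x ≤ F x := Nat.pow_log_le_self 2 hFx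
    have h2 : ((2 ^ cls F x : ℕ) : ℝ) ≤ F x := by exact_mod_cast h1
    push_cast at h2
    linarith
  -- not `R1`
  have hnR1 : ¬ R1 C.P F (own C.P F x) := by
    intro h
    have hδ0 : (0 : ℝ) < C.P.δi := by
      have := N.δ4
      exact_mod_cast (by omega : 0 < C.P.δi)
    have h0 : C.P.δi * F (own C.P F x) ≤ C.P.δi * ((own C.P F x).v - (own C.P F x).u).natAbs
        + 4 * F (own C.P F x) := by
      have h : (C.P.δi - 4) * F (own C.P F x)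
        ≤ C.P.δi * ((own C.P F x).v - (own C.P F x).u).natAbs := h
      have h' := N.δ4
      rw [Nat.sub_mul] at h
      omega
    have h1 : (C.P.δi : ℝ) * F (own C.P F x)
        ≤ C.P.δi * |WinStm330.av (own C.P F x)| + 4 * F (own C.P F x) := by
      rw [WinStm330.abs_av]
      exact_mod_cast h0
    have h2 : |WinStm330.av (own C.P F x)| < (1 - δ) * F (own C.P F x) := hsl
    have h3 := N.hδ
    rw [div_le_iff₀ hδ0] at h3
    have h4 := mul_lt_mul_of_pos_left h2 hδ0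
    have h5 := mul_le_mul_of_nonneg_right h3 (by linarith : (0 : ℝ) ≤ F (own C.P F x))
    nlinarith
  have hν := (hosc 0 N.K0).ν0
  have H : NH C.P C.leaf F (Xe C.P Y e) (C.R Y e) (cls F x) (own C.P F x) ζ b ν c1 c2 s df
      (c8 + τ * 2 ^ cls F x) Gc := by
    refine num_of N hν hz0 hLam hκ hdf (hadm hx) hl hnR1 (inD_of_InD hox) (hdvd hx) ?_ ?_ ?_ h3
    · intro q hq
      have h0 : InD C.P.N C.I C.P.Dm
          ⟨(own C.P F x).i - 1, C.P.N * (own C.P F x).j + q, 0, 0⟩ :=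
        hox.child hoi hq ⟨by omega, by omega⟩ ⟨by omega, by omega⟩
      exact hFL _ _ h0.1 h0.2.1
    · intro k hk
      have h := hosc k hk
      exact ⟨h.b0, h.ν0, h.ζ0, h.c1_0, h.c2_0, h.c3_0,
        fun y z hy hz => h.lipF y z (hchild hy) (hchild hz),
        fun y z hy hz => h.lipR y z (hchild hy) (hchild hz),
        fun y hy => h.R0 y (hchild hy), fun y hy => h.RF y (hchild hy),
        fun y hy => h.XR y (hchild hy)⟩
    · intro k hk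
      have h1 := hJ k hk _ _ hmem (hadm hx)
      have h2 := hB k hk _ _ hmem hoi (hadm hx)
      linarith
  have hen' : ∑ q ∈ range C.P.N, (F (pc C.P (own C.P F x) m q) : ℝ) *
      (((m (q + 1) : ℝ) - m q) / F (pc C.P (own C.P F x) m q)
        - (((own C.P F x).v : ℝ) - (own C.P F x).u) / F (own C.P F x)) ^ 2
      ≤ s ^ 2 * F (own C.P F x) := by
    refine le_trans (le_of_eq ?_) hen
    unfold WinStm330.enS
    refine sum_congr rfl fun q _ => ?_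
    have e1 : WinStm330.av (StmA616.hat C Y e x)
        = ((own C.P F x).v : ℝ) - (own C.P F x).u := by
      unfold WinStm330.av; push_cast; rfl
    have e2 : WinStm330.av (WinStm330.pcs C.P.N (StmA616.hat C Y e x) m q)
        = (m (q + 1) : ℝ) - m q := by
      unfold WinStm330.av WinStm330.pcs; push_cast; rfl
    rw [e1, e2]
    rfl
  have h := H.near (c8 := c8) (τ := τ) hm hen' hgr N.τ0 le_rfl N.hκn (c := e4V) he4
  refine h.trans (le_of_eq ?_)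
  congr 2
  unfold WinStm330.sm
  refine sum_congr rfl fun q _ => ?_
  exact sum_numR N.K0 _

/-- **the field `near`**, `OscR` from the chain (J) of 195/988 (`b` = slope of the errors `er`, `c` = constant) -/
theorem near_cfgJ (hX : C.Good Y) (he : e < C.P.E)
    {Lam ζ b c s δ τ c8 κn df e4V : ℝ} {Gc : ℕ} {A : ℕ → ℕ → St → ℝ} {er : ℕ → ℝ}
    (N : NumN C.P Lam ζ (b + 4 / 2 ^ C.P.a1 + 6 / 2 ^ C.P.pb + 5 * ζ) (2 / 2 ^ C.P.nb) 4
      (1 + 2 * c) s δ τ c8 κn Gc)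
    (hb : 0 ≤ b) (hc : 0 ≤ c) (her : ∀ κ, er κ ≤ b * 2 ^ κ + c) (ha2 : 5 ≤ C.P.a2)
    (hb' : b + 4 / 2 ^ C.P.a1 + 6 / 2 ^ C.P.pb + 5 * ζ ≤ 1) (hgr : GrdOK C.P C.K0)
    (hFL : ∀ i j, i ≤ C.I → j < C.P.N ^ (C.I - i) → FL C.P (FE C.P Y e) ζ i j)
    (hK0 : ∀ y, InD C.P.N C.I C.P.Dm y → cls (FE C.P Y e) y ≤ C.K0)
    (hJA : ∀ k < C.P.K, ∀ y, Dom C.P C.I y →
      JA C.P (FE C.P Y e) (A k) (C.R Y e k) er y.i y.j)
    (hJ : ∀ k < C.P.K, ∀ κ z, (κ, z) ∈ OmP C.P.N C.I C.P.Dm C.K0 →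
      adm C.P (FE C.P Y e) κ z = true → C.R Y e k κ z ≤ A k κ z + τ * 2 ^ κ)
    (hB : ∀ k < C.P.K, ∀ κ z, (κ, z) ∈ OmP C.P.N C.I C.P.Dm C.K0 → 1 ≤ z.i →
      adm C.P (FE C.P Y e) κ z = true →
      A k κ z ≤ bodyNum C.P C.leaf (FE C.P Y e) (Xe C.P Y e) k (fun _ => Xe C.P Y e k) κ z + c8)
    (he4 : cN C.P 4 (1 + 2 * c) τ c8 ≤ e4V)
    {x : St} (hx : InD C.P.N C.I C.P.Dm x) (hi : 1 ≤ x.i)
    (hl : C.leaf (StmA616.hat C Y e x) = none)
    (hLam : Lam ≤ FE C.P Y e (StmA616.hat C Y e x))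
    (hsl : |WinStm330.av (StmA616.hat C Y e x)| < (1 - δ) * FE C.P Y e (StmA616.hat C Y e x))
    (h3 : ∀ m, IsSt C.P (cls (FE C.P Y e) x) (StmA616.hat C Y e x) m →
      (FE C.P Y e (StmA616.hat C Y e x) : ℝ)
        ≤ WinStm330.sm C.P.N (fun y => FE C.P Y e y) (StmA616.hat C Y e x) m + df)
    {m : ℕ → ℤ} (hm : IsSt C.P (cls (FE C.P Y e) x) (StmA616.hat C Y e x) m)
    (hen : WinStm330.enS C.P.N (FE C.P Y e) (WinStm330.av (StmA616.hat C Y e x)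
        / FE C.P Y e (StmA616.hat C Y e x)) (StmA616.hat C Y e x) m
      ≤ s ^ 2 * FE C.P Y e (StmA616.hat C Y e x))
    (hgr' : WinStm330.sm C.P.N (fun y => FE C.P Y e y) (StmA616.hat C Y e x) m
      - FE C.P Y e (StmA616.hat C Y e x) ≤ s * FE C.P Y e (StmA616.hat C Y e x))
    (hdf : df ≤ s * FE C.P Y e (StmA616.hat C Y e x)) :
    StmA616.Rp C Y e x ≤ WinStm330.sm C.P.N (StmA616.Rm C Y e) (StmA616.hat C Y e x) m
      + κn * FE C.P Y e (StmA616.hat C Y e x) + e4V := by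
  have hFLD : ∀ y, Dom C.P C.I y → FL C.P (FE C.P Y e) ζ y.i y.j := fun y hy => hFL _ _ hy.1 hy.2.1
  exact near_cfg N hFL hK0
    (OscD283.oscR_cfg hX he hb hc (hFLD x hx).ζ0 her ha2 hb' hgr hK0 hFLD hJA)
    hJ hB he4 hx hi hl hLam hsl h3 hm hen hgr' hdf

end Crest.Agent.R288.WinNearC440
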