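import Crest.Agent.R288.RegE_441
import Crest.Agent.R288.PlanI_693
import Crest.Agent.R288.OscI_283
import Crest.Agent.R288.ArrLipA_195
import Crest.Agent.R288.AlgS_125
import Crest.Agent.R288.HullB_407

/-!
# R288 [A13.WIN], field NEAR of `WinStm330.WinIn` (helper440), general form

One window at the admissible pair `(κ, x)`, `x` not a leaf, not `R1`; comparator `m` = grid staircase with
small energy, growth and defect.

* `NH`      : all hypotheses (facts and numbers);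
* `NH.plan` : (A12): regular, `m` is a staircase of the near menus;
* `NH.hyp`  : the hypotheses `RegE441.Hyp` of the window regret;
* `log_nlet_le` : `log (nlet) ≤ pb + 3`;
* **`NH.near`** : `mean_k R k κ x ≤ Σ_q mean_k (own-label mean of piece q) + κn F x + c`.
-/

set_option autoImplicit false

namespace Crest.Agent.R288.WinNear440

open Finset
open Crest.Agent.R288.Alg45 (Par St R1 inD cls rdn gst gpt numSt hull bodyNum regular npiece tpiece
  piece nlet unt rad WA cut pos wild)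
open Crest.Agent.R288.AlgS125 (pc IsSt)
open Crest.Agent.R288.ArrLip195 (Blk FL numR)
open Crest.Agent.R288.OscI283 (OscR)
open Crest.Agent.R288.RegE441 (numE VN calmN Reg)

/-- states of the blocks of the pieces of `x` -/
def Ch (P : Par) (x y : St) : Prop := ∃ q < P.N, Blk P (x.i - 1) (P.N * x.j + q) y

/-- all facts and numbers of one near window; `R k κ z` = exact mean of rank `k` at the pair `(κ, z)`,
`b ν c1 c2` = constants of `OscR`, `s` = threshold of good, `d` = defect of (F3') at `x`, `G` = credit,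
`c9` = loss of the jump and of the lane against the number -/
structure NH (P : Par) (leaf : St → Option ℕ) (F : St → ℕ) (X : ℕ → ℕ → St → ℕ)
    (R : ℕ → ℕ → St → ℝ) (κ : ℕ) (x : St) (ζ b ν c1 c2 s d c9 : ℝ) (G : ℕ) : Prop where
  K0 : 0 < P.K
  adm : Alg45.adm P F κ x = true
  nleaf : leaf x = none
  nR1 : ¬ R1 P F x
  dom : inD P x
  dvd : gst P κ ∣ P.Dm
  r1 : 1 ≤ P.r
  δi : 4 < P.δi
  F0 : 0 < F x
  /-- the unit function on the blocks of the pieces -/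
  fl : ∀ q < P.N, FL P F ζ (x.i - 1) (P.N * x.j + q)
  /-- the numbers of all ranks -/
  osc : ∀ k < P.K, OscR P F (Ch P x) (X k) (numR P F (R k)) b ν ζ c1 c2 0
  /-- jump and body of the pair -/
  body : ∀ k < P.K, R k κ x ≤ bodyNum P leaf F X k (fun _ => X k) κ x + c9
  /-- (F3') at `x` -/
  f3 : ∀ m, IsSt P κ x m → (F x : ℝ) ≤ ∑ q ∈ range P.N, (F (pc P x m q) : ℝ) + d
  -- numbers
  s0 : 0 ≤ s
  s1 : s ≤ 1
  ds : d ≤ s * F x
  small : 7 * s * F x + (ζ * (4 * F x + 3 * (2 * (P.r : ℝ) * 2 ^ κ)) + 2 * 0)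
      ≤ 4 * (1 / (P.δi : ℝ)) * (1 / 2 ^ P.sb) * F x
  creg : (1 + ζ) * ((1 + s) * F x + 4 * P.N * (1 / 2 ^ P.sb * F x)) + P.N * 0 ≤ P.Creg * F x
  du : 4 * P.Creg ≤ 2 ^ P.du
  g0 : 0 < P.g
  gG : P.g * (P.n + 1) ≤ G
  G2 : 2 ≤ G
  γ0 : 0 < P.γ
  um0 : 0 < P.um
  pm0 : 0 < P.pm
  bν : (b + ν) * (1 + ζ) ≤ 1
  cc : c1 + 2 * c2 + 4 * (2 ^ κ / 2 ^ P.dl) + (b + ν) * 0 ≤ 2 * ((1 / 2 ^ P.sb) * F x)
  clip : (24 * 4 ^ P.n / 2 ^ P.sb + 2 * ((b + ν) * (1 + ζ))) * (P.γ * G) ≤ 1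
  rng : (G : ℝ) * ((2 + ν) * (P.Creg * F x) + 2 ^ P.n * (c1 + c2 + 1)) ≤ P.um * (F x + 1)
  rngF : G * F x ≤ P.um * (F x + 1)

variable {P : Par} {leaf : St → Option ℕ} {F : St → ℕ} {X : ℕ → ℕ → St → ℕ}
  {R : ℕ → ℕ → St → ℝ} {κ : ℕ} {x : St} {ζ b ν c1 c2 s d c9 : ℝ} {G : ℕ} {m : ℕ → ℤ}

namespace NH

theorem ch_piece (H : NH P leaf F X R κ x ζ b ν c1 c2 s d c9 G) {q : ℕ} (hq : q < P.N) (a c : ℕ) :
    Ch P x (piece P κ x q a c) :=
  ⟨q, hq, rfl, rfl, PlanI693.piece_inD P κ x H.r1 H.dom q a c⟩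

theorem ch_npiece (H : NH P leaf F X R κ x ζ b ν c1 c2 s d c9 G) {q : ℕ} (hq : q < P.N)
    (a c : ℕ) : Ch P x (npiece P F κ x q a c) := H.ch_piece hq _ _

theorem ζ0 (H : NH P leaf F X R κ x ζ b ν c1 c2 s d c9 G) : 0 ≤ ζ := (H.osc 0 H.K0).ζ0

theorem ζ1 (H : NH P leaf F X R κ x ζ b ν c1 c2 s d c9 G) : ζ ≤ 1 / 8 :=
  (H.fl 0 (AlgS125.N_pos P)).ζ1

/-- `Chd` of 693 and `Ch` -/
theorem chd {y : St} (h : PlanI693.Chd P x y) :
    y.j - P.N * x.j < P.N ∧ Blk P (x.i - 1) (P.N * x.j + (y.j - P.N * x.j)) y := by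
  obtain ⟨h1, h2, h3, h4⟩ := h
  exact ⟨by omega, h1, by omega, h4⟩

theorem dvd_ch (H : NH P leaf F X R κ x ζ b ν c1 c2 s d c9 G) {y : St} (h : Ch P x y) :
    gst P (cls F y) ∣ P.Dm := by
  obtain ⟨q, hq, hb⟩ := h
  exact (H.fl q hq).dvd y hb

theorem sum_eq (f : St → ℝ) {c : ℕ → ℕ} (hcut : ∀ q ≤ P.N, cut P κ x q (c q) = m q) :
    ∑ q ∈ range P.N, f (piece P κ x q (c q) (c (q + 1))) = ∑ q ∈ range P.N, f (pc P x m q) := by
  refine sum_congr rfl fun q hq => ?_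
  have hq := mem_range.1 hq
  congr 1
  unfold piece pc
  rw [hcut q hq.le, hcut (q + 1) hq]

/-- **(A12)** -/
theorem plan (H : NH P leaf F X R κ x ζ b ν c1 c2 s d c9 G) (hm : IsSt P κ x m)
    (hE : ∑ q ∈ range P.N, (F (pc P x m q) : ℝ) *
      (((m (q + 1) : ℝ) - m q) / F (pc P x m q) - ((x.v : ℝ) - x.u) / F x) ^ 2 ≤ s ^ 2 * F x)
    (hdr : ∑ q ∈ range P.N, (F (pc P x m q) : ℝ) - F x ≤ s * F x) :
    regular P F κ x ∧ ∃ z : ℕ → ℕ, (∀ j, z j < nlet P F κ x) ∧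
      ∀ q < P.N, npiece P F κ x q (z q) (z (q + 1)) = pc P x m q := by
  obtain ⟨c, hc, _, _, hcut⟩ := hm.letters P H.dvd
  have hζ0 := H.ζ0
  have hζ1 := H.ζ1
  have hpc : ∀ q < P.N, piece P κ x q (c q) (c (q + 1)) = pc P x m q := by
    intro q hq
    unfold piece pc
    rw [hcut q hq.le, hcut (q + 1) hq]
  obtain ⟨h1, z, h2, _, _, _, h3⟩ := PlanI693.plan_good P F κ x (c := c) (d := d) (ζ := ζ) (C := 0)
    (s := s) (W := 2 * (P.r : ℝ) * 2 ^ κ) H.F0 H.dom H.r1 H.dvd H.δi H.nR1 (fun q _ => hc q)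
    (fun y hy => by
      obtain ⟨hq, hb⟩ := chd hy
      have h := (H.fl _ hq).coer y hb
      have h' : ((y.v - y.u).natAbs : ℝ) ≤ F y := by exact_mod_cast h
      rw [Nat.cast_natAbs] at h'
      push_cast at h'
      exact h')
    hζ0 (by linarith) le_rfl
    (fun y z hy hz hyz => by
      obtain ⟨hq, hb⟩ := chd hy
      obtain ⟨hq', hb'⟩ := chd hz
      rw [← hyz] at hb'
      have := (H.fl _ hq).lip y z hb hb'
      linarith)
    (fun c' hc' => by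
      have h := H.f3 _ (AlgS125.isSt_cut P c' H.dvd (by
        have := H.dom.1
        rw [abs_le]; omega))
      exact h)
    H.s0 H.s1
    (by
      unfold PlanI693.enr PlanI693.EnI
      refine le_trans (le_of_eq ?_) hE
      refine sum_congr rfl fun q hq => ?_
      have hq := mem_range.1 hq
      beta_reduce
      rw [hpc q hq, hcut q hq.le, hcut (q + 1) hq])
    (by rw [sum_eq (fun y => (F y : ℝ)) hcut]; exact hdr)
    H.ds le_rfl H.small H.creg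
  exact ⟨h1, z, h2, fun q hq => (h3 q hq).trans (hpc q hq)⟩

/-- the hypotheses of the window regret -/
theorem hyp (H : NH P leaf F X R κ x ζ b ν c1 c2 s d c9 G) (hreg : regular P F κ x)
    {z : ℕ → ℕ} (hz : ∀ j, z j < nlet P F κ x) : RegE441.Hyp P F X κ x G z where
  g0 := H.g0
  gG := H.gG
  G2 := H.G2
  γ0 := H.γ0
  um0 := H.um0
  pm0 := H.pm0
  reg := hreg
  cs := fun q _ _ => hz q
  osc := by
    intro t ht p hp a ha c hc k hk w hw
    have hcls : cls F x ≤ κ + 1 := (ArrLip195.adm_iff.1 H.adm).2.2.2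
    exact OscI283.excess_calm (Xs := X) (Rs := fun k => numR P F (R k)) (K := P.K) (g := G)
      (E := numE P F X κ x) H.osc
      (fun q hq a _ c _ => H.ch_npiece hq a c) (fun q hq => H.ch_piece hq _ _)
      (fun q hq a ha c hc => OscI283.regular_cls hreg hcls H.du hq ha hc) H.bν H.cc H.clip
      (fun i _ q _ a _ c _ => rfl) hk ht hp ha hc hw
  rng := by
    intro k hk
    have h := OscI283.calm_le (H.osc k hk) (κ := κ) (x := x) hreg
      (fun q hq a _ c _ => H.ch_npiece hq a c) (E := numE P F X κ x) (i := k)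
      (fun q hq a _ c _ => le_rfl)
    have h1 : (calmN P F X κ x k : ℝ) ≤ (2 + ν) * (P.Creg * F x) + 2 ^ P.n * (c1 + c2 + 1) := h
    have h2 := mul_le_mul_of_nonneg_left h1 (Nat.cast_nonneg (α := ℝ) G)
    have h3 := h2.trans H.rng
    exact_mod_cast h3
  rngF := H.rngF
  hull := by
    intro k hk q hq a c
    unfold numE numSt
    have hch := H.ch_npiece (q := q) hq a c
    split_ifs with h
    · exact HullB407.hull_le_F _ _ _
    · exact HullB407.hull_le_own (H.dvd_ch hch) hch.choose_spec.2.2.2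

/-- number of near letters -/
theorem nlet_le (hadm : Alg45.adm P F κ x = true) : nlet P F κ x ≤ 2 ^ (P.pb + 3) := by
  have h1 := ArrLip195.adm_hi hadm
  have h2 : F x / 2 ^ P.sb / gst P κ ≤ F x / gst P κ :=
    Nat.div_le_div_right (Nat.div_le_self _ _)
  have h3 : F x / gst P κ < 2 ^ (P.pb + 2) := by
    have hg : 0 < gst P κ := AlgS125.gst_pos P κ
    rw [Nat.div_lt_iff_lt_mul hg]
    refine h1.trans_le ?_
    unfold gst
    rw [← pow_add]
    exact Nat.pow_le_pow_right (by norm_num) (by omega)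
  unfold nlet rad
  have h4 : 2 ^ (P.pb + 3) = 2 * 2 ^ (P.pb + 2) := by rw [← pow_succ']
  omega

theorem log_nlet_le (hadm : Alg45.adm P F κ x = true) :
    Real.log (nlet P F κ x) ≤ P.pb + 3 := by
  have h1 := nlet_le hadm
  have h0 : 0 < nlet P F κ x := by unfold nlet; omega
  have h2 : Real.log (nlet P F κ x) ≤ Real.log ((2 : ℝ) ^ (P.pb + 3)) :=
    Real.log_le_log (by exact_mod_cast h0) (by exact_mod_cast h1)
  rw [Real.log_pow] at h2
  refine h2.trans ?_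
  have h3 : Real.log 2 ≤ 1 := by
    have := Real.log_two_lt_d9
    linarith
  have h4 : (0 : ℝ) ≤ ((P.pb + 3 : ℕ) : ℝ) := Nat.cast_nonneg _
  calc ((P.pb + 3 : ℕ) : ℝ) * Real.log 2 ≤ ((P.pb + 3 : ℕ) : ℝ) * 1 :=
        mul_le_mul_of_nonneg_left h3 h4
    _ = P.pb + 3 := by push_cast; ring

theorem log_nlet_nonneg : 0 ≤ Real.log (nlet P F κ x) := by
  refine Real.log_nonneg ?_
  have h0 : 1 ≤ nlet P F κ x := by unfold nlet; omega
  exact_mod_cast h0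

/-- **the near window**, raw form -/
theorem near_raw (H : NH P leaf F X R κ x ζ b ν c1 c2 s d c9 G) (hm : IsSt P κ x m)
    (hE : ∑ q ∈ range P.N, (F (pc P x m q) : ℝ) *
      (((m (q + 1) : ℝ) - m q) / F (pc P x m q) - ((x.v : ℝ) - x.u) / F x) ^ 2 ≤ s ^ 2 * F x)
    (hdr : ∑ q ∈ range P.N, (F (pc P x m q) : ℝ) - F x ≤ s * F x) :
    (∑ k ∈ range P.K, R k κ x) / P.K
      ≤ ∑ q ∈ range P.N, (∑ k ∈ range P.K, numR P F (R k) (pc P x m q)) / P.K
        + (ν * ((1 + s) * F x) + P.N * (c1 + c2 + 4 * (2 ^ κ / 2 ^ P.dl)))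
        + Reg P F κ x / P.K + (2 * 2 ^ P.n + 2) + c9 := by
  obtain ⟨hreg, z, hz, hzp⟩ := H.plan hm hE hdr
  have hK : (0 : ℝ) < P.K := by exact_mod_cast H.K0
  have hN : P.N = 2 ^ P.n := rfl
  have hcls : cls F x ≤ κ + 1 := (ArrLip195.adm_iff.1 H.adm).2.2.2
  have hν := (H.osc 0 H.K0).ν0
  have h1 := RegE441.near_body P F X κ x (H.hyp hreg hz) H.adm H.nleaf H.nR1
  have h2 : ∑ k ∈ range P.K, R k κ x
      ≤ ∑ k ∈ range P.K, (bodyNum P leaf F X k (fun _ => X k) κ x : ℝ) + P.K * c9 := by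
    calc _ ≤ ∑ k ∈ range P.K, ((bodyNum P leaf F X k (fun _ => X k) κ x : ℝ) + c9) :=
          sum_le_sum fun k hk => H.body k (mem_range.1 hk)
      _ = _ := by rw [sum_add_distrib, sum_const, card_range, nsmul_eq_mul]
  have h3 : ∀ k < P.K, ∀ q < P.N, (numE P F X κ x k q (z q) (z (q + 1)) : ℝ)
      ≤ numR P F (R k) (pc P x m q) + (ν * F (pc P x m q) + (c1 + c2 + 4 * (2 ^ κ / 2 ^ P.dl))) := by
    intro k hk q hq
    unfold numE
    have hc : cls F (npiece P F κ x q (z q) (z (q + 1))) ≤ κ + P.du :=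
      OscI283.regular_cls hreg hcls H.du hq (hz q) (hz (q + 1))
    have h4 := (abs_le.1 (OscI283.numSt_near (H.osc k hk) (κ := κ) (H.ch_npiece hq _ _) hc)).2
    rw [hzp q hq] at h4 ⊢
    linarith
  have h4 : ∑ k ∈ range P.K, ∑ q ∈ range (2 ^ P.n), (numE P F X κ x k q (z q) (z (q + 1)) : ℝ)
      ≤ ∑ q ∈ range P.N, ∑ k ∈ range P.K, numR P F (R k) (pc P x m q)
        + P.K * (ν * ∑ q ∈ range P.N, (F (pc P x m q) : ℝ)
          + P.N * (c1 + c2 + 4 * (2 ^ κ / 2 ^ P.dl))) := by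
    rw [← hN]
    calc _ ≤ ∑ k ∈ range P.K, ∑ q ∈ range P.N, (numR P F (R k) (pc P x m q)
          + (ν * F (pc P x m q) + (c1 + c2 + 4 * (2 ^ κ / 2 ^ P.dl)))) :=
          sum_le_sum fun k hk => sum_le_sum fun q hq => h3 k (mem_range.1 hk) q (mem_range.1 hq)
      _ = ∑ k ∈ range P.K, (∑ q ∈ range P.N, numR P F (R k) (pc P x m q)
          + (ν * ∑ q ∈ range P.N, (F (pc P x m q) : ℝ)
            + P.N * (c1 + c2 + 4 * (2 ^ κ / 2 ^ P.dl)))) := by
          refine sum_congr rfl fun k _ => ?_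
          rw [sum_add_distrib, sum_add_distrib, mul_sum, sum_const, card_range, nsmul_eq_mul]
      _ = _ := by
          rw [sum_add_distrib, sum_comm, sum_const, card_range, nsmul_eq_mul]
  have h5 : ν * ∑ q ∈ range P.N, (F (pc P x m q) : ℝ) ≤ ν * ((1 + s) * F x) :=
    mul_le_mul_of_nonneg_left (by linarith) hν
  have h6 : ∑ k ∈ range P.K, R k κ x ≤ ∑ q ∈ range P.N, ∑ k ∈ range P.K, numR P F (R k) (pc P x m q)
      + P.K * (ν * ((1 + s) * F x) + P.N * (c1 + c2 + 4 * (2 ^ κ / 2 ^ P.dl)))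
      + Reg P F κ x + P.K * (2 * 2 ^ P.n + 2) + P.K * c9 := by
    have := mul_le_mul_of_nonneg_left h5 hK.le
    linarith
  rw [← sum_div]
  rw [div_le_iff₀ hK]
  refine h6.trans (le_of_eq ?_)
  field_simp

/-- the regret -/
theorem reg_le (H : NH P leaf F X R κ x ζ b ν c1 c2 s d c9 G) :
    Reg P F κ x ≤ ((P.um : ℝ) / P.pm + (P.pb + 3) / P.γ * (P.n * P.Creg + 1) + 1 / P.g) * F x
      + ((P.um : ℝ) / P.pm + (P.pb + 3) / P.γ * 2 ^ P.n) := by
  have hγ : (0 : ℝ) < P.γ := by exact_mod_cast H.γ0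
  have h1 := log_nlet_le H.adm
  have h2 : Real.log (nlet P F κ x) / P.γ ≤ (P.pb + 3) / P.γ :=
    div_le_div_of_nonneg_right h1 hγ.le
  have h3 : (0 : ℝ) ≤ (P.n * P.Creg + 1) * F x + 2 ^ P.n := by positivity
  have h4 := mul_le_mul_of_nonneg_right h2 h3
  unfold Reg
  have e1 : (P.um : ℝ) * (F x + 1) / P.pm = (P.um : ℝ) / P.pm * F x + (P.um : ℝ) / P.pm := by ring
  have e2 : (F x : ℝ) / P.g = 1 / P.g * F x := by ring
  have e3 : ((P.pb : ℝ) + 3) / P.γ * ((P.n * P.Creg + 1) * F x + 2 ^ P.n)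
      = (P.pb + 3) / P.γ * (P.n * P.Creg + 1) * F x + (P.pb + 3) / P.γ * 2 ^ P.n := by ring
  rw [e1, e2]
  linarith

/-- **(A13) NEAR.** `κn`, `c` : two numbers (see `hκ`, `hc`), `c9 = c8 + τ 2^κ` -/
theorem near (H : NH P leaf F X R κ x ζ b ν c1 c2 s d c9 G) (hm : IsSt P κ x m)
    (hE : ∑ q ∈ range P.N, (F (pc P x m q) : ℝ) *
      (((m (q + 1) : ℝ) - m q) / F (pc P x m q) - ((x.v : ℝ) - x.u) / F x) ^ 2 ≤ s ^ 2 * F x)
    (hdr : ∑ q ∈ range P.N, (F (pc P x m q) : ℝ) - F x ≤ s * F x)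
    {c8 τ κn c : ℝ} (hτ : 0 ≤ τ) (h9 : c9 ≤ c8 + τ * 2 ^ κ)
    (hκ : ((P.um : ℝ) / P.pm + (P.pb + 3) / P.γ * (P.n * P.Creg + 1) + 1 / P.g) / P.K
      + 2 * ν + 8 * P.N / 2 ^ P.dl + 2 * τ ≤ κn)
    (hc : ((P.um : ℝ) / P.pm + (P.pb + 3) / P.γ * 2 ^ P.n) / P.K + (2 * 2 ^ P.n + 2) + c8 + 2 * τ
      + P.N * (c1 + c2) + 8 * P.N / 2 ^ P.dl ≤ c) :
    (∑ k ∈ range P.K, R k κ x) / P.K
      ≤ ∑ q ∈ range P.N, (∑ k ∈ range P.K, numR P F (R k) (pc P x m q)) / P.K + κn * F x + c := by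
  have h1 := H.near_raw hm hE hdr
  have hK : (0 : ℝ) < P.K := by exact_mod_cast H.K0
  have h2 := div_le_div_of_nonneg_right H.reg_le hK.le
  have hν := (H.osc 0 H.K0).ν0
  have hF : (0 : ℝ) ≤ F x := Nat.cast_nonneg _
  have h3 : (2 : ℝ) ^ κ ≤ 2 * (F x + 1) := by exact_mod_cast ArrLip195.adm_lo H.adm
  have h4 : ν * ((1 + s) * F x) ≤ 2 * ν * F x := by
    have := mul_le_mul_of_nonneg_left (mul_le_mul_of_nonneg_right
      (by linarith [H.s1] : 1 + s ≤ 2) hF) hν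
    linarith
  have h5 : (P.N : ℝ) * (4 * (2 ^ κ / 2 ^ P.dl)) ≤ 8 * P.N / 2 ^ P.dl * (F x + 1) := by
    have h6 : (0 : ℝ) ≤ 4 * P.N / 2 ^ P.dl := by positivity
    have h7 := mul_le_mul_of_nonneg_left h3 h6
    calc (P.N : ℝ) * (4 * (2 ^ κ / 2 ^ P.dl)) = 4 * P.N / 2 ^ P.dl * 2 ^ κ := by ring
      _ ≤ 4 * P.N / 2 ^ P.dl * (2 * (F x + 1)) := h7
      _ = _ := by ring
  have h6 : τ * 2 ^ κ ≤ 2 * τ * (F x + 1) := by
    have := mul_le_mul_of_nonneg_left h3 hτ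
    linarith
  have h7 := mul_le_mul_of_nonneg_right hκ hF
  have e1 : (((P.um : ℝ) / P.pm + (P.pb + 3) / P.γ * (P.n * P.Creg + 1) + 1 / P.g) * F x
      + ((P.um : ℝ) / P.pm + (P.pb + 3) / P.γ * 2 ^ P.n)) / P.K
      = ((P.um : ℝ) / P.pm + (P.pb + 3) / P.γ * (P.n * P.Creg + 1) + 1 / P.g) / P.K * F x
        + ((P.um : ℝ) / P.pm + (P.pb + 3) / P.γ * 2 ^ P.n) / P.K := by ring
  rw [e1] at h2
  nlinarith

end NH

end Crest.Agent.R288.WinNear440
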