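import Mathlib

/-!
# R288 / WinNumA_948 : the numbers of the chain, real algebra (leaf ANA.W7, with 895)

`Let` = the letters of `WinStm330.WinIn` and `ChainU616.Ana` (no asymptotics).  `Let.Small` = the list of plain
inequalities which the parameter table has to deliver.  Then, for every factor `β ∈ [1, B₀]`:

* `Let.c`, `Let.kd`, `Let.k2`, `Let.th` : `c = cc + 3 λ β`, `kd = k₀ + k' β`, `κ₁`, `θ = 2 I ρ`;
* `Small.hc`, `Small.hc5`, `Small.hth`  : the hypotheses of `WinIn.epoch_le`;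
* `Small.fin`                           : `(1+θ)(1+c+κ₁ I) ≤ aR + qR β`;
* `Small.aR_le`, `Small.qR_le`          : `aR + c₃ ≤ 1 + d`, `qR + ν ≤ d` (for `Ana.root`).
-/

set_option autoImplicit false

namespace Crest.Agent.R288.WinNumA948

/-- `(1+ρ)^I ≤ 1 + 2 I ρ` -/
theorem pow_le {ρ : ℝ} (I : ℕ) (h0 : 0 ≤ ρ) (h : (I : ℝ) * ρ ≤ 1 / 2) :
    (1 + ρ) ^ I ≤ 1 + 2 * (I * ρ) := by
  have hI : (0 : ℝ) ≤ I * ρ := mul_nonneg (Nat.cast_nonneg _) h0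
  have h1 : (1 + ρ) ^ I ≤ Real.exp (I * ρ) := by
    rw [Real.exp_nat_mul]
    exact pow_le_pow_left₀ (by linarith) (by linarith [Real.add_one_le_exp ρ]) I
  have h2 : Real.exp (I * ρ) ≤ 1 / (1 - I * ρ) :=
    Real.exp_bound_div_one_sub_of_interval hI (by linarith)
  refine (h1.trans h2).trans ?_
  rw [div_le_iff₀ (by linarith)]
  nlinarith

/-- the letters: `p` = relative grid step, `ζ` = Lipschitz defect, `δ` = retire margin, `b1`, `k1` (far), `κn`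
(near), `s` (good), `lam` (potential), defect `k₀ + k' β`, `e4`, `e5` (additive), `ρ` (growth of `V`), `B₀`, `I`
(macro height), `ν`, `c₃` (last number), `d` (target) -/
structure Let where
  p : ℝ
  ζ : ℝ
  δ : ℝ
  b1 : ℝ
  k1 : ℝ
  κn : ℝ
  s : ℝ
  lam : ℝ
  k₀ : ℝ
  k' : ℝ
  e4 : ℝ
  e5 : ℝ
  ρ : ℝ
  B₀ : ℝ
  I : ℕ
  ν : ℝ
  c₃ : ℝ
  d : ℝ

/-- **what the table has to deliver** -/
structure Let.Small (L : Let) : Prop where
  p0 : 0 ≤ L.p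
  ζ0 : 0 ≤ L.ζ
  δ0 : 0 ≤ L.δ
  b10 : 0 ≤ L.b1
  k10 : 0 ≤ L.k1
  κn0 : 0 ≤ L.κn
  s0 : 0 < L.s
  s1 : L.s ≤ 1
  hlam : L.k1 * (1 + L.s ^ 2) ≤ L.lam * L.s ^ 2
  k₀0 : 0 ≤ L.k₀
  k'0 : 0 ≤ L.k'
  e40 : 0 ≤ L.e4
  e50 : 0 ≤ L.e5
  ρ0 : 0 ≤ L.ρ
  B₀1 : 1 ≤ L.B₀
  ν0 : 0 ≤ L.ν
  c₃0 : 0 ≤ L.c₃
  d0 : 0 < L.d
  d1 : L.d ≤ 1 / 4
  /-- small numbers -/
  hζ : L.ζ ≤ 1
  he5 : L.e5 ≤ L.d / 32
  hp : L.p * L.B₀ ≤ L.d / 32
  hb1 : L.b1 ≤ L.d / 32
  hδ : L.δ ≤ L.d / 32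
  hlamd : L.lam ≤ L.d / 64
  hν : L.ν ≤ L.d / 32
  hc₃ : L.c₃ ≤ L.d / 32
  /-- small against the macro height -/
  hρI : L.I * L.ρ ≤ L.d / 32
  hk0 : L.I * ((2 * L.lam + L.k1 / L.s) * L.k₀) ≤ L.d / 32
  hk' : L.I * ((2 * L.lam + L.k1 / L.s) * L.k') ≤ L.d / 32
  he4 : L.I * L.e4 ≤ L.d / 32
  hpI : L.I * (L.p * L.B₀) ≤ L.d / 32
  hζI : L.I * (5 * L.lam * (L.p + L.ζ)) ≤ L.d / 32
  hκn : L.I * L.κn ≤ L.d / 32

namespace Let

variable (L : Let)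

/-- the constant part of `c` -/
noncomputable def cc : ℝ := L.e5 + 3 * (L.p * L.B₀) + 2 * (L.b1 + L.δ)
noncomputable def c (β : ℝ) : ℝ := L.cc + 3 * L.lam * β
noncomputable def kd (β : ℝ) : ℝ := L.k₀ + L.k' * β
/-- `κ₁` of `WinIn.epoch_le` -/
noncomputable def k2 (β : ℝ) : ℝ :=
  L.κn * ((1 + L.ζ) * β) + (2 * L.lam + L.k1 / L.s) * L.kd β
    + ((L.p * β + L.e4) + 5 * L.lam * ((L.p + L.ζ) * β))
noncomputable def th : ℝ := 2 * (L.I * L.ρ)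
noncomputable def aR : ℝ :=
  (1 + L.th) * (1 + L.cc + (L.I * ((2 * L.lam + L.k1 / L.s) * L.k₀)
    + L.I * (L.p * L.B₀) + L.I * L.e4))
noncomputable def qR : ℝ :=
  (1 + L.th) * (3 * L.lam + (L.I * L.κn * (1 + L.ζ)
    + L.I * ((2 * L.lam + L.k1 / L.s) * L.k') + L.I * (5 * L.lam * (L.p + L.ζ))))

variable {L}

namespace Small

theorem lam0 (S : L.Small) : 0 ≤ L.lam := by
  have h1 := S.k10
  have h2 : (0 : ℝ) < L.s ^ 2 := pow_pos S.s0 2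
  have h3 : 0 ≤ L.k1 * (1 + L.s ^ 2) := by positivity
  by_contra h
  push Not at h
  have := mul_neg_of_neg_of_pos h h2
  linarith [S.hlam]

theorem cc0 (S : L.Small) : 0 ≤ L.cc := by
  have := S.e50; have := S.b10; have := S.δ0
  have := mul_nonneg S.p0 (zero_le_one.trans S.B₀1)
  unfold cc
  linarith

theorem th0 (S : L.Small) : 0 ≤ L.th := by
  have := S.ρ0
  unfold th
  positivity

theorem c0 (S : L.Small) {β : ℝ} (hβ : 0 ≤ β) : 0 ≤ L.c β := by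
  have := S.cc0; have := S.lam0
  unfold c
  positivity

theorem kd0 (S : L.Small) {β : ℝ} (hβ : 0 ≤ β) : 0 ≤ L.kd β := by
  have := S.k₀0; have := S.k'0
  unfold kd
  positivity

/-- retired states -/
theorem hc (S : L.Small) {β : ℝ} (hβ0 : 0 ≤ β) (hβ : β ≤ L.B₀) :
    (1 + L.b1) * (1 + L.p * β) ≤ (1 - L.δ) * (1 + L.c β - L.p * β - 3 * L.lam * β) := by
  have ht : L.p * β ≤ L.p * L.B₀ := mul_le_mul_of_nonneg_left hβ S.p0
  have ht0 : 0 ≤ L.p * β := mul_nonneg S.p0 hβ0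
  have h1 := S.hp; have h2 := S.hb1; have h3 := S.hδ; have h4 := S.d1; have h5 := S.e50
  have h6 := S.b10; have h7 := S.δ0
  set t0 := L.p * L.B₀ with ht0d
  set t := L.p * β
  have e : 1 + L.c β - t - 3 * L.lam * β = 1 + (L.e5 + 3 * t0 + 2 * (L.b1 + L.δ)) - t := by
    unfold c cc
    ring
  rw [e]
  have h8 : (1 - L.δ) * (1 + 2 * t0 + 2 * (L.b1 + L.δ))
      ≤ (1 - L.δ) * (1 + (L.e5 + 3 * t0 + 2 * (L.b1 + L.δ)) - t) :=
    mul_le_mul_of_nonneg_left (by linarith) (by linarith)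
  refine le_trans ?_ h8
  have h9 : (1 + L.b1) * (1 + t) ≤ 1 + L.b1 + t + t * (1 / 128) := by nlinarith
  have h10 : 1 + 2 * t0 + 2 * (L.b1 + L.δ) - L.δ - L.δ * (1 / 2)
      ≤ (1 - L.δ) * (1 + 2 * t0 + 2 * (L.b1 + L.δ)) := by
    have h11 : L.δ * (2 * t0 + 2 * (L.b1 + L.δ)) ≤ L.δ * (1 / 2) :=
      mul_le_mul_of_nonneg_left (by linarith) h7
    linarith
  linarith

/-- leaves -/
theorem hc5 (S : L.Small) {β : ℝ} (hβ0 : 0 ≤ β) (hβ : β ≤ L.B₀) :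
    L.e5 + 2 * (L.p * β) + 3 * L.lam * β ≤ L.c β := by
  have ht : L.p * β ≤ L.p * L.B₀ := mul_le_mul_of_nonneg_left hβ S.p0
  have ht0 : 0 ≤ L.p * β := mul_nonneg S.p0 hβ0
  have := S.b10; have := S.δ0
  unfold c cc
  linarith

theorem hth (S : L.Small) : (1 + L.ρ) ^ L.I ≤ 1 + L.th :=
  pow_le L.I S.ρ0 (by have := S.hρI; have := S.d1; linarith)

theorem k20 (S : L.Small) {β : ℝ} (hβ : 0 ≤ β) : 0 ≤ L.k2 β := by
  have := S.lam0; have := S.kd0 hβ; have := S.κn0; have := S.ζ0; have := S.k10; have := S.s0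
  have := S.p0; have := S.e40
  unfold k2
  positivity

/-- **the affine bound of an epoch** -/
theorem fin (S : L.Small) {β : ℝ} (_hβ0 : 0 ≤ β) (hβ : β ≤ L.B₀) :
    (1 + L.th) * (1 + L.c β + L.k2 β * L.I) ≤ L.aR + L.qR * β := by
  have hth := S.th0
  have hI : (0 : ℝ) ≤ L.I := Nat.cast_nonneg _
  have h1 : L.I * (L.p * β) ≤ L.I * (L.p * L.B₀) :=
    mul_le_mul_of_nonneg_left (mul_le_mul_of_nonneg_left hβ S.p0) hI
  have e : L.aR + L.qR * β - (1 + L.th) * (1 + L.c β + L.k2 β * L.I)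
      = (1 + L.th) * (L.I * (L.p * L.B₀) - L.I * (L.p * β)) := by
    unfold aR qR c k2 kd
    ring
  have h3 : 0 ≤ L.aR + L.qR * β - (1 + L.th) * (1 + L.c β + L.k2 β * L.I) := by
    rw [e]
    exact mul_nonneg (by linarith) (by linarith)
  linarith

theorem aR1 (S : L.Small) : 1 ≤ L.aR := by
  have hth := S.th0; have hlam := S.lam0; have hζ := S.ζ0; have hcc := S.cc0
  have := S.k10; have := S.s0; have := S.k₀0; have := S.p0; have := S.e40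
  have hB : 0 ≤ L.B₀ := zero_le_one.trans S.B₀1
  unfold aR
  have h1 : 0 ≤ L.I * ((2 * L.lam + L.k1 / L.s) * L.k₀) + L.I * (L.p * L.B₀) + L.I * L.e4 := by
    positivity
  nlinarith

theorem qR0 (S : L.Small) : 0 ≤ L.qR := by
  have hth := S.th0; have hlam := S.lam0; have hζ := S.ζ0
  have := S.k10; have := S.s0; have := S.k'0; have := S.κn0; have := S.p0
  unfold qR
  positivity

theorem aR_le (S : L.Small) : L.aR + L.c₃ ≤ 1 + L.d := by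
  have hd := S.d0; have hd1 := S.d1
  have hth : L.th ≤ L.d / 16 := by unfold th; linarith [S.hρI]
  have hth0 := S.th0
  have hcc : L.cc ≤ L.d / 4 := by
    unfold cc; linarith [S.he5, S.hp, S.hb1, S.hδ]
  have hcc0 := S.cc0
  have h1 : L.cc + (L.I * ((2 * L.lam + L.k1 / L.s) * L.k₀) + L.I * (L.p * L.B₀) + L.I * L.e4)
      ≤ 3 * L.d / 8 := by
    linarith [S.hk0, S.hpI, S.he4, S.d0]
  have h2 : L.aR ≤ (1 + L.th) * (1 + 3 * L.d / 8) := by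
    unfold aR
    exact mul_le_mul_of_nonneg_left (by linarith) (by linarith)
  have h3 : (1 + L.th) * (1 + 3 * L.d / 8) ≤ (1 + L.d / 16) * (1 + 3 * L.d / 8) :=
    mul_le_mul_of_nonneg_right (by linarith) (by linarith)
  have h4 : (1 + L.d / 16) * (1 + 3 * L.d / 8) ≤ 1 + L.d / 2 := by nlinarith
  linarith [S.hc₃]

theorem qR_le (S : L.Small) : L.qR + L.ν ≤ L.d := by
  have hd := S.d0; have hd1 := S.d1
  have hth : L.th ≤ L.d / 16 := by unfold th; linarith [S.hρI]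
  have hth0 := S.th0
  have hlam := S.lam0
  have hκ : L.I * L.κn * (1 + L.ζ) ≤ L.d / 16 := by
    have h1 : (0 : ℝ) ≤ L.I * L.κn := mul_nonneg (Nat.cast_nonneg _) S.κn0
    have h2 : L.I * L.κn * (1 + L.ζ) ≤ L.I * L.κn * 2 :=
      mul_le_mul_of_nonneg_left (by linarith [S.hζ]) h1
    linarith [S.hκn]
  have h1 : 3 * L.lam + (L.I * L.κn * (1 + L.ζ) + L.I * ((2 * L.lam + L.k1 / L.s) * L.k')
      + L.I * (5 * L.lam * (L.p + L.ζ))) ≤ 11 * L.d / 64 := by linarith [S.hlamd, S.hk', S.hζI]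
  have h2 : L.qR ≤ (1 + L.th) * (11 * L.d / 64) := by
    unfold qR
    exact mul_le_mul_of_nonneg_left h1 (by linarith)
  have h3 : (1 + L.th) * (11 * L.d / 64) ≤ 2 * (11 * L.d / 64) :=
    mul_le_mul_of_nonneg_right (by linarith) (by linarith)
  linarith [S.hν]

end Small

end Let

end Crest.Agent.R288.WinNumA948
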