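import Crest.Agent.R288.WinNumA_948
import Crest.Agent.R288.ParC_895
import Crest.Agent.R288.ParC_806

/-!
# R288 / WinNumB_948 : `Let.Small` for the table from ORDERS (leaf ANA.W7, with 895)

`Orders L` : the orders (895's calculus) of the letters `L h` as functions of `h`.  `ev_small` : then
`(L h).Small` for all large `h`, with `d = 1 / (6 W h)`.
-/

set_option autoImplicit false

open Filter

namespace Crest.Agent.R288.WinNumB948

open Crest.Agent.R288.Asy720 Crest.Agent.R288.Par806 Crest.Agent.R288.Par895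
open Crest.Agent.R288.WinNumA948

/-- order `(a, b)` negative: eventually `C W |f| ≤ 1` -/
theorem small_of_ord {a b : ℝ} {f : ℕ → ℝ} (hf : Ord a b f) (h : a < 0 ∨ (a = 0 ∧ b < 0)) (C : ℝ) :
    ∀ᶠ h : ℕ in atTop, f h ≤ 1 / (6 * (W h : ℝ)) / C ∨ C ≤ 0 := by
  rcases le_or_gt C 0 with hC | hC
  · exact Eventually.of_forall fun _ => Or.inr hC
  · filter_upwards [hf.mul_le_one h ((ord_W.const_mul (6 * C)))] with m h1
    left
    have hW : (0 : ℝ) < W m := by exact_mod_cast W_pos m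
    have h2 : f m * (6 * C * (W m : ℝ)) ≤ 1 := (le_abs_self _).trans h1
    rw [div_div, le_div_iff₀ (by positivity)]
    calc f m * (6 * (W m : ℝ) * C) = f m * (6 * C * (W m : ℝ)) := by ring
      _ ≤ 1 := h2

/-- the form used below: `f ≤ d / c`, `d = 1/(6 W)` -/
theorem le_d {a b : ℝ} {f : ℕ → ℝ} (hf : Ord a b f) (h : a < 0 ∨ (a = 0 ∧ b < 0)) {c : ℝ} (hc : 0 < c) :
    ∀ᶠ h : ℕ in atTop, f h ≤ 1 / (6 * (W h : ℝ)) / c := by
  filter_upwards [small_of_ord hf h c] with m h1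
  rcases h1 with h1 | h1
  · exact h1
  · exact absurd h1 (not_le.2 hc)

/-- **orders of the letters** -/
structure Orders (L : ℕ → Let) : Prop where
  d : ∀ h, (L h).d = 1 / (6 * (W h : ℝ))
  I : ∀ h, (L h).I = II h
  p0 : ∀ h, 0 ≤ (L h).p
  ζ0 : ∀ h, 0 ≤ (L h).ζ
  δ0 : ∀ h, 0 ≤ (L h).δ
  b10 : ∀ h, 0 ≤ (L h).b1
  k10 : ∀ h, 0 ≤ (L h).k1
  κn0 : ∀ h, 0 ≤ (L h).κn
  s0 : ∀ h, 0 < (L h).s
  s1 : ∀ h, (L h).s ≤ 1
  lam : ∀ h, (L h).lam = 2 * (L h).k1 / (L h).s ^ 2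
  k₀0 : ∀ h, 0 ≤ (L h).k₀
  k'0 : ∀ h, 0 ≤ (L h).k'
  e40 : ∀ h, 0 ≤ (L h).e4
  e50 : ∀ h, 0 ≤ (L h).e5
  ρ0 : ∀ h, 0 ≤ (L h).ρ
  B₀ : ∀ h, (L h).B₀ = 2 ^ lB h
  ν0 : ∀ h, 0 ≤ (L h).ν
  c₃0 : ∀ h, 0 ≤ (L h).c₃
  /-- orders -/
  op : Ord (-16) 0 fun h => (L h).p
  oζ : Ord 0 (-1) fun h => (L h).ζ
  oδ : ∀ᶠ h : ℕ in atTop, (L h).δ ≤ (L h).d / 32
  ob1 : Ord 0 (-1) fun h => (L h).b1
  ok1 : Ord 0 (-1) fun h => (L h).k1
  os : Ord 0 0 fun h => ((L h).s)⁻¹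
  ok₀ : Ord 0 (-1) fun h => (L h).k₀
  ok' : Ord 0 (-1) fun h => (L h).k'
  oe4 : Ord 0 (-2) fun h => (L h).e4
  oe5 : Ord 0 (-1) fun h => (L h).e5
  oρ : Ord 0 (-2) fun h => (L h).ρ
  oν : Ord 0 (-1) fun h => (L h).ν
  oc₃ : Ord 0 (-1) fun h => (L h).c₃
  /-- the near regret against the macro height -/
  oκn : ∀ᶠ h : ℕ in atTop, (II h : ℝ) * (L h).κn ≤ (L h).d / 32

/-- **the table delivers `Let.Small`** -/
theorem ev_small {L : ℕ → Let} (H : Orders L) : ∀ᶠ h : ℕ in atTop, (L h).Small := by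
  have hB : Ord 1 4 fun h => (L h).B₀ := ord_B0.congr fun h => H.B₀ h
  have hpB : Ord (-15) 4 fun h => (L h).p * (L h).B₀ := by
    have := H.op.mul hB
    norm_num at this
    exact this
  have hs2 : Ord 0 0 fun h => ((L h).s)⁻¹ ^ 2 := H.os.pow0 2
  have hlam : Ord 0 (-1) fun h => (L h).lam :=
    ((H.ok1.const_mul 2).mul0 hs2).congr fun h => by
      rw [H.lam h, inv_pow, div_eq_mul_inv]
  have hq : Ord 0 (-1) fun h => 2 * (L h).lam + (L h).k1 / (L h).s :=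
    (hlam.const_mul 2).add ((H.ok1.mul0 H.os).congr fun h => div_eq_mul_inv _ _)
  have hqk0 : Ord 0 (-1) fun h => (II h : ℝ) * ((2 * (L h).lam + (L h).k1 / (L h).s) * (L h).k₀) := by
    have := ord_II.mul (hq.mul H.ok₀)
    norm_num at this
    exact this
  have hqk' : Ord 0 (-1) fun h => (II h : ℝ) * ((2 * (L h).lam + (L h).k1 / (L h).s) * (L h).k') := by
    have := ord_II.mul (hq.mul H.ok')
    norm_num at this
    exact this
  have he4 : Ord 0 (-1) fun h => (II h : ℝ) * (L h).e4 := by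
    have := ord_II.mul H.oe4
    norm_num at this
    exact this
  have hρI : Ord 0 (-1) fun h => (II h : ℝ) * (L h).ρ := by
    have := ord_II.mul H.oρ
    norm_num at this
    exact this
  have hpI : Ord (-15) 5 fun h => (II h : ℝ) * ((L h).p * (L h).B₀) := by
    have := ord_II.mul hpB
    norm_num at this
    exact this
  have hζI : Ord 0 (-1) fun h => (II h : ℝ) * (5 * (L h).lam * ((L h).p + (L h).ζ)) := by
    have h1 : Ord 0 (-1) fun h => (L h).p + (L h).ζ :=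
      (H.op.lt (by norm_num) _).add H.oζ
    have := ord_II.mul ((hlam.const_mul 5).mul h1)
    norm_num at this
    exact this
  have n1 : ((0 : ℝ) < 0) ∨ ((0 : ℝ) = 0 ∧ (-1 : ℝ) < 0) := Or.inr ⟨rfl, by norm_num⟩
  filter_upwards [le_d hpB (Or.inl (by norm_num)) (c := 32) (by norm_num),
    le_d H.oe5 n1 (c := 32) (by norm_num), le_d H.ob1 n1 (c := 32) (by norm_num), H.oδ,
    le_d hlam n1 (c := 64) (by norm_num), le_d H.oν n1 (c := 32) (by norm_num),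
    le_d H.oc₃ n1 (c := 32) (by norm_num), le_d hρI n1 (c := 32) (by norm_num),
    le_d hqk0 n1 (c := 32) (by norm_num), le_d hqk' n1 (c := 32) (by norm_num),
    le_d he4 n1 (c := 32) (by norm_num), le_d hpI (Or.inl (by norm_num)) (c := 32) (by norm_num),
    le_d hζI n1 (c := 32) (by norm_num), H.oκn, H.oζ.le_one n1]
    with h g1 g2 g3 g4 g5 g6 g7 g8 g9 g10 g11 g12 g13 g14 g15
  have hW : (1 : ℝ) ≤ W h := by exact_mod_cast W_pos h
  have hd := H.d h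
  have hI : ((L h).I : ℝ) = (II h : ℝ) := by rw [H.I h]
  have hd0 : 0 < (L h).d := by rw [hd]; positivity
  refine
    { p0 := H.p0 h, ζ0 := H.ζ0 h, δ0 := H.δ0 h, b10 := H.b10 h, k10 := H.k10 h, κn0 := H.κn0 h,
      s0 := H.s0 h, s1 := H.s1 h, hlam := ?_, k₀0 := H.k₀0 h, k'0 := H.k'0 h, e40 := H.e40 h,
      e50 := H.e50 h, ρ0 := H.ρ0 h, B₀1 := ?_, ν0 := H.ν0 h, c₃0 := H.c₃0 h, d0 := hd0, d1 := ?_,
      hζ := (le_abs_self _).trans g15, he5 := ?_, hp := ?_, hb1 := ?_, hδ := g4, hlamd := ?_,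
      hν := ?_, hc₃ := ?_, hρI := ?_, hk0 := ?_, hk' := ?_, he4 := ?_, hpI := ?_, hζI := ?_,
      hκn := ?_ }
  · have hs := H.s0 h
    have hs2 : 0 < (L h).s ^ 2 := pow_pos hs 2
    rw [H.lam h, div_mul_cancel₀ _ hs2.ne']
    have hs3 : (L h).s ^ 2 ≤ 1 := pow_le_one₀ hs.le (H.s1 h)
    nlinarith [H.k10 h]
  · rw [H.B₀ h]; exact one_le_pow₀ (by norm_num)
  · rw [hd, div_le_div_iff₀ (by positivity) (by norm_num)]
    linarith
  · rw [hd]; exact g2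
  · rw [hd]; exact g1
  · rw [hd]; exact g3
  · rw [hd]; exact g5
  · rw [hd]; exact g6
  · rw [hd]; exact g7
  · rw [hd, hI]; exact g8
  · rw [hd, hI]; exact g9
  · rw [hd, hI]; exact g10
  · rw [hd, hI]; exact g11
  · rw [hd, hI]; exact g12
  · rw [hd, hI]; exact g13
  · rw [hI]; exact g14

/-! ### the near regret -/

theorem aux {C T x D y w : ℝ} (hC : 0 ≤ C) (hT : 2304 * (C + 1) ≤ T) (hW : 1 ≤ w) (hD : 0 < D)
    (hx : 0 ≤ x) (hy : x ≤ 2 * y) (h : T * w ^ 2 * y ≤ D) : C * x / D ≤ 1 / (1152 * w) := by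
  have hW2 : w ≤ w ^ 2 := by nlinarith
  have hy0 : 0 ≤ y := by linarith
  rw [div_le_div_iff₀ hD (by positivity), one_mul]
  refine le_trans ?_ h
  have h1 : C * x ≤ (C + 1) * (2 * y) := mul_le_mul (by linarith) hy hx (by linarith)
  have h2 : C * x * (1152 * w) ≤ (C + 1) * (2 * y) * (1152 * w ^ 2) :=
    mul_le_mul h1 (by linarith) (by positivity) (mul_nonneg (by linarith) (hx.trans hy))
  have h3 : 2304 * (C + 1) * (w ^ 2 * y) ≤ T * (w ^ 2 * y) :=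
    mul_le_mul_of_nonneg_right hT (by positivity)
  linarith

/-- real form of one natural inequality -/
theorem lines_near (T h : ℕ) (H : ParOK T h) :
    (T : ℝ) * (W h : ℝ) ^ 2 * (h * ((pb h : ℝ) + nn h + Lg h + 1)) ≤ gam h * KK h := by
  have h1 := H.near
  have h2 : ((T * W h ^ 2 * (h * (pb h + nn h + Lg h + 1)) : ℕ) : ℝ) ≤ ((gam h * KK h : ℕ) : ℝ) :=
    Nat.cast_le.2 h1
  simpa only [Nat.cast_mul, Nat.cast_add, Nat.cast_pow, Nat.cast_one] using h2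

theorem lines_nofl (T h : ℕ) (H : ParOK T h) :
    (T : ℝ) * (W h : ℝ) ^ 2 * h ≤ gg h * KK h * nn h := by
  have h1 := H.noflag
  have h2 : ((T * W h ^ 2 * h : ℕ) : ℝ) ≤ ((gg h * KK h * nn h : ℕ) : ℝ) := Nat.cast_le.2 h1
  simpa only [Nat.cast_mul, Nat.cast_add, Nat.cast_pow, Nat.cast_one] using h2

theorem lines_mode (T h : ℕ) (H : ParOK T h) :
    (T : ℝ) * (W h : ℝ) ^ 2 * (h * (um h : ℝ)) ≤ pm h * KK h := by
  have h1 := H.mode
  have h2 : ((T * W h ^ 2 * (h * um h) : ℕ) : ℝ) ≤ ((pm h * KK h : ℕ) : ℝ) := Nat.cast_le.2 h1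
  simpa only [Nat.cast_mul, Nat.cast_add, Nat.cast_pow, Nat.cast_one] using h2

theorem lines_II (T h : ℕ) (hT : 1 ≤ T) (H : ParOK T h) :
    (II h : ℝ) * nn h ≤ 2 * h ∧ (II h : ℝ) ≤ 2 * h := by
  have h1 := W_pos h
  have h3 : nn h * II h ≤ h + nn h := H.II_le
  have h4 : nn h ≤ h := le_trans (Nat.le_mul_of_pos_left _ (Nat.mul_pos hT h1)) H.nn_le
  have h5 : II h * nn h ≤ 2 * h := by rw [mul_comm]; omega
  have h6 := H.II_le'
  have h7 : II h ≤ 2 * h := by omega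
  refine ⟨?_, ?_⟩
  · have := (Nat.cast_le (α := ℝ)).2 h5
    simpa only [Nat.cast_mul, Nat.cast_ofNat] using this
  · have := (Nat.cast_le (α := ℝ)).2 h7
    simpa only [Nat.cast_mul, Nat.cast_ofNat] using this

theorem real_near {I n pp γ g u m K w c x T : ℝ} (hc : 0 ≤ c) (hT : 2304 * (c + 1) ≤ T) (hw : 1 ≤ w)
    (hK : 0 < K) (hn : 0 < n) (hg : 0 < g) (hγ : 0 < γ) (hm : 0 < m) (hI : 0 ≤ I) (hu : 0 ≤ u)
    (hp : 0 ≤ pp) (e1 : I * n ≤ 2 * x) (e2 : I ≤ 2 * x) (near : T * w ^ 2 * (x * pp) ≤ γ * K)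
    (nofl : T * w ^ 2 * x ≤ g * K * n) (mode : T * w ^ 2 * (x * u) ≤ m * K) :
    I * ((c * pp * n / γ + c / g + c * u / m) / K) ≤ 1 / (6 * w) / 64 := by
  have t1 := aux (x := (I * n) * pp) (D := γ * K) (y := x * pp) hc hT hw
    (by positivity) (by positivity) (by nlinarith) near
  have t2 := aux (x := I * n) (D := g * K * n) (y := x) hc hT hw
    (by positivity) (by positivity) e1 nofl
  have t3 := aux (x := I * u) (D := m * K) (y := x * u) hc hT hw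
    (by positivity) (by positivity) (by nlinarith) mode
  have e3 : I * ((c * pp * n / γ + c / g + c * u / m) / K)
      = c * (I * n * pp) / (γ * K) + c * (I * n) / (g * K * n) + c * (I * u) / (m * K) := by
    field_simp
  have e4 : 1 / (6 * w) / 64 = 1 / (1152 * w) + 1 / (1152 * w) + 1 / (1152 * w) := by
    field_simp
    norm_num
  rw [e3, e4]
  linarith

theorem gg_pos (h : ℕ) : 0 < gg h := by
  unfold gg
  exact Nat.mul_pos (Nat.pow_pos (W_pos h)) (Nat.pow_pos (Lg_pos h))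

theorem gam_pos (h : ℕ) : 0 < gam h := by
  unfold gam
  exact Nat.mul_pos (Nat.pow_pos (W_pos h)) (Nat.pow_pos (Lg_pos h))

theorem pm_pos (h : ℕ) : 0 < pm h := by
  unfold pm
  exact Nat.succ_pos _

theorem near_at (C T h : ℕ) (hT : 2304 * (C + 1) ≤ T) (H : ParOK T h) :
    (II h : ℝ) * (((C : ℝ) * ((pb h : ℝ) + nn h + Lg h + 1) * nn h / gam h + (C : ℝ) / gg h
      + (C : ℝ) * um h / pm h) / KK h) ≤ 1 / (6 * (W h : ℝ)) / 64 := by
  have hT1 : 1 ≤ T := by omega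
  have hTR : 2304 * ((C : ℝ) + 1) ≤ T := by
    have h1 := (Nat.cast_le (α := ℝ)).2 hT
    simpa only [Nat.cast_mul, Nat.cast_add, Nat.cast_ofNat, Nat.cast_one] using h1
  have hI := lines_II T h hT1 H
  have e1 := hI.1
  have e2 := hI.2
  have n1 := lines_near T h H
  have n2 := lines_nofl T h H
  have n3 := lines_mode T h H
  have a1 : (1 : ℝ) ≤ W h := Nat.one_le_cast.2 (W_pos h)
  have a2 : (0 : ℝ) < KK h := Nat.cast_pos.2 H.KK_pos
  have a3 : (0 : ℝ) < nn h := Nat.cast_pos.2 (nn_pos h)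
  have a4 : (0 : ℝ) < gg h := Nat.cast_pos.2 (gg_pos h)
  have a5 : (0 : ℝ) < gam h := Nat.cast_pos.2 (gam_pos h)
  have a6 : (0 : ℝ) < pm h := Nat.cast_pos.2 (pm_pos h)
  have a7 : (0 : ℝ) ≤ II h := Nat.cast_nonneg _
  have a8 : (0 : ℝ) ≤ um h := Nat.cast_nonneg _
  have a9 : (0 : ℝ) ≤ C := Nat.cast_nonneg _
  have a10 : (0 : ℝ) ≤ (pb h : ℝ) + nn h + Lg h + 1 :=
    add_nonneg (add_nonneg (add_nonneg (Nat.cast_nonneg _) (Nat.cast_nonneg _)) (Nat.cast_nonneg _))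
      zero_le_one
  exact real_near a9 hTR a1 a2 a3 a4 a5 a6 a7 a8 a10 e1 e2 n1 n2 n3

/-- `I · n · pb / (γ K)`, `I · um / (pm K)`, `I / (g K)` against `1/W` -/
theorem ev_near_small (C : ℕ) : ∀ᶠ h : ℕ in atTop,
    (II h : ℝ) * (((C : ℝ) * ((pb h : ℝ) + nn h + Lg h + 1) * nn h / gam h + (C : ℝ) / gg h
      + (C : ℝ) * um h / pm h) / KK h) ≤ 1 / (6 * (W h : ℝ)) / 64 := by
  filter_upwards [ev_ParOK (2304 * (C + 1))] with h H
  exact near_at C _ h le_rfl H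

theorem delta_real {w : ℝ} (h : 192 ≤ w) : 4 / (4 * w ^ 2) ≤ 1 / (6 * w) / 32 := by
  rw [div_div, div_le_div_iff₀ (by positivity) (by positivity)]
  nlinarith

/-- the retire margin `4 / δi = 1/W²` -/
theorem ev_delta : ∀ᶠ h : ℕ in atTop, 4 / (δi h : ℝ) ≤ 1 / (6 * (W h : ℝ)) / 32 := by
  have h0 : Tendsto (fun h => (W h : ℝ)) atTop atTop := tendsto_WR
  filter_upwards [h0.eventually_ge_atTop (192 : ℝ)] with h h1
  have e : (δi h : ℝ) = 4 * (W h : ℝ) ^ 2 := by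
    unfold δi
    rw [Nat.cast_mul, Nat.cast_pow]
    norm_num
  rw [e]
  exact delta_real h1

end Crest.Agent.R288.WinNumB948
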