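import Crest.Agent.R288.WinNumL_895

/-!
# R288, ANA.W7: the numbers of `WinStm330.WinIn.ep` and of the chain (helper895)

Letters `k1O knO b1O e4O e50O e51O r1O kd0O kd1O lamO rhoO thO z1O caO cqO kaO kqO aRO qRO` as functions of the
height `h` (`P = ParO331.parOf h`, `Lam = 2^lam`, `C0 = h^2`, `B₀ = B0O h`).

* `structure EpNum h` : every numeric hypothesis of `WinIn.ep` (literally), `ev_epNum`;
* `far_le`, `near_le` : `eFar ≤ e4O V`, `eNear ≤ e4O V` for `V ≥ Lam`;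
* **`ev_numR`** : `1 ≤ aRO`, `0 ≤ qRO`, `aRO + 5/h^2 ≤ 1 + 1/(6W)`, `qRO + 2/2^nb ≤ 1/(6W)`.
-/

set_option autoImplicit false

open Filter

namespace Crest.Agent.R288.WinNumE895

open Crest.Agent.R288.Asy720 Crest.Agent.R288.Par806 Crest.Agent.R288.Par895 Crest.Agent.R288.ParO331
  Crest.Agent.R288.WinNumL895

attribute [local irreducible] Par806.nn Par806.sb Par806.bb Par806.gam Par806.gg Par806.um Par806.dl
  Par806.lam Par806.KK Par806.pm Par806.pb Par806.nb Par806.δi Par806.Lg Par806.Mg Par806.W Par806.gI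
  Par806.II

/-! ### the letters -/

/-- far loss -/
noncomputable def k1O (h : ℕ) : ℝ :=
  ((um h : ℝ) * Real.log ((pm h : ℝ) + 1) + 1 + 1 / (gg h : ℝ)) / (KK h : ℝ) + 2 * tauO h + nuO h
/-- near loss (`WinNear482.kn`) -/
noncomputable def knO (h : ℕ) : ℝ :=
  ((um h : ℝ) / (pm h : ℝ) + ((pb h : ℝ) + 4) / (gam h : ℝ) * ((nn h : ℝ) * ((Creg : ℕ) : ℝ) + 1)
    + 1 / (gg h : ℝ)) / (KK h : ℝ) + nuO h * (1 + sO h) + 8 * (2 : ℝ) ^ nn h / 2 ^ dl h + 2 * tauO h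
/-- additive part of a far window -/
noncomputable def eFar (h : ℕ) : ℝ :=
  (um h : ℝ) * Real.log ((pm h : ℝ) + 1) / (KK h : ℝ) + (2 + c8O h) + (2 : ℝ) ^ nn h * (2 / 2 ^ nb h + 2)
/-- additive part of a near window, `c1 + c2 ≤ 32` -/
noncomputable def eNear (h : ℕ) : ℝ :=
  ((um h : ℝ) / (pm h : ℝ) + ((pb h : ℝ) + 4) / (gam h : ℝ) * 2 ^ nn h) / (KK h : ℝ)
    + (2 * (2 : ℝ) ^ nn h + 2) + (2 : ℝ) ^ nn h * 32 + c8O h
noncomputable def e4O (h : ℕ) : ℝ := (eFar h + eNear h) / LamO h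
/-- roundings of `FarA131.Opt` -/
noncomputable def etaO (h : ℕ) : ℝ := 8 * 2 ^ nn h + 16
/-- `WinF3131.kA` -/
noncomputable def kAO (h : ℕ) : ℝ :=
  (4 * (2 : ℝ) ^ nn h + 2) / 2 ^ pb h + 3 * ((um h : ℝ) * Real.log ((pm h : ℝ) + 1) + 2) / (KK h : ℝ)
    + 2 / 2 ^ nb h + tauO h
/-- `WinF3131.kB` -/
noncomputable def kBO (h : ℕ) : ℝ :=
  (4 * (2 : ℝ) ^ nn h + 2) * (1 / 2 ^ pb h + 1)
    + 6 * ((um h : ℝ) * Real.log ((pm h : ℝ) + 1) + 2) / (KK h : ℝ) + 2 / 2 ^ nb h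
    + tauO h + etaO h + 4
noncomputable def kd0O (h : ℕ) : ℝ := kBO h / LamO h
noncomputable def kd1O (h : ℕ) : ℝ := zO h + kAO h
noncomputable def b1O (h : ℕ) : ℝ := c8O h / LamO h + 2 * tauO h
noncomputable def e50O (h : ℕ) : ℝ := (1 + c8O h + tauO h) / (C0O h : ℝ)
noncomputable def e51O (h : ℕ) : ℝ := 2 * pO h + tauO h
noncomputable def r1O (h : ℕ) : ℝ := (2 : ℝ) ^ nn h * (pO h * (B0O h : ℝ)) + 2 * (2 : ℝ) ^ nn h / LamO h
noncomputable def lamO (h : ℕ) : ℝ := 2 * k1O h / sO h ^ 2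
noncomputable def rhoO (h : ℕ) : ℝ :=
  pO h * (B0O h : ℝ) + r1O h + (2 : ℝ) ^ nn h * (C0O h : ℝ) / LamO h
noncomputable def thO (h : ℕ) : ℝ := 2 * ((II h : ℝ) * rhoO h)
noncomputable def z1O (h : ℕ) : ℝ := 2 * (zO h + pO h)
noncomputable def caO (h : ℕ) : ℝ := e50O h + 3 * (pO h * (B0O h : ℝ)) + 2 * (b1O h + deO h)
noncomputable def cqO (h : ℕ) : ℝ := e51O h + 3 * lamO h
noncomputable def kaO (h : ℕ) : ℝ := (2 * lamO h + k1O h / sO h) * kd0O h + e4O h
noncomputable def kqO (h : ℕ) : ℝ :=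
  knO h * (1 + z1O h) + (2 * lamO h + k1O h / sO h) * kd1O h + pO h + 5 * lamO h * (pO h + z1O h)
noncomputable def aRO (h : ℕ) : ℝ := (1 + thO h) * (1 + caO h + kaO h * II h)
noncomputable def qRO (h : ℕ) : ℝ := (1 + thO h) * (cqO h + kqO h * II h)

/-! ### signs -/

theorem zO0 (h : ℕ) : 0 ≤ zO h := by unfold zO; positivity
theorem tauO0 (h : ℕ) : 0 ≤ tauO h := by unfold tauO; positivity
theorem pO0 (h : ℕ) : 0 ≤ pO h := by unfold pO; positivity
theorem nuO0 (h : ℕ) : 0 ≤ nuO h := by unfold nuO; positivity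
theorem c8O0 (h : ℕ) : 0 ≤ c8O h := by unfold c8O; positivity
theorem LamO0 (h : ℕ) : 0 < LamO h := by unfold LamO; positivity
theorem deO0 (h : ℕ) : 0 ≤ deO h := by unfold deO; positivity
theorem sO0 (h : ℕ) : 0 < sO h := by
  have h1 : (0 : ℝ) < (δi h : ℝ) := by
    have h0 : 0 < δi h := by unfold δi; have := W_pos h; positivity
    exact_mod_cast h0
  unfold sO PlanK693.sP
  simp only [parOf_δi, parOf_sb]
  positivity
theorem sO1 (h : ℕ) : sO h ≤ 1 := by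
  have h1 : (1 : ℝ) ≤ (δi h : ℝ) := by
    have h0 : 0 < δi h := by unfold δi; have := W_pos h; positivity
    exact_mod_cast h0
  have h2 : (1 : ℝ) ≤ (2 : ℝ) ^ sb h := one_le_pow₀ (by norm_num)
  have h3 : (1 : ℝ) ≤ 4 * ((δi h : ℝ) * (2 : ℝ) ^ sb h) := by
    have := one_le_mul_of_one_le_of_one_le h1 h2
    linarith
  unfold sO PlanK693.sP
  simp only [parOf_δi, parOf_sb]
  rw [div_le_one (by linarith)]
  linarith
theorem logpm0 (h : ℕ) : 0 ≤ Real.log ((pm h : ℝ) + 1) := Real.log_nonneg (by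
  have : (0 : ℝ) ≤ pm h := Nat.cast_nonneg _
  linarith)
theorem k1O0 (h : ℕ) : 0 ≤ k1O h := by
  have := logpm0 h; have := tauO0 h; have := nuO0 h
  unfold k1O; positivity
theorem knO0 (h : ℕ) : 0 ≤ knO h := by
  have := tauO0 h; have := nuO0 h; have := (sO0 h).le
  unfold knO; positivity
theorem eFar0 (h : ℕ) : 0 ≤ eFar h := by
  have := logpm0 h; have := c8O0 h
  unfold eFar; positivity
theorem eNear0 (h : ℕ) : 0 ≤ eNear h := by
  have := c8O0 h
  unfold eNear; positivity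
theorem e4O0 (h : ℕ) : 0 ≤ e4O h :=
  div_nonneg (add_nonneg (eFar0 h) (eNear0 h)) (LamO0 h).le
theorem kAO0 (h : ℕ) : 0 ≤ kAO h := by
  have := logpm0 h; have := tauO0 h
  unfold kAO; positivity
theorem kBO0 (h : ℕ) : 0 ≤ kBO h := by
  have := logpm0 h; have := tauO0 h
  have h3 : 0 ≤ etaO h := by unfold etaO; positivity
  unfold kBO; positivity
theorem kd0O0 (h : ℕ) : 0 ≤ kd0O h := div_nonneg (kBO0 h) (LamO0 h).le
theorem kd1O0 (h : ℕ) : 0 ≤ kd1O h := add_nonneg (zO0 h) (kAO0 h)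
theorem b1O0 (h : ℕ) : 0 ≤ b1O h := by
  have := c8O0 h; have := LamO0 h; have := tauO0 h
  unfold b1O; positivity
theorem e50O0 (h : ℕ) : 0 ≤ e50O h := by
  have := c8O0 h; have := tauO0 h
  unfold e50O; positivity
theorem e51O0 (h : ℕ) : 0 ≤ e51O h := by
  have := pO0 h; have := tauO0 h
  unfold e51O; positivity
theorem r1O0 (h : ℕ) : 0 ≤ r1O h := by
  have := pO0 h; have := LamO0 h
  unfold r1O; positivity
theorem lamO0 (h : ℕ) : 0 ≤ lamO h := by
  have := k1O0 h; have := sO0 h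
  unfold lamO; positivity
theorem rhoO0 (h : ℕ) : 0 ≤ rhoO h := by
  have := pO0 h; have := r1O0 h; have := LamO0 h
  unfold rhoO; positivity
theorem thO0 (h : ℕ) : 0 ≤ thO h := by
  have := rhoO0 h
  unfold thO; positivity
theorem z1O0 (h : ℕ) : 0 ≤ z1O h := by
  have := zO0 h; have := pO0 h
  unfold z1O; positivity
theorem caO0 (h : ℕ) : 0 ≤ caO h := by
  have := e50O0 h; have := pO0 h; have := b1O0 h; have := deO0 h
  unfold caO; positivity
theorem cqO0 (h : ℕ) : 0 ≤ cqO h := by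
  have := e51O0 h; have := lamO0 h
  unfold cqO; positivity
theorem kaO0 (h : ℕ) : 0 ≤ kaO h := by
  have := lamO0 h; have := k1O0 h; have := sO0 h; have := kd0O0 h; have := e4O0 h
  unfold kaO; positivity
theorem kqO0 (h : ℕ) : 0 ≤ kqO h := by
  have := knO0 h; have := z1O0 h; have := lamO0 h; have := k1O0 h; have := sO0 h
  have := kd1O0 h; have := pO0 h
  unfold kqO; positivity

/-! ### the windows -/

theorem far_le {h : ℕ} {V : ℝ} (hV : LamO h ≤ V) : eFar h ≤ e4O h * V := by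
  have h1 := LamO0 h
  have h2 := eFar0 h
  have h3 := eNear0 h
  calc eFar h ≤ eFar h + eNear h := by linarith
    _ = e4O h * LamO h := by unfold e4O; rw [div_mul_cancel₀ _ h1.ne']
    _ ≤ e4O h * V := mul_le_mul_of_nonneg_left hV (e4O0 h)

theorem near_le {h : ℕ} {V : ℝ} (hV : LamO h ≤ V) : eNear h ≤ e4O h * V := by
  have h1 := LamO0 h
  have h2 := eFar0 h
  have h3 := eNear0 h
  calc eNear h ≤ eFar h + eNear h := by linarith
    _ = e4O h * LamO h := by unfold e4O; rw [div_mul_cancel₀ _ h1.ne']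
    _ ≤ e4O h * V := mul_le_mul_of_nonneg_left hV (e4O0 h)

/-! ### orders -/

theorem ord_k1O : Ord 0 (-1) k1O := by
  have h0 : Ord 0 0 fun h => 1 / (gg h : ℝ) := by
    refine (Ord.const 1).of_le (Eventually.of_forall fun h => by positivity)
      (Eventually.of_forall fun h => ?_)
    have h1 : 1 ≤ gg h := by
      have := W_pos h; have := Lg_pos h
      have h2 : 0 < gg h := by unfold gg; positivity
      omega
    have h2 : (1 : ℝ) ≤ gg h := by exact_mod_cast h1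
    rw [div_le_one (by linarith)]
    exact h2
  have h1 : Ord 0 (-1) fun h =>
      ((um h : ℝ) * Real.log ((pm h : ℝ) + 1) + 1 + 1 / (gg h : ℝ)) * (KK h : ℝ)⁻¹ :=
    (((ord_um.mul0 ord_log_pm).add (Ord.const 1)).add h0).zmul ord_KK_inv
  have h2 : Ord 0 (-1) fun h => 2 * tauO h := (ord_tau.const_mul 2).weak (by norm_num)
  have h3 : Ord 0 (-1) nuO := ord_nuO.lt (by norm_num) _
  exact ((h1.add h2).add h3).congr fun h => by unfold k1O; rw [div_eq_mul_inv]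

theorem ord_lamO : Ord 0 (-1) lamO :=
  ((ord_k1O.const_mul 2).mul0 (ord_s_inv.pow0 2)).congr fun h => by
    unfold lamO; rw [inv_pow, div_eq_mul_inv]

theorem ord_k1s : Ord 0 (-1) fun h => k1O h / sO h :=
  (ord_k1O.mul0 ord_s_inv).congr fun h => by rw [div_eq_mul_inv]

theorem ord_l2 : Ord 0 (-1) fun h => 2 * lamO h + k1O h / sO h := (ord_lamO.const_mul 2).add ord_k1s

theorem ord_pB : Ord (-15) 1 fun h => pO h * (B0O h : ℝ) :=
  (ord_p.mul ord_B0O).lex (Or.inr ⟨by norm_num, by norm_num⟩)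

theorem ord_umK : Ord 0 (-1) fun h => ((um h : ℝ) * Real.log ((pm h : ℝ) + 1) + 2) / (KK h : ℝ) :=
  (((ord_um.mul0 ord_log_pm).add (Ord.const 2)).zmul ord_KK_inv).congr fun h => by
    rw [div_eq_mul_inv]

theorem ord_etaO : Ord 0 0 etaO := ((ord_N.const_mul 8).add (Ord.const 16)).congr fun _ => rfl

theorem ord_N' (c d : ℝ) : Ord 0 0 fun h => c * (2 : ℝ) ^ nn h + d := (ord_N.const_mul c).add (Ord.const d)

theorem ord_kAO : Ord 0 (-1) kAO := by
  have h1 : Ord 0 (-1) fun h => (4 * (2 : ℝ) ^ nn h + 2) * ((2 : ℝ) ^ pb h)⁻¹ :=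
    ((ord_N' 4 2).mul ord_P).lex (Or.inl (by norm_num))
  have h2 : Ord 0 (-1) fun h => 3 * (((um h : ℝ) * Real.log ((pm h : ℝ) + 1) + 2) / (KK h : ℝ)) :=
    ord_umK.const_mul 3
  have h3 : Ord 0 (-1) nuO := ord_nuO.lt (by norm_num) _
  have h4 : Ord 0 (-1) tauO := ord_tau.weak (by norm_num)
  exact (((h1.add h2).add h3).add h4).congr fun h => by
    unfold kAO nuO
    rw [div_eq_mul_inv, mul_div_assoc]

theorem ord_kBO : Ord 0 0 kBO := by
  have h1 : Ord 0 0 fun h => (4 * (2 : ℝ) ^ nn h + 2) * (1 / 2 ^ pb h + 1) :=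
    (ord_N' 4 2).mul0 (((ord_P.lt (by norm_num) 0).add (Ord.const 1)).congr fun h => by
      rw [one_div])
  have h2 : Ord 0 0 fun h => 6 * (((um h : ℝ) * Real.log ((pm h : ℝ) + 1) + 2) / (KK h : ℝ)) :=
    (ord_umK.const_mul 6).weak (by norm_num)
  have h3 : Ord 0 0 nuO := ord_nuO.lt (by norm_num) _
  have h4 : Ord 0 0 tauO := ord_tau.weak (by norm_num)
  exact (((((h1.add h2).add h3).add h4).add ord_etaO).add (Ord.const 4)).congr fun h => by
    unfold kBO nuO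
    rw [mul_div_assoc]

theorem ord_kd0 : Ord (-1) 0 kd0O :=
  (ord_kBO.zmul ord_LamO_inv).congr fun h => by unfold kd0O; rw [div_eq_mul_inv]

theorem ord_kd1 : Ord 0 (-1) kd1O := ((ord_z.weak (by norm_num)).add ord_kAO).congr fun _ => rfl

theorem ord_b1 : Ord 0 (-9) b1O := by
  have h1 : Ord 0 (-9) fun h => c8O h * (LamO h)⁻¹ :=
    (ord_c8.zmul ord_LamO_inv).lt (by norm_num) _
  exact (h1.add (ord_tau.const_mul 2)).congr fun h => by unfold b1O; rw [div_eq_mul_inv]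

theorem ord_e50 : Ord 0 (-2) e50O :=
  ((((Ord.const 1).add ord_c8).add (ord_tau.weak (by norm_num))).zmul ord_C0_inv).congr fun h => by
    unfold e50O; rw [div_eq_mul_inv]

theorem ord_e51 : Ord 0 (-9) e51O :=
  (((ord_p.const_mul 2).lt (by norm_num) (-9)).add ord_tau).congr fun _ => rfl

theorem ord_r1 : Ord (-1) 0 r1O := by
  have h1 : Ord (-1) 0 fun h => (2 : ℝ) ^ nn h * (pO h * (B0O h : ℝ)) :=
    (ord_N.zmul ord_pB).lt (by norm_num) 0
  have h2 : Ord (-1) 0 fun h => (2 * (2 : ℝ) ^ nn h) * (LamO h)⁻¹ :=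
    (ord_N.const_mul 2).zmul ord_LamO_inv
  exact (h1.add h2).congr fun h => by unfold r1O; rw [div_eq_mul_inv]

theorem ord_rho : Ord (-1) 2 rhoO := by
  have h1 : Ord (-1) 2 fun h => pO h * (B0O h : ℝ) := ord_pB.lt (by norm_num) 2
  have h2 : Ord (-1) 2 r1O := ord_r1.weak (by norm_num)
  have h3 : Ord (-1) 2 fun h => ((2 : ℝ) ^ nn h * (C0O h : ℝ)) * (LamO h)⁻¹ :=
    ((ord_N.zmul ord_C0).mul ord_LamO_inv).lex (Or.inr ⟨by norm_num, by norm_num⟩)
  exact ((h1.add h2).add h3).congr fun h => by unfold rhoO; rw [div_eq_mul_inv]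

theorem ord_th : Ord 0 (-2) thO :=
  (((ord_II.mul ord_rho).const_mul 2).lex (Or.inl (by norm_num))).congr fun _ => rfl

theorem ord_z1 : Ord 0 (-8) z1O :=
  ((ord_z.add (ord_p.lt (by norm_num) (-8))).const_mul 2).congr fun _ => rfl

theorem ord_eFar : Ord 0 0 eFar := by
  have h1 : Ord 0 0 fun h => (um h : ℝ) * Real.log ((pm h : ℝ) + 1) * (KK h : ℝ)⁻¹ :=
    ((ord_um.mul0 ord_log_pm).zmul ord_KK_inv).weak (by norm_num)
  have h2 : Ord 0 0 fun h => 2 + c8O h := (Ord.const 2).add ord_c8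
  have h3 : Ord 0 0 fun h => (2 : ℝ) ^ nn h * (2 / 2 ^ nb h + 2) :=
    ord_N.mul0 ((ord_nuO.lt (by norm_num) 0).add (Ord.const 2))
  exact ((h1.add h2).add h3).congr fun h => by unfold eFar; rw [div_eq_mul_inv]

theorem ord_le_one_inv {f : ℕ → ℕ} (hf : ∀ h, 0 < f h) : Ord 0 0 fun h => (f h : ℝ)⁻¹ := by
  refine (Ord.const 1).of_le (Eventually.of_forall fun h => by positivity)
    (Eventually.of_forall fun h => ?_)
  have h2 : (1 : ℝ) ≤ f h := by exact_mod_cast hf h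
  exact inv_le_one_of_one_le₀ h2

theorem gam_pos (h : ℕ) : 0 < gam h := by
  have := W_pos h; have := Lg_pos h
  unfold gam; positivity
theorem gg_pos (h : ℕ) : 0 < gg h := by
  have := W_pos h; have := Lg_pos h
  unfold gg; positivity
theorem um_pos (h : ℕ) : 0 < um h := by
  have := gg_pos h
  unfold um Creg; positivity

theorem ord_eNear : Ord 0 0 eNear := by
  have h1 : Ord 0 0 fun h => (um h : ℝ) * (pm h : ℝ)⁻¹ :=
    (ord_um.zmul ord_pm_inv).weak (by norm_num)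
  have h2 : Ord 0 0 fun h => ((pb h : ℝ) + 4) * (gam h : ℝ)⁻¹ * 2 ^ nn h :=
    ((ord_pb.add (Ord.const 4)).mul0 (ord_le_one_inv gam_pos)).mul0 ord_N
  have h3 : Ord 0 0 fun h => ((um h : ℝ) * (pm h : ℝ)⁻¹ + ((pb h : ℝ) + 4) * (gam h : ℝ)⁻¹ * 2 ^ nn h)
      * (KK h : ℝ)⁻¹ := ((h1.add h2).zmul ord_KK_inv).weak (by norm_num)
  exact (((h3.add (ord_N' 2 2)).add (ord_N.mul_const 32)).add ord_c8).congr fun h => by
    unfold eNear
    rw [div_eq_mul_inv, div_eq_mul_inv, div_eq_mul_inv]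

theorem ord_e4 : Ord (-1) 0 e4O :=
  ((ord_eFar.add ord_eNear).zmul ord_LamO_inv).congr fun h => by
    unfold e4O; rw [div_eq_mul_inv]

theorem ord_kaI : Ord 0 (-2) fun h => kaO h * II h := by
  have h1 : Ord (-1) 0 fun h => (2 * lamO h + k1O h / sO h) * kd0O h :=
    (ord_l2.mul ord_kd0).lex (Or.inr ⟨by norm_num, by norm_num⟩)
  exact ((h1.add ord_e4).mul ord_II).lex (Or.inl (by norm_num))

/-- the parts of `qRO` which are polynomially small -/
theorem ord_qrest : Ord 0 (-1) fun h => cqO h + ((2 * lamO h + k1O h / sO h) * kd1O h + pO h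
    + 5 * lamO h * (pO h + z1O h)) * II h := by
  have h1 : Ord 0 (-1) cqO :=
    ((ord_e51.weak (by norm_num)).add (ord_lamO.const_mul 3)).congr fun _ => rfl
  have h2 : Ord 0 (-2) fun h => (2 * lamO h + k1O h / sO h) * kd1O h :=
    (ord_l2.mul ord_kd1).lex (Or.inr ⟨by norm_num, by norm_num⟩)
  have h3 : Ord 0 (-2) pO := ord_p.lt (by norm_num) _
  have h4 : Ord 0 (-2) fun h => 5 * lamO h * (pO h + z1O h) :=
    ((ord_lamO.const_mul 5).mul ((ord_p.lt (by norm_num) (-8)).add ord_z1)).lex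
      (Or.inr ⟨by norm_num, by norm_num⟩)
  have h5 : Ord 0 (-1) fun h => ((2 * lamO h + k1O h / sO h) * kd1O h + pO h
      + 5 * lamO h * (pO h + z1O h)) * II h :=
    (((h2.add h3).add h4).mul ord_II).lex (Or.inr ⟨by norm_num, by norm_num⟩)
  exact h1.add h5

/-- the parts of `knO * II` which are polynomially small -/
theorem ord_krest : Ord 0 (-1) fun h => ((um h : ℝ) / (pm h : ℝ) / (KK h : ℝ)
    + nuO h * (1 + sO h) + 8 * (2 : ℝ) ^ nn h / 2 ^ dl h + 2 * tauO h) * II h := by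
  have h1 : Ord 0 (-2) fun h => (um h : ℝ) * (pm h : ℝ)⁻¹ * (KK h : ℝ)⁻¹ :=
    ((ord_um.mul ord_pm_inv).mul ord_KK_inv).lex (Or.inr ⟨by norm_num, by norm_num⟩)
  have hs : Ord 0 0 sO := (Ord.const 1).of_le (Eventually.of_forall fun h => (sO0 h).le)
    (Eventually.of_forall sO1)
  have h2 : Ord 0 (-2) fun h => nuO h * (1 + sO h) :=
    (ord_nuO.mul0 ((Ord.const 1).add hs)).lt (by norm_num) _
  have h3 : Ord 0 (-2) fun h => (8 * (2 : ℝ) ^ nn h) * ((2 : ℝ) ^ dl h)⁻¹ :=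
    ((ord_N.const_mul 8).zmul ord_dl).lt (by norm_num) _
  have h4 : Ord 0 (-2) fun h => 2 * tauO h := (ord_tau.const_mul 2).weak (by norm_num)
  have h5 := ((((h1.add h2).add h3).add h4).mul ord_II).lex
    (a' := 0) (b' := -1) (Or.inr ⟨by norm_num, by norm_num⟩)
  exact h5.congr fun h => by rw [div_eq_mul_inv, div_eq_mul_inv, div_eq_mul_inv]

theorem knII_aux {u pm p n g G K N D t nu s I C w4 w5 : ℝ} (hn : 1 ≤ n) (hp : 0 ≤ p) (hI : 0 ≤ I)
    (hG : 0 ≤ G) (hK : 0 ≤ K) (hC : C = 8) (h1 : I * (g⁻¹ / K) ≤ w4)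
    (h2 : I * (n * (p + 1) / G / K) ≤ w5) :
    ((u / pm + (p + 4) / G * (n * C + 1) + 1 / g) / K + nu * (1 + s) + 8 * N / D + 2 * t) * I
      ≤ w4 + 36 * w5 + (u / pm / K + nu * (1 + s) + 8 * N / D + 2 * t) * I := by
  have h3 : (p + 4) * (n * C + 1) ≤ 36 * (n * (p + 1)) := by
    rw [hC]
    nlinarith [mul_nonneg hp (by linarith : (0:ℝ) ≤ n - 1)]
  have h4 : (p + 4) / G * (n * C + 1) / K ≤ 36 * (n * (p + 1) / G / K) := by
    have e1 : (p + 4) / G * (n * C + 1) / K = (p + 4) * (n * C + 1) / G / K := by ring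
    have e2 : 36 * (n * (p + 1) / G / K) = 36 * (n * (p + 1)) / G / K := by ring
    rw [e1, e2]
    exact div_le_div_of_nonneg_right (div_le_div_of_nonneg_right h3 hG) hK
  have h5 := mul_le_mul_of_nonneg_left h4 hI
  have e : ((u / pm + (p + 4) / G * (n * C + 1) + 1 / g) / K + nu * (1 + s) + 8 * N / D + 2 * t) * I
      = I * ((p + 4) / G * (n * C + 1) / K) + I * (g⁻¹ / K)
        + (u / pm / K + nu * (1 + s) + 8 * N / D + 2 * t) * I := by
    rw [one_div]; ring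
  rw [e]
  have h6 : I * (36 * (n * (p + 1) / G / K)) = 36 * (I * (n * (p + 1) / G / K)) := by ring
  linarith

/-- near loss, all levels -/
theorem knII_le {h : ℕ} (h1 : (II h : ℝ) * ((gg h : ℝ)⁻¹ / KK h) ≤ 4 / (W h : ℝ) ^ 4)
    (h2 : (II h : ℝ) * ((nn h : ℝ) * (pb h + 1) / gam h / KK h) ≤ 80 / (W h : ℝ) ^ 5) :
    knO h * II h ≤ 4 / (W h : ℝ) ^ 4 + 36 * (80 / (W h : ℝ) ^ 5)
      + ((um h : ℝ) / (pm h : ℝ) / (KK h : ℝ)
        + nuO h * (1 + sO h) + 8 * (2 : ℝ) ^ nn h / 2 ^ dl h + 2 * tauO h) * II h := by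
  have hn : (1 : ℝ) ≤ nn h := by exact_mod_cast nn_pos h
  have hC : ((Creg : ℕ) : ℝ) = 8 := by norm_num [Creg]
  exact knII_aux hn (Nat.cast_nonneg _) (Nat.cast_nonneg _) (Nat.cast_nonneg _) (Nat.cast_nonneg _) hC h1 h2

end Crest.Agent.R288.WinNumE895
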