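import Crest.Agent.R288.WinNumE_895
import Crest.Agent.R288.WinStm_330
import Crest.Agent.R288.StmF_616

/-!
# R288, ANA.W7: the numbers of one epoch for ARBITRARY letters (helper895)

`structure Lt` : the letters `k1 kn e4 kd0 kd1 b1 e50 e51 r1 z1` as functions of the height;
`structure Lt.Ok` : nonnegative, of small order (`Ord`, ParC_895), `kn * II ≤ 1 / (40 W)`.

* `structure Lt.Ep L h` : every numeric hypothesis of `WinStm330.WinIn.ep` (at `P = ParO331.parOf h`,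
  `C0 = h^2`, `Lam = 2^lam`, `p = 2/2^pb`, `δ = 4/δi`, `s = PlanK693.sP`, `B₀ = StmF616.B0O h`);
  **`Lt.Ok.ev_ep`** : eventually;
* **`Lt.Ep.ep`** : `WinIn .. |- R x ≤ (aR h + qR h * B) * (G x + C0)`;
* **`Lt.Ok.numR`** : `StmF616.NumR L.aR L.qR`.
-/

set_option autoImplicit false

open Filter

namespace Crest.Agent.R288.WinNumG895

open Crest.Agent.R288.Asy720 Crest.Agent.R288.Par806 Crest.Agent.R288.Par895 Crest.Agent.R288.ParO331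
  Crest.Agent.R288.WinNumL895 Crest.Agent.R288.WinNumE895

attribute [local irreducible] Par806.nn Par806.sb Par806.bb Par806.gam Par806.gg Par806.um Par806.dl
  Par806.lam Par806.KK Par806.pm Par806.pb Par806.nb Par806.δi Par806.Lg Par806.Mg Par806.W Par806.gI
  Par806.II

/-- the letters of one epoch -/
structure Lt where
  (k1 kn e4 kd0 kd1 b1 e50 e51 r1 z1 : ℕ → ℝ)

namespace Lt

/-- start factor (616) -/
noncomputable def B0 (h : ℕ) : ℝ := StmF616.B0O h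

variable (L : Lt) (h : ℕ)

noncomputable def lam : ℝ := 2 * L.k1 h / sO h ^ 2
noncomputable def rho : ℝ := pO h * B0 h + L.r1 h + ((2 ^ nn h : ℕ) : ℝ) * (C0O h : ℝ) / LamO h
noncomputable def th : ℝ := 2 * ((II h : ℝ) * L.rho h)
noncomputable def ca : ℝ := L.e50 h + 3 * (pO h * B0 h) + 2 * (L.b1 h + deO h)
noncomputable def cq : ℝ := L.e51 h + 3 * L.lam h
noncomputable def ka : ℝ := (2 * L.lam h + L.k1 h / sO h) * L.kd0 h + L.e4 h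
noncomputable def kr : ℝ := (2 * L.lam h + L.k1 h / sO h) * L.kd1 h + pO h + 5 * L.lam h * (pO h + L.z1 h)
noncomputable def kq : ℝ := L.kn h * (1 + L.z1 h) + L.kr h
noncomputable def aR : ℝ := (1 + L.th h) * (1 + L.ca h + L.ka h * II h)
noncomputable def qR : ℝ := (1 + L.th h) * (L.cq h + L.kq h * II h)

/-- the orders of the letters -/
structure Ok (L : Lt) : Prop where
  k1_0 : ∀ h, 0 ≤ L.k1 h
  kn_0 : ∀ h, 0 ≤ L.kn h
  e4_0 : ∀ h, 0 ≤ L.e4 h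
  kd0_0 : ∀ h, 0 ≤ L.kd0 h
  kd1_0 : ∀ h, 0 ≤ L.kd1 h
  b1_0 : ∀ h, 0 ≤ L.b1 h
  e50_0 : ∀ h, 0 ≤ L.e50 h
  e51_0 : ∀ h, 0 ≤ L.e51 h
  r1_0 : ∀ h, 0 ≤ L.r1 h
  z1_0 : ∀ h, 0 ≤ L.z1 h
  k1 : Ord 0 (-1) L.k1
  kn : ∀ᶠ h : ℕ in atTop, L.kn h * II h ≤ 1 / (40 * (W h : ℝ))
  e4 : Ord 0 (-2) L.e4
  kd0 : Ord 0 (-1) L.kd0
  kd1 : Ord 0 (-1) L.kd1
  b1 : Ord 0 (-1) L.b1
  e50 : Ord 0 (-1) L.e50
  e51 : Ord 0 (-1) L.e51
  r1 : Ord 0 (-2) L.r1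
  z1 : Ord 0 (-1) L.z1

/-- the numeric hypotheses of `WinStm330.WinIn.ep` -/
structure Ep (L : Lt) (h : ℕ) : Prop where
  N : 0 < (parOf h).N
  Lam : 0 < LamO h
  p : 0 ≤ pO h
  B0 : 0 ≤ Lt.B0 h
  ζ : 0 ≤ L.z1 h
  δ0 : 0 ≤ deO h
  δ : deO h < 1
  b1 : 0 ≤ L.b1 h
  k1 : 0 ≤ L.k1 h
  kn : 0 ≤ L.kn h
  s : 0 < sO h
  s1 : sO h ≤ 1
  e4 : 0 ≤ L.e4 h
  kd0 : 0 ≤ L.kd0 h
  kd1 : 0 ≤ L.kd1 h
  r1 : 0 ≤ L.r1 h
  e51 : 0 ≤ L.e51 h
  lam : L.k1 h * (1 + sO h ^ 2) ≤ L.lam h * sO h ^ 2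
  ρ : pO h * Lt.B0 h + L.r1 h + (parOf h).N * C0O h / LamO h ≤ L.rho h
  θ : (1 + L.rho h) ^ II h ≤ 1 + L.th h
  c : (1 + L.b1 h) * (1 + pO h * Lt.B0 h) ≤ (1 - deO h) * (1 + L.ca h - pO h * Lt.B0 h)
  ca : L.e50 h + 2 * (pO h * Lt.B0 h) ≤ L.ca h
  cq : L.e51 h + 3 * L.lam h ≤ L.cq h
  κa : (2 * L.lam h + L.k1 h / sO h) * L.kd0 h + L.e4 h ≤ L.ka h
  κq : L.kn h * (1 + L.z1 h) + (2 * L.lam h + L.k1 h / sO h) * L.kd1 h + pO h
    + 5 * L.lam h * (pO h + L.z1 h) ≤ L.kq h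

/-! ### lemmas on reals -/

theorem c_aux {b P d e : ℝ} (hb : 0 ≤ b) (hP : 0 ≤ P) (hd : 0 ≤ d) (he : 0 ≤ e) (hb1 : b ≤ 1 / 4)
    (hd1 : d ≤ 1 / 4) : (1 + b) * (1 + P) ≤ (1 - d) * (1 + (e + 3 * P + 2 * (b + d)) - P) := by
  have h1 : b * P ≤ 1 / 4 * P := mul_le_mul_of_nonneg_right hb1 hP
  have h2 : d * (2 * P + 2 * (b + d)) ≤ 1 / 4 * (2 * P + 2 * (b + d)) :=
    mul_le_mul_of_nonneg_right hd1 (by linarith)
  have h3 : 0 ≤ (1 - d) * e := mul_nonneg (by linarith) he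
  have e1 : (1 - d) * (1 + (e + 3 * P + 2 * (b + d)) - P)
      = 1 + 2 * P + 2 * (b + d) - d - d * (2 * P + 2 * (b + d)) + (1 - d) * e := by ring
  rw [e1]
  have e2 : (1 + b) * (1 + P) = 1 + b + P + b * P := by ring
  rw [e2]
  linarith

/-- slope and constant, on reals; `w = 1 / W` -/
theorem a_aux {w th ca ka c : ℝ} (hw : 0 ≤ w) (hw1 : w ≤ 1) (hth : th ≤ w / 96) (hc0 : 0 ≤ ca + ka)
    (hc : ca + ka ≤ w / 16) (h5 : c ≤ w / 96) : (1 + th) * (1 + ca + ka) + c ≤ 1 + w / 6 := by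
  have h1 : (1 + th) * (1 + ca + ka) ≤ (1 + w / 96) * (1 + w / 16) :=
    mul_le_mul (by linarith) (by linarith) (by linarith) (by linarith)
  nlinarith

theorem q_aux {w th k z r c : ℝ} (hw : 0 ≤ w) (hw1 : w ≤ 1) (hth : th ≤ w / 96) (hz0 : 0 ≤ z)
    (hz : z ≤ 1) (hk : k ≤ w / 40) (hr : r ≤ w / 96) (h0 : 0 ≤ r + k * (1 + z)) (h5 : c ≤ w / 96) :
    (1 + th) * (r + k * (1 + z)) + c ≤ w / 6 := by
  have h2 : k * (1 + z) ≤ w / 40 * 2 := mul_le_mul hk (by linarith) (by linarith) (by linarith)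
  have h1 : (1 + th) * (r + k * (1 + z)) ≤ (1 + w / 96) * (w / 96 + w / 40 * 2) :=
    mul_le_mul (by linarith) (by linarith) h0 (by linarith)
  nlinarith

/-! ### signs -/

theorem B0_0 (h : ℕ) : 0 ≤ Lt.B0 h := Nat.cast_nonneg _

theorem B0_eq (h : ℕ) : Lt.B0 h = (WinNumL895.B0O h : ℝ) := rfl

variable {L : Lt}

theorem Ok.lam_0 (hL : L.Ok) (h : ℕ) : 0 ≤ L.lam h :=
  div_nonneg (mul_nonneg (by norm_num) (hL.k1_0 h)) (sq_nonneg _)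

theorem Ok.l2_0 (hL : L.Ok) (h : ℕ) : 0 ≤ 2 * L.lam h + L.k1 h / sO h :=
  add_nonneg (mul_nonneg (by norm_num) (hL.lam_0 h)) (div_nonneg (hL.k1_0 h) (sO0 h).le)

theorem Ok.rho_0 (hL : L.Ok) (h : ℕ) : 0 ≤ L.rho h :=
  add_nonneg (add_nonneg (mul_nonneg (pO0 h) (B0_0 h)) (hL.r1_0 h))
    (div_nonneg (mul_nonneg (Nat.cast_nonneg _) (Nat.cast_nonneg _)) (LamO0 h).le)

theorem Ok.th_0 (hL : L.Ok) (h : ℕ) : 0 ≤ L.th h :=
  mul_nonneg (by norm_num) (mul_nonneg (Nat.cast_nonneg _) (hL.rho_0 h))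

theorem Ok.ca_0 (hL : L.Ok) (h : ℕ) : 0 ≤ L.ca h :=
  add_nonneg (add_nonneg (hL.e50_0 h) (mul_nonneg (by norm_num) (mul_nonneg (pO0 h) (B0_0 h))))
    (mul_nonneg (by norm_num) (add_nonneg (hL.b1_0 h) (deO0 h)))

theorem Ok.cq_0 (hL : L.Ok) (h : ℕ) : 0 ≤ L.cq h :=
  add_nonneg (hL.e51_0 h) (mul_nonneg (by norm_num) (hL.lam_0 h))

theorem Ok.ka_0 (hL : L.Ok) (h : ℕ) : 0 ≤ L.ka h :=
  add_nonneg (mul_nonneg (hL.l2_0 h) (hL.kd0_0 h)) (hL.e4_0 h)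

theorem Ok.kr_0 (hL : L.Ok) (h : ℕ) : 0 ≤ L.kr h :=
  add_nonneg (add_nonneg (mul_nonneg (hL.l2_0 h) (hL.kd1_0 h)) (pO0 h))
    (mul_nonneg (mul_nonneg (by norm_num) (hL.lam_0 h)) (add_nonneg (pO0 h) (hL.z1_0 h)))

theorem Ok.kq_0 (hL : L.Ok) (h : ℕ) : 0 ≤ L.kq h :=
  add_nonneg (mul_nonneg (hL.kn_0 h) (add_nonneg (by norm_num) (hL.z1_0 h))) (hL.kr_0 h)

/-! ### orders -/

theorem ord_B0 : Ord 1 1 Lt.B0 := ord_B0O

theorem Ok.ord_lam (hL : L.Ok) : Ord 0 (-1) L.lam :=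
  ((hL.k1.const_mul 2).mul0 (ord_s_inv.pow0 2)).congr fun h => by
    unfold lam; rw [inv_pow, div_eq_mul_inv]

theorem Ok.ord_l2 (hL : L.Ok) : Ord 0 (-1) fun h => 2 * L.lam h + L.k1 h / sO h :=
  (hL.ord_lam.const_mul 2).add ((hL.k1.mul0 ord_s_inv).congr fun h => by rw [div_eq_mul_inv])

theorem Ok.ord_rho (hL : L.Ok) : Ord 0 (-2) L.rho := by
  have h1 : Ord 0 (-2) fun h => pO h * Lt.B0 h :=
    (ord_p.mul ord_B0).lex (Or.inl (by norm_num))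
  have h3 : Ord 0 (-2) fun h => (((2 ^ nn h : ℕ) : ℝ) * (C0O h : ℝ)) * (LamO h)⁻¹ := by
    have h4 : Ord 0 0 fun h => ((2 ^ nn h : ℕ) : ℝ) := ord_N.congr fun h => by push_cast; ring
    exact ((h4.zmul ord_C0).mul ord_LamO_inv).lex (Or.inl (by norm_num))
  exact ((h1.add hL.r1).add h3).congr fun h => by unfold rho; rw [div_eq_mul_inv]

theorem Ok.ord_th (hL : L.Ok) : Ord 0 (-1) L.th :=
  ((ord_II.mul hL.ord_rho).const_mul 2).lex (Or.inr ⟨by norm_num, by norm_num⟩)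

theorem Ok.ord_kaI (hL : L.Ok) : Ord 0 (-1) fun h => L.ka h * II h := by
  have h1 : Ord 0 (-2) fun h => (2 * L.lam h + L.k1 h / sO h) * L.kd0 h :=
    (hL.ord_l2.mul hL.kd0).lex (Or.inr ⟨by norm_num, by norm_num⟩)
  exact ((h1.add hL.e4).mul ord_II).lex (Or.inr ⟨by norm_num, by norm_num⟩)

theorem Ok.ord_r (hL : L.Ok) : Ord 0 (-1) fun h => L.cq h + L.kr h * II h := by
  have h1 : Ord 0 (-1) L.cq := hL.e51.add (hL.ord_lam.const_mul 3)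
  have h2 : Ord 0 (-2) fun h => (2 * L.lam h + L.k1 h / sO h) * L.kd1 h :=
    (hL.ord_l2.mul hL.kd1).lex (Or.inr ⟨by norm_num, by norm_num⟩)
  have h3 : Ord 0 (-2) pO := ord_p.lt (by norm_num) _
  have h4 : Ord 0 (-2) fun h => 5 * L.lam h * (pO h + L.z1 h) :=
    ((hL.ord_lam.const_mul 5).mul ((ord_p.lt (by norm_num) (-1)).add hL.z1)).lex
      (Or.inr ⟨by norm_num, by norm_num⟩)
  have h5 : Ord 0 (-1) fun h => L.kr h * II h :=
    (((h2.add h3).add h4).mul ord_II).lex (Or.inr ⟨by norm_num, by norm_num⟩)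
  exact h1.add h5

theorem deO_eq (h : ℕ) : deO h = 1 / (W h : ℝ) ^ 2 := by
  have hW := W_real_pos h
  unfold deO δi
  push_cast
  rw [div_eq_div_iff (by positivity) (by positivity)]
  ring

theorem w_aux (c : ℝ) (h : ℕ) : 1 / (c * (W h : ℝ) ^ 1) = (1 / (W h : ℝ)) / c := by
  rw [pow_one, div_div, mul_comm]

/-- the eventual bounds used below, in the unit `w = 1 / W` -/
structure Ev (L : Lt) (h : ℕ) : Prop where
  w1 : 1 / (W h : ℝ) ≤ 1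
  th : L.th h ≤ 1 / (W h : ℝ) / 96
  rho : (II h : ℝ) * L.rho h ≤ 1
  b1 : L.b1 h ≤ 1 / (W h : ℝ) / 960
  e50 : L.e50 h ≤ 1 / (W h : ℝ) / 960
  pB : pO h * Lt.B0 h ≤ 1 / (W h : ℝ) / 960
  de : deO h ≤ 1 / (W h : ℝ) / 960
  kaI : L.ka h * II h ≤ 1 / (W h : ℝ) / 960
  r : L.cq h + L.kr h * II h ≤ 1 / (W h : ℝ) / 96
  kn : L.kn h * II h ≤ 1 / (W h : ℝ) / 40
  z1 : L.z1 h ≤ 1
  nu : 2 / (2 : ℝ) ^ nb h ≤ 1 / (W h : ℝ) / 96
  c0 : 5 / (C0O h : ℝ) ≤ 1 / (W h : ℝ) / 96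

theorem ev_w {b : ℝ} {a : ℝ} {f : ℕ → ℝ} (hf : Ord a b f) (h : a < 0 ∨ (a = 0 ∧ b < 0)) {c : ℝ}
    (hc : 0 < c) : ∀ᶠ h : ℕ in atTop, f h ≤ 1 / (W h : ℝ) / c := by
  filter_upwards [hf.ev_le h hc 1] with h h1
  rwa [w_aux] at h1

theorem neg1 : (0 : ℝ) < 0 ∨ ((0 : ℝ) = 0 ∧ (-1 : ℝ) < 0) := Or.inr ⟨rfl, by norm_num⟩

theorem Ok.ev (hL : L.Ok) : ∀ᶠ h : ℕ in atTop, L.Ev h := by
  have o1 : Ord 0 (-1) fun h => (II h : ℝ) * L.rho h :=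
    (ord_II.mul hL.ord_rho).lex (Or.inr ⟨by norm_num, by norm_num⟩)
  have o2 : Ord 0 (-1) fun h => pO h * Lt.B0 h :=
    (ord_p.mul ord_B0).lex (Or.inl (by norm_num))
  filter_upwards [ev_W_ge 1, ev_w hL.ord_th neg1 (show (0 : ℝ) < 96 by norm_num),
    o1.le_one neg1, ev_w hL.b1 neg1 (show (0 : ℝ) < 960 by norm_num),
    ev_w hL.e50 neg1 (show (0 : ℝ) < 960 by norm_num),
    ev_w o2 neg1 (show (0 : ℝ) < 960 by norm_num),
    ev_div_W 1 (show (0 : ℝ) < 960 by norm_num) 1,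
    ev_w hL.ord_kaI neg1 (show (0 : ℝ) < 960 by norm_num),
    ev_w hL.ord_r neg1 (show (0 : ℝ) < 96 by norm_num), hL.kn, hL.z1.le_one neg1,
    ev_w (ord_nuO.lt (by norm_num) (-1)) neg1 (show (0 : ℝ) < 96 by norm_num),
    ev_w ((ord_C0_inv.const_mul 5).weak (show (-2 : ℝ) ≤ -1 by norm_num)) neg1
      (show (0 : ℝ) < 96 by norm_num)]
    with h h1 h2 h3 h4 h5 h6 h7 h8 h9 h10 h11 h12 h13
  have hW : (1 : ℝ) ≤ W h := by exact_mod_cast h1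
  exact
    { w1 := by rw [div_le_one (by linarith)]; exact hW
      th := h2
      rho := (le_abs_self _).trans h3
      b1 := h4
      e50 := h5
      pB := h6
      de := by rw [w_aux] at h7; rw [deO_eq]; exact h7
      kaI := h8
      r := h9
      kn := by
        refine h10.trans (le_of_eq ?_)
        rw [div_div, mul_comm]
      z1 := (le_abs_self _).trans h11
      nu := h12
      c0 := by rw [div_eq_mul_inv]; exact h13 }

theorem N_eq (h : ℕ) : (((parOf h).N : ℕ) : ℝ) = ((2 ^ nn h : ℕ) : ℝ) := rfl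

theorem Ok.ep_of (hL : L.Ok) {h : ℕ} (E : L.Ev h) : L.Ep h := by
  have hw : (0 : ℝ) ≤ 1 / (W h : ℝ) := div_nonneg (by norm_num) (W_real_pos h).le
  have hw1 := E.w1
  have hb := E.b1
  have hd := E.de
  refine
    { N := by
        show 0 < 2 ^ (parOf h).n
        positivity
      Lam := LamO0 h
      p := pO0 h
      B0 := B0_0 h
      ζ := hL.z1_0 h
      δ0 := deO0 h
      δ := by linarith
      b1 := hL.b1_0 h
      k1 := hL.k1_0 h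
      kn := hL.kn_0 h
      s := sO0 h
      s1 := sO1 h
      e4 := hL.e4_0 h
      kd0 := hL.kd0_0 h
      kd1 := hL.kd1_0 h
      r1 := hL.r1_0 h
      e51 := hL.e51_0 h
      lam := ?_
      ρ := le_of_eq rfl
      θ := one_add_pow_le (hL.rho_0 h) (II h) E.rho
      c := c_aux (hL.b1_0 h) (mul_nonneg (pO0 h) (B0_0 h)) (deO0 h) (hL.e50_0 h) (by linarith)
        (by linarith)
      ca := ?_
      cq := le_rfl
      κa := le_rfl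
      κq := le_of_eq ?_ }
  · have hs := sO0 h
    have h1 : L.lam h * sO h ^ 2 = 2 * L.k1 h := by
      unfold lam
      rw [div_mul_cancel₀]
      exact (pow_pos hs 2).ne'
    rw [h1]
    have h2 : sO h ^ 2 ≤ 1 := pow_le_one₀ hs.le (sO1 h)
    have h3 := hL.k1_0 h
    calc L.k1 h * (1 + sO h ^ 2) ≤ L.k1 h * 2 := mul_le_mul_of_nonneg_left (by linarith) h3
      _ = _ := mul_comm _ _
  · have h1 := mul_nonneg (pO0 h) (B0_0 h)
    have h2 := hL.b1_0 h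
    have h3 := deO0 h
    unfold ca
    linarith
  · unfold kq kr
    ring

/-- **the numeric hypotheses of `WinIn.ep`, eventually** -/
theorem Ok.ev_ep (hL : L.Ok) : ∀ᶠ h : ℕ in atTop, L.Ep h := hL.ev.mono fun _ E => hL.ep_of E

/-- **the numbers of the chain** -/
theorem Ok.numR (hL : L.Ok) : StmF616.NumR L.aR L.qR := by
  filter_upwards [hL.ev] with h E
  have hw : (0 : ℝ) ≤ 1 / (W h : ℝ) := div_nonneg (by norm_num) (W_real_pos h).le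
  have hδ : StmF616.δO h = 1 / (W h : ℝ) / 6 := by
    unfold StmF616.δO
    rw [div_div, mul_comm]
  have hI : (0 : ℝ) ≤ II h := Nat.cast_nonneg _
  have h1 := hL.th_0 h
  have h2 := hL.ca_0 h
  have h3 := mul_nonneg (hL.ka_0 h) hI
  have h4 := hL.cq_0 h
  have h5 := mul_nonneg (hL.kr_0 h) hI
  have h6 := mul_nonneg (hL.kn_0 h) hI
  have h7 := hL.z1_0 h
  have hca : L.ca h + L.ka h * II h ≤ 1 / (W h : ℝ) / 16 := by
    have e := E.e50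
    have f := E.pB
    have g := E.b1
    have i := E.de
    have j := E.kaI
    unfold ca
    linarith
  refine ⟨?_, ?_, ?_, ?_⟩
  · show 1 ≤ (1 + L.th h) * (1 + L.ca h + L.ka h * II h)
    exact one_le_mul_of_one_le_of_one_le (by linarith) (by linarith)
  · show 0 ≤ (1 + L.th h) * (L.cq h + L.kq h * II h)
    exact mul_nonneg (by linarith) (add_nonneg h4 (mul_nonneg (hL.kq_0 h) hI))
  · rw [hδ]
    exact a_aux hw E.w1 E.th (by linarith) hca E.c0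
  · rw [hδ]
    have e : L.qR h = (1 + L.th h) * ((L.cq h + L.kr h * II h) + (L.kn h * II h) * (1 + L.z1 h)) := by
      unfold qR kq
      ring
    rw [e]
    exact q_aux hw E.w1 E.th h7 E.z1 E.kn E.r
      (add_nonneg (add_nonneg h4 h5) (mul_nonneg h6 (by linarith))) E.nu

/-- **one epoch**: the bound, affine in `B`, from the instance -/
theorem Ep.ep {h : ℕ} (E : L.Ep h) {D : ℕ} {G F : Alg45.St → ℕ} {lf : Alg45.St → Prop}
    {hat : Alg45.St → Alg45.St} {Sc : Alg45.St → (ℕ → ℤ) → Prop} {R Rp df : Alg45.St → ℝ} {B : ℝ}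
    (Wi : WinStm330.WinIn (parOf h).N (II h) D G F lf hat Sc R Rp df (StmF616.C0O h) (LamO h) B (pO h)
      (L.z1 h) (deO h) (L.b1 h) (L.k1 h) (L.kn h) (sO h) (L.kd0 h + L.kd1 h * B) (L.e4 h)
      (L.e50 h + L.e51 h * B) (L.r1 h)) (hB : 0 ≤ B) (hBB : B ≤ StmF616.B0O h)
    (x : Alg45.St) (hx : Dom20.InD (parOf h).N (II h) D x) :
    R x ≤ (L.aR h + L.qR h * B) * (G x + StmF616.C0O h) :=
  Wi.ep E.N E.Lam hB hBB E.p E.ζ E.δ0 E.δ E.b1 E.k1 E.kn E.s E.s1 E.e4 E.kd0 E.kd1 E.r1 E.e51 E.lam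
    E.ρ E.θ E.c E.ca E.cq E.κa E.κq x hx

end Lt

end Crest.Agent.R288.WinNumG895
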