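import Crest.Agent.R288.WinNumG_895

/-!
# R288, ANA.W7: the letters of `WinNumE_895` as an instance of `WinNumG895.Lt` (helper895)

`LO : Lt`, **`LO_ok : LO.Ok`**; consequences **`numR : StmF616.NumR LO.aR LO.qR`**, **`ev_ep`**.
-/

set_option autoImplicit false

open Filter

namespace Crest.Agent.R288.WinNumI895

open Crest.Agent.R288.Asy720 Crest.Agent.R288.Par806 Crest.Agent.R288.Par895 Crest.Agent.R288.ParO331
  Crest.Agent.R288.WinNumL895 Crest.Agent.R288.WinNumE895 Crest.Agent.R288.WinNumG895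

attribute [local irreducible] Par806.nn Par806.sb Par806.bb Par806.gam Par806.gg Par806.um Par806.dl
  Par806.lam Par806.KK Par806.pm Par806.pb Par806.nb Par806.δi Par806.Lg Par806.Mg Par806.W Par806.gI
  Par806.II

theorem kn_aux {x w r a b c : ℝ} (h : x ≤ 4 / a + 36 * (80 / b) + r) (h1 : 4 / a ≤ 1 / (120 * w))
    (h2 : 2880 / b ≤ 1 / (240 * w)) (h3 : r ≤ 1 / (240 * w)) (hc : 1 / (120 * w) = 2 * c)
    (hc' : 1 / (240 * w) = c) (hc'' : 1 / (40 * w) = 6 * c) (hc0 : 0 ≤ c) : x ≤ 1 / (40 * w) := by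
  have e : 36 * (80 / b) = 2880 / b := by ring
  rw [e] at h
  rw [hc] at h1
  rw [hc'] at h2 h3
  rw [hc'']
  linarith

/-- 482's `kn` summed over all levels -/
theorem ev_kn : ∀ᶠ h : ℕ in atTop, knO h * II h ≤ 1 / (40 * (W h : ℝ)) := by
  filter_upwards [ev_noflag, ev_letters, ev_div_W 4 (show (0 : ℝ) < 120 by norm_num) 1,
    ev_div_W 2880 (show (0 : ℝ) < 240 by norm_num) 1,
    ord_krest.ev_le (Or.inr ⟨rfl, by norm_num⟩) (show (0 : ℝ) < 240 by norm_num) 1, ev_W_ge 1]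
    with h h1 h2 h3 h4 h5 h6
  have hW : (1 : ℝ) ≤ W h := by exact_mod_cast h6
  have hW0 := W_real_pos h
  rw [pow_one] at h3 h4 h5
  have h7 : 4 / (W h : ℝ) ^ 4 ≤ 1 / (120 * (W h : ℝ)) :=
    (div_le_div_of_nonneg_left (by norm_num) (pow_pos hW0 _) (pow_le_pow_right₀ hW (by norm_num))).trans h3
  have h8 : 2880 / (W h : ℝ) ^ 5 ≤ 1 / (240 * (W h : ℝ)) :=
    (div_le_div_of_nonneg_left (by norm_num) (pow_pos hW0 _) (pow_le_pow_right₀ hW (by norm_num))).trans h4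
  exact kn_aux (c := 1 / (240 * (W h : ℝ))) (knII_le h1 h2) h7 h8 h5 (by ring) rfl (by ring)
    (div_nonneg (by norm_num) (by positivity))

/-- the letters -/
noncomputable def LO : Lt where
  k1 := k1O
  kn := knO
  e4 := e4O
  kd0 := kd0O
  kd1 := kd1O
  b1 := b1O
  e50 := e50O
  e51 := e51O
  r1 := r1O
  z1 := z1O

theorem LO_ok : LO.Ok where
  k1_0 := k1O0
  kn_0 := knO0
  e4_0 := e4O0
  kd0_0 := kd0O0
  kd1_0 := kd1O0
  b1_0 := b1O0
  e50_0 := e50O0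
  e51_0 := e51O0
  r1_0 := r1O0
  z1_0 := z1O0
  k1 := ord_k1O
  kn := ev_kn
  e4 := ord_e4.lt (by norm_num) _
  kd0 := ord_kd0.lt (by norm_num) _
  kd1 := ord_kd1
  b1 := ord_b1.weak (by norm_num)
  e50 := ord_e50.weak (by norm_num)
  e51 := ord_e51.weak (by norm_num)
  r1 := ord_r1.lt (by norm_num) _
  z1 := ord_z1.weak (by norm_num)

theorem numR : StmF616.NumR LO.aR LO.qR := LO_ok.numR

theorem ev_ep : ∀ᶠ h : ℕ in atTop, LO.Ep h := LO_ok.ev_ep

end Crest.Agent.R288.WinNumI895
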