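import Crest.Agent.R288.WinNumE_948
import Crest.Agent.R288.WinHy_974
import Crest.Agent.R288.NearP_484
import Crest.Agent.R288.ProbY_12

/-!
# R288 / WinNumW_948 : the numbers of 974's window instance, **[ANA]** complete

* `ev_eta` : `eta (parOf h) (sJ h) ≤ tE h`; `far_le`, `near_le`, `kd1_le`, ...
* **`ev_numW`** : `WinHy974.NumW` at `parOf h` with the letters of `WinNumE_948`, all large `h`;
* `hypO` : `LawN147.Hyp` at `cfgO x y ε`; `winO` : the window instances;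
* **`epStm : StmF616.EpStm aRE qRE`**, **`ana_block : Asm331.AnaStm`**.
-/

set_option autoImplicit false

open Filter

namespace Crest.Agent.R288.WinNumW948

open Crest.Agent.R288.Asy720 Crest.Agent.R288.Par806 Crest.Agent.R288.Par895
open Crest.Agent.R288.ParO331 Crest.Agent.R288.WinNumB948 Crest.Agent.R288.WinNumE948
open Crest.Agent.R288.WinNumL895
open Crest.Agent.R288.Alg45 (St Par)
open Crest.Agent.R288.LaneLaw944 (eL dL)
open Crest.Agent.R288.WinHy974 (NumW bOsc)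

/-! ### the jump error -/

theorem eta_real {e d s T : ℕ} {t : ℝ} (h : (e + 1) * d * 2 ^ T ≤ 2 ^ s) (ht : t = (1 / 2) ^ T) :
    ((e + 1 : ℕ) : ℝ) * (1 / 2) ^ s * d ≤ t := by
  have h1 : (((e + 1 : ℕ) : ℝ) * d) * 2 ^ T ≤ 2 ^ s := by exact_mod_cast h
  have h2 : (0 : ℝ) < 2 ^ s := by positivity
  have h3 : (0 : ℝ) < 2 ^ T := by positivity
  rw [ht, one_div, inv_pow, inv_pow, inv_eq_one_div ((2 : ℝ) ^ T), le_div_iff₀ h3]
  calc ((e + 1 : ℕ) : ℝ) * (2 ^ s)⁻¹ * d * 2 ^ T = (((e + 1 : ℕ) : ℝ) * d) * 2 ^ T * (2 ^ s)⁻¹ := by ring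
    _ ≤ 2 ^ s * (2 ^ s)⁻¹ := mul_le_mul_of_nonneg_right h1 (by positivity)
    _ = 1 := mul_inv_cancel₀ h2.ne'

/-- `(eL + 1) d 2^(4 W Lg) ≤ 2^sJ` -/
theorem ev_ent4 (d : ℕ) : ∀ᶠ h : ℕ in atTop,
    (eL (parOf h) + 1) * d * 2 ^ (4 * (W h * Lg h)) ≤ 2 ^ sJ h := by
  filter_upwards [LanePar806.ev_nJ, ev_le_W (60 + d)] with h h1 h2
  have hW := W_pos h
  have hL := Lg_pos h
  have hM : Mg h ≤ Lg h := Mg_le_Lg h
  have hLW : Lg h ≤ W h * Lg h := Nat.le_mul_of_pos_left _ hW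
  have e4 : (18 * 4 ^ (parOf h).pb) ≤ 2 ^ (5 + 32 * (W h * Lg h)) := by
    have e1 : (parOf h).pb = 16 * (W h * Lg h) := by
      show pb h = _
      unfold Par806.pb
      ring
    rw [e1, pow_add, show (4 : ℕ) = 2 ^ 2 by norm_num, ← pow_mul]
    have : 2 * (16 * (W h * Lg h)) = 32 * (W h * Lg h) := by ring
    rw [this]
    exact Nat.mul_le_mul_right _ (by norm_num)
  have e5 : eL (parOf h) + 1 ≤ 2 ^ (15 * Mg h + (5 + 32 * (W h * Lg h)) + 1) := by
    have h5 : eL (parOf h) ≤ 2 ^ (15 * Mg h + (5 + 32 * (W h * Lg h))) := by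
      rw [pow_add]
      exact Nat.mul_le_mul h1 e4
    have h6 : 1 ≤ 2 ^ (15 * Mg h + (5 + 32 * (W h * Lg h))) := Nat.one_le_two_pow
    rw [pow_succ]
    omega
  have e6 : d ≤ 2 ^ d := Nat.lt_two_pow_self.le
  calc (eL (parOf h) + 1) * d * 2 ^ (4 * (W h * Lg h))
      ≤ 2 ^ (15 * Mg h + (5 + 32 * (W h * Lg h)) + 1) * 2 ^ d * 2 ^ (4 * (W h * Lg h)) :=
        Nat.mul_le_mul_right _ (Nat.mul_le_mul e5 e6)
    _ = 2 ^ (15 * Mg h + (5 + 32 * (W h * Lg h)) + 1 + d + 4 * (W h * Lg h)) := by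
        rw [← pow_add, ← pow_add]
    _ ≤ 2 ^ sJ h := by
        refine Nat.pow_le_pow_right (by norm_num) ?_
        have e : sJ h = W h * (W h * Lg h) := by unfold sJ; ring
        have a1 : (60 + d) * (W h * Lg h) ≤ W h * (W h * Lg h) := Nat.mul_le_mul_right _ h2
        have a2 : (60 + d) * (W h * Lg h) = 60 * (W h * Lg h) + d * (W h * Lg h) := by ring
        have hpos : 0 < W h * Lg h := Nat.mul_pos hW hL
        have a3 : d ≤ d * (W h * Lg h) := Nat.le_mul_of_pos_right _ hpos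
        rw [e]
        omega

/-- **`η ≤ τ`** -/
theorem ev_eta : ∀ᶠ h : ℕ in atTop, LawN147.eta (parOf h) (sJ h) ≤ tE h := by
  filter_upwards [ev_ent4 (dL (parOf 0))] with h h1
  have h2 : (eL (parOf h) + 1) * dL (parOf h) * 2 ^ (4 * (W h * Lg h)) ≤ 2 ^ sJ h := h1
  exact eta_real h2 rfl

/-! ### single lines -/

theorem ζO_line {h : ℕ} (hL : 16 ≤ Lg h) : LipO364.ζO h * 2 ^ (4 * Lg h) ≤ 1 := by
  unfold LipO364.ζO
  have h1 : (2 : ℝ) ^ 5 ≤ 2 ^ (4 * Lg h) := pow_le_pow_right₀ (by norm_num) (by omega)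
  have h2 : (2 : ℝ) ^ (8 * Lg h) = 2 ^ (4 * Lg h) * 2 ^ (4 * Lg h) := by
    rw [← pow_add]
    congr 1
    ring
  have h3 : (0 : ℝ) < 2 ^ (4 * Lg h) := by positivity
  rw [h2, div_mul_eq_mul_div, div_le_one (by positivity)]
  exact mul_le_mul_of_nonneg_right h1 h3.le

/-- `B₀ (Λ + C0) < 2^(pb+1)` -/
theorem ev_sm : ∀ᶠ h : ℕ in atTop,
    StmF616.B0O h * (((2 ^ lam h : ℕ) : ℝ) + (StmF616.C0O h : ℝ)) < 2 ^ (pb h + 1) := by
  have o1 : Ord (-14) 1 fun h => StmF616.B0O h * ((2 : ℝ) ^ lam h + (StmF616.C0O h : ℝ))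
      * ((2 : ℝ) ^ pb h)⁻¹ := by
    have h1 : Ord 1 0 fun h => (2 : ℝ) ^ lam h + (StmF616.C0O h : ℝ) :=
      ord_Lam.add (ord_C.lt (by norm_num) _)
    have := (ord_B.mul h1).mul ord_P
    norm_num at this
    exact this
  filter_upwards [o1.le_one (Or.inl (by norm_num))] with h h1
  have h2 := (le_abs_self _).trans h1
  have h3 : (0 : ℝ) < 2 ^ pb h := by positivity
  rw [← div_eq_mul_inv, div_le_one h3] at h2
  rw [Nat.cast_pow, Nat.cast_ofNat, pow_succ]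
  linarith

theorem e4_real {a b c n l e : ℝ} (hl : 0 < l) (he : e = (a + b + 100 * n + c + 100) / l)
    (x : ℝ) (hx : x ≤ a + b + 100 * n + c + 100) : x ≤ e * l := by
  rw [he, div_mul_cancel₀ _ hl.ne']
  exact hx

theorem e4_far (h : ℕ) : ((parOf h).um : ℝ) * Real.log ((parOf h).pm + 1) / (parOf h).K
    + (2 + c8E h) + (parOf h).N * (2 / 2 ^ (parOf h).nb + 2) ≤ e4E h * ((2 ^ lam h : ℕ) : ℝ) := by
  have a1 : (0 : ℝ) ≤ um h := Nat.cast_nonneg _
  have a2 : (0 : ℝ) ≤ KK h := Nat.cast_nonneg _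
  have a3 : (0 : ℝ) ≤ pm h := Nat.cast_nonneg _
  have a4 : (0 : ℝ) ≤ gam h := Nat.cast_nonneg _
  have a5 : (0 : ℝ) ≤ pb h := Nat.cast_nonneg _
  have h4 : 0 ≤ ((um h : ℝ) / pm h + ((pb h : ℝ) + 4) / gam h * 2 ^ nn h) / KK h :=
    div_nonneg (add_nonneg (div_nonneg a1 a3)
      (mul_nonneg (div_nonneg (by linarith) a4) (by positivity))) a2
  have h5 : (0 : ℝ) < (2 : ℝ) ^ nn h := by positivity
  have h6 : (2 : ℝ) / 2 ^ nb h ≤ 2 := div_le_self (by norm_num) (one_le_pow₀ (by norm_num))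
  have h7 : (2 : ℝ) ^ nn h * (2 / 2 ^ nb h + 2) ≤ 2 ^ nn h * 4 :=
    mul_le_mul_of_nonneg_left (by linarith) h5.le
  rw [parOf_um, parOf_pm, parOf_K, parOf_N, parOf_nb, Nat.cast_pow, Nat.cast_pow, Nat.cast_ofNat]
  refine e4_real (by positivity) rfl _ ?_
  linarith

theorem e4_near (h : ℕ) : WinNear482.an (parOf h) 4 (1 + 2 * 1) (c8E h)
    ≤ e4E h * ((2 ^ lam h : ℕ) : ℝ) := by
  have a1 : (0 : ℝ) ≤ um h := Nat.cast_nonneg _
  have a2 : (0 : ℝ) ≤ KK h := Nat.cast_nonneg _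
  have h3 : 0 ≤ (um h : ℝ) * Real.log ((pm h : ℝ) + 1) / KK h :=
    div_nonneg (mul_nonneg a1 (logpm_nonneg h)) a2
  have h5 : (0 : ℝ) < (2 : ℝ) ^ nn h := by positivity
  unfold WinNear482.an
  rw [parOf_um, parOf_pm, parOf_K, parOf_N, parOf_pb, parOf_γ, parOf_n, Nat.cast_pow, Nat.cast_pow,
    Nat.cast_ofNat]
  refine e4_real (by positivity) rfl _ ?_
  linarith

/-- `τ 2^bb ≤ 1` -/
theorem tE_bb {h : ℕ} (hW : 16 ≤ W h) : tE h * 2 ^ bb h ≤ 1 := by
  have hM : Mg h ≤ Lg h := Mg_le_Lg h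
  have h1 : bb h ≤ 4 * (W h * Lg h) := by
    unfold bb
    nlinarith
  unfold tE
  rw [one_div, inv_pow, inv_mul_le_one₀ (by positivity)]
  exact pow_le_pow_right₀ (by norm_num) h1

theorem bb_ge (h : ℕ) : 12 ≤ bb h := by
  have := Mg_pos h
  unfold bb
  omega

/-- the constants of `OscR` -/
theorem bOsc_real {e z x y w T : ℝ} (hT : 4096 ≤ T) (h : (e + x + y + 5 * z) * T ≤ 64)
    (hw : w = e + x + y + 5 * z) : w ≤ 1 := by
  rw [hw]
  by_contra h1
  push Not at h1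
  nlinarith

attribute [local irreducible] Par806.nn Par806.sb Par806.bb Par806.gam Par806.gg Par806.um
  Par806.dl Par806.lam Par806.KK Par806.pm Par806.δi Par806.Lg Par806.Mg Par806.W Par806.pb
  Par806.nb Par806.a1 Par806.II Par806.gI Par806.lB

/-- **all the numbers of 974's window instance** -/
theorem numW_of {h : ℕ} (S : SmE h) (hO : ParOK 1024 h) (hN : ParN h) (hL : LanePar806.LaneN h)
    (he : LawN147.eta (parOf h) (sJ h) ≤ tE h)
    (hs : StmF616.B0O h * (((2 ^ lam h : ℕ) : ℝ) + (StmF616.C0O h : ℝ)) < 2 ^ (pb h + 1))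
    (h1 : 1 ≤ h) :
    NumW (parOf h) (StmF616.C0O h) (2 ^ lam h) (StmF616.B0O h) (LipO364.ζO h)
      (LawN147.eta (parOf h) (sJ h)) (tE h) (c8E h) (PlanK693.sP (parOf h)) (k1E h) (kd0E h)
      (kd1E h) (e4E h) (e50E h) (e51E h) (b1E h) (r1E h) (gg h * (nn h + 1)) := by
  have hζ0 := LipO364.ζO_nonneg h
  have hζ := ζO_line hN.Lg16
  have hζ64 := NearP484.zeta_le hO le_rfl hζ0 hζ
  have hη0 := LawN147.eta_nonneg (parOf h) (sJ h)
  have hbb := bb_ge h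
  have hT : (4096 : ℝ) ≤ 2 ^ bb h := by
    calc (4096 : ℝ) = 2 ^ 12 := by norm_num
      _ ≤ 2 ^ bb h := pow_le_pow_right₀ (by norm_num) hbb
  have hT0 : (0 : ℝ) < 2 ^ bb h := by positivity
  have hηb : LawN147.eta (parOf h) (sJ h) * 2 ^ bb h ≤ 1 :=
    (mul_le_mul_of_nonneg_right he hT0.le).trans (tE_bb hN.W16)
  have hb32 : (2 / 2 ^ bb h + LawN147.eta (parOf h) (sJ h)) * 2 ^ bb h ≤ 32 := by
    rw [add_mul, div_mul_cancel₀ _ hT0.ne']
    linarith
  have hb64 : bOsc (parOf h) (LawN147.eta (parOf h) (sJ h)) (LipO364.ζO h) * 2 ^ bb h ≤ 64 :=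
    NearP484.b_le hO le_rfl hζ0 hζ hb32
  have hpb : (2 : ℝ) / 2 ^ pb h ≤ 1 / 64 := by
    have h2 : (2 : ℝ) ^ 10 ≤ 2 ^ pb h := pow_le_pow_right₀ (by norm_num) hL.pb
    rw [div_le_div_iff₀ (by positivity) (by norm_num)]
    norm_num at h2 ⊢
    linarith
  have hpB : pE h * StmF616.B0O h ≤ 1 := by
    have := S.pB
    have := S.d1
    linarith
  have hgg := gg_pos h
  have hnn := nn_pos h
  have hN5 : (0 : ℝ) < (2 : ℝ) ^ nn h := by positivity
  exact
  { hK := hL.K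
    hg := hL.g
    hpm := hL.pm
    hnb := by
      show 1 ≤ nb h
      unfold nb
      have := Nat.mul_pos (Nat.mul_pos (show 0 < 8 by norm_num) (W_pos h)) (Lg_pos h)
      exact this
    ha2 := by show 5 ≤ 8; norm_num
    hδ4 := hL.δi.le
    hG2 := by nlinarith
    hGg := by
      show (nn h + 1) * gg h ≤ gg h * (nn h + 1)
      rw [mul_comm]
    hGum := by
      show gg h * (nn h + 1) * (4 * 8 + 1) ≤ um h
      rw [← hN.um_ge]
      omega
    hζ8 := by linarith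
    hζp := by
      show 2 * (LipO364.ζO h + 2 / 2 ^ pb h) ≤ 1 / 2
      linarith
    hC0 := by
      unfold StmF616.C0O
      positivity
    hN4 := by have := hL.Λ_N; omega
    hη0 := hη0
    hτη := he
    hbb := by
      show 2 / 2 ^ bb h + LawN147.eta (parOf h) (sJ h) ≤ 1
      by_contra h2
      push Not at h2
      nlinarith
    hc8 := by
      show 2 * (2 : ℝ) ^ nn h + 1 ≤ c8E h
      unfold c8E
      linarith
    hbO := bOsc_real hT hb64 rfl
    hnear := fun F κ z hF hκ => NearP484.nearNum hO le_rfl hζ0 hζ (by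
      unfold bOsc
      positivity) hb64 (by norm_num) hF hκ
    hsm := hs
    he50 := le_rfl
    he51 := le_rfl
    hb1 := by
      rw [Nat.cast_pow, Nat.cast_ofNat]
      exact le_rfl
    hr1 := by
      rw [parOf_N, parOf_pb, Nat.cast_pow, Nat.cast_pow, Nat.cast_ofNat]
      unfold r1E pE
      rw [mul_assoc]
    hk1 := le_rfl
    he40 := e4E_nonneg h
    he4f := e4_far h
    he4n := e4_near h
    hkd0 := by
      rw [Nat.cast_pow, Nat.cast_ofNat]
      exact le_rfl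
    hkd1 := by
      have h2 : 0 ≤ LipO364.ζO h + WinF3131.kA (parOf h) (tE h) :=
        add_nonneg hζ0 (WinF3131.kA_nonneg (tE_pos h).le)
      have h3 : (1 : ℝ) + 2 / 2 ^ (parOf h).pb * StmF616.B0O h ≤ 2 := by
        show 1 + pE h * StmF616.B0O h ≤ 2
        linarith
      refine (mul_le_mul_of_nonneg_left h3 h2).trans (le_of_eq ?_)
      unfold kd1E zE
      ring }

theorem ev_numW : ∀ᶠ h : ℕ in atTop,
    NumW (parOf h) (StmF616.C0O h) (2 ^ lam h) (StmF616.B0O h) (LipO364.ζO h)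
      (LawN147.eta (parOf h) (sJ h)) (tE h) (c8E h) (PlanK693.sP (parOf h)) (k1E h) (kd0E h)
      (kd1E h) (e4E h) (e50E h) (e51E h) (b1E h) (r1E h) (gg h * (nn h + 1)) := by
  filter_upwards [ev_smE, ev_ParOK 1024, ev_ParN, LanePar806.ev_LaneN, ev_eta, ev_sm,
    eventually_ge_atTop 1] with h a1 a2 a3 a4 a5 a6 a7
  exact numW_of a1 a2 a3 a4 a5 a6 a7

/-! ### the block -/

open Crest.Agent.R288.Asm331 Crest.Agent.R288.Asm12

/-- 147's hypotheses at the concrete configuration -/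
theorem hypO : Ev fun x y ε => ∀ X, (cfgO x y ε).Good X → ∃ p,
    LawN147.Hyp (cfgO x y ε) X x y (gI (hh x y ε)) p (hh x y ε) (2 ^ lam (hh x y ε))
      (sJ (hh x y ε)) (LipO364.ζO (hh x y ε)) := by
  refine ((LipO364.lipStm.and SndO734.sndOkO).and ProbO12.lane_stm).mono ?_
  rintro x y ε _ ⟨⟨⟨⟨p, h1⟩, h2⟩, h3⟩, h4⟩ X hX
  exact ⟨p,
    { good := hX
      lip := h1
      ζ7 := h2
      snd := h3
      leaf := fun s _ => SndO734.leafO' x y ε s
      r := by show 8 ≤ 40; norm_num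
      lane := h4 }⟩

/-- **the window instances** -/
theorem winO : Ev fun x y ε => ∀ X, (cfgO x y ε).Good X → ∀ e, e + 2 ≤ (cfgO x y ε).P.E →
      ∀ B, 1 ≤ B → B ≤ StmF616.B0O (hh x y ε) →
      (∀ s, StmF616.OkO x y ε s → (Alg45.FE (cfgO x y ε).P X e s : ℝ)
        ≤ B * StmA616.Vf (StmF616.Gx x y ε) (StmF616.C0O (hh x y ε)) s) →
      (∀ s, StmF616.OkO x y ε s → (Alg45.FE (cfgO x y ε).P X (e + 1) s : ℝ)
        ≤ B * StmA616.Vf (StmF616.Gx x y ε) (StmF616.C0O (hh x y ε)) s) →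
      ∃ df, WinE x y ε X (e + 1) df B := by
  refine (hypO.and (Ev.of ev_numW fun _ _ _ _ h => h)).mono ?_
  intro x y ε _ h X hX e he B hB1 hBB hF hF'
  obtain ⟨p, H⟩ := h.1 X hX
  have key := WinHy974.win_hyp H rfl h.2 he hB1 hBB hF hF'
  rw [show ((2 ^ lam (hh x y ε) : ℕ) : ℝ) = 2 ^ lam (hh x y ε) by rw [Nat.cast_pow, Nat.cast_ofNat]]
    at key
  exact ⟨_, key⟩

/-- **open statement 3 of [ANA]** -/
theorem epStm : StmF616.EpStm aRE qRE := epStm_of winO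

/-- **[ANA]** -/
theorem ana_block : AnaStm :=
  StmF616.anaStm LipO364.lipStm (SndO734.soundStm LipO364.lipStm) epStm numR

end Crest.Agent.R288.WinNumW948
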