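import Crest.Agent.R288.WinSm_453
import Crest.Agent.R288.WinH_330

/-!
# R288 [A13.WIN] (helper453): `WinH330.SmallF` from `WinSm453.SmIn`
-/

set_option autoImplicit false

namespace Crest.Agent.R288.WinSm453

open Crest.Agent.R288.Alg45 Crest.Agent.R288.Dom20 Crest.Agent.R288.Asm331

variable {C : Cfg} {X : ℕ → ℕ × St → ℕ} {e : ℕ} {G : St → ℕ} {A : ℕ → ℕ → St → ℝ} {C0 : ℕ}
  {Lam β ζ τ c8 : ℝ}

/-- **the small fields of `WinIn` over a configuration** -/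
theorem smallF
    (W : SmIn C.P C.I C.leaf G (FE C.P X e) (Xe C.P X e) A (C.R X e) C0 Lam β ζ τ c8)
    (hζ : 0 ≤ ζ) (hz : 2 * (ζ + 2 / 2 ^ C.P.pb) ≤ 1 / 2) (hτ : 0 ≤ τ) (hc8 : 0 ≤ c8)
    (hLam : 0 < Lam) (hC0 : 0 < C0) (hβ : 0 ≤ β) (hr : 4 ≤ C.P.r) (hδ : 4 ≤ C.P.δi)
    (hsm : β * (Lam + C0) < 2 ^ (C.P.pb + 1)) {b1 e5 r1 : ℝ}
    (hb : c8 / Lam + 2 * τ ≤ b1)
    (he : 2 * (2 / 2 ^ C.P.pb * β) + τ * β + (1 + c8 + τ) / C0 ≤ e5)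
    (hr1 : C.P.N * (2 / 2 ^ C.P.pb * β) + 2 * C.P.N / Lam ≤ r1) :
    WinH330.SmallF C X e G C0 (2 / 2 ^ C.P.pb) (2 * (ζ + 2 / 2 ^ C.P.pb)) (4 / (C.P.δi : ℝ))
      b1 e5 r1 where
  hat_in _ hx _ := W.hat_in hx
  hat_dist x _ _ := hat_dist x
  hat_G x _ _ := W.hat_G x
  hat_F _ hx _ := W.hat_F hζ (by linarith) hx
  leaf _ hx hl := W.leaf_fld hτ hc8 hC0 hβ hsm he hx hl
  hat_leaf _ hx hn hl := W.hat_leaf hτ hc8 hC0 (by positivity) he hx hn hl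
  ret _ hx hn hl h := W.ret hτ hc8 hLam hζ hz hδ hb hx hn hl h
  cmp _ hx hn _ := W.cmp hζ (by linarith) hr hLam hr1 hx hn

end Crest.Agent.R288.WinSm453
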