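import Crest.Agent.R288.W5_442
import Crest.Agent.R288.WinStm_330
import Crest.Agent.R288.AlgS_125

/-!
# R288 [A13.WIN] (helper453): the fields LEAF, HAT_LEAF, RET, HAT_*, CMP of `WinStm330.WinIn`

`F` = unit function of the epoch, `Xr k κ z` = numbers of the ranks, `A k κ z` / `R k κ z` = means of the
body entry / of the lane at the pair `(κ, z)`.  `hat y = rdn P (cls F y) y`, `lf y := y.i = 0 ∨ (leaf y).isSome`,
`Rp y` = mean over the ranks of `R k (cls F y) (hat y)`, `Rm y = dist y (hat y) + Rp y`.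

`structure SmIn` = what is used: exact cost, sandwich `G ≤ F ≤ β (G + C0)`, Lipschitz line, own pair admissible,
leaf values, the three lines of the law at the own pair.
-/

set_option autoImplicit false

namespace Crest.Agent.R288.WinSm453

open Finset
open Crest.Agent.R288.Alg45 Crest.Agent.R288.Dom20
open Crest.Agent.R288.GSt442 (Exact)
open Crest.Agent.R288.AlgS125 (IsSt)
open Crest.Agent.R288.WinStm330 (sm pcs av abs_av)

/-- the rounded state -/
def hat (P : Par) (F : St → ℕ) (y : St) : St := rdn P (cls F y) y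

/-- terminal states -/
def lf (leaf : St → Option ℕ) (y : St) : Prop := y.i = 0 ∨ (leaf y).isSome

/-- mean over the ranks of the value of the own pair -/
noncomputable def Rp (P : Par) (F : St → ℕ) (R : ℕ → ℕ → St → ℝ) (y : St) : ℝ :=
  (∑ k ∈ range P.K, R k (cls F y) (hat P F y)) / P.K

/-- arrival value in own label -/
noncomputable def Rm (P : Par) (F : St → ℕ) (R : ℕ → ℕ → St → ℝ) (y : St) : ℝ :=
  Alg45.dist y (hat P F y) + Rp P F R y

/-- **what is used** -/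
structure SmIn (P : Par) (I : ℕ) (leaf : St → Option ℕ) (G F : St → ℕ) (Xr : ℕ → ℕ → St → ℕ)
    (A R : ℕ → ℕ → St → ℝ) (C0 : ℕ) (Lam β ζ τ c8 : ℝ) : Prop where
  K : 0 < P.K
  ex : Exact P.N P.Dm G
  GF : ∀ x, InD P.N I P.Dm x → G x ≤ F x
  FB : ∀ x, InD P.N I P.Dm x → (F x : ℝ) ≤ β * (G x + C0)
  lip : ∀ x z, InD P.N I P.Dm x → InD P.N I P.Dm z → z.i = x.i → z.j = x.j →
    (F x : ℝ) ≤ (1 + ζ) * (F z + Alg45.dist x z)
  grid : ∀ x, InD P.N I P.Dm x → gst P (cls F x) ∣ P.Dm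
  own : ∀ x, InD P.N I P.Dm x → adm P F (cls F x) (hat P F x) = true
  leaf_le : ∀ y c, leaf y = some c → c ≤ G y + 1
  leaf_lt : ∀ y c, leaf y = some c → 1 ≤ y.i → (G y : ℝ) ≤ Lam
  nolf : ∀ y, leaf y = Option.none → 1 ≤ y.i ∧ Lam < G y
  J : ∀ k < P.K, ∀ x, InD P.N I P.Dm x →
    R k (cls F x) (hat P F x) ≤ A k (cls F x) (hat P F x) + τ * 2 ^ cls F x
  body : ∀ k < P.K, ∀ x, InD P.N I P.Dm x → 1 ≤ x.i →
    A k (cls F x) (hat P F x) ≤
      bodyNum P leaf F Xr k (fun _ => Xr k) (cls F x) (hat P F x) + c8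
  bot : ∀ k < P.K, ∀ x, InD P.N I P.Dm x → x.i = 0 →
    R k (cls F x) (hat P F x) ≤ G (hat P F x) + 1 + τ * 2 ^ cls F x

section

variable {P : Par} {I : ℕ} {leaf : St → Option ℕ} {G F : St → ℕ} {Xr : ℕ → ℕ → St → ℕ}
  {A R : ℕ → ℕ → St → ℝ} {C0 : ℕ} {Lam β ζ τ c8 : ℝ}

/-! ### elementary -/

theorem hat_i (y : St) : (hat P F y).i = y.i := rfl
theorem hat_j (y : St) : (hat P F y).j = y.j := rfl

theorem two_pow_cls_le (y : St) : 2 ^ cls F y ≤ F y + 1 := by
  rcases Nat.eq_zero_or_pos (F y) with h | h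
  · unfold cls; rw [h]; simp
  · exact (Nat.pow_log_le_self 2 h.ne').trans (Nat.le_succ _)

theorem two_pow_cls_le' {y : St} (h : 0 < F y) : 2 ^ cls F y ≤ F y := Nat.pow_log_le_self 2 h.ne'

/-- the step is `1` or `2^(cls - pb)` -/
theorem gst_le {κ : ℕ} : gst P κ * 2 ^ P.pb ≤ 2 ^ κ ∨ gst P κ = 1 := by
  unfold gst
  rcases le_total P.pb κ with h | h
  · left
    rw [← pow_add]
    exact Nat.pow_le_pow_right (by norm_num) (by omega)
  · right
    rw [Nat.sub_eq_zero_of_le h, pow_zero]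

theorem dist_hat_nat (y : St) : Alg45.dist y (hat P F y) ≤ 2 * (gst P (cls F y) - 1) := by
  have h1 := rd_le P (cls F y) y.u
  have h2 := rd_gt P (cls F y) y.u
  have h3 := rd_le P (cls F y) y.v
  have h4 := rd_gt P (cls F y) y.v
  have h5 := gst_pos P (cls F y)
  unfold Alg45.dist hat rdn
  simp only
  omega

/-- **`hat_dist`** -/
theorem hat_dist (y : St) : (Alg45.dist y (hat P F y) : ℝ) ≤ 2 / 2 ^ P.pb * F y := by
  have h := dist_hat_nat (P := P) (F := F) y
  have hp : (0 : ℝ) < 2 ^ P.pb := by positivity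
  rcases gst_le (P := P) (κ := cls F y) with h1 | h1
  · rw [div_mul_eq_mul_div, le_div_iff₀ hp]
    rcases Nat.eq_zero_or_pos (F y) with h0 | h0
    · have h2 : cls F y = 0 := by unfold cls; rw [h0]; simp
      have h3 : gst P (cls F y) = 1 := by unfold gst; rw [h2, Nat.zero_sub, pow_zero]
      rw [h3] at h
      have h4 : Alg45.dist y (hat P F y) = 0 := by omega
      rw [h4]
      simp
    · have h2 := two_pow_cls_le' (F := F) h0
      have h3 : Alg45.dist y (hat P F y) ≤ 2 * gst P (cls F y) := by omega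
      have h4 : Alg45.dist y (hat P F y) * 2 ^ P.pb ≤ 2 * F y := by
        calc Alg45.dist y (hat P F y) * 2 ^ P.pb ≤ 2 * gst P (cls F y) * 2 ^ P.pb :=
              Nat.mul_le_mul_right _ h3
          _ = 2 * (gst P (cls F y) * 2 ^ P.pb) := by ring
          _ ≤ 2 * 2 ^ cls F y := Nat.mul_le_mul_left _ h1
          _ ≤ 2 * F y := Nat.mul_le_mul_left _ h2
      exact_mod_cast h4
  · rw [h1] at h
    have h4 : Alg45.dist y (hat P F y) = 0 := by omega
    rw [h4, Nat.cast_zero]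
    positivity

/-- small states are their own grid state -/
theorem hat_eq {y : St} (h : F y < 2 ^ (P.pb + 1)) : hat P F y = y := by
  have h1 : cls F y ≤ P.pb := by
    unfold cls
    rcases Nat.eq_zero_or_pos (F y) with h0 | h0
    · rw [h0]; simp
    · exact Nat.lt_succ_iff.1 (Nat.log_lt_of_lt_pow h0.ne' h)
  have h2 : gst P (cls F y) = 1 := by
    unfold gst; rw [Nat.sub_eq_zero_of_le h1, pow_zero]
  unfold hat rdn rd
  rw [h2]
  simp

/-- the value of an admissible leaf -/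
theorem bodyNum_leaf {k κ : ℕ} {S : ℕ → ℕ → St → ℕ} {z : St} {c : ℕ} (ha : adm P F κ z = true)
    (hl : leaf z = some c) : bodyNum P leaf F Xr k S κ z = c := by
  unfold bodyNum
  rw [ha, hl]
  simp

theorem Wm_le (a : ℕ) (V : ℕ → ℕ) (i : ℕ) : Wm a V i ≤ a := by
  induction i with
  | zero => exact le_rfl
  | succ i ih => exact (min_le_left _ _).trans ih

/-- the value of an admissible retired state -/
theorem bodyNum_R1 {k κ : ℕ} {S : ℕ → ℕ → St → ℕ} {z : St} (ha : adm P F κ z = true)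
    (hl : leaf z = none) (hR : R1 P F z) : bodyNum P leaf F Xr k S κ z ≤ F z := by
  unfold bodyNum
  rw [ha, hl]
  simp only [Bool.true_eq_false, if_false]
  rw [if_pos (Or.inl hR)]
  exact Wm_le _ _ _

/-- mean over the ranks -/
theorem Rp_le (hK : 0 < P.K) {y : St} {b : ℝ} (h : ∀ k < P.K, R k (cls F y) (hat P F y) ≤ b) :
    Rp P F R y ≤ b := by
  unfold Rp
  have hK' : (0 : ℝ) < P.K := by exact_mod_cast hK
  rw [div_le_iff₀ hK']
  calc ∑ k ∈ range P.K, R k (cls F y) (hat P F y) ≤ ∑ _k ∈ range P.K, b :=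
        sum_le_sum fun k hk => h k (mem_range.1 hk)
    _ = b * P.K := by rw [sum_const, card_range, nsmul_eq_mul, mul_comm]

end

section

variable {P : Par} {I : ℕ} {leaf : St → Option ℕ} {G F : St → ℕ} {Xr : ℕ → ℕ → St → ℕ}
  {A R : ℕ → ℕ → St → ℝ} {C0 : ℕ} {Lam β ζ τ c8 : ℝ}
  (W : SmIn P I leaf G F Xr A R C0 Lam β ζ τ c8)

include W

namespace SmIn

/-- **`hat_in`** -/
theorem hat_in {x : St} (hx : InD P.N I P.Dm x) : InD P.N I P.Dm (hat P F x) :=
  rdn_InD P (W.grid x hx) hx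

/-- **`hat_G`** -/
theorem hat_G (x : St) : G (hat P F x) ≤ G x + Alg45.dist x (hat P F x) := by
  have h := W.ex.lip (hat P F x) x rfl rfl
  have h1 : Alg45.dist (hat P F x) x = Alg45.dist x (hat P F x) := by
    unfold Alg45.dist; omega
  rwa [h1] at h

/-- **`hat_F`** -/
theorem hat_F (hζ : 0 ≤ ζ) (hz : ζ + 2 / 2 ^ P.pb ≤ 1) {x : St} (hx : InD P.N I P.Dm x) :
    |(F x : ℝ) - F (hat P F x)| ≤ 2 * (ζ + 2 / 2 ^ P.pb) * F x := by
  have h1 := W.lip x (hat P F x) hx (W.hat_in hx) rfl rfl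
  have h2 := W.lip (hat P F x) x (W.hat_in hx) hx rfl rfl
  have h3 : Alg45.dist (hat P F x) x = Alg45.dist x (hat P F x) := by
    unfold Alg45.dist; omega
  rw [h3] at h2
  have h4 := hat_dist (P := P) (F := F) x
  set p : ℝ := 2 / 2 ^ P.pb with hp
  have hp0 : 0 ≤ p := by positivity
  have hF0 : (0 : ℝ) ≤ F x := Nat.cast_nonneg _
  have hFh : (0 : ℝ) ≤ F (hat P F x) := Nat.cast_nonneg _
  have hd : (0 : ℝ) ≤ Alg45.dist x (hat P F x) := Nat.cast_nonneg _
  rw [abs_le]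
  constructor
  · -- `F (hat x) ≤ (1+ζ)(1+p) F x`
    have h5 : (F (hat P F x) : ℝ) ≤ (1 + ζ) * (F x + p * F x) :=
      h2.trans (mul_le_mul_of_nonneg_left (by linarith) (by linarith))
    have h6 : ζ * p ≤ p := by nlinarith
    have h7 : ζ * p * (F x : ℝ) ≤ p * F x := mul_le_mul_of_nonneg_right h6 hF0
    nlinarith
  · -- `F x ≤ (1+ζ)(F (hat x) + p F x)`
    have h5 : (F x : ℝ) ≤ (1 + ζ) * (F (hat P F x) + p * F x) :=
      h1.trans (mul_le_mul_of_nonneg_left (by linarith) (by linarith))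
    -- `F (hat x) ≥ F x / (1+ζ) - p F x ≥ (1 - ζ - p) F x`
    have h6 : (1 - ζ - p) * (F x : ℝ) ≤ F (hat P F x) := by
      have h7 : (1 + ζ) * ((1 - ζ - p) * (F x : ℝ)) ≤ (1 + ζ) * F (hat P F x) := by
        have h8 : (1 + ζ) * ((1 - ζ - p) * (F x : ℝ)) =
            F x - ζ ^ 2 * F x - (1 + ζ) * (p * F x) := by ring
        have h9 : 0 ≤ ζ ^ 2 * (F x : ℝ) := by positivity
        rw [h8]
        linarith
      exact le_of_mul_le_mul_left h7 (by linarith)
    nlinarith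

/-- sum of the law lines at a pair which is a leaf -/
theorem Rp_leaf (hτ : 0 ≤ τ) {x : St} (hx : InD P.N I P.Dm x) (hi : 1 ≤ x.i) {c : ℕ}
    (hl : leaf (hat P F x) = some c) :
    Rp P F R x ≤ G (hat P F x) + (1 + c8 + τ) + τ * F x := by
  refine Rp_le W.K fun k hk => ?_
  have h1 := W.J k hk x hx
  have h2 := W.body k hk x hx hi
  rw [bodyNum_leaf (W.own x hx) hl] at h2
  have h3 : (c : ℝ) ≤ G (hat P F x) + 1 := by exact_mod_cast W.leaf_le _ _ hl
  have h4 : (2 : ℝ) ^ cls F x ≤ F x + 1 := by exact_mod_cast two_pow_cls_le (F := F) x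
  have h5 := mul_le_mul_of_nonneg_left h4 hτ
  linarith

/-- **`leaf`** -/
theorem leaf_fld (hτ : 0 ≤ τ) (hc8 : 0 ≤ c8) (hC0 : 0 < C0) (hβ : 0 ≤ β)
    (hsm : β * (Lam + C0) < 2 ^ (P.pb + 1)) {e5 : ℝ}
    (he : 2 * (2 / 2 ^ P.pb * β) + τ * β + (1 + c8 + τ) / C0 ≤ e5)
    {x : St} (hx : InD P.N I P.Dm x) (hl : lf leaf x) :
    Rm P F R x ≤ G x + e5 * (G x + C0) := by
  have hC : (0 : ℝ) < C0 := by exact_mod_cast hC0
  have hG0 : (0 : ℝ) ≤ G x := Nat.cast_nonneg _
  have hFB := W.FB x hx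
  have h2p : (0 : ℝ) < 2 ^ P.pb := by positivity
  have hd := hat_dist (P := P) (F := F) x
  have hd' : (Alg45.dist x (hat P F x) : ℝ) ≤ 2 / 2 ^ P.pb * β * (G x + C0) := by
    refine hd.trans ?_
    rw [mul_assoc]
    exact mul_le_mul_of_nonneg_left hFB (by positivity)
  have hτF : τ * F x ≤ τ * β * (G x + C0) := by
    rw [mul_assoc]
    exact mul_le_mul_of_nonneg_left hFB hτ
  have hone : 1 + c8 + τ ≤ (1 + c8 + τ) / C0 * (G x + C0) := by
    rw [div_mul_eq_mul_div, le_div_iff₀ hC]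
    exact mul_le_mul_of_nonneg_left (by linarith) (by linarith)
  have hV : 0 ≤ (G x : ℝ) + C0 := by linarith
  have he' := mul_le_mul_of_nonneg_right he hV
  have hsum : (2 * (2 / 2 ^ P.pb * β) + τ * β + (1 + c8 + τ) / C0) * ((G x : ℝ) + C0) =
      2 * (2 / 2 ^ P.pb * β * (G x + C0)) + τ * β * (G x + C0) + (1 + c8 + τ) / C0 * (G x + C0) := by
    ring
  rw [hsum] at he'
  have hGh : (G (hat P F x) : ℝ) ≤ G x + Alg45.dist x (hat P F x) := by
    exact_mod_cast W.hat_G x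
  have key : Rp P F R x ≤ G (hat P F x) + (1 + c8 + τ) + τ * F x := by
    rcases Nat.eq_zero_or_pos x.i with hi | hi
    · refine Rp_le W.K fun k hk => ?_
      have h1 := W.bot k hk x hx hi
      have h4 : (2 : ℝ) ^ cls F x ≤ F x + 1 := by exact_mod_cast two_pow_cls_le (F := F) x
      have h5 := mul_le_mul_of_nonneg_left h4 hτ
      linarith
    · rcases hl with h0 | h0
      · omega
      obtain ⟨c, hc⟩ := Option.isSome_iff_exists.1 h0
      have h1 := W.leaf_lt x c hc hi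
      have h2 : (F x : ℝ) < 2 ^ (P.pb + 1) := by
        refine lt_of_le_of_lt (hFB.trans ?_) hsm
        exact mul_le_mul_of_nonneg_left (by linarith) hβ
      have h3 : hat P F x = x := hat_eq (by exact_mod_cast h2)
      exact W.Rp_leaf hτ hx hi (c := c) (by rw [h3]; exact hc)
  unfold Rm
  linarith

/-- **`hat_leaf`** -/
theorem hat_leaf (hτ : 0 ≤ τ) (hc8 : 0 ≤ c8) (hC0 : 0 < C0) {e5 : ℝ}
    (hp : 0 ≤ 2 / 2 ^ P.pb * β)
    (he : 2 * (2 / 2 ^ P.pb * β) + τ * β + (1 + c8 + τ) / C0 ≤ e5)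
    {x : St} (hx : InD P.N I P.Dm x) (hn : ¬ lf leaf x) (hl : lf leaf (hat P F x)) :
    Rp P F R x ≤ G (hat P F x) + e5 * (G x + C0) := by
  have hi : 1 ≤ x.i := by
    by_contra h
    exact hn (Or.inl (by omega))
  have hC : (0 : ℝ) < C0 := by exact_mod_cast hC0
  have hG0 : (0 : ℝ) ≤ G x := Nat.cast_nonneg _
  have hFB := W.FB x hx
  have hτF : τ * F x ≤ τ * β * (G x + C0) := by
    rw [mul_assoc]
    exact mul_le_mul_of_nonneg_left hFB hτ
  have hone : 1 + c8 + τ ≤ (1 + c8 + τ) / C0 * (G x + C0) := by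
    rw [div_mul_eq_mul_div, le_div_iff₀ hC]
    exact mul_le_mul_of_nonneg_left (by linarith) (by linarith)
  have hV : 0 ≤ (G x : ℝ) + C0 := by linarith
  have he' := mul_le_mul_of_nonneg_right he hV
  have hsum : (2 * (2 / 2 ^ P.pb * β) + τ * β + (1 + c8 + τ) / C0) * ((G x : ℝ) + C0) =
      2 * (2 / 2 ^ P.pb * β) * (G x + C0) + τ * β * (G x + C0) + (1 + c8 + τ) / C0 * (G x + C0) := by
    ring
  rw [hsum] at he'
  have hp' : 0 ≤ 2 * (2 / 2 ^ P.pb * β) * ((G x : ℝ) + C0) := mul_nonneg (by linarith) hV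
  rcases hl with h0 | h0
  · have : (hat P F x).i = x.i := rfl
    omega
  obtain ⟨c, hc⟩ := Option.isSome_iff_exists.1 h0
  have key := W.Rp_leaf hτ hx hi hc
  linarith

/-- **`ret`** with `δ = 4 / δi` -/
theorem ret (hτ : 0 ≤ τ) (hc8 : 0 ≤ c8) (hLam : 0 < Lam) (hζ : 0 ≤ ζ)
    (hz : 2 * (ζ + 2 / 2 ^ P.pb) ≤ 1 / 2) (hδ : 4 ≤ P.δi) {b1 : ℝ} (hb : c8 / Lam + 2 * τ ≤ b1)
    {x : St} (hx : InD P.N I P.Dm x) (hn : ¬ lf leaf x) (hl : ¬ lf leaf (hat P F x))
    (hr : (1 - 4 / (P.δi : ℝ)) * F (hat P F x) ≤ |av (hat P F x)|) :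
    Rp P F R x ≤ (1 + b1) * F (hat P F x) := by
  have hi : 1 ≤ x.i := by
    by_contra h
    exact hn (Or.inl (by omega))
  have hnone : leaf (hat P F x) = none := by
    cases h : leaf (hat P F x) with
    | none => rfl
    | some c => exact absurd (Or.inr (by rw [h]; rfl)) hl
  have hGL := (W.nolf _ hnone).2
  have hGF : (G (hat P F x) : ℝ) ≤ F (hat P F x) := by exact_mod_cast W.GF _ (W.hat_in hx)
  have hF0 : (0 : ℝ) < F (hat P F x) := by linarith
  have hz1 : ζ + 2 / 2 ^ P.pb ≤ 1 := by linarith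
  have hFx := (abs_le.1 (W.hat_F hζ hz1 hx)).2
  have hFx0 : (0 : ℝ) ≤ F x := Nat.cast_nonneg _
  have hFx2 : (F x : ℝ) ≤ 2 * F (hat P F x) := by
    have h1 : 2 * (ζ + 2 / 2 ^ P.pb) * (F x : ℝ) ≤ 1 / 2 * F x :=
      mul_le_mul_of_nonneg_right hz hFx0
    linarith
  have hFxp : 0 < F x := by
    rcases Nat.eq_zero_or_pos (F x) with h | h
    · exfalso
      have h1 := W.hat_F hζ hz1 hx
      rw [h] at h1
      have h2 := (abs_le.1 h1).1
      push_cast at h2
      linarith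
    · exact h
  have hδ0 : (0 : ℝ) < P.δi := by
    have : (4 : ℝ) ≤ P.δi := by exact_mod_cast hδ
    linarith
  have hR1 : R1 P F (hat P F x) := by
    unfold R1
    rw [abs_av] at hr
    have h1 : ((P.δi : ℝ) - 4) * F (hat P F x) ≤
        P.δi * (((hat P F x).v - (hat P F x).u).natAbs : ℝ) := by
      have h2 := mul_le_mul_of_nonneg_left hr hδ0.le
      have h3 : (P.δi : ℝ) * ((1 - 4 / (P.δi : ℝ)) * F (hat P F x)) =
          ((P.δi : ℝ) - 4) * F (hat P F x) := by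
        field_simp
      rw [h3] at h2
      exact h2
    have h4 : (((P.δi - 4 : ℕ) : ℝ)) = (P.δi : ℝ) - 4 := by
      rw [Nat.cast_sub hδ]; norm_num
    rw [← h4] at h1
    exact_mod_cast h1
  refine Rp_le W.K fun k hk => ?_
  have h1 := W.J k hk x hx
  have h2 := W.body k hk x hx hi
  have h3 : (bodyNum P leaf F Xr k (fun _ => Xr k) (cls F x) (hat P F x) : ℝ) ≤ F (hat P F x) := by
    exact_mod_cast bodyNum_R1 (W.own x hx) hnone hR1
  have h4 : (2 : ℝ) ^ cls F x ≤ F x := by exact_mod_cast two_pow_cls_le' hFxp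
  have h5 : τ * 2 ^ cls F x ≤ 2 * τ * F (hat P F x) := by
    calc τ * 2 ^ cls F x ≤ τ * (2 * F (hat P F x)) := mul_le_mul_of_nonneg_left (h4.trans hFx2) hτ
      _ = _ := by ring
  have h6 : c8 ≤ c8 / Lam * F (hat P F x) := by
    rw [div_mul_eq_mul_div, le_div_iff₀ hLam]
    exact mul_le_mul_of_nonneg_left (by linarith) hc8
  have h7 := mul_le_mul_of_nonneg_right hb hF0.le
  have h8 : (c8 / Lam + 2 * τ) * (F (hat P F x) : ℝ) =
      c8 / Lam * F (hat P F x) + 2 * τ * F (hat P F x) := by ring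
  rw [h8] at h7
  linarith

/-- **`cmp`** -/
theorem cmp (hζ : 0 ≤ ζ) (hz : 2 * (ζ + 2 / 2 ^ P.pb) ≤ 1) (hr : 4 ≤ P.r) (hLam : 0 < Lam)
    {r1 : ℝ} (hr1 : P.N * (2 / 2 ^ P.pb * β) + 2 * P.N / Lam ≤ r1)
    {x : St} (hx : InD P.N I P.Dm x) (hn : ¬ lf leaf x) :
    ∃ m, IsSt P (cls F x) (hat P F x) m ∧ m 0 = (hat P F x).u ∧ m P.N = (hat P F x).v ∧
      (∀ q ≤ P.N, -(P.Dm : ℤ) ≤ m q ∧ m q ≤ P.Dm) ∧
      sm P.N (fun y => G y) (hat P F x) m ≤ G (hat P F x) + r1 * (G x + C0) := by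
  have hi : 1 ≤ x.i := by
    by_contra h
    exact hn (Or.inl (by omega))
  have hin := W.hat_in hx
  have hg := W.grid x hx
  have hgZ : (gst P (cls F x) : ℤ) ∣ (P.Dm : ℤ) := by exact_mod_cast hg
  have hF0 : (0 : ℝ) ≤ F x := Nat.cast_nonneg _
  have hnone : leaf x = none := by
    cases h : leaf x with
    | none => rfl
    | some c => exact absurd (Or.inr (by rw [h]; rfl)) hn
  have hGL := (W.nolf _ hnone).2
  have hGFx : (G x : ℝ) ≤ F x := by exact_mod_cast W.GF x hx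
  -- the window contains the optimal staircase
  have hGr : G (hat P F x) ≤ P.r * 2 ^ cls F x := by
    have h1 : (G (hat P F x) : ℝ) ≤ F (hat P F x) := by exact_mod_cast W.GF _ hin
    have h2 := (abs_le.1 (W.hat_F hζ (by linarith) hx)).1
    have h3 : 2 * (ζ + 2 / 2 ^ P.pb) * (F x : ℝ) ≤ 1 * F x := mul_le_mul_of_nonneg_right hz hF0
    have h4 : (F x : ℝ) < 2 * 2 ^ cls F x := by
      have : F x < 2 ^ (cls F x + 1) := Nat.lt_pow_succ_log_self one_lt_two (F x)
      rw [pow_succ'] at this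
      exact_mod_cast this
    have h5 : (G (hat P F x) : ℝ) ≤ 4 * 2 ^ cls F x := by linarith
    have h6 : G (hat P F x) ≤ 4 * 2 ^ cls F x := by exact_mod_cast h5
    exact h6.trans (Nat.mul_le_mul_right _ hr)
  obtain ⟨c, c1, c2, c3, -, c5⟩ := W5442.opt_letters (i := x.i - 1) P W.ex le_rfl
    (show (hat P F x).i = x.i - 1 + 1 by rw [hat_i]; omega) hgZ hgZ hGr
  have hu : |(hat P F x).u| ≤ P.Dm := abs_le.2 hin.2.2.1
  refine ⟨fun q => cut P (cls F x) (hat P F x) q (c q), AlgS125.isSt_cut P c hg hu,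
    W5442.cut_zero P _ _ _, W5442.cut_N P _ _ _, ?_, ?_⟩
  · intro q hq
    rcases Nat.eq_zero_or_pos q with h | h
    · subst h
      show -(P.Dm : ℤ) ≤ cut P (cls F x) (hat P F x) 0 (c 0) ∧
        cut P (cls F x) (hat P F x) 0 (c 0) ≤ P.Dm
      rw [W5442.cut_zero]
      exact hin.2.2.1
    rcases hq.lt_or_eq with h' | h'
    · exact (c5 q h h').2
    · subst h'
      show -(P.Dm : ℤ) ≤ cut P (cls F x) (hat P F x) P.N (c P.N) ∧
        cut P (cls F x) (hat P F x) P.N (c P.N) ≤ P.Dm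
      rw [W5442.cut_N]
      exact hin.2.2.2
  · have h1 : (∑ q ∈ range P.N, (G (piece P (cls F x) (hat P F x) q (c q) (c (q + 1))) : ℝ))
        ≤ G (hat P F x) + 2 * P.N * gst P (cls F x) := by exact_mod_cast c3
    have h2 : sm P.N (fun y => G y) (hat P F x) (fun q => cut P (cls F x) (hat P F x) q (c q)) =
        ∑ q ∈ range P.N, (G (piece P (cls F x) (hat P F x) q (c q) (c (q + 1))) : ℝ) := rfl
    rw [h2]
    refine h1.trans ?_
    have hV : 0 ≤ (G x : ℝ) + C0 := by positivity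
    have hN0 : (0 : ℝ) ≤ P.N := Nat.cast_nonneg _
    have h3 : (gst P (cls F x) : ℝ) ≤ 1 / 2 ^ P.pb * F x + 1 := by
      have h2p : (0 : ℝ) < 2 ^ P.pb := by positivity
      rcases gst_le (P := P) (κ := cls F x) with h | h
      · have h4 : (gst P (cls F x) : ℝ) * 2 ^ P.pb ≤ F x + 1 := by
          have := h.trans (two_pow_cls_le (F := F) x)
          exact_mod_cast this
        have h5 : (gst P (cls F x) : ℝ) ≤ (F x + 1) / 2 ^ P.pb := by
          rw [le_div_iff₀ h2p]; exact h4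
        have h6 : ((F x : ℝ) + 1) / 2 ^ P.pb = 1 / 2 ^ P.pb * F x + 1 / 2 ^ P.pb := by ring
        have h7 : (1 : ℝ) / 2 ^ P.pb ≤ 1 := by
          rw [div_le_one h2p]
          exact one_le_pow₀ (by norm_num)
        linarith
      · rw [h]
        push_cast
        have : 0 ≤ 1 / 2 ^ P.pb * (F x : ℝ) := by positivity
        linarith
    have h4 : 2 * (P.N : ℝ) * gst P (cls F x) ≤ P.N * (2 / 2 ^ P.pb * F x) + 2 * P.N := by
      calc 2 * (P.N : ℝ) * gst P (cls F x) ≤ 2 * P.N * (1 / 2 ^ P.pb * F x + 1) :=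
            mul_le_mul_of_nonneg_left h3 (by positivity)
        _ = _ := by ring
    have h5 : (P.N : ℝ) * (2 / 2 ^ P.pb * F x) ≤ P.N * (2 / 2 ^ P.pb * β) * (G x + C0) := by
      calc (P.N : ℝ) * (2 / 2 ^ P.pb * F x) ≤ P.N * (2 / 2 ^ P.pb * (β * (G x + C0))) := by
            refine mul_le_mul_of_nonneg_left ?_ hN0
            exact mul_le_mul_of_nonneg_left (W.FB x hx) (by positivity)
        _ = _ := by ring
    have h6 : 2 * (P.N : ℝ) ≤ 2 * P.N / Lam * (G x + C0) := by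
      rw [div_mul_eq_mul_div, le_div_iff₀ hLam]
      exact mul_le_mul_of_nonneg_left (by
        have : (0 : ℝ) ≤ C0 := Nat.cast_nonneg _
        linarith) (by positivity)
    have h7 := mul_le_mul_of_nonneg_right hr1 hV
    have h8 : (P.N * (2 / 2 ^ P.pb * β) + 2 * P.N / Lam) * ((G x : ℝ) + C0) =
        P.N * (2 / 2 ^ P.pb * β) * (G x + C0) + 2 * P.N / Lam * (G x + C0) := by ring
    rw [h8] at h7
    linarith

/-- **`act`** -/
theorem act {x : St} (hn : ¬ lf leaf x) : 1 ≤ x.i ∧ Lam < G x := by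
  refine W.nolf x ?_
  cases h : leaf x with
  | none => rfl
  | some c => exact absurd (Or.inr (by rw [h]; rfl)) hn

/-- **`ge`** -/
theorem ge (x : St) : (x.v - x.u).natAbs ≤ G x := W.ex.ge x

omit W in
/-- **`arr`** -/
theorem arr (x : St) : Rm P F R x ≤ Alg45.dist x (hat P F x) + Rp P F R x := le_rfl

end SmIn

end

end Crest.Agent.R288.WinSm453
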