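import Mathlib

/-!
# R288: closed form of the expected work (pure)

Calls are abstract: `q c` = linear index (epoch, lookahead level / rank) of the call, `i c` = macro
height, `f c` = number of (effective) flagged windows below it, at most `cap`; epochs are the blocks
of `S` consecutive indices. A call makes at most `M` calls (in mean) of smaller index at height at
most its own (the number of flags is arbitrary `≤ cap` if the epoch drops), `Y₀ * D` calls of its
own index at smaller heights and `Z₀ * D` further ones if its window is flagged; `D = 2^n`.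

* `bd` = the majorant `2 a D^i X^q Y^i Z^f (Z^cap)^(q/S)`.
* `closed`: the recursion implies `cost c ≤ bd (q c) (i c) (f c)`.
-/

set_option autoImplicit false

namespace Crest.Agent.R288.WorkA944

/-- the majorant -/
def bd (a D X Y Z : ℝ) (S cap q i f : ℕ) : ℝ :=
  2 * a * D ^ i * X ^ q * Y ^ i * Z ^ f * (Z ^ cap) ^ (q / S)

section

variable {a D X Y Z : ℝ} {S cap : ℕ}

theorem bd_pos (ha : 0 < a) (hD : 1 ≤ D) (hX : 1 ≤ X) (hY : 1 ≤ Y) (hZ : 1 ≤ Z) (q i f : ℕ) :
    0 < bd a D X Y Z S cap q i f := by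
  unfold bd; positivity

theorem local_le (ha : 0 < a) (hD : 1 ≤ D) (hX : 1 ≤ X) (hY : 1 ≤ Y) (hZ : 1 ≤ Z) (q i f : ℕ) :
    2 * (a * D ^ i) ≤ bd a D X Y Z S cap q i f := by
  unfold bd
  have h1 : 1 ≤ X ^ q := one_le_pow₀ hX
  have h2 : 1 ≤ Y ^ i := one_le_pow₀ hY
  have h3 : 1 ≤ Z ^ f := one_le_pow₀ hZ
  have h4 : 1 ≤ (Z ^ cap) ^ (q / S) := one_le_pow₀ (one_le_pow₀ hZ)
  have h5 : (0 : ℝ) < 2 * a * D ^ i := by positivity
  have h6 : 1 ≤ X ^ q * Y ^ i * Z ^ f * (Z ^ cap) ^ (q / S) := by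
    have := one_le_mul_of_one_le_of_one_le h1 h2
    have := one_le_mul_of_one_le_of_one_le this h3
    exact one_le_mul_of_one_le_of_one_le this h4
  calc 2 * (a * D ^ i) = 2 * a * D ^ i * 1 := by ring
    _ ≤ 2 * a * D ^ i * (X ^ q * Y ^ i * Z ^ f * (Z ^ cap) ^ (q / S)) :=
        mul_le_mul_of_nonneg_left h6 h5.le
    _ = _ := by ring

/-- a call of smaller index -/
theorem lower_le (ha : 0 < a) (hD : 1 ≤ D) (hX : 1 ≤ X) (hY : 1 ≤ Y) (hZ : 1 ≤ Z)
    {q i f q' i' f' : ℕ} (hq : q' < q) (hi : i' ≤ i) (hf' : f' ≤ cap)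
    (hf : q' / S = q / S → f' ≤ f) :
    X * bd a D X Y Z S cap q' i' f' ≤ bd a D X Y Z S cap q i f := by
  unfold bd
  have hX0 : 0 ≤ X := by linarith
  have hY0 : 0 ≤ Y := by linarith
  have hZ0 : 0 ≤ Z := by linarith
  have hD0 : 0 ≤ D := by linarith
  have h1 : X * X ^ q' ≤ X ^ q := by
    rw [← pow_succ']
    exact pow_le_pow_right₀ hX hq
  have h2 : Y ^ i' ≤ Y ^ i := pow_le_pow_right₀ hY hi
  have h3 : D ^ i' ≤ D ^ i := pow_le_pow_right₀ hD hi
  have h4 : Z ^ f' * (Z ^ cap) ^ (q' / S) ≤ Z ^ f * (Z ^ cap) ^ (q / S) := by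
    rw [← pow_mul, ← pow_mul, ← pow_add, ← pow_add]
    refine pow_le_pow_right₀ hZ ?_
    have hdiv : q' / S ≤ q / S := Nat.div_le_div_right hq.le
    rcases Nat.eq_or_lt_of_le hdiv with h | h
    · have := hf h
      rw [h]; omega
    · have : cap * (q' / S) + cap ≤ cap * (q / S) := by
        have := Nat.mul_le_mul_left cap (Nat.succ_le_of_lt h)
        rw [Nat.mul_succ] at this
        exact this
      omega
  calc X * (2 * a * D ^ i' * X ^ q' * Y ^ i' * Z ^ f' * (Z ^ cap) ^ (q' / S))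
      = 2 * a * (D ^ i' * (X * X ^ q') * Y ^ i' * (Z ^ f' * (Z ^ cap) ^ (q' / S))) := by ring
    _ ≤ 2 * a * (D ^ i * X ^ q * Y ^ i * (Z ^ f * (Z ^ cap) ^ (q / S))) := by
        refine mul_le_mul_of_nonneg_left ?_ (by positivity)
        gcongr
    _ = _ := by ring

/-- a call of the same index at a smaller height -/
theorem own_le (ha : 0 < a) (hD : 1 ≤ D) (hX : 1 ≤ X) (hY : 1 ≤ Y) (hZ : 1 ≤ Z)
    {q i f i' f' : ℕ} (hi : i' < i) (hf : f' ≤ f) :
    Y * (D * bd a D X Y Z S cap q i' f') ≤ bd a D X Y Z S cap q i f := by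
  unfold bd
  have hX0 : 0 ≤ X := by linarith
  have hY0 : 0 ≤ Y := by linarith
  have hZ0 : 0 ≤ Z := by linarith
  have hD0 : 0 ≤ D := by linarith
  have h2 : Y * Y ^ i' ≤ Y ^ i := by
    rw [← pow_succ']
    exact pow_le_pow_right₀ hY hi
  have h3 : D * D ^ i' ≤ D ^ i := by
    rw [← pow_succ']
    exact pow_le_pow_right₀ hD hi
  have h4 : Z ^ f' ≤ Z ^ f := pow_le_pow_right₀ hZ hf
  calc Y * (D * (2 * a * D ^ i' * X ^ q * Y ^ i' * Z ^ f' * (Z ^ cap) ^ (q / S)))
      = 2 * a * ((D * D ^ i') * X ^ q * (Y * Y ^ i') * Z ^ f' * (Z ^ cap) ^ (q / S)) := by ring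
    _ ≤ 2 * a * (D ^ i * X ^ q * Y ^ i * Z ^ f * (Z ^ cap) ^ (q / S)) := by
        refine mul_le_mul_of_nonneg_left ?_ (by positivity)
        gcongr
    _ = _ := by ring

/-- a call of the same index at a smaller height below a flagged window -/
theorem ownf_le (ha : 0 < a) (hD : 1 ≤ D) (hX : 1 ≤ X) (hY : 1 ≤ Y) (hZ : 1 ≤ Z)
    {q i f i' f' : ℕ} (hi : i' < i) (hf : f' < f) :
    Y * Z * (D * bd a D X Y Z S cap q i' f') ≤ bd a D X Y Z S cap q i f := by
  unfold bd
  have hX0 : 0 ≤ X := by linarith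
  have hY0 : 0 ≤ Y := by linarith
  have hZ0 : 0 ≤ Z := by linarith
  have hD0 : 0 ≤ D := by linarith
  have h2 : Y * Y ^ i' ≤ Y ^ i := by
    rw [← pow_succ']
    exact pow_le_pow_right₀ hY hi
  have h3 : D * D ^ i' ≤ D ^ i := by
    rw [← pow_succ']
    exact pow_le_pow_right₀ hD hi
  have h4 : Z * Z ^ f' ≤ Z ^ f := by
    rw [← pow_succ']
    exact pow_le_pow_right₀ hZ hf
  calc Y * Z * (D * (2 * a * D ^ i' * X ^ q * Y ^ i' * Z ^ f' * (Z ^ cap) ^ (q / S)))
      = 2 * a * ((D * D ^ i') * X ^ q * (Y * Y ^ i') * (Z * Z ^ f') * (Z ^ cap) ^ (q / S)) := by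
        ring
    _ ≤ 2 * a * (D ^ i * X ^ q * Y ^ i * Z ^ f * (Z ^ cap) ^ (q / S)) := by
        refine mul_le_mul_of_nonneg_left ?_ (by positivity)
        gcongr
    _ = _ := by ring

/-- **closed form of the work recursion.** `low`, `own`, `ownf` are arbitrary upper bounds of the
costs of the calls of smaller index, of the same index, of the same index below a flagged window. -/
theorem closed {C : Type*} {cost : C → ℝ} {q i f : C → ℕ} {M Y₀ Z₀ : ℝ} (ha : 0 < a) (hD : 1 ≤ D)
    (hX1 : 1 ≤ X) (hX : 6 * M ≤ X) (hY1 : 1 ≤ Y)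
    (hY : 6 * Y₀ ≤ Y) (hZ1 : 1 ≤ Z) (hZ : 6 * Z₀ ≤ Y * Z) (hcap : ∀ c, f c ≤ cap)
    (h : ∀ c, ∀ low own ownf : ℝ, 0 ≤ low → 0 ≤ own → 0 ≤ ownf →
      (∀ c', q c' < q c → i c' ≤ i c → (q c' / S = q c / S → f c' ≤ f c) → cost c' ≤ low) →
      (∀ c', q c' = q c → i c' < i c → f c' ≤ f c → cost c' ≤ own) →
      (∀ c', q c' = q c → i c' < i c → f c' < f c → cost c' ≤ ownf) →
      cost c ≤ a * D ^ i c + M * low + Y₀ * (D * own) + Z₀ * (D * ownf)) :
    ∀ c, cost c ≤ bd a D X Y Z S cap (q c) (i c) (f c) := by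
  have key : ∀ Q I : ℕ, ∀ c, q c = Q → i c = I → cost c ≤ bd a D X Y Z S cap (q c) (i c) (f c) := by
    intro Q
    induction Q using Nat.strong_induction_on with
    | _ Q ihQ =>
      intro I
      induction I using Nat.strong_induction_on with
      | _ I ihI =>
        intro c hq hi
        set B := bd a D X Y Z S cap (q c) (i c) (f c) with hB
        have hBpos : 0 < B := bd_pos ha hD hX1 hY1 hZ1 _ _ _
        have hXp : 0 < X := by linarith
        have hYp : 0 < Y := by linarith
        have hZp : 0 < Z := by linarith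
        have hDp : 0 < D := by linarith
        have h1 := h c (B / X) (B / (Y * D)) (B / (Y * Z * D)) (by positivity) (by positivity)
          (by positivity) ?_ ?_ ?_
        · have e1 : 2 * (a * D ^ i c) ≤ B := local_le ha hD hX1 hY1 hZ1 _ _ _
          have e2 : M * (B / X) ≤ B / 6 := by
            rw [mul_div_assoc', div_le_div_iff₀ hXp (by norm_num)]
            nlinarith
          have e3 : Y₀ * (D * (B / (Y * D))) ≤ B / 6 := by
            have : D * (B / (Y * D)) = B / Y := by field_simp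
            rw [this, mul_div_assoc', div_le_div_iff₀ hYp (by norm_num)]
            nlinarith
          have e4 : Z₀ * (D * (B / (Y * Z * D))) ≤ B / 6 := by
            have : D * (B / (Y * Z * D)) = B / (Y * Z) := by field_simp
            rw [this, mul_div_assoc', div_le_div_iff₀ (by positivity) (by norm_num)]
            nlinarith
          linarith
        · intro c' h1 h2 h3
          have h4 := ihQ (q c') (by omega) (i c') c' rfl rfl
          have h5 := lower_le (S := S) (cap := cap) ha hD hX1 hY1 hZ1 h1 h2 (hcap c') h3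
          rw [le_div_iff₀ hXp]
          nlinarith
        · intro c' h1 h2 h3
          have h4 := ihI (i c') (by omega) c' (by omega) rfl
          have h5 := own_le (q := q c') (S := S) (cap := cap) ha hD hX1 hY1 hZ1 h2 h3
          rw [le_div_iff₀ (by positivity)]
          rw [h1] at h4 h5
          have h6 : cost c' * (Y * D) ≤ bd a D X Y Z S cap (q c) (i c') (f c') * (Y * D) :=
            mul_le_mul_of_nonneg_right h4 (by positivity)
          calc _ ≤ _ := h6
            _ = Y * (D * bd a D X Y Z S cap (q c) (i c') (f c')) := by ring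
            _ ≤ B := h5
        · intro c' h1 h2 h3
          have h4 := ihI (i c') (by omega) c' (by omega) rfl
          have h5 := ownf_le (q := q c') (S := S) (cap := cap) ha hD hX1 hY1 hZ1 h2 h3
          rw [le_div_iff₀ (by positivity)]
          rw [h1] at h4 h5
          have h6 : cost c' * (Y * Z * D) ≤ bd a D X Y Z S cap (q c) (i c') (f c') * (Y * Z * D) :=
            mul_le_mul_of_nonneg_right h4 (by positivity)
          calc _ ≤ _ := h6
            _ = Y * Z * (D * bd a D X Y Z S cap (q c) (i c') (f c')) := by ring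
            _ ≤ B := h5
  exact fun c => key _ _ c rfl rfl

end

end Crest.Agent.R288.WorkA944
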