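import Crest.Agent.R288.Nest_68

/-!
# R288 [WORK] (helper68): closed form of the deterministic cost of the program ALG-U

Indices `q` (linear: tapes `l` and unit functions `F_e`, ordered so that every call of another index
goes DOWN), macro heights `i ≤ H`. `S q i = ∑ q' < q, ∑ t ≤ i, cX q' t` = one call of every lower
index at every height `≤ i`.

* `cA q i` = cost of an arrival table, `cB q i` = cost of a body table, `cX q i` = cost of a number
  (or of a unit function: then `cA = cB = 0` may be taken);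
* `cA q (i+1) ≤ a + A * cB q (i+1) + M * S q (i+1)`, `cB q (i+1) ≤ a + B * cA q i + M * S q (i+1)`,
  `cX q i ≤ a + G * cA q i + M * S q i`.

`cost_closed`: `cX q i ≤ a (1+G(1+A)) (i+1) (1 + M (1+G(1+A)) (H+1)^2)^q (A B)^i`.
`cost_two`: the same with powers of two: `cX q i ≤ 2^(τ + q m + i b) N^i`.
-/

set_option autoImplicit false

namespace Crest.Agent.R288.WorkC68

open Finset Crest.Agent.R288.Nest68

/-- one call of every lower index at every height `≤ i` -/
def Sl (c : ℕ → ℕ → ℕ) (q i : ℕ) : ℕ := ∑ q' ∈ range q, ∑ t ∈ range (i + 1), c q' t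

/-- natural number form of `Nest68.rec_bound` for one own call family at height `h - 1` -/
theorem rec_nat (C : ℕ → ℕ → ℕ) (a M Y : ℕ) (hY : 1 ≤ Y) (Q H : ℕ)
    (h0 : ∀ q < Q, C q 0 ≤ a + M * Sl C q 0)
    (h1 : ∀ q < Q, ∀ h < H, C q (h + 1) ≤ a + M * Sl C q (h + 1) + Y * C q h) :
    ∀ q < Q, ∀ h ≤ H, C q h ≤ a * (h + 1) * (1 + M * (H + 1) ^ 2) ^ q * Y ^ h := by
  -- replace the cost outside the range by 0
  set C' : ℕ → ℕ → ℝ := fun q h => if q < Q ∧ h ≤ H then (C q h : ℝ) else 0 with hC'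
  have hC0 : ∀ q h, 0 ≤ C' q h := by
    intro q h
    rw [hC']
    dsimp only
    split
    · positivity
    · exact le_rfl
  have hsum : ∀ q h, q < Q → h ≤ H →
      (Sl C q h : ℝ) = ∑ i ∈ range q, ∑ t ∈ range (h + 1), C' i t := by
    intro q h hq hh
    unfold Sl
    push_cast
    refine sum_congr rfl fun i hi => sum_congr rfl fun t ht => ?_
    have hi' : i < q := mem_range.1 hi
    have ht' : t < h + 1 := mem_range.1 ht
    rw [hC']
    dsimp only
    rw [if_pos ⟨by omega, by omega⟩]
  have hY' : (1 : ℝ) ≤ Y := by exact_mod_cast hY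
  have hmain := rec_bound C' (fun h => (Y : ℝ) ^ h) a M (by positivity) (by positivity)
    (fun h => one_le_pow₀ hY') (pow_right_mono₀ hY')
    (fun q h => match h with
      | 0 => 0
      | h + 1 => Y * C' q h)
    (by
      intro q h B hB hC
      cases h with
      | zero => simpa using hB
      | succ h =>
        have := hC h (Nat.lt_succ_self h)
        calc (Y : ℝ) * C' q h ≤ Y * (B * (Y : ℝ) ^ h) :=
              mul_le_mul_of_nonneg_left this (by positivity)
          _ = B * (Y : ℝ) ^ (h + 1) := by ring)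
    (by
      intro q h
      have hS0 : 0 ≤ ∑ i ∈ range q, ∑ t ∈ range (h + 1), C' i t :=
        sum_nonneg fun i _ => sum_nonneg fun t _ => hC0 i t
      by_cases hqh : q < Q ∧ h ≤ H
      · have hv : C' q h = C q h := if_pos hqh
        rw [hv]
        cases h with
        | zero =>
          have := h0 q hqh.1
          have h2 : (C q 0 : ℝ) ≤ a + M * Sl C q 0 := by exact_mod_cast this
          rw [hsum q 0 hqh.1 (Nat.zero_le _)] at h2
          dsimp only
          linarith
        | succ h =>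
          have := h1 q hqh.1 h (by omega)
          have h2 : (C q (h + 1) : ℝ) ≤ a + M * Sl C q (h + 1) + Y * C q h := by exact_mod_cast this
          rw [hsum q (h + 1) hqh.1 hqh.2] at h2
          have hv' : C' q h = C q h := if_pos ⟨hqh.1, by omega⟩
          dsimp only
          rw [hv']
          linarith
      · have hv : C' q h = 0 := if_neg hqh
        rw [hv]
        have hM : (0 : ℝ) ≤ M * ∑ i ∈ range q, ∑ t ∈ range (h + 1), C' i t :=
          mul_nonneg (by positivity) hS0
        have ha : (0 : ℝ) ≤ a := by positivity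
        cases h with
        | zero => dsimp only; linarith
        | succ h =>
          have : (0 : ℝ) ≤ Y * C' q h := mul_nonneg (by positivity) (hC0 q h)
          dsimp only
          linarith) H
  intro q hq h hh
  have h3 := hmain q h hh
  have hv : C' q h = C q h := if_pos ⟨hq, hh⟩
  rw [hv] at h3
  exact_mod_cast h3

theorem Sl_mono {c c' : ℕ → ℕ → ℕ} {q i Q H : ℕ} (hq : q ≤ Q) (hi : i ≤ H)
    (h : ∀ q' < Q, ∀ t ≤ H, c q' t ≤ c' q' t) : Sl c q i ≤ Sl c' q i := by
  unfold Sl
  refine sum_le_sum fun q' hq' => sum_le_sum fun t ht => ?_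
  have h1 := mem_range.1 hq'
  have h2 := mem_range.1 ht
  exact h q' (by omega) t (by omega)

/-- **closed form of the cost** -/
theorem cost_closed (cA cB cX : ℕ → ℕ → ℕ) (a A B G M Q H : ℕ) (hA1 : 1 ≤ A) (hB1 : 1 ≤ B)
    (hA0 : ∀ q < Q, cA q 0 ≤ a + M * Sl cX q 0)
    (hA : ∀ q < Q, ∀ i < H, cA q (i + 1) ≤ a + A * cB q (i + 1) + M * Sl cX q (i + 1))
    (hB : ∀ q < Q, ∀ i < H, cB q (i + 1) ≤ a + B * cA q i + M * Sl cX q (i + 1))
    (hX : ∀ q < Q, ∀ i ≤ H, cX q i ≤ a + G * cA q i + M * Sl cX q i) :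
    ∀ q < Q, ∀ i ≤ H, cX q i ≤
      a * (1 + G * (1 + A)) * (i + 1) * (1 + M * (1 + G * (1 + A)) * (H + 1) ^ 2) ^ q *
        (A * B) ^ i := by
  set C : ℕ → ℕ → ℕ := fun q i => a + G * cA q i + M * Sl cX q i with hC
  have hXC : ∀ q < Q, ∀ i ≤ H, cX q i ≤ C q i := hX
  have hAB : 1 ≤ A * B := Nat.mul_pos hA1 hB1
  have hS : ∀ q ≤ Q, ∀ i ≤ H, Sl cX q i ≤ Sl C q i := fun q hq i hi => Sl_mono hq hi hXC
  have hrec := rec_nat C (a * (1 + G * (1 + A))) (M * (1 + G * (1 + A))) (A * B) hAB Q H
    (fun q hq => by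
      have h1 := hA0 q hq
      have h2 := hS q hq.le 0 (Nat.zero_le _)
      calc C q 0 = a + G * cA q 0 + M * Sl cX q 0 := rfl
        _ ≤ a + G * (a + M * Sl C q 0) + M * Sl C q 0 := by
            have h3 : M * Sl cX q 0 ≤ M * Sl C q 0 := Nat.mul_le_mul_left _ h2
            have h4 : G * cA q 0 ≤ G * (a + M * Sl C q 0) :=
              Nat.mul_le_mul_left _ (h1.trans (Nat.add_le_add_left h3 _))
            omega
        _ ≤ _ := by
            have h5 : 0 ≤ G * A * a := Nat.zero_le _
            have h6 : 0 ≤ G * A * (M * Sl C q 0) := Nat.zero_le _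
            nlinarith)
    (fun q hq i hi => by
      have h1 := hA q hq i hi
      have h2 := hB q hq i hi
      have h3 : M * Sl cX q (i + 1) ≤ M * Sl C q (i + 1) :=
        Nat.mul_le_mul_left _ (hS q hq.le (i + 1) (by omega))
      set s := M * Sl C q (i + 1) with hs
      have h4 : cA q (i + 1) ≤ a + A * (a + B * cA q i + s) + s := by
        refine h1.trans ?_
        have : A * cB q (i + 1) ≤ A * (a + B * cA q i + s) :=
          Nat.mul_le_mul_left _ (h2.trans (by omega))
        omega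
      have h5 : G * cA q i ≤ C q i := by
        show G * cA q i ≤ a + G * cA q i + M * Sl cX q i
        omega
      have h6 : A * B * (G * cA q i) ≤ A * B * C q i := Nat.mul_le_mul_left _ h5
      calc C q (i + 1) = a + G * cA q (i + 1) + M * Sl cX q (i + 1) := rfl
        _ ≤ a + G * (a + A * (a + B * cA q i + s) + s) + s := by
            have := Nat.mul_le_mul_left G h4
            omega
        _ = a * (1 + G * (1 + A)) + s * (1 + G * (1 + A)) + A * B * (G * cA q i) := by ring
        _ ≤ a * (1 + G * (1 + A)) + M * (1 + G * (1 + A)) * Sl C q (i + 1) + A * B * C q i := by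
            have : s * (1 + G * (1 + A)) = M * (1 + G * (1 + A)) * Sl C q (i + 1) := by
              rw [hs]; ring
            omega)
  intro q hq i hi
  exact (hXC q hq i hi).trans (hrec q hq i hi)

/-- the same with powers of two -/
theorem cost_two (cA cB cX : ℕ → ℕ → ℕ) (a A B G M Q H : ℕ) (hA1 : 1 ≤ A) (hB1 : 1 ≤ B)
    (hA0 : ∀ q < Q, cA q 0 ≤ a + M * Sl cX q 0)
    (hA : ∀ q < Q, ∀ i < H, cA q (i + 1) ≤ a + A * cB q (i + 1) + M * Sl cX q (i + 1))
    (hB : ∀ q < Q, ∀ i < H, cB q (i + 1) ≤ a + B * cA q i + M * Sl cX q (i + 1))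
    (hX : ∀ q < Q, ∀ i ≤ H, cX q i ≤ a + G * cA q i + M * Sl cX q i)
    {N τ m b : ℕ} (h1 : a * (1 + G * (1 + A)) * (H + 1) ≤ 2 ^ τ)
    (h2 : 1 + M * (1 + G * (1 + A)) * (H + 1) ^ 2 ≤ 2 ^ m) (h3 : A * B ≤ 2 ^ b * N) :
    ∀ q < Q, ∀ i ≤ H, cX q i ≤ 2 ^ (τ + q * m + i * b) * N ^ i := by
  intro q hq i hi
  refine (cost_closed cA cB cX a A B G M Q H hA1 hB1 hA0 hA hB hX q hq i hi).trans ?_
  calc a * (1 + G * (1 + A)) * (i + 1) * (1 + M * (1 + G * (1 + A)) * (H + 1) ^ 2) ^ q *
        (A * B) ^ i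
      ≤ 2 ^ τ * (2 ^ m) ^ q * (2 ^ b * N) ^ i := by
        refine Nat.mul_le_mul (Nat.mul_le_mul ?_ (Nat.pow_le_pow_left h2 q))
          (Nat.pow_le_pow_left h3 i)
        exact (Nat.mul_le_mul_left _ (by omega)).trans h1
    _ = 2 ^ (τ + q * m + i * b) * N ^ i := by
        rw [← pow_mul, mul_pow, ← pow_mul, pow_add, pow_add, mul_comm m q, mul_comm b i]
        ring

end Crest.Agent.R288.WorkC68
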